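import Crest.Agent.R208.NDefs

-- ▼ part R208/N2
section

/-!
R208, block G6 (helper589), part N2: entrywise matrix calculus, fundamental solutions `U, V`
of the Jacobi equation, symplectic relations, the formula `A s t = V t (U s)ᵀ - U t (V s)ᵀ`.
-/

set_option autoImplicit false

open Real Matrix

namespace Crest.Agent.R208.N

section calculus

variable {α β γ : Type*} [Fintype α] [Fintype β] [Fintype γ]

/-- entrywise derivative of a matrix valued function -/
def HD (F : ℝ → Matrix α β ℝ) (F' : Matrix α β ℝ) (t : ℝ) : Prop :=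
  ∀ i j, HasDerivAt (fun t => F t i j) (F' i j) t

omit [Fintype α] [Fintype β] in
lemma HD.const (C : Matrix α β ℝ) (t : ℝ) : HD (fun _ => C) 0 t := by
  intro i j; simpa using hasDerivAt_const t (C i j)

omit [Fintype α] [Fintype β] in
lemma HD.add {F H : ℝ → Matrix α β ℝ} {F' H' : Matrix α β ℝ} {t : ℝ}
    (hF : HD F F' t) (hH : HD H H' t) : HD (fun t => F t + H t) (F' + H') t := by
  intro i j; exact (hF i j).add (hH i j)

omit [Fintype α] [Fintype β] in
lemma HD.sub {F H : ℝ → Matrix α β ℝ} {F' H' : Matrix α β ℝ} {t : ℝ}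
    (hF : HD F F' t) (hH : HD H H' t) : HD (fun t => F t - H t) (F' - H') t := by
  intro i j; exact (hF i j).sub (hH i j)

omit [Fintype α] [Fintype β] in
lemma HD.neg {F : ℝ → Matrix α β ℝ} {F' : Matrix α β ℝ} {t : ℝ}
    (hF : HD F F' t) : HD (fun t => - F t) (- F') t := by
  intro i j; exact (hF i j).neg

omit [Fintype α] [Fintype β] in
lemma HD.smul {F : ℝ → Matrix α β ℝ} {F' : Matrix α β ℝ} {t : ℝ} {c : ℝ → ℝ} {c' : ℝ}
    (hc : HasDerivAt c c' t) (hF : HD F F' t) :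
    HD (fun t => c t • F t) (c' • F t + c t • F') t := by
  intro i j
  show HasDerivAt (fun t => c t * F t i j) (c' * F t i j + c t * F' i j) t
  exact hc.mul (hF i j)

omit [Fintype α] [Fintype γ] in
lemma HD.mul {F : ℝ → Matrix α β ℝ} {H : ℝ → Matrix β γ ℝ} {F' : Matrix α β ℝ}
    {H' : Matrix β γ ℝ} {t : ℝ} (hF : HD F F' t) (hH : HD H H' t) :
    HD (fun t => F t * H t) (F' * H t + F t * H') t := by
  intro i j
  have h : HasDerivAt (fun t => ∑ k, F t i k * H t k j)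
      (∑ k, (F' i k * H t k j + F t i k * H' k j)) t :=
    HasDerivAt.fun_sum fun k _ => (hF i k).mul (hH k j)
  simpa [Matrix.mul_apply, Finset.sum_add_distrib] using h

omit [Fintype α] [Fintype γ] in
lemma HD.const_mul (C : Matrix α β ℝ) {H : ℝ → Matrix β γ ℝ} {H' : Matrix β γ ℝ} {t : ℝ}
    (hH : HD H H' t) : HD (fun t => C * H t) (C * H') t := by
  have := (HD.const C t).mul hH
  simpa using this

omit [Fintype α] [Fintype γ] in
lemma HD.mul_const {F : ℝ → Matrix α β ℝ} {F' : Matrix α β ℝ} {t : ℝ}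
    (hF : HD F F' t) (C : Matrix β γ ℝ) : HD (fun t => F t * C) (F' * C) t := by
  have := hF.mul (HD.const C t)
  simpa using this

omit [Fintype α] [Fintype β] in
lemma HD.transpose {F : ℝ → Matrix α β ℝ} {F' : Matrix α β ℝ} {t : ℝ}
    (hF : HD F F' t) : HD (fun t => (F t)ᵀ) F'ᵀ t := by
  intro i j; exact hF j i

omit [Fintype α] [Fintype β] in
lemma HD.comp_add {F : ℝ → Matrix α β ℝ} {F' : Matrix α β ℝ} {t c : ℝ}
    (hF : HD F F' (t + c)) : HD (fun t => F (t + c)) F' t := by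
  intro i j
  exact (hF i j).comp_add_const t c

omit [Fintype α] [Fintype β] in
lemma HD.continuousAt {F : ℝ → Matrix α β ℝ} {F' : Matrix α β ℝ} {t : ℝ}
    (hF : HD F F' t) : ContinuousAt F t := by
  refine continuousAt_pi.2 fun i => continuousAt_pi.2 fun j => (hF i j).continuousAt

omit [Fintype α] [Fintype β] in
lemma continuous_of_HD {F F' : ℝ → Matrix α β ℝ} (hF : ∀ t, HD F (F' t) t) : Continuous F :=
  continuous_iff_continuousAt.2 fun t => (hF t).continuousAt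

omit [Fintype α] [Fintype β] in
lemma const_of_HD_zero {F : ℝ → Matrix α β ℝ} (hF : ∀ t, HD F 0 t) (s t : ℝ) : F s = F t := by
  ext i j
  refine is_const_of_deriv_eq_zero (fun x => (hF x i j).differentiableAt) (fun x => ?_) s t
  simpa using (hF x i j).deriv

omit [Fintype α] [Fintype β] in
lemma HD.congr_deriv {F : ℝ → Matrix α β ℝ} {F' F'' : Matrix α β ℝ} {t : ℝ}
    (hF : HD F F' t) (h : F' = F'') : HD F F'' t := h ▸ hF

end calculus

namespace JLoop

variable {m a : ℕ} (G : JLoop m a)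

lemma hdA (s t : ℝ) : HD (fun t => G.A s t) (G.At s t) t := fun i j => G.hA s t i j

lemma hdAt (s t : ℝ) : HD (fun t => G.At s t) (-(G.R t * G.A s t)) t := fun i j => G.hAt s t i j

/-- `A (-π/2) 0` inverted -/
noncomputable def c0 : Matrix (Fin m) (Fin m) ℝ := (G.A (-(π / 2)) 0)⁻¹

lemma c0_spec : G.A (-(π / 2)) 0 * G.c0 = 1 := by
  have h : (G.A (-(π / 2)) 0).det ≠ 0 := G.ndeg _ _ (by linarith [pi_pos]) (by linarith [pi_pos])
  exact Matrix.mul_nonsing_inv _ (isUnit_iff_ne_zero.2 h)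

noncomputable def V (t : ℝ) : Matrix (Fin m) (Fin m) ℝ := G.A 0 t
noncomputable def Vd (t : ℝ) : Matrix (Fin m) (Fin m) ℝ := G.At 0 t
noncomputable def U (t : ℝ) : Matrix (Fin m) (Fin m) ℝ :=
  G.A (-(π / 2)) t * G.c0 - G.A 0 t * (G.At (-(π / 2)) 0 * G.c0)
noncomputable def Ud (t : ℝ) : Matrix (Fin m) (Fin m) ℝ :=
  G.At (-(π / 2)) t * G.c0 - G.At 0 t * (G.At (-(π / 2)) 0 * G.c0)

lemma V_zero : G.V 0 = 0 := G.A_diag 0
lemma Vd_zero : G.Vd 0 = 1 := G.At_diag 0
lemma U_zero : G.U 0 = 1 := by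
  simp [U, G.A_diag, G.c0_spec]
lemma Ud_zero : G.Ud 0 = 0 := by
  simp [Ud, G.At_diag]

lemma hV (t : ℝ) : HD G.V (G.Vd t) t := G.hdA 0 t
lemma hVd (t : ℝ) : HD G.Vd (-(G.R t * G.V t)) t := G.hdAt 0 t
lemma hU (t : ℝ) : HD G.U (G.Ud t) t :=
  ((G.hdA _ t).mul_const _).sub ((G.hdA _ t).mul_const _)
lemma hUd (t : ℝ) : HD G.Ud (-(G.R t * G.U t)) t := by
  refine (((G.hdAt _ t).mul_const _).sub ((G.hdAt _ t).mul_const _)).congr_deriv ?_
  simp only [U]
  noncomm_ring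

/-- the Wronskian of two solutions is constant -/
lemma wronsk_const {β γ : Type*} [Fintype β] [Fintype γ]
    {F Fd : ℝ → Matrix (Fin m) β ℝ} {H Hd : ℝ → Matrix (Fin m) γ ℝ}
    (hF : ∀ t, HD F (Fd t) t) (hFd : ∀ t, HD Fd (-(G.R t * F t)) t)
    (hH : ∀ t, HD H (Hd t) t) (hHd : ∀ t, HD Hd (-(G.R t * H t)) t) (s t : ℝ) :
    (F s)ᵀ * Hd s - (Fd s)ᵀ * H s = (F t)ᵀ * Hd t - (Fd t)ᵀ * H t := by
  refine const_of_HD_zero (F := fun t => (F t)ᵀ * Hd t - (Fd t)ᵀ * H t) (fun x => ?_) s t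
  have h := ((hF x).transpose.mul (hHd x)).sub ((hFd x).transpose.mul (hH x))
  refine h.congr_deriv ?_
  have e : (-(G.R x * F x))ᵀ * H x = -((F x)ᵀ * (G.R x * H x)) := by
    rw [transpose_neg, transpose_mul, G.R_symm, Matrix.neg_mul, Matrix.mul_assoc]
  rw [e, Matrix.mul_neg]
  abel

lemma w_UU (t : ℝ) : (G.U t)ᵀ * G.Ud t = (G.Ud t)ᵀ * G.U t := by
  have h := G.wronsk_const G.hU G.hUd G.hU G.hUd t 0
  rw [G.Ud_zero, G.U_zero] at h
  simpa [sub_eq_zero] using h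

lemma w_VV (t : ℝ) : (G.V t)ᵀ * G.Vd t = (G.Vd t)ᵀ * G.V t := by
  have h := G.wronsk_const G.hV G.hVd G.hV G.hVd t 0
  rw [G.V_zero] at h
  simpa [sub_eq_zero] using h

lemma w_UV (t : ℝ) : (G.U t)ᵀ * G.Vd t - (G.Ud t)ᵀ * G.V t = 1 := by
  have h := G.wronsk_const G.hU G.hUd G.hV G.hVd t 0
  rw [G.V_zero, G.Vd_zero, G.Ud_zero, G.U_zero] at h
  simpa using h

lemma w_VU (t : ℝ) : (G.Vd t)ᵀ * G.U t - (G.V t)ᵀ * G.Ud t = 1 := by
  have h := congrArg Matrix.transpose (G.w_UV t)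
  simpa [transpose_sub, transpose_mul] using h

/-- second family of symplectic relations -/
lemma sympl (t : ℝ) :
    G.U t * (G.Vd t)ᵀ - G.V t * (G.Ud t)ᵀ = 1 ∧ G.U t * (G.V t)ᵀ = G.V t * (G.U t)ᵀ ∧
      G.Ud t * (G.Vd t)ᵀ = G.Vd t * (G.Ud t)ᵀ ∧ G.Vd t * (G.U t)ᵀ - G.Ud t * (G.V t)ᵀ = 1 := by
  have h1 : fromBlocks (G.Vd t)ᵀ (-(G.V t)ᵀ) (-(G.Ud t)ᵀ) (G.U t)ᵀ *
      fromBlocks (G.U t) (G.V t) (G.Ud t) (G.Vd t) = 1 := by
    rw [fromBlocks_multiply, ← fromBlocks_one]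
    congr 1
    · rw [Matrix.neg_mul, ← sub_eq_add_neg]; exact G.w_VU t
    · rw [Matrix.neg_mul, ← sub_eq_add_neg, sub_eq_zero]; exact (G.w_VV t).symm
    · rw [Matrix.neg_mul, neg_add_eq_sub, sub_eq_zero]; exact G.w_UU t
    · rw [Matrix.neg_mul, neg_add_eq_sub]; exact G.w_UV t
  have h2 := mul_eq_one_comm.1 h1
  rw [fromBlocks_multiply, ← fromBlocks_one, fromBlocks_inj] at h2
  obtain ⟨a1, a2, a3, a4⟩ := h2
  refine ⟨?_, ?_, ?_, ?_⟩
  · rw [← a1, Matrix.mul_neg, sub_eq_add_neg]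
  · rw [Matrix.mul_neg, neg_add_eq_sub, sub_eq_zero] at a2; exact a2.symm
  · rw [Matrix.mul_neg, ← sub_eq_add_neg, sub_eq_zero] at a3; exact a3
  · rw [Matrix.mul_neg, neg_add_eq_sub] at a4; exact a4

/-- uniqueness for the Jacobi equation -/
lemma unique {β : Type*} [Fintype β] {W Wd : ℝ → Matrix (Fin m) β ℝ}
    (hW : ∀ t, HD W (Wd t) t) (hWd : ∀ t, HD Wd (-(G.R t * W t)) t) {s : ℝ}
    (h0 : W s = 0) (h0' : Wd s = 0) (t : ℝ) : W t = 0 := by
  have h1 := G.wronsk_const G.hV G.hVd hW hWd t s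
  have h2 := G.wronsk_const G.hU G.hUd hW hWd t s
  rw [h0, h0'] at h1 h2
  simp only [Matrix.mul_zero, sub_zero] at h1 h2
  obtain ⟨a1, a2, -, -⟩ := G.sympl t
  have : W t = (G.U t * (G.Vd t)ᵀ - G.V t * (G.Ud t)ᵀ) * W t
      + (-(G.U t * (G.V t)ᵀ) + G.V t * (G.U t)ᵀ) * Wd t := by
    rw [a1, a2]; simp
  rw [this]
  have e : (G.U t * (G.Vd t)ᵀ - G.V t * (G.Ud t)ᵀ) * W t
      + (-(G.U t * (G.V t)ᵀ) + G.V t * (G.U t)ᵀ) * Wd t =
      -(G.U t * ((G.V t)ᵀ * Wd t - (G.Vd t)ᵀ * W t))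
        + G.V t * ((G.U t)ᵀ * Wd t - (G.Ud t)ᵀ * W t) := by
    simp only [Matrix.sub_mul, Matrix.add_mul, Matrix.neg_mul, Matrix.mul_sub, Matrix.mul_assoc]
    abel
  rw [e, h1, h2]; simp

/-- `∂_s A` -/
noncomputable def As (s t : ℝ) : Matrix (Fin m) (Fin m) ℝ :=
  G.V t * (G.Ud s)ᵀ - G.U t * (G.Vd s)ᵀ
/-- `∂_s ∂_t A` -/
noncomputable def Ast (s t : ℝ) : Matrix (Fin m) (Fin m) ℝ :=
  G.Vd t * (G.Ud s)ᵀ - G.Ud t * (G.Vd s)ᵀ

lemma A_eq (s t : ℝ) : G.A s t = G.V t * (G.U s)ᵀ - G.U t * (G.V s)ᵀ := by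
  have hW : ∀ t, HD (fun t => G.A s t - (G.V t * (G.U s)ᵀ - G.U t * (G.V s)ᵀ))
      (G.At s t - (G.Vd t * (G.U s)ᵀ - G.Ud t * (G.V s)ᵀ)) t := fun t =>
    (G.hdA s t).sub (((G.hV t).mul_const _).sub ((G.hU t).mul_const _))
  have hWd : ∀ t, HD (fun t => G.At s t - (G.Vd t * (G.U s)ᵀ - G.Ud t * (G.V s)ᵀ))
      (-(G.R t * (G.A s t - (G.V t * (G.U s)ᵀ - G.U t * (G.V s)ᵀ)))) t := fun t => by
    refine ((G.hdAt s t).sub (((G.hVd t).mul_const _).sub ((G.hUd t).mul_const _))).congr_deriv ?_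
    noncomm_ring
  have h := G.unique hW hWd (s := s) ?_ ?_ t
  · exact sub_eq_zero.1 h
  · have := (G.sympl s).2.1
    simp [G.A_diag, this]
  · have := (G.sympl s).2.2.2
    simp [G.At_diag, this]

lemma At_eq (s t : ℝ) : G.At s t = G.Vd t * (G.U s)ᵀ - G.Ud t * (G.V s)ᵀ := by
  have h1 := G.hdA s t
  have h2 : HD (fun t => G.A s t) (G.Vd t * (G.U s)ᵀ - G.Ud t * (G.V s)ᵀ) t := by
    have h := ((G.hV t).mul_const (G.U s)ᵀ).sub ((G.hU t).mul_const (G.V s)ᵀ)
    have e : (fun t => G.A s t) = fun t => G.V t * (G.U s)ᵀ - G.U t * (G.V s)ᵀ := by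
      funext x; exact G.A_eq s x
    rw [e]; exact h
  ext i j
  exact (h1 i j).unique (h2 i j)

lemma A_transpose (s t : ℝ) : (G.A s t)ᵀ = - G.A t s := by
  rw [G.A_eq, G.A_eq]
  simp only [transpose_sub, transpose_mul, transpose_transpose]
  abel

lemma hAs (s t : ℝ) : HD (fun s => G.A s t) (G.As s t) s := by
  have h := ((G.hU s).transpose.const_mul (G.V t)).sub ((G.hV s).transpose.const_mul (G.U t))
  have e : (fun s => G.A s t) = fun s => G.V t * (G.U s)ᵀ - G.U t * (G.V s)ᵀ := by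
    funext x; exact G.A_eq x t
  rw [e]; exact h

lemma hAts (s t : ℝ) : HD (fun s => G.At s t) (G.Ast s t) s := by
  have h := ((G.hU s).transpose.const_mul (G.Vd t)).sub ((G.hV s).transpose.const_mul (G.Ud t))
  have e : (fun s => G.At s t) = fun s => G.Vd t * (G.U s)ᵀ - G.Ud t * (G.V s)ᵀ := by
    funext x; exact G.At_eq x t
  rw [e]; exact h

lemma hAst (s t : ℝ) : HD (fun t => G.As s t) (G.Ast s t) t :=
  ((G.hV t).mul_const _).sub ((G.hU t).mul_const _)

lemma hAst' (s t : ℝ) : HD (fun t => G.Ast s t) (-(G.R t * G.As s t)) t := by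
  refine (((G.hVd t).mul_const _).sub ((G.hUd t).mul_const _)).congr_deriv ?_
  simp only [As]; noncomm_ring

lemma A_symm1 (s t : ℝ) : (G.A s t)ᵀ * G.At s t = (G.At s t)ᵀ * G.A s t := by
  have h := G.wronsk_const (G.hdA s) (G.hdAt s) (G.hdA s) (G.hdAt s) t s
  rw [G.A_diag] at h
  simpa [sub_eq_zero] using h

lemma A_rel (s t : ℝ) : (G.Ast s t)ᵀ * G.A s t - (G.As s t)ᵀ * G.At s t = 1 := by
  have h := G.wronsk_const (G.hAst s) (G.hAst' s) (G.hdA s) (G.hdAt s) t s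
  rw [G.A_diag, G.At_diag] at h
  have e : G.As s s = -1 := by
    have h4 := (G.sympl s).1
    rw [As, ← h4]; abel
  rw [e] at h
  simp only [Matrix.mul_zero, Matrix.mul_one, sub_zero, transpose_neg, transpose_one] at h
  rw [← neg_inj, neg_sub]
  exact h

/-- the matrix Liouville identity -/
lemma Ast_eq {s t : ℝ} (h : (G.A s t).det ≠ 0) :
    G.Ast s t = G.At s t * (G.A s t)⁻¹ * G.As s t + ((G.A s t)⁻¹)ᵀ := by
  have hu : IsUnit (G.A s t).det := isUnit_iff_ne_zero.2 h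
  have h1 := G.A_rel s t
  have h2 := G.A_symm1 s t
  -- A⁻ᵀ Atᵀ = At A⁻¹
  have h3 : ((G.A s t)⁻¹)ᵀ * (G.At s t)ᵀ = G.At s t * (G.A s t)⁻¹ := by
    have e : (G.A s t)⁻¹ᵀ * ((G.At s t)ᵀ * G.A s t) * (G.A s t)⁻¹ =
        (G.A s t)⁻¹ᵀ * ((G.A s t)ᵀ * G.At s t) * (G.A s t)⁻¹ := by rw [h2]
    rw [Matrix.mul_assoc, Matrix.mul_assoc, Matrix.mul_nonsing_inv _ hu, Matrix.mul_one] at e
    rw [e, ← Matrix.mul_assoc, ← transpose_mul, Matrix.mul_nonsing_inv _ hu, transpose_one,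
      Matrix.one_mul]
  have h4 : (G.Ast s t)ᵀ = (G.As s t)ᵀ * (G.At s t * (G.A s t)⁻¹) + (G.A s t)⁻¹ := by
    have e : (G.Ast s t)ᵀ * G.A s t = 1 + (G.As s t)ᵀ * G.At s t := by rw [← h1]; abel
    have e2 := congrArg (fun M => M * (G.A s t)⁻¹) e
    rw [Matrix.mul_assoc, Matrix.mul_nonsing_inv _ hu, Matrix.mul_one, Matrix.add_mul,
      Matrix.one_mul, Matrix.mul_assoc] at e2
    rw [e2]; abel
  have h5 := congrArg Matrix.transpose h4
  rw [transpose_transpose, transpose_add, transpose_mul, transpose_transpose, ← h3,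
    transpose_mul, transpose_transpose, transpose_transpose] at h5
  rw [h5]

/-! periodicity -/

lemma Q_orth' : G.Q * (G.Q)ᵀ = 1 := mul_eq_one_comm.1 G.Q_orth

lemma V_per (t : ℝ) : G.V (t + 2 * π) = G.Q * G.V t := G.per 0 t

lemma At_per (s t : ℝ) : G.At s (t + 2 * π) = G.Q * G.At s t := by
  have h1 : HD (fun t => G.A s (t + 2 * π)) (G.At s (t + 2 * π)) t :=
    HD.comp_add (F := fun t => G.A s t) (G.hdA s (t + 2 * π))
  have h2 : HD (fun t => G.A s (t + 2 * π)) (G.Q * G.At s t) t := by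
    have e : (fun t => G.A s (t + 2 * π)) = fun t => G.Q * G.A s t := by
      funext x; exact G.per s x
    rw [e]; exact (G.hdA s t).const_mul _
  ext i j
  exact (h1 i j).unique (h2 i j)

lemma Vd_per (t : ℝ) : G.Vd (t + 2 * π) = G.Q * G.Vd t := G.At_per 0 t

lemma U_per (t : ℝ) : G.U (t + 2 * π) = G.Q * G.U t := by
  simp only [U, G.per, Matrix.mul_sub, Matrix.mul_assoc]


lemma A_per1 (s t : ℝ) : G.A (s + 2 * π) t = G.A s t * (G.Q)ᵀ := by
  have h := G.A_transpose t (s + 2 * π)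
  have h' := G.A_transpose t s
  rw [G.per] at h
  have e : G.A (s + 2 * π) t = -(G.Q * G.A t s)ᵀ := by rw [h, neg_neg]
  rw [e, transpose_mul, h', Matrix.neg_mul, neg_neg]

lemma abs_det_Q : |G.Q.det| = 1 := by
  have h := congrArg Matrix.det G.Q_orth
  rw [det_mul, det_transpose, det_one] at h
  have : |G.Q.det| * |G.Q.det| = 1 := by rw [← abs_mul, h, abs_one]
  nlinarith [abs_nonneg G.Q.det]

lemma abs_det_A_per (s t : ℝ) : |(G.A s (t + 2 * π)).det| = |(G.A s t).det| := by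
  rw [G.per, det_mul, abs_mul, G.abs_det_Q, one_mul]

lemma abs_det_A_per1 (s t : ℝ) : |(G.A (s + 2 * π) t).det| = |(G.A s t).det| := by
  rw [G.A_per1, det_mul, abs_mul, det_transpose, G.abs_det_Q, mul_one]

lemma abs_det_A_symm (s t : ℝ) : |(G.A s t).det| = |(G.A t s).det| := by
  rw [← det_transpose, G.A_transpose, det_neg, abs_mul]
  simp

lemma det_ne {s t : ℝ} (h0 : 0 < t - s) (h2 : t - s < 2 * π) (h1 : t - s ≠ π) :
    (G.A s t).det ≠ 0 := by
  rcases lt_or_gt_of_ne h1 with h | h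
  · exact G.ndeg s t h0 h
  · have h3 := G.ndeg (t - 2 * π) s (by linarith) (by linarith)
    rw [← abs_ne_zero, ← G.abs_det_A_per1 (t - 2 * π), sub_add_cancel] at h3
    rw [← abs_ne_zero, G.abs_det_A_symm]
    exact h3

end JLoop

end Crest.Agent.R208.N
end

-- ▼ part R208/N3

/-!
R208, block G6 (helper589), part N3: derivative of determinants and inverses (entrywise calculus).
(The Jacobi formula is adapted from R236/MPMat.lean.)
-/

set_option autoImplicit false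

open Real Matrix

namespace Crest.Agent.R208.N

variable {ι : Type*} [Fintype ι] [DecidableEq ι]

section jacobi

attribute [local instance] Matrix.normedAddCommGroup Matrix.normedSpace

theorem hasDerivAt_matrix {A : ℝ → Matrix ι ι ℝ} {A' : Matrix ι ι ℝ}
    {t : ℝ} (h : HD A A' t) : HasDerivAt A A' t :=
  hasDerivAt_pi.2 fun i => hasDerivAt_pi.2 fun j => h i j

omit [DecidableEq ι] in
theorem hasFDerivAt_entry (i j : ι) (A : Matrix ι ι ℝ) :
    ∃ L : Matrix ι ι ℝ →L[ℝ] ℝ, HasFDerivAt (fun B : Matrix ι ι ℝ => B i j)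
      L A := by
  have h1 : HasFDerivAt (fun B : Matrix ι ι ℝ => (B i : ι → ℝ))
      (ContinuousLinearMap.proj (R := ℝ) (φ := fun _ : ι => ι → ℝ) i) A :=
    (ContinuousLinearMap.proj (R := ℝ) (φ := fun _ : ι => ι → ℝ) i).hasFDerivAt
  have h2 : HasFDerivAt (fun r : ι → ℝ => r j)
      (ContinuousLinearMap.proj (R := ℝ) (φ := fun _ : ι => ℝ) j) (A i) :=
    (ContinuousLinearMap.proj (R := ℝ) (φ := fun _ : ι => ℝ) j).hasFDerivAt
  exact ⟨_, (h2.comp A h1 : HasFDerivAt ((fun r : ι → ℝ => r j) ∘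
    (fun B : Matrix ι ι ℝ => (B i : ι → ℝ))) _ A)⟩

theorem differentiableAt_det (A : Matrix ι ι ℝ) :
    DifferentiableAt ℝ (fun B : Matrix ι ι ℝ => B.det) A := by
  simp only [Matrix.det_apply]
  refine DifferentiableAt.fun_sum fun σ _ => ?_
  refine DifferentiableAt.fun_const_smul ?_ _
  choose L hL using fun (i : ι) => hasFDerivAt_entry (σ i) i A
  exact (HasFDerivAt.finsetProd (u := Finset.univ)
    (g := fun i (B : Matrix ι ι ℝ) => B (σ i) i)
    (x := A) (fun i _ => hL i)).differentiableAt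

theorem hasDerivAt_det_one_add (B : Matrix ι ι ℝ) :
    HasDerivAt (fun t : ℝ => (1 + t • B).det) B.trace 0 := by
  have h : ∀ t : ℝ, (1 + t • B).det = 1 + B.trace * t
      + (((1 : Matrix ι ι (Polynomial ℝ)) + (Polynomial.X : Polynomial ℝ) •
        B.map Polynomial.C).det.divX.divX.eval t) * t ^ 2 := by
    intro t; exact Matrix.det_one_add_smul _ _
  simp only [h]
  have h0 : HasDerivAt (fun t : ℝ => t) 1 0 := hasDerivAt_id 0
  have h1 := (((1 : Matrix ι ι (Polynomial ℝ)) + (Polynomial.X : Polynomial ℝ) •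
        B.map Polynomial.C).det.divX.divX).hasDerivAt (0 : ℝ)
  have h2 := ((h0.const_mul B.trace).const_add 1).add (h1.mul (h0.pow 2))
  refine h2.congr_deriv ?_
  simp

theorem differentiableAt_det_comp {A : ℝ → Matrix ι ι ℝ} {A' : Matrix ι ι ℝ} {x : ℝ}
    (hA : HD A A' x) : DifferentiableAt ℝ (fun t => (A t).det) x :=
  ((differentiableAt_det (A x)).hasFDerivAt.comp_hasDerivAt x
    (hasDerivAt_matrix hA)).differentiableAt

theorem hasDerivAt_det {A : ℝ → Matrix ι ι ℝ} {A' : Matrix ι ι ℝ} {x : ℝ}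
    (hA : HD A A' x) (hd : IsUnit (A x).det) :
    HasDerivAt (fun t => (A t).det) ((A x).det * ((A x)⁻¹ * A').trace) x := by
  have hA' := hasDerivAt_matrix hA
  have h1 := (differentiableAt_det (A x)).hasFDerivAt
  have h2 := h1.comp_hasDerivAt x hA'
  refine h2.congr_deriv ?_
  -- compute the directional derivative along a line
  have h3 : HasDerivAt (fun t : ℝ => A x + t • A') A' 0 := by
    have := ((hasDerivAt_id (0 : ℝ)).smul_const A').const_add (A x)
    rw [one_smul] at this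
    exact this
  have h4 : HasFDerivAt (fun B : Matrix ι ι ℝ => B.det)
      (fderiv ℝ (fun B : Matrix ι ι ℝ => B.det) (A x)) (A x + (0 : ℝ) • A') := by
    simpa using h1
  have h5 := h4.comp_hasDerivAt (0 : ℝ) h3
  have h6 : ((fun B : Matrix ι ι ℝ => B.det) ∘ fun t : ℝ => A x + t • A')
      = fun t : ℝ => (A x).det * (1 + t • ((A x)⁻¹ * A')).det := by
    ext t
    simp only [Function.comp]
    rw [← Matrix.det_mul, Matrix.mul_add, Matrix.mul_one, Matrix.mul_smul, ← Matrix.mul_assoc,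
      Matrix.mul_nonsing_inv _ hd, Matrix.one_mul]
  rw [h6] at h5
  have h7 := (hasDerivAt_det_one_add ((A x)⁻¹ * A')).const_mul (A x).det
  exact h5.unique h7

end jacobi

/-- derivative of `log |det|` -/
theorem hasDerivAt_log_det {A : ℝ → Matrix ι ι ℝ} {A' : Matrix ι ι ℝ} {x : ℝ}
    (hA : HD A A' x) (hd : (A x).det ≠ 0) :
    HasDerivAt (fun t => Real.log |(A t).det|) ((A x)⁻¹ * A').trace x := by
  have h := (hasDerivAt_det hA (isUnit_iff_ne_zero.2 hd)).log hd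
  simp only [Real.log_abs]
  refine h.congr_deriv ?_
  field_simp

/-- entries of the inverse are differentiable -/
theorem exists_HD_inv {A : ℝ → Matrix ι ι ℝ} {A' : Matrix ι ι ℝ} {x : ℝ}
    (hA : HD A A' x) (hd : (A x).det ≠ 0) : ∃ B', HD (fun t => (A t)⁻¹) B' x := by
  have h : ∀ i j, DifferentiableAt ℝ (fun t => (A t)⁻¹ i j) x := by
    intro i j
    have e : (fun t => (A t)⁻¹ i j) =
        fun t => ((A t).det)⁻¹ * ((A t).updateRow j (Pi.single i 1)).det := by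
      funext t
      rw [Matrix.inv_def, Matrix.smul_apply, Ring.inverse_eq_inv', Matrix.adjugate_apply,
        smul_eq_mul]
    rw [e]
    refine ((differentiableAt_det_comp hA).inv hd).mul ?_
    have h2 : HD (fun t => (A t).updateRow j (Pi.single i 1)) (A'.updateRow j 0) x := by
      intro k l
      by_cases hk : k = j
      · subst hk
        simpa using hasDerivAt_const x ((Pi.single i (1 : ℝ) : ι → ℝ) l)
      · simpa [Matrix.updateRow_ne hk] using hA k l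
    exact differentiableAt_det_comp h2
  refine ⟨fun i j => deriv (fun t => (A t)⁻¹ i j) x, fun i j => (h i j).hasDerivAt⟩

theorem eventually_det_ne {A : ℝ → Matrix ι ι ℝ} {x : ℝ} (hA : ContinuousAt A x)
    (hd : (A x).det ≠ 0) : ∀ᶠ t in nhds x, (A t).det ≠ 0 := by
  have h : ContinuousAt (fun t => (A t).det) x :=
    (Continuous.matrix_det continuous_id).continuousAt.comp hA
  exact h.eventually_ne hd

/-- derivative of the inverse -/
theorem HD.inv {A : ℝ → Matrix ι ι ℝ} {A' : Matrix ι ι ℝ} {x : ℝ}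
    (hA : HD A A' x) (hd : (A x).det ≠ 0) :
    HD (fun t => (A t)⁻¹) (-((A x)⁻¹ * A' * (A x)⁻¹)) x := by
  obtain ⟨B', hB⟩ := exists_HD_inv hA hd
  have hu : IsUnit (A x).det := isUnit_iff_ne_zero.2 hd
  have h1 := hA.mul hB
  have h2 : HD (fun t => A t * (A t)⁻¹) 0 x := by
    intro i j
    have e : (fun t => (A t * (A t)⁻¹) i j) =ᶠ[nhds x] fun _ => (1 : Matrix ι ι ℝ) i j := by
      filter_upwards [eventually_det_ne hA.continuousAt hd] with t ht
      rw [Matrix.mul_nonsing_inv _ (isUnit_iff_ne_zero.2 ht)]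
    exact (hasDerivAt_const x _).congr_of_eventuallyEq e
  have h3 : A' * (A x)⁻¹ + A x * B' = 0 := by
    ext i j; exact (h1 i j).unique (h2 i j)
  refine hB.congr_deriv ?_
  have h4 : (A x)⁻¹ * (A' * (A x)⁻¹ + A x * B') = 0 := by rw [h3, Matrix.mul_zero]
  rw [Matrix.mul_add, ← Matrix.mul_assoc (A x)⁻¹ (A x), Matrix.nonsing_inv_mul _ hu,
    Matrix.one_mul, ← Matrix.mul_assoc] at h4
  exact (neg_eq_of_add_eq_zero_right h4).symm

theorem HD.trace {A : ℝ → Matrix ι ι ℝ} {A' : Matrix ι ι ℝ} {x : ℝ}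
    (hA : HD A A' x) : HasDerivAt (fun t => (A t).trace) A'.trace x := by
  simp only [Matrix.trace, Matrix.diag]
  exact HasDerivAt.fun_sum fun i _ => hA i i

theorem continuousAt_inv' {X : Type*} [TopologicalSpace X] {A : X → Matrix ι ι ℝ} {x : X}
    (hA : ContinuousAt A x) (hd : (A x).det ≠ 0) : ContinuousAt (fun t => (A t)⁻¹) x := by
  have h : ContinuousAt (fun t => (A t).det) x :=
    (Continuous.matrix_det continuous_id).continuousAt.comp hA
  have h2 : ContinuousAt (fun t => (A t).adjugate) x :=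
    (Continuous.matrix_adjugate continuous_id).continuousAt.comp hA
  have e : (fun t => (A t)⁻¹) = fun t => ((A t).det)⁻¹ • (A t).adjugate := by
    funext t; rw [Matrix.inv_def, Ring.inverse_eq_inv']
  rw [e]
  exact (h.inv₀ hd).smul h2

end Crest.Agent.R208.N
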