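import Crest.Agent.R208.G2

-- ▼ part R208/G2b
section

/-!
R208, block G2b (helper882): the intrinsic distance is locally comparable with the chord, on a
compact connected submanifold it is a finite metric inducing the topology; the intrinsic distance
of the end points of any curve is at most its (ambient) length.
-/

set_option autoImplicit false

open Set Filter Topology MeasureTheory
open scoped ContDiff RealInnerProductSpace
open Crest.GeometryTopology.Submanifold
open Crest.Agent.R241.DDefs Crest.Agent.R241.D Crest.Agent.R241.D2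

noncomputable section

namespace Crest.Agent.R208

variable {n N : ℕ} {κ : ℝ} {S : Set (Euc N)}

/-- injective linear maps are bounded below -/
theorem exists_pos_le_norm {A : Euc n →L[ℝ] Euc N} (hA : Function.Injective A) :
    ∃ c : ℝ, 0 < c ∧ ∀ v, c * ‖v‖ ≤ ‖A v‖ := by
  have hker : LinearMap.ker (A : Euc n →ₗ[ℝ] Euc N) = ⊥ := LinearMap.ker_eq_bot.2 hA
  obtain ⟨K, hK, hKA⟩ := A.exists_antilipschitzWith hker
  refine ⟨(K : ℝ)⁻¹, by positivity, fun v => ?_⟩
  have h1 : ‖v‖ ≤ K * ‖A v‖ := hKA.le_mul_norm (map_zero _) v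
  rw [inv_mul_le_iff₀ (by exact_mod_cast hK)]
  exact h1

/-- local comparison of the intrinsic distance with the chord -/
theorem local_joinedLen (hS : IsSubmanifold n N S) {x₀ : Euc N} (hx₀ : x₀ ∈ S) {ε : ℝ}
    (hε : 0 < ε) : ∃ δ > 0, ∀ x ∈ S, ∀ y ∈ S, dist x x₀ < δ → dist y x₀ < δ →
      ∃ ℓ, JoinedLen S x y ℓ ∧ ℓ ≤ (1 + ε) * ‖y - x‖ := by
  obtain ⟨f, V, hf⟩ := hS x₀ hx₀
  obtain ⟨O, ℓc, hO, hxO, hℓ, hℓV, hℓ0, hinv⟩ := exists_coord hf hf.zero_mem
  rw [hf.map_zero] at hxO hℓ0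
  obtain ⟨c, hc, hcA⟩ := exists_pos_le_norm (hf.injective_fderiv 0 hf.zero_mem)
  set A := fderiv ℝ f 0 with hA
  set η : ℝ := min (c / 2) (c * ε / 4) with hη
  have hη0 : 0 < η := lt_min (by positivity) (by positivity)
  have hcd : ∀ z ∈ V, ContDiffAt ℝ ∞ f z := fun z hz =>
    hf.contDiffOn.contDiffAt (hf.isOpen.mem_nhds hz)
  have hstrict : HasStrictFDerivAt f A 0 := (hcd 0 hf.zero_mem).hasStrictFDerivAt (by simp)
  have hsl := hstrict.isLittleO.def hη0
  have hcontd : ContinuousAt (fderiv ℝ f) 0 :=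
    ((hcd 0 hf.zero_mem).fderiv_right (m := ∞) (by simp)).continuousAt
  have hnb : ∀ᶠ z in 𝓝 (0 : Euc n), z ∈ V ∧ ‖fderiv ℝ f z - A‖ < η := by
    have := (Metric.continuousAt_iff'.1 hcontd) η hη0
    filter_upwards [this, hf.isOpen.mem_nhds hf.zero_mem] with z hz hzV
    rw [dist_eq_norm] at hz
    exact ⟨hzV, hz⟩
  rw [nhds_prod_eq] at hsl
  obtain ⟨u, hu, hsl⟩ := Filter.eventually_prod_self_iff'.1 hsl
  obtain ⟨r, hr, hball⟩ := Metric.nhds_basis_ball.mem_iff.1 (Filter.inter_mem hu hnb)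
  -- coordinates close to `0`
  have hℓcont : ContinuousAt ℓc x₀ := (hℓ.contDiffAt (hO.mem_nhds hxO)).continuousAt
  have hev : ∀ᶠ q in 𝓝 x₀, q ∈ O ∧ ℓc q ∈ Metric.ball (0 : Euc n) r := by
    have h1 : Metric.ball (0 : Euc n) r ∈ 𝓝 (ℓc x₀) := by
      rw [hℓ0]
      exact Metric.ball_mem_nhds 0 hr
    filter_upwards [hO.mem_nhds hxO, hℓcont.eventually h1] with q hq1 hq2 using ⟨hq1, hq2⟩
  obtain ⟨δ, hδ, hδb⟩ := Metric.eventually_nhds_iff.1 hev
  refine ⟨δ, hδ, fun x hx y hy hxδ hyδ => ?_⟩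
  obtain ⟨hxO', hxr⟩ := hδb hxδ
  obtain ⟨hyO', hyr⟩ := hδb hyδ
  set a := ℓc x with ha
  set b := ℓc y with hb
  have hfa : f a = x := hinv x hxO' hx
  have hfb : f b = y := hinv y hyO' hy
  have hseg : ∀ t : ℝ, a + stp t • (b - a) ∈ Metric.ball (0 : Euc n) r := by
    intro t
    have := (convex_ball (0 : Euc n) r).add_smul_sub_mem hxr hyr (stp_mem t)
    exact this
  have hγd : ∀ t, HasDerivAt (fun t => f (a + stp t • (b - a)))
      (fderiv ℝ f (a + stp t • (b - a)) (deriv stp t • (b - a))) t := by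
    intro t
    have h1 : HasDerivAt (fun t => a + stp t • (b - a)) (deriv stp t • (b - a)) t :=
      (((stp_contDiff.differentiable (by simp) t).hasDerivAt).smul_const (b - a)).const_add a
    have h2 := ((hcd _ (hball (hseg t)).2.1).differentiableAt (by simp)).hasFDerivAt
    exact h2.comp_hasDerivAt t h1
  have hsm : ContDiff ℝ ∞ (fun t => f (a + stp t • (b - a))) := by
    rw [contDiff_iff_contDiffAt]
    intro t
    refine ContDiffAt.comp t (hcd _ (hball (hseg t)).2.1) ?_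
    exact (contDiff_const.add (stp_contDiff.smul contDiff_const)).contDiffAt
  refine ⟨_, ⟨fun t => f (a + stp t • (b - a)), ⟨hsm, fun t => mem_S hf (hball (hseg t)).2.1⟩,
    ?_, ?_, rfl⟩, ?_⟩
  · simp only [stp_zero (show (0 : ℝ) ≤ 1 / 3 by norm_num), zero_smul, add_zero, hfa]
  · simp only [stp_one (show (2 / 3 : ℝ) ≤ 1 by norm_num), one_smul, add_sub_cancel, hfb]
  · set C : ℝ := ‖A (b - a)‖ + η * ‖b - a‖ with hC
    have hlen : curveLength (fun t => f (a + stp t • (b - a))) ≤ C := by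
      have h1 : ∀ t, ‖deriv (fun t => f (a + stp t • (b - a))) t‖ ≤ C * deriv stp t := by
        intro t
        rw [(hγd t).deriv, map_smul, norm_smul, Real.norm_eq_abs,
          abs_of_nonneg stp_mono.deriv_nonneg, mul_comm]
        refine mul_le_mul_of_nonneg_right ?_ stp_mono.deriv_nonneg
        have h2 := (hball (hseg t)).2.2
        set z := a + stp t • (b - a)
        calc ‖fderiv ℝ f z (b - a)‖ = ‖A (b - a) + (fderiv ℝ f z - A) (b - a)‖ := by
              simp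
          _ ≤ ‖A (b - a)‖ + ‖(fderiv ℝ f z - A) (b - a)‖ := norm_add_le _ _
          _ ≤ ‖A (b - a)‖ + η * ‖b - a‖ := by
              gcongr
              exact ((fderiv ℝ f z - A).le_opNorm _).trans
                (mul_le_mul_of_nonneg_right h2.le (norm_nonneg _))
      have h3 : ∫ t in (0 : ℝ)..1, C * deriv stp t = C := by
        rw [intervalIntegral.integral_const_mul]
        have : ∫ t in (0 : ℝ)..1, deriv stp t = stp 1 - stp 0 :=
          intervalIntegral.integral_eq_sub_of_hasDerivAt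
            (fun t _ => (stp_contDiff.differentiable (by simp) t).hasDerivAt)
            ((stp_contDiff.continuous_deriv (by simp)).intervalIntegrable _ _)
        rw [this, stp_zero (show (0 : ℝ) ≤ 1 / 3 by norm_num),
          stp_one (show (2 / 3 : ℝ) ≤ 1 by norm_num)]
        ring
      rw [← h3]
      exact intervalIntegral.integral_mono_on zero_le_one
        ((continuous_norm_deriv hsm).intervalIntegrable _ _)
        ((continuous_const.mul (stp_contDiff.continuous_deriv (by simp))).intervalIntegrable _ _)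
        (fun t _ => h1 t)
    refine hlen.trans ?_
    have h4 : ‖f b - f a - A (b - a)‖ ≤ η * ‖b - a‖ :=
      hsl b (hball hyr).1 a (hball hxr).1
    rw [hfa, hfb] at h4
    have h5 : ‖A (b - a)‖ ≤ ‖y - x‖ + η * ‖b - a‖ := by
      calc ‖A (b - a)‖ = ‖(y - x) - (y - x - A (b - a))‖ := by congr 1; abel
        _ ≤ ‖y - x‖ + ‖y - x - A (b - a)‖ := norm_sub_le _ _
        _ ≤ _ := by gcongr
    have h6 := hcA (b - a)
    have h7 : η ≤ c / 2 := min_le_left _ _
    have h8 : η ≤ c * ε / 4 := min_le_right _ _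
    have hba : c / 2 * ‖b - a‖ ≤ ‖y - x‖ := by
      nlinarith [norm_nonneg (b - a)]
    have h9 : η * ‖b - a‖ ≤ ε / 2 * ‖y - x‖ := by
      have : η * ‖b - a‖ ≤ c * ε / 4 * ‖b - a‖ := mul_le_mul_of_nonneg_right h8 (norm_nonneg _)
      nlinarith
    rw [hC]
    linarith

/-- in a connected submanifold any two points are joined by a smooth curve -/
theorem joinedS_of_connected (hS : IsSubmanifold n N S) (hc : IsConnected S) {p q : Euc N}
    (hp : p ∈ S) (hq : q ∈ S) : JoinedS S p q := by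
  have hloc : ∀ x ∈ S, ∀ᶠ y in 𝓝[S] x, JoinedS S x y := by
    intro x hx
    obtain ⟨δ, hδ, h⟩ := local_joinedLen hS hx zero_lt_one
    filter_upwards [self_mem_nhdsWithin, nhdsWithin_le_nhds (Metric.ball_mem_nhds x hδ)] with y hy hyδ
    obtain ⟨ℓ, h1, _⟩ := h x hx y hy (by simpa using hδ) hyδ
    exact h1.joined
  have hpre := hc.isPreconnected
  by_contra hcon
  have key := hpre (u := {x | ∃ δ > 0, ∀ y ∈ S, dist y x < δ → JoinedS S p y})
    (v := {x | ∃ δ > 0, ∀ y ∈ S, dist y x < δ → ¬ JoinedS S p y}) ?_ ?_ ?_ ?_ ?_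
  · obtain ⟨x, hx, ⟨δ, hδ, h1⟩, ⟨δ', hδ', h2⟩⟩ := key
    exact h2 x hx (by simpa using hδ') (h1 x hx (by simpa using hδ))
  · rw [Metric.isOpen_iff]
    rintro x ⟨δ, hδ, h⟩
    refine ⟨δ / 2, by positivity, fun z hz => ⟨δ / 2, by positivity, fun y hy hyz => h y hy ?_⟩⟩
    calc dist y x ≤ dist y z + dist z x := dist_triangle _ _ _
      _ < δ / 2 + δ / 2 := add_lt_add hyz hz
      _ = δ := by ring
  · rw [Metric.isOpen_iff]
    rintro x ⟨δ, hδ, h⟩
    refine ⟨δ / 2, by positivity, fun z hz => ⟨δ / 2, by positivity, fun y hy hyz => h y hy ?_⟩⟩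
    calc dist y x ≤ dist y z + dist z x := dist_triangle _ _ _
      _ < δ / 2 + δ / 2 := add_lt_add hyz hz
      _ = δ := by ring
  · intro x hx
    obtain ⟨δ, hδ, h⟩ := Metric.eventually_nhds_iff.1 (eventually_nhdsWithin_iff.1 (hloc x hx))
    by_cases hpx : JoinedS S p x
    · exact Or.inl ⟨δ, hδ, fun y hy hyx => hpx.trans (h hyx hy)⟩
    · exact Or.inr ⟨δ, hδ, fun y hy hyx hpy => hpx (hpy.trans (h hyx hy).symm)⟩
  · obtain ⟨δ, hδ, h⟩ := Metric.eventually_nhds_iff.1 (eventually_nhdsWithin_iff.1 (hloc p hp))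
    exact ⟨p, hp, δ, hδ, fun y hy hyp => h hyp hy⟩
  · obtain ⟨δ, hδ, h⟩ := Metric.eventually_nhds_iff.1 (eventually_nhdsWithin_iff.1 (hloc q hq))
    exact ⟨q, hq, δ, hδ, fun y hy hyq hpy => hcon (hpy.trans (h hyq hy).symm)⟩

/-- uniform local comparison on a compact submanifold -/
theorem uniform_joinedLen (hS : IsSubmanifold n N S) (hcpt : IsCompact S) {ε : ℝ} (hε : 0 < ε) :
    ∃ δ > 0, ∀ x ∈ S, ∀ y ∈ S, dist x y < δ →
      ∃ ℓ, JoinedLen S x y ℓ ∧ ℓ ≤ (1 + ε) * ‖y - x‖ := by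
  have h := fun x (hx : x ∈ S) => local_joinedLen hS hx hε
  choose! δ hδ h using h
  obtain ⟨t, htS, htc⟩ := hcpt.elim_nhds_subcover (fun x => Metric.ball x (δ x / 2))
    (fun x hx => Metric.ball_mem_nhds x (half_pos (hδ x hx)))
  rcases t.eq_empty_or_nonempty with rfl | hne
  · refine ⟨1, one_pos, fun x hx => ?_⟩
    have := htc hx
    simp at this
  · refine ⟨t.inf' hne (fun x => δ x / 2), ?_, fun x hx y hy hxy => ?_⟩
    · rw [gt_iff_lt, Finset.lt_inf'_iff]
      exact fun x hx => half_pos (hδ x (htS x hx))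
    · obtain ⟨z, hz, hxz⟩ := mem_iUnion₂.1 (htc hx)
      have h1 : dist x y < δ z / 2 := hxy.trans_le (Finset.inf'_le _ hz)
      refine h z (htS z hz) x hx y hy ?_ ?_
      · exact (Metric.mem_ball.1 hxz).trans (half_lt_self (hδ z (htS z hz)))
      · calc dist y z ≤ dist y x + dist x z := dist_triangle _ _ _
          _ < δ z / 2 + δ z / 2 := add_lt_add (by rwa [dist_comm]) hxz
          _ = δ z := by ring

/-- Curves: if `c` is continuous on `[a,b]` with values in `S` and its chords are bounded by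
increments of `L`, then the intrinsic distance of the end points is at most `L b - L a`. -/
theorem intrinsicDist_le_of_chords (hS : IsSubmanifold n N S) (hcpt : IsCompact S)
    {c : ℝ → Euc N} {L : ℝ → ℝ} {a b : ℝ} (hab : a ≤ b) (hc : ContinuousOn c (Icc a b))
    (hcS : ∀ t ∈ Icc a b, c t ∈ S)
    (hL : ∀ s ∈ Icc a b, ∀ t ∈ Icc a b, s ≤ t → ‖c t - c s‖ ≤ L t - L s) :
    JoinedS S (c a) (c b) ∧ intrinsicDist S (c a) (c b) ≤ L b - L a := by
  have hLnn : 0 ≤ L b - L a := (norm_nonneg _).trans (hL a ⟨le_rfl, hab⟩ b ⟨hab, le_rfl⟩ hab)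
  have key : ∀ ε > 0, JoinedS S (c a) (c b) ∧
      intrinsicDist S (c a) (c b) ≤ (1 + ε) * (L b - L a) := by
    intro ε hε
    obtain ⟨δ, hδ, h⟩ := uniform_joinedLen hS hcpt hε
    have hunif : UniformContinuousOn c (Icc a b) :=
      isCompact_Icc.uniformContinuousOn_of_continuous hc
    obtain ⟨η, hη, hcη⟩ := Metric.uniformContinuousOn_iff.1 hunif δ hδ
    obtain ⟨m, hm⟩ := exists_nat_gt ((b - a) / η)
    have hm0 : (0 : ℝ) < m := lt_of_le_of_lt (by have := sub_nonneg.2 hab; positivity) hm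
    have hstep : (b - a) / m < η := by
      rw [div_lt_iff₀ hm0]
      rw [div_lt_iff₀ hη] at hm
      linarith
    have hstep0 : 0 ≤ (b - a) / m := div_nonneg (sub_nonneg.2 hab) hm0.le
    -- partition points
    set τ : ℕ → ℝ := fun k => a + k * ((b - a) / m) with hτ
    have hτmem : ∀ k ≤ m, τ k ∈ Icc a b := by
      intro k hk
      have hk' : (k : ℝ) ≤ m := by exact_mod_cast hk
      refine ⟨?_, ?_⟩
      · simp only [hτ]; nlinarith [show (0 : ℝ) ≤ k from Nat.cast_nonneg k]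
      · simp only [hτ]
        have : (k : ℝ) * ((b - a) / m) ≤ m * ((b - a) / m) :=
          mul_le_mul_of_nonneg_right hk' hstep0
        have h2 : (m : ℝ) * ((b - a) / m) = b - a := by field_simp
        linarith
    have hind : ∀ k ≤ m, ∃ ℓ, JoinedLen S (c a) (c (τ k)) ℓ ∧ ℓ ≤ (1 + ε) * (L (τ k) - L a) := by
      intro k
      induction k with
      | zero =>
        intro _
        refine ⟨0, ?_, ?_⟩
        · simp only [hτ, Nat.cast_zero, zero_mul, add_zero]
          exact JoinedLen.refl (hcS a ⟨le_rfl, hab⟩)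
        · simp [hτ]
      | succ k ih =>
        intro hk
        obtain ⟨ℓ, h1, h2⟩ := ih (by omega)
        have hk1 := hτmem k (by omega)
        have hk2 := hτmem (k + 1) hk
        have hle : τ k ≤ τ (k + 1) := by
          simp only [hτ]; push_cast; nlinarith
        have hlt : dist (c (τ k)) (c (τ (k + 1))) < δ := by
          apply hcη _ hk1 _ hk2
          rw [Real.dist_eq, abs_sub_comm, abs_of_nonneg (sub_nonneg.2 hle)]
          simp only [hτ]; push_cast
          calc _ = (b - a) / m := by ring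
            _ < η := hstep
        obtain ⟨ℓ', h3, h4⟩ := h _ (hcS _ hk1) _ (hcS _ hk2) hlt
        refine ⟨ℓ + ℓ', h1.trans h3, ?_⟩
        have h5 := hL _ hk1 _ hk2 hle
        nlinarith
    obtain ⟨ℓ, h1, h2⟩ := hind m le_rfl
    have hτm : τ m = b := by simp only [hτ]; field_simp; ring
    rw [hτm] at h1 h2
    exact ⟨h1.joined, (intrinsicDist_le h1).trans h2⟩
  refine ⟨(key 1 one_pos).1, ?_⟩
  refine le_of_forall_pos_le_add fun η hη => ?_
  have h := (key (η / (L b - L a + 1)) (by positivity)).2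
  refine h.trans ?_
  have h1 : η / (L b - L a + 1) * (L b - L a) ≤ η := by
    rw [div_mul_eq_mul_div, div_le_iff₀ (by positivity)]
    nlinarith
  linarith

/-- `C¹` curves in `S` -/
theorem intrinsicDist_le_integral (hS : IsSubmanifold n N S) (hcpt : IsCompact S)
    {c c' : ℝ → Euc N} {a b : ℝ} (hab : a ≤ b) (hcS : ∀ t ∈ Icc a b, c t ∈ S)
    (hd : ∀ t ∈ Icc a b, HasDerivWithinAt c (c' t) (Icc a b) t) (hc' : ContinuousOn c' (Icc a b)) :
    JoinedS S (c a) (c b) ∧ intrinsicDist S (c a) (c b) ≤ ∫ t in a..b, ‖c' t‖ := by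
  have hcont : ContinuousOn c (Icc a b) := fun t ht => (hd t ht).continuousWithinAt
  have hint : ∀ s ∈ Icc a b, ∀ t ∈ Icc a b, IntervalIntegrable (fun t => ‖c' t‖) volume s t := by
    intro s hs t ht
    exact (hc'.norm.mono (uIcc_subset_Icc hs ht)).intervalIntegrable
  have h := intrinsicDist_le_of_chords hS hcpt (c := c) (L := fun t => ∫ s in a..t, ‖c' s‖) hab
    hcont hcS ?_
  · simpa using h
  · intro s hs t ht hst
    have h1 : (∫ r in a..t, ‖c' r‖) - ∫ r in a..s, ‖c' r‖ = ∫ r in s..t, ‖c' r‖ :=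
      intervalIntegral.integral_interval_sub_left (hint a ⟨le_rfl, hab⟩ t ht)
        (hint a ⟨le_rfl, hab⟩ s hs)
    change _ ≤ (∫ r in a..t, ‖c' r‖) - ∫ r in a..s, ‖c' r‖
    rw [h1]
    have hsub : Icc s t ⊆ Icc a b := Icc_subset_Icc hs.1 ht.2
    have h2 : ∫ r in s..t, c' r = c t - c s := by
      apply intervalIntegral.integral_eq_sub_of_hasDeriv_right_of_le hst
      · exact hcont.mono hsub
      · intro x hx
        have hx' : x ∈ Icc a b := hsub ⟨hx.1.le, hx.2.le⟩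
        refine ((hd x hx').mono_of_mem_nhdsWithin ?_)
        have : Icc x t ⊆ Icc a b := Icc_subset_Icc hx'.1 ht.2
        exact Filter.mem_of_superset
          (Filter.inter_mem self_mem_nhdsWithin (nhdsWithin_le_nhds (Iio_mem_nhds hx.2)))
          (fun y hy => this ⟨(show x < y from hy.1).le, (show y < t from hy.2).le⟩)
      · exact (hc'.mono (uIcc_subset_Icc hs ht)).intervalIntegrable
    rw [← h2]
    exact intervalIntegral.norm_integral_le_integral_norm hst

end Crest.Agent.R208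
end
end

-- ▼ part R208/G3

/-!
R208, block G3 (helper882): Blaschke data, continuity of the intrinsic distance, the local inverse
theorem on a submanifold.
-/

set_option autoImplicit false

open Set Filter Topology MeasureTheory
open scoped ContDiff RealInnerProductSpace
open Crest.GeometryTopology.Submanifold
open Crest.Agent.R241.DDefs Crest.Agent.R241.D Crest.Agent.R241.D2

noncomputable section

namespace Crest.Agent.R208

variable {n N : ℕ} {κ : ℝ} {S : Set (Euc N)}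

/-! ### Continuity of the intrinsic distance -/

section cont

variable (hS : IsSubmanifold n N S) (hcpt : IsCompact S) (hconn : IsConnected S)

include hS hcpt hconn in
theorem continuousOn_intrinsicDist :
    ContinuousOn (fun z : Euc N × Euc N => intrinsicDist S z.1 z.2) (S ×ˢ S) := by
  obtain ⟨δ, hδ, h⟩ := uniform_joinedLen hS hcpt zero_lt_one
  have hJ : ∀ {x y : Euc N}, x ∈ S → y ∈ S → JoinedS S x y := fun hx hy =>
    joinedS_of_connected hS hconn hx hy
  have hb : ∀ x ∈ S, ∀ y ∈ S, dist x y < δ → intrinsicDist S x y ≤ 2 * dist x y := by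
    intro x hx y hy hxy
    obtain ⟨ℓ, h1, h2⟩ := h x hx y hy hxy
    refine (intrinsicDist_le h1).trans (h2.trans (le_of_eq ?_))
    rw [dist_comm, dist_eq_norm]; ring
  rintro ⟨x, y⟩ ⟨hx, hy⟩
  rw [Metric.continuousWithinAt_iff]
  intro ε hε
  refine ⟨min δ (ε / 4), lt_min hδ (by positivity), ?_⟩
  rintro ⟨x', y'⟩ ⟨hx', hy'⟩ hd
  simp only at hx hy hx' hy'
  rw [Prod.dist_eq, max_lt_iff] at hd
  obtain ⟨hd1, hd2⟩ := hd
  simp only at hd1 hd2
  have a1 := hb x' hx' x hx (hd1.trans_le (min_le_left _ _))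
  have a2 := hb y' hy' y hy (hd2.trans_le (min_le_left _ _))
  have a3 := hd1.trans_le (min_le_right δ (ε / 4))
  have a4 := hd2.trans_le (min_le_right δ (ε / 4))
  have b1 : intrinsicDist S x' y' ≤
      intrinsicDist S x' x + (intrinsicDist S x y + intrinsicDist S y y') :=
    (intrinsicDist_triangle (hJ hx' hx) (hJ hx hy')).trans
      (by gcongr; exact intrinsicDist_triangle (hJ hx hy) (hJ hy hy'))
  have b2 : intrinsicDist S x y ≤
      intrinsicDist S x x' + (intrinsicDist S x' y' + intrinsicDist S y' y) :=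
    (intrinsicDist_triangle (hJ hx hx') (hJ hx' hy)).trans
      (by gcongr; exact intrinsicDist_triangle (hJ hx' hy') (hJ hy' hy))
  rw [intrinsicDist_comm S y y'] at b1
  rw [intrinsicDist_comm S x x'] at b2
  rw [Real.dist_eq, abs_lt]
  constructor <;> simp only <;> linarith

include hS hcpt hconn in
theorem bddAbove_intrinsicDist :
    BddAbove {d : ℝ | ∃ p ∈ S, ∃ q ∈ S, d = intrinsicDist S p q} := by
  obtain ⟨C, hC⟩ := (hcpt.prod hcpt).bddAbove_image (continuousOn_intrinsicDist hS hcpt hconn)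
  refine ⟨C, ?_⟩
  rintro d ⟨p, hp, q, hq, rfl⟩
  exact hC ⟨(p, q), ⟨hp, hq⟩, rfl⟩

include hS hcpt hconn in
theorem intrinsicDist_le_diam {p q : Euc N} (hp : p ∈ S) (hq : q ∈ S) :
    intrinsicDist S p q ≤ intrinsicDiam S :=
  le_csSup (bddAbove_intrinsicDist hS hcpt hconn) ⟨p, hp, q, hq, rfl⟩

end cont

/-- a submanifold of positive dimension through `x` contains a point different from `x` -/
theorem exists_ne_mem (hS : IsSubmanifold n N S) (hn : 1 ≤ n) {x : Euc N} (hx : x ∈ S) :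
    ∃ y ∈ S, y ≠ x := by
  obtain ⟨f, V, hf⟩ := hS x hx
  obtain ⟨r, hr, hrV⟩ := Metric.isOpen_iff.1 hf.isOpen 0 hf.zero_mem
  set v : Euc n := (r / 2) • stdVec n ⟨0, hn⟩ with hv
  have hvn : ‖v‖ = r / 2 := by
    rw [hv, norm_smul, Real.norm_eq_abs, abs_of_pos (by positivity)]
    simp [stdVec]
  have hvV : v ∈ V := hrV (by rw [Metric.mem_ball, dist_zero_right, hvn]; linarith)
  refine ⟨f v, mem_S hf hvV, fun h => ?_⟩
  rw [← hf.map_zero] at h
  have := hf.injOn hvV hf.zero_mem h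
  rw [this, norm_zero] at hvn
  linarith

/-! ### Blaschke data -/

/-- Blaschke data: compact connected `n`-dimensional submanifold (`n ≥ 1`), diameter `≤ D`, every
unit speed geodesic minimises on intervals of length `≤ D`. -/
structure Bl (n N : ℕ) (κ : ℝ) (S : Set (Euc N)) (G : Geo n N κ S) (D : ℝ) : Prop where
  sub : IsSubmanifold n N S
  cpt : IsCompact S
  conn : IsConnected S
  hn : 1 ≤ n
  D_pos : 0 < D
  dist_le : ∀ p ∈ S, ∀ q ∈ S, intrinsicDist S p q ≤ D
  dist_fl : ∀ q ∈ TS G, ‖q.2‖ = 1 → ∀ a b : ℝ, a ≤ b → b - a ≤ D →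
    intrinsicDist S (fl G (q, a)).1 (fl G (q, b)).1 = b - a

/-- The hypotheses of S0321 give Blaschke data with `D = intrinsicDiam S`. -/
theorem exists_bl (hn : 1 ≤ n) (hS : IsSubmanifold n N S) (hcpt : IsCompact S)
    (hconn : IsConnected S)
    (hmin : ∀ γ : ℝ → Euc N, IsGeodesicIn S γ → (∀ t, ‖deriv γ t‖ = 1) →
      ∀ a b : ℝ, a ≤ b → b - a ≤ intrinsicDiam S → intrinsicDist S (γ a) (γ b) = b - a) :
    ∃ (κ : ℝ) (G : Geo n N κ S), Bl n N κ S G (intrinsicDiam S) := by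
  obtain ⟨κ, -, ⟨G⟩⟩ := exists_geo hS hcpt
  refine ⟨κ, G, ⟨hS, hcpt, hconn, hn, ?_, ?_, ?_⟩⟩
  · obtain ⟨x, hx⟩ := hconn.nonempty
    obtain ⟨y, hy, hyx⟩ := exists_ne_mem hS hn hx
    have h1 := chord_le_intrinsicDist (joinedS_of_connected hS hconn hx hy)
    have h2 := intrinsicDist_le_diam hS hcpt hconn hx hy
    have h3 : 0 < ‖y - x‖ := norm_pos_iff.2 (sub_ne_zero.2 hyx)
    linarith
  · exact fun p hp q hq => intrinsicDist_le_diam hS hcpt hconn hp hq
  · intro q hq hq1 a b hab hbD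
    refine hmin (fun t => (fl G (q, t)).1) ?_ ?_ a b hab hbD
    · exact (isGeodesicIn_iff hS G).2 ⟨q, hq, fun _ => rfl⟩
    · intro t
      rw [(norm_deriv_fl G hq t).2, hq1]

/-! ### Local inverse theorem on a submanifold -/

/-- A smooth map `Φ` from `ℝ^n` into the `n`-dimensional submanifold `S` with injective
differential at `v₀` has a smooth local inverse, defined on a neighbourhood in the ambient space;
in particular `Φ` is open near `v₀`. -/
theorem local_inverse (hS : IsSubmanifold n N S) {Φ : Euc n → Euc N} {v₀ : Euc n}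
    (hΦ : ContDiffAt ℝ ∞ Φ v₀) (hmem : ∀ᶠ v in 𝓝 v₀, Φ v ∈ S)
    (hinj : Function.Injective (fderiv ℝ Φ v₀)) :
    ∃ R : Euc N → Euc n, ContDiffAt ℝ ∞ R (Φ v₀) ∧ R (Φ v₀) = v₀ ∧
      (∀ᶠ v in 𝓝 v₀, R (Φ v) = v) ∧ (∀ᶠ y in 𝓝[S] (Φ v₀), Φ (R y) = y) := by
  have hv₀S : Φ v₀ ∈ S := hmem.self_of_nhds
  obtain ⟨f, V, hf⟩ := hS _ hv₀S
  obtain ⟨O, ℓ, hO, hxO, hℓ, hℓV, hℓ0, hinv⟩ := exists_coord hf hf.zero_mem
  rw [hf.map_zero] at hxO hℓ0
  have hℓd : ContDiffAt ℝ ∞ ℓ (Φ v₀) := hℓ.contDiffAt (hO.mem_nhds hxO)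
  have hfd : ContDiffAt ℝ ∞ f 0 := hf.contDiffOn.contDiffAt (hf.isOpen.mem_nhds hf.zero_mem)
  have hg : ContDiffAt ℝ ∞ (ℓ ∘ Φ) v₀ := ContDiffAt.comp v₀ hℓd hΦ
  have hΦO : ∀ᶠ v in 𝓝 v₀, Φ v ∈ O := hΦ.continuousAt.eventually (hO.mem_nhds hxO)
  have hfac : ∀ᶠ v in 𝓝 v₀, f (ℓ (Φ v)) = Φ v := by
    filter_upwards [hΦO, hmem] with v h1 h2 using hinv _ h1 h2
  have hcomp : fderiv ℝ Φ v₀ = (fderiv ℝ f 0).comp (fderiv ℝ (ℓ ∘ Φ) v₀) := by
    have h1 : Φ =ᶠ[𝓝 v₀] f ∘ (ℓ ∘ Φ) := hfac.mono fun v hv => hv.symm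
    rw [h1.fderiv_eq, fderiv_comp]
    · simp only [Function.comp_apply, hℓ0]
    · have : (ℓ ∘ Φ) v₀ = 0 := hℓ0
      rw [this]
      exact hfd.differentiableAt (by simp)
    · exact hg.differentiableAt (by simp)
  have hinj' : Function.Injective (fderiv ℝ (ℓ ∘ Φ) v₀) := by
    intro a b hab
    apply hinj
    rw [hcomp]
    simp only [ContinuousLinearMap.comp_apply, hab]
  let L : Euc n ≃L[ℝ] Euc n :=
    (LinearEquiv.ofInjectiveEndo (fderiv ℝ (ℓ ∘ Φ) v₀).toLinearMap
      hinj').toContinuousLinearEquiv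
  have hL : HasFDerivAt (ℓ ∘ Φ) (L : Euc n →L[ℝ] Euc n) v₀ := by
    have h2 : (L : Euc n →L[ℝ] Euc n) = fderiv ℝ (ℓ ∘ Φ) v₀ := ContinuousLinearMap.ext fun v => rfl
    rw [h2]
    exact (hg.differentiableAt (by simp)).hasFDerivAt
  have hn0 : (∞ : WithTop ℕ∞) ≠ 0 := by simp
  set g := hg.toOpenPartialHomeomorph (ℓ ∘ Φ) hL hn0 with hgdef
  have hgc : (g : Euc n → Euc n) = ℓ ∘ Φ := rfl
  have h0g : v₀ ∈ g.source := hg.mem_toOpenPartialHomeomorph_source hL hn0
  have hsymm : ContDiffAt ℝ ∞ g.symm ((ℓ ∘ Φ) v₀) := hg.to_localInverse hL hn0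
  have hR : ContDiffAt ℝ ∞ (fun y => g.symm (ℓ y)) (Φ v₀) := ContDiffAt.comp (Φ v₀) hsymm hℓd
  have hR0 : g.symm (ℓ (Φ v₀)) = v₀ := g.left_inv h0g
  refine ⟨fun y => g.symm (ℓ y), hR, hR0, ?_, ?_⟩
  · filter_upwards [g.open_source.mem_nhds h0g] with v hv
    exact g.left_inv hv
  · have h1 : ∀ᶠ y in 𝓝 (Φ v₀), f (ℓ (Φ (g.symm (ℓ y)))) = Φ (g.symm (ℓ y)) := by
      have : Tendsto (fun y => g.symm (ℓ y)) (𝓝 (Φ v₀)) (𝓝 v₀) := by
        have := hR.continuousAt.tendsto
        rwa [hR0] at this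
      exact this.eventually hfac
    have h2 : ∀ᶠ y in 𝓝 (Φ v₀), ℓ y ∈ g.target := by
      refine hℓd.continuousAt.eventually (g.open_target.mem_nhds ?_)
      exact g.map_source h0g
    filter_upwards [nhdsWithin_le_nhds h1, nhdsWithin_le_nhds h2, self_mem_nhdsWithin,
      nhdsWithin_le_nhds (hO.mem_nhds hxO)] with y hy1 hy2 hyS hyO
    have h3 : ℓ (Φ (g.symm (ℓ y))) = ℓ y := g.right_inv hy2
    rw [h3, hinv y hyO hyS] at hy1
    exact hy1.symm

/-- an orthonormal frame of the tangent space: a linear isometry of `ℝ^n` onto `T x` -/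
theorem exists_frame (G : Geo n N κ S) {x : Euc N} (hx : x ∈ S) :
    ∃ b : Euc n →ₗᵢ[ℝ] Euc N, LinearMap.range b.toLinearMap = G.T x := by
  have hfr := G.finrank_T x hx
  let e : Euc n ≃ₗᵢ[ℝ] G.T x :=
    ((stdOrthonormalBasis ℝ (G.T x)).reindex (finCongr hfr)).repr.symm
  refine ⟨(G.T x).subtypeₗᵢ.comp e.toLinearIsometry, ?_⟩
  ext v
  simp only [LinearMap.mem_range]
  constructor
  · rintro ⟨w, rfl⟩
    exact (e w).2
  · intro hv
    exact ⟨e.symm ⟨v, hv⟩, by simp⟩

theorem frame_mem {G : Geo n N κ S} {x : Euc N} {b : Euc n →ₗᵢ[ℝ] Euc N}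
    (hb : LinearMap.range b.toLinearMap = G.T x) (v : Euc n) : b v ∈ G.T x := by
  rw [← hb]; exact ⟨v, rfl⟩

theorem exists_frame_eq {G : Geo n N κ S} {x : Euc N} {b : Euc n →ₗᵢ[ℝ] Euc N}
    (hb : LinearMap.range b.toLinearMap = G.T x) {v : Euc N} (hv : v ∈ G.T x) :
    ∃ w, b w = v := by
  rw [← hb] at hv
  obtain ⟨w, hw⟩ := hv
  exact ⟨w, hw⟩

end Crest.Agent.R208
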