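import Crest.Agent.R208.G1

/-!
R208, block G2 (helper882): the intrinsic distance `intrinsicDist` of `Def_SubmanifoldMetric`.

* `JoinedS S p q`: there is a smooth curve in `S` from `p` to `q`;
* nonnegativity, symmetry, triangle inequality, lower bound by the chord;
-/

set_option autoImplicit false

open Set Filter Topology MeasureTheory
open scoped ContDiff RealInnerProductSpace
open Crest.GeometryTopology.Submanifold
open Crest.Agent.R241.DDefs Crest.Agent.R241.D Crest.Agent.R241.D2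

noncomputable section

namespace Crest.Agent.R208

variable {n N : ℕ} {κ : ℝ} {S : Set (Euc N)}

/-- length of a curve on `[a,b]` -/
def len (γ : ℝ → Euc N) (a b : ℝ) : ℝ := ∫ t in a..b, ‖deriv γ t‖

theorem curveLength_eq (γ : ℝ → Euc N) : curveLength γ = len γ 0 1 := rfl

theorem continuous_norm_deriv {γ : ℝ → Euc N} (h : ContDiff ℝ ∞ γ) :
    Continuous fun t => ‖deriv γ t‖ := (contDiff_deriv h).continuous.norm

theorem len_add {γ : ℝ → Euc N} (h : ContDiff ℝ ∞ γ) (a b c : ℝ) :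
    len γ a b + len γ b c = len γ a c :=
  intervalIntegral.integral_add_adjacent_intervals
    ((continuous_norm_deriv h).intervalIntegrable _ _)
    ((continuous_norm_deriv h).intervalIntegrable _ _)

theorem len_nonneg {γ : ℝ → Euc N} {a b : ℝ} (hab : a ≤ b) : 0 ≤ len γ a b :=
  intervalIntegral.integral_nonneg hab fun _ _ => norm_nonneg _

/-- chord ≤ length -/
theorem chord_le_len {γ : ℝ → Euc N} (h : ContDiff ℝ ∞ γ) {a b : ℝ} (hab : a ≤ b) :
    ‖γ b - γ a‖ ≤ len γ a b := by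
  have h1 : ∫ t in a..b, deriv γ t = γ b - γ a :=
    intervalIntegral.integral_eq_sub_of_hasDerivAt
      (fun t _ => hasDerivAt_deriv_of_contDiff h t)
      ((contDiff_deriv h).continuous.intervalIntegrable _ _)
  rw [← h1]
  exact intervalIntegral.norm_integral_le_integral_norm hab

/-- reparametrisation -/
theorem len_comp {γ : ℝ → Euc N} (h : ContDiff ℝ ∞ γ) {φ : ℝ → ℝ} (hφ : ContDiff ℝ ∞ φ)
    (hmono : Monotone φ) (a b : ℝ) : len (fun t => γ (φ t)) a b = len γ (φ a) (φ b) := by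
  have hd : ∀ t, HasDerivAt φ (deriv φ t) t := fun t =>
    (hφ.differentiable (by simp) t).hasDerivAt
  have hcd : Continuous (deriv φ) := hφ.continuous_deriv (by simp)
  have h1 : ∀ t, deriv (fun t => γ (φ t)) t = deriv φ t • deriv γ (φ t) := fun t =>
    ((hasDerivAt_deriv_of_contDiff h (φ t)).scomp t (hd t)).deriv
  have h2 : ∀ t, ‖deriv (fun t => γ (φ t)) t‖ = ((fun s => ‖deriv γ s‖) ∘ φ) t * deriv φ t := by
    intro t
    rw [h1, norm_smul, Real.norm_eq_abs, abs_of_nonneg (hmono.deriv_nonneg)]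
    simp [mul_comm]
  unfold len
  rw [intervalIntegral.integral_congr (g := fun t => ((fun s => ‖deriv γ s‖) ∘ φ) t * deriv φ t)
    (fun t _ => h2 t)]
  exact intervalIntegral.integral_comp_mul_deriv (fun t _ => hd t) hcd.continuousOn
    (continuous_norm_deriv h)

theorem len_neg {γ : ℝ → Euc N} (a b c : ℝ) :
    len (fun t => γ (c - t)) a b = len γ (c - b) (c - a) := by
  unfold len
  have h1 : ∀ t, deriv (fun t => γ (c - t)) t = -deriv γ (c - t) := fun t =>
    deriv_comp_const_sub _ _ _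
  simp only [h1, norm_neg]
  exact intervalIntegral.integral_comp_sub_left (fun t => ‖deriv γ t‖) c

/-- smooth monotone step function: `0` for `t ≤ 1/3`, `1` for `t ≥ 2/3` -/
def stp (t : ℝ) : ℝ := Real.smoothTransition (3 * t - 1)

theorem stp_contDiff : ContDiff ℝ ∞ stp :=
  Real.smoothTransition.contDiff.comp (by fun_prop)

theorem stp_mono : Monotone stp := fun a b hab =>
  Real.smoothTransition.monotone (by linarith)

theorem stp_zero {t : ℝ} (h : t ≤ 1 / 3) : stp t = 0 :=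
  Real.smoothTransition.zero_of_nonpos (by linarith)

theorem stp_one {t : ℝ} (h : 2 / 3 ≤ t) : stp t = 1 :=
  Real.smoothTransition.one_of_one_le (by linarith)

theorem stp_mem (t : ℝ) : stp t ∈ Icc (0 : ℝ) 1 :=
  ⟨Real.smoothTransition.nonneg _, Real.smoothTransition.le_one _⟩

/-- there is a smooth curve in `S` from `p` to `q` -/
def JoinedS (S : Set (Euc N)) (p q : Euc N) : Prop :=
  ∃ γ : ℝ → Euc N, IsSmoothCurveIn S γ ∧ γ 0 = p ∧ γ 1 = q

/-- there is a smooth curve in `S` from `p` to `q` of length `ℓ` -/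
def JoinedLen (S : Set (Euc N)) (p q : Euc N) (ℓ : ℝ) : Prop :=
  ∃ γ : ℝ → Euc N, IsSmoothCurveIn S γ ∧ γ 0 = p ∧ γ 1 = q ∧ ℓ = curveLength γ

theorem intrinsicDist_eq (S : Set (Euc N)) (p q : Euc N) :
    intrinsicDist S p q = sInf {ℓ : ℝ | JoinedLen S p q ℓ} := rfl

theorem JoinedLen.nonneg {p q : Euc N} {ℓ : ℝ} (h : JoinedLen S p q ℓ) : 0 ≤ ℓ := by
  obtain ⟨γ, _, _, _, rfl⟩ := h
  exact len_nonneg zero_le_one

theorem JoinedLen.joined {p q : Euc N} {ℓ : ℝ} (h : JoinedLen S p q ℓ) : JoinedS S p q := by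
  obtain ⟨γ, h1, h2, h3, _⟩ := h
  exact ⟨γ, h1, h2, h3⟩

theorem JoinedS.joinedLen {p q : Euc N} (h : JoinedS S p q) : ∃ ℓ, JoinedLen S p q ℓ := by
  obtain ⟨γ, h1, h2, h3⟩ := h
  exact ⟨_, γ, h1, h2, h3, rfl⟩

theorem JoinedLen.chord_le {p q : Euc N} {ℓ : ℝ} (h : JoinedLen S p q ℓ) : ‖q - p‖ ≤ ℓ := by
  obtain ⟨γ, h1, rfl, rfl, rfl⟩ := h
  exact chord_le_len h1.1 zero_le_one



theorem JoinedLen.refl {p : Euc N} (h : p ∈ S) : JoinedLen S p p 0 := by
  refine ⟨fun _ => p, ⟨contDiff_const, fun _ => h⟩, rfl, rfl, ?_⟩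
  simp [curveLength]

theorem JoinedLen.symm {p q : Euc N} {ℓ : ℝ} (h : JoinedLen S p q ℓ) : JoinedLen S q p ℓ := by
  obtain ⟨γ, h1, rfl, rfl, rfl⟩ := h
  refine ⟨fun t => γ (1 - t), ⟨h1.1.comp (by fun_prop), fun t => h1.2 _⟩, by simp, by simp, ?_⟩
  rw [curveLength_eq, curveLength_eq, len_neg]
  simp

/-- a curve constant near its ends with the same length -/
theorem JoinedLen.exists_flat {p q : Euc N} {ℓ : ℝ} (h : JoinedLen S p q ℓ) :
    ∃ γ : ℝ → Euc N, IsSmoothCurveIn S γ ∧ (∀ t ≤ 1 / 3, γ t = p) ∧ (∀ t, 2 / 3 ≤ t → γ t = q) ∧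
      ℓ = len γ 0 1 := by
  obtain ⟨γ, h1, rfl, rfl, rfl⟩ := h
  refine ⟨fun t => γ (stp t), ⟨h1.1.comp stp_contDiff, fun t => h1.2 _⟩, ?_, ?_, ?_⟩
  · intro t ht; simp only [stp_zero ht]
  · intro t ht; simp only [stp_one ht]
  · rw [len_comp h1.1 stp_contDiff stp_mono, stp_zero (by norm_num), stp_one (by norm_num)]
    rfl

theorem JoinedLen.trans {p q r : Euc N} {ℓ₁ ℓ₂ : ℝ} (h₁ : JoinedLen S p q ℓ₁)
    (h₂ : JoinedLen S q r ℓ₂) : JoinedLen S p r (ℓ₁ + ℓ₂) := by
  obtain ⟨α, hα, hα0, hα1, rfl⟩ := h₁.exists_flat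
  obtain ⟨β, hβ, hβ0, hβ1, rfl⟩ := h₂.exists_flat
  set γ : ℝ → Euc N := fun t => if t ≤ 1 / 2 then α (2 * t) else β (2 * t - 1) with hγ
  have hL : ∀ t < 2 / 3, γ t = α (2 * t) := by
    intro t ht
    by_cases h : t ≤ 1 / 2
    · simp only [hγ, if_pos h]
    · simp only [hγ, if_neg h]
      rw [hα1 _ (by linarith), hβ0 _ (by linarith)]
  have hR : ∀ t, 1 / 3 < t → γ t = β (2 * t - 1) := by
    intro t ht
    by_cases h : t ≤ 1 / 2
    · simp only [hγ, if_pos h]
      rw [hα1 _ (by linarith), hβ0 _ (by linarith)]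
    · simp only [hγ, if_neg h]
  have hLe : ∀ t < 2 / 3, γ =ᶠ[𝓝 t] fun t => α (2 * t) := fun t ht => by
    filter_upwards [Iio_mem_nhds ht] with s hs using hL s hs
  have hRe : ∀ t, 1 / 3 < t → γ =ᶠ[𝓝 t] fun t => β (2 * t - 1) := fun t ht => by
    filter_upwards [Ioi_mem_nhds ht] with s hs using hR s hs
  have hsm : ContDiff ℝ ∞ γ := by
    rw [contDiff_iff_contDiffAt]
    intro t
    by_cases h : t < 2 / 3
    · exact ((hα.1.comp (by fun_prop : ContDiff ℝ ∞ fun t : ℝ => 2 * t)).contDiffAt).congr_of_eventuallyEq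
        (hLe t h)
    · exact ((hβ.1.comp (by fun_prop : ContDiff ℝ ∞ fun t : ℝ => 2 * t - 1)).contDiffAt).congr_of_eventuallyEq
        (hRe t (by linarith))
  refine ⟨γ, ⟨hsm, fun t => ?_⟩, ?_, ?_, ?_⟩
  · by_cases h : t ≤ 1 / 2
    · simp only [hγ, if_pos h]; exact hα.2 _
    · simp only [hγ, if_neg h]; exact hβ.2 _
  · rw [hL 0 (by norm_num)]; exact hα0 _ (by norm_num)
  · rw [hR 1 (by norm_num)]; exact hβ1 _ (by norm_num)
  · rw [curveLength_eq, ← len_add hsm 0 (1 / 2) 1]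
    have e1 : len γ 0 (1 / 2) = len α 0 1 := by
      have : len γ 0 (1 / 2) = len (fun t => α (2 * t)) 0 (1 / 2) := by
        refine intervalIntegral.integral_congr fun t ht => ?_
        rw [uIcc_of_le (by norm_num)] at ht
        rw [(hLe t (by linarith [ht.2])).deriv_eq]
      rw [this, len_comp hα.1 (φ := fun t => 2 * t) (by fun_prop)
        (fun a b hab => by simpa using hab)]
      norm_num
    have e2 : len γ (1 / 2) 1 = len β 0 1 := by
      have : len γ (1 / 2) 1 = len (fun t => β (2 * t - 1)) (1 / 2) 1 := by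
        refine intervalIntegral.integral_congr fun t ht => ?_
        rw [uIcc_of_le (by norm_num)] at ht
        rw [(hRe t (by linarith [ht.1])).deriv_eq]
      rw [this, len_comp hβ.1 (φ := fun t => 2 * t - 1) (by fun_prop)
        (fun a b hab => by simpa using hab)]
      norm_num
    rw [e1, e2]

theorem JoinedS.symm {p q : Euc N} (h : JoinedS S p q) : JoinedS S q p := by
  obtain ⟨ℓ, h⟩ := h.joinedLen
  exact h.symm.joined

theorem JoinedS.trans {p q r : Euc N} (h : JoinedS S p q) (h' : JoinedS S q r) :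
    JoinedS S p r := by
  obtain ⟨ℓ, h⟩ := h.joinedLen
  obtain ⟨ℓ', h'⟩ := h'.joinedLen
  exact (h.trans h').joined

theorem bddBelow_joinedLen (S : Set (Euc N)) (p q : Euc N) :
    BddBelow {ℓ : ℝ | JoinedLen S p q ℓ} := ⟨0, fun _ h => JoinedLen.nonneg h⟩

theorem intrinsicDist_le {p q : Euc N} {ℓ : ℝ} (h : JoinedLen S p q ℓ) :
    intrinsicDist S p q ≤ ℓ := csInf_le (bddBelow_joinedLen S p q) h

theorem intrinsicDist_nonneg (S : Set (Euc N)) (p q : Euc N) : 0 ≤ intrinsicDist S p q :=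
  Real.sInf_nonneg fun _ h => JoinedLen.nonneg h

theorem exists_joinedLen_lt {p q : Euc N} (h : JoinedS S p q) {d : ℝ}
    (hd : intrinsicDist S p q < d) : ∃ ℓ, JoinedLen S p q ℓ ∧ ℓ < d :=
  exists_lt_of_csInf_lt h.joinedLen hd

theorem le_intrinsicDist {p q : Euc N} (h : JoinedS S p q) {d : ℝ}
    (hd : ∀ ℓ, JoinedLen S p q ℓ → d ≤ ℓ) : d ≤ intrinsicDist S p q :=
  le_csInf h.joinedLen hd

theorem intrinsicDist_self {p : Euc N} (h : p ∈ S) : intrinsicDist S p p = 0 :=
  le_antisymm (intrinsicDist_le (JoinedLen.refl h)) (intrinsicDist_nonneg _ _ _)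

theorem intrinsicDist_comm (S : Set (Euc N)) (p q : Euc N) :
    intrinsicDist S p q = intrinsicDist S q p := by
  rw [intrinsicDist_eq, intrinsicDist_eq]
  congr 1
  ext ℓ
  exact ⟨JoinedLen.symm, JoinedLen.symm⟩

theorem intrinsicDist_triangle {p q r : Euc N} (h : JoinedS S p q) (h' : JoinedS S q r) :
    intrinsicDist S p r ≤ intrinsicDist S p q + intrinsicDist S q r := by
  refine le_of_forall_pos_le_add fun ε hε => ?_
  obtain ⟨ℓ, hℓ, h1⟩ := exists_joinedLen_lt h
    (show intrinsicDist S p q < intrinsicDist S p q + ε / 2 by linarith)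
  obtain ⟨ℓ', hℓ', h2⟩ := exists_joinedLen_lt h'
    (show intrinsicDist S q r < intrinsicDist S q r + ε / 2 by linarith)
  have := intrinsicDist_le (hℓ.trans hℓ')
  linarith

theorem chord_le_intrinsicDist {p q : Euc N} (h : JoinedS S p q) :
    ‖q - p‖ ≤ intrinsicDist S p q :=
  le_intrinsicDist h fun _ hℓ => hℓ.chord_le

end Crest.Agent.R208
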