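import Crest.Agent.R208.FI1c
import Crest.Prelude.Def_Submanifold

-- ▼ part R208/FI1d
section

/-! Row 208, block F2 (helper349), part FI1d: **Stokes** on closed submanifolds. -/

set_option autoImplicit false
set_option linter.unusedSectionVars false
set_option linter.unusedVariables false

open Set Filter Topology Module MeasureTheory MeasureTheory.Measure
open scoped ContDiff
open Crest.Agent.R208.F

noncomputable section

namespace Crest.Agent.R208.FI

variable {E : Type*} [NormedAddCommGroup E] [NormedSpace ℝ E] [FiniteDimensional ℝ E]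
  {n : ℕ} {X : Set E} {o om om' β : E → Ext E}
  {f : Eu n → E} {V : Set (Eu n)}

/-- the sign of the orientation is constant on a preconnected chart domain. -/
theorem Chart.exists_sign (hf : Chart n X f V) (ho : Ori n X o) (hV : IsPreconnected V) :
    ∃ ε : ℝ, ∀ u ∈ V, Real.sign (top n (pull f o u)) = ε := by
  rcases V.eq_empty_or_nonempty with rfl | ⟨u0, hu0⟩
  · exact ⟨0, by simp⟩
  refine ⟨Real.sign (top n (pull f o u0)), fun u hu => ?_⟩
  have hc : ContinuousOn (fun u => top n (pull f o u)) V :=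
    continuous_top.comp_continuousOn (hf.continuousOn_pull ho.cont)
  have hne : ∀ u ∈ V, top n (pull f o u) ≠ 0 := fun u hu => hf.top_ne_zero ho hu
  have himg : IsPreconnected ((fun u => top n (pull f o u)) '' V) := hV.image _ hc
  have hord := himg.ordConnected
  by_contra hcon
  have h1 : (top n (pull f o u)) ∈ (fun u => top n (pull f o u)) '' V := ⟨u, hu, rfl⟩
  have h2 : (top n (pull f o u0)) ∈ (fun u => top n (pull f o u)) '' V := ⟨u0, hu0, rfl⟩
  have h3 : (0 : ℝ) ∉ (fun u => top n (pull f o u)) '' V := by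
    rintro ⟨v, hv, hv0⟩; exact hne v hv hv0
  rcases lt_or_gt_of_ne (hne u hu) with h | h <;> rcases lt_or_gt_of_ne (hne u0 hu0) with h' | h'
  · rw [Real.sign_of_neg h, Real.sign_of_neg h'] at hcon; exact hcon rfl
  · exact h3 (hord.out h1 h2 ⟨h.le, h'.le⟩)
  · exact h3 (hord.out h2 h1 ⟨h'.le, h.le⟩)
  · rw [Real.sign_of_pos h, Real.sign_of_pos h'] at hcon; exact hcon rfl

/-- extension by zero of the pull-back of a form with compact support in a chart -/
theorem Chart.stokes_aux (hf : Chart n X f V) (hβ : ∀ u ∈ V, ContDiffAt ℝ 1 β (f u))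
    {K : Set (Eu n)} (hK : IsCompact K) (hKV : K ⊆ V) (h0 : ∀ u ∈ V, u ∉ K → β =ᶠ[𝓝 (f u)] 0) :
    ∫ u in V, top n (pull f (Crest.Agent.R208.F.d β) u) = 0 := by
  classical
  set b : Eu n → Ext (Eu n) := V.indicator (pull f β) with hb
  have hbV : ∀ u ∈ V, b =ᶠ[𝓝 u] pull f β := by
    intro u hu
    filter_upwards [hf.isOpen.mem_nhds hu] with v hv
    rw [hb, indicator_of_mem hv]
  have hb0 : ∀ u, u ∉ K → b =ᶠ[𝓝 u] 0 := by
    intro u hu
    by_cases huV : u ∈ V
    · have h1 : ∀ᶠ v in 𝓝 u, v ∈ V ∧ v ∉ K :=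
        inter_mem (hf.isOpen.mem_nhds huV) (hK.isClosed.isOpen_compl.mem_nhds hu)
      filter_upwards [h1] with v hv
      rw [hb, indicator_of_mem hv.1, pull, (h0 v hv.1 hv.2).eq_of_nhds]
      simp
    · have h1 : ∀ᶠ v in 𝓝 u, v ∉ K := hK.isClosed.isOpen_compl.mem_nhds hu
      filter_upwards [h1] with v hv
      by_cases hvV : v ∈ V
      · rw [hb, indicator_of_mem hvV, pull, (h0 v hvV hv).eq_of_nhds]
        simp
      · rw [hb, indicator_of_notMem hvV]; rfl
  have hbC : ContDiff ℝ 1 b := by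
    rw [contDiff_iff_contDiffAt]
    intro u
    by_cases hu : u ∈ V
    · have h1 : ContDiffAt ℝ 1 (pull f β) u :=
        contDiffAt_pull (n := 2) ((hf.contDiffAt hu).of_le (by norm_cast))
          (by norm_num) (hβ u hu)
      exact h1.congr_of_eventuallyEq (hbV u hu)
    · have hu' : u ∉ K := fun h => hu (hKV h)
      exact contDiffAt_const.congr_of_eventuallyEq (hb0 u hu')
  have hbs : HasCompactSupport b := by
    refine HasCompactSupport.intro hK fun u hu => (hb0 u hu).eq_of_nhds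
  have h2 : ∫ u in V, top n (pull f (Crest.Agent.R208.F.d β) u)
      = ∫ u in V, top n (Crest.Agent.R208.F.d b u) := by
    refine setIntegral_congr_fun hf.isOpen.measurableSet fun u hu => ?_
    change top n (pull f (Crest.Agent.R208.F.d β) u) = top n (Crest.Agent.R208.F.d b u)
    rw [d_congr (hbV u hu), d_pull ((hf.contDiffAt hu).of_le (by norm_cast))
      ((hβ u hu).differentiableAt (by norm_num))]
  rw [h2, setIntegral_eq_integral_of_forall_compl_eq_zero]
  · exact integral_functional_d_eq_zero volume hbC hbs (top n)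
  · intro u hu
    have hu' : u ∉ K := fun h => hu (hKV h)
    rw [d_congr (hb0 u hu')]
    have : Crest.Agent.R208.F.d (0 : Eu n → Ext (Eu n)) u = 0 := d_const 0 u
    rw [this, map_zero]

theorem Chart.continuousOn_inv (hf : Chart n X f V) :
    ContinuousOn (Function.invFunOn f V) (f '' V) := by
  rintro _ ⟨u, hu, rfl⟩
  obtain ⟨O, ℓ, hO, hxO, hℓ, hℓV, hℓx, hℓS⟩ := exists_coord hf hu
  have hinv : ∀ v ∈ V, Function.invFunOn f V (f v) = v := fun v hv =>
    hf.injOn (Function.invFunOn_mem ⟨v, hv, rfl⟩) hv (Function.invFunOn_eq ⟨v, hv, rfl⟩)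
  have h3 : ContinuousWithinAt ℓ (f '' V) (f u) :=
    (hℓ.contDiffAt (hO.mem_nhds hxO)).continuousAt.continuousWithinAt
  refine h3.congr_of_eventuallyEq ?_ ?_
  · filter_upwards [self_mem_nhdsWithin, nhdsWithin_le_nhds (hO.mem_nhds hxO)] with q hq hqO
    have h4 := hℓS q hqO (hf.image_subset hq)
    conv_lhs => rw [← h4]
    exact hinv _ (hℓV q hqO)
  · rw [hinv u hu, hℓx]

/-- Stokes for a form supported in a chart. -/
theorem stokes_chart (hX : Clo n X) (ho : Ori n X o) (hf : Chart n X f V) (hV : IsPreconnected V)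
    (hβ : ∀ x ∈ X, ContDiffAt ℝ 1 β x) {U : Set E} (hU : IsOpen U) (hUX : f '' V = X ∩ U)
    (hs : tsupport β ⊆ U) : J n X o (Crest.Agent.R208.F.d β) = 0 := by
  have hinv : ∀ v ∈ V, Function.invFunOn f V (f v) = v := fun v hv =>
    hf.injOn (Function.invFunOn_mem ⟨v, hv, rfl⟩) hv (Function.invFunOn_eq ⟨v, hv, rfl⟩)
  have hC : IsCompact (X ∩ tsupport β) := hX.compact.inter_right (isClosed_tsupport β)
  have hCV : X ∩ tsupport β ⊆ f '' V := by rw [hUX]; exact inter_subset_inter_right _ hs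
  set K := Function.invFunOn f V '' (X ∩ tsupport β) with hKdef
  have hK : IsCompact K := hC.image_of_continuousOn (hf.continuousOn_inv.mono hCV)
  have hKV : K ⊆ V := by
    rintro _ ⟨x, hx, rfl⟩
    exact Function.invFunOn_mem (hCV hx)
  have h0 : ∀ u ∈ V, u ∉ K → β =ᶠ[𝓝 (f u)] 0 := by
    intro u hu huK
    refine notMem_tsupport_iff_eventuallyEq.1 fun h => huK ⟨f u, ⟨hf.mem hu, h⟩, hinv u hu⟩
  rw [J_eq_chart hX hf]
  · obtain ⟨ε, hε⟩ := hf.exists_sign ho hV
    have h1 : ∫ u in V, top n (pull f (Crest.Agent.R208.F.d β) u) * Real.sign (top n (pull f o u))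
        = ∫ u in V, top n (pull f (Crest.Agent.R208.F.d β) u) * ε :=
      setIntegral_congr_fun hf.isOpen.measurableSet fun u hu => by
        simp only [hε u hu]
    rw [h1, integral_mul_const, hf.stokes_aux (fun u hu => hβ _ (hf.mem hu)) hK hKV h0, zero_mul]
  · intro x hx hxV
    have hxU : x ∉ tsupport β := fun h => hxV (by rw [hUX]; exact ⟨hx, hs h⟩)
    rw [d_congr (notMem_tsupport_iff_eventuallyEq.1 hxU)]
    have : Crest.Agent.R208.F.d (0 : E → Ext E) x = 0 := d_const 0 x
    rw [this]; simp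

/-- charts with preconnected domain around any point -/
theorem Clo.exists_chart (hX : Clo n X) {x : E} (hx : x ∈ X) :
    ∃ (f : Eu n → E) (V : Set (Eu n)) (U : Set E), Chart n X f V ∧ IsPreconnected V ∧ IsOpen U ∧
      x ∈ U ∧ f '' V = X ∩ U := by
  obtain ⟨f, V, hf, u, hu, rfl⟩ := hX.chart x hx
  obtain ⟨r, hr, hrV⟩ := Metric.isOpen_iff.1 hf.isOpen u hu
  have h1 := hf.mono hrV Metric.isOpen_ball
  obtain ⟨U, hU, hUX⟩ := h1.image_open _ le_rfl Metric.isOpen_ball
  refine ⟨f, Metric.ball u r, U, h1, (convex_ball u r).isPreconnected, hU, ?_, hUX⟩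
  have : f u ∈ f '' Metric.ball u r := ⟨u, Metric.mem_ball_self hr, rfl⟩
  rw [hUX] at this; exact this.2

theorem continuousOn_d (hβ : ∀ x ∈ X, ContDiffAt ℝ 1 β x) :
    ContinuousOn (Crest.Agent.R208.F.d β) X := fun x hx =>
  (contDiffAt_d (m := 0) (hβ x hx) (by norm_num)).continuousAt.continuousWithinAt

theorem continuousOn_of_contDiffAt {k : WithTop ℕ∞} (hβ : ∀ x ∈ X, ContDiffAt ℝ k β x) :
    ContinuousOn β X := fun x hx => (hβ x hx).continuousAt.continuousWithinAt

/-- **STOKES** on a closed submanifold. -/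
theorem J_d (hX : Clo n X) (ho : Ori n X o) (hβ : ∀ x ∈ X, ContDiffAt ℝ 1 β x) :
    J n X o (Crest.Agent.R208.F.d β) = 0 := by
  classical
  have key : ∀ x : E, x ∈ X → ∃ (φ : E → ℝ) (f : Eu n → E) (V : Set (Eu n)) (U : Set E),
      Chart n X f V ∧ IsPreconnected V ∧ IsOpen U ∧ f '' V = X ∩ U ∧ tsupport φ ⊆ U ∧
      ContDiff ℝ 1 φ ∧ (∀ y, 0 ≤ φ y) ∧ 0 < φ x := by
    intro x hx
    obtain ⟨f, V, U, hf, hV, hU, hxU, hUX⟩ := hX.exists_chart hx
    obtain ⟨φ, h1, h2, h3, h4, h5⟩ := exists_contDiff_tsupport_subset (n := 1) (hU.mem_nhds hxU)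
    refine ⟨φ, f, V, U, hf, hV, hU, hUX, h1, h3, fun y => (h4 ⟨y, rfl⟩).1, by rw [h5]; norm_num⟩
  choose! φ f V U hf hV hU hUX hs hφ hφ0 hφp using key
  obtain ⟨t, htX, ht⟩ := hX.compact.elim_nhds_subcover (fun x => {y | 0 < φ x y}) (fun x hx =>
    (isOpen_lt continuous_const (hφ x hx).continuous).mem_nhds (hφp x hx))
  set Φ : E → ℝ := fun y => ∑ x ∈ t, φ x y with hΦ
  have hΦC : ContDiff ℝ 1 Φ := ContDiff.sum fun x hx => hφ x (htX x hx)
  have hΦp : ∀ y ∈ X, 0 < Φ y := by
    intro y hy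
    obtain ⟨x, hx, hxy⟩ := mem_iUnion₂.1 (ht hy)
    exact Finset.sum_pos' (fun z hz => hφ0 z (htX z hz) y) ⟨x, hx, hxy⟩
  set β' : E → Ext E := fun y => (Φ y)⁻¹ • β y with hβ'
  have hβ'C : ∀ x ∈ X, ContDiffAt ℝ 1 β' x := fun x hx =>
    (hΦC.contDiffAt.inv (hΦp x hx).ne').smul (hβ x hx)
  have hterm : ∀ i ∈ t, ∀ x ∈ X, ContDiffAt ℝ 1 (fun y => φ i y • β' y) x := fun i hi x hx =>
    (hφ i (htX i hi)).contDiffAt.smul (hβ'C x hx)
  have hsum : ∀ x ∈ X, Crest.Agent.R208.F.d β x
      = ∑ i ∈ t, Crest.Agent.R208.F.d (fun y => φ i y • β' y) x := by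
    intro x hx
    rw [← d_sum t fun i hi => (hterm i hi x hx).differentiableAt (by norm_num)]
    apply d_congr
    filter_upwards [hΦC.continuous.continuousAt.eventually (lt_mem_nhds (hΦp x hx))] with y hy
    rw [← Finset.sum_smul, hβ', smul_smul]
    change β y = (Φ y * (Φ y)⁻¹) • β y
    rw [mul_inv_cancel₀ hy.ne', one_smul]
  rw [J_congr' hX hsum, J_sum hX ho t fun i hi => continuousOn_d (hterm i hi)]
  refine Finset.sum_eq_zero fun i hi => ?_
  refine stokes_chart hX ho (hf i (htX i hi)) (hV i (htX i hi)) (hterm i hi) (hU i (htX i hi))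
    (hUX i (htX i hi)) ?_
  exact (tsupport_smul_subset_left _ _).trans (hs i (htX i hi))

end Crest.Agent.R208.FI
end
end

-- ▼ part R208/FI1e

/-! Row 208, block F2 (helper349), part FI1e: positivity, change of orientation, conversion. -/

set_option autoImplicit false
set_option linter.unusedSectionVars false
set_option linter.unusedVariables false

open Set Filter Topology Module MeasureTheory MeasureTheory.Measure
open scoped ContDiff
open Crest.Agent.R208.F

noncomputable section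

namespace Crest.Agent.R208.FI

/-- a compact `C^∞` submanifold of `ℝ^N` (in the sense of the prelude) is a `Clo`. -/
theorem clo_of_isSubmanifold {n N : ℕ} {S : Set (EuclideanSpace ℝ (Fin N))}
    (hS : Crest.GeometryTopology.Submanifold.IsSubmanifold n N S) (hc : IsCompact S) :
    Clo n S := by
  refine ⟨hc, fun x hx => ?_⟩
  obtain ⟨f, V, hf⟩ := hS x hx
  exact ⟨f, V, ⟨hf.isOpen, hf.contDiffOn, hf.injOn, hf.injective_fderiv, hf.image_open⟩,
    0, hf.zero_mem, hf.map_zero⟩

variable {E : Type*} [NormedAddCommGroup E] [NormedSpace ℝ E] [FiniteDimensional ℝ E]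
  {n : ℕ} {X : Set E} {o o' om om' β : E → Ext E}
  {f : Eu n → E} {V : Set (Eu n)}

/-- evaluation on an arbitrary family of tangent vectors, in terms of the frame -/
theorem exists_det {x : E} (hT : finrank ℝ (Tan X x) = n) {w : Fin n → E}
    (hw : ∀ i, w i ∈ Tan X x) :
    ∃ δ : ℝ, (∀ c : Ext E, evA E n c w = δ * evA E n c (frame n X x)) ∧
      (LinearIndependent ℝ w → δ ≠ 0) := by
  classical
  set fr := frame n X x with hfr
  have hfrT := frame_isFrame hT
  let M : Matrix (Fin n) (Fin n) ℝ := Matrix.of fun i j =>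
    (inner ℝ ((toEuclidean : E ≃L[ℝ] _) (fr j)) ((toEuclidean : E ≃L[ℝ] _) (w i)) : ℝ)
  have hM : ∀ i, w i = ∑ j, M i j • fr j := fun i => hfrT.sum_eq hT (hw i)
  refine ⟨M.det, fun c => evA_comb n c fr w M hM, fun hli hdet => ?_⟩
  obtain ⟨c, hc0, hc⟩ := Matrix.exists_vecMul_eq_zero_iff.2 hdet
  have h1 : ∑ i, c i • w i = 0 := by
    have : ∑ i, c i • w i = ∑ j, (Matrix.vecMul c M) j • fr j := by
      simp_rw [hM, Finset.smul_sum, smul_smul]
      rw [Finset.sum_comm]
      refine Finset.sum_congr rfl fun j _ => ?_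
      rw [← Finset.sum_smul]
      rfl
    rw [this, hc]; simp
  have h2 := Fintype.linearIndependent_iff.1 hli c h1
  exact hc0 (funext h2)

theorem Clo.exists_det (hX : Clo n X) {x : E} (hx : x ∈ X) {w : Fin n → E}
    (hw : ∀ i, w i ∈ Tan X x) :
    ∃ δ : ℝ, (∀ c : Ext E, evA E n c w = δ * evA E n c (frame n X x)) ∧
      (LinearIndependent ℝ w → δ ≠ 0) := FI.exists_det (hX.finrank_Tan hx) hw

/-- to check `Ori` any tangent frames can be used. -/
theorem ori_of (hX : Clo n X) (hc : ContinuousOn o X)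
    (h : ∀ x ∈ X, ∃ w : Fin n → E, (∀ i, w i ∈ Tan X x) ∧ evA E n (o x) w ≠ 0) : Ori n X o := by
  refine ⟨hc, fun x hx h0 => ?_⟩
  obtain ⟨w, hw, hne⟩ := h x hx
  obtain ⟨δ, h1, -⟩ := hX.exists_det hx hw
  exact hne (by rw [h1, h0, mul_zero])

theorem Ori.ne' (ho : Ori n X o) (hX : Clo n X) {x : E} (hx : x ∈ X) {w : Fin n → E}
    (hw : ∀ i, w i ∈ Tan X x) (hli : LinearIndependent ℝ w) : evA E n (o x) w ≠ 0 := by
  obtain ⟨δ, h1, h2⟩ := hX.exists_det hx hw
  rw [h1]
  exact mul_ne_zero (h2 hli) (ho.ne x hx)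

/-- the density, computed with any basis `w` of the tangent space -/
theorem dens_eq_of_basis (hX : Clo n X) {x : E} (hx : x ∈ X) {w : Fin n → E}
    (hw : ∀ i, w i ∈ Tan X x) (hli : LinearIndependent ℝ w) (ho : Ori n X o) :
    dens n X o om x = evA E n (om x) w / evA E n (o x) w * |evA E n (o x) (frame n X x)| := by
  obtain ⟨δ, h1, h2⟩ := hX.exists_det hx hw
  have h3 := ho.ne x hx
  have h4 := h2 hli
  rw [dens, h1, h1, ← mul_sign]
  field_simp

/-- comparison of the densities of `om` and `r • om'` -/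
theorem dens_nonneg_iff (hX : Clo n X) {x : E} (hx : x ∈ X) {w : Fin n → E}
    (hw : ∀ i, w i ∈ Tan X x) (hli : LinearIndependent ℝ w) (ho : Ori n X o) :
    0 ≤ dens n X o om x ↔ 0 ≤ evA E n (om x) w * evA E n (o x) w := by
  have h3 := abs_pos.2 (ho.ne x hx)
  have h4 := ho.ne' hX hx hw hli
  rw [dens_eq_of_basis hX hx hw hli ho, mul_nonneg_iff_of_pos_right h3, div_nonneg_iff,
    mul_nonneg_iff]

/-! ### positivity -/

theorem J_nonneg (hX : Clo n X) (h : ∀ x ∈ X, 0 ≤ dens n X o om x) : 0 ≤ J n X o om := by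
  refine setIntegral_nonneg hX.measurableSet ?_
  rintro _ ⟨x, hx, rfl⟩
  simpa using h x hx

theorem J_mono (hX : Clo n X) (ho : Ori n X o) (hom : ContinuousOn om X)
    (hom' : ContinuousOn om' X) (h : ∀ x ∈ X, dens n X o om x ≤ dens n X o om' x) :
    J n X o om ≤ J n X o om' := by
  refine setIntegral_mono_on (integrableOn_dens hX ho hom) (integrableOn_dens hX ho hom')
    hX.measurableSet ?_
  rintro _ ⟨x, hx, rfl⟩
  simpa using h x hx

theorem J_pos_of (hX : Clo n X) (ho : Ori n X o) (hom : ContinuousOn om X)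
    (h : ∀ x ∈ X, 0 ≤ dens n X o om x) {x0 : E} (hx0 : x0 ∈ X) (h0 : 0 < dens n X o om x0) :
    0 < J n X o om := by
  have hc := continuousOn_dens hX ho hom
  set c := dens n X o om x0 with hcdef
  -- a neighbourhood of `x0` where the density is `≥ c/2`
  have h1 : {y | c / 2 < dens n X o om y} ∈ 𝓝[X] x0 :=
    (hc x0 hx0) (lt_mem_nhds (by linarith))
  obtain ⟨U, hU, hxU, hUX⟩ := mem_nhdsWithin.1 h1
  have hsub : (toEuclidean : E ≃L[ℝ] _) '' (X ∩ U) ⊆ (toEuclidean : E ≃L[ℝ] _) '' X :=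
    image_mono inter_subset_left
  have hmeas : MeasurableSet ((toEuclidean : E ≃L[ℝ] _) '' (X ∩ U)) := by
    rw [image_inter (toEuclidean : E ≃L[ℝ] _).injective]
    exact hX.measurableSet.inter
      ((toEuclidean : E ≃L[ℝ] _).toHomeomorph.isOpenMap U hU).measurableSet
  have hint := integrableOn_dens hX ho hom
  have h2 : ∫ y in (toEuclidean : E ≃L[ℝ] _) '' (X ∩ U), dens n X o om (toEuclidean.symm y) ∂μHE[n]
      ≤ J n X o om := by
    refine setIntegral_mono_set hint ?_ (Eventually.of_forall fun y hy => hsub hy)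
    filter_upwards [ae_restrict_mem hX.measurableSet] with y hy
    obtain ⟨x, hx, rfl⟩ := hy
    simpa using h x hx
  have hfin : μHE[n] ((toEuclidean : E ≃L[ℝ] _) '' (X ∩ U)) < ⊤ :=
    lt_of_le_of_lt (measure_mono hsub) hX.measure_lt_top
  have h3 : ∫ y in (toEuclidean : E ≃L[ℝ] _) '' (X ∩ U), (c / 2 : ℝ) ∂μHE[n] ≤
      ∫ y in (toEuclidean : E ≃L[ℝ] _) '' (X ∩ U), dens n X o om (toEuclidean.symm y) ∂μHE[n] := by
    refine setIntegral_mono_on (integrableOn_const hfin.ne) (hint.mono_set hsub) hmeas ?_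
    rintro _ ⟨x, hx, rfl⟩
    have : x ∈ {y | c / 2 < dens n X o om y} := hUX ⟨hx.2, hx.1⟩
    simpa using le_of_lt this
  rw [setIntegral_const, smul_eq_mul] at h3
  have h4 : 0 < μHE[n].real ((toEuclidean : E ≃L[ℝ] _) '' (X ∩ U)) :=
    ENNReal.toReal_pos (hX.measure_pos hU ⟨x0, hx0, hxU⟩).ne' hfin.ne
  have h5 : 0 < μHE[n].real ((toEuclidean : E ≃L[ℝ] _) '' (X ∩ U)) * (c / 2) :=
    mul_pos h4 (by linarith)
  linarith

theorem dens_self (ho : Ori n X o) {x : E} (hx : x ∈ X) : 0 < dens n X o o x := by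
  rw [dens, mul_sign]; exact abs_pos.2 (ho.ne x hx)

/-- the orientation form itself has positive integral -/
theorem J_pos (hX : Clo n X) (ho : Ori n X o) (hne : X.Nonempty) : 0 < J n X o o := by
  obtain ⟨x0, hx0⟩ := hne
  exact J_pos_of hX ho ho.cont (fun x hx => (dens_self ho hx).le) hx0 (dens_self ho hx0)

/-! ### change of orientation -/

theorem Ori.neg (ho : Ori n X o) : Ori n X (fun x => - o x) :=
  ⟨ho.cont.neg, fun x hx h => ho.ne x hx (by simpa using h)⟩

theorem dens_neg_ori (x : E) : dens n X (fun x => - o x) om x = - dens n X o om x := by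
  simp only [dens, map_neg, AlternatingMap.neg_apply, Real.sign_neg]; ring

theorem J_neg_ori : J n X (fun x => - o x) om = - J n X o om := by
  rw [J, J, ← integral_neg]
  simp only [dens_neg_ori]

/-- orientations with the same sign give the same integral. -/
theorem J_ori_congr (hX : Clo n X)
    (h : ∀ x ∈ X, 0 < evA E n (o x) (frame n X x) * evA E n (o' x) (frame n X x)) :
    J n X o om = J n X o' om := by
  rw [J, J]
  refine setIntegral_congr_fun hX.measurableSet ?_
  rintro _ ⟨x, hx, rfl⟩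
  simp only [ContinuousLinearEquiv.symm_apply_apply, dens]
  congr 1
  have h1 := h x hx
  rcases pos_and_pos_or_neg_and_neg_of_mul_pos h1 with ⟨h2, h3⟩ | ⟨h2, h3⟩
  · rw [Real.sign_of_pos h2, Real.sign_of_pos h3]
  · rw [Real.sign_of_neg h2, Real.sign_of_neg h3]

theorem J_ori_smul (hX : Clo n X) (ho : Ori n X o) {g : E → ℝ} (hg : ∀ x ∈ X, 0 < g x) :
    J n X (fun x => g x • o x) om = J n X o om := by
  refine J_ori_congr hX fun x hx => ?_
  simp only [map_smul, AlternatingMap.smul_apply, smul_eq_mul, mul_assoc]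
  exact mul_pos (hg x hx) (mul_self_pos.2 (ho.ne x hx))

/-- on a connected `X` two orientations agree up to a global sign. -/
theorem J_ori_connected (hX : Clo n X) (ho : Ori n X o) (ho' : Ori n X o')
    (hconn : IsPreconnected X) :
    (∀ om : E → Ext E, J n X o' om = J n X o om) ∨ (∀ om : E → Ext E, J n X o' om = - J n X o om) := by
  classical
  have hc := continuousOn_dens hX ho ho'.cont
  have hne : ∀ x ∈ X, dens n X o o' x ≠ 0 := by
    intro x hx
    rw [dens]
    refine mul_ne_zero (ho'.ne x hx) ?_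
    rcases Real.sign_apply_eq_of_ne_zero _ (ho.ne x hx) with h | h <;> rw [h] <;> norm_num
  have himg := (hconn.image _ hc).ordConnected
  have h0 : (0 : ℝ) ∉ dens n X o o' '' X := by
    rintro ⟨x, hx, h⟩; exact hne x hx h
  have hsgn : (∀ x ∈ X, 0 < dens n X o o' x) ∨ (∀ x ∈ X, dens n X o o' x < 0) := by
    by_contra hcon
    push Not at hcon
    obtain ⟨⟨x, hx, hx'⟩, y, hy, hy'⟩ := hcon
    exact h0 (himg.out ⟨x, hx, rfl⟩ ⟨y, hy, rfl⟩ ⟨hx', hy'⟩)
  have hmul : ∀ x ∈ X, dens n X o o' x * |evA E n (o x) (frame n X x)| =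
      evA E n (o x) (frame n X x) * evA E n (o' x) (frame n X x) := by
    intro x hx
    rw [dens, ← mul_sign]
    have : Real.sign (evA E n (o x) (frame n X x)) * Real.sign (evA E n (o x) (frame n X x)) = 1 := by
      rcases Real.sign_apply_eq_of_ne_zero _ (ho.ne x hx) with h | h <;> rw [h] <;> norm_num
    calc _ = evA E n (o x) (frame n X x) * evA E n (o' x) (frame n X x) *
        (Real.sign (evA E n (o x) (frame n X x)) * Real.sign (evA E n (o x) (frame n X x))) := by ring
      _ = _ := by rw [this, mul_one]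
  rcases hsgn with h | h
  · left
    intro om
    refine (J_ori_congr hX fun x hx => ?_).symm
    rw [← hmul x hx]
    exact mul_pos (h x hx) (abs_pos.2 (ho.ne x hx))
  · right
    intro om
    rw [← J_neg_ori]
    refine (J_ori_congr hX fun x hx => ?_).symm
    rw [map_neg, AlternatingMap.neg_apply, neg_mul, ← hmul x hx]
    have := mul_neg_of_neg_of_pos (h x hx) (abs_pos.2 (ho.ne x hx))
    linarith

end Crest.Agent.R208.FI
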