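import Crest.Agent.R208.FH6
import Crest.Agent.R208.FI1e
import Crest.Agent.R208.FH9a
import Crest.Agent.R208.FH10a

-- ▼ part R208/FH8
section

/-! Row 208, block F2 (helper198), part FH8: the tangent space of the fibres; **continuity of
fibre integrals**. -/

set_option autoImplicit false
set_option linter.unusedSectionVars false

open MeasureTheory MeasureTheory.Measure Set Filter Topology Module
open scoped ContDiff
open Crest.Agent.R208.F

noncomputable section

namespace Crest.Agent.R208.FI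

variable {E E' : Type*} [NormedAddCommGroup E] [NormedSpace ℝ E] [FiniteDimensional ℝ E]
  [NormedAddCommGroup E'] [NormedSpace ℝ E'] [FiniteDimensional ℝ E']

/-- parametric integrals over compact sets are continuous. -/
theorem continuousAt_integral_compact {r d : ℕ} {g : Eu r × Eu d → ℝ} {K : Set (Eu r)}
    (hK : IsCompact K) {B : Set (Eu d)} (hB : IsOpen B) (hg : ContinuousOn g (K ×ˢ B))
    {b₀ : Eu d} (hb₀ : b₀ ∈ B) : ContinuousAt (fun b => ∫ a in K, g (a, b)) b₀ := by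
  obtain ⟨U, hUn, hU, hUB⟩ := exists_mem_nhds_isCompact_mapsTo (f := id) (s := B) (x := b₀)
    continuous_id (hB.mem_nhds hb₀)
  have hUB' : U ⊆ B := hUB
  have hcU : ContinuousOn g (K ×ˢ U) := hg.mono (prod_mono_right hUB')
  obtain ⟨C, hC⟩ := (hK.prod hU).exists_bound_of_continuousOn hcU
  refine continuousAt_of_dominated (bound := fun _ => C) ?_ ?_ ?_ ?_
  · filter_upwards [hUn] with b hb
    refine ContinuousOn.aestronglyMeasurable ?_ hK.measurableSet
    exact hcU.comp (by fun_prop) fun a ha => ⟨ha, hb⟩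
  · filter_upwards [hUn] with b hb
    filter_upwards [ae_restrict_mem hK.measurableSet] with a ha
    exact hC _ ⟨ha, hb⟩
  · exact integrableOn_const hK.measure_ne_top
  · filter_upwards [ae_restrict_mem hK.measurableSet] with a ha
    have h1 : ContinuousOn (fun b => g (a, b)) B :=
      hg.comp (by fun_prop) fun b hb => ⟨ha, hb⟩
    exact h1.continuousAt (hB.mem_nhds hb₀)

theorem continuousOn_pb {Y : Type*} [TopologicalSpace Y] {S : Set Y} {A : Y → (E' →L[ℝ] E)}
    {c : Y → Ext E} (hA : ContinuousOn A S) (hc : ContinuousOn c S) :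
    ContinuousOn (fun y => pb ((A y : E' →L[ℝ] E) : E' →ₗ[ℝ] E) (c y)) S := by
  have : (fun y => pb ((A y : E' →L[ℝ] E) : E' →ₗ[ℝ] E) (c y)) = fun y => ∑ J,
      (extBasis E).coord J (c y) • pb ((A y : E' →L[ℝ] E) : E' →ₗ[ℝ] E) (extBasis E J) := by
    funext y
    conv_lhs => rw [← (extBasis E).sum_repr (c y)]
    simp only [_root_.map_sum, _root_.map_smul]
    rfl
  rw [this]
  refine continuousOn_finsetSum _ fun J _ => ?_
  refine ContinuousOn.smul (f := fun y => (extBasis E).coord J (c y))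
    (g := fun y => pb ((A y : E' →L[ℝ] E) : E' →ₗ[ℝ] E) (extBasis E J)) ?_ ?_
  · exact (LinearMap.toContinuousLinearMap ((extBasis E).coord J)).continuous.comp_continuousOn hc
  · exact (contDiff_pb_apply (n := 0) (extBasis E J)).continuous.comp_continuousOn hA

section fib
open Adapted (inA)
variable {r d : ℕ} {Z : Set E'} {X : Set E} {π : E' → E} {f : Eu d → E} {V : Set (Eu d)}
  {Φ : Eu (r + d) → E'} {A : Set (Eu r)} {B : Set (Eu d)}
  {oX : E → Ext E} {oV η ψ : E' → Ext E'}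

/-- the tangent spaces of the fibres -/
theorem Subm.tan_fibre (h : Subm r d Z X π) {z : E'} (hz : z ∈ Z) :
    Tan (Z ∩ π ⁻¹' {π z}) z = Tan Z z ⊓ LinearMap.ker (fderiv ℝ π z : E' →ₗ[ℝ] E) := by
  obtain ⟨f, V, Φ, A, B, hAd, p, hp, rfl⟩ := h.exists_adapted hz
  have ha : (kap r d p).1 ∈ A := hp.1
  have hb : (kap r d p).2 ∈ B := hp.2
  have hp' : inA r d (kap r d p).2 (kap r d p).1 = p :=
    ContinuousLinearEquiv.symm_apply_apply _ _
  have h1 : π (Φ p) = f (kap r d p).2 := hAd.comm p hp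
  have hF := hAd.fibre hb
  have hdπ : DifferentiableAt ℝ π (Φ p) := (h.smooth _ hz).differentiableAt (by simp)
  have hR := range_fderiv_eq_Tan hF ha
  simp only [hp'] at hR
  rw [h1, ← hR, ← range_fderiv_eq_Tan hAd.chart hp]
  have hv : ∀ v, fderiv ℝ (fun a => Φ (inA r d (kap r d p).2 a)) (kap r d p).1 v =
      fderiv ℝ Φ p ((kap r d).symm (v, 0)) := fun v => by
    have := hAd.fderiv_fibre ha hb v
    rwa [hp'] at this
  ext w
  rw [Submodule.mem_inf, LinearMap.mem_ker, LinearMap.mem_range, LinearMap.mem_range]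
  constructor
  · rintro ⟨v, rfl⟩
    refine ⟨⟨(kap r d).symm (v, 0), (hv v).symm⟩, ?_⟩
    have h2 := hAd.comp_snd_eq hp hdπ ((kap r d).symm (v, 0))
    rw [ContinuousLinearEquiv.apply_symm_apply, map_zero, ← hv] at h2
    exact h2
  · rintro ⟨⟨u, rfl⟩, hu⟩
    have h2 := hAd.comp_snd_eq hp hdπ u
    have h3 : fderiv ℝ f (kap r d p).2 (kap r d u).2 = 0 := by rw [← h2]; exact hu
    have h4 : (kap r d u).2 = 0 := hAd.base.inj _ (hAd.sub hb) (by rw [h3, map_zero])
    refine ⟨(kap r d u).1, ?_⟩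
    have h5 : (kap r d).symm ((kap r d u).1, 0) = u := by
      rw [← h4]; exact ContinuousLinearEquiv.symm_apply_apply _ _
    have h6 := hv (kap r d u).1
    rw [h5] at h6
    exact h6

/-- the integrand of the fibre integral -/
def gF (r d : ℕ) (Φ : Eu (r + d) → E') (oV ψ : E' → Ext E') (q : Eu r × Eu d) : ℝ :=
  top r (pull (fun a => Φ (inA r d q.2 a)) ψ q.1) *
    Real.sign (top r (pull (fun a => Φ (inA r d q.2 a)) oV q.1))

/-- local expression of the fibre integral of a form supported in a chart -/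
theorem fibre_integral_local (h : Subm r d Z X π) (hAd : Adapted r d Z X π f V Φ A B)
    (hs : Z ∩ tsupport ψ ⊆ Φ '' (kap r d ⁻¹' (A ×ˢ B))) {b : Eu d} (hb : b ∈ B) :
    J r (Z ∩ π ⁻¹' {f b}) oV ψ = ∫ a in A, gF r d Φ oV ψ (a, b) := by
  have h0 : ∀ z ∈ Z ∩ π ⁻¹' {f b}, z ∉ (fun a => Φ (inA r d b a)) '' A →
      evA E' r (ψ z) (frame r (Z ∩ π ⁻¹' {f b}) z) = 0 := ?_
  · have h1 := J_eq_chart (o := oV) (om := ψ) (h.clo_fibre (f b)) (hAd.fibre hb) h0
    rw [h1]
    simp only [gF]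
  rintro z ⟨hz, hzb⟩ hzA
  by_cases hψ : z ∈ tsupport ψ
  · exfalso
    apply hzA
    have h1 : z ∈ Φ '' (kap r d ⁻¹' (A ×ˢ B)) ∩ π ⁻¹' {f b} := ⟨hs ⟨hz, hψ⟩, hzb⟩
    rw [← fibre_image hAd Subset.rfl hb] at h1
    obtain ⟨a, ha, rfl⟩ := h1
    refine ⟨a, ?_, rfl⟩
    have h2 : kap r d (inA r d b a) ∈ A ×ˢ B := ha
    rw [show kap r d (inA r d b a) = (a, b) from ContinuousLinearEquiv.apply_symm_apply _ _] at h2
    exact h2.1
  · rw [image_eq_zero_of_notMem_tsupport hψ, map_zero]; rfl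

theorem continuousOn_top_fibre (h : Subm r d Z X π) (hAd : Adapted r d Z X π f V Φ A B)
    (hψ : ContinuousOn ψ Z) :
    ContinuousOn (fun q : Eu r × Eu d => top r (pull (fun a => Φ (inA r d q.2 a)) ψ q.1))
      (A ×ˢ B) := by
  have h1 : ContinuousOn (fun q : Eu r × Eu d => (fderiv ℝ Φ ((kap r d).symm q)).comp
      (((kap r d).symm : (Eu r × Eu d) →L[ℝ] Eu (r + d)).comp
        (ContinuousLinearMap.inl ℝ (Eu r) (Eu d)))) (A ×ˢ B) := by
    refine ContinuousOn.clm_comp ?_ continuousOn_const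
    refine (continuousOn_fderiv_chart hAd.chart).comp (kap r d).symm.continuous.continuousOn ?_
    rintro ⟨a, b⟩ ⟨ha, hb⟩
    exact Adapted.mem_dom ha hb
  have h2 : ContinuousOn (fun q : Eu r × Eu d => ψ (Φ ((kap r d).symm q))) (A ×ˢ B) := by
    refine hψ.comp (hAd.chart.contDiffOn.continuousOn.comp
      (kap r d).symm.continuous.continuousOn ?_) ?_
    · rintro ⟨a, b⟩ ⟨ha, hb⟩
      exact Adapted.mem_dom ha hb
    · rintro ⟨a, b⟩ ⟨ha, hb⟩
      exact hAd.chart.mem (Adapted.mem_dom ha hb)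
  refine (continuous_top.comp_continuousOn (continuousOn_pb h1 h2)).congr ?_
  rintro ⟨a, b⟩ ⟨ha, hb⟩
  have h3 : fderiv ℝ (fun a => Φ (inA r d b a)) a = (fderiv ℝ Φ ((kap r d).symm (a, b))).comp
      (((kap r d).symm : (Eu r × Eu d) →L[ℝ] Eu (r + d)).comp
        (ContinuousLinearMap.inl ℝ (Eu r) (Eu d))) := by
    ext1 v
    rw [hAd.fderiv_fibre ha hb]
    rfl
  show top r (pb ((fderiv ℝ (fun a => Φ (inA r d b a)) a : Eu r →L[ℝ] E') : Eu r →ₗ[ℝ] E')
    (ψ (Φ (inA r d b a)))) = _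
  rw [h3]
  rfl

theorem continuousOn_gF (h : Subm r d Z X π) (hAd : Adapted r d Z X π f V Φ A B)
    (hoV : ContinuousOn oV Z) (hori : ∀ x, Ori r (Z ∩ π ⁻¹' {x}) oV) (hψ : ContinuousOn ψ Z) :
    ContinuousOn (gF r d Φ oV ψ) (A ×ˢ B) := by
  refine ContinuousOn.mul (continuousOn_top_fibre h hAd hψ) ?_
  rintro ⟨a, b⟩ ⟨ha, hb⟩
  exact ContinuousAt.comp_continuousWithinAt (g := Real.sign)
    (f := fun q : Eu r × Eu d => top r (pull (fun a => Φ (inA r d q.2 a)) oV q.1))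
    (continuousAt_sign ((hAd.fibre hb).top_ne_zero (hori (f b)) ha))
    (continuousOn_top_fibre h hAd hoV (a, b) ⟨ha, hb⟩)

/-- continuity of the fibre integral of a form supported in a chart -/
theorem continuousOn_fibre_local (h : Subm r d Z X π) (hAd : Adapted r d Z X π f V Φ A B)
    (hoV : ContinuousOn oV Z) (hori : ∀ x, Ori r (Z ∩ π ⁻¹' {x}) oV) (hψ : ContinuousOn ψ Z)
    (hs : Z ∩ tsupport ψ ⊆ Φ '' (kap r d ⁻¹' (A ×ˢ B))) :
    ContinuousOn (fun x => J r (Z ∩ π ⁻¹' {x}) oV ψ) X := by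
  set D := kap r d ⁻¹' (A ×ˢ B) with hD
  have hinv : ∀ v ∈ D, Function.invFunOn Φ D (Φ v) = v := fun v hv =>
    hAd.chart.injOn (Function.invFunOn_mem ⟨v, hv, rfl⟩) hv (Function.invFunOn_eq ⟨v, hv, rfl⟩)
  have hC : IsCompact (Z ∩ tsupport ψ) := h.cloZ.compact.inter_right (isClosed_tsupport ψ)
  set K := Function.invFunOn Φ D '' (Z ∩ tsupport ψ) with hKdef
  have hK : IsCompact K := hC.image_of_continuousOn (hAd.chart.continuousOn_inv.mono hs)
  have hKD : K ⊆ D := by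
    rintro _ ⟨x, hx, rfl⟩
    exact Function.invFunOn_mem (hs hx)
  set KA := (fun p => (kap r d p).1) '' K with hKA
  have hKAc : IsCompact KA := hK.image (continuous_fst.comp (kap r d).continuous)
  have hKAA : KA ⊆ A := by
    rintro _ ⟨p, hp, rfl⟩
    exact (hKD hp).1
  have hloc : ∀ b ∈ B, J r (Z ∩ π ⁻¹' {f b}) oV ψ = ∫ a in KA, gF r d Φ oV ψ (a, b) := by
    intro b hb
    rw [fibre_integral_local h hAd hs hb]
    refine setIntegral_eq_of_subset_of_forall_sdiff_eq_zero hAd.hA.measurableSet hKAA ?_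
    rintro a ⟨ha, haK⟩
    have hz : Φ (inA r d b a) ∉ tsupport ψ := by
      intro hz
      apply haK
      have hmem : inA r d b a ∈ D := Adapted.mem_dom ha hb
      refine ⟨inA r d b a, ⟨Φ (inA r d b a), ⟨hAd.chart.mem hmem, hz⟩, hinv _ hmem⟩, ?_⟩
      show (kap r d (inA r d b a)).1 = a
      rw [show kap r d (inA r d b a) = (a, b) from ContinuousLinearEquiv.apply_symm_apply _ _]
    rw [gF]
    have h1 : pull (fun a => Φ (inA r d b a)) ψ a = 0 := by
      show pb _ (ψ (Φ (inA r d b a))) = 0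
      rw [image_eq_zero_of_notMem_tsupport hz, map_zero]
    show top r (pull (fun a => Φ (inA r d b a)) ψ a) * _ = 0
    rw [h1, map_zero, zero_mul]
  have hcont : ∀ b ∈ B, ContinuousAt (fun b => ∫ a in KA, gF r d Φ oV ψ (a, b)) b :=
    fun b hb => continuousAt_integral_compact hKAc hAd.hB
      ((continuousOn_gF h hAd hoV hori hψ).mono (prod_mono_left hKAA)) hb
  have hfB : Chart d X f B := hAd.base.mono hAd.sub hAd.hB
  obtain ⟨U, hU, hUe⟩ := hfB.image_open B Subset.rfl hAd.hB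
  intro x hx
  by_cases hxB : x ∈ f '' B
  · have hinvf : ∀ v ∈ B, Function.invFunOn f B (f v) = v := fun v hv =>
      hfB.injOn (Function.invFunOn_mem ⟨v, hv, rfl⟩) hv (Function.invFunOn_eq ⟨v, hv, rfl⟩)
    obtain ⟨b, hb, rfl⟩ := hxB
    have h1 : ContinuousWithinAt (fun x => ∫ a in KA, gF r d Φ oV ψ
        (a, Function.invFunOn f B x)) (f '' B) (f b) := by
      have h2 := hfB.continuousOn_inv (f b) ⟨b, hb, rfl⟩
      have h3 := hcont b hb
      rw [← hinvf b hb] at h3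
      exact ContinuousAt.comp_continuousWithinAt (g := fun b => ∫ a in KA, gF r d Φ oV ψ (a, b)) h3 h2
    have h4 : ContinuousWithinAt (fun x => J r (Z ∩ π ⁻¹' {x}) oV ψ) (f '' B) (f b) := by
      refine h1.congr ?_ ?_
      · rintro _ ⟨b', hb', rfl⟩
        rw [hinvf b' hb']; exact hloc b' hb'
      · rw [hinvf b hb]; exact hloc b hb
    rw [hUe] at h4
    have hbU : f b ∈ U := by
      have : f b ∈ f '' B := ⟨b, hb, rfl⟩
      rw [hUe] at this; exact this.2
    exact (continuousWithinAt_inter (hU.mem_nhds hbU)).1 h4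
  · have hπK : IsCompact (π '' (Z ∩ tsupport ψ)) :=
      hC.image_of_continuousOn (h.continuousOn.mono inter_subset_left)
    have hxK : x ∉ π '' (Z ∩ tsupport ψ) := by
      rintro ⟨z, hz, rfl⟩
      obtain ⟨p, hp, hpz⟩ := hs hz
      apply hxB
      refine ⟨(kap r d p).2, hp.2, ?_⟩
      rw [← hpz]
      exact (hAd.comm p hp).symm
    have hev : ∀ᶠ y in 𝓝 x, y ∉ π '' (Z ∩ tsupport ψ) :=
      hπK.isClosed.isOpen_compl.mem_nhds hxK
    have h0 : ∀ y, y ∉ π '' (Z ∩ tsupport ψ) → J r (Z ∩ π ⁻¹' {y}) oV ψ = 0 := by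
      intro y hy
      refine J_eq_zero (h.clo_fibre y) ?_
      rintro z ⟨hz, hzy⟩ w -
      have hzs : z ∉ tsupport ψ := fun hzs => hy ⟨z, ⟨hz, hzs⟩, hzy⟩
      rw [image_eq_zero_of_notMem_tsupport hzs, map_zero]; rfl
    have h5 : (fun y => J r (Z ∩ π ⁻¹' {y}) oV ψ) =ᶠ[𝓝 x] fun _ => 0 := by
      filter_upwards [hev] with y hy using h0 y hy
    exact (continuousAt_const.congr h5.symm).continuousWithinAt

/-- **continuity of fibre integrals** -/
theorem Subm.continuousOn_fibre (h : Subm r d Z X π) (hoV : ContinuousOn oV Z)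
    (hori : ∀ x, Ori r (Z ∩ π ⁻¹' {x}) oV) (hη : ContinuousOn η Z) :
    ContinuousOn (fun x => J r (Z ∩ π ⁻¹' {x}) oV η) X := by
  classical
  have key : ∀ z : E', z ∈ Z → ∃ (φ : E' → ℝ) (f : Eu d → E) (V : Set (Eu d))
      (Φ : Eu (r + d) → E') (A : Set (Eu r)) (B : Set (Eu d)) (U : Set E'),
      Adapted r d Z X π f V Φ A B ∧ Φ '' (kap r d ⁻¹' (A ×ˢ B)) = Z ∩ U ∧ tsupport φ ⊆ U ∧
      Continuous φ ∧ (∀ y, 0 ≤ φ y) ∧ 0 < φ z := by
    intro z hz
    obtain ⟨f, V, Φ, A, B, hAd, hz'⟩ := h.exists_adapted hz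
    obtain ⟨U, hU, hUe⟩ := hAd.chart.image_open _ Subset.rfl hAd.chart.isOpen
    rw [hUe] at hz'
    obtain ⟨φ, h1, h2, h3, h4, h5⟩ := exists_contDiff_tsupport_subset (n := 1) (hU.mem_nhds hz'.2)
    exact ⟨φ, f, V, Φ, A, B, U, hAd, hUe, h1, h3.continuous, fun y => (h4 ⟨y, rfl⟩).1,
      by rw [h5]; norm_num⟩
  choose! φ f V Φ A B U hAd hUe hs hφ hφ0 hφp using key
  obtain ⟨t, htZ, ht⟩ := h.cloZ.compact.elim_nhds_subcover (fun z => {y | 0 < φ z y})
    (fun z hz => (isOpen_lt continuous_const (hφ z hz)).mem_nhds (hφp z hz))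
  set Ψ : E' → ℝ := fun y => ∑ z ∈ t, φ z y with hΨ
  have hΨC : Continuous Ψ := continuous_finsetSum _ fun z hz => hφ z (htZ z hz)
  have hΨp : ∀ y ∈ Z, 0 < Ψ y := by
    intro y hy
    obtain ⟨z, hz, hzy⟩ := mem_iUnion₂.1 (ht hy)
    exact Finset.sum_pos' (fun z hz => hφ0 z (htZ z hz) y) ⟨z, hz, hzy⟩
  set η' : E' → Ext E' := fun y => (Ψ y)⁻¹ • η y with hη'
  have hη'C : ContinuousOn η' Z := (hΨC.continuousOn.inv₀ fun y hy => (hΨp y hy).ne').smul hη
  have hterm : ∀ i ∈ t, ContinuousOn (fun y => φ i y • η' y) Z := fun i hi =>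
    (hφ i (htZ i hi)).continuousOn.smul hη'C
  have hsum : ∀ x, J r (Z ∩ π ⁻¹' {x}) oV η =
      ∑ i ∈ t, J r (Z ∩ π ⁻¹' {x}) oV (fun y => φ i y • η' y) := by
    intro x
    rw [← J_sum (h.clo_fibre x) (hori x) t fun i hi => (hterm i hi).mono inter_subset_left]
    refine J_congr' (h.clo_fibre x) ?_
    rintro y ⟨hy, -⟩
    rw [← Finset.sum_smul, hη', smul_smul]
    change η y = (Ψ y * (Ψ y)⁻¹) • η y
    rw [mul_inv_cancel₀ (hΨp y hy).ne', one_smul]
  simp only [hsum]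
  refine continuousOn_finsetSum _ fun i hi => ?_
  refine continuousOn_fibre_local h (hAd i (htZ i hi)) hoV hori (hterm i hi) ?_
  rw [hUe i (htZ i hi)]
  exact inter_subset_inter_right _ ((tsupport_smul_subset_left _ _).trans (hs i (htZ i hi)))

end fib

end Crest.Agent.R208.FI
end
end

-- ▼ part R208/FH9
section

/-! Row 208, block F2 (helper198), part FH9: for a closed form `η` the **fibre integral is locally
constant**. -/

set_option autoImplicit false
set_option linter.unusedSectionVars false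

open MeasureTheory MeasureTheory.Measure Set Filter Topology Module
open scoped ContDiff
open Crest.Agent.R208.F

noncomputable section

namespace Crest.Agent.R208.FI

variable {E E' : Type*} [NormedAddCommGroup E] [NormedSpace ℝ E] [FiniteDimensional ℝ E]
  [NormedAddCommGroup E'] [NormedSpace ℝ E'] [FiniteDimensional ℝ E']

theorem two_le_infty : (2 : WithTop ℕ∞) ≤ ∞ := by
  have : ((2 : ℕ∞) : WithTop ℕ∞) ≤ ((⊤ : ℕ∞) : WithTop ℕ∞) := WithTop.coe_le_coe.2 le_top
  exact this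

theorem one_add_one_le_infty : (1 : WithTop ℕ∞) + 1 ≤ ∞ := by
  rw [one_add_one_eq_two]; exact two_le_infty

/-- the restriction of the form `om` to `X` vanishes. -/
def ResZero (X : Set E) (om : E → Ext E) : Prop := ∀ x ∈ X, pb (Tan X x).subtype (om x) = 0

theorem ResZero.evA {X : Set E} {om : E → Ext E} (h : ResZero X om) {x : E} (hx : x ∈ X) {q : ℕ}
    {w : Fin q → E} (hw : ∀ i, w i ∈ Tan X x) : evA E q (om x) w = 0 := by
  have h1 := evA_pb q (Tan X x).subtype (om x) (fun i => (⟨w i, hw i⟩ : Tan X x))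
  rw [h x hx, map_zero] at h1
  exact h1.symm

theorem ResZero.mul_right {X : Set E} {om : E → Ext E} (h : ResZero X om) (η : E → Ext E) :
    ResZero X (fun x => om x * η x) := fun x hx => by rw [map_mul, h x hx, zero_mul]

theorem ResZero.mul_left {X : Set E} {om : E → Ext E} (h : ResZero X om) (η : E → Ext E) :
    ResZero X (fun x => η x * om x) := fun x hx => by rw [map_mul, h x hx, mul_zero]

theorem ResZero.of_zero {X : Set E} {om : E → Ext E} (h : ∀ x ∈ X, om x = 0) : ResZero X om :=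
  fun x hx => by rw [h x hx, map_zero]

theorem dens_inv {n : ℕ} {X : Set E} {o om : E → Ext E} (x : E) :
    dens n X o (fun x => inv (om x)) x = (-1) ^ n * dens n X o om x := by
  simp only [dens, evA_inv, AlternatingMap.smul_apply, smul_eq_mul]; ring

theorem J_inv {n : ℕ} {X : Set E} {o om : E → Ext E} :
    J n X o (fun x => inv (om x)) = (-1) ^ n * J n X o om := by
  rw [J, J, ← integral_const_mul]
  simp only [dens_inv]

theorem contDiffAt_inv {G : Type*} [NormedAddCommGroup G] [NormedSpace ℝ G] {n : WithTop ℕ∞}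
    {om : G → Ext E} {x : G} (h : ContDiffAt ℝ n om x) : ContDiffAt ℝ n (fun y => inv (om y)) x :=
  (invL (E := E)).contDiff.contDiffAt.comp x h

section weak
variable {r d : ℕ} {Z : Set E'} {X : Set E} {π : E' → E} {oX : E → Ext E} {oV η : E' → Ext E'}

/-- **weak form of local constancy** -/
theorem Subm.weak (h : Subm r d Z X π) (hoV : ContinuousOn oV Z)
    (hoZ : Ori (r + d) Z (fun z => oV z * pull π oX z))
    (hoX : ∀ x ∈ X, ∀ q < d, evA E q (oX x) = 0)
    (hη : ∀ z ∈ Z, ContDiffAt ℝ 1 η z) (hcl : ResZero Z (F.d η)) {β : E → Ext E}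
    (hβ : ∀ x ∈ X, ContDiffAt ℝ 1 β x) (hβ0 : ∀ x ∈ X, ∀ q < d, evA E q (F.d β x) = 0) :
    J d X oX (fun x => J r (Z ∩ π ⁻¹' {x}) oV η • F.d β x) = 0 := by
  have hpβ : ∀ z ∈ Z, ContDiffAt ℝ 1 (pull π β) z := fun z hz =>
    contDiffAt_pull (h.smooth z hz) one_add_one_le_infty (hβ _ (h.mapsTo hz))
  have hprod : ∀ z ∈ Z, ContDiffAt ℝ 1 (fun z => η z * pull π β z) z := fun z hz =>
    contDiffAt_mul (hη z hz) (hpβ z hz)
  have h1 := J_d h.cloZ hoZ hprod
  have h2 : J (r + d) Z (fun z => oV z * pull π oX z) (F.d (fun z => η z * pull π β z)) =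
      J (r + d) Z (fun z => oV z * pull π oX z) (fun z => inv (η z) * pull π (F.d β) z) := by
    refine J_congr h.cloZ ?_
    intro z hz w hw
    have h3 : F.d (fun z => η z * pull π β z) z =
        F.d η z * pull π β z + inv (η z) * pull π (F.d β) z := by
      rw [d_mul ((hη z hz).differentiableAt (by norm_num))
        ((hpβ z hz).differentiableAt (by norm_num)),
        d_pull ((h.smooth z hz).of_le two_le_infty)
          ((hβ _ (h.mapsTo hz)).differentiableAt (by norm_num))]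
    rw [h3, map_add, AlternatingMap.add_apply, (hcl.mul_right (pull π β)).evA hz hw, zero_add]
  rw [h2] at h1
  have h4 := fibre_integration (η := fun z => inv (η z)) (om := F.d β) h hoV hoZ hoX
    (fun z hz => (contDiffAt_inv (hη z hz)).continuousAt.continuousWithinAt)
    (continuousOn_d hβ) hβ0
  rw [h4] at h1
  have h5 : ∀ x, J r (Z ∩ π ⁻¹' {x}) oV (fun z => inv (η z)) =
      (-1) ^ r * J r (Z ∩ π ⁻¹' {x}) oV η := fun x => J_inv
  simp only [h5, mul_smul] at h1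
  rw [J_smul] at h1
  exact (mul_eq_zero.1 h1).resolve_left (pow_ne_zero _ (by norm_num))

end weak

/-- **test forms**: near every point of `X` there is a chart `f` on a ball `V` such that for all
test functions `φ` supported in `V` and all directions `w` there is an exact form `d β` which
corresponds to `(∂_w φ) vol`. -/
theorem exists_test {d : ℕ} {X : Set E} {oX : E → Ext E} (hX : Clo d X) (hoX : Ori d X oX)
    {x₀ : E} (hx₀ : x₀ ∈ X) : ∃ (f : Eu d → E) (u₀ : Eu d) (ρ ε : ℝ), 0 < ρ ∧ ε ≠ 0 ∧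
      Chart d X f (Metric.ball u₀ ρ) ∧ f u₀ = x₀ ∧
      ∀ (φ : Eu d → ℝ) (w : Eu d), ContDiff ℝ ∞ φ → HasCompactSupport φ →
        tsupport φ ⊆ Metric.ball u₀ ρ → ∃ β : E → Ext E, (∀ x ∈ X, ContDiffAt ℝ 1 β x) ∧
          (∀ x ∈ X, ∀ q < d, evA E q (F.d β x) = 0) ∧
          ∀ c : E → ℝ, J d X oX (fun x => c x • F.d β x) =
            ε * ∫ u in Metric.ball u₀ ρ, c (f u) * fderiv ℝ φ u w := by
  classical
  obtain ⟨f, V, hf, u₀, hu₀, rfl⟩ := hX.chart x₀ hx₀
  obtain ⟨O, ℓ, hO, hxO, hℓ, hℓV, hℓx, hℓS⟩ := exists_coord hf hu₀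
  -- the cutoff
  obtain ⟨s, hs, hsO⟩ := Metric.isOpen_iff.1 hO _ hxO
  let χ : ContDiffBump (f u₀) := ⟨s / 4, s / 2, by positivity, by linarith⟩
  have hχt : tsupport χ ⊆ O := by
    rw [χ.tsupport_eq]
    exact (Metric.closedBall_subset_ball (by show s / 2 < s; linarith)).trans hsO
  have hχ1 : ∀ q ∈ Metric.ball (f u₀) (s / 4), χ q = 1 := fun q hq =>
    χ.one_of_mem_closedBall (Metric.ball_subset_closedBall hq)
  -- the ball
  have hfc : ContinuousAt f u₀ := (hf.contDiffAt hu₀).continuousAt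
  obtain ⟨ρ, hρ, hρs⟩ := Metric.mem_nhds_iff.1 (inter_mem (hf.isOpen.mem_nhds hu₀)
    (hfc.preimage_mem_nhds (Metric.ball_mem_nhds (f u₀) (by positivity : (0 : ℝ) < s / 4))))
  set V' := Metric.ball u₀ ρ with hV'
  have hV'V : V' ⊆ V := fun u hu => (hρs hu).1
  have hV'b : ∀ u ∈ V', f u ∈ Metric.ball (f u₀) (s / 4) := fun u hu => (hρs hu).2
  have hV'O : ∀ u ∈ V', f u ∈ O := fun u hu =>
    hsO (Metric.ball_subset_ball (by linarith) (hV'b u hu))
  have hf' : Chart d X f V' := hf.mono hV'V Metric.isOpen_ball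
  obtain ⟨ε, hε⟩ := hf'.exists_sign hoX (convex_ball _ _).isPreconnected
  have hu₀' : u₀ ∈ V' := Metric.mem_ball_self hρ
  have hε0 : ε ≠ 0 := by
    rw [← hε u₀ hu₀']
    intro h
    exact hf'.top_ne_zero hoX hu₀' (Real.sign_eq_zero_iff.1 h)
  refine ⟨f, u₀, ρ, ε, hρ, hε0, hf', rfl, ?_⟩
  intro φ w hφ hφc hφt
  set κ : Ext (Eu d) := ii w (vol d) with hκ
  set β : E → Ext E := fun q => χ q • pull ℓ (fun u => φ u • κ) q with hβ
  have hφκ : ∀ (n : WithTop ℕ∞), n ≤ ∞ → ∀ u, ContDiffAt ℝ n (fun u => φ u • κ) u := fun n hn u =>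
    (hφ.of_le hn).contDiffAt.smul contDiffAt_const
  -- vanishing
  have hβ0 : ∀ x, x ∉ O → β =ᶠ[𝓝 x] fun _ => 0 := by
    intro x hx
    have : x ∉ tsupport χ := fun h => hx (hχt h)
    filter_upwards [notMem_tsupport_iff_eventuallyEq.1 this] with y hy
    rw [hβ]
    simp only [hy]
    exact zero_smul _ _
  have hβC : ∀ x, ContDiffAt ℝ 1 β x := by
    intro x
    by_cases hx : x ∈ O
    · exact (χ.contDiff.contDiffAt (n := 1)).smul (contDiffAt_pull (n := ∞)
        (hℓ.contDiffAt (hO.mem_nhds hx)) one_add_one_le_infty (hφκ 1 (by simp) _))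
    · exact contDiffAt_const.congr_of_eventuallyEq (hβ0 x hx)
  have hℓf : ∀ u ∈ V', ∀ᶠ u' in 𝓝 u, ℓ (f u') = u' := by
    intro u hu
    filter_upwards [Metric.isOpen_ball.mem_nhds hu] with u' hu'
    exact hf.injOn (hℓV _ (hV'O u' hu')) (hV'V hu')
      (hℓS _ (hV'O u' hu') (hf.mem (hV'V hu')))
  refine ⟨β, fun x _ => hβC x, ?_, ?_⟩
  · -- degree
    intro x _ q hq
    obtain ⟨p, rfl⟩ : ∃ p, d = p + 1 := ⟨d - 1, by omega⟩
    have h1 : IsDeg (p + 1) (F.d β x) := by
      refine IsDeg.d (Eventually.of_forall fun y => ?_)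
      exact (((isDeg_vol (p + 1)).ii w).smul _ |>.pb _).smul _
    exact h1 q (by omega)
  · -- the integral
    intro c
    have hsupp : ∀ x ∈ X, x ∉ f '' V' → F.d β x = 0 := by
      intro x hx hxV
      have h2 : β =ᶠ[𝓝 x] fun _ => 0 := by
        by_cases hxO' : x ∈ O
        · have h3 : ℓ x ∉ tsupport φ := fun h => hxV ⟨ℓ x, hφt h, hℓS x hxO' hx⟩
          have h4 : ContinuousAt ℓ x := (hℓ.contDiffAt (hO.mem_nhds hxO')).continuousAt
          filter_upwards [h4.eventually (notMem_tsupport_iff_eventuallyEq.1 h3)] with y hy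
          have h5 : φ (ℓ y) = 0 := hy
          show χ y • pb _ (φ (ℓ y) • κ) = 0
          rw [h5, zero_smul, map_zero, smul_zero]
        · exact hβ0 x hxO'
      rw [d_congr h2]
      exact d_const 0 x
    rw [J_eq_chart hX hf' (fun x hx hxV => by rw [hsupp x hx hxV, smul_zero, map_zero]; rfl)]
    have hint : ∀ u ∈ V', top d (pull f (fun x => c x • F.d β x) u) *
        Real.sign (top d (pull f oX u)) = ε * (c (f u) * fderiv ℝ φ u w) := by
      intro u hu
      rw [hε u hu]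
      have h6 : pull f (fun x => c x • F.d β x) u = c (f u) • pull f (F.d β) u := pull_smul _ _ _ _
      have h7 : pull f β =ᶠ[𝓝 u] fun u' => φ u' • κ := by
        have h8 := (hℓf u hu).eventually_nhds
        filter_upwards [Metric.isOpen_ball.mem_nhds hu, h8] with u' hu' h9
        have h10 : pull f β u' = χ (f u') • pull f (pull ℓ (fun u => φ u • κ)) u' :=
          pull_smul _ _ _ _
        rw [h10, hχ1 _ (hV'b u' hu'), one_smul, pull_comp (hf'.differentiableAt hu')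
          ((hℓ.contDiffAt (hO.mem_nhds (hV'O u' hu'))).differentiableAt (by simp))]
        have h11 : (ℓ ∘ f) =ᶠ[𝓝 u'] fun y => y := h9
        rw [pull_congr h11, pull_id]
      have h12 : pull f (F.d β) u = io ((fderiv ℝ φ u : Eu d →L[ℝ] ℝ) : Module.Dual ℝ (Eu d)) * κ := by
        rw [← d_pull ((hf'.contDiffAt hu).of_le two_le_infty)
          ((hβC _).differentiableAt (by norm_num)), d_congr h7,
          d_smul ((hφ.differentiable (by simp)) u) (differentiableAt_const κ), d_const, smul_zero,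
          add_zero]
      rw [h6, map_smul, h12, hκ, top_io_ii_vol, smul_eq_mul]
      show c (f u) * fderiv ℝ φ u w * ε = _
      ring
    rw [setIntegral_congr_fun hf'.isOpen.measurableSet hint, integral_const_mul]

section loc
variable {r d : ℕ} {Z : Set E'} {X : Set E} {π : E' → E} {oX om : E → Ext E} {oV η : E' → Ext E'}

/-- fibre integrals of closed forms are **locally constant**. -/
theorem Subm.locConst (h : Subm r d Z X π) (hoX' : Ori d X oX) (hoV : ContinuousOn oV Z)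
    (hoZ : Ori (r + d) Z (fun z => oV z * pull π oX z))
    (hoX : ∀ x ∈ X, ∀ q < d, evA E q (oX x) = 0)
    (hη : ∀ z ∈ Z, ContDiffAt ℝ 1 η z) (hcl : ResZero Z (F.d η)) {x₀ : E} (hx₀ : x₀ ∈ X) :
    ∀ᶠ x in 𝓝[X] x₀, J r (Z ∩ π ⁻¹' {x}) oV η = J r (Z ∩ π ⁻¹' {x₀}) oV η := by
  obtain ⟨f, u₀, ρ, ε, hρ, hε, hf, rfl, htest⟩ := exists_test h.cloX hoX' hx₀
  have hc := h.continuousOn_fibre hoV (h.fibre_ori hoV hoZ hoX)
    (fun z hz => (hη z hz).continuousAt.continuousWithinAt)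
  have hg : ContinuousOn (fun u => J r (Z ∩ π ⁻¹' {f u}) oV η) (Metric.ball u₀ ρ) :=
    hc.comp hf.contDiffOn.continuousOn fun u hu => hf.mem hu
  have hconst := fun u (hu : u ∈ Metric.ball u₀ ρ) => const_of_weak hg (fun φ w hφ hφc hφt => by
    obtain ⟨β, h1, h2, h3⟩ := htest φ w hφ hφc hφt
    have h4 := h.weak hoV hoZ hoX hη hcl h1 h2
    rw [h3] at h4
    exact (mul_eq_zero.1 h4).resolve_left hε) hu
  obtain ⟨U, hU, hUe⟩ := hf.image_open _ Subset.rfl hf.isOpen
  have hmem : f u₀ ∈ U := by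
    have : f u₀ ∈ f '' Metric.ball u₀ ρ := ⟨u₀, Metric.mem_ball_self hρ, rfl⟩
    rw [hUe] at this; exact this.2
  filter_upwards [inter_mem_nhdsWithin X (hU.mem_nhds hmem)] with x hx
  rw [← hUe] at hx
  obtain ⟨u, hu, rfl⟩ := hx
  exact hconst u hu

/-- on a connected base the fibre integrals of a closed form are **constant**. -/
theorem Subm.const (h : Subm r d Z X π) (hX : IsPreconnected X) (hoX' : Ori d X oX)
    (hoV : ContinuousOn oV Z) (hoZ : Ori (r + d) Z (fun z => oV z * pull π oX z))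
    (hoX : ∀ x ∈ X, ∀ q < d, evA E q (oX x) = 0)
    (hη : ∀ z ∈ Z, ContDiffAt ℝ 1 η z) (hcl : ResZero Z (F.d η)) {x y : E} (hx : x ∈ X)
    (hy : y ∈ X) : J r (Z ∩ π ⁻¹' {x}) oV η = J r (Z ∩ π ⁻¹' {y}) oV η := by
  have hpc : PreconnectedSpace X := isPreconnected_iff_preconnectedSpace.1 hX
  have hlc : IsLocallyConstant (fun x : X => J r (Z ∩ π ⁻¹' {(x : E)}) oV η) := by
    rw [IsLocallyConstant.iff_eventually_eq]
    intro x
    have := h.locConst hoX' hoV hoZ hoX hη hcl x.2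
    exact (eventually_nhds_subtype_iff X x _).2 this
  exact hlc.apply_eq_of_preconnectedSpace ⟨x, hx⟩ ⟨y, hy⟩

/-- **fibre integration of a closed form**: `∫_Z η ∧ π^*om = (∫_{Z_y} η) (∫_X om)`. -/
theorem fibre_integration_const (h : Subm r d Z X π) (hX : IsPreconnected X) (hoX' : Ori d X oX)
    (hoV : ContinuousOn oV Z) (hoZ : Ori (r + d) Z (fun z => oV z * pull π oX z))
    (hoX : ∀ x ∈ X, ∀ q < d, evA E q (oX x) = 0)
    (hη : ∀ z ∈ Z, ContDiffAt ℝ 1 η z) (hcl : ResZero Z (F.d η))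
    (hom : ContinuousOn om X) (hom0 : ∀ x ∈ X, ∀ q < d, evA E q (om x) = 0) {y : E} (hy : y ∈ X) :
    J (r + d) Z (fun z => oV z * pull π oX z) (fun z => η z * pull π om z) =
      J r (Z ∩ π ⁻¹' {y}) oV η * J d X oX om := by
  rw [fibre_integration h hoV hoZ hoX (fun z hz => (hη z hz).continuousAt.continuousWithinAt)
    hom hom0, ← J_smul]
  refine J_congr' h.cloX fun x hx => ?_
  rw [h.const hX hoX' hoV hoZ hoX hη hcl hx hy]

end loc

end Crest.Agent.R208.FI
end
end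

-- ▼ part R208/FH10

/-! Row 208, block F2 (helper198), part FH10: **homotopy invariance**. -/

set_option autoImplicit false
set_option linter.unusedSectionVars false

open MeasureTheory Set Filter Topology Module
open scoped ContDiff
open Crest.Agent.R208.F

noncomputable section

namespace Crest.Agent.R208.FI

universe u
variable {E : Type u} [NormedAddCommGroup E] [NormedSpace ℝ E] [FiniteDimensional ℝ E]
  {E' : Type*} [NormedAddCommGroup E'] [NormedSpace ℝ E'] [FiniteDimensional ℝ E']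
  {G : Type*} [NormedAddCommGroup G] [NormedSpace ℝ G] [FiniteDimensional ℝ G]
  {X : Set E} {Y : Set E'}

section gen
variable {j : E →L[ℝ] G} {v : G} {Fh : G → E'} {om η : E' → Ext E'}

theorem pbL_pull {x : E} {t : ℝ} (hF : DifferentiableAt ℝ Fh (jv j v (x, t))) :
    pbL j (pull Fh om (jv j v (x, t))) = pull (fun y => Fh (jv j v (y, t))) om x := by
  have h1 := pull_comp (f := fun y : E => jv j v (y, t)) (g := Fh) (om := om)
    (hasFDerivAt_jt t x).differentiableAt hF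
  rw [← show pull (fun y : E => jv j v (y, t)) (pull Fh om) x =
    pbL j (pull Fh om (jv j v (x, t))) by rw [pull, (hasFDerivAt_jt t x).fderiv]; rfl]
  exact h1

/-- **homotopy formula** `F_1^* ω - F_0^* ω = d (K ω) + K (dω)`, `K ω = hop j v (F^* ω)`. -/
theorem d_hop_pull {x : E} (hF : ∀ t ∈ Icc (0 : ℝ) 1, ContDiffAt ℝ 2 Fh (jv j v (x, t)))
    (hom : ∀ t ∈ Icc (0 : ℝ) 1, ContDiffAt ℝ 1 om (Fh (jv j v (x, t)))) :
    F.d (hop j v (pull Fh om)) x + hop j v (pull Fh (F.d om)) x =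
      pull (fun y => Fh (jv j v (y, 1))) om x - pull (fun y => Fh (jv j v (y, 0))) om x := by
  have h1 := d_hop (j := j) (v := v) (Om := pull Fh om) (x := x) fun t ht =>
    contDiffAt_pull (hF t ht) (by norm_num) (hom t ht)
  have h2 : hop j v (F.d (pull Fh om)) x = hop j v (pull Fh (F.d om)) x := by
    rw [hop, hop, I1, I1]
    refine intervalIntegral.integral_congr ?_
    rw [uIcc_of_le zero_le_one]
    intro t ht
    simp only [hopg]
    rw [d_pull (hF t ht) ((hom t ht).differentiableAt (by norm_num))]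
  rw [h2] at h1
  rw [h1, pbL_pull ((hF 1 (right_mem_Icc.2 zero_le_one)).differentiableAt (by norm_num)),
    pbL_pull ((hF 0 (left_mem_Icc.2 zero_le_one)).differentiableAt (by norm_num))]

/-- the time derivative of a homotopy in `Y` is tangent to `Y`. -/
theorem time_mem_Tan {x : E} {t : ℝ} (ht : t ∈ Ioo (0 : ℝ) 1)
    (hd : DifferentiableAt ℝ Fh (jv j v (x, t)))
    (hm : ∀ t ∈ Icc (0 : ℝ) 1, Fh (jv j v (x, t)) ∈ Y) :
    fderiv ℝ Fh (jv j v (x, t)) v ∈ Tan Y (Fh (jv j v (x, t))) := by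
  have h5 : HasDerivAt (fun s => Fh (jv j v (x, s))) (fderiv ℝ Fh (jv j v (x, t)) v) t :=
    hd.hasFDerivAt.comp_hasDerivAt t (hasDerivAt_jv x t)
  have h6 : ∀ᶠ s in 𝓝 t, (fun s => Fh (jv j v (x, s))) s ∈ Y := by
    filter_upwards [isOpen_Ioo.mem_nhds ht] with s hs using hm s (Ioo_subset_Icc_self hs)
  exact mem_Tan_of_curve (γ := fun s => Fh (jv j v (x, s))) h5 h6

theorem space_mem_Tan {x : E} {t : ℝ} (hd : DifferentiableAt ℝ Fh (jv j v (x, t)))
    (hm : ∀ x ∈ X, Fh (jv j v (x, t)) ∈ Y) {w : E} (hw : w ∈ Tan X x) :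
    fderiv ℝ Fh (jv j v (x, t)) (j w) ∈ Tan Y (Fh (jv j v (x, t))) := by
  have hFt : HasFDerivAt (fun y : E => Fh (jv j v (y, t)))
      ((fderiv ℝ Fh (jv j v (x, t))).comp j) x := hd.hasFDerivAt.comp x (hasFDerivAt_jt t x)
  have := fderiv_mapsTo_Tan (Y := Y) hFt.differentiableAt hm hw
  rw [hFt.fderiv] at this
  exact this

/-- a form vanishing on `Y` is killed pointwise. -/
theorem res_hopL_eq_zero {x : E} {t : ℝ} (ht : t ∈ Ioo (0 : ℝ) 1)
    (hd : DifferentiableAt ℝ Fh (jv j v (x, t)))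
    (hm : ∀ x ∈ X, ∀ t ∈ Icc (0 : ℝ) 1, Fh (jv j v (x, t)) ∈ Y) (hx : x ∈ X)
    (h0 : ResZero Y η) :
    pb (Tan X x).subtype (hopL j v (pull Fh η (jv j v (x, t)))) = 0 := by
  have htI := Ioo_subset_Icc_self ht
  have hv := time_mem_Tan (Y := Y) ht hd (hm x hx)
  have hT := fun (w : E) (hw : w ∈ Tan X x) =>
    space_mem_Tan (Y := Y) hd (fun y hy => hm y hy t htI) hw
  let B : Tan X x →ₗ[ℝ] Tan Y (Fh (jv j v (x, t))) :=
    LinearMap.codRestrict _ (((fderiv ℝ Fh (jv j v (x, t)) : G →L[ℝ] E') : G →ₗ[ℝ] E') ∘ₗ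
      ((j : E →ₗ[ℝ] G) ∘ₗ (Tan X x).subtype)) (fun w => hT w w.2)
  have hcomp : ((fderiv ℝ Fh (jv j v (x, t)) : G →L[ℝ] E') : G →ₗ[ℝ] E') ∘ₗ
      ((j : E →ₗ[ℝ] G) ∘ₗ (Tan X x).subtype) = (Tan Y (Fh (jv j v (x, t)))).subtype ∘ₗ B := by
    ext w
    rfl
  have h6 : pb (Tan Y (Fh (jv j v (x, t)))).subtype
      (ii (fderiv ℝ Fh (jv j v (x, t)) v) (η (Fh (jv j v (x, t))))) = 0 := by
    have h7 := ii_pb (Tan Y (Fh (jv j v (x, t)))).subtype ⟨fderiv ℝ Fh (jv j v (x, t)) v, hv⟩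
      (η (Fh (jv j v (x, t))))
    rw [h0 _ (hm x hx t htI), map_zero] at h7
    exact h7.symm
  rw [hopL_apply, pull, pb_comp, ii_pb, pb_comp, hcomp, ← pb_comp]
  exact (congrArg (pb B) h6).trans (map_zero _)

/-- `K` maps forms vanishing on `Y` to forms vanishing on `X`. -/
theorem resZero_hop (hF : ∀ x ∈ X, ∀ t ∈ Icc (0 : ℝ) 1, ContDiffAt ℝ 2 Fh (jv j v (x, t)))
    (hm : ∀ x ∈ X, ∀ t ∈ Icc (0 : ℝ) 1, Fh (jv j v (x, t)) ∈ Y)
    (hη : ∀ x ∈ X, ∀ t ∈ Icc (0 : ℝ) 1, ContinuousAt η (Fh (jv j v (x, t))))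
    (h0 : ResZero Y η) : ResZero X (hop j v (pull Fh η)) := by
  intro x hx
  have hint : IntervalIntegrable (fun t => hopL j v (pull Fh η (jv j v (x, t)))) volume 0 1 := by
    refine ContinuousOn.intervalIntegrable ?_
    rw [uIcc_of_le zero_le_one]
    refine (hopL j v).continuous.comp_continuousOn ?_
    have hc : Continuous (fun t : ℝ => jv j v (x, t)) := (jv j v).continuous.comp (by fun_prop)
    have h1 : ContinuousOn (fun t : ℝ => fderiv ℝ Fh (jv j v (x, t))) (Icc 0 1) := fun t ht =>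
      (((hF x hx t ht).fderiv_right (m := 1) (by norm_num)).continuousAt.comp
        (f := fun t : ℝ => jv j v (x, t)) hc.continuousAt).continuousWithinAt
    have h2 : ContinuousOn (fun t : ℝ => η (Fh (jv j v (x, t)))) (Icc 0 1) := fun t ht =>
      ((hη x hx t ht).comp (f := fun t : ℝ => Fh (jv j v (x, t)))
        ((hF x hx t ht).continuousAt.comp (f := fun t : ℝ => jv j v (x, t))
          hc.continuousAt)).continuousWithinAt
    exact continuousOn_pb h1 h2
  have h1 : hop j v (pull Fh η) x =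
    ∫ t in (0 : ℝ)..1, hopL j v (pull Fh η (jv j v (x, t))) := rfl
  let R : Ext E →L[ℝ] Ext (Tan X x) :=
    LinearMap.toContinuousLinearMap (pb (Tan X x).subtype).toLinearMap
  have h2 : pb (Tan X x).subtype (hop j v (pull Fh η) x) =
      ∫ t in (0 : ℝ)..1, R (hopL j v (pull Fh η (jv j v (x, t)))) := by
    rw [h1]
    exact (R.intervalIntegral_comp_comm hint).symm
  rw [h2, intervalIntegral.integral_of_le zero_le_one, integral_Ioc_eq_integral_Ioo]
  exact setIntegral_eq_zero_of_forall_eq_zero fun t ht => res_hopL_eq_zero ht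
    ((hF x hx t (Ioo_subset_Icc_self ht)).differentiableAt (by norm_num)) hm hx h0

/-- **HOMOTOPY INVARIANCE, forms**: along `X`, `F_1^* ω - F_0^* ω` is exact with the explicit
primitive `hop j v (F^* ω)`. -/
theorem resZero_homotopy (hF : ∀ x ∈ X, ∀ t ∈ Icc (0 : ℝ) 1, ContDiffAt ℝ 2 Fh (jv j v (x, t)))
    (hm : ∀ x ∈ X, ∀ t ∈ Icc (0 : ℝ) 1, Fh (jv j v (x, t)) ∈ Y)
    (hom : ∀ y ∈ Y, ContDiffAt ℝ 1 om y) (hcl : ResZero Y (F.d om)) :
    ResZero X (fun x => pull (fun y => Fh (jv j v (y, 1))) om x -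
      pull (fun y => Fh (jv j v (y, 0))) om x - F.d (hop j v (pull Fh om)) x) := by
  intro x hx
  have h1 := d_hop_pull (om := om) (hF x hx) (fun t ht => hom _ (hm x hx t ht))
  have h2 : pull (fun y => Fh (jv j v (y, 1))) om x - pull (fun y => Fh (jv j v (y, 0))) om x -
      F.d (hop j v (pull Fh om)) x = hop j v (pull Fh (F.d om)) x := by
    rw [← h1]; abel
  show pb (Tan X x).subtype (pull (fun y => Fh (jv j v (y, 1))) om x -
    pull (fun y => Fh (jv j v (y, 0))) om x - F.d (hop j v (pull Fh om)) x) = 0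
  rw [h2]
  exact resZero_hop hF hm (fun x hx t ht =>
    (contDiffAt_d (m := 0) (hom _ (hm x hx t ht)) (by norm_num)).continuousAt) hcl x hx

end gen

/-! ### the version for `F : E × ℝ → E'` -/
section prod
variable {Fh : E × ℝ → E'} {om : E' → Ext E'}

theorem jv_inl (x : E) (t : ℝ) :
    jv (ContinuousLinearMap.inl ℝ E ℝ) ((0, 1) : E × ℝ) (x, t) = (x, t) := by
  rw [jv_apply]; simp

/-- the primitive -/
def Hop (Fh : E × ℝ → E') (om : E' → Ext E') : E → Ext E :=
  hop (ContinuousLinearMap.inl ℝ E ℝ) ((0, 1) : E × ℝ) (pull Fh om)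

theorem contDiffAt_Hop {x : E} (hF : ∀ t ∈ Icc (0 : ℝ) 1, ContDiffAt ℝ ∞ Fh (x, t))
    (hom : ∀ t ∈ Icc (0 : ℝ) 1, ContDiffAt ℝ ∞ om (Fh (x, t))) :
    ContDiffAt ℝ ∞ (Hop Fh om) x := by
  refine contDiffAt_hop fun t ht => ?_
  rw [jv_inl]
  exact contDiffAt_pull (hF t ht) (by simp) (hom t ht)

theorem contDiffAt_Hop_one {x : E} (hF : ∀ t ∈ Icc (0 : ℝ) 1, ContDiffAt ℝ 2 Fh (x, t))
    (hom : ∀ t ∈ Icc (0 : ℝ) 1, ContDiffAt ℝ 1 om (Fh (x, t))) :
    ContDiffAt ℝ 1 (Hop Fh om) x := by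
  refine contDiffAt_hop_nat (n := 1) fun t ht => ?_
  rw [jv_inl]
  exact contDiffAt_pull (hF t ht) (by norm_num) (by simpa using hom t ht)

/-- **HOMOTOPY INVARIANCE, forms** -/
theorem resZero_Hop (hF : ∀ x ∈ X, ∀ t ∈ Icc (0 : ℝ) 1, ContDiffAt ℝ 2 Fh (x, t))
    (hm : ∀ x ∈ X, ∀ t ∈ Icc (0 : ℝ) 1, Fh (x, t) ∈ Y)
    (hom : ∀ y ∈ Y, ContDiffAt ℝ 1 om y) (hcl : ResZero Y (F.d om)) :
    ResZero X (fun x => pull (fun y => Fh (y, 1)) om x - pull (fun y => Fh (y, 0)) om x -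
      F.d (Hop Fh om) x) := by
  have h1 := resZero_homotopy (j := ContinuousLinearMap.inl ℝ E ℝ) (v := ((0, 1) : E × ℝ))
    (Fh := Fh) (om := om) (X := X) (Y := Y)
    (fun x hx t ht => by rw [jv_inl]; exact hF x hx t ht)
    (fun x hx t ht => by rw [jv_inl]; exact hm x hx t ht) hom hcl
  simp only [jv_inl] at h1
  exact h1

/-- **HOMOTOPY INVARIANCE OF THE INTEGRAL** -/
theorem J_homotopy {n : ℕ} {o : E → Ext E} (hX : Clo n X) (ho : Ori n X o)
    (hF : ∀ x ∈ X, ∀ t ∈ Icc (0 : ℝ) 1, ContDiffAt ℝ 2 Fh (x, t))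
    (hm : ∀ x ∈ X, ∀ t ∈ Icc (0 : ℝ) 1, Fh (x, t) ∈ Y)
    (hom : ∀ y ∈ Y, ContDiffAt ℝ 1 om y) (hcl : ResZero Y (F.d om)) :
    J n X o (pull (fun y => Fh (y, 1)) om) = J n X o (pull (fun y => Fh (y, 0)) om) := by
  have h1 := resZero_Hop hF hm hom hcl
  have hβ : ∀ x ∈ X, ContDiffAt ℝ 1 (Hop Fh om) x := fun x hx =>
    contDiffAt_Hop_one (hF x hx) fun t ht => hom _ (hm x hx t ht)
  have h2 := J_d hX ho hβ
  have hc : ∀ t ∈ Icc (0 : ℝ) 1, ContinuousOn (pull (fun y => Fh (y, t)) om) X := by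
    intro t ht x hx
    have h3 : ContDiffAt ℝ 2 (fun y : E => Fh (y, t)) x :=
      (hF x hx t ht).comp x (contDiffAt_id.prodMk contDiffAt_const)
    exact (contDiffAt_pull (m := 1) h3 (by norm_num) (hom _ (hm x hx t ht))).continuousAt.continuousWithinAt
  have hc1 := hc 1 (right_mem_Icc.2 zero_le_one)
  have hc0 := hc 0 (left_mem_Icc.2 zero_le_one)
  have h4 : J n X o (fun x => pull (fun y => Fh (y, 1)) om x - pull (fun y => Fh (y, 0)) om x -
      F.d (Hop Fh om) x) = 0 := J_eq_zero hX fun x hx w hw => h1.evA hx hw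
  have h5 := J_sub hX ho (om := fun x => pull (fun y => Fh (y, 1)) om x -
    pull (fun y => Fh (y, 0)) om x) (hc1.sub hc0) (continuousOn_d hβ)
  rw [h5, J_sub hX ho hc1 hc0, h2, sub_zero] at h4
  exact sub_eq_zero.1 h4

end prod

end Crest.Agent.R208.FI
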