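import Crest.Agent.R208.T0b
import Crest.Agent.R208.FH10

-- ▼ part R208/AF1
section

/-! Row 208, block (A2) of the blueprint of (k,n) = (8,16) (helper601).  AF1: calculus of smooth
one-parameter families of forms `g : E × ℝ → Ext E` and their time integrals. -/

set_option autoImplicit false
set_option linter.unusedSectionVars false

open MeasureTheory Set Filter Topology Module
open scoped ContDiff
open Crest.Agent.R208.F Crest.Agent.R208.FI Crest.Agent.R208.CW Crest.Agent.R208.T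

noncomputable section

namespace Crest.Agent.R208.AF

/-! ### curves in the exterior algebra -/
section curves
variable {V : Type*} [NormedAddCommGroup V] [NormedSpace ℝ V] [FiniteDimensional ℝ V]
  {f g f' g' : ℝ → Ext V} {a b t : ℝ}

theorem cont_mul {f g : ℝ → Ext V} (hf : Continuous f) (hg : Continuous g) :
    Continuous fun t => f t * g t := by
  have h := (mulL V).isBoundedBilinearMap.continuous.comp (hf.prodMk hg)
  exact h

theorem int_left (c : Ext V) (hg : Continuous g) :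
    ∫ t in a..b, c * g t = c * ∫ t in a..b, g t :=
  (mulL V c).intervalIntegral_comp_comm (hg.intervalIntegrable _ _)

theorem int_right (c : Ext V) (hg : Continuous g) :
    ∫ t in a..b, g t * c = (∫ t in a..b, g t) * c :=
  ((mulL V).flip c).intervalIntegral_comp_comm (hg.intervalIntegrable _ _)

theorem hasDerivAt_mul' {f g : ℝ → Ext V} {f' g' : Ext V} (hf : HasDerivAt f f' t)
    (hg : HasDerivAt g g' t) : HasDerivAt (fun t => f t * g t) (f' * g t + f t * g') t := by
  have h := hasFDerivAt_mul hf.hasFDerivAt hg.hasFDerivAt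
  have h2 := h.hasDerivAt
  convert h2 using 1
  simp [add_comm]

/-- integration by parts -/
theorem int_parts (hf : ∀ t, HasDerivAt f (f' t) t) (hg : ∀ t, HasDerivAt g (g' t) t)
    (hf' : Continuous f') (hg' : Continuous g') :
    ∫ t in a..b, f t * g' t = f b * g b - f a * g a - ∫ t in a..b, f' t * g t := by
  have cf : Continuous f := continuous_iff_continuousAt.2 fun t => (hf t).continuousAt
  have cg : Continuous g := continuous_iff_continuousAt.2 fun t => (hg t).continuousAt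
  have h1 : ∫ t in a..b, (f' t * g t + f t * g' t) = f b * g b - f a * g a :=
    intervalIntegral.integral_eq_sub_of_hasDerivAt (fun t _ => hasDerivAt_mul' (hf t) (hg t))
      (((cont_mul hf' cg).add (cont_mul cf hg')).intervalIntegrable _ _)
  rw [intervalIntegral.integral_add ((cont_mul hf' cg).intervalIntegrable _ _)
    ((cont_mul cf hg').intervalIntegrable _ _)] at h1
  rw [← h1]; abel

/-- odd elements anticommute -/
theorem odd_anti {a b : Ext V} (ha : inv a = -a) (hb : inv b = -b) : a * b = - (b * a) := by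
  rw [odd_comm ha, hb, neg_mul]

theorem odd_sq {a : Ext V} (ha : inv a = -a) : a * a = 0 := by
  have h := odd_anti ha ha
  have h2 : (2 : ℝ) • (a * a) = 0 := by
    rw [two_smul]; nth_rewrite 1 [h]; simp
  exact (smul_eq_zero.1 h2).resolve_left two_ne_zero

theorem inv_int (hg : Continuous g) : inv (∫ t in a..b, g t) = ∫ t in a..b, inv (g t) :=
  ((invL (E := V)).intervalIntegral_comp_comm (hg.intervalIntegrable _ _)).symm

end curves

/-! ### families -/
section fam
universe u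
variable {E H : Type u} [NormedAddCommGroup E] [NormedSpace ℝ E] [FiniteDimensional ℝ E]
  [NormedAddCommGroup H] [NormedSpace ℝ H] {X : Set E}

/-- smooth at the points of `X × ℝ` -/
def SmF (X : Set E) (g : E × ℝ → H) : Prop := ∀ x ∈ X, ∀ t : ℝ, ContDiffAt ℝ ∞ g (x, t)

/-- time integral -/
def TI (α β : ℝ) (g : E × ℝ → H) (x : E) : H := ∫ t in α..β, g (x, t)

/-- the primitive in time -/
def PL (g : E × ℝ → H) (p : E × ℝ) : H := ∫ s in (0 : ℝ)..p.2, g (p.1, s)

variable {g h : E × ℝ → H} {α β : ℝ} {x : E} {t : ℝ}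

theorem SmF.cont (hg : SmF X g) (hx : x ∈ X) : Continuous fun t => g (x, t) :=
  continuous_iff_continuousAt.2 fun t =>
    (hg x hx t).continuousAt.comp (f := fun t => ((x, t) : E × ℝ)) (by fun_prop)

theorem SmF.slice (hg : SmF X g) (hx : x ∈ X) (t : ℝ) : ContDiffAt ℝ ∞ (fun y => g (y, t)) x :=
  (hg x hx t).comp x (contDiffAt_id.prodMk contDiffAt_const)

theorem TI_eq (α β : ℝ) (g : E × ℝ → H) :
    TI α β g = fun x => (β - α) • I1 (fun p : E × ℝ => g (p.1, α + (β - α) * p.2)) x := by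
  funext x
  have h := intervalIntegral.smul_integral_comp_add_mul (f := fun t => g (x, t)) (a := 0) (b := 1)
    (c := β - α) (d := α)
  rw [I1, TI, h]
  congr 1 <;> ring

theorem PL_eq (g : E × ℝ → H) :
    PL g = fun p => p.2 • I1 (fun q : (E × ℝ) × ℝ => g (q.1.1, q.1.2 * q.2)) p := by
  funext p
  have h := intervalIntegral.smul_integral_comp_mul_left (f := fun t => g (p.1, t)) (a := 0) (b := 1)
    (c := p.2)
  rw [I1, PL, h]
  congr 1 <;> ring

theorem SmF.aff (hg : SmF X g) (α γ : ℝ) (hx : x ∈ X) (t : ℝ) :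
    ContDiffAt ℝ ∞ (fun p : E × ℝ => g (p.1, α + γ * p.2)) (x, t) := by
  refine ContDiffAt.comp (x, t) (f := fun p : E × ℝ => ((p.1, α + γ * p.2) : E × ℝ))
    (hg x hx _) ?_
  fun_prop

theorem SmF.TI (hg : SmF X g) (α β : ℝ) (hx : x ∈ X) : ContDiffAt ℝ ∞ (TI α β g) x := by
  rw [TI_eq]
  exact contDiffAt_const.smul (contDiffAt_I1 fun t _ => hg.aff α (β - α) hx t)

theorem SmF.PL (hg : SmF X g) : SmF X (PL g) := by
  intro x hx t
  rw [PL_eq]
  refine contDiffAt_snd.smul (contDiffAt_I1 fun s _ => ?_)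
  refine ContDiffAt.comp ((x, t), s)
    (f := fun q : (E × ℝ) × ℝ => ((q.1.1, q.1.2 * q.2) : E × ℝ)) (hg x hx _) ?_
  fun_prop

theorem PL_slice (g : E × ℝ → H) (t : ℝ) : (fun y => PL g (y, t)) = TI 0 t g := rfl

theorem PL_zero (g : E × ℝ → H) (x : E) : PL g (x, 0) = 0 := by
  simp [PL]

variable [CompleteSpace H]

theorem SmF.hasDerivAt_PL (hg : SmF X g) (hx : x ∈ X) (t : ℝ) :
    HasDerivAt (fun t => AF.PL g (x, t)) (g (x, t)) t :=
  intervalIntegral.integral_hasDerivAt_right ((hg.cont hx).intervalIntegrable _ _)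
    ((hg.cont hx).stronglyMeasurableAtFilter _ _) (hg.cont hx).continuousAt

end fam

/-! ### exterior derivative of families -/
section dfam
universe u
variable {E : Type u} [NormedAddCommGroup E] [NormedSpace ℝ E] [FiniteDimensional ℝ E] {X : Set E}
  {g h : E × ℝ → Ext E} {α β : ℝ} {x : E} {t : ℝ}

/-- exterior derivative in the `E`-direction -/
def dF (g : E × ℝ → Ext E) (p : E × ℝ) : Ext E := F.d (fun y => g (y, p.2)) p.1

theorem dF_eq {p : E × ℝ} (hg : DifferentiableAt ℝ g p) :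
    dF g p = wd E ((fderiv ℝ g p).comp (ContinuousLinearMap.inl ℝ E ℝ)) := by
  have h1 : HasFDerivAt (fun y : E => (y, p.2)) (ContinuousLinearMap.inl ℝ E ℝ) p.1 :=
    (hasFDerivAt_id p.1).prodMk (hasFDerivAt_const p.2 p.1)
  have h2 : HasFDerivAt (fun y => g (y, p.2))
      ((fderiv ℝ g p).comp (ContinuousLinearMap.inl ℝ E ℝ)) p.1 :=
    HasFDerivAt.comp (g := g) p.1 (by exact hg.hasFDerivAt) h1
  rw [dF, d_of_hasFDerivAt h2]

theorem SmF.dF (hg : SmF X g) : SmF X (dF g) := by
  intro x hx t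
  have h1 : ContDiffAt ℝ ∞ (fun p => wd E ((fderiv ℝ g p).comp (ContinuousLinearMap.inl ℝ E ℝ)))
      (x, t) :=
    (wd E).contDiff.contDiffAt.comp (x, t)
      (((hg x hx t).fderiv_right (m := ∞) (by simp)).clm_comp contDiffAt_const)
  refine h1.congr_of_eventuallyEq ?_
  have h2 : ∀ᶠ p in 𝓝 (x, t), ContDiffAt ℝ 1 g p :=
    ((hg x hx t).of_le (by exact_mod_cast le_top)).eventually (by simp)
  filter_upwards [h2] with p hp
  exact dF_eq (hp.differentiableAt (by norm_num))

theorem d_I1 (hg : ∀ t ∈ Icc (0 : ℝ) 1, ContDiffAt ℝ ∞ g (x, t)) :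
    F.d (I1 g) x = I1 (AF.dF g) x := by
  set U : Set (E × ℝ) := {p | ContDiffAt ℝ 1 g p} with hU
  have hUo : IsOpen U := by
    rw [isOpen_iff_mem_nhds]
    intro p hp
    exact ContDiffAt.eventually hp (by simp)
  have hxS : x ∈ Sl U := fun t ht => by
    show ContDiffAt ℝ 1 g (x, t)
    exact (hg t ht).of_le (by exact_mod_cast le_top)
  have hgC : ContDiffOn ℝ 1 g U := fun p hp => ContDiffAt.contDiffWithinAt hp
  have h1 := hasFDerivAt_I1 hUo hgC hxS
  have hg' : ContinuousOn (fun p => (fderiv ℝ g p).comp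
      (ContinuousLinearMap.inl ℝ E ℝ)) U :=
    (hgC.continuousOn_fderiv_of_isOpen hUo (by norm_num)).clm_comp continuousOn_const
  have h2 : F.d (I1 g) x = ∫ t in (0 : ℝ)..1,
      wd E ((fderiv ℝ g (x, t)).comp (ContinuousLinearMap.inl ℝ E ℝ)) := by
    rw [d_of_hasFDerivAt h1, I1]
    exact ((wd E).intervalIntegral_comp_comm (intervalIntegrable_slice hg' hxS)).symm
  rw [h2, I1]
  refine intervalIntegral.integral_congr ?_
  rw [uIcc_of_le zero_le_one]
  intro t ht
  exact (dF_eq ((hg t ht).differentiableAt (by simp))).symm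

theorem SmF.d_TI (hg : SmF X g) (α β : ℝ) (hx : x ∈ X) :
    F.d (AF.TI α β g) x = AF.TI α β (AF.dF g) x := by
  have h1 : ∀ t ∈ Icc (0 : ℝ) 1, ContDiffAt ℝ ∞ (fun p : E × ℝ => g (p.1, α + (β - α) * p.2)) (x, t) :=
    fun t _ => hg.aff α (β - α) hx t
  rw [TI_eq, TI_eq, d_const_smul _ ((contDiffAt_I1 h1).differentiableAt (by simp)), d_I1 h1]
  rfl

theorem SmF.dF_PL (hg : SmF X g) (hx : x ∈ X) (t : ℝ) :
    AF.dF (AF.PL g) (x, t) = AF.PL (AF.dF g) (x, t) := by
  rw [AF.dF, PL_slice]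
  exact hg.d_TI 0 t hx

theorem SmF.mul (hg : SmF X g) (hh : SmF X h) : SmF X (fun p => g p * h p) := fun x hx t =>
  contDiffAt_mul (hg x hx t) (hh x hx t)
theorem SmF.add (hg : SmF X g) (hh : SmF X h) : SmF X (fun p => g p + h p) := fun x hx t =>
  (hg x hx t).add (hh x hx t)
theorem SmF.sub (hg : SmF X g) (hh : SmF X h) : SmF X (fun p => g p - h p) := fun x hx t =>
  (hg x hx t).sub (hh x hx t)
theorem SmF.neg (hg : SmF X g) : SmF X (fun p => - g p) := fun x hx t => (hg x hx t).neg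
theorem SmF.smul (r : ℝ) (hg : SmF X g) : SmF X (fun p => r • g p) := fun x hx t =>
  ContDiffAt.smul (f := fun _ : E × ℝ => r) (g := g) contDiffAt_const (hg x hx t)
theorem SmF.const {a : E → Ext E} (ha : Sm X a) : SmF X (fun p : E × ℝ => a p.1) := fun x hx t =>
  (ha x hx).comp (x, t) (f := fun p : E × ℝ => p.1) contDiffAt_fst

theorem dF_mul (hg : SmF X g) (hh : SmF X h) (hx : x ∈ X) (t : ℝ) :
    dF (fun p => g p * h p) (x, t) = dF g (x, t) * h (x, t) + inv (g (x, t)) * dF h (x, t) :=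
  F.d_mul ((hg.slice hx t).differentiableAt (by simp)) ((hh.slice hx t).differentiableAt (by simp))

theorem SmF.sm_TI (hg : SmF X g) (α β : ℝ) : Sm X (AF.TI α β g) := fun _ hx => hg.TI α β hx

end dfam

end Crest.Agent.R208.AF
end
end

-- ▼ part R208/AF2
section

/-! Row 208, block (A2) (helper601).  AF2: one variable identities behind the 29-form `psi` of a
family of loops. -/

set_option autoImplicit false
set_option linter.unusedSectionVars false

open MeasureTheory Set Filter Topology Module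
open scoped ContDiff
open Crest.Agent.R208.F Crest.Agent.R208.FI Crest.Agent.R208.CW Crest.Agent.R208.T

noncomputable section

namespace Crest.Agent.R208.AF

section one
variable {V : Type*} [NormedAddCommGroup V] [NormedSpace ℝ V] [FiniteDimensional ℝ V]
  {X D' L D : ℝ → Ext V} {T : ℝ} {α : Ext V}

theorem int_comb {f1 f2 f3 f4 : ℝ → Ext V} {a b : ℝ} (h1 : Continuous f1) (h2 : Continuous f2)
    (h3 : Continuous f3) (h4 : Continuous f4) :
    ∫ t in a..b, (f1 t + f2 t - f3 t + f4 t) = (∫ t in a..b, f1 t) + (∫ t in a..b, f2 t) -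
      (∫ t in a..b, f3 t) + ∫ t in a..b, f4 t := by
  have i1 := h1.intervalIntegrable (μ := volume) a b
  have i2 := h2.intervalIntegrable (μ := volume) a b
  have i3 := h3.intervalIntegrable (μ := volume) a b
  have i4 := h4.intervalIntegrable (μ := volume) a b
  have e1 : ∫ t in a..b, (f1 t + f2 t - f3 t + f4 t) = (∫ t in a..b, (f1 t + f2 t - f3 t)) +
      ∫ t in a..b, f4 t := intervalIntegral.integral_add ((i1.add i2).sub i3) i4
  have e2 : ∫ t in a..b, (f1 t + f2 t - f3 t) = (∫ t in a..b, (f1 t + f2 t)) -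
      ∫ t in a..b, f3 t := intervalIntegral.integral_sub (i1.add i2) i3
  rw [e1, e2, intervalIntegral.integral_add i1 i2]

theorem shift_T (hL : ∀ t, HasDerivAt L (X t) t) (hper : ∀ t, X (t + T) = X t) (h0 : L 0 = 0)
    (t : ℝ) : L (t + T) = L t + L T := by
  have h1 : ∀ t, HasDerivAt (fun t => L (t + T) - L t) 0 t := by
    intro t
    have h2 : HasDerivAt (fun t => L (t + T)) (X (t + T)) t := by
      have h3 : HasDerivAt (fun t : ℝ => t + T) 1 t := (hasDerivAt_id t).add_const T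
      have h4 := (hL (t + T)).scomp t h3
      rw [one_smul] at h4
      exact h4
    have := h2.sub (hL t)
    rwa [hper, sub_self] at this
  have h5 := is_const_of_deriv_eq_zero (fun t => (h1 t).differentiableAt) (fun t => (h1 t).deriv) t 0
  simp only [zero_add, h0, sub_zero] at h5
  rw [← h5]; abel

/-- the weighted average of `X` -/
theorem int_weight (hT : T ≠ 0) (hX : Continuous X) (hL : ∀ t, HasDerivAt L (X t) t)
    (hper : ∀ t, X (t + T) = X t) (h0 : L 0 = 0) (r : ℝ) :
    ∫ τ in (0 : ℝ)..T, (1 - τ / T) • X (r + τ) =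
      T⁻¹ • (∫ s in (0 : ℝ)..T, L s) - L r + (r / T) • L T := by
  have cL : Continuous L := continuous_iff_continuousAt.2 fun t => (hL t).continuousAt
  have h1 : ∀ τ, HasDerivAt (fun τ => (1 - τ / T) • L (r + τ))
      ((1 - τ / T) • X (r + τ) - T⁻¹ • L (r + τ)) τ := by
    intro τ
    have h2 : HasDerivAt (fun τ : ℝ => 1 - τ / T) (-T⁻¹) τ := by
      have := ((hasDerivAt_id τ).div_const T).const_sub 1
      simpa [one_div] using this
    have h3 : HasDerivAt (fun τ => L (r + τ)) (X (r + τ)) τ := by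
      have h3' : HasDerivAt (fun t : ℝ => r + t) 1 τ := (hasDerivAt_id τ).const_add r
      have h4 := (hL (r + τ)).scomp τ h3'
      rw [one_smul] at h4
      exact h4
    have := h2.smul h3
    rw [neg_smul, ← sub_eq_add_neg] at this
    exact this
  have c1 : Continuous fun τ => (1 - τ / T) • X (r + τ) := by fun_prop
  have c2 : Continuous fun τ => T⁻¹ • L (r + τ) := by fun_prop
  have h5 := intervalIntegral.integral_eq_sub_of_hasDerivAt (a := 0) (b := T) (fun τ _ => h1 τ)
    ((c1.sub c2).intervalIntegrable _ _)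
  rw [intervalIntegral.integral_sub (c1.intervalIntegrable _ _) (c2.intervalIntegrable _ _),
    intervalIntegral.integral_smul, intervalIntegral.integral_comp_add_left (fun s => L s) r] at h5
  simp only [add_zero, div_self hT, sub_self, zero_smul, zero_div, sub_zero, one_smul,
    zero_sub] at h5
  have h6 : ∫ s in r..r + T, L s = (∫ s in (0 : ℝ)..T, L s) + r • L T := by
    have h7 : ∫ s in T..r + T, L s = ∫ s in (0 : ℝ)..r, L (s + T) := by
      rw [intervalIntegral.integral_comp_add_right (fun s => L s) T, zero_add]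
    have h8 : ∫ s in (0 : ℝ)..r, L (s + T) = (∫ s in (0 : ℝ)..r, L s) + r • L T := by
      simp only [shift_T hL hper h0]
      rw [intervalIntegral.integral_add (cL.intervalIntegrable _ _) (intervalIntegrable_const),
        intervalIntegral.integral_const, sub_zero]
    have i := fun a b => cL.intervalIntegrable (μ := volume) a b
    have h9 := intervalIntegral.integral_add_adjacent_intervals (i 0 r) (i r (r + T))
    have h10 := intervalIntegral.integral_add_adjacent_intervals (i 0 T) (i T (r + T))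
    rw [← h10, h7, h8] at h9
    have : ∫ s in r..r + T, L s = (∫ s in (0 : ℝ)..T, L s) + ((∫ s in (0 : ℝ)..r, L s) + r • L T) -
        ∫ s in (0 : ℝ)..r, L s := by rw [← h9]; abel
    rw [this]; abel
  rw [h6, smul_add, smul_smul] at h5
  have h11 : ∫ τ in (0 : ℝ)..T, (1 - τ / T) • X (r + τ) =
      -L r + (T⁻¹ • (∫ s in (0 : ℝ)..T, L s) + (T⁻¹ * r) • L T) := by
    rw [← h5]; abel
  rw [h11, inv_mul_eq_div]
  abel

/-- **the identity**: `T² ψ = - λ B + λ D̄ η - 2 λ L̄ C`. -/
theorem psi_one (hT : T ≠ 0) (hX : Continuous X) (hL : ∀ t, HasDerivAt L (X t) t)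
    (hD : ∀ t, HasDerivAt D (D' t) t)
    (hper : ∀ t, X (t + T) = X t) (h0 : L 0 = 0)
    (oX : ∀ t, inv (X t) = - X t) (oL : ∀ t, inv (L t) = - L t) (eD : ∀ t, inv (D t) = D t)
    (eα : inv α = α) :
    (T ^ 2) • ((T⁻¹ • ∫ s in (0 : ℝ)..T, X s) * (T⁻¹ • ∫ r in (0 : ℝ)..T,
      ((2 : ℝ) • (X r * (α + D r)) + (T⁻¹ • ∫ s in (0 : ℝ)..T, X s) * (α + D r) +
        (T⁻¹ • ∫ s in (0 : ℝ)..T, (α + D s)) * X r) *
          ∫ τ in (0 : ℝ)..T, (1 - τ / T) • X (r + τ))) =
    - (L T * ∫ r in (0 : ℝ)..T, ((3 : ℝ) • α + (2 : ℝ) • D r) * X r * L r)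
      + L T * (T⁻¹ • ∫ s in (0 : ℝ)..T, D s) * (∫ r in (0 : ℝ)..T, L r * X r)
      - L T * (T⁻¹ • ∫ s in (0 : ℝ)..T, L s) * ((2 : ℝ) • ∫ r in (0 : ℝ)..T, D r * X r) := by
  have cL : Continuous L := continuous_iff_continuousAt.2 fun t => (hL t).continuousAt
  have cD : Continuous D := continuous_iff_continuousAt.2 fun t => (hD t).continuousAt
  have hXi : ∫ s in (0 : ℝ)..T, X s = L T := by
    rw [intervalIntegral.integral_eq_sub_of_hasDerivAt (fun t _ => hL t) (hX.intervalIntegrable _ _),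
      h0, sub_zero]
  have hAD : T⁻¹ • ∫ s in (0 : ℝ)..T, (α + D s) = α + T⁻¹ • ∫ s in (0 : ℝ)..T, D s := by
    rw [intervalIntegral.integral_add (intervalIntegrable_const) (cD.intervalIntegrable _ _),
      intervalIntegral.integral_const, sub_zero, smul_add, smul_smul, inv_mul_cancel₀ hT, one_smul]
  set lam := L T with hlam
  set Lb := T⁻¹ • ∫ s in (0 : ℝ)..T, L s with hLb
  set Db := T⁻¹ • ∫ s in (0 : ℝ)..T, D s with hDb
  have olam : inv lam = - lam := oL T
  have oLb : inv Lb = - Lb := by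
    rw [hLb, map_smul, inv_int cL, ← smul_neg, ← intervalIntegral.integral_neg]
    simp only [oL]
  have eDb : inv Db = Db := by
    rw [hDb, map_smul, inv_int cD]
    simp only [eD]
  have hW : ∀ r, ∫ τ in (0 : ℝ)..T, (1 - τ / T) • X (r + τ) = Lb - L r + (r / T) • lam := fun r =>
    int_weight hT hX hL hper h0 r
  simp only [hW, hXi, hAD]
  clear_value lam Lb Db
  -- the pointwise identity
  have key : ∀ r, lam * (((2 : ℝ) • (X r * (α + D r)) + (T⁻¹ • lam) * (α + D r) +
      (α + Db) * X r) * (Lb - L r + (r / T) • lam)) =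
      (lam * ((3 : ℝ) • α + Db)) * X r * Lb + (2 : ℝ) • (lam * (D r * X r) * Lb) -
        lam * (((3 : ℝ) • α + (2 : ℝ) • D r) * X r * L r) + lam * Db * (L r * X r) := by
    intro r
    have hll : lam * lam = 0 := odd_sq olam
    have hlXl : lam * X r * lam = 0 := by
      rw [odd_anti olam (oX r), neg_mul, mul_assoc, hll, mul_zero, neg_zero]
    have cα : ∀ b, b * α = α * b := fun b => (even_comm eα b).symm
    have cDr : ∀ b, b * D r = D r * b := fun b => (even_comm (eD r) b).symm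
    have cDb : ∀ b, b * Db = Db * b := fun b => (even_comm eDb b).symm
    have hXL : X r * L r = - (L r * X r) := odd_anti (oX r) (oL r)
    have z1 : lam * (α * X r) * lam = 0 := by rw [← mul_assoc, cα, mul_assoc, mul_assoc, ← mul_assoc lam, hlXl, mul_zero]
    have z2 : lam * (D r * X r) * lam = 0 := by
      rw [← mul_assoc, cDr, mul_assoc, mul_assoc, ← mul_assoc lam, hlXl, mul_zero]
    have z3 : lam * (Db * X r) * lam = 0 := by
      rw [← mul_assoc, cDb, mul_assoc, mul_assoc, ← mul_assoc lam, hlXl, mul_zero]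
    have e1 : X r * (α + D r) = α * X r + D r * X r := by rw [mul_add, cα, cDr]
    have e2 : lam * ((T⁻¹ • lam) * (α + D r)) = 0 := by
      rw [smul_mul_assoc, mul_smul_comm, ← mul_assoc, hll, zero_mul, smul_zero]
    have e3 : lam * ((2 : ℝ) • (X r * (α + D r)) + (T⁻¹ • lam) * (α + D r) + (α + Db) * X r) =
        (3 : ℝ) • (lam * (α * X r)) + (2 : ℝ) • (lam * (D r * X r)) + lam * (Db * X r) := by
      rw [mul_add, mul_add, e2, add_zero, e1, add_mul, mul_smul_comm, mul_add, mul_add, smul_add]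
      have : (3 : ℝ) • (lam * (α * X r)) = (2 : ℝ) • (lam * (α * X r)) + lam * (α * X r) := by
        rw [show (3 : ℝ) = 2 + 1 by norm_num, add_smul, one_smul]
      rw [this]; abel
    rw [← mul_assoc, e3, mul_add _ _ ((r / T) • lam), mul_smul_comm _ _ lam]
    have e4 : ((3 : ℝ) • (lam * (α * X r)) + (2 : ℝ) • (lam * (D r * X r)) + lam * (Db * X r)) * lam
        = 0 := by
      rw [add_mul, add_mul, smul_mul_assoc, smul_mul_assoc, z1, z2, z3]; simp
    rw [e4, smul_zero, add_zero]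
    simp only [add_mul, mul_add, mul_sub, smul_mul_assoc, mul_smul_comm, mul_assoc, hXL,
      mul_neg, smul_neg]
    abel
  have cXc : ∀ c : Ext V, Continuous fun r => c * X r := fun c => cont_mul continuous_const hX
  have c1 : Continuous fun r => (lam * ((3 : ℝ) • α + Db)) * X r * Lb :=
    cont_mul (cXc _) continuous_const
  have c2 : Continuous fun r => (2 : ℝ) • (lam * (D r * X r) * Lb) :=
    (cont_mul (cont_mul continuous_const (cont_mul cD hX)) continuous_const).const_smul 2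
  have cB : Continuous fun r => ((3 : ℝ) • α + (2 : ℝ) • D r) * X r * L r :=
    cont_mul (cont_mul (continuous_const.add (cD.const_smul 2)) hX) cL
  have c3 : Continuous fun r => lam * (((3 : ℝ) • α + (2 : ℝ) • D r) * X r * L r) :=
    cont_mul continuous_const cB
  have c4 : Continuous fun r => lam * Db * (L r * X r) := cont_mul continuous_const (cont_mul cL hX)
  have cG : Continuous fun r => ((2 : ℝ) • (X r * (α + D r)) + (T⁻¹ • lam) * (α + D r) +
      (α + Db) * X r) * (Lb - L r + (r / T) • lam) := by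
    refine cont_mul ((((cont_mul hX (continuous_const.add cD)).const_smul 2).add
      (cont_mul continuous_const (continuous_const.add cD))).add (cXc _)) ?_
    exact (continuous_const.sub cL).add (by fun_prop)
  rw [smul_mul_assoc, mul_smul_comm, smul_smul, smul_smul,
    show T ^ 2 * T⁻¹ * T⁻¹ = 1 by field_simp, one_smul, ← int_left lam cG]
  simp only [key]
  rw [int_comb c1 c2 c3 c4, int_right Lb (cXc _), int_left _ hX, hXi,
    intervalIntegral.integral_smul, int_right Lb (cont_mul continuous_const (cont_mul cD hX)),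
    int_left lam (cont_mul cD hX), int_left lam cB, int_left (lam * Db) (cont_mul cL hX)]
  -- `lam * even * lam = 0`
  have hl0 : lam * ((3 : ℝ) • α + Db) * lam = 0 := by
    have he : inv ((3 : ℝ) • α + Db) = (3 : ℝ) • α + Db := by rw [map_add, map_smul, eα, eDb]
    rw [← even_comm he, mul_assoc, odd_sq olam, mul_zero]
  set C := ∫ r in (0 : ℝ)..T, D r * X r with hC
  have oC : inv C = - C := by
    rw [hC, inv_int (cont_mul cD hX), ← intervalIntegral.integral_neg]
    simp only [map_mul, eD, oX, mul_neg]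
  clear_value C
  rw [hl0, zero_mul, zero_add, mul_smul_comm, mul_assoc lam C Lb, odd_anti oC oLb, mul_neg,
    ← mul_assoc lam Lb C, smul_neg]
  abel

/-- `2 ∫ D X = ∫ (D X - L D')` if `L 0 = 0`, `D T = 0`. -/
theorem two_C (hX : Continuous X) (hL : ∀ t, HasDerivAt L (X t) t)
    (hD' : Continuous D') (hD : ∀ t, HasDerivAt D (D' t) t) (h0 : L 0 = 0)
    (eD : ∀ t, inv (D t) = D t) :
    (2 : ℝ) • ∫ r in (0 : ℝ)..T, D r * X r =
      (∫ r in (0 : ℝ)..T, (D r * X r + -(L r) * D' r)) + L T * D T := by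
  have cL : Continuous L := continuous_iff_continuousAt.2 fun t => (hL t).continuousAt
  have cD : Continuous D := continuous_iff_continuousAt.2 fun t => (hD t).continuousAt
  have h1 := int_parts (a := 0) (b := T) hL hD hX hD'
  rw [h0, zero_mul, sub_zero] at h1
  have h2 : ∫ t in (0 : ℝ)..T, X t * D t = ∫ t in (0 : ℝ)..T, D t * X t := by
    refine intervalIntegral.integral_congr fun t _ => ?_
    exact (even_comm (eD t) (X t)).symm
  rw [h2] at h1
  have cLn : Continuous fun r => -(L r) := cL.neg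
  rw [intervalIntegral.integral_add ((cont_mul cD hX).intervalIntegrable _ _)
    ((cont_mul cLn hD').intervalIntegrable _ _)]
  have h3 : ∫ t in (0 : ℝ)..T, -(L t) * D' t = - ∫ t in (0 : ℝ)..T, L t * D' t := by
    rw [← intervalIntegral.integral_neg]
    simp only [neg_mul]
  rw [h3, h1, two_smul]
  abel

end one

end Crest.Agent.R208.AF
end
end

-- ▼ part R208/AF3
section

/-! Row 208, block (A2) (helper601).  AF3: the restriction of the 29-form `psi` to a slice
`K × {1}` of a family of loops `K × S¹ → S`: `T² ψ = - L B - d (L L̄ η)` on `K`. -/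

set_option autoImplicit false
set_option linter.unusedSectionVars false

open MeasureTheory Set Filter Topology Module
open scoped ContDiff
open Crest.Agent.R208.F Crest.Agent.R208.FI Crest.Agent.R208.CW Crest.Agent.R208.T

noncomputable section

namespace Crest.Agent.R208.AF

section rs
variable {E : Type*} [NormedAddCommGroup E] [NormedSpace ℝ E] [FiniteDimensional ℝ E]
  (X : Set E) (x : E)

/-- restriction to the tangent space -/
def rs : Ext E →L[ℝ] Ext (Tan X x) :=
  LinearMap.toContinuousLinearMap (pb (Tan X x).subtype).toLinearMap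

theorem rs_apply (c : Ext E) : rs X x c = pb (Tan X x).subtype c := rfl
theorem rs_mul (a b : Ext E) : rs X x (a * b) = rs X x a * rs X x b := by
  simp only [rs_apply, map_mul]
theorem rs_inv (a : Ext E) : inv (rs X x a) = rs X x (inv a) := by
  simp only [rs_apply, pb_inv]

variable {X} {a b : E → Ext E}
theorem eqv_rs : Eqv X a b ↔ ∀ x ∈ X, rs X x (a x) = rs X x (b x) := eqv_iff

end rs

section psiK
universe u
variable {E : Type u} [NormedAddCommGroup E] [NormedSpace ℝ E] [FiniteDimensional ℝ E]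

/-- average over a period -/
def av (T : ℝ) (g : E × ℝ → Ext E) (x : E) : Ext E := T⁻¹ • TI 0 T g x

/-- the weighted average -/
def Lm (T : ℝ) (ξ : E × ℝ → Ext E) (p : E × ℝ) : Ext E :=
  ∫ τ in (0 : ℝ)..T, (1 - τ / T) • ξ (p.1, p.2 + τ)

/-- integrand of the second factor of `psiK` -/
def GK (T : ℝ) (W ξ : E × ℝ → Ext E) (p : E × ℝ) : Ext E :=
  ((2 : ℝ) • (ξ p * W p) + av T ξ p.1 * W p + av T W p.1 * ξ p) * Lm T ξ p

/-- the 29-form of a family of loops, on the slice -/
def psiK (T : ℝ) (W ξ : E × ℝ → Ext E) (x : E) : Ext E := av T ξ x * av T (GK T W ξ) x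

/-- the cubic integrand -/
def bb (a : E → Ext E) (ξ : E × ℝ → Ext E) (p : E × ℝ) : Ext E :=
  ((3 : ℝ) • a p.1 + (2 : ℝ) • dF (PL ξ) p) * ξ p * PL ξ p

variable {X : Set E} {ξ W : E × ℝ → Ext E} {T : ℝ} {a : E → Ext E} {x : E}

theorem cont_Lm (hξ : SmF X ξ) (hx : x ∈ X) : Continuous fun t => Lm T ξ (x, t) := by
  have h1 := hξ.cont hx
  refine intervalIntegral.continuous_parametric_intervalIntegral_of_continuous'
    (f := fun t τ : ℝ => (1 - τ / T) • ξ (x, t + τ)) ?_ 0 T
  have h2 : Continuous fun p : ℝ × ℝ => p.1 + p.2 := by fun_prop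
  have h3 : Continuous fun p : ℝ × ℝ => 1 - p.2 / T := by fun_prop
  exact h3.smul (h1.comp h2)

theorem SmF.av (hg : SmF X W) (T : ℝ) : Sm X (av T W) := fun _ hx =>
  ContDiffAt.smul (f := fun _ : E => T⁻¹) (g := AF.TI 0 T W) contDiffAt_const (hg.TI 0 T hx)

theorem SmF.d_av (hg : SmF X W) (T : ℝ) (hx : x ∈ X) :
    F.d (AF.av T W) x = AF.av T (AF.dF W) x := by
  have h : AF.av T W = fun x => T⁻¹ • AF.TI 0 T W x := rfl
  rw [h, d_const_smul _ ((SmF.TI hg 0 T hx).differentiableAt (by simp)), hg.d_TI 0 T hx]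
  rfl

theorem rs_int {g : ℝ → Ext E} (hg : Continuous g) (c d : ℝ) :
    rs X x (∫ t in c..d, g t) = ∫ t in c..d, rs X x (g t) :=
  ((rs X x).intervalIntegral_comp_comm (hg.intervalIntegrable _ _)).symm

theorem rs_TI {g : E × ℝ → Ext E} (hg : Continuous fun t => g (x, t)) (c d : ℝ) :
    rs X x (TI c d g x) = ∫ t in c..d, rs X x (g (x, t)) := rs_int hg c d

theorem rs_av {g : E × ℝ → Ext E} (hg : Continuous fun t => g (x, t)) (T : ℝ) :
    rs X x (av T g x) = T⁻¹ • ∫ t in (0 : ℝ)..T, rs X x (g (x, t)) := by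
  rw [av, map_smul, rs_TI hg]

theorem inv_d_of_odd {f : E → Ext E} (hf : DifferentiableAt ℝ f x) (ho : ∀ᶠ y in 𝓝 x, inv (f y) = - f y) :
    inv (F.d f x) = F.d f x := by
  have h1 := CW.d_inv hf
  have h2 : (fun y => inv (f y)) =ᶠ[𝓝 x] fun y => - f y := ho
  rw [d_congr h2, F.d_neg] at h1
  exact neg_injective h1.symm

/-- **main identity on the slice**. -/
theorem psiK_eqv (hT : T ≠ 0) (hξ : SmF X ξ) (hW : SmF X W)
    (oξ : ∀ p, inv (ξ p) = - ξ p) (ea : ∀ x, inv (a x) = a x)
    (hper : ∀ x ∈ X, ∀ t, rs X x (ξ (x, t + T)) = rs X x (ξ (x, t)))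
    (hWa : ∀ x ∈ X, ∀ t, rs X x (W (x, t)) = rs X x (a x + dF (PL ξ) (x, t)))
    (hD0 : ∀ x ∈ X, rs X x (dF (PL ξ) (x, T)) = 0) :
    Eqv X ((T ^ 2) • psiK T W ξ)
      (-(TI 0 T ξ * TI 0 T (bb a ξ)) -
        F.d (TI 0 T ξ * (av T (PL ξ) * TI 0 T (fun p => PL ξ p * ξ p)))) := by
  refine eqv_rs.2 fun x hx => ?_
  have hP : SmF X (PL ξ) := hξ.PL
  have hPξ : SmF X (fun p => PL ξ p * ξ p) := hP.mul hξ
  have cξ := hξ.cont hx
  have cW := hW.cont hx
  have cP := hP.cont hx
  have cDP := hP.dF.cont hx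
  have oP : ∀ t, inv (PL ξ (x, t)) = - PL ξ (x, t) := by
    intro t
    show inv (∫ s in (0 : ℝ)..t, ξ (x, s)) = - ∫ s in (0 : ℝ)..t, ξ (x, s)
    rw [inv_int cξ, ← intervalIntegral.integral_neg]
    simp only [oξ]
  have hdP : ∀ t, dF (PL ξ) (x, t) = ∫ s in (0 : ℝ)..t, dF ξ (x, s) := fun t => hξ.dF_PL hx t
  have cdξ := hξ.dF.cont hx
  have eD : ∀ t, inv (dF (PL ξ) (x, t)) = dF (PL ξ) (x, t) := by
    intro t
    rw [hdP, inv_int cdξ]
    refine intervalIntegral.integral_congr fun s _ => ?_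
    exact inv_d_of_odd ((hξ.slice hx s).differentiableAt (by simp))
      (Eventually.of_forall fun y => oξ _)
  -- curves
  set R := rs X x with hR
  set X1 : ℝ → Ext (Tan X x) := fun t => R (ξ (x, t)) with hX1
  set L1 : ℝ → Ext (Tan X x) := fun t => R (PL ξ (x, t)) with hL1
  set D1 : ℝ → Ext (Tan X x) := fun t => R (dF (PL ξ) (x, t)) with hD1
  set D1' : ℝ → Ext (Tan X x) := fun t => R (dF ξ (x, t)) with hD1'
  have cX1 : Continuous X1 := R.continuous.comp cξ
  have cD1' : Continuous D1' := R.continuous.comp cdξ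
  have dL1 : ∀ t, HasDerivAt L1 (X1 t) t := fun t =>
    R.hasFDerivAt.comp_hasDerivAt t (hξ.hasDerivAt_PL hx t)
  have dD1 : ∀ t, HasDerivAt D1 (D1' t) t := by
    intro t
    have h1 := hξ.dF.hasDerivAt_PL hx t
    have h2 : D1 = fun t => R (PL (dF ξ) (x, t)) := by
      funext t
      simp only [hD1]
      rw [hdP]; rfl
    rw [h2]
    exact R.hasFDerivAt.comp_hasDerivAt t h1
  have L10 : L1 0 = 0 := by simp only [hL1, PL_zero, map_zero]
  have oX1 : ∀ t, inv (X1 t) = - X1 t := fun t => by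
    simp only [hX1, hR]; rw [rs_inv, oξ, map_neg]
  have oL1 : ∀ t, inv (L1 t) = - L1 t := fun t => by
    simp only [hL1, hR]; rw [rs_inv, oP, map_neg]
  have eD1 : ∀ t, inv (D1 t) = D1 t := fun t => by
    simp only [hD1, hR]; rw [rs_inv, eD]
  have eα : inv (R (a x)) = R (a x) := by rw [hR, rs_inv, ea]
  have hpsi := psi_one (α := R (a x)) hT cX1 dL1 dD1 (hper x hx) L10 oX1 oL1 eD1 eα
  have h2C := two_C (T := T) cX1 dL1 cD1' dD1 L10 eD1
  have hDT : D1 T = 0 := hD0 x hx
  rw [hDT, mul_zero, add_zero] at h2C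
  -- left side
  have rW : ∀ t, R (W (x, t)) = R (a x) + D1 t := fun t => by
    rw [hWa x hx t, map_add]
  have rav : R (av T ξ x) = T⁻¹ • ∫ s in (0 : ℝ)..T, X1 s := rs_av cξ T
  have ravW : R (av T W x) = T⁻¹ • ∫ s in (0 : ℝ)..T, (R (a x) + D1 s) := by
    rw [hR, rs_av cW]
    simp only [← hR, rW]
  have rLm : ∀ t, R (Lm T ξ (x, t)) = ∫ τ in (0 : ℝ)..T, (1 - τ / T) • X1 (t + τ) := by
    intro t
    have c1 : Continuous fun τ => (1 - τ / T) • ξ (x, t + τ) := by
      have h2 : Continuous fun τ : ℝ => t + τ := by fun_prop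
      have h3 : Continuous fun τ : ℝ => 1 - τ / T := by fun_prop
      exact h3.smul (cξ.comp h2)
    show R (∫ τ in (0 : ℝ)..T, (1 - τ / T) • ξ (x, t + τ)) = _
    rw [hR, rs_int c1]
    simp only [map_smul, hX1, hR]
  have cG : Continuous fun t => GK T W ξ (x, t) := by
    have q1 : Continuous fun t => (2 : ℝ) • (ξ (x, t) * W (x, t)) := (cont_mul cξ cW).const_smul 2
    have q2 : Continuous fun t => av T ξ x * W (x, t) := cont_mul continuous_const cW
    have q3 : Continuous fun t => av T W x * ξ (x, t) := cont_mul continuous_const cξ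
    have q4 : Continuous fun t => (2 : ℝ) • (ξ (x, t) * W (x, t)) + av T ξ x * W (x, t) +
      av T W x * ξ (x, t) := (q1.add q2).add q3
    exact cont_mul q4 (cont_Lm hξ hx)
  have rG : R (av T (GK T W ξ) x) = T⁻¹ • ∫ r in (0 : ℝ)..T,
      ((2 : ℝ) • (X1 r * (R (a x) + D1 r)) + (T⁻¹ • ∫ s in (0 : ℝ)..T, X1 s) * (R (a x) + D1 r) +
        (T⁻¹ • ∫ s in (0 : ℝ)..T, (R (a x) + D1 s)) * X1 r) *
          ∫ τ in (0 : ℝ)..T, (1 - τ / T) • X1 (r + τ) := by
    rw [hR, rs_av cG]
    congr 1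
    refine intervalIntegral.integral_congr fun t _ => ?_
    simp only [GK, ← hR]
    rw [hR, rs_mul, map_add, map_add, map_smul, rs_mul, rs_mul, rs_mul, ← hR, rW, rav, ravW, rLm]
  have lhs : R (((T ^ 2) • psiK T W ξ) x) = (T ^ 2) • (R (av T ξ x) * R (av T (GK T W ξ) x)) := by
    rw [Pi.smul_apply, map_smul, psiK, hR, rs_mul]
  rw [lhs, rav, rG, hpsi]
  -- right side
  have sT : Sm X (TI 0 T ξ) := hξ.sm_TI 0 T
  have sav : Sm X (av T (PL ξ)) := hP.av T
  have sη : Sm X (TI 0 T (fun p => PL ξ p * ξ p)) := hPξ.sm_TI 0 T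
  have rT : R (TI 0 T ξ x) = L1 T := rfl
  have odT : inv (TI 0 T ξ x) = - TI 0 T ξ x := oP T
  have oav : inv (av T (PL ξ) x) = - av T (PL ξ) x := by
    show inv (T⁻¹ • ∫ s in (0 : ℝ)..T, PL ξ (x, s)) = - (T⁻¹ • ∫ s in (0 : ℝ)..T, PL ξ (x, s))
    rw [map_smul, inv_int cP, ← smul_neg, ← intervalIntegral.integral_neg]
    simp only [oP]
  have cbb : Continuous fun t => bb a ξ (x, t) := by
    have q1 : Continuous fun t => (3 : ℝ) • a x + (2 : ℝ) • dF (PL ξ) (x, t) :=
      continuous_const.add (cDP.const_smul 2)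
    exact cont_mul (cont_mul q1 cξ) cP
  have rB : R (TI 0 T (bb a ξ) x) = ∫ r in (0 : ℝ)..T,
      ((3 : ℝ) • R (a x) + (2 : ℝ) • D1 r) * X1 r * L1 r := by
    rw [hR, rs_TI cbb]
    refine intervalIntegral.integral_congr fun t _ => ?_
    simp only [bb]
    rw [rs_mul, rs_mul, map_add, map_smul, map_smul]
  have hd : F.d (TI 0 T ξ * (av T (PL ξ) * TI 0 T (fun p => PL ξ p * ξ p))) x =
      F.d (TI 0 T ξ) x * (av T (PL ξ) x * TI 0 T (fun p => PL ξ p * ξ p) x) +
        inv (TI 0 T ξ x) * (F.d (av T (PL ξ)) x * TI 0 T (fun p => PL ξ p * ξ p) x +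
          inv (av T (PL ξ) x) * F.d (TI 0 T (fun p => PL ξ p * ξ p)) x) := by
    have e1 : F.d (TI 0 T ξ * (av T (PL ξ) * TI 0 T (fun p => PL ξ p * ξ p))) x =
      F.d (TI 0 T ξ) x * (av T (PL ξ) * TI 0 T (fun p => PL ξ p * ξ p)) x +
        inv (TI 0 T ξ x) * F.d (av T (PL ξ) * TI 0 T (fun p => PL ξ p * ξ p)) x :=
      F.d_mul (sT.diff hx) ((sav.mul sη).diff hx)
    have e2 : F.d (av T (PL ξ) * TI 0 T (fun p => PL ξ p * ξ p)) x =
      F.d (av T (PL ξ)) x * TI 0 T (fun p => PL ξ p * ξ p) x +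
          inv (av T (PL ξ) x) * F.d (TI 0 T (fun p => PL ξ p * ξ p)) x :=
      F.d_mul (sav.diff hx) (sη.diff hx)
    rw [e1, e2]; rfl
  have rdT : R (F.d (TI 0 T ξ) x) = 0 := hD0 x hx
  have rdav : R (F.d (av T (PL ξ)) x) = T⁻¹ • ∫ s in (0 : ℝ)..T, D1 s := by
    rw [hP.d_av T hx, hR, rs_av cDP]
  have rη : R (TI 0 T (fun p => PL ξ p * ξ p) x) = ∫ r in (0 : ℝ)..T, L1 r * X1 r := by
    rw [hR, rs_TI (cont_mul cP cξ)]
    refine intervalIntegral.integral_congr fun t _ => ?_
    exact rs_mul X x _ _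
  have rav2 : R (av T (PL ξ) x) = T⁻¹ • ∫ s in (0 : ℝ)..T, L1 s := by rw [hR, rs_av cP]
  have rdη : R (F.d (TI 0 T (fun p => PL ξ p * ξ p)) x) =
      ∫ r in (0 : ℝ)..T, (D1 r * X1 r + -(L1 r) * D1' r) := by
    rw [hPξ.d_TI 0 T hx, hR, rs_TI (hPξ.dF.cont hx)]
    refine intervalIntegral.integral_congr fun t _ => ?_
    show rs X x (dF (fun p => PL ξ p * ξ p) (x, t)) = _
    rw [dF_mul hP hξ hx t, map_add, rs_mul, rs_mul, oP, map_neg]
  have Rm : ∀ a b, R (a * b) = R a * R b := rs_mul X x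
  rw [Pi.sub_apply, Pi.neg_apply, Pi.mul_apply, hd, odT, oav]
  simp only [map_sub, map_neg, map_add, Rm, rdT, rT, rB, zero_mul, zero_add, rdav, rη, rav2, rdη]
  rw [← h2C]
  simp only [neg_mul, mul_neg, mul_add, mul_assoc]
  abel

end psiK

end Crest.Agent.R208.AF
end
end

-- ▼ part R208/AF4

/-! Row 208, block (A2) (helper601).  AF4: the forms `ξ_t`, `W_t` of a family of maps
`Fm : X × ℝ → Y`, and their values on a window where the family is `G (pr x, h t)`. -/

set_option autoImplicit false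
set_option linter.unusedSectionVars false

open MeasureTheory Set Filter Topology Module
open scoped ContDiff
open Crest.Agent.R208.F Crest.Agent.R208.FI Crest.Agent.R208.CW Crest.Agent.R208.T

noncomputable section

namespace Crest.Agent.R208.AF

section fam
universe u
variable {E : Type u} [NormedAddCommGroup E] [NormedSpace ℝ E] [FiniteDimensional ℝ E]
  {E' : Type*} [NormedAddCommGroup E'] [NormedSpace ℝ E'] [FiniteDimensional ℝ E']
  {X : Set E} {Y : Set E'} {Fm : E × ℝ → E'} {om : E' → Ext E'} {x : E} {t : ℝ}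

/-- smooth families of maps -/
structure Fam (X : Set E) (Y : Set E') (Fm : E × ℝ → E') : Prop where
  sm : ∀ x ∈ X, ∀ t, ContDiffAt ℝ ∞ Fm (x, t)
  maps : ∀ x ∈ X, ∀ t, Fm (x, t) ∈ Y

/-- `ι_{∂_t} F^* om` on the slices -/
def xiF (Fm : E × ℝ → E') (om : E' → Ext E') (p : E × ℝ) : Ext E :=
  hopL (ContinuousLinearMap.inl ℝ E ℝ) ((0, 1) : E × ℝ) (pull Fm om p)

/-- `F_t^* om` -/
def WF (Fm : E × ℝ → E') (om : E' → Ext E') (p : E × ℝ) : Ext E :=
  pull (fun y => Fm (y, p.2)) om p.1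

theorem xiF_eq (Fm : E × ℝ → E') (om : E' → Ext E') (p : E × ℝ) : xiF Fm om p =
    pb (((fderiv ℝ Fm p).comp (ContinuousLinearMap.inl ℝ E ℝ) : E →L[ℝ] E') : E →ₗ[ℝ] E')
      (ii (fderiv ℝ Fm p (0, 1)) (om (Fm p))) := by
  rw [xiF, hopL_apply, pull, ii_pb, pb_comp]
  rfl

theorem WF_eq {p : E × ℝ} (h : DifferentiableAt ℝ Fm p) :
    WF Fm om p = pbL (ContinuousLinearMap.inl ℝ E ℝ) (pull Fm om p) := by
  have h1 := pbL_pull (j := ContinuousLinearMap.inl ℝ E ℝ) (v := ((0, 1) : E × ℝ)) (Fh := Fm)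
    (om := om) (x := p.1) (t := p.2) (by rw [jv_inl]; exact h)
  simp only [jv_inl] at h1
  exact h1.symm

theorem Fam.smF_xi (h : Fam X Y Fm) (hs : Sm Y om) : SmF X (xiF Fm om) := fun x hx t =>
  (hopL _ _).contDiff.contDiffAt.comp (x, t)
    (contDiffAt_pull (h.sm x hx t) (by simp) (hs _ (h.maps x hx t)))

theorem Fam.smF_W (h : Fam X Y Fm) (hs : Sm Y om) : SmF X (WF Fm om) := by
  intro x hx t
  have h1 : ContDiffAt ℝ ∞ (fun p => pbL (ContinuousLinearMap.inl ℝ E ℝ) (pull Fm om p)) (x, t) :=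
    (pbL _).contDiff.contDiffAt.comp (x, t)
      (contDiffAt_pull (h.sm x hx t) (by simp) (hs _ (h.maps x hx t)))
  refine h1.congr_of_eventuallyEq ?_
  have h2 : ∀ᶠ p in 𝓝 (x, t), ContDiffAt ℝ 1 Fm p :=
    ((h.sm x hx t).of_le (by exact_mod_cast le_top)).eventually (by simp)
  filter_upwards [h2] with p hp
  exact WF_eq (hp.differentiableAt (by norm_num))

theorem inv_xiF (he : ∀ y, inv (om y) = om y) (p : E × ℝ) : inv (xiF Fm om p) = - xiF Fm om p := by
  rw [xiF_eq, ← pb_inv, inv_ii, he, map_neg]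

theorem inv_WF (he : ∀ y, inv (om y) = om y) (p : E × ℝ) : inv (WF Fm om p) = WF Fm om p := by
  rw [WF, pull, ← pb_inv, he]

/-- `PL ξ (x,t)` is the homotopy operator for the path `s ↦ (x, s t)` -/
theorem hop_eq_PL (Fm : E × ℝ → E') (om : E' → Ext E') (t : ℝ) :
    hop (ContinuousLinearMap.inl ℝ E ℝ) ((0, t) : E × ℝ) (pull Fm om) =
      fun x => PL (xiF Fm om) (x, t) := by
  funext x
  rw [PL_eq]
  show (∫ s in (0 : ℝ)..1, hopg (ContinuousLinearMap.inl ℝ E ℝ) ((0, t) : E × ℝ) (pull Fm om) (x, s))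
    = t • ∫ s in (0 : ℝ)..1, xiF Fm om (x, t * s)
  rw [← intervalIntegral.integral_smul]
  refine intervalIntegral.integral_congr fun s _ => ?_
  have h1 : jv (ContinuousLinearMap.inl ℝ E ℝ) ((0, t) : E × ℝ) (x, s) = (x, t * s) := by
    rw [jv_apply]; simp [mul_comm]
  have h2 : ((0, t) : E × ℝ) = t • ((0, 1) : E × ℝ) := by simp
  simp only [hopg, h1]
  rw [hopL_apply, xiF, hopL_apply, h2, map_smul, LinearMap.smul_apply, map_smul]

/-- `W_t = W_0 + d (∫_0^t ξ)` -/
theorem Fam.rs_W (h : Fam X Y Fm) (hs : Sm Y om) (hc : Cl Y om) (hx : x ∈ X) (t : ℝ) :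
    rs X x (WF Fm om (x, t)) = rs X x (WF Fm om (x, 0) + dF (PL (xiF Fm om)) (x, t)) := by
  have hj : ∀ (y : E) (s : ℝ), jv (ContinuousLinearMap.inl ℝ E ℝ) ((0, t) : E × ℝ) (y, s) =
      (y, s * t) := by
    intro y s; rw [jv_apply]; simp
  have h1 := resZero_homotopy (j := ContinuousLinearMap.inl ℝ E ℝ) (v := ((0, t) : E × ℝ))
    (Fh := Fm) (om := om) (X := X) (Y := Y)
    (fun x hx s _ => by rw [hj]; exact (h.sm x hx _).of_le two_le)
    (fun x hx s _ => by rw [hj]; exact h.maps x hx _)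
    (fun y hy => (hs y hy).of_le (by exact_mod_cast le_top)) hc x hx
  simp only [hj, one_mul, zero_mul] at h1
  rw [hop_eq_PL] at h1
  have h2 : rs X x (WF Fm om (x, t) - WF Fm om (x, 0) - dF (PL (xiF Fm om)) (x, t)) = 0 := h1
  rw [map_sub, map_sub, sub_sub, sub_eq_zero, ← map_add] at h2
  exact h2

end fam

/-! ### windows -/
section window
universe u v
variable {E : Type u} [NormedAddCommGroup E] [NormedSpace ℝ E] [FiniteDimensional ℝ E]
  {E₁ : Type v} [NormedAddCommGroup E₁] [NormedSpace ℝ E₁] [FiniteDimensional ℝ E₁]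
  {E' : Type*} [NormedAddCommGroup E'] [NormedSpace ℝ E'] [FiniteDimensional ℝ E']
  {X : Set E} {U : Set E₁} {Y : Set E'} {Fm : E × ℝ → E'} {G : E₁ × ℝ → E'} {om : E' → Ext E'}
  {pr : E → E₁} {h h' : ℝ → ℝ} {x : E} {t : ℝ} {I : Set ℝ}

/-- **window lemma** -/
theorem xiF_window (hF : Fam X Y Fm) (hG : Fam U Y G) (hpr : SMap X U pr)
    (hI : IsOpen I) (hh : ∀ t, HasDerivAt h (h' t) t)
    (he : ∀ x ∈ X, ∀ t ∈ I, Fm (x, t) = G (pr x, h t)) (hx : x ∈ X) (ht : t ∈ I) :
    rs X x (xiF Fm om (x, t)) = h' t • rs X x (pull pr (fun z => xiF G om (z, h t)) x) := by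
  have dF' : HasFDerivAt Fm (fderiv ℝ Fm (x, t)) (x, t) :=
    ((hF.sm x hx t).differentiableAt (by simp)).hasFDerivAt
  have dG : HasFDerivAt G (fderiv ℝ G (pr x, h t)) (pr x, h t) :=
    ((hG.sm _ (hpr.maps hx) (h t)).differentiableAt (by simp)).hasFDerivAt
  have dpr : HasFDerivAt pr (fderiv ℝ pr x) x := (hpr.diff hx).hasFDerivAt
  -- time derivative
  have e1 : fderiv ℝ Fm (x, t) (0, 1) = h' t • fderiv ℝ G (pr x, h t) (0, 1) := by
    have h1 : HasDerivAt (fun s => ((x, s) : E × ℝ)) (0, 1) t :=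
      (hasDerivAt_const t x).prodMk (hasDerivAt_id t)
    have h2 : HasDerivAt (fun s => Fm (x, s)) (fderiv ℝ Fm (x, t) (0, 1)) t :=
      dF'.comp_hasDerivAt t h1
    have h3 : HasDerivAt (fun s => ((pr x, h s) : E₁ × ℝ)) (0, h' t) t :=
      (hasDerivAt_const t (pr x)).prodMk (hh t)
    have h4 : HasDerivAt (fun s => G (pr x, h s)) (fderiv ℝ G (pr x, h t) (0, h' t)) t :=
      dG.comp_hasDerivAt t h3
    have h5 : (fun s => Fm (x, s)) =ᶠ[𝓝 t] fun s => G (pr x, h s) := by
      filter_upwards [hI.mem_nhds ht] with s hs using he x hx s hs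
    have h6 := (h4.congr_of_eventuallyEq h5).unique h2
    rw [← h6, ← map_smul]
    congr 1
    simp
  -- space derivatives
  have e2 : ∀ w ∈ Tan X x, fderiv ℝ Fm (x, t) (w, 0) =
      fderiv ℝ G (pr x, h t) (fderiv ℝ pr x w, 0) := by
    intro w hw
    have dF2 : HasFDerivAt (fun y => Fm (y, t)) ((fderiv ℝ Fm (x, t)).comp
        (ContinuousLinearMap.inl ℝ E ℝ)) x :=
      dF'.comp x ((hasFDerivAt_id x).prodMk (hasFDerivAt_const t x))
    have dG2 : HasFDerivAt (fun y => G (pr y, h t)) ((fderiv ℝ G (pr x, h t)).comp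
        ((fderiv ℝ pr x).prod 0)) x :=
      dG.comp x (dpr.prodMk (hasFDerivAt_const (h t) x))
    have key : ∀ w ∈ Tan X x, ((fderiv ℝ Fm (x, t)).comp (ContinuousLinearMap.inl ℝ E ℝ)) w =
        ((fderiv ℝ G (pr x, h t)).comp ((fderiv ℝ pr x).prod 0)) w := by
      intro w hw
      refine Submodule.span_induction (p := fun w _ =>
        ((fderiv ℝ Fm (x, t)).comp (ContinuousLinearMap.inl ℝ E ℝ)) w =
        ((fderiv ℝ G (pr x, h t)).comp ((fderiv ℝ pr x).prod 0)) w) ?_ ?_ ?_ ?_ hw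
      · rintro w ⟨γ, rfl, hγ, hS⟩
        have h1 := dF2.comp_hasDerivAt 0 hγ
        have h2 := dG2.comp_hasDerivAt 0 hγ
        have h3 : ((fun y => Fm (y, t)) ∘ γ) =ᶠ[𝓝 0] ((fun y => G (pr y, h t)) ∘ γ) :=
          hS.mono fun s hs => he _ hs t ht
        exact (h1.congr_of_eventuallyEq h3.symm).unique h2
      · simp only [map_zero]
      · intro a b _ _ ha hb; simp only [map_add, ha, hb]
      · intro r a _ ha; simp only [map_smul, ha]
    have := key w hw
    simpa using this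
  rw [rs_apply, rs_apply, xiF_eq, pull, xiF_eq, e1, map_smul, LinearMap.smul_apply, map_smul,
    map_smul, he x hx t ht, pb_comp, pb_comp, pb_comp]
  congr 3
  refine LinearMap.ext fun w => ?_
  have := e2 w w.2
  simpa using this

end window

end Crest.Agent.R208.AF
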