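import Crest.Agent.R208.KG5
import Crest.Agent.R208.FV6

-- ▼ part R208/KG6
section

/-!
Row 208, block KG (helper10), part KG6: the flat family as a concatenation of arcs; distance to
the diagonal.
-/

set_option autoImplicit false

open Set Filter Topology MeasureTheory
open scoped ContDiff RealInnerProductSpace Interval
open Crest.GeometryTopology.Submanifold
open Crest.Agent.R241.DDefs
open Crest.Agent.R241.D2
open Crest.Agent.R241.D3c

noncomputable section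

namespace Crest.Agent.R208.KG

variable {n N : ℕ} {κ : ℝ} {S : Set (Euc N)} {G : Geo n N κ S} {m : ℕ} {ε : ℝ}

/-! ### the flat reparametrisation -/

/-- `Rf ε (jπ + s) = jπ + gT ε 1 s - gT ε 1 (-s)` -/
def Rj (ε : ℝ) (j : ℤ) (t : ℝ) : ℝ :=
  j * Real.pi + gT ε 1 (t - j * Real.pi) - gT ε 1 (j * Real.pi - t)

/-- smooth, non decreasing, `Rf (t + π) = Rf t + π`, `Rf = jπ` near `jπ`, `Rf t = t` away from
the multiples of `π` -/
def Rf (ε t : ℝ) : ℝ := Rj ε (round (t / Real.pi)) t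

lemma contDiff_gT1 (ε τ : ℝ) : ContDiff ℝ ∞ (gT ε τ) :=
  (contDiff_gT ε).comp (contDiff_const.prodMk contDiff_id)

lemma contDiff_Rj (ε : ℝ) (j : ℤ) : ContDiff ℝ ∞ (Rj ε j) := by
  unfold Rj
  have h := contDiff_gT1 ε 1
  exact (contDiff_const.add (h.comp (by fun_prop))).sub (h.comp (by fun_prop))

lemma Rj_ge (hε : 0 < ε) {j : ℤ} {t : ℝ} (h : ε ≤ t - j * Real.pi) : Rj ε j t = t := by
  unfold Rj
  rw [gT_of_ge hε h, gT_one_of_le hε (by linarith)]
  ring

lemma Rj_le (hε : 0 < ε) {j : ℤ} {t : ℝ} (h : t - j * Real.pi ≤ -ε) : Rj ε j t = t := by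
  unfold Rj
  rw [gT_one_of_le hε (by linarith), gT_of_ge hε (by linarith : ε ≤ j * Real.pi - t)]
  ring

lemma Rf_eq (hε : 0 < ε) (hε1 : ε ≤ 1 / 2) {j : ℤ} {t : ℝ}
    (h1 : |t - j * Real.pi| ≤ Real.pi - ε) : Rf ε t = Rj ε j t := by
  have hpi := Real.pi_gt_three
  set j' := round (t / Real.pi) with hj'
  have h2 : |t - j' * Real.pi| ≤ Real.pi / 2 := by
    have h3 := abs_sub_round (t / Real.pi)
    rw [← hj'] at h3
    have h4 : t - j' * Real.pi = (t / Real.pi - j') * Real.pi := by field_simp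
    rw [h4, abs_mul, abs_of_pos Real.pi_pos]
    nlinarith
  obtain ⟨a1, a2⟩ := abs_le.1 h1
  obtain ⟨b1, b2⟩ := abs_le.1 h2
  have c1 : (j' : ℝ) < j + 2 := by nlinarith
  have c2 : (j : ℝ) < j' + 2 := by nlinarith
  have c1' : j' < j + 2 := by exact_mod_cast c1
  have c2' : j < j' + 2 := by exact_mod_cast c2
  unfold Rf
  rw [← hj']
  rcases (by omega : j' = j - 1 ∨ j' = j ∨ j' = j + 1) with h | h | h
  · rw [h] at b1 b2 ⊢
    push_cast at b1 b2
    rw [Rj_ge hε (by push_cast; linarith), Rj_le hε (by linarith)]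
  · rw [h]
  · rw [h] at b1 b2 ⊢
    push_cast at b1 b2
    rw [Rj_le hε (by push_cast; linarith), Rj_ge hε (by linarith)]

theorem contDiff_Rf (hε : 0 < ε) (hε1 : ε ≤ 1 / 2) : ContDiff ℝ ∞ (Rf ε) := by
  rw [contDiff_iff_contDiffAt]
  intro t₀
  have hpi := Real.pi_gt_three
  refine (contDiff_Rj ε (round (t₀ / Real.pi))).contDiffAt.congr_of_eventuallyEq ?_
  have h3 := abs_sub_round (t₀ / Real.pi)
  have h4 : t₀ - round (t₀ / Real.pi) * Real.pi =
      (t₀ / Real.pi - round (t₀ / Real.pi)) * Real.pi := by field_simp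
  have h5 : |t₀ - round (t₀ / Real.pi) * Real.pi| ≤ Real.pi / 2 := by
    rw [h4, abs_mul, abs_of_pos Real.pi_pos]
    nlinarith
  filter_upwards [Metric.closedBall_mem_nhds t₀ one_pos] with t ht
  rw [Metric.mem_closedBall, Real.dist_eq] at ht
  refine Rf_eq hε hε1 ?_
  have h6 := abs_sub_le t t₀ (round (t₀ / Real.pi) * Real.pi)
  linarith


lemma Rf_near (hε : 0 < ε) (hε1 : ε ≤ 1 / 2) {j : ℤ} {t : ℝ} (h1 : |t - j * Real.pi| ≤ ε / 4) :
    Rf ε t = j * Real.pi := by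
  have hpi := Real.pi_gt_three
  rw [Rf_eq hε hε1 (j := j) (by linarith)]
  obtain ⟨a1, a2⟩ := abs_le.1 h1
  unfold Rj
  rw [gT_one_of_le' hε a2, gT_one_of_le' hε (by linarith)]
  ring


/-! ### the flat family -/

variable [NeZero m] {z : Euc N × (Fin m → Euc N)}

/-- **the flat loop on the `i`-th arc** -/
theorem cc_flat (hper : HS.Per G) (hε : 0 < ε) (hε1 : ε ≤ 1 / 2) (hz : z ∈ Km G m) {i : ℤ}
    {t : ℝ} (h1 : i * Real.pi ≤ t) (h2 : t ≤ (i + 1) * Real.pi) :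
    cc G ε z 1 t = (fl G ((z.1, z.2 (idx m i)), Rf ε t)).1 := by
  have hpi := Real.pi_gt_three
  rcases le_total t (i * Real.pi + Real.pi / 2) with h | h
  · have h3 : |t - i * Real.pi| ≤ Real.pi - ε := by
      rw [abs_of_nonneg (by linarith)]; linarith
    rw [cc_eq hper hε hε1 hz h3, Rf_eq hε hε1 h3]
    unfold pc Rj
    rw [rnd_one_of_nonneg hε (sta_mem hz _ _).1 (sta_snd_mem hper hz _ _ _) (by linarith),
      gT_one_of_le (s := i * Real.pi - t) hε (by linarith), sub_zero, fl_add' G (kTS hz _)]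
    rfl
  · have h3 : |t - ((i + 1 : ℤ) : ℝ) * Real.pi| ≤ Real.pi - ε := by
      push_cast
      rw [abs_of_nonpos (by linarith)]; linarith
    rw [cc_eq hper hε hε1 hz h3, Rf_eq hε hε1 h3]
    unfold pc Rj
    rw [rnd_one_of_nonpos hε (sta_mem hz _ _).1 (sta_snd_mem hper hz _ _ _)
      (by push_cast; linarith),
      gT_one_of_le (s := t - ((i + 1 : ℤ) : ℝ) * Real.pi) hε (by push_cast; linarith),
      add_zero, sub_eq_add_neg (((i + 1 : ℤ) : ℝ) * Real.pi), fl_add' G (kTS hz _), neg_sub,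
      sta_fst hper hz (idx m (i + 1)) (idx m (i + 1 - 1)), add_sub_cancel_right]
    rfl

theorem F_flat (h : OK G m ε) (hz : z ∈ Km G m) {i : ℤ} {α : ℝ}
    (h1 : i * Real.pi ≤ (m : ℝ) / 2 * α) (h2 : (m : ℝ) / 2 * α ≤ (i + 1) * Real.pi) :
    F G m ε z 1 α = (fl G ((z.1, z.2 (idx m i)), Rf ε ((m : ℝ) / 2 * α))).1 := by
  rw [F_eq h hz ⟨zero_le_one, le_rfl⟩, cc_flat h.per h.pos h.le hz h1 h2]

/-! ### reversed arcs: `F z 1 α = Exp_p (π h ((-1)^i v_i))` -/

/-- the height `0 → 1 → 0 → 1 …` -/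
def hfi (ε : ℝ) (i : ℤ) (t : ℝ) : ℝ :=
  if Even i then (Rf ε t - i * Real.pi) / Real.pi else ((i + 1) * Real.pi - Rf ε t) / Real.pi

/-- the sign of the `i`-th arc -/
def sgi (i : ℤ) : ℝ := if Even i then 1 else -1

omit [NeZero m] in
lemma fl_neg_dir {q : Euc N × Euc N} (hq : q ∈ TS G) (t : ℝ) :
    (fl G ((q.1, -q.2), t)).1 = (fl G (q, -t)).1 := by
  have h1 := fl_scale G (x := q.1) (v := q.2) hq (-1) t
  rw [neg_one_smul, neg_one_mul] at h1
  rw [h1]

theorem F_flat' (h : OK G m ε) (hz : z ∈ Km G m) {i : ℤ} {α : ℝ}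
    (h1 : i * Real.pi ≤ (m : ℝ) / 2 * α) (h2 : (m : ℝ) / 2 * α ≤ (i + 1) * Real.pi) :
    F G m ε z 1 α =
      Exp G z.1 ((Real.pi * hfi ε i ((m : ℝ) / 2 * α)) • (sgi i • z.2 (idx m i))) := by
  have hq := kTS hz (idx m i)
  have hn := (hz.2.1 (idx m i)).2
  have hp0 := Real.pi_ne_zero
  rw [F_flat h hz h1 h2]
  unfold hfi sgi
  by_cases he : Even i
  · rw [if_pos he, if_pos he, one_smul, Exp_smul G hz.1 (hz.2.1 _).1]
    obtain ⟨l, hl⟩ := he
    have e1 := fl_int h.per hq hn (Real.pi * ((Rf ε ((m : ℝ) / 2 * α) - i * Real.pi) / Real.pi)) l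
    have e2 : Real.pi * ((Rf ε ((m : ℝ) / 2 * α) - i * Real.pi) / Real.pi) + 2 * l * Real.pi =
        Rf ε ((m : ℝ) / 2 * α) := by
      rw [hl]; push_cast; field_simp; ring
    rw [e2] at e1
    rw [e1]
  · rw [if_neg he, if_neg he, neg_one_smul, Exp_smul G hz.1 ((G.T z.1).neg_mem (hz.2.1 _).1)]
    have e0 := fl_neg_dir hq (Real.pi * (((i + 1) * Real.pi - Rf ε ((m : ℝ) / 2 * α)) / Real.pi))
    simp only at e0
    rw [e0]
    obtain ⟨l, hl⟩ := Int.not_even_iff_odd.1 he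
    have e1 := fl_int h.per hq hn
      (-(Real.pi * (((i + 1) * Real.pi - Rf ε ((m : ℝ) / 2 * α)) / Real.pi))) (l + 1)
    have e2 : -(Real.pi * (((i + 1) * Real.pi - Rf ε ((m : ℝ) / 2 * α)) / Real.pi)) +
        2 * ((l + 1 : ℤ) : ℝ) * Real.pi = Rf ε ((m : ℝ) / 2 * α) := by
      rw [hl]; push_cast; field_simp; ring
    rw [e2] at e1
    rw [e1]

/-! ### distance to the diagonal -/


/-- `‖v_i - v_0‖² ≤ m Σ ‖v_j - v_{j-1}‖²` -/
theorem norm_sub_le_jsq (z : Euc N × (Fin m → Euc N)) (i : Fin m) :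
    ‖z.2 i - z.2 (idx m 0)‖ ^ 2 ≤ m * jsq z := by
  have key : ∀ j : ℕ, j < m → ‖z.2 (idx m (j : ℤ)) - z.2 (idx m 0)‖ ≤
      ∑ l ∈ Finset.range m, ‖z.2 (idx m (l : ℤ)) - z.2 (idx m ((l : ℤ) - 1))‖ := by
    have h1 : ∀ j : ℕ, ‖z.2 (idx m (j : ℤ)) - z.2 (idx m 0)‖ ≤
        ∑ l ∈ Finset.range (j + 1), ‖z.2 (idx m (l : ℤ)) - z.2 (idx m ((l : ℤ) - 1))‖ := by
      intro j
      induction j with
      | zero => simp
      | succ j ih =>
        rw [Finset.sum_range_succ]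
        have e1 : ((j + 1 : ℕ) : ℤ) - 1 = (j : ℤ) := by push_cast; ring
        rw [e1]
        have e2 : z.2 (idx m ((j + 1 : ℕ) : ℤ)) - z.2 (idx m 0) =
            (z.2 (idx m (j : ℤ)) - z.2 (idx m 0)) +
            (z.2 (idx m ((j + 1 : ℕ) : ℤ)) - z.2 (idx m (j : ℤ))) := by abel
        rw [e2]
        exact (norm_add_le _ _).trans (add_le_add ih le_rfl)
    intro j hj
    refine (h1 j).trans (Finset.sum_le_sum_of_subset_of_nonneg ?_ fun _ _ _ => norm_nonneg _)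
    exact Finset.range_subset_range.2 hj
  have h2 := key i i.2
  rw [idx_natCast] at h2
  have h3 := sq_sum_le_card_mul_sum_sq (s := Finset.range m)
    (f := fun l : ℕ => ‖z.2 (idx m (l : ℤ)) - z.2 (idx m ((l : ℤ) - 1))‖)
  rw [Finset.card_range] at h3
  calc ‖z.2 i - z.2 (idx m 0)‖ ^ 2 ≤
      (∑ l ∈ Finset.range m, ‖z.2 (idx m (l : ℤ)) - z.2 (idx m ((l : ℤ) - 1))‖) ^ 2 := by
        gcongr
    _ ≤ _ := h3


end Crest.Agent.R208.KG
end
end

-- ▼ part R208/KG7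

/-!
Row 208, block KG (helper10), part KG7: the height function of the flat family; the nested sphere
bundle over `US` (helper601's `K_4`) and its map to `Km G 4`.
-/

set_option autoImplicit false

open Set Filter Topology MeasureTheory
open scoped ContDiff RealInnerProductSpace Interval
open Crest.GeometryTopology.Submanifold
open Crest.Agent.R241.DDefs
open Crest.Agent.R241.D2
open Crest.Agent.R241.D3c

noncomputable section

namespace Crest.Agent.R208.KG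

variable {n N : ℕ} {κ : ℝ} {S : Set (Euc N)} {G : Geo n N κ S} {m : ℕ} {ε : ℝ}

/-! ### the height function -/

/-- `0 → 1 → 0 → 1 …` : `hf ε t = hfi ε i t` on `[iπ, (i+1)π]` -/
def hf (ε t : ℝ) : ℝ := hfi ε ⌊t / Real.pi⌋ t

lemma hfi_near (hε : 0 < ε) (hε1 : ε ≤ 1 / 2) {i j : ℤ} {t : ℝ} (hij : j = i ∨ j = i + 1)
    (h1 : |t - j * Real.pi| ≤ ε / 4) : hfi ε i t = if Even j then 0 else 1 := by
  have hpi := Real.pi_ne_zero
  unfold hfi
  rw [Rf_near hε hε1 h1]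
  rcases hij with rfl | rfl
  · by_cases he : Even j
    · rw [if_pos he, if_pos he, sub_self, zero_div]
    · rw [if_neg he, if_neg he, add_mul, add_sub_cancel_left, one_mul, div_self hpi]
  · by_cases he : Even i
    · have h2 : ¬ Even (i + 1) := by simpa [Int.even_add_one] using he
      rw [if_pos he, if_neg h2]
      push_cast
      rw [add_mul, add_sub_cancel_left, one_mul, div_self hpi]
    · have h2 : Even (i + 1) := by simpa [Int.even_add_one] using he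
      rw [if_neg he, if_pos h2]
      push_cast
      rw [sub_self, zero_div]

lemma contDiff_hfi (hε : 0 < ε) (hε1 : ε ≤ 1 / 2) (i : ℤ) : ContDiff ℝ ∞ (hfi ε i) := by
  unfold hfi
  by_cases he : Even i
  · simp only [if_pos he]
    exact ((contDiff_Rf hε hε1).sub contDiff_const).div_const _
  · simp only [if_neg he]
    exact (contDiff_const.sub (contDiff_Rf hε hε1)).div_const _

lemma floor_cases (t₀ : ℝ) {t : ℝ} (h : |t - t₀| < 1) :
    ⌊t / Real.pi⌋ = ⌊t₀ / Real.pi⌋ ∨ ⌊t / Real.pi⌋ = ⌊t₀ / Real.pi⌋ + 1 ∨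
      ⌊t / Real.pi⌋ = ⌊t₀ / Real.pi⌋ - 1 := by
  have hpi := Real.pi_gt_three
  obtain ⟨a1, a2⟩ := abs_lt.1 h
  have e1 := Int.floor_le (t / Real.pi)
  have e2 := Int.lt_floor_add_one (t / Real.pi)
  have e3 := Int.floor_le (t₀ / Real.pi)
  have e4 := Int.lt_floor_add_one (t₀ / Real.pi)
  have h5 : |t / Real.pi - t₀ / Real.pi| < 1 := by
    rw [← sub_div, abs_div, abs_of_pos Real.pi_pos, div_lt_one Real.pi_pos]
    linarith
  obtain ⟨b1, b2⟩ := abs_lt.1 h5
  have c1 : (⌊t / Real.pi⌋ : ℝ) < ⌊t₀ / Real.pi⌋ + 2 := by linarith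
  have c2 : (⌊t₀ / Real.pi⌋ : ℝ) < ⌊t / Real.pi⌋ + 2 := by linarith
  have c1' : ⌊t / Real.pi⌋ < ⌊t₀ / Real.pi⌋ + 2 := by exact_mod_cast c1
  have c2' : ⌊t₀ / Real.pi⌋ < ⌊t / Real.pi⌋ + 2 := by exact_mod_cast c2
  omega

/-- near every time the height is one of the smooth functions `hfi` -/
lemma hf_eventually (hε : 0 < ε) (hε1 : ε ≤ 1 / 2) (t₀ : ℝ) :
    hf ε =ᶠ[𝓝 t₀] hfi ε ⌊t₀ / Real.pi⌋ := by
  have hpi := Real.pi_pos
  set i := ⌊t₀ / Real.pi⌋ with hi
  have e3 := Int.floor_le (t₀ / Real.pi)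
  have e4 := Int.lt_floor_add_one (t₀ / Real.pi)
  rw [← hi] at e3 e4
  have f3 : i * Real.pi ≤ t₀ := by rwa [le_div_iff₀ hpi] at e3
  have f4 : t₀ < (i + 1) * Real.pi := by rwa [div_lt_iff₀ hpi] at e4
  have hmem : Metric.ball t₀ (min (ε / 4) ((i + 1) * Real.pi - t₀)) ∈ 𝓝 t₀ :=
    Metric.ball_mem_nhds _ (lt_min (by positivity) (by linarith))
  filter_upwards [hmem] with t ht
  rw [Metric.mem_ball, Real.dist_eq, lt_min_iff] at ht
  obtain ⟨h1, h2⟩ := ht
  obtain ⟨a1, a2⟩ := abs_lt.1 h1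
  obtain ⟨a3, a4⟩ := abs_lt.1 h2
  have g2 : t < (i + 1) * Real.pi := by linarith
  unfold hf
  rcases lt_or_ge t (i * Real.pi) with hlt | hge
  · -- `⌊t/π⌋ = i - 1` and `t` is near `iπ`
    have hfl : ⌊t / Real.pi⌋ = i - 1 := by
      rcases floor_cases t₀ (t := t) (by linarith) with h | h | h
      · exfalso
        have := Int.floor_le (t / Real.pi)
        rw [h, ← hi, le_div_iff₀ hpi] at this
        linarith
      · exfalso
        have := Int.floor_le (t / Real.pi)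
        rw [h, ← hi, le_div_iff₀ hpi] at this
        push_cast at this
        linarith
      · rw [h]
    rw [hfl, hfi_near hε hε1 (i := i - 1) (j := i) (Or.inr (by ring))
      (by rw [abs_le]; constructor <;> linarith),
      hfi_near hε hε1 (i := i) (j := i) (Or.inl rfl) (by rw [abs_le]; constructor <;> linarith)]
  · have hfl : ⌊t / Real.pi⌋ = i := by
      rw [Int.floor_eq_iff]
      constructor
      · rw [le_div_iff₀ hpi]; exact hge
      · rw [div_lt_iff₀ hpi]; exact g2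
    rw [hfl]

theorem contDiff_hf (hε : 0 < ε) (hε1 : ε ≤ 1 / 2) : ContDiff ℝ ∞ (hf ε) := by
  rw [contDiff_iff_contDiffAt]
  intro t₀
  exact (contDiff_hfi hε hε1 _).contDiffAt.congr_of_eventuallyEq (hf_eventually hε hε1 t₀)

lemma hf_eq (hε : 0 < ε) (hε1 : ε ≤ 1 / 2) {i : ℤ} {t : ℝ} (h1 : i * Real.pi ≤ t)
    (h2 : t ≤ (i + 1) * Real.pi) : hf ε t = hfi ε i t := by
  have hpi := Real.pi_pos
  rcases h2.lt_or_eq with h | h
  · have hfl : ⌊t / Real.pi⌋ = i := by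
      rw [Int.floor_eq_iff]
      constructor
      · rw [le_div_iff₀ hpi]; exact h1
      · rw [div_lt_iff₀ hpi]; exact h
    unfold hf
    rw [hfl]
  · have hfl : ⌊t / Real.pi⌋ = i + 1 := by
      rw [h, mul_div_assoc, div_self hpi.ne', mul_one]
      exact_mod_cast Int.floor_intCast (i + 1)
    unfold hf
    rw [hfl, hfi_near hε hε1 (i := i + 1) (j := i + 1) (Or.inl rfl)
      (by rw [h]; push_cast; rw [sub_self, abs_zero]; positivity),
      hfi_near hε hε1 (i := i) (j := i + 1) (Or.inr rfl)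
      (by rw [h]; push_cast; rw [sub_self, abs_zero]; positivity)]

/-- near `jπ` the height is constant, `0` for even and `1` for odd `j` -/
lemma hf_near (hε : 0 < ε) (hε1 : ε ≤ 1 / 2) {j : ℤ} {t : ℝ} (h1 : |t - j * Real.pi| ≤ ε / 4) :
    hf ε t = if Even j then 0 else 1 := by
  have hpi := Real.pi_gt_three
  obtain ⟨a1, a2⟩ := abs_le.1 h1
  rcases le_total t (j * Real.pi) with h | h
  · rw [hf_eq hε hε1 (i := j - 1) (by push_cast; linarith) (by push_cast; linarith),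
      hfi_near hε hε1 (Or.inr (by ring)) h1]
  · rw [hf_eq hε hε1 (i := j) h (by linarith), hfi_near hε hε1 (Or.inl rfl) h1]



variable [NeZero m] {z : Euc N × (Fin m → Euc N)}

/-- **the flat family in terms of the height** -/
theorem F_hf (h : OK G m ε) (hz : z ∈ Km G m) {i : ℤ} {α : ℝ}
    (h1 : i * Real.pi ≤ (m : ℝ) / 2 * α) (h2 : (m : ℝ) / 2 * α ≤ (i + 1) * Real.pi) :
    F G m ε z 1 α =
      Exp G z.1 ((Real.pi * hf ε ((m : ℝ) / 2 * α)) • (sgi i • z.2 (idx m i))) := by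
  rw [F_flat' h hz h1 h2, hf_eq h.pos h.le h1 h2]

/-! ### the nested sphere bundle -/

open Crest.Agent.R208.FV

variable {k : ℕ}

/-- `K_2` over `US` -/
def N2 (h : GT.Bla G k) : Set ((Euc N × Euc N) × Euc N) :=
  T.Sph (L.US G) (fun z => PVB h (phi G z))

/-- `K_3` -/
def N3 (h : GT.Bla G k) : Set (((Euc N × Euc N) × Euc N) × Euc N) :=
  T.Sph (N2 h) (fun z => PVB h (phi G z.1))

/-- `K_4` -/
def N4 (h : GT.Bla G k) : Set ((((Euc N × Euc N) × Euc N) × Euc N) × Euc N) :=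
  T.Sph (N3 h) (fun z => PVB h (phi G z.1.1))

/-- the map to chains -/
def nest4 (z : (((Euc N × Euc N) × Euc N) × Euc N) × Euc N) : Euc N × (Fin 4 → Euc N) :=
  (z.1.1.1.1, ![z.1.1.1.2, z.1.1.2, z.1.2, z.2])

/-- the map to chains, two arcs -/
def nest2 (z : (Euc N × Euc N) × Euc N) : Euc N × (Fin 2 → Euc N) := (z.1.1, ![z.1.2, z.2])

omit [NeZero m] in
lemma contDiff_nest4 : ContDiff ℝ ∞
    (nest4 : (((Euc N × Euc N) × Euc N) × Euc N) × Euc N → Euc N × (Fin 4 → Euc N)) := by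
  unfold nest4
  refine ContDiff.prodMk (by fun_prop) (contDiff_pi.2 fun i => ?_)
  fin_cases i <;> simp <;> fun_prop


omit [NeZero m] in
/-- membership in a link -/
lemma link_spec (h : GT.Bla G k) {z : Euc N × Euc N} (hz : z ∈ L.US G) {a : Euc N}
    (ha : PVB h (phi G z) a = a) (ha1 : ‖a‖ = 1) :
    a ∈ G.T z.1 ∧ ‖a‖ = 1 ∧ Exp G z.1 (Real.pi • a) = Exp G z.1 (Real.pi • z.2) := by
  have hF := phi_mem h.bl hz
  have h1 := (PV_eq_self h.bl h.ty (sub_S h.bl) hF).1 ha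
  exact (mem_Vl h.ty hF).1 ⟨h1, ha1⟩

omit [NeZero m] in
theorem nest4_mem (h : GT.Bla G k) {z : (((Euc N × Euc N) × Euc N) × Euc N) × Euc N}
    (hz : z ∈ N4 h) : nest4 z ∈ Km G 4 := by
  obtain ⟨⟨⟨⟨⟨⟨hz0, h1⟩, h1'⟩, h2⟩, h2'⟩, h3⟩, h3'⟩ := hz
  have e1 := link_spec h hz0 h1 h1'
  have e2 := link_spec h hz0 h2 h2'
  have e3 := link_spec h hz0 h3 h3'
  refine ⟨hz0.1.1, ?_, ?_⟩
  · intro i
    fin_cases i
    · exact ⟨hz0.1.2, hz0.2⟩
    · exact ⟨e1.1, e1.2.1⟩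
    · exact ⟨e2.1, e2.2.1⟩
    · exact ⟨e3.1, e3.2.1⟩
  · have key : ∀ i, Exp G (nest4 z).1 (Real.pi • (nest4 z).2 i) =
        Exp G z.1.1.1.1 (Real.pi • z.1.1.1.2) := by
      intro i
      fin_cases i
      · rfl
      · exact e1.2.2
      · exact e2.2.2
      · exact e3.2.2
    intro i i'
    rw [key, key]


end Crest.Agent.R208.KG
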