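import Crest.Agent.R208.FI1
import Crest.Agent.R208.FH1

-- ▼ part R208/FI1b
section

/-! Row 208, block F2 (helper349), part FI1b: area formula for Bochner integrals, frame
independence of `dens`, the parametrisation formula for `J`. -/

set_option autoImplicit false
set_option linter.unusedSectionVars false

open Set Filter Topology Module MeasureTheory MeasureTheory.Measure
open scoped ContDiff
open Crest.Agent.R208.F

noncomputable section

namespace Crest.Agent.R208.FI

/-! ### area formula, Bochner version -/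
section area
open Crest.Agent.R241.AF
variable {U V : Type*} [NormedAddCommGroup U] [InnerProductSpace ℝ U] [FiniteDimensional ℝ U]
  [NormedAddCommGroup V] [InnerProductSpace ℝ V] [FiniteDimensional ℝ V]
variable [MeasurableSpace U] [BorelSpace U] [MeasurableSpace V] [BorelSpace V]
variable {s : Set U} {f : U → V} {f' : U → U →L[ℝ] V}
variable {G : Type*} [NormedAddCommGroup G] [NormedSpace ℝ G]

theorem aemeasurable_toNNReal_jac (hs : MeasurableSet s)
    (hf' : ∀ x ∈ s, HasFDerivWithinAt f (f' x) s x) :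
    AEMeasurable (fun x => (jac (f' x)).toNNReal) (volume.restrict s) := by
  have h := aemeasurable_jac hs hf'
  have := h.ennreal_toNNReal
  refine this.congr (Eventually.of_forall fun x => ?_)
  simp [ENNReal.ofReal]

/-- **area formula**, Bochner integrals. -/
theorem integral_image_eq_jac (hs : MeasurableSet s)
    (hf' : ∀ x ∈ s, HasFDerivWithinAt f (f' x) s x) (hf : InjOn f s) (g : V → G) :
    ∫ y in f '' s, g y ∂μHE[finrank ℝ U] = ∫ x in s, jac (f' x) • g (f x) := by
  rw [← restrict_map_withDensity_jac hs hf' hf,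
    (measurableEmbedding_of_deriv hs hf' hf).integral_map]
  simp only [Set.domRestrict_apply, ← Function.comp_apply (f := g), ENNReal.ofReal]
  rw [← (MeasurableEmbedding.subtype_coe hs).integral_map, map_comap_subtype_coe hs,
    setIntegral_withDensity_eq_setIntegral_smul₀ (aemeasurable_toNNReal_jac hs hf') _ hs]
  congr with x
  rw [NNReal.smul_def, Real.coe_toNNReal _ (jac_nonneg _)]

theorem integrableOn_image_iff_jac (hs : MeasurableSet s)
    (hf' : ∀ x ∈ s, HasFDerivWithinAt f (f' x) s x) (hf : InjOn f s) (g : V → G) :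
    IntegrableOn g (f '' s) μHE[finrank ℝ U] ↔ IntegrableOn (fun x => jac (f' x) • g (f x)) s := by
  rw [IntegrableOn, ← restrict_map_withDensity_jac hs hf' hf,
    (measurableEmbedding_of_deriv hs hf' hf).integrable_map_iff]
  simp only [Set.domRestrict_eq, ← Function.comp_assoc, ENNReal.ofReal]
  rw [← (MeasurableEmbedding.subtype_coe hs).integrable_map_iff, map_comap_subtype_coe hs,
    restrict_withDensity hs, integrable_withDensity_iff_integrable_coe_smul₀]
  · simp_rw [IntegrableOn, Real.coe_toNNReal _ (jac_nonneg _), Function.comp_apply]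
  · exact aemeasurable_toNNReal_jac hs hf'

end area

variable {E : Type*} [NormedAddCommGroup E] [NormedSpace ℝ E] [FiniteDimensional ℝ E]
  {d : ℕ} {X : Set E} {o om : E → Ext E}

variable (E) in
/-- the Euclidean chart of `E`, as a continuous linear map -/
abbrev LE : E →L[ℝ] EuclideanSpace ℝ (Fin (finrank ℝ E)) :=
  ((toEuclidean : E ≃L[ℝ] EuclideanSpace ℝ (Fin (finrank ℝ E))) :
    E →L[ℝ] EuclideanSpace ℝ (Fin (finrank ℝ E)))

theorem sign_mul (a b : ℝ) : Real.sign (a * b) = Real.sign a * Real.sign b := by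
  rcases lt_trichotomy a 0 with ha | rfl | ha <;> rcases lt_trichotomy b 0 with hb | rfl | hb
  · rw [Real.sign_of_pos (mul_pos_of_neg_of_neg ha hb), Real.sign_of_neg ha, Real.sign_of_neg hb]; norm_num
  · simp
  · rw [Real.sign_of_neg (mul_neg_of_neg_of_pos ha hb), Real.sign_of_neg ha, Real.sign_of_pos hb]; norm_num
  · simp
  · simp
  · simp
  · rw [Real.sign_of_neg (mul_neg_of_pos_of_neg ha hb), Real.sign_of_pos ha, Real.sign_of_neg hb]; norm_num
  · simp
  · rw [Real.sign_of_pos (mul_pos ha hb), Real.sign_of_pos ha, Real.sign_of_pos hb]; norm_num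

theorem mul_sign (a : ℝ) : a * Real.sign a = |a| := by
  rcases lt_trichotomy a 0 with ha | rfl | ha
  · rw [Real.sign_of_neg ha, abs_of_neg ha]; ring
  · simp
  · rw [Real.sign_of_pos ha, abs_of_pos ha]; ring

/-- coordinates with respect to an orthonormal frame of the tangent space -/
theorem IsFrame.sum_eq {x : E} {w : Fin d → E} (hw : IsFrame X x w) (hT : finrank ℝ (Tan X x) = d)
    {v : E} (hv : v ∈ Tan X x) :
    v = ∑ j, (inner ℝ ((toEuclidean : E ≃L[ℝ] _) (w j)) ((toEuclidean : E ≃L[ℝ] _) v) : ℝ) • w j := by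
  classical
  -- `w` spans the tangent space
  have hli : LinearIndependent ℝ w := by
    have h1 := hw.1.linearIndependent
    exact LinearIndependent.of_comp (toEuclidean : E ≃L[ℝ] _).toLinearEquiv.toLinearMap h1
  have hspan : Submodule.span ℝ (Set.range w) = Tan X x := by
    apply Submodule.eq_of_le_of_finrank_eq
    · rw [Submodule.span_le]; rintro _ ⟨i, rfl⟩; exact hw.2 i
    · rw [finrank_span_eq_card hli, hT, Fintype.card_fin]
  rw [← hspan] at hv
  obtain ⟨c, hc⟩ := (Submodule.mem_span_range_iff_exists_fun ℝ).1 hv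
  have hcj : ∀ j, (inner ℝ ((toEuclidean : E ≃L[ℝ] _) (w j)) ((toEuclidean : E ≃L[ℝ] _) v) : ℝ) = c j := by
    intro j
    rw [← hc, _root_.map_sum, inner_sum, Finset.sum_eq_single j]
    · rw [map_smul, inner_smul_right, real_inner_self_eq_norm_sq, hw.1.1 j]; norm_num
    · intro i _ hij
      rw [map_smul, inner_smul_right, hw.1.2 (Ne.symm hij), mul_zero]
    · simp
  simp only [hcj]
  exact hc.symm

open Crest.Agent.R241.AF in
/-- Jacobian and `top` in terms of the matrix of a linear map into the tangent space -/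
theorem exists_matrix {x : E} {w : Fin d → E} (hw : IsFrame X x w) (hT : finrank ℝ (Tan X x) = d)
    {A : Eu d →L[ℝ] E} (hA : ∀ u, A u ∈ Tan X x) :
    ∃ M : Matrix (Fin d) (Fin d) ℝ,
      jac (LE E ∘L A) = |M.det| ∧
      (∀ c : Ext E, top d (pb (A : Eu d →ₗ[ℝ] E) c) = M.det * evA E d c w) ∧
      (∀ i, A (sb d i) = ∑ j, M i j • w j) := by
  classical
  let M : Matrix (Fin d) (Fin d) ℝ := Matrix.of fun i j =>
    (inner ℝ ((toEuclidean : E ≃L[ℝ] _) (w j)) ((toEuclidean : E ≃L[ℝ] _) (A (sb d i))) : ℝ)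
  have hM : ∀ i, A (sb d i) = ∑ j, M i j • w j := fun i => hw.sum_eq hT (hA _)
  refine ⟨M, ?_, ?_, hM⟩
  · have h1 := jac_sq_gram (LE E ∘L A)
      (EuclideanSpace.basisFun (Fin d) ℝ)
    have h2 : (Matrix.of fun i j => (inner ℝ
        ((LE E ∘L A) (EuclideanSpace.basisFun (Fin d) ℝ i))
        ((LE E ∘L A) (EuclideanSpace.basisFun (Fin d) ℝ j)) : ℝ))
        = M * M.transpose := by
      ext i j
      have hs : ∀ k, (LE E ∘L A)
          (EuclideanSpace.basisFun (Fin d) ℝ k) = ∑ l, M k l • (toEuclidean : E ≃L[ℝ] _) (w l) := by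
        intro k
        have := hM k
        simp only [sb, OrthonormalBasis.coe_toBasis] at this
        rw [ContinuousLinearMap.comp_apply, this, _root_.map_sum]
        simp only [map_smul]
        rfl
      rw [Matrix.of_apply, hs, hs, sum_inner, Matrix.mul_apply]
      refine Finset.sum_congr rfl fun l _ => ?_
      rw [inner_sum, Finset.sum_eq_single l]
      · rw [inner_smul_left, inner_smul_right, real_inner_self_eq_norm_sq, hw.1.1 l]
        simp [Matrix.transpose_apply]
      · intro k _ hk
        rw [inner_smul_left, inner_smul_right, hw.1.2 (Ne.symm hk)]; simp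
      · simp
    rw [h2, Matrix.det_mul, Matrix.det_transpose] at h1
    have h3 : jac (LE E ∘L A) ^ 2 = |M.det| ^ 2 := by
      rw [h1, sq_abs]; ring
    exact (pow_left_inj₀ (jac_nonneg _) (abs_nonneg _) two_ne_zero).1 h3
  · intro c
    rw [top_pb]
    exact evA_comb d c w _ M hM

open Crest.Agent.R241.AF in
/-- the density in a linear parametrisation of the tangent space -/
theorem jac_mul_dens {x : E} (hT : finrank ℝ (Tan X x) = d)
    {A : Eu d →L[ℝ] E} (hA : ∀ u, A u ∈ Tan X x) :
    jac (LE E ∘L A) * dens d X o om x =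
      top d (pb (A : Eu d →ₗ[ℝ] E) (om x)) * Real.sign (top d (pb (A : Eu d →ₗ[ℝ] E) (o x))) := by
  obtain ⟨M, h1, h2, -⟩ := exists_matrix (frame_isFrame hT) hT hA
  rw [h1, h2, h2, dens, sign_mul, ← mul_sign]
  ring

open Crest.Agent.R241.AF in
/-- `top` does not vanish on the orientation -/
theorem top_ne_zero {x : E} (hT : finrank ℝ (Tan X x) = d)
    {A : Eu d →L[ℝ] E} (hA : ∀ u, A u ∈ Tan X x) (hinj : Function.Injective A) {c : Ext E} :
    top d (pb (A : Eu d →ₗ[ℝ] E) c) ≠ 0 ↔ evA E d c (frame d X x) ≠ 0 := by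
  obtain ⟨M, h1, h2, h3⟩ := exists_matrix (frame_isFrame hT) hT hA
  have hM : M.det ≠ 0 := by
    have h4 : jac (LE E ∘L A) ≠ 0 := by
      intro h5
      have h6 := ((LE E ∘L A).toLinearMap.normDet_eq_zero_tfae.out 0 5).1 h5
      apply h6
      intro u v huv
      apply hinj
      exact (toEuclidean : E ≃L[ℝ] _).injective huv
    rw [h1] at h4
    exact abs_ne_zero.1 h4
  rw [h2]
  constructor
  · intro h h'; exact h (by rw [h', mul_zero])
  · intro h; exact mul_ne_zero hM h

/-- **parametrisation formula**: integral over the image of an injective immersion. -/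
theorem integral_param {f : Eu d → E} {A : Set (Eu d)}
    (hAm : MeasurableSet A) (hf : ∀ u ∈ A, DifferentiableAt ℝ f u) (hinj : InjOn f A)
    (hT : ∀ u ∈ A, finrank ℝ (Tan X (f u)) = d)
    (hmem : ∀ u ∈ A, ∀ w, fderiv ℝ f u w ∈ Tan X (f u)) :
    ∫ y in (toEuclidean : E ≃L[ℝ] _) '' (f '' A), dens d X o om (toEuclidean.symm y) ∂μHE[d] =
      ∫ u in A, top d (pull f om u) * Real.sign (top d (pull f o u)) := by
  have h1 : ∀ u ∈ A, HasFDerivWithinAt (fun u => (toEuclidean : E ≃L[ℝ] _) (f u))
      (LE E ∘L fderiv ℝ f u) A u := fun u hu =>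
    ((toEuclidean : E ≃L[ℝ] _).hasFDerivAt.comp u (hf u hu).hasFDerivAt).hasFDerivWithinAt
  have h2 : InjOn (fun u => (toEuclidean : E ≃L[ℝ] _) (f u)) A := fun u hu v hv huv =>
    hinj hu hv ((toEuclidean : E ≃L[ℝ] _).injective huv)
  have h3 := integral_image_eq_jac hAm h1 h2 (fun y => dens d X o om (toEuclidean.symm y))
  have hd : finrank ℝ (Eu d) = d := finrank_euclideanSpace_fin
  rw [hd] at h3
  rw [image_image, h3]
  refine setIntegral_congr_fun hAm fun u hu => ?_
  simp only [smul_eq_mul, ContinuousLinearEquiv.symm_apply_apply]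
  exact jac_mul_dens (hT u hu) (hmem u hu)

theorem integrableOn_param {f : Eu d → E} {A : Set (Eu d)}
    (hAm : MeasurableSet A) (hf : ∀ u ∈ A, DifferentiableAt ℝ f u) (hinj : InjOn f A)
    (hT : ∀ u ∈ A, finrank ℝ (Tan X (f u)) = d)
    (hmem : ∀ u ∈ A, ∀ w, fderiv ℝ f u w ∈ Tan X (f u)) :
    IntegrableOn (fun y => dens d X o om (toEuclidean.symm y))
      ((toEuclidean : E ≃L[ℝ] _) '' (f '' A)) μHE[d] ↔
      IntegrableOn (fun u => top d (pull f om u) * Real.sign (top d (pull f o u))) A := by
  have h1 : ∀ u ∈ A, HasFDerivWithinAt (fun u => (toEuclidean : E ≃L[ℝ] _) (f u))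
      (LE E ∘L fderiv ℝ f u) A u := fun u hu =>
    ((toEuclidean : E ≃L[ℝ] _).hasFDerivAt.comp u (hf u hu).hasFDerivAt).hasFDerivWithinAt
  have h2 : InjOn (fun u => (toEuclidean : E ≃L[ℝ] _) (f u)) A := fun u hu v hv huv =>
    hinj hu hv ((toEuclidean : E ≃L[ℝ] _).injective huv)
  have h3 := integrableOn_image_iff_jac hAm h1 h2 (fun y => dens d X o om (toEuclidean.symm y))
  have hd : finrank ℝ (Eu d) = d := finrank_euclideanSpace_fin
  rw [hd] at h3
  rw [image_image, h3]
  refine integrableOn_congr_fun (fun u hu => ?_) hAm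
  simp only [smul_eq_mul, ContinuousLinearEquiv.symm_apply_apply]
  exact jac_mul_dens (hT u hu) (hmem u hu)

section chart
variable {f : Eu d → E} {V : Set (Eu d)}

theorem Chart.fderiv_mem (hf : Chart d X f V) {u : Eu d} (hu : u ∈ V) (w : Eu d) :
    fderiv ℝ f u w ∈ Tan X (f u) :=
  fderiv_mem_Tan (hf.differentiableAt hu)
    (by filter_upwards [hf.isOpen.mem_nhds hu] with z hz using hf.mem hz) w

/-- **chart formula** -/
theorem integral_chart (hf : Chart d X f V) {A : Set (Eu d)} (hA : MeasurableSet A) (hAV : A ⊆ V) :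
    ∫ y in (toEuclidean : E ≃L[ℝ] _) '' (f '' A), dens d X o om (toEuclidean.symm y) ∂μHE[d] =
      ∫ u in A, top d (pull f om u) * Real.sign (top d (pull f o u)) :=
  integral_param hA (fun u hu => hf.differentiableAt (hAV hu)) (hf.injOn.mono hAV)
    (fun u hu => finrank_Tan_chart hf (hAV hu)) (fun u hu w => hf.fderiv_mem (hAV hu) w)

theorem integrableOn_chart (hf : Chart d X f V) {A : Set (Eu d)} (hA : MeasurableSet A)
    (hAV : A ⊆ V) :
    IntegrableOn (fun y => dens d X o om (toEuclidean.symm y))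
      ((toEuclidean : E ≃L[ℝ] _) '' (f '' A)) μHE[d] ↔
      IntegrableOn (fun u => top d (pull f om u) * Real.sign (top d (pull f o u))) A :=
  integrableOn_param hA (fun u hu => hf.differentiableAt (hAV hu)) (hf.injOn.mono hAV)
    (fun u hu => finrank_Tan_chart hf (hAV hu)) (fun u hu w => hf.fderiv_mem (hAV hu) w)

end chart

end Crest.Agent.R208.FI
end
end

-- ▼ part R208/FI1c

/-! Row 208, block F2 (helper349), part FI1c: finiteness of the measure, continuity of the density,
linearity of `J`. -/

set_option autoImplicit false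
set_option linter.unusedSectionVars false
set_option linter.unusedVariables false

open Set Filter Topology Module MeasureTheory MeasureTheory.Measure
open scoped ContDiff
open Crest.Agent.R208.F

noncomputable section

namespace Crest.Agent.R208.FI

variable {E : Type*} [NormedAddCommGroup E] [NormedSpace ℝ E] [FiniteDimensional ℝ E]
  {d : ℕ} {X : Set E} {o om om' : E → Ext E}
  {f : Eu d → E} {V : Set (Eu d)}

/-- local invertibility of charts in topological form: a neighbourhood in `X`. -/
theorem Chart.exists_nhds (hf : Chart d X f V) {u : Eu d} {W : Set (Eu d)} (hW : W ∈ 𝓝 u)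
    (hu : u ∈ V) : ∃ U : Set E, IsOpen U ∧ f u ∈ U ∧ X ∩ U ⊆ f '' (W ∩ V) := by
  obtain ⟨W', hW', hW'o, huW'⟩ := mem_nhds_iff.1 (inter_mem hW (hf.isOpen.mem_nhds hu))
  obtain ⟨U, hU, hUX⟩ := hf.image_open W' (hW'.trans inter_subset_right) hW'o
  refine ⟨U, hU, ?_, ?_⟩
  · have : f u ∈ f '' W' := ⟨u, huW', rfl⟩
    rw [hUX] at this; exact this.2
  · rw [← hUX]; exact image_mono hW'

section fin
open Crest.Agent.R241.AF

theorem continuousOn_fderiv_chart (hf : Chart d X f V) : ContinuousOn (fderiv ℝ f) V :=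
  hf.contDiffOn.continuousOn_fderiv_of_isOpen hf.isOpen (by simp)

theorem continuousOn_jac_chart (hf : Chart d X f V) :
    ContinuousOn (fun u => jac (LE E ∘L fderiv ℝ f u)) V :=
  continuous_jac.comp_continuousOn
    (continuousOn_const.clm_comp (continuousOn_fderiv_chart hf))

theorem measure_image_chart (hf : Chart d X f V) {A : Set (Eu d)} (hA : MeasurableSet A)
    (hAV : A ⊆ V) :
    μHE[d] ((toEuclidean : E ≃L[ℝ] _) '' (f '' A)) =
      ∫⁻ u in A, ENNReal.ofReal (jac (LE E ∘L fderiv ℝ f u)) := by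
  have h1 : ∀ u ∈ A, HasFDerivWithinAt (fun u => (toEuclidean : E ≃L[ℝ] _) (f u))
      (LE E ∘L fderiv ℝ f u) A u := fun u hu =>
    ((toEuclidean : E ≃L[ℝ] _).hasFDerivAt.comp u
      (hf.differentiableAt (hAV hu)).hasFDerivAt).hasFDerivWithinAt
  have h2 : InjOn (fun u => (toEuclidean : E ≃L[ℝ] _) (f u)) A := fun u hu v hv huv =>
    hf.injOn (hAV hu) (hAV hv) ((toEuclidean : E ≃L[ℝ] _).injective huv)
  have h3 := lintegral_jac_eq_muHE_image hA h1 h2
  have hd : finrank ℝ (Eu d) = d := finrank_euclideanSpace_fin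
  rw [hd] at h3
  rw [image_image, h3]

theorem measure_lt_top_of_compact (hf : Chart d X f V) {K : Set (Eu d)} (hK : IsCompact K)
    (hKV : K ⊆ V) : μHE[d] ((toEuclidean : E ≃L[ℝ] _) '' (f '' K)) < ⊤ := by
  rw [measure_image_chart hf hK.measurableSet hKV]
  have h1 : ContinuousOn (fun u => jac (LE E ∘L fderiv ℝ f u)) K :=
    (continuousOn_jac_chart hf).mono hKV
  have h2 : IntegrableOn (fun u => jac (LE E ∘L fderiv ℝ f u)) K := h1.integrableOn_compact hK
  have h3 := h2.hasFiniteIntegral
  rw [hasFiniteIntegral_iff_norm] at h3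
  refine lt_of_le_of_lt (lintegral_mono fun u => ?_) h3
  exact ENNReal.ofReal_le_ofReal (le_abs_self _)

theorem Clo.measure_lt_top (hX : Clo d X) : μHE[d] ((toEuclidean : E ≃L[ℝ] _) '' X) < ⊤ := by
  refine hX.compact.induction_on (p := fun s => μHE[d] ((toEuclidean : E ≃L[ℝ] _) '' s) < ⊤)
    (by simp) (fun s t hst ht => lt_of_le_of_lt (measure_mono (image_mono hst)) ht)
    (fun s t hs ht => ?_) (fun x hx => ?_)
  · rw [image_union]
    exact lt_of_le_of_lt (measure_union_le _ _) (ENNReal.add_lt_top.2 ⟨hs, ht⟩)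
  · obtain ⟨f, V, hf, u, hu, rfl⟩ := hX.chart x hx
    obtain ⟨K, hKn, hK, hKV⟩ := exists_mem_nhds_isCompact_mapsTo (f := id) (s := V) (x := u)
      continuous_id (hf.isOpen.mem_nhds hu)
    have hKV' : K ⊆ V := hKV
    obtain ⟨U, hU, huU, hUX⟩ := hf.exists_nhds hKn hu
    refine ⟨X ∩ U, inter_mem_nhdsWithin _ (hU.mem_nhds huU), ?_⟩
    refine lt_of_le_of_lt (measure_mono (image_mono (hUX.trans (image_mono inter_subset_left)))) ?_
    exact measure_lt_top_of_compact hf hK hKV'

theorem jac_pos_of_injective {A : Eu d →L[ℝ] E} (h : Function.Injective A) :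
    0 < jac (LE E ∘L A) := by
  refine lt_of_le_of_ne (jac_nonneg _) (Ne.symm fun h5 => ?_)
  have h6 := ((LE E ∘L A).toLinearMap.normDet_eq_zero_tfae.out 0 5).1 h5
  apply h6
  intro u v huv
  exact h ((toEuclidean : E ≃L[ℝ] _).injective huv)

theorem Clo.measure_pos (hX : Clo d X) {U : Set E} (hU : IsOpen U) (hne : (X ∩ U).Nonempty) :
    0 < μHE[d] ((toEuclidean : E ≃L[ℝ] _) '' (X ∩ U)) := by
  obtain ⟨x, hx, hxU⟩ := hne
  obtain ⟨f, V, hf, u, hu, rfl⟩ := hX.chart x hx
  have h1 : f ⁻¹' U ∈ 𝓝 u := (hf.contDiffAt hu).continuousAt.preimage_mem_nhds (hU.mem_nhds hxU)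
  obtain ⟨W, hW, hWo, huW⟩ := mem_nhds_iff.1 (inter_mem h1 (hf.isOpen.mem_nhds hu))
  have hsub : f '' W ⊆ X ∩ U := by
    rintro _ ⟨v, hv, rfl⟩
    exact ⟨hf.mem (hW hv).2, (hW hv).1⟩
  refine lt_of_lt_of_le ?_ (measure_mono (image_mono hsub))
  rw [measure_image_chart hf hWo.measurableSet (fun v hv => (hW hv).2)]
  have h2 : ∀ v ∈ W, HasFDerivWithinAt (fun u => (toEuclidean : E ≃L[ℝ] _) (f u))
      (LE E ∘L fderiv ℝ f v) W v := fun v hv =>
    ((toEuclidean : E ≃L[ℝ] _).hasFDerivAt.comp v
      (hf.differentiableAt (hW hv).2).hasFDerivAt).hasFDerivWithinAt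
  have h3 := aemeasurable_jac hWo.measurableSet h2
  refine pos_iff_ne_zero.2 fun h4 => ?_
  rw [lintegral_eq_zero_iff' h3] at h4
  have h5 : ∀ᵐ v ∂(volume.restrict W), False := by
    filter_upwards [h4, ae_restrict_mem hWo.measurableSet] with v hv hvW
    have := jac_pos_of_injective (hf.inj v (hW hvW).2)
    simp only [Pi.zero_apply, ENNReal.ofReal_eq_zero] at hv
    exact absurd this (not_lt.2 hv)
  have h6 : (volume : Measure (Eu d)) W = 0 := by
    rw [ae_iff] at h5
    simpa using h5
  exact (hWo.measure_pos volume ⟨u, huW⟩).ne' h6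
end fin

/-! ### continuity -/

theorem continuousAt_sign {a : ℝ} (ha : a ≠ 0) : ContinuousAt Real.sign a := by
  rcases lt_or_gt_of_ne ha with h | h
  · have : Real.sign =ᶠ[𝓝 a] fun _ => (-1 : ℝ) := by
      filter_upwards [Iio_mem_nhds h] with b hb using Real.sign_of_neg hb
    exact continuousAt_const.congr this.symm
  · have : Real.sign =ᶠ[𝓝 a] fun _ => (1 : ℝ) := by
      filter_upwards [Ioi_mem_nhds h] with b hb using Real.sign_of_pos hb
    exact continuousAt_const.congr this.symm

/-- continuity of pull-backs -/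
theorem continuousOn_pull {F : Type*} [NormedAddCommGroup F] [NormedSpace ℝ F]
    [FiniteDimensional ℝ F] {g : F → E} {W : Set F} {Y : Set E} (hg : ContinuousOn g W)
    (hg' : ContinuousOn (fderiv ℝ g) W) (hWY : MapsTo g W Y) (hom : ContinuousOn om Y) :
    ContinuousOn (pull g om) W := by
  have : pull g om = fun x => ∑ J, co om J (g x) •
      pb ((fderiv ℝ g x : F →L[ℝ] E) : F →ₗ[ℝ] E) (extBasis E J) := funext (pull_eq_sum g om)
  rw [this]
  refine continuousOn_finsetSum _ fun J _ => ?_
  refine ContinuousOn.smul (f := fun x => co om J (g x))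
    (g := fun x => pb ((fderiv ℝ g x : F →L[ℝ] E) : F →ₗ[ℝ] E) (extBasis E J)) ?_ ?_
  · exact (LinearMap.toContinuousLinearMap ((extBasis E).coord J)).continuous.comp_continuousOn
      (hom.comp hg hWY)
  · exact (contDiff_pb_apply (n := 0) (extBasis E J)).continuous.comp_continuousOn hg'

theorem continuous_top : Continuous (top d) :=
  (LinearMap.toContinuousLinearMap (top d)).continuous

theorem Chart.continuousOn_pull (hf : Chart d X f V) (hom : ContinuousOn om X) :
    ContinuousOn (pull f om) V :=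
  FI.continuousOn_pull (fun u hu => (hf.contDiffAt hu).continuousAt.continuousWithinAt)
    (continuousOn_fderiv_chart hf) (fun u hu => hf.mem hu) hom

theorem Chart.top_ne_zero (hf : Chart d X f V) (ho : Ori d X o) {u : Eu d} (hu : u ∈ V) :
    top d (pull f o u) ≠ 0 :=
  (FI.top_ne_zero (finrank_Tan_chart hf hu) (fun w => hf.fderiv_mem hu w) (hf.inj u hu)).2
    (ho.ne _ (hf.mem hu))

theorem Chart.continuousOn_sign (hf : Chart d X f V) (ho : Ori d X o) :
    ContinuousOn (fun u => Real.sign (top d (pull f o u))) V := by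
  intro u hu
  have h1 : ContinuousWithinAt (fun u => top d (pull f o u)) V u :=
    (continuous_top.comp_continuousOn (hf.continuousOn_pull ho.cont)) u hu
  exact ContinuousAt.comp_continuousWithinAt (g := Real.sign)
    (f := fun u => top d (pull f o u)) (continuousAt_sign (hf.top_ne_zero ho hu)) h1

open Crest.Agent.R241.AF in
theorem Chart.dens_eq (hf : Chart d X f V) {u : Eu d} (hu : u ∈ V) :
    dens d X o om (f u) = top d (pull f om u) * Real.sign (top d (pull f o u)) /
      jac (LE E ∘L fderiv ℝ f u) := by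
  have h1 := jac_mul_dens (o := o) (om := om) (finrank_Tan_chart hf hu)
    (fun w => hf.fderiv_mem hu w)
  have h2 := jac_pos_of_injective (hf.inj u hu)
  rw [eq_div_iff h2.ne', mul_comm]
  exact h1

theorem continuousOn_dens (hX : Clo d X) (ho : Ori d X o) (hom : ContinuousOn om X) :
    ContinuousOn (dens d X o om) X := by
  intro x hx
  obtain ⟨f, V, hf, u, hu, rfl⟩ := hX.chart x hx
  obtain ⟨O, ℓ, hO, hxO, hℓ, hℓV, hℓx, hℓS⟩ := exists_coord hf hu
  have h1 : ContinuousOn (fun u => top d (pull f om u) * Real.sign (top d (pull f o u)) /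
      Crest.Agent.R241.AF.jac (LE E ∘L fderiv ℝ f u)) V := by
    refine ContinuousOn.div (ContinuousOn.mul ?_ (hf.continuousOn_sign ho))
      (continuousOn_jac_chart hf) fun v hv => (jac_pos_of_injective (hf.inj v hv)).ne'
    exact continuous_top.comp_continuousOn (hf.continuousOn_pull hom)
  have h2 : ContinuousAt (fun u => top d (pull f om u) * Real.sign (top d (pull f o u)) /
      Crest.Agent.R241.AF.jac (LE E ∘L fderiv ℝ f u)) (ℓ (f u)) := by
    rw [hℓx]; exact h1.continuousAt (hf.isOpen.mem_nhds hu)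
  have h3 : ContinuousAt ℓ (f u) := (hℓ.contDiffAt (hO.mem_nhds hxO)).continuousAt
  have h4 := (h2.comp h3).continuousWithinAt (s := X)
  refine h4.congr_of_eventuallyEq ?_ ?_
  · filter_upwards [self_mem_nhdsWithin, nhdsWithin_le_nhds (hO.mem_nhds hxO)] with q hq hqO
    conv_lhs => rw [← hℓS q hqO hq]
    exact hf.dens_eq (hℓV q hqO)
  · have := hf.dens_eq (o := o) (om := om) hu
    simp only [Function.comp_apply, hℓx]
    exact this

theorem Clo.measurableSet (hX : Clo d X) : MeasurableSet ((toEuclidean : E ≃L[ℝ] _) '' X) :=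
  (hX.compact.image (toEuclidean : E ≃L[ℝ] _).continuous).measurableSet

theorem integrableOn_dens (hX : Clo d X) (ho : Ori d X o) (hom : ContinuousOn om X) :
    IntegrableOn (fun y => dens d X o om (toEuclidean.symm y)) ((toEuclidean : E ≃L[ℝ] _) '' X)
      μHE[d] := by
  have h1 : ContinuousOn (fun y => dens d X o om (toEuclidean.symm y))
      ((toEuclidean : E ≃L[ℝ] _) '' X) := by
    refine (continuousOn_dens hX ho hom).comp (toEuclidean : E ≃L[ℝ] _).symm.continuous.continuousOn ?_
    rintro _ ⟨x, hx, rfl⟩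
    rw [ContinuousLinearEquiv.symm_apply_apply]; exact hx
  have hK := hX.compact.image (toEuclidean : E ≃L[ℝ] _).continuous
  obtain ⟨C, hC⟩ := hK.exists_bound_of_continuousOn h1
  have hfin : IsFiniteMeasure (μHE[d].restrict ((toEuclidean : E ≃L[ℝ] _) '' X)) :=
    ⟨by rw [Measure.restrict_apply_univ]; exact hX.measure_lt_top⟩
  refine Integrable.of_bound (h1.aestronglyMeasurable hX.measurableSet) C ?_
  filter_upwards [ae_restrict_mem hX.measurableSet] with y hy using hC y hy

/-! ### linearity, locality -/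

theorem dens_add (x : E) : dens d X o (fun x => om x + om' x) x = dens d X o om x + dens d X o om' x := by
  simp only [dens, map_add, AlternatingMap.add_apply]; ring

theorem dens_smul (r : ℝ) (x : E) : dens d X o (fun x => r • om x) x = r * dens d X o om x := by
  simp only [dens, map_smul, AlternatingMap.smul_apply, smul_eq_mul]; ring

theorem J_add (hX : Clo d X) (ho : Ori d X o) (h : ContinuousOn om X) (h' : ContinuousOn om' X) :
    J d X o (fun x => om x + om' x) = J d X o om + J d X o om' := by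
  rw [J, J, J, ← integral_add (integrableOn_dens hX ho h) (integrableOn_dens hX ho h')]
  simp only [dens_add]

theorem J_smul (r : ℝ) : J d X o (fun x => r • om x) = r * J d X o om := by
  rw [J, J, ← integral_const_mul]
  simp only [dens_smul]

theorem J_neg : J d X o (fun x => - om x) = - J d X o om := by
  have := J_smul (d := d) (X := X) (o := o) (om := om) (-1)
  simpa using this

theorem J_sub (hX : Clo d X) (ho : Ori d X o) (h : ContinuousOn om X) (h' : ContinuousOn om' X) :
    J d X o (fun x => om x - om' x) = J d X o om - J d X o om' := by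
  have := J_add hX ho h (om' := fun x => - om' x) h'.neg
  simp only [sub_eq_add_neg]
  rw [this, J_neg]

theorem J_zero : J d X o (fun _ => 0) = 0 := by
  have := J_smul (d := d) (X := X) (o := o) (om := fun _ => 0) 0
  simpa using this

theorem J_sum (hX : Clo d X) (ho : Ori d X o) {ι : Type*} (s : Finset ι) {om : ι → E → Ext E}
    (h : ∀ i ∈ s, ContinuousOn (om i) X) :
    J d X o (fun x => ∑ i ∈ s, om i x) = ∑ i ∈ s, J d X o (om i) := by
  classical
  induction s using Finset.induction_on with
  | empty => simpa using J_zero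
  | insert a s ha ih =>
    simp only [Finset.sum_insert ha]
    rw [J_add hX ho (h a (Finset.mem_insert_self _ _)), ih]
    · intro i hi; exact h i (Finset.mem_insert_of_mem hi)
    · exact continuousOn_finsetSum s fun i hi => h i (Finset.mem_insert_of_mem hi)

/-- `J` only depends on the restrictions to the tangent spaces. -/
theorem J_congr (hX : Clo d X) (h : ∀ x ∈ X, ∀ w : Fin d → E, (∀ i, w i ∈ Tan X x) →
      evA E d (om x) w = evA E d (om' x) w) : J d X o om = J d X o om' := by
  rw [J, J]
  refine setIntegral_congr_fun hX.measurableSet ?_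
  rintro _ ⟨x, hx, rfl⟩
  simp only [ContinuousLinearEquiv.symm_apply_apply, dens]
  rw [h x hx _ (frame_isFrame (hX.finrank_Tan hx)).2]

theorem J_congr' (hX : Clo d X) (h : ∀ x ∈ X, om x = om' x) : J d X o om = J d X o om' :=
  J_congr hX fun x hx w _ => by rw [h x hx]

theorem J_eq_zero (hX : Clo d X) (h : ∀ x ∈ X, ∀ w : Fin d → E, (∀ i, w i ∈ Tan X x) →
      evA E d (om x) w = 0) : J d X o om = 0 := by
  rw [J_congr hX (om' := fun _ => 0) (fun x hx w hw => by rw [h x hx w hw]; simp)]
  exact J_zero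

/-- the integral of a form vanishing outside a chart. -/
theorem J_eq_chart (hX : Clo d X) (hf : Chart d X f V)
    (h0 : ∀ x ∈ X, x ∉ f '' V → evA E d (om x) (frame d X x) = 0) :
    J d X o om = ∫ u in V, top d (pull f om u) * Real.sign (top d (pull f o u)) := by
  rw [← integral_chart hf hf.isOpen.measurableSet le_rfl, J]
  refine setIntegral_eq_of_subset_of_forall_sdiff_eq_zero hX.measurableSet
    (image_mono hf.image_subset) ?_
  rintro _ ⟨⟨x, hx, rfl⟩, hx2⟩
  have hx3 : x ∉ f '' V := fun h => hx2 ⟨x, h, rfl⟩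
  simp only [ContinuousLinearEquiv.symm_apply_apply, dens, h0 x hx hx3, zero_mul]

end Crest.Agent.R208.FI
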