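import Crest.Agent.R208.FI1
import Crest.Agent.R208.FH2
import Crest.Agent.R208.FI1c

-- ▼ part R208/FH3
section

/-! Row 208, block F2 (helper198), part FH3: left inverses of charts, reparametrisation, adapted
charts for submersions. -/

set_option autoImplicit false
set_option linter.unusedSectionVars false

open MeasureTheory Set Filter Topology Module
open scoped ContDiff
open Crest.Agent.R208.F

noncomputable section

namespace Crest.Agent.R208.FI

variable {E E' : Type*} [NormedAddCommGroup E] [NormedSpace ℝ E] [FiniteDimensional ℝ E]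
  [NormedAddCommGroup E'] [NormedSpace ℝ E'] [FiniteDimensional ℝ E']

namespace Chart
variable {d : ℕ} {X : Set E} {f : Eu d → E} {V : Set (Eu d)}

theorem mapsTo (h : Chart d X f V) : MapsTo f V X := by
  intro u hu
  obtain ⟨U, _, hU⟩ := h.image_open V Subset.rfl h.isOpen
  have : f u ∈ X ∩ U := hU ▸ mem_image_of_mem f hu
  exact this.1

/-- smooth left inverse of a chart near a point -/
theorem leftInv (h : Chart d X f V) {u : Eu d} (hu : u ∈ V) :
    ∃ (g : E → Eu d) (U : Set E), IsOpen U ∧ f u ∈ U ∧ (∀ y ∈ U, ContDiffAt ℝ ∞ g y) ∧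
      (∀ y ∈ X ∩ U, g y ∈ V ∧ f (g y) = y) ∧ (∀ w ∈ V, f w ∈ U → g (f w) = w) := by
  set A := fderiv ℝ f u with hA
  obtain ⟨L, hL⟩ := (A : Eu d →ₗ[ℝ] E).exists_leftInverse_of_injective
    (LinearMap.ker_eq_bot.2 (h.inj u hu))
  set Lc : E →L[ℝ] Eu d := LinearMap.toContinuousLinearMap L with hLc
  have hLA : Lc.comp A = ContinuousLinearMap.id ℝ (Eu d) := by
    ext1 v
    exact LinearMap.congr_fun hL v
  set φ : Eu d → Eu d := fun w => Lc (f w) with hφ
  have hφd : ∀ w ∈ V, HasFDerivAt φ (Lc.comp (fderiv ℝ f w)) w := fun w hw =>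
    Lc.hasFDerivAt.comp w (h.differentiableAt hw).hasFDerivAt
  have hφc : ∀ w ∈ V, ContDiffAt ℝ ∞ φ w := fun w hw =>
    Lc.contDiff.contDiffAt.comp w (h.contDiffAt hw)
  have hφu : HasFDerivAt φ ((ContinuousLinearEquiv.refl ℝ (Eu d) : Eu d ≃L[ℝ] Eu d) :
      Eu d →L[ℝ] Eu d) u := by
    have := hφd u hu
    rw [← hA, hLA] at this
    exact this
  set e := (hφc u hu).toOpenPartialHomeomorph φ hφu (by simp) with he
  have heφ : (e : Eu d → Eu d) = φ := rfl
  -- the open set where the derivative of `φ` is invertible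
  have hcont : ContinuousOn (fun w => fderiv ℝ φ w) V := by
    have h1 : ContDiffOn ℝ ∞ φ V := fun w hw => (hφc w hw).contDiffWithinAt
    exact h1.continuousOn_fderiv_of_isOpen h.isOpen (by simp)
  set W : Set (Eu d) := V ∩ (fun w => fderiv ℝ φ w) ⁻¹'
    (range ((↑) : (Eu d ≃L[ℝ] Eu d) → (Eu d →L[ℝ] Eu d))) with hW
  have hWo : IsOpen W := hcont.isOpen_inter_preimage h.isOpen ContinuousLinearEquiv.isOpen
  have huW : u ∈ W := ⟨hu, ⟨ContinuousLinearEquiv.refl ℝ (Eu d), hφu.fderiv.symm⟩⟩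
  set W' : Set (Eu d) := e.source ∩ W with hW'
  have hW'o : IsOpen W' := e.open_source.inter hWo
  have huW' : u ∈ W' := ⟨(hφc u hu).mem_toOpenPartialHomeomorph_source hφu (by simp), huW⟩
  obtain ⟨U₀, hU₀o, hU₀⟩ := h.image_open W' (fun w hw => hw.2.1) hW'o
  have htgt : IsOpen (e '' W') := e.isOpen_image_of_subset_source hW'o inter_subset_left
  refine ⟨fun y => e.symm (Lc y), U₀ ∩ Lc ⁻¹' (e '' W'), hU₀o.inter (htgt.preimage Lc.continuous),
    ⟨?_, ?_⟩, ?_, ?_, ?_⟩
  · have : f u ∈ X ∩ U₀ := hU₀ ▸ mem_image_of_mem f huW'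
    exact this.2
  · exact ⟨u, huW', rfl⟩
  · rintro y ⟨_, w, hw, hwy⟩
    have h1 : ContDiffAt ℝ ∞ e.symm (Lc y) := by
      rw [← hwy]
      obtain ⟨A', hA'⟩ := hw.2.2
      have hsw : e.symm (e w) = w := e.left_inv hw.1
      refine e.contDiffAt_symm (f₀' := A') (e.map_source hw.1) ?_ ?_
      · rw [hsw, heφ]
        have := (hφd w hw.2.1)
        have hA'' : (A' : Eu d →L[ℝ] Eu d) = fderiv ℝ φ w := hA'
        rwa [← this.fderiv, ← hA''] at this
      · rw [hsw, heφ]; exact hφc w hw.2.1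
    exact h1.comp y Lc.contDiff.contDiffAt
  · rintro y ⟨hyX, hyU, _⟩
    have : y ∈ f '' W' := by rw [hU₀]; exact ⟨hyX, hyU⟩
    obtain ⟨w, hw, rfl⟩ := this
    have hsw : e.symm (Lc (f w)) = w := e.left_inv hw.1
    simp only [hsw]
    exact ⟨hw.2.1, trivial⟩
  · rintro w hw ⟨hwU, _⟩
    have : f w ∈ f '' W' := by rw [hU₀]; exact ⟨h.mapsTo hw, hwU⟩
    obtain ⟨w', hw', hww'⟩ := this
    have : w' = w := h.injOn hw'.2.1 hw hww'
    subst this
    exact e.left_inv hw'.1

/-- the tangent space in a chart -/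
theorem tan_eq (h : Chart d X f V) {u : Eu d} (hu : u ∈ V) :
    Tan X (f u) = LinearMap.range (fderiv ℝ f u : Eu d →ₗ[ℝ] E) :=
  (range_fderiv_eq_Tan h hu).symm

/-- reparametrisation of a chart by a local diffeomorphism `e` with values in `V`. -/
theorem comp (h : Chart d X f V) {W : Set (Eu d)} (hW : IsOpen W) {τ : Eu d → Eu d}
    (hτV : MapsTo τ W V) (hτ : ∀ w ∈ W, ContDiffAt ℝ ∞ τ w) (hinj : InjOn τ W)
    (hopen : ∀ W' ⊆ W, IsOpen W' → IsOpen (τ '' W'))
    (hτ' : ∀ w ∈ W, Function.Injective (fderiv ℝ τ w)) : Chart d X (f ∘ τ) W where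
  isOpen := hW
  contDiffOn w hw := ((h.contDiffAt (hτV hw)).comp w (hτ w hw)).contDiffWithinAt
  injOn := h.injOn.comp hinj hτV
  inj w hw := by
    rw [fderiv_comp w (h.differentiableAt (hτV hw)) ((hτ w hw).differentiableAt (by simp))]
    exact (h.inj _ (hτV hw)).comp (hτ' w hw)
  image_open W' hW' hW'o := by
    rw [image_comp]
    exact h.image_open _ (by rintro _ ⟨w, hw, rfl⟩; exact hτV (hW' hw)) (hopen W' hW' hW'o)

end Chart

/-- smooth local inverse: if `T : ℝ^n → ℝ^n` is smooth on the open set `W` and its derivative at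
`w₀ ∈ W` is injective, then on an open set `W₁ ∋ T w₀` there is a smooth inverse. -/
theorem exists_local_inverse {n : ℕ} {T : Eu n → Eu n} {W : Set (Eu n)} (hW : IsOpen W)
    (hT : ∀ w ∈ W, ContDiffAt ℝ ∞ T w) {w₀ : Eu n} (hw₀ : w₀ ∈ W)
    (hinj : Function.Injective (fderiv ℝ T w₀)) :
    ∃ (τ : Eu n → Eu n) (W₁ : Set (Eu n)), IsOpen W₁ ∧ T w₀ ∈ W₁ ∧ τ (T w₀) = w₀ ∧
      MapsTo τ W₁ W ∧ (∀ p ∈ W₁, T (τ p) = p) ∧ (∀ p ∈ W₁, ContDiffAt ℝ ∞ τ p) ∧
      InjOn τ W₁ ∧ (∀ W' ⊆ W₁, IsOpen W' → IsOpen (τ '' W')) ∧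
      ∀ p ∈ W₁, Function.Injective (fderiv ℝ τ p) := by
  have hTd : ∀ w ∈ W, HasFDerivAt T (fderiv ℝ T w) w := fun w hw =>
    ((hT w hw).differentiableAt (by simp)).hasFDerivAt
  set A : Eu n ≃L[ℝ] Eu n := (LinearEquiv.ofInjectiveEndo (fderiv ℝ T w₀ : Eu n →ₗ[ℝ] Eu n)
    hinj).toContinuousLinearEquiv with hA
  have hA' : (A : Eu n →L[ℝ] Eu n) = fderiv ℝ T w₀ := by ext1 v; rfl
  have hT0 : HasFDerivAt T (A : Eu n →L[ℝ] Eu n) w₀ := by rw [hA']; exact hTd w₀ hw₀
  set e := (hT w₀ hw₀).toOpenPartialHomeomorph T hT0 (by simp) with he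
  have heT : (e : Eu n → Eu n) = T := rfl
  have hcont : ContinuousOn (fun w => fderiv ℝ T w) W := by
    have h1 : ContDiffOn ℝ ∞ T W := fun w hw => (hT w hw).contDiffWithinAt
    exact h1.continuousOn_fderiv_of_isOpen hW (by simp)
  set W' : Set (Eu n) := W ∩ (fun w => fderiv ℝ T w) ⁻¹'
    (range ((↑) : (Eu n ≃L[ℝ] Eu n) → (Eu n →L[ℝ] Eu n))) with hW'
  have hW'o : IsOpen W' := hcont.isOpen_inter_preimage hW ContinuousLinearEquiv.isOpen
  have hw₀' : w₀ ∈ W' := ⟨hw₀, ⟨A, hA'⟩⟩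
  set e' := e.restrOpen W' hW'o with he'
  have hsrc : e'.source = e.source ∩ W' := rfl
  have hw₀s : w₀ ∈ e'.source := by
    rw [hsrc]
    exact ⟨(hT w₀ hw₀).mem_toOpenPartialHomeomorph_source hT0 (by simp), hw₀'⟩
  have he'T : (e' : Eu n → Eu n) = T := rfl
  have hsm : ∀ p ∈ e'.target, ContDiffAt ℝ ∞ e'.symm p := by
    intro p hp
    have hps : e'.symm p ∈ e'.source := e'.map_target hp
    rw [hsrc] at hps
    obtain ⟨B, hB⟩ := hps.2.2
    have hB' : (B : Eu n →L[ℝ] Eu n) = fderiv ℝ T (e'.symm p) := hB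
    refine e'.contDiffAt_symm (f₀' := B) hp ?_ ?_
    · rw [hB', he'T]; exact hTd _ hps.2.1
    · rw [he'T]; exact hT _ hps.2.1
  refine ⟨e'.symm, e'.target, e'.open_target, ?_, ?_, ?_, ?_, hsm, ?_, ?_, ?_⟩
  · exact e'.map_source hw₀s
  · exact e'.left_inv hw₀s
  · intro p hp
    have := e'.map_target hp
    rw [hsrc] at this
    exact this.2.1
  · intro p hp
    exact e'.right_inv hp
  · exact e'.symm.injOn
  · intro W₂ hW₂ hW₂o
    exact e'.symm.isOpen_image_of_subset_source hW₂o hW₂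
  · intro p hp v w hvw
    have hps : e'.symm p ∈ e'.source := e'.map_target hp
    rw [hsrc] at hps
    have h1 : HasFDerivAt (fun q => T (e'.symm q)) ((fderiv ℝ T (e'.symm p)).comp
        (fderiv ℝ e'.symm p)) p :=
      (hTd _ hps.2.1).comp p ((hsm p hp).differentiableAt (by simp)).hasFDerivAt
    have h2 : HasFDerivAt (fun q => T (e'.symm q)) (ContinuousLinearMap.id ℝ (Eu n)) p := by
      refine (hasFDerivAt_id p).congr_of_eventuallyEq ?_
      filter_upwards [e'.open_target.mem_nhds hp] with q hq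
      exact e'.right_inv hq
    have h3 := h1.unique h2
    have h4 : ∀ x, fderiv ℝ T (e'.symm p) (fderiv ℝ e'.symm p x) = x := fun x => by
      have := congrArg (fun B : Eu n →L[ℝ] Eu n => B x) h3
      simpa using this
    rw [← h4 v, ← h4 w, hvw]

/-- **adapted charts of a submersion** `π : Z → X`: near every point of `Z` there is a chart `Φ` of
`Z` on a product domain `A × B ⊆ ℝ^r × ℝ^d` with `π (Φ (a, b)) = f b`, `f` a given chart of `X`. -/
theorem exists_adapted {r d : ℕ} {Z : Set E'} {X : Set E} {π : E' → E} {φ : Eu (r + d) → E'}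
    {W : Set (Eu (r + d))} (hφ : Chart (r + d) Z φ W) {w₀ : Eu (r + d)} (hw₀ : w₀ ∈ W)
    (hπ : ∀ z ∈ Z, ContDiffAt ℝ ∞ π z) (hm : MapsTo π Z X) {f : Eu d → E} {V : Set (Eu d)}
    (hf : Chart d X f V) (hx : π (φ w₀) ∈ f '' V)
    (hsub : ∀ w ∈ Tan X (π (φ w₀)), ∃ v ∈ Tan Z (φ w₀), fderiv ℝ π (φ w₀) v = w) :
    ∃ (Φ : Eu (r + d) → E') (A : Set (Eu r)) (B : Set (Eu d)), IsOpen A ∧ IsOpen B ∧ B ⊆ V ∧
      Chart (r + d) Z Φ (kap r d ⁻¹' (A ×ˢ B)) ∧ φ w₀ ∈ Φ '' (kap r d ⁻¹' (A ×ˢ B)) ∧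
      ∀ p ∈ kap r d ⁻¹' (A ×ˢ B), π (Φ p) = f (kap r d p).2 := by
  obtain ⟨u₀, hu₀, hu₀x⟩ := hx
  obtain ⟨g, U, hU, huU, hg, hfg, hgf⟩ := hf.leftInv hu₀
  have hgu : g (f u₀) = u₀ := hgf u₀ hu₀ huU
  -- `q = g ∘ π ∘ φ`
  have hπφ : ∀ w ∈ W, ContDiffAt ℝ ∞ (fun w => π (φ w)) w := fun w hw =>
    (hπ _ (hφ.mapsTo hw)).comp w (hφ.contDiffAt hw)
  have hWcont : ContinuousOn (fun w => π (φ w)) W := fun w hw =>
    (hπφ w hw).continuousAt.continuousWithinAt
  set W₁ : Set (Eu (r + d)) := W ∩ (fun w => π (φ w)) ⁻¹' U with hW₁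
  have hW₁o : IsOpen W₁ := hWcont.isOpen_inter_preimage hφ.isOpen hU
  have hw₀₁ : w₀ ∈ W₁ := ⟨hw₀, by show π (φ w₀) ∈ U; rw [← hu₀x]; exact huU⟩
  have hq : ∀ w ∈ W₁, ContDiffAt ℝ ∞ (fun w => g (π (φ w))) w := fun w hw =>
    (hg _ hw.2).comp w (hπφ w hw.1)
  set Q : Eu (r + d) →L[ℝ] Eu d := fderiv ℝ (fun w => g (π (φ w))) w₀ with hQ
  have hQeq : Q = (fderiv ℝ g (π (φ w₀))).comp ((fderiv ℝ π (φ w₀)).comp (fderiv ℝ φ w₀)) := by
    have h1 : HasFDerivAt φ (fderiv ℝ φ w₀) w₀ := (hφ.differentiableAt hw₀).hasFDerivAt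
    have h2 : HasFDerivAt π (fderiv ℝ π (φ w₀)) (φ w₀) :=
      ((hπ _ (hφ.mapsTo hw₀)).differentiableAt (by simp)).hasFDerivAt
    have h3 : HasFDerivAt g (fderiv ℝ g (π (φ w₀))) (π (φ w₀)) :=
      ((hg _ hw₀₁.2).differentiableAt (by simp)).hasFDerivAt
    exact (h3.comp w₀ (h2.comp w₀ h1)).fderiv
  -- `Q` is surjective
  have hgfd : ∀ c, fderiv ℝ g (f u₀) (fderiv ℝ f u₀ c) = c := by
    have h1 : HasFDerivAt (fun w => g (f w)) ((fderiv ℝ g (f u₀)).comp (fderiv ℝ f u₀)) u₀ :=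
      ((hg _ huU).differentiableAt (by simp)).hasFDerivAt.comp u₀
        (hf.differentiableAt hu₀).hasFDerivAt
    have h2 : HasFDerivAt (fun w => g (f w)) (ContinuousLinearMap.id ℝ (Eu d)) u₀ := by
      refine (hasFDerivAt_id u₀).congr_of_eventuallyEq ?_
      filter_upwards [hf.isOpen.mem_nhds hu₀,
        (hf.contDiffAt hu₀).continuousAt (hU.mem_nhds huU)] with w hw hwU
      exact hgf w hw hwU
    intro c
    have := congrArg (fun B : Eu d →L[ℝ] Eu d => B c) (h1.unique h2)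
    simpa using this
  have hQs : Function.Surjective Q := by
    intro c
    have h1 : fderiv ℝ f u₀ c ∈ Tan X (π (φ w₀)) := by
      rw [← hu₀x, hf.tan_eq hu₀]; exact ⟨c, rfl⟩
    obtain ⟨v, hv, hvw⟩ := hsub _ h1
    rw [hφ.tan_eq hw₀] at hv
    obtain ⟨a, ha⟩ := hv
    refine ⟨a, ?_⟩
    have ha' : fderiv ℝ φ w₀ a = v := ha
    rw [hQeq]
    simp only [ContinuousLinearMap.comp_apply]
    rw [ha', hvw, ← hu₀x, hgfd]
  -- complement
  have hker : finrank ℝ (LinearMap.ker (Q : Eu (r + d) →ₗ[ℝ] Eu d)) = r := by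
    have h1 := LinearMap.finrank_range_add_finrank_ker (Q : Eu (r + d) →ₗ[ℝ] Eu d)
    rw [LinearMap.range_eq_top.2 hQs, finrank_top, finrank_euclideanSpace_fin,
      finrank_euclideanSpace_fin] at h1
    omega
  set K := LinearMap.ker (Q : Eu (r + d) →ₗ[ℝ] Eu d) with hK
  obtain ⟨Pr, hPr⟩ := K.subtype.exists_leftInverse_of_injective
    (LinearMap.ker_eq_bot.2 K.injective_subtype)
  have hiK : finrank ℝ K = finrank ℝ (Eu r) := by rw [hker, finrank_euclideanSpace_fin]
  let iK : K ≃ₗ[ℝ] Eu r := LinearEquiv.ofFinrankEq K (Eu r) hiK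
  let ρ : Eu (r + d) →L[ℝ] Eu r := LinearMap.toContinuousLinearMap (iK.toLinearMap ∘ₗ Pr)
  have hρinj : ∀ v, ρ v = 0 → Q v = 0 → v = 0 := by
    intro v h1 h2
    have h3 : Pr v = 0 := iK.map_eq_zero_iff.1 h1
    have h4 : Pr (K.subtype ⟨v, h2⟩) = ⟨v, h2⟩ := LinearMap.congr_fun hPr ⟨v, h2⟩
    rw [Submodule.subtype_apply, h3] at h4
    exact (congrArg Subtype.val h4).symm
  let T : Eu (r + d) → Eu (r + d) := fun w => (kap r d).symm (ρ w, g (π (φ w)))
  have hT : ∀ w ∈ W₁, ContDiffAt ℝ ∞ T w := fun w hw =>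
    (kap r d).symm.contDiff.contDiffAt.comp w (ρ.contDiff.contDiffAt.prodMk (hq w hw))
  have hTd : HasFDerivAt T (((kap r d).symm : (Eu r × Eu d) →L[ℝ] Eu (r + d)).comp (ρ.prod Q)) w₀ :=
    ((kap r d).symm : (Eu r × Eu d) →L[ℝ] Eu (r + d)).hasFDerivAt.comp w₀
      (ρ.hasFDerivAt.prodMk ((hq w₀ hw₀₁).differentiableAt (by simp)).hasFDerivAt)
  have hTinj : Function.Injective (fderiv ℝ T w₀) := by
    rw [hTd.fderiv, injective_iff_map_eq_zero]
    intro v hv
    have h1 : (ρ v, Q v) = 0 := (kap r d).symm.map_eq_zero_iff.1 hv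
    exact hρinj v (congrArg Prod.fst h1) (congrArg Prod.snd h1)
  obtain ⟨τ, W₂, hW₂o, hTw₀, hτw₀, hτW, hTτ, hτs, hτi, hτo, hτd⟩ :=
    exists_local_inverse hW₁o hT hw₀₁ hTinj
  have hkapT : kap r d (T w₀) = (ρ w₀, u₀) := by
    show kap r d ((kap r d).symm (ρ w₀, g (π (φ w₀)))) = _
    rw [ContinuousLinearEquiv.apply_symm_apply, ← hu₀x, hgu]
  have hnb : (kap r d).symm ⁻¹' W₂ ∈ 𝓝 (ρ w₀, u₀) := by
    refine (kap r d).symm.continuous.continuousAt.preimage_mem_nhds ?_
    rw [← hkapT, ContinuousLinearEquiv.symm_apply_apply]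
    exact hW₂o.mem_nhds hTw₀
  obtain ⟨A, B, hA, hρA, hB, huB, hAB⟩ := mem_nhds_prod_iff'.1 hnb
  refine ⟨φ ∘ τ, A, B ∩ V, hA, hB.inter hf.isOpen, inter_subset_right, ?_, ?_, ?_⟩
  · have hsubW : kap r d ⁻¹' (A ×ˢ (B ∩ V)) ⊆ W₂ := by
      intro p hp
      have h1 : (kap r d p) ∈ A ×ˢ B := ⟨hp.1, hp.2.1⟩
      have h2 := hAB h1
      rwa [mem_preimage, ContinuousLinearEquiv.symm_apply_apply] at h2
    have ho : IsOpen (kap r d ⁻¹' (A ×ˢ (B ∩ V))) :=
      (hA.prod (hB.inter hf.isOpen)).preimage (kap r d).continuous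
    exact (hφ.comp hW₂o (fun p hp => (hτW hp).1) hτs hτi hτo hτd).mono hsubW ho
  · refine ⟨T w₀, ?_, ?_⟩
    · rw [mem_preimage, hkapT]; exact ⟨hρA, huB, hu₀⟩
    · show φ (τ (T w₀)) = φ w₀
      rw [hτw₀]
  · intro p hp
    have hpW : p ∈ W₂ := by
      have h1 : (kap r d p) ∈ A ×ˢ B := ⟨hp.1, hp.2.1⟩
      have h2 := hAB h1
      rwa [mem_preimage, ContinuousLinearEquiv.symm_apply_apply] at h2
    have h1 : kap r d (T (τ p)) = (ρ (τ p), g (π (φ (τ p)))) := by
      show kap r d ((kap r d).symm (ρ (τ p), g (π (φ (τ p))))) = _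
      rw [ContinuousLinearEquiv.apply_symm_apply]
    rw [hTτ p hpW] at h1
    rw [h1]
    have h2 := hτW hpW
    exact (hfg _ ⟨hm (hφ.mapsTo h2.1), h2.2⟩).2.symm

end Crest.Agent.R208.FI
end
end

-- ▼ part R208/FH4
section

/-! Row 208, block F2 (helper198), part FH4: fibres of a submersion `π : Z → X` of closed manifolds
are closed manifolds; product charts. -/

set_option autoImplicit false
set_option linter.unusedSectionVars false

open MeasureTheory Set Filter Topology Module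
open scoped ContDiff
open Crest.Agent.R208.F

noncomputable section

namespace Crest.Agent.R208.FI

variable {E E' : Type*} [NormedAddCommGroup E] [NormedSpace ℝ E] [FiniteDimensional ℝ E]
  [NormedAddCommGroup E'] [NormedSpace ℝ E'] [FiniteDimensional ℝ E']

/-- chart of `Z` adapted to `π` and to the chart `f` of `X`. -/
structure Adapted (r d : ℕ) (Z : Set E') (X : Set E) (π : E' → E) (f : Eu d → E) (V : Set (Eu d))
    (Φ : Eu (r + d) → E') (A : Set (Eu r)) (B : Set (Eu d)) : Prop where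
  hA : IsOpen A
  hB : IsOpen B
  sub : B ⊆ V
  base : Chart d X f V
  chart : Chart (r + d) Z Φ (kap r d ⁻¹' (A ×ˢ B))
  comm : ∀ p ∈ kap r d ⁻¹' (A ×ˢ B), π (Φ p) = f (kap r d p).2

/-- the hypotheses on `π : Z → X` -/
structure Subm (r d : ℕ) (Z : Set E') (X : Set E) (π : E' → E) : Prop where
  cloZ : Clo (r + d) Z
  cloX : Clo d X
  smooth : ∀ z ∈ Z, ContDiffAt ℝ ∞ π z
  mapsTo : MapsTo π Z X
  sub : ∀ z ∈ Z, ∀ w ∈ Tan X (π z), ∃ v ∈ Tan Z z, fderiv ℝ π z v = w

theorem Subm.exists_adapted {r d : ℕ} {Z : Set E'} {X : Set E} {π : E' → E} (h : Subm r d Z X π)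
    {z : E'} (hz : z ∈ Z) : ∃ (f : Eu d → E) (V : Set (Eu d)) (Φ : Eu (r + d) → E')
      (A : Set (Eu r)) (B : Set (Eu d)), Adapted r d Z X π f V Φ A B ∧
        z ∈ Φ '' (kap r d ⁻¹' (A ×ˢ B)) := by
  obtain ⟨φ, W, hφ, w₀, hw₀, rfl⟩ := h.cloZ.chart z hz
  obtain ⟨f, V, hf, hx⟩ := h.cloX.chart _ (h.mapsTo hz)
  obtain ⟨Φ, A, B, hA, hB, hBV, hΦ, hz', hc⟩ :=
    FI.exists_adapted hφ hw₀ h.smooth h.mapsTo hf hx (h.sub _ hz)
  exact ⟨f, V, Φ, A, B, ⟨hA, hB, hBV, hf, hΦ, hc⟩, hz'⟩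

namespace Adapted
variable {r d : ℕ} {Z : Set E'} {X : Set E} {π : E' → E} {f : Eu d → E} {V : Set (Eu d)}
  {Φ : Eu (r + d) → E'} {A : Set (Eu r)} {B : Set (Eu d)}

theorem comm' (h : Adapted r d Z X π f V Φ A B) {a : Eu r} (ha : a ∈ A) {b : Eu d} (hb : b ∈ B) :
    π (Φ ((kap r d).symm (a, b))) = f b := by
  have := h.comm ((kap r d).symm (a, b))
    (by rw [mem_preimage, ContinuousLinearEquiv.apply_symm_apply]; exact ⟨ha, hb⟩)
  rwa [ContinuousLinearEquiv.apply_symm_apply] at this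

theorem mem_dom {a : Eu r} (ha : a ∈ A) {b : Eu d} (hb : b ∈ B) :
    (kap r d).symm (a, b) ∈ kap r d ⁻¹' (A ×ˢ B) := by
  rw [mem_preimage, ContinuousLinearEquiv.apply_symm_apply]; exact ⟨ha, hb⟩

/-- the map `a ↦ (a, b)` -/
def inA (r d : ℕ) (b : Eu d) (a : Eu r) : Eu (r + d) := (kap r d).symm (a, b)

theorem hasFDerivAt_inA (b : Eu d) (a : Eu r) :
    HasFDerivAt (inA r d b) (((kap r d).symm : (Eu r × Eu d) →L[ℝ] Eu (r + d)).comp
      (ContinuousLinearMap.inl ℝ (Eu r) (Eu d))) a := by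
  have h1 : HasFDerivAt (fun a : Eu r => (a, b)) (ContinuousLinearMap.inl ℝ (Eu r) (Eu d)) a := by
    exact (hasFDerivAt_id a).prodMk (hasFDerivAt_const b a)
  exact ((kap r d).symm : (Eu r × Eu d) →L[ℝ] Eu (r + d)).hasFDerivAt.comp a h1

/-- chart of the fibre over `f b` -/
theorem fibre (h : Adapted r d Z X π f V Φ A B) {b : Eu d} (hb : b ∈ B) :
    Chart r (Z ∩ π ⁻¹' {f b}) (fun a => Φ (inA r d b a)) A where
  isOpen := h.hA
  contDiffOn := by
    intro a ha
    have h1 : ContDiffAt ℝ ∞ Φ (inA r d b a) := h.chart.contDiffAt (mem_dom ha hb)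
    have h2 : ContDiffAt ℝ ∞ (inA r d b) a :=
      ((kap r d).symm : (Eu r × Eu d) →L[ℝ] Eu (r + d)).contDiff.contDiffAt.comp a
        (contDiffAt_id.prodMk contDiffAt_const)
    exact (h1.comp a h2).contDiffWithinAt
  injOn := by
    intro a ha a' ha' haa
    have := h.chart.injOn (mem_dom ha hb) (mem_dom ha' hb) haa
    have := (kap r d).symm.injective this
    exact congrArg Prod.fst this
  inj := by
    intro a ha
    have h1 : HasFDerivAt Φ (fderiv ℝ Φ (inA r d b a)) (inA r d b a) :=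
      (h.chart.differentiableAt (mem_dom ha hb)).hasFDerivAt
    have h2 := (h1.comp a (hasFDerivAt_inA b a)).fderiv
    have h3 : fderiv ℝ (fun a => Φ (inA r d b a)) a = _ := h2
    rw [h3]
    intro v w hvw
    have h4 := h.chart.inj _ (mem_dom ha hb) hvw
    have h5 := (kap r d).symm.injective h4
    exact congrArg Prod.fst h5
  image_open := by
    intro W hW hWo
    have hsub : kap r d ⁻¹' (W ×ˢ B) ⊆ kap r d ⁻¹' (A ×ˢ B) := fun p hp => ⟨hW hp.1, hp.2⟩
    obtain ⟨U, hU, hUe⟩ := h.chart.image_open _ hsub ((hWo.prod h.hB).preimage (kap r d).continuous)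
    refine ⟨U, hU, ?_⟩
    ext z
    constructor
    · rintro ⟨a, ha, rfl⟩
      have h1 : Φ (inA r d b a) ∈ Φ '' (kap r d ⁻¹' (W ×ˢ B)) := ⟨_, mem_dom ha hb, rfl⟩
      rw [hUe] at h1
      exact ⟨⟨h1.1, h.comm' (hW ha) hb⟩, h1.2⟩
    · rintro ⟨⟨hzZ, hzπ⟩, hzU⟩
      have h1 : z ∈ Φ '' (kap r d ⁻¹' (W ×ˢ B)) := by rw [hUe]; exact ⟨hzZ, hzU⟩
      obtain ⟨p, hp, rfl⟩ := h1
      have h2 : π (Φ p) = f (kap r d p).2 := h.comm p (hsub hp)
      have h3 : f (kap r d p).2 = f b := by rw [← h2]; exact hzπ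
      have h4 : (kap r d p).2 = b := h.base.injOn (h.sub hp.2) (h.sub hb) h3
      refine ⟨(kap r d p).1, hp.1, ?_⟩
      show Φ ((kap r d).symm ((kap r d p).1, b)) = Φ p
      rw [← h4]
      show Φ ((kap r d).symm (kap r d p)) = Φ p
      rw [ContinuousLinearEquiv.symm_apply_apply]

theorem comp_snd_eq (h : Adapted r d Z X π f V Φ A B) {p : Eu (r + d)}
    (hp : p ∈ kap r d ⁻¹' (A ×ˢ B)) (hπ : DifferentiableAt ℝ π (Φ p)) (v : Eu (r + d)) :
    fderiv ℝ π (Φ p) (fderiv ℝ Φ p v) = fderiv ℝ f (kap r d p).2 (kap r d v).2 := by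
  have h1 : HasFDerivAt (fun p => π (Φ p)) ((fderiv ℝ π (Φ p)).comp (fderiv ℝ Φ p)) p :=
    hπ.hasFDerivAt.comp p (h.chart.differentiableAt hp).hasFDerivAt
  have h2 : HasFDerivAt (fun p : Eu (r + d) => (kap r d p).2)
      ((ContinuousLinearMap.snd ℝ (Eu r) (Eu d)).comp (kap r d : Eu (r + d) →L[ℝ] Eu r × Eu d)) p :=
    ((ContinuousLinearMap.snd ℝ (Eu r) (Eu d)).comp
      (kap r d : Eu (r + d) →L[ℝ] Eu r × Eu d)).hasFDerivAt
  have h3 : HasFDerivAt (fun p : Eu (r + d) => f (kap r d p).2) ((fderiv ℝ f (kap r d p).2).comp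
      ((ContinuousLinearMap.snd ℝ (Eu r) (Eu d)).comp
        (kap r d : Eu (r + d) →L[ℝ] Eu r × Eu d))) p :=
    (h.base.differentiableAt (h.sub hp.2)).hasFDerivAt.comp p h2
  have h4 : HasFDerivAt (fun p : Eu (r + d) => f (kap r d p).2)
      ((fderiv ℝ π (Φ p)).comp (fderiv ℝ Φ p)) p := by
    refine h1.congr_of_eventuallyEq ?_
    filter_upwards [h.chart.isOpen.mem_nhds hp] with q hq
    exact (h.comm q hq).symm
  exact congrArg (fun L : Eu (r + d) →L[ℝ] E => L v) (h4.unique h3)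

theorem fderiv_fibre (h : Adapted r d Z X π f V Φ A B) {a : Eu r} (ha : a ∈ A) {b : Eu d}
    (hb : b ∈ B) (v : Eu r) :
    fderiv ℝ (fun a => Φ (inA r d b a)) a v = fderiv ℝ Φ (inA r d b a) ((kap r d).symm (v, 0)) := by
  have h1 : HasFDerivAt Φ (fderiv ℝ Φ (inA r d b a)) (inA r d b a) :=
    (h.chart.differentiableAt (mem_dom ha hb)).hasFDerivAt
  have h2 := (h1.comp a (hasFDerivAt_inA b a)).fderiv
  have h3 : fderiv ℝ (fun a => Φ (inA r d b a)) a = _ := h2
  rw [h3]
  simp only [ContinuousLinearMap.comp_apply, ContinuousLinearMap.inl_apply]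
  rfl

/-- **top coefficient of `η ∧ π^*om` in an adapted chart** -/
theorem top_pull (h : Adapted r d Z X π f V Φ A B) {a : Eu r} (ha : a ∈ A) {b : Eu d} (hb : b ∈ B)
    (hπ : DifferentiableAt ℝ π (Φ (inA r d b a))) (η : E' → Ext E') (om : E → Ext E)
    (hom : ∀ q < d, evA E q (om (f b)) = 0) :
    top (r + d) (pull Φ (fun z => η z * pull π om z) (inA r d b a)) =
      top r (pull (fun a => Φ (inA r d b a)) η a) * top d (pull f om b) := by
  have hp := mem_dom (r := r) (d := d) ha hb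
  have hab : kap r d (inA r d b a) = (a, b) := ContinuousLinearEquiv.apply_symm_apply _ _
  have e1 : top (r + d) (pull Φ (fun z => η z * pull π om z) (inA r d b a)) =
      evA E' (r + d) (η (Φ (inA r d b a)) * pull π om (Φ (inA r d b a)))
        (fun i => ((fderiv ℝ Φ (inA r d b a) : Eu (r + d) →L[ℝ] E') :
          Eu (r + d) →ₗ[ℝ] E') (sb (r + d) i)) := top_pb _ _ _
  have e2 : top r (pull (fun a => Φ (inA r d b a)) η a) = evA E' r (η (Φ (inA r d b a)))
      (fun i => fderiv ℝ (fun a => Φ (inA r d b a)) a (sb r i)) := top_pb _ _ _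
  have e3 : top d (pull f om b) = evA E d (om (f b)) (fun j => fderiv ℝ f b (sb d j)) :=
    top_pb _ _ _
  rw [e1, e2, e3]
  have hfr : (fun i => ((fderiv ℝ Φ (inA r d b a) : Eu (r + d) →L[ℝ] E') :
      Eu (r + d) →ₗ[ℝ] E') (sb (r + d) i)) =
      Fin.append (fun i => fderiv ℝ (fun a => Φ (inA r d b a)) a (sb r i))
        (fun j => fderiv ℝ Φ (inA r d b a) ((kap r d).symm (0, sb d j))) := by
    funext i
    refine Fin.addCases (fun i => ?_) (fun j => ?_) i
    · rw [Fin.append_left, h.fderiv_fibre ha hb, ← kap_castAdd,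
        ContinuousLinearEquiv.symm_apply_apply]
      rfl
    · rw [Fin.append_right, ← kap_natAdd, ContinuousLinearEquiv.symm_apply_apply]
      rfl
  rw [hfr]
  have hπΦ : π (Φ (inA r d b a)) = f b := h.comm' ha hb
  have hcomm := h.comp_snd_eq hp hπ
  rw [show (kap r d).symm (a, b) = inA r d b a from rfl] at hcomm
  rw [pull, evA_mul_pb _ _ (by rw [hπΦ]; exact hom)]
  · rw [hπΦ]
    congr 2
    funext j
    have := hcomm ((kap r d).symm (0, sb d j))
    rw [ContinuousLinearEquiv.apply_symm_apply, hab] at this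
    exact this
  · intro i
    rw [h.fderiv_fibre ha hb]
    have := hcomm ((kap r d).symm (sb r i, 0))
    rw [ContinuousLinearEquiv.apply_symm_apply, map_zero] at this
    exact this

end Adapted

/-- fibres of a submersion are closed manifolds. -/
theorem Subm.clo_fibre {r d : ℕ} {Z : Set E'} {X : Set E} {π : E' → E} (h : Subm r d Z X π)
    (x : E) : Clo r (Z ∩ π ⁻¹' {x}) where
  compact := by
    have hc : ContinuousOn π Z := fun z hz => (h.smooth z hz).continuousAt.continuousWithinAt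
    exact h.cloZ.compact.of_isClosed_subset
      (hc.preimage_isClosed_of_isClosed h.cloZ.compact.isClosed isClosed_singleton)
      inter_subset_left
  chart := by
    rintro z ⟨hz, hzx⟩
    obtain ⟨f, V, Φ, A, B, hAd, p, hp, rfl⟩ := h.exists_adapted hz
    have h1 : π (Φ p) = f (kap r d p).2 := hAd.comm p hp
    have h2 : x = f (kap r d p).2 := by rw [← h1]; exact hzx.symm
    rw [h2]
    refine ⟨_, A, hAd.fibre hp.2, (kap r d p).1, hp.1, ?_⟩
    show Φ ((kap r d).symm ((kap r d p).1, (kap r d p).2)) = Φ p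
    rw [Prod.mk.eta, ContinuousLinearEquiv.symm_apply_apply]

end Crest.Agent.R208.FI
end
end

-- ▼ part R208/FH5
section

/-! Row 208, block F2 (helper198), part FH5: a closed manifold is a finite disjoint union of
chart images of measurable sets. -/

set_option autoImplicit false
set_option linter.unusedSectionVars false

open MeasureTheory Set Filter Topology Module
open scoped ContDiff
open Crest.Agent.R208.F

noncomputable section

namespace Crest.Agent.R208.FI

variable {E : Type*} [NormedAddCommGroup E] [NormedSpace ℝ E] [FiniteDimensional ℝ E]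

/-- **finite measurable decomposition** subordinate to a family `Q` of charts covering `Z`. -/
theorem exists_decomp {n : ℕ} {Z : Set E} (hZ : IsCompact Z)
    (Q : (Eu n → E) → Set (Eu n) → Prop)
    (hQ : ∀ z ∈ Z, ∃ Φ D, Q Φ D ∧ Chart n Z Φ D ∧ z ∈ Φ '' D) :
    ∃ (N : ℕ) (Φ : Fin N → Eu n → E) (D P : Fin N → Set (Eu n)),
      (∀ i, Q (Φ i) (D i)) ∧ (∀ i, Chart n Z (Φ i) (D i)) ∧ (∀ i, P i ⊆ D i) ∧
      (∀ i, MeasurableSet (P i)) ∧ Pairwise (fun i j => Disjoint (Φ i '' P i) (Φ j '' P j)) ∧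
      ⋃ i, Φ i '' P i = Z := by
  classical
  choose! Φ D hΦQ hΦC hΦz using hQ
  have hU : ∀ z ∈ Z, ∃ U : Set E, IsOpen U ∧ Φ z '' D z = Z ∩ U := fun z hz =>
    (hΦC z hz).image_open (D z) Subset.rfl (hΦC z hz).isOpen
  choose! U hUo hUe using hU
  obtain ⟨t, ht⟩ := hZ.elim_nhds_subcover' (fun z _ => U z) (fun z hz => by
    refine (hUo z hz).mem_nhds ?_
    have := hΦz z hz
    rw [hUe z hz] at this
    exact this.2)
  -- enumerate
  let e := t.equivFin
  let N := t.card
  let zz : Fin N → E := fun i => ((e.symm i : Z) : E)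
  have hzz : ∀ i, zz i ∈ Z := fun i => ((e.symm i : Z)).2
  let P : Fin N → Set (Eu n) := fun i => D (zz i) \ (D (zz i) ∩ Φ (zz i) ⁻¹' ⋃ j ∈ {j | j < i}, U (zz j))
  refine ⟨N, fun i => Φ (zz i), fun i => D (zz i), P, fun i => hΦQ _ (hzz i),
    fun i => hΦC _ (hzz i), fun i => sdiff_subset, fun i => ?_, ?_, ?_⟩
  · refine (hΦC _ (hzz i)).isOpen.measurableSet.diff ?_
    have h1 : IsOpen (⋃ j ∈ {j | j < i}, U (zz j)) := isOpen_biUnion fun j _ => hUo _ (hzz j)
    exact ((hΦC _ (hzz i)).contDiffOn.continuousOn.isOpen_inter_preimage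
      (hΦC _ (hzz i)).isOpen h1).measurableSet
  · have key : ∀ i j, j < i → Disjoint (Φ (zz i) '' P i) (Φ (zz j) '' P j) := by
      intro i j hji
      rw [Set.disjoint_left]
      rintro y ⟨p, hp, rfl⟩ ⟨q, hq, hqp⟩
      refine hp.2 ⟨hp.1, ?_⟩
      rw [mem_preimage, ← hqp]
      refine mem_biUnion (x := j) hji ?_
      have : Φ (zz j) q ∈ Φ (zz j) '' D (zz j) := ⟨q, hq.1, rfl⟩
      rw [hUe _ (hzz j)] at this
      exact this.2
    intro i j hij
    rcases lt_or_gt_of_ne hij with h | h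
    · exact (key j i h).symm
    · exact key i j h
  · apply Subset.antisymm
    · refine iUnion_subset fun i => ?_
      rintro _ ⟨p, hp, rfl⟩
      exact (hΦC _ (hzz i)).mem hp.1
    · intro z hz
      -- the smallest index whose `U` contains `z`
      have hex : ∃ i, z ∈ U (zz i) := by
        have := ht hz
        rw [mem_iUnion₂] at this
        obtain ⟨w, hw, hzw⟩ := this
        refine ⟨e ⟨w, hw⟩, ?_⟩
        show z ∈ U ((e.symm (e ⟨w, hw⟩) : Z) : E)
        rw [Equiv.symm_apply_apply]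
        exact hzw
      obtain ⟨i, hi, hmin⟩ : ∃ i, z ∈ U (zz i) ∧ ∀ j < i, z ∉ U (zz j) := by
        obtain ⟨i, hi⟩ := Finset.exists_minimal (s := Finset.univ.filter fun i => z ∈ U (zz i))
          (by obtain ⟨i, hi⟩ := hex; exact ⟨i, by simpa using hi⟩)
        refine ⟨i, by simpa using hi.1, fun j hj hzj => ?_⟩
        exact absurd (hi.2 (by simpa using hzj) hj.le) (not_le.2 hj)
      have h1 : z ∈ Φ (zz i) '' D (zz i) := by rw [hUe _ (hzz i)]; exact ⟨hz, hi⟩
      obtain ⟨p, hp, rfl⟩ := h1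
      refine mem_iUnion.2 ⟨i, p, ⟨hp, ?_⟩, rfl⟩
      rintro ⟨_, hp2⟩
      rw [mem_preimage, mem_iUnion₂] at hp2
      obtain ⟨j, hj, hj2⟩ := hp2
      exact hmin j hj hj2

end Crest.Agent.R208.FI
end
end

-- ▼ part R208/FH6

/-! Row 208, block F2 (helper198), part FH6: **fibre integration** for submersions of closed
manifolds:  `∫_Z η ∧ π^*om = ∫_X c • om`, `c x = ∫_{Z_x} η`. -/

set_option autoImplicit false
set_option linter.unusedSectionVars false

open MeasureTheory MeasureTheory.Measure Set Filter Topology Module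
open scoped ContDiff
open Crest.Agent.R208.F

noncomputable section

namespace Crest.Agent.R208.FI

variable {E E' : Type*} [NormedAddCommGroup E] [NormedSpace ℝ E] [FiniteDimensional ℝ E]
  [NormedAddCommGroup E'] [NormedSpace ℝ E'] [FiniteDimensional ℝ E']

variable (E) in
/-- the identification with Euclidean space -/
abbrev TE : E ≃L[ℝ] EuclideanSpace ℝ (Fin (finrank ℝ E)) := toEuclidean

/-- integral over a subset `S` of `X` -/
def JS (d : ℕ) (X : Set E) (o om : E → Ext E) (S : Set E) : ℝ :=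
  ∫ y in TE E '' S, dens d X o om ((TE E).symm y) ∂μHE[d]

theorem JS_self (d : ℕ) (X : Set E) (o om : E → Ext E) : JS d X o om X = J d X o om := rfl

theorem dens_fun_smul {d : ℕ} {X : Set E} {o om : E → Ext E} (c : E → ℝ) (x : E) :
    dens d X o (fun x => c x • om x) x = c x * dens d X o om x := by
  simp only [dens, map_smul, AlternatingMap.smul_apply, smul_eq_mul]; ring

/-- images of measurable sets under charts are measurable. -/
theorem Chart.measurableSet_image {n : ℕ} {Z : Set E} {Φ : Eu n → E} {D P : Set (Eu n)}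
    (h : Chart n Z Φ D) (hP : MeasurableSet P) (hPD : P ⊆ D) :
    MeasurableSet (TE E '' (Φ '' P)) := by
  rw [image_image]
  refine hP.image_of_continuousOn_injOn ?_ ?_
  · exact (TE E).continuous.comp_continuousOn (h.contDiffOn.continuousOn.mono hPD)
  · intro u hu v hv huv
    exact h.injOn (hPD hu) (hPD hv) ((TE E).injective huv)

/-- finite additivity of `JS` over a measurable decomposition. -/
theorem JS_iUnion {d N : ℕ} {X : Set E} {o om : E → Ext E} (S : Fin N → Set E)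
    (hm : ∀ i, MeasurableSet (TE E '' S i))
    (hd : Pairwise fun i j => Disjoint (S i) (S j))
    (hint : IntegrableOn (fun y => dens d X o om ((TE E).symm y)) (TE E '' ⋃ i, S i) μHE[d]) :
    JS d X o om (⋃ i, S i) = ∑ i, JS d X o om (S i) := by
  have hint' : ∀ i, IntegrableOn (fun y => dens d X o om ((TE E).symm y)) (TE E '' S i) μHE[d] :=
    fun i => hint.mono_set (image_mono (subset_iUnion S i))
  have h1 : TE E '' ⋃ i, S i = ⋃ i, TE E '' S i := image_iUnion
  rw [JS, h1, integral_iUnion_fintype hm ?_ hint']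
  · rfl
  · intro i j hij
    exact disjoint_image_of_injective (TE E).injective (hd hij)

section piece
open Adapted (inA)
variable {r d : ℕ} {Z : Set E'} {X : Set E} {π : E' → E} {f : Eu d → E} {V : Set (Eu d)}
  {Φ : Eu (r + d) → E'} {A : Set (Eu r)} {B : Set (Eu d)} {P : Set (Eu (r + d))}
  {oX om : E → Ext E} {oV η : E' → Ext E'}

theorem continuous_inA (b : Eu d) : Continuous (inA r d b) := by
  unfold inA
  exact (kap r d).symm.continuous.comp (Continuous.prodMk_left b)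

/-- the part of a piece in a fibre -/
theorem fibre_image (hAd : Adapted r d Z X π f V Φ A B) (hP : P ⊆ kap r d ⁻¹' (A ×ˢ B))
    {b : Eu d} (hb : b ∈ B) :
    (fun a => Φ (inA r d b a)) '' {a | inA r d b a ∈ P} = Φ '' P ∩ π ⁻¹' {f b} := by
  ext z
  constructor
  · rintro ⟨a, ha, rfl⟩
    have ha' : (kap r d (inA r d b a)) ∈ A ×ˢ B := hP ha
    rw [show kap r d (inA r d b a) = (a, b) from ContinuousLinearEquiv.apply_symm_apply _ _] at ha'
    exact ⟨⟨_, ha, rfl⟩, hAd.comm' ha'.1 hb⟩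
  · rintro ⟨⟨p, hp, rfl⟩, hpz⟩
    have h1 := hP hp
    have h2 : π (Φ p) = f (kap r d p).2 := hAd.comm p h1
    have h3 : f (kap r d p).2 = f b := by rw [← h2]; exact hpz
    have h4 : (kap r d p).2 = b := hAd.base.injOn (hAd.sub h1.2) (hAd.sub hb) h3
    have h5 : inA r d b (kap r d p).1 = p := by
      show (kap r d).symm ((kap r d p).1, b) = p
      rw [← h4]
      exact ContinuousLinearEquiv.symm_apply_apply _ _
    exact ⟨(kap r d p).1, by show inA r d b _ ∈ P; rw [h5]; exact hp, by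
      show Φ (inA r d b _) = Φ p; rw [h5]⟩

theorem empty_of_notMem (hAd : Adapted r d Z X π f V Φ A B) (hP : P ⊆ kap r d ⁻¹' (A ×ˢ B))
    {x : E} (hx : x ∉ f '' B) : Φ '' P ∩ π ⁻¹' {x} = ∅ := by
  rw [eq_empty_iff_forall_notMem]
  rintro _ ⟨⟨p, hp, rfl⟩, hpz⟩
  have h1 := hP hp
  have h2 : π (Φ p) = f (kap r d p).2 := hAd.comm p h1
  exact hx ⟨(kap r d p).2, h1.2, by rw [← h2]; exact hpz⟩

/-- fibre integral of one piece -/
def cP (r : ℕ) (Z : Set E') (π : E' → E) (oV η : E' → Ext E') (S : Set E') (x : E) : ℝ :=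
  JS r (Z ∩ π ⁻¹' {x}) oV η (S ∩ π ⁻¹' {x})

theorem cP_eq (hAd : Adapted r d Z X π f V Φ A B) (hP : P ⊆ kap r d ⁻¹' (A ×ˢ B))
    (hPm : MeasurableSet P) {b : Eu d} (hb : b ∈ B) :
    cP r Z π oV η (Φ '' P) (f b) = ∫ a in {a | inA r d b a ∈ P},
      top r (pull (fun a => Φ (inA r d b a)) η a) *
        Real.sign (top r (pull (fun a => Φ (inA r d b a)) oV a)) := by
  rw [cP, ← fibre_image hAd hP hb]
  refine integral_chart (hAd.fibre hb) ((continuous_inA b).measurable hPm) ?_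
  intro a ha
  have := hP ha
  rw [mem_preimage, show kap r d (inA r d b a) = (a, b) from
    ContinuousLinearEquiv.apply_symm_apply _ _] at this
  exact this.1

theorem cP_eq_zero (hAd : Adapted r d Z X π f V Φ A B) (hP : P ⊆ kap r d ⁻¹' (A ×ˢ B))
    {x : E} (hx : x ∉ f '' B) : cP r Z π oV η (Φ '' P) x = 0 := by
  rw [cP, empty_of_notMem hAd hP hx, JS, image_empty, Measure.restrict_empty, integral_zero_measure]

/-- the integrand on `Z` in an adapted chart -/
def gZ (r d : ℕ) (π : E' → E) (Φ : Eu (r + d) → E') (oX om : E → Ext E) (oV η : E' → Ext E')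
    (p : Eu (r + d)) : ℝ :=
  top (r + d) (pull Φ (fun z => η z * pull π om z) p) *
    Real.sign (top (r + d) (pull Φ (fun z => oV z * pull π oX z) p))

theorem gZ_eq (h : Subm r d Z X π) (hAd : Adapted r d Z X π f V Φ A B)
    (hom : ∀ x ∈ X, ∀ q < d, evA E q (om x) = 0) (hoX : ∀ x ∈ X, ∀ q < d, evA E q (oX x) = 0)
    {a : Eu r} (ha : a ∈ A) {b : Eu d} (hb : b ∈ B) :
    gZ r d π Φ oX om oV η (inA r d b a) =
      (top r (pull (fun a => Φ (inA r d b a)) η a) *
        Real.sign (top r (pull (fun a => Φ (inA r d b a)) oV a))) *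
      (top d (pull f om b) * Real.sign (top d (pull f oX b))) := by
  have hz : Φ (inA r d b a) ∈ Z := hAd.chart.mem (Adapted.mem_dom ha hb)
  have hπ : DifferentiableAt ℝ π (Φ (inA r d b a)) := (h.smooth _ hz).differentiableAt (by simp)
  have hfb : f b ∈ X := hAd.base.mem (hAd.sub hb)
  rw [gZ, hAd.top_pull ha hb hπ η om (hom _ hfb), hAd.top_pull ha hb hπ oV oX (hoX _ hfb), sign_mul]
  ring

theorem piece (h : Subm r d Z X π) (hAd : Adapted r d Z X π f V Φ A B)
    (hom : ∀ x ∈ X, ∀ q < d, evA E q (om x) = 0) (hoX : ∀ x ∈ X, ∀ q < d, evA E q (oX x) = 0)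
    (hP : P ⊆ kap r d ⁻¹' (A ×ˢ B)) (hPm : MeasurableSet P)
    (hint : IntegrableOn (gZ r d π Φ oX om oV η) P) :
    IntegrableOn (fun y => dens d X oX (fun x => cP r Z π oV η (Φ '' P) x • om x) ((TE E).symm y))
        (TE E '' X) μHE[d] ∧
      ∫ p in P, gZ r d π Φ oX om oV η p =
        J d X oX (fun x => cP r Z π oV η (Φ '' P) x • om x) := by
  classical
  set g := gZ r d π Φ oX om oV η with hg
  set H : Eu r × Eu d → ℝ := fun q => P.indicator g ((kap r d).symm q) with hH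
  have hemb : MeasurableEmbedding (kap r d : Eu (r + d) → Eu r × Eu d) :=
    (kap r d).toHomeomorph.measurableEmbedding
  have hHk : (fun p => H (kap r d p)) = P.indicator g := by
    funext p; simp only [hH, ContinuousLinearEquiv.symm_apply_apply]
  have hHint : Integrable H (volume : Measure (Eu r × Eu d)) := by
    rw [← (measurePreserving_kap r d).integrable_comp_emb hemb]
    show Integrable (fun p => H (kap r d p)) volume
    rw [hHk]
    exact hint.integrable_indicator hPm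
  have hHval : ∫ p in P, g p = ∫ q, H q := by
    rw [← (measurePreserving_kap r d).integral_comp hemb, ← integral_indicator hPm]
    show _ = ∫ p, H (kap r d p)
    rw [hHk]
  -- inner integral
  set K : Eu d → ℝ := fun b => top d (pull f (fun x => cP r Z π oV η (Φ '' P) x • om x) b) *
    Real.sign (top d (pull f oX b)) with hK
  have hinner : ∀ b ∈ B, ∫ a, H (a, b) = K b := by
    intro b hb
    have h1 : (fun a => H (a, b)) = ({a | inA r d b a ∈ P}).indicator (fun a =>
        (top r (pull (fun a => Φ (inA r d b a)) η a) *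
          Real.sign (top r (pull (fun a => Φ (inA r d b a)) oV a))) *
        (top d (pull f om b) * Real.sign (top d (pull f oX b)))) := by
      funext a
      show P.indicator g (inA r d b a) = _
      by_cases ha : inA r d b a ∈ P
      · rw [indicator_of_mem ha, indicator_of_mem (s := {a | inA r d b a ∈ P}) ha]
        have := hP ha
        rw [mem_preimage, show kap r d (inA r d b a) = (a, b) from
          ContinuousLinearEquiv.apply_symm_apply _ _] at this
        exact gZ_eq h hAd hom hoX this.1 hb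
      · rw [indicator_of_notMem ha, indicator_of_notMem (s := {a | inA r d b a ∈ P}) ha]
    have hms : MeasurableSet {a | inA r d b a ∈ P} := (continuous_inA b).measurable hPm
    rw [h1]
    rw [integral_indicator hms, integral_mul_const, ← cP_eq hAd hP hPm hb]
    show _ = top d (pull f (fun x => cP r Z π oV η (Φ '' P) x • om x) b) * _
    rw [show pull f (fun x => cP r Z π oV η (Φ '' P) x • om x) b =
      cP r Z π oV η (Φ '' P) (f b) • pull f om b from map_smul _ _ _, map_smul, smul_eq_mul]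
    ring
  have hinner0 : ∀ b, b ∉ B → ∫ a, H (a, b) = 0 := by
    intro b hb
    have h1 : (fun a => H (a, b)) = fun _ => 0 := by
      funext a
      show P.indicator g (inA r d b a) = 0
      refine indicator_of_notMem (fun ha => hb ?_) _
      have := hP ha
      rw [mem_preimage, show kap r d (inA r d b a) = (a, b) from
          ContinuousLinearEquiv.apply_symm_apply _ _] at this
      exact this.2
    rw [h1, integral_zero]
  have hKint : IntegrableOn K B := by
    have h1 : Integrable (fun b => ∫ a, H (a, b)) (volume : Measure (Eu d)) := by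
      rw [Measure.volume_eq_prod] at hHint
      exact hHint.integral_prod_right
    refine (h1.integrableOn (s := B)).congr_fun (fun b hb => hinner b hb) hAd.hB.measurableSet
  have hKval : ∫ q, H q = ∫ b in B, K b := by
    rw [Measure.volume_eq_prod, integral_prod_symm _ (by rwa [Measure.volume_eq_prod] at hHint)]
    rw [← setIntegral_eq_integral_of_forall_compl_eq_zero (s := B) hinner0]
    exact setIntegral_congr_fun hAd.hB.measurableSet fun b hb => hinner b hb
  have hchart : Chart d X f B := hAd.base.mono hAd.sub hAd.hB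
  have hzero : ∀ y ∈ TE E '' X \ TE E '' (f '' B),
      dens d X oX (fun x => cP r Z π oV η (Φ '' P) x • om x) ((TE E).symm y) = 0 := by
    rintro _ ⟨⟨x, hx, rfl⟩, hx2⟩
    rw [ContinuousLinearEquiv.symm_apply_apply, dens_fun_smul,
      cP_eq_zero hAd hP (fun h => hx2 ⟨x, h, rfl⟩), zero_mul]
  constructor
  · have h1 := (integrableOn_chart (o := oX) (om := fun x => cP r Z π oV η (Φ '' P) x • om x)
      hchart hAd.hB.measurableSet Subset.rfl).2 hKint
    exact h1.of_forall_sdiff_eq_zero h.cloX.measurableSet hzero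
  · rw [hHval, hKval, J]
    have h1 := integral_chart (o := oX) (om := fun x => cP r Z π oV η (Φ '' P) x • om x)
      hchart hAd.hB.measurableSet Subset.rfl
    rw [← h1]
    exact (setIntegral_eq_of_subset_of_forall_sdiff_eq_zero h.cloX.measurableSet
      (image_mono hchart.image_subset) hzero).symm

end piece

theorem continuousOn_mul {Y : Type*} [TopologicalSpace Y] {S : Set Y} {a b : Y → Ext E}
    (ha : ContinuousOn a S) (hb : ContinuousOn b S) : ContinuousOn (fun y => a y * b y) S :=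
  (mulL E).isBoundedBilinearMap.continuous.comp_continuousOn (ha.prodMk hb)

section main
open Adapted (inA)
variable {r d : ℕ} {Z : Set E'} {X : Set E} {π : E' → E} {oX om : E → Ext E} {oV η : E' → Ext E'}

theorem Subm.continuousOn (h : Subm r d Z X π) : ContinuousOn π Z :=
  fun z hz => (h.smooth z hz).continuousAt.continuousWithinAt

theorem Subm.continuousOn_pull (h : Subm r d Z X π) (hom : ContinuousOn om X) :
    ContinuousOn (pull π om) Z :=
  FI.continuousOn_pull h.continuousOn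
    (fun z hz => ((h.smooth z hz).fderiv_right (m := 0) (by simp)).continuousAt.continuousWithinAt)
    h.mapsTo hom

/-- the fibres are oriented by `oV` -/
theorem Subm.fibre_ori (h : Subm r d Z X π) (hoV : ContinuousOn oV Z)
    (hoZ : Ori (r + d) Z (fun z => oV z * pull π oX z))
    (hoX : ∀ x ∈ X, ∀ q < d, evA E q (oX x) = 0) (x : E) : Ori r (Z ∩ π ⁻¹' {x}) oV where
  cont := hoV.mono inter_subset_left
  ne := by
    rintro z ⟨hz, hzx⟩
    obtain ⟨f, V, Φ, A, B, hAd, p, hp, rfl⟩ := h.exists_adapted hz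
    have ha : (kap r d p).1 ∈ A := hp.1
    have hb : (kap r d p).2 ∈ B := hp.2
    have hp' : inA r d (kap r d p).2 (kap r d p).1 = p :=
      ContinuousLinearEquiv.symm_apply_apply _ _
    have h1 : π (Φ p) = f (kap r d p).2 := hAd.comm p hp
    have h2 : x = f (kap r d p).2 := by rw [← h1]; exact hzx.symm
    have hF := hAd.fibre hb
    have h3 : Φ p = (fun a => Φ (inA r d (kap r d p).2 a)) (kap r d p).1 := by
      show Φ p = Φ (inA r d (kap r d p).2 (kap r d p).1)
      rw [hp']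
    rw [h3, h2]
    refine (top_ne_zero (finrank_Tan_chart hF ha) (fun w => hF.fderiv_mem ha w) (hF.inj _ ha)).1 ?_
    have h4 := hAd.chart.top_ne_zero hoZ (Adapted.mem_dom ha hb)
    have hπ : DifferentiableAt ℝ π (Φ (inA r d (kap r d p).2 (kap r d p).1)) := by
      rw [hp']; exact (h.smooth _ hz).differentiableAt (by simp)
    have hfb : f (kap r d p).2 ∈ X := hAd.base.mem (hAd.sub hb)
    have h5 := hAd.top_pull ha hb hπ oV oX (hoX _ hfb)
    have h6 : top (r + d) (pull Φ (fun z => oV z * pull π oX z)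
      (inA r d (kap r d p).2 (kap r d p).1)) ≠ 0 := h4
    rw [h5] at h6
    exact left_ne_zero_of_mul h6

/-- **FIBRE INTEGRATION**: `∫_Z η ∧ π^*om = ∫_X (∫_{Z_x} η) om`. -/
theorem fibre_integration (h : Subm r d Z X π) (hoV : ContinuousOn oV Z)
    (hoZ : Ori (r + d) Z (fun z => oV z * pull π oX z))
    (hoX : ∀ x ∈ X, ∀ q < d, evA E q (oX x) = 0)
    (hη : ContinuousOn η Z) (hom : ContinuousOn om X)
    (hom0 : ∀ x ∈ X, ∀ q < d, evA E q (om x) = 0) :
    J (r + d) Z (fun z => oV z * pull π oX z) (fun z => η z * pull π om z) =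
      J d X oX (fun x => J r (Z ∩ π ⁻¹' {x}) oV η • om x) := by
  classical
  obtain ⟨N, Φ, D, P, hQ, hC, hPD, hPm, hdisj, hU⟩ := exists_decomp h.cloZ.compact
    (fun Φ D => ∃ (f : Eu d → E) (V : Set (Eu d)) (A : Set (Eu r)) (B : Set (Eu d)),
      D = kap r d ⁻¹' (A ×ˢ B) ∧ Adapted r d Z X π f V Φ A B)
    (fun z hz => by
      obtain ⟨f, V, Φ, A, B, hAd, hz'⟩ := h.exists_adapted hz
      exact ⟨Φ, _, ⟨f, V, A, B, rfl, hAd⟩, hAd.chart, hz'⟩)
  choose f V A B hD hAd using hQ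
  obtain rfl : D = fun i => kap r d ⁻¹' (A i ×ˢ B i) := funext hD
  have hmeas : ∀ i, MeasurableSet (TE E' '' (Φ i '' P i)) := fun i =>
    (hC i).measurableSet_image (hPm i) (hPD i)
  have hintZ := integrableOn_dens h.cloZ hoZ
    (continuousOn_mul hη (h.continuousOn_pull hom))
  -- left-hand side
  have hL : J (r + d) Z (fun z => oV z * pull π oX z) (fun z => η z * pull π om z) =
      ∑ i, JS (r + d) Z (fun z => oV z * pull π oX z) (fun z => η z * pull π om z)
        (Φ i '' P i) := by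
    rw [← JS_iUnion _ hmeas hdisj (by rw [hU]; exact hintZ), hU]; rfl
  have hintP : ∀ i, IntegrableOn (gZ r d π (Φ i) oX om oV η) (P i) := fun i => by
    have h1 : IntegrableOn _ (TE E' '' (Φ i '' P i)) μHE[r + d] :=
      hintZ.mono_set (image_mono (by rw [← hU]; exact subset_iUnion (fun i => Φ i '' P i) i))
    exact (integrableOn_chart (hC i) (hPm i) (hPD i)).1 h1
  have hpiece := fun i => piece h (hAd i) hom0 hoX (hPD i) (hPm i) (hintP i)
  have hL2 : ∀ i, JS (r + d) Z (fun z => oV z * pull π oX z) (fun z => η z * pull π om z)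
        (Φ i '' P i) = J d X oX (fun x => cP r Z π oV η (Φ i '' P i) x • om x) := fun i => by
    rw [← (hpiece i).2]
    exact integral_chart (hC i) (hPm i) (hPD i)
  -- right-hand side
  have hc : ∀ x, J r (Z ∩ π ⁻¹' {x}) oV η = ∑ i, cP r Z π oV η (Φ i '' P i) x := fun x => by
    have hF := h.clo_fibre x
    have hS : ⋃ i, (Φ i '' P i ∩ π ⁻¹' {x}) = Z ∩ π ⁻¹' {x} := by
      rw [← iUnion_inter, hU]
    have h1 := JS_iUnion (d := r) (X := Z ∩ π ⁻¹' {x}) (o := oV) (om := η)
      (fun i => Φ i '' P i ∩ π ⁻¹' {x}) (fun i => ?_) (fun i j hij => ?_) ?_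
    · rw [hS] at h1
      exact h1
    · have h2 : TE E' '' (Φ i '' P i ∩ π ⁻¹' {x}) =
          TE E' '' (Φ i '' P i) ∩ TE E' '' (Z ∩ π ⁻¹' {x}) := by
        rw [← image_inter (TE E').injective]
        congr 1
        ext z
        constructor
        · rintro ⟨h3, h4⟩
          exact ⟨h3, (hU ▸ mem_iUnion_of_mem i h3 : z ∈ Z), h4⟩
        · rintro ⟨h3, -, h4⟩
          exact ⟨h3, h4⟩
      rw [h2]
      exact (hmeas i).inter hF.measurableSet
    · exact (hdisj hij).mono inter_subset_left inter_subset_left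
    · rw [hS]
      exact integrableOn_dens hF (h.fibre_ori hoV hoZ hoX x) (hη.mono inter_subset_left)
  rw [hL, Finset.sum_congr rfl fun i _ => hL2 i]
  simp only [J]
  rw [← integral_finsetSum _ fun i _ => (hpiece i).1]
  refine setIntegral_congr_fun h.cloX.measurableSet ?_
  rintro _ ⟨x, hx, rfl⟩
  simp only [ContinuousLinearEquiv.symm_apply_apply, dens_fun_smul, ← Finset.sum_mul]
  congr 1
  exact (hc x).symm

end main

end Crest.Agent.R208.FI
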