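import Crest.Agent.R208.FV4
import Crest.Agent.R208.FH6

/-! Row 208, block F2 (helper349), part FV5: the projection `F → S` is a submersion; the cut loci
`Cut S p` are closed submanifolds of dimension `n - k` with tangent spaces `TC G p q`. -/

set_option autoImplicit false
set_option linter.unusedSectionVars false
set_option linter.unusedVariables false

open Set Filter Topology Module
open scoped ContDiff RealInnerProductSpace
open Crest.GeometryTopology.Submanifold
open Crest.Agent.R241.DDefs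
open Crest.Agent.R241.D2
open Crest.Agent.R241
open Crest.Agent.R208.F Crest.Agent.R208.FI
open Crest.Agent.R208.L (US TanTS)

noncomputable section

namespace Crest.Agent.R208.FV

variable {n N : ℕ} {κ : ℝ} {S : Set (Euc N)} {G : Geo n N κ S} {k : ℕ}

/-- horizontal lifts: `ξ ∈ T_p` is the first component of a tangent vector of `F` at `(p,q)` -/
theorem exists_lift_fst (h : GT.Bla G k) {p q : Euc N} (hz : (p, q) ∈ GT.FF S) {ξ : Euc N}
    (hξ : ξ ∈ G.T p) :
    (ξ, -GT.lf G p q ((GT.Vs G p q).starProjection ξ)) ∈ Tan (GT.FF S) (p, q) := by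
  rw [mem_Tan_FF h hz]
  refine ⟨hξ, ?_, ?_⟩
  · exact (G.T q).neg_mem (h.Vs_le (GT.FF_symm' hz) (h.lf_mem hz _))
  · intro v hv
    rw [inner_neg_right, h.inner_lf hz hv (Submodule.starProjection_apply_mem _ _),
      ← Submodule.inner_starProjection_left_eq_right, Submodule.starProjection_eq_self_iff.2 hv]
    ring

/-- `F → S`, `(p,q) ↦ p`, is a submersion -/
theorem subm_fst (h : GT.Bla G k) : Subm (n - k) n (GT.FF S) S Prod.fst where
  cloZ := clo_FF' h (by have := h.ty.le; omega)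
  cloX := GP.clo_S h.bl
  smooth := fun z _ => contDiffAt_fst
  mapsTo := fun z hz => hz.1
  sub := by
    rintro ⟨p, q⟩ hz ξ hξ
    rw [LB.Tan_S (G := G) (sub_S h.bl) hz.1] at hξ
    refine ⟨_, exists_lift_fst h hz hξ, ?_⟩
    rw [hasFDerivAt_fst.fderiv]
    rfl



/-- the fibre of `F → S` over `p` -/
theorem fibre_fst (p : Euc N) (hp : p ∈ S) :
    GT.FF S ∩ Prod.fst ⁻¹' {p} = (fun q => (p, q)) '' GP.Cut S p := by
  ext z
  constructor
  · rintro ⟨hz, hz1⟩
    have hz1' : z.1 = p := hz1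
    refine ⟨z.2, ⟨hz.2.1, by rw [← hz1']; exact hz.2.2⟩, ?_⟩
    rw [← hz1']
  · rintro ⟨q, hq, rfl⟩
    exact ⟨⟨hp, hq.1, hq.2⟩, rfl⟩

theorem isCompact_Cut (h : GT.Bla G k) {p : Euc N} (hp : p ∈ S) : IsCompact (GP.Cut S p) := by
  have h1 := ((subm_fst h).clo_fibre p).compact.image continuous_snd
  rw [fibre_fst p hp, image_image] at h1
  simpa using h1

/-- **cut loci are submanifolds of dimension `n - k`** -/
theorem sub_Cut (h : GT.Bla G k) {p : Euc N} (hp : p ∈ S) : Sub (n - k) (GP.Cut S p) := by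
  have h0 := (subm_fst h).clo_fibre p
  refine Sub.of_loc' fun q hq => ?_
  have hz : (p, q) ∈ GT.FF S ∩ Prod.fst ⁻¹' {p} := ⟨⟨hp, hq.1, hq.2⟩, rfl⟩
  obtain ⟨f, W, O, ℓ, h1, h2⟩ := h0.sub.exists_loc hz
  obtain ⟨U', O', ℓ', h3, h4, -, -⟩ := Loc.image h1 (g := Prod.snd) (Y := GP.Cut S p)
    (fun x _ => contDiffAt_snd) (x := (p, q)) hz h2
    (fun v hv h0 => by
      have e1 : v.1 = 0 := by
        have := Tan_le_ker (X := GT.FF S) (g := fun z : Euc N × Euc N => z.1 - p) (x := (p, q))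
          (differentiableAt_fst.sub_const p) (Tan_mono_of_subset (by
            rintro z ⟨hz1, hz2⟩
            exact ⟨hz1, sub_eq_zero.2 hz2⟩) _ hv)
        have h5 : fderiv ℝ (fun z : Euc N × Euc N => z.1 - p) (p, q) v = 0 := this.2
        have h6 : HasFDerivAt (fun z : Euc N × Euc N => z.1 - p)
          (ContinuousLinearMap.fst ℝ (Euc N) (Euc N)) (p, q) := hasFDerivAt_fst.sub_const p
        rw [h6.fderiv] at h5
        exact h5
      have e2 : v.2 = 0 := by
        rw [hasFDerivAt_snd.fderiv] at h0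
        exact h0
      exact Prod.ext e1 e2)
    (fun x hx => by
      have hx1 : x.1 = p := hx.2
      exact ⟨hx.1.2.1, by rw [← hx1]; exact hx.1.2.2⟩)
    (fun O' hO' hqO => by
      have h5 : Tendsto (fun y : Euc N => (p, y)) (𝓝[GP.Cut S p] q) (𝓝 (p, q)) :=
        (Continuous.tendsto (by fun_prop) q).mono_left nhdsWithin_le_nhds
      filter_upwards [h5.eventually (hO'.mem_nhds hqO), self_mem_nhdsWithin] with y hy hyC
      exact ⟨(p, y), ⟨⟨⟨hp, hyC.1, hyC.2⟩, rfl⟩, hy⟩, rfl⟩)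
  exact ⟨_, _, _, _, h3, h4⟩

theorem clo_Cut (h : GT.Bla G k) {p : Euc N} (hp : p ∈ S) : Clo (n - k) (GP.Cut S p) :=
  (sub_Cut h hp).clo (isCompact_Cut h hp)

/-- **tangent spaces of the cut locus** -/
theorem Tan_Cut (h : GT.Bla G k) {p q : Euc N} (hz : (p, q) ∈ GT.FF S) :
    Tan (GP.Cut S p) q = GT.TC G p q := by
  have hqC : q ∈ GP.Cut S p := ⟨hz.2.1, hz.2.2⟩
  apply Submodule.eq_of_le_of_finrank_eq
  · rw [Tan, Submodule.span_le]
    rintro v ⟨γ, hγ0, hγ, hγS⟩
    have h1 : ((0 : Euc N), v) ∈ Tan (GT.FF S) (p, q) := by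
      refine Submodule.subset_span ⟨fun t => (p, γ t), Prod.ext rfl hγ0, ?_, ?_⟩
      · exact (hasDerivAt_const (0 : ℝ) p).prodMk hγ
      · filter_upwards [hγS] with t ht
        exact ⟨hz.1, ht.1, ht.2⟩
    rw [mem_Tan_FF h hz] at h1
    refine ⟨h1.2.1, ?_⟩
    rw [SetLike.mem_coe, Submodule.mem_orthogonal]
    intro u hu
    have h2 := h1.2.2 (GT.lf G q p u) (h.lf_mem (GT.FF_symm' hz) u)
    rw [h.lf_lf (GT.FF_symm' hz) hu, inner_zero_right, zero_add] at h2
    exact h2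
  · rw [(sub_Cut h hz.1).finrank_Tan hqC]
    have := h.finrank_TC hz
    omega

/-- `{0} × T_q C_p ⊆ T F` -/
theorem inr_mem_Tan_FF (h : GT.Bla G k) {p q : Euc N} (hz : (p, q) ∈ GT.FF S) {η : Euc N} :
    ((0 : Euc N), η) ∈ Tan (GT.FF S) (p, q) ↔ η ∈ GT.TC G p q := by
  rw [mem_Tan_FF h hz]
  constructor
  · rintro ⟨-, h2, h3⟩
    refine ⟨h2, ?_⟩
    rw [SetLike.mem_coe, Submodule.mem_orthogonal]
    intro u hu
    have h4 := h3 (GT.lf G q p u) (h.lf_mem (GT.FF_symm' hz) u)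
    rw [h.lf_lf (GT.FF_symm' hz) hu, inner_zero_right, zero_add] at h4
    exact h4
  · rintro ⟨h1, h2⟩
    refine ⟨(G.T p).zero_mem, h1, fun v hv => ?_⟩
    rw [inner_zero_right, zero_add]
    exact (Submodule.mem_orthogonal _ _).1 h2 _ (h.lf_mem hz v)

end Crest.Agent.R208.FV
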