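import Crest.Agent.R208.J3
import Crest.Agent.R208.NDefs
import Crest.Agent.R241.AF2
import Crest.Agent.R241.D3c

/-!
R208, block G4a (helper631), part 4: the Jacobi tensor as a matrix in an orthonormal basis of
`v^⊥ ∩ T_x`, the density `Dn`, the Jacobian of the exponential map, and the Jacobi cocycle
`JLoop` of a closed geodesic.
-/

set_option autoImplicit false
set_option linter.unusedSectionVars false

open Set Filter Topology Matrix
open scoped ContDiff RealInnerProductSpace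
open Crest.GeometryTopology.Submanifold
open Crest.Agent.R241.DDefs
open Crest.Agent.R241.D2

noncomputable section

namespace Crest.Agent.R208.J

/-! ### linear algebra -/

section linalg

variable {V : Type*} [NormedAddCommGroup V] [InnerProductSpace ℝ V] [FiniteDimensional ℝ V]

/-- the matrix of (the restriction of) an operator in an orthonormal basis of a subspace. -/
def mat {m : ℕ} {E : Submodule ℝ V} (b : OrthonormalBasis (Fin m) ℝ E) (L : V →L[ℝ] V) :
    Matrix (Fin m) (Fin m) ℝ :=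
  Matrix.of fun i j => ⟪(b i : V), L (b j)⟫

variable {m : ℕ} {E : Submodule ℝ V} (b : OrthonormalBasis (Fin m) ℝ E)

lemma mat_apply (L : V →L[ℝ] V) (i j : Fin m) : mat b L i j = ⟪(b i : V), L (b j)⟫ := rfl

lemma expand {x : V} (hx : x ∈ E) : ∑ k, ⟪(b k : V), x⟫ • (b k : V) = x := by
  have h := b.sum_repr' ⟨x, hx⟩
  have h2 := congrArg (fun y : E => (y : V)) h
  simpa using h2

lemma mat_comp {L L' : V →L[ℝ] V} (h : ∀ x ∈ E, L' x ∈ E) :
    mat b (L ∘L L') = mat b L * mat b L' := by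
  ext i j
  rw [mat_apply, Matrix.mul_apply, ContinuousLinearMap.comp_apply]
  conv_lhs => rw [← expand b (h _ (b j).2)]
  rw [map_sum, inner_sum]
  refine Finset.sum_congr rfl fun k _ => ?_
  rw [map_smul, inner_smul_right, mat_apply, mat_apply]
  ring

lemma mat_one_of {L : V →L[ℝ] V} (h : ∀ x ∈ E, L x = x) : mat b L = 1 := by
  ext i j
  rw [mat_apply, h _ (b j).2, Matrix.one_apply]
  have h1 := (orthonormal_iff_ite.1 b.orthonormal) i j
  exact h1

lemma mat_neg (L : V →L[ℝ] V) : mat b (-L) = -mat b L := by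
  ext i j
  simp [mat_apply]

lemma mat_transpose {L L' : V →L[ℝ] V} (h : ∀ x y, ⟪L x, y⟫ = ⟪x, L' y⟫) :
    (mat b L)ᵀ = mat b L' := by
  ext i j
  rw [Matrix.transpose_apply, mat_apply, mat_apply, ← h, real_inner_comm]

lemma mat_eq_toMatrix {L : V →L[ℝ] V} (h : ∀ x ∈ E, L x ∈ E) :
    mat b L = LinearMap.toMatrix b.toBasis b.toBasis (L.toLinearMap.restrict h) := by
  ext i j
  rw [LinearMap.toMatrix_apply, mat_apply]
  simp only [OrthonormalBasis.coe_toBasis, OrthonormalBasis.coe_toBasis_repr_apply,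
    OrthonormalBasis.repr_apply_apply]
  rfl

/-- determinant of an operator which is extended by the identity. -/
lemma det_extend {A Q : V →L[ℝ] V} (hQE : ∀ x ∈ E, Q x = x) (hQm : ∀ x, Q x ∈ E)
    (hA : ∀ x ∈ E, A x ∈ E) :
    (A ∘L Q + (ContinuousLinearMap.id ℝ V - Q)).det = (mat b A).det := by
  set B : V →L[ℝ] V := A ∘L Q + (ContinuousLinearMap.id ℝ V - Q) with hB
  have hBE : ∀ x ∈ E, B x = A x := by
    intro x hx
    simp [hB, hQE x hx]
  have hBm : ∀ x ∈ E, B x ∈ E := fun x hx => by rw [hBE x hx]; exact hA x hx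
  have hle : E ≤ E.comap B.toLinearMap := fun x hx => hBm x hx
  have h1 := LinearMap.det_eq_det_mul_det (W := E) B.toLinearMap hle
  have h2 : (E.mapQ E B.toLinearMap hle) = LinearMap.id := by
    refine LinearMap.ext fun y => ?_
    obtain ⟨x, rfl⟩ := E.mkQ_surjective y
    rw [Submodule.mkQ_apply, Submodule.mapQ_apply, LinearMap.id_apply,
      Submodule.Quotient.eq]
    have : B.toLinearMap x - x = A (Q x) - Q x := by
      change (A (Q x) + (x - Q x)) - x = _
      abel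
    rw [this]
    exact E.sub_mem (hA _ (hQm x)) (hQm x)
  rw [h2, LinearMap.det_id, mul_one] at h1
  rw [ContinuousLinearMap.det, h1, ← LinearMap.det_toMatrix b.toBasis]
  congr 1
  ext i j
  rw [mat_apply, LinearMap.toMatrix_apply]
  simp only [OrthonormalBasis.coe_toBasis, OrthonormalBasis.coe_toBasis_repr_apply,
    OrthonormalBasis.repr_apply_apply]
  change ⟪(b i : V), B (b j)⟫ = _
  rw [hBE _ (b j).2]

end linalg

variable {n N : ℕ} {κ : ℝ} {S : Set (Euc N)} {G : Geo n N κ S} {q : Euc N × Euc N}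

/-! ### the orthogonal complement of the velocity in the tangent space -/

/-- `v^⊥ ∩ T_x` -/
def Vp (G : Geo n N κ S) (q : Euc N × Euc N) : Submodule ℝ (Euc N) :=
  G.T q.1 ⊓ (ℝ ∙ q.2)ᗮ

lemma mem_Vp {w : Euc N} : w ∈ Vp G q ↔ w ∈ G.T q.1 ∧ ⟪w, q.2⟫ = 0 := by
  rw [Vp, Submodule.mem_inf, Submodule.mem_orthogonal_singleton_iff_inner_left]

/-- orthogonal projection onto `v^⊥ ∩ T_x` (for unit `v`) -/
def Pv (G : Geo n N κ S) (q : Euc N × Euc N) : Euc N →L[ℝ] Euc N :=
  G.P q.1 - (innerSL ℝ q.2).smulRight q.2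

lemma Pv_apply (w : Euc N) : Pv G q w = G.P q.1 w - ⟪q.2, w⟫ • q.2 := rfl

lemma contDiff_Pv : ContDiff ℝ ∞ (Pv G) := by
  rw [contDiff_clm_apply_iff]
  intro w
  have h1 : ContDiff ℝ ∞ (fun q : Euc N × Euc N => G.P q.1 w) :=
    (G.contDiff_P.comp contDiff_fst).clm_apply contDiff_const
  exact h1.sub ((contDiff_snd.inner ℝ contDiff_const).smul contDiff_snd)

lemma Pv_mem (hq : q ∈ TS G) (h1 : ‖q.2‖ = 1) (w : Euc N) : Pv G q w ∈ Vp G q := by
  rw [mem_Vp, Pv_apply]
  refine ⟨(G.T q.1).sub_mem (P_mem G hq.1) ((G.T q.1).smul_mem _ hq.2), ?_⟩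
  rw [inner_sub_left, inner_smul_left, inner_P_left G hq.1, (P_eq_self G hq.1).1 hq.2,
    real_inner_self_eq_norm_sq, h1, real_inner_comm]
  simp

lemma Pv_of_mem (hq : q ∈ TS G) {w : Euc N} (hw : w ∈ Vp G q) : Pv G q w = w := by
  rw [mem_Vp] at hw
  rw [Pv_apply, real_inner_comm, hw.2, zero_smul, sub_zero, (P_eq_self G hq.1).1 hw.1]

lemma At_Vp (hq : q ∈ TS G) (s t : ℝ) {w : Euc N} (hw : w ∈ Vp G q) : At G q s t w ∈ Vp G q := by
  rw [mem_Vp] at hw ⊢
  exact ⟨At_mem hq s t w, by rw [inner_At_velocity hq, hw.2, mul_zero]⟩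



/-- `v^⊥ ∩ T_x` has dimension `n - 1`. -/
lemma finrank_Vp (hq : q ∈ TS G) (h1 : ‖q.2‖ = 1) : Module.finrank ℝ (Vp G q) + 1 = n := by
  have h2 := Submodule.finrank_add_inf_finrank_orthogonal (𝕜 := ℝ) (K₁ := ℝ ∙ q.2)
    (K₂ := G.T q.1) (by rw [Submodule.span_singleton_le_iff_mem]; exact hq.2)
  have h3 : q.2 ≠ 0 := by
    intro h; rw [h, norm_zero] at h1; exact zero_ne_one h1
  rw [finrank_span_singleton h3, G.finrank_T q.1 hq.1, inf_comm] at h2
  rw [Vp, add_comm]
  exact h2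

/-- orthonormal basis of `v^⊥ ∩ T_x`. -/
lemma exists_basis {m : ℕ} (hm : m + 1 = n) (hq : q ∈ TS G) (h1 : ‖q.2‖ = 1) :
    Nonempty (OrthonormalBasis (Fin m) ℝ (Vp G q)) := by
  have h2 : Module.finrank ℝ (Vp G q) = m := by
    have := finrank_Vp hq h1
    omega
  exact ⟨(stdOrthonormalBasis ℝ (Vp G q)).reindex (finCongr h2)⟩

/-! ### the density -/

/-- The density `|det A(s,t)|` of the geodesic of the unit vector `q`, without frames. -/
def Dn (G : Geo n N κ S) (q : Euc N × Euc N) (s t : ℝ) : ℝ :=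
  |(At G q s t ∘L Pv G q + (ContinuousLinearMap.id ℝ (Euc N) - Pv G q)).det|

theorem Dn_eq {m : ℕ} (hq : q ∈ TS G) (h1 : ‖q.2‖ = 1)
    (b : OrthonormalBasis (Fin m) ℝ (Vp G q)) (s t : ℝ) :
    Dn G q s t = |(mat b (At G q s t)).det| := by
  rw [Dn, det_extend b (fun x hx => Pv_of_mem hq hx) (Pv_mem hq h1)
    (fun x hx => At_Vp hq s t hx)]

lemma Dn_nonneg (q : Euc N × Euc N) (s t : ℝ) : 0 ≤ Dn G q s t := abs_nonneg _

/-- continuity of the density at unit tangent vectors (as a function on the ambient space) -/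
theorem continuousAt_Dn (hq : q ∈ TS G) (s t : ℝ) :
    ContinuousAt (fun z : (Euc N × Euc N) × ℝ × ℝ => Dn G z.1 z.2.1 z.2.2) (q, s, t) := by
  have h1 := (contDiffAt_At hq s t).continuousAt
  have h2 : ContinuousAt (fun z : (Euc N × Euc N) × ℝ × ℝ => Pv G z.1) (q, s, t) :=
    ((contDiff_Pv (G := G)).continuous.comp continuous_fst).continuousAt
  have h3 : ContinuousAt (fun z : (Euc N × Euc N) × ℝ × ℝ => At G z.1 z.2.1 z.2.2 ∘L Pv G z.1 +
      (ContinuousLinearMap.id ℝ (Euc N) - Pv G z.1)) (q, s, t) :=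
    (h1.clm_comp h2).add (continuousAt_const.sub h2)
  have h4 := ContinuousLinearMap.continuous_det.continuousAt.comp h3
  exact h4.abs



/-! ### change of base point -/

lemma At_shift (hq : q ∈ TS G) (r s t : ℝ) {w : Euc N} (hw : w ∈ G.T (fl G (q, r)).1) :
    At G (fl G (q, r)) s t w = PT G q r (At G q (r + s) (r + t) (PTi G q r w)) := by
  have hr := fl_mem G hq r
  have h : r + t - (r + s) = t - s := by ring
  rw [At_apply', At_apply', ← fl_add' G hq, P_PTi hq, (P_eq_self G hr.1).1 hw, PT_add hq,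
    PT_PTi hq, PTi_add hq, PT_PTi hq, h]

lemma velocity_Vp (hq : q ∈ TS G) (r : ℝ) {w : Euc N} :
    PT G q r w ∈ Vp G (fl G (q, r)) ↔ w ∈ Vp G q := by
  rw [mem_Vp, mem_Vp, ← PT_velocity hq, inner_PT hq]
  refine and_congr_left fun _ => ⟨fun h => ?_, fun h => PT_mem hq r h⟩
  have := PTi_mem hq r h
  rwa [PTi_PT hq] at this

/-- the density of the geodesic based at a later point. -/
theorem Dn_shift (hq : q ∈ TS G) (h1 : ‖q.2‖ = 1) (r s t : ℝ) :
    Dn G (fl G (q, r)) s t = Dn G q (r + s) (r + t) := by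
  have hr := fl_mem G hq r
  have hr1 : ‖(fl G (q, r)).2‖ = 1 := by rw [norm_fl G hq, h1]
  obtain ⟨b⟩ := exists_basis (m := n - 1) (by have := finrank_Vp hq h1; omega) hq h1
  -- transported basis
  let e : Vp G q ≃ₗᵢ[ℝ] Vp G (fl G (q, r)) :=
    { toFun := fun w => ⟨PT G q r w, (velocity_Vp hq r).2 w.2⟩
      invFun := fun w => ⟨PTi G q r w, by
        rw [← velocity_Vp hq r, PT_PTi hq]; exact w.2⟩
      left_inv := fun w => Subtype.ext (PTi_PT hq r w)
      right_inv := fun w => Subtype.ext (PT_PTi hq r w)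
      map_add' := fun w u => Subtype.ext (map_add _ _ _)
      map_smul' := fun c w => Subtype.ext (map_smul _ _ _)
      norm_map' := fun w => norm_PT hq r w }
  have hb : ∀ i, (((b.map e) i : Vp G (fl G (q, r))) : Euc N) = PT G q r (b i) := fun i => by
    rw [OrthonormalBasis.map_apply]; rfl
  rw [Dn_eq hr hr1 (b.map e), Dn_eq hq h1 b]
  congr 2
  ext i j
  rw [mat_apply, mat_apply, hb, hb, At_shift hq r s t (PT_mem hq r (mem_Vp.1 (b j).2).1),
    inner_PT hq, PTi_PT hq]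

/-! ### the Jacobian of the exponential map -/

lemma JF_eq_J {p v w : Euc N} (hp : p ∈ S) (hv : v ∈ G.T p) (hw : w ∈ G.T p) (t : ℝ) :
    JF G (p, v) (0, w) t = Crest.Agent.R241.D3b.J G p v w t := by
  have h1 : HasDerivAt (fun s : ℝ => fl G ((p, v + s • w), t)) (Dfl G (p, v) t (0, w)) 0 := by
    have h2 : HasDerivAt (fun s : ℝ => (((p, v + s • w), t) : (Euc N × Euc N) × ℝ))
        ((0, w), 0) 0 := by
      have h3 : HasDerivAt (fun s : ℝ => v + s • w) w 0 := by
        simpa using ((hasDerivAt_id (0 : ℝ)).smul_const w).const_add v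
      exact ((hasDerivAt_const (0 : ℝ) p).prodMk h3).prodMk (hasDerivAt_const (0 : ℝ) t)
    have h4 : HasFDerivAt (fl G) (fderiv ℝ (fl G) ((p, v), t)) ((p, v + (0 : ℝ) • w), t) := by
      have := ((contDiffAt_fl' G (q := (p, v)) ⟨hp, hv⟩ t).differentiableAt
        (by simp)).hasFDerivAt
      simpa using this
    exact h4.comp_hasDerivAt (0 : ℝ) h2
  have h5 := Crest.Agent.R241.D3b.hasDerivAt_s (q := ((0 : ℝ), t))
    ((Crest.Agent.R241.D3b.contDiff_al G hp hv hw).differentiable (by simp) ((0 : ℝ), t))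
  exact (hda_fst h1).unique h5

/-- the Jacobi field is the Jacobi tensor: `PT (At 0 t w) = J`. -/
lemma PT_At_zero {p v w : Euc N} (hp : p ∈ S) (hv : v ∈ G.T p) (hw : w ∈ G.T p) (t : ℝ) :
    PT G (p, v) t (At G (p, v) 0 t w) = Crest.Agent.R241.D3b.J G p v w t := by
  have hq : (p, v) ∈ TS G := ⟨hp, hv⟩
  rw [At_apply', PT_PTi hq, ← JF_eq_J hp hv hw, PT_zero, fl_zero, sub_zero]
  change JF G (p, v) (0, G.P p w) t = _
  rw [(P_eq_self G hp).1 hw]

/-- `t • dExp_{t v} w = J(t)`. -/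
lemma smul_fderiv_Exp {p v w : Euc N} (hp : p ∈ S) (hv : v ∈ G.T p) (hw : w ∈ G.T p) (t : ℝ) :
    t • fderiv ℝ (Exp G p) (t • v) w = Crest.Agent.R241.D3b.J G p v w t := by
  have h1 : HasDerivAt (fun s : ℝ => Exp G p (t • (v + s • w)))
      (fderiv ℝ (Exp G p) (t • v) (t • w)) 0 := by
    have h3' : HasDerivAt (fun s : ℝ => v + s • w) w 0 := by
      simpa using ((hasDerivAt_id (0 : ℝ)).smul_const w).const_add v
    have h3 : HasDerivAt (fun s : ℝ => t • (v + s • w)) (t • w) 0 := h3'.const_smul t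
    have h4 : HasFDerivAt (Exp G p) (fderiv ℝ (Exp G p) (t • v)) (t • (v + (0 : ℝ) • w)) := by
      have := ((Crest.Agent.R241.D3c.contDiffAt_Exp' G hp ((G.T p).smul_mem t hv)).differentiableAt
        (by simp)).hasFDerivAt
      simpa using this
    exact h4.comp_hasDerivAt (0 : ℝ) h3
  have h5 := Crest.Agent.R241.D3b.hasDerivAt_s (q := ((0 : ℝ), t))
    ((Crest.Agent.R241.D3b.contDiff_al G hp hv hw).differentiable (by simp) ((0 : ℝ), t))
  have h6 : (fun s : ℝ => Exp G p (t • (v + s • w))) =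
      fun s : ℝ => Crest.Agent.R241.D3b.al G p v w (s, t) := by
    ext1 s
    rw [Exp_smul G hp ((G.T p).add_mem hv ((G.T p).smul_mem _ hw))]
    rfl
  rw [h6] at h1
  have h7 := h1.unique h5
  rw [map_smul] at h7
  exact h7

end Crest.Agent.R208.J
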