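import Crest.Agent.R208.FV1
import Crest.Agent.R208.I7
import Crest.Agent.R208.LB2

/-! Row 208, block F2 (helper349), part FV2: the manifold `FF G = {(p,q) | d(p,q) = π}` as the image
of the unit tangent bundle under `(p,v) ↦ (p, Exp_p (π v))`, link spaces `Vl G z`. -/

set_option autoImplicit false
set_option linter.unusedSectionVars false
set_option linter.unusedVariables false

open Set Filter Topology Module
open scoped ContDiff RealInnerProductSpace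
open Crest.GeometryTopology.Submanifold
open Crest.Agent.R241.DDefs
open Crest.Agent.R241.D2
open Crest.Agent.R241
open Crest.Agent.R208.F Crest.Agent.R208.FI
open Crest.Agent.R208.L (US)

noncomputable section

namespace Crest.Agent.R208.FV

variable {n N : ℕ} {κ : ℝ} {S : Set (Euc N)}

/-- `F = {(p,q) | d(p,q) = π}` -/
def FF (_G : Geo n N κ S) : Set (Euc N × Euc N) :=
  {z | z.1 ∈ S ∧ z.2 ∈ S ∧ intrinsicDist S z.1 z.2 = Real.pi}

/-- the link space `V_{pq}` -/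
def Vl (G : Geo n N κ S) (z : Euc N × Euc N) : Submodule ℝ (Euc N) :=
  Submodule.span ℝ {v | v ∈ G.T z.1 ∧ ‖v‖ = 1 ∧ Exp G z.1 (Real.pi • v) = z.2}

/-- `(p,v) ↦ (p, Exp_p (π v))` -/
def phi (G : Geo n N κ S) (q : Euc N × Euc N) : Euc N × Euc N := (q.1, Exp G q.1 (Real.pi • q.2))

variable {G : Geo n N κ S} {k : ℕ}

theorem Vl_spec (hT : I.Typ G k) {z : Euc N × Euc N} (hz : z ∈ FF G) :
    Vl G z ≤ G.T z.1 ∧ finrank ℝ (Vl G z) = k ∧
      (∀ v : Euc N, (v ∈ Vl G z ∧ ‖v‖ = 1) ↔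
        (v ∈ G.T z.1 ∧ ‖v‖ = 1 ∧ Exp G z.1 (Real.pi • v) = z.2)) ∧
      (∀ v ∈ Vl G z, ‖v‖ = 1 → ∀ b : Euc N,
        (b ∈ G.T z.1 ∧ fderiv ℝ (Exp G z.1) (Real.pi • v) b = 0) ↔ (b ∈ Vl G z ∧ ⟪v, b⟫ = 0)) := by
  obtain ⟨V, h1, h2, h3, h4⟩ := hT.link z.1 hz.1 z.2 hz.2.1 hz.2.2
  have hVl : Vl G z = V := by
    apply le_antisymm
    · rw [Vl, Submodule.span_le]
      intro v hv
      exact ((h3 v).2 hv).1
    · intro v hv
      by_cases hv0 : v = 0
      · rw [hv0]; exact Submodule.zero_mem _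
      · have hn : ‖v‖ ≠ 0 := norm_ne_zero_iff.2 hv0
        have h5 : ‖v‖⁻¹ • v ∈ Vl G z := by
          refine Submodule.subset_span ((h3 _).1 ⟨V.smul_mem _ hv, ?_⟩)
          rw [norm_smul, norm_inv, norm_norm, inv_mul_cancel₀ hn]
        have h6 := (Vl G z).smul_mem ‖v‖ h5
        rwa [smul_smul, mul_inv_cancel₀ hn, one_smul] at h6
  rw [hVl]
  exact ⟨h1, h2, h3, h4⟩

theorem Vl_le (hT : I.Typ G k) {z : Euc N × Euc N} (hz : z ∈ FF G) : Vl G z ≤ G.T z.1 :=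
  (Vl_spec hT hz).1

theorem finrank_Vl (hT : I.Typ G k) {z : Euc N × Euc N} (hz : z ∈ FF G) :
    finrank ℝ (Vl G z) = k := (Vl_spec hT hz).2.1

theorem mem_Vl (hT : I.Typ G k) {z : Euc N × Euc N} (hz : z ∈ FF G) {v : Euc N} :
    (v ∈ Vl G z ∧ ‖v‖ = 1) ↔ (v ∈ G.T z.1 ∧ ‖v‖ = 1 ∧ Exp G z.1 (Real.pi • v) = z.2) :=
  (Vl_spec hT hz).2.2.1 v

theorem ker_Vl (hT : I.Typ G k) {z : Euc N × Euc N} (hz : z ∈ FF G) {v : Euc N} (hv : v ∈ Vl G z)
    (hv1 : ‖v‖ = 1) {b : Euc N} :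
    (b ∈ G.T z.1 ∧ fderiv ℝ (Exp G z.1) (Real.pi • v) b = 0) ↔ (b ∈ Vl G z ∧ ⟪v, b⟫ = 0) :=
  (Vl_spec hT hz).2.2.2 v hv hv1 b

theorem FF_symm {z : Euc N × Euc N} (hz : z ∈ FF G) : z.swap ∈ FF G :=
  ⟨hz.2.1, hz.1, by rw [Prod.fst_swap, Prod.snd_swap, intrinsicDist_comm]; exact hz.2.2⟩


theorem phi_mem (hB : Bl n N κ S G Real.pi) {q : Euc N × Euc N} (hq : q ∈ US G) :
    phi G q ∈ FF G := by
  have h1 : Real.pi • q.2 ∈ G.T q.1 := (G.T q.1).smul_mem _ hq.1.2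
  have h2 : ‖Real.pi • q.2‖ = Real.pi := by
    rw [norm_smul, hq.2, mul_one, Real.norm_of_nonneg Real.pi_pos.le]
  refine ⟨hq.1.1, Exp_mem G hq.1.1 h1, ?_⟩
  change intrinsicDist S q.1 (Exp G q.1 (Real.pi • q.2)) = Real.pi
  rw [I.dist_Exp hB hq.1.1 h1 h2.le, h2]

theorem snd_mem_Vl (hB : Bl n N κ S G Real.pi) (hT : I.Typ G k) {q : Euc N × Euc N}
    (hq : q ∈ US G) : q.2 ∈ Vl G (phi G q) :=
  ((mem_Vl hT (phi_mem hB hq)).2 ⟨hq.1.2, hq.2, rfl⟩).1

theorem contDiffAt_phi {q : Euc N × Euc N} (hq : q ∈ TS G) : ContDiffAt ℝ ∞ (phi G) q := by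
  have h1 : ContDiffAt ℝ ∞ (fun q : Euc N × Euc N => Exp G q.1 q.2) (q.1, Real.pi • q.2) :=
    contDiffAt_Exp G hq.1 ((G.T q.1).smul_mem _ hq.2)
  have h2 : ContDiffAt ℝ ∞ (fun q : Euc N × Euc N => (q.1, Real.pi • q.2)) q := by fun_prop
  exact contDiffAt_fst.prodMk
    (ContDiffAt.comp (g := fun q : Euc N × Euc N => Exp G q.1 q.2) q h1 h2)

theorem fderiv_phi {q : Euc N × Euc N} (hq : q ∈ TS G) (ξ : Euc N × Euc N) :
    fderiv ℝ (phi G) q ξ =
      (ξ.1, fderiv ℝ (fun q : Euc N × Euc N => Exp G q.1 q.2) (q.1, Real.pi • q.2)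
        (ξ.1, Real.pi • ξ.2)) := by
  have h1 : HasFDerivAt (fun q : Euc N × Euc N => Exp G q.1 q.2)
      (fderiv ℝ (fun q : Euc N × Euc N => Exp G q.1 q.2) (q.1, Real.pi • q.2))
      (q.1, Real.pi • q.2) :=
    ((contDiffAt_Exp G hq.1 ((G.T q.1).smul_mem _ hq.2)).differentiableAt (by simp)).hasFDerivAt
  have h2 : HasFDerivAt (fun q : Euc N × Euc N => (q.1, Real.pi • q.2))
      ((ContinuousLinearMap.fst ℝ (Euc N) (Euc N)).prod
        (Real.pi • ContinuousLinearMap.snd ℝ (Euc N) (Euc N))) q :=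
    hasFDerivAt_fst.prodMk (hasFDerivAt_snd.const_smul Real.pi)
  have h3 := hasFDerivAt_fst.prodMk (h1.comp q h2)
  have h4 : HasFDerivAt (phi G) _ q := h3
  rw [h4.fderiv]
  rfl

/-- the fibre derivative from the full derivative -/
theorem fderiv_Exp_snd {p v : Euc N} (hp : p ∈ S) (hv : v ∈ G.T p) (w : Euc N) :
    fderiv ℝ (fun q : Euc N × Euc N => Exp G q.1 q.2) (p, v) (0, w) =
      fderiv ℝ (Exp G p) v w := by
  have h1 : HasFDerivAt (fun q : Euc N × Euc N => Exp G q.1 q.2)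
      (fderiv ℝ (fun q : Euc N × Euc N => Exp G q.1 q.2) (p, v)) (p, v) :=
    ((contDiffAt_Exp G hp hv).differentiableAt (by simp)).hasFDerivAt
  have h2 : HasFDerivAt (fun v : Euc N => (p, v)) (ContinuousLinearMap.inr ℝ (Euc N) (Euc N)) v :=
    (hasFDerivAt_const p v).prodMk (hasFDerivAt_id v)
  have h3 : HasFDerivAt (Exp G p) _ v := h1.comp v h2
  rw [h3.fderiv]
  rfl

theorem fderiv_phi_zero {q : Euc N × Euc N} (hq : q ∈ TS G) (b : Euc N) :
    fderiv ℝ (phi G) q (0, b) = (0, fderiv ℝ (Exp G q.1) (Real.pi • q.2) (Real.pi • b)) := by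
  rw [fderiv_phi hq]
  simp only
  rw [fderiv_Exp_snd hq.1 ((G.T q.1).smul_mem _ hq.2)]

theorem FF_eq_image (hB : Bl n N κ S G Real.pi) (hT : I.Typ G k) : FF G = phi G '' US G := by
  apply Subset.antisymm
  · intro z hz
    have h1 := finrank_Vl hT hz
    have h2 : Vl G z ≠ ⊥ := by
      intro h
      rw [h, finrank_bot] at h1
      have := hT.one_le
      omega
    obtain ⟨v, hv, hv0⟩ := (Submodule.ne_bot_iff _).1 h2
    have hn : ‖v‖ ≠ 0 := norm_ne_zero_iff.2 hv0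
    have h3 := (mem_Vl hT hz).1 ⟨(Vl G z).smul_mem ‖v‖⁻¹ hv, by
      rw [norm_smul, norm_inv, norm_norm, inv_mul_cancel₀ hn]⟩
    exact ⟨(z.1, ‖v‖⁻¹ • v), ⟨⟨hz.1, h3.1⟩, h3.2.1⟩, Prod.ext rfl h3.2.2⟩
  · rintro _ ⟨q, hq, rfl⟩
    exact phi_mem hB hq

theorem isCompact_FF (hB : Bl n N κ S G Real.pi) (hT : I.Typ G k) : IsCompact (FF G) := by
  rw [FF_eq_image hB hT]
  exact (LB.isCompact_US hB.cpt).image_of_continuousOn fun q hq =>
    (contDiffAt_phi hq.1).continuousAt.continuousWithinAt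

/-- tangent vectors are mapped to tangent vectors -/
theorem fderiv_mem_Tan_of_mapsTo {E E' : Type*} [NormedAddCommGroup E] [NormedSpace ℝ E]
    [NormedAddCommGroup E'] [NormedSpace ℝ E'] {X : Set E} {Y : Set E'} {g : E → E'}
    (hg : MapsTo g X Y) {x : E} (hd : DifferentiableAt ℝ g x) {v : E} (hv : v ∈ Tan X x) :
    fderiv ℝ g x v ∈ Tan Y (g x) := by
  have : Tan X x ≤ (Tan Y (g x)).comap (fderiv ℝ g x : E →ₗ[ℝ] E') := by
    rw [Tan, Submodule.span_le]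
    rintro v ⟨γ, rfl, hγ, hS⟩
    have h1 : HasDerivAt (fun t => g (γ t)) (fderiv ℝ g (γ 0) v) 0 :=
      hd.hasFDerivAt.comp_hasDerivAt 0 hγ
    exact Submodule.subset_span ⟨fun t => g (γ t), rfl, h1, by
      filter_upwards [hS] with t ht using hg ht⟩
  exact this hv

/-! ### slices -/

/-- `K₀ = V ⊖ v₀` -/
def K0 (G : Geo n N κ S) (q : Euc N × Euc N) : Submodule ℝ (Euc N) :=
  (ℝ ∙ q.2)ᗮ ⊓ Vl G (phi G q)

theorem finrank_K0 (hB : Bl n N κ S G Real.pi) (hT : I.Typ G k) {q : Euc N × Euc N}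
    (hq : q ∈ US G) : finrank ℝ (K0 G q) + 1 = k := by
  have h1 : (ℝ ∙ q.2) ≤ Vl G (phi G q) := by
    rw [Submodule.span_singleton_le_iff_mem]; exact snd_mem_Vl hB hT hq
  have h2 := Submodule.finrank_add_inf_finrank_orthogonal h1
  have h3 : finrank ℝ (ℝ ∙ q.2) = 1 := by
    refine finrank_span_singleton ?_
    rintro h
    have := hq.2
    rw [h, norm_zero] at this
    exact zero_ne_one this
  rw [h3, finrank_Vl hT (phi_mem hB hq)] at h2
  change finrank ℝ (K0 G q) + 1 = k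
  unfold K0
  omega

/-- the slice function `(p,v) ↦ P_{K₀} v` -/
def sl (G : Geo n N κ S) (q : Euc N × Euc N) : Euc N × Euc N →L[ℝ] K0 G q :=
  (K0 G q).orthogonalProjectionOnto ∘L ContinuousLinearMap.snd ℝ (Euc N) (Euc N)

theorem sl_eq_zero {q x : Euc N × Euc N} : sl G q x = 0 ↔ x.2 ∈ (K0 G q)ᗮ := by
  change (K0 G q).orthogonalProjectionOnto x.2 = 0 ↔ _
  exact Submodule.orthogonalProjectionOnto_eq_zero_iff

theorem sl_self {q : Euc N × Euc N} : sl G q q = 0 := by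
  rw [sl_eq_zero, Submodule.mem_orthogonal]
  intro u hu
  exact (Submodule.mem_orthogonal_singleton_iff_inner_left.1 hu.1)

/-- the slice through `q₀` -/
def Sl (G : Geo n N κ S) (q : Euc N × Euc N) : Set (Euc N × Euc N) :=
  {x ∈ US G | (sl G q) x = 0}

theorem hop (hB : Bl n N κ S G Real.pi) (hT : I.Typ G k) {q : Euc N × Euc N} (hq : q ∈ US G)
    (O' : Set (Euc N × Euc N)) (hO' : IsOpen O') (hqO : q ∈ O') :
    ∀ᶠ y in 𝓝[FF G] (phi G q), ∃ z ∈ Sl G q ∩ O', phi G z = y := by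
  set K : Set (Euc N × Euc N) := {x ∈ US G | sl G q x = 0 ∧ 0 ≤ ⟪x.2, q.2⟫} with hK
  have hKc : IsCompact K := by
    have h0 : IsClosed {x : Euc N × Euc N | sl G q x = 0} :=
      isClosed_eq (sl G q).continuous continuous_const
    have h1 : IsClosed {x : Euc N × Euc N | 0 ≤ ⟪x.2, q.2⟫} :=
      isClosed_le continuous_const (continuous_snd.inner continuous_const)
    exact (LB.isCompact_US hB.cpt).inter_right (h0.inter h1)
  have hKO : IsCompact (K \ O') := hKc.diff hO'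
  have himg : IsCompact (phi G '' (K \ O')) := hKO.image_of_continuousOn fun x hx =>
    (contDiffAt_phi hx.1.1.1).continuousAt.continuousWithinAt
  have hz0 := phi_mem hB hq
  have hnot : phi G q ∉ phi G '' (K \ O') := by
    rintro ⟨x, ⟨⟨hxU, hxs, hxp⟩, hxO⟩, hx⟩
    apply hxO
    have e1 : x.1 = q.1 := (congrArg Prod.fst hx : (phi G x).1 = (phi G q).1)
    have e2 : Exp G q.1 (Real.pi • x.2) = (phi G q).2 := by
      have := congrArg Prod.snd hx
      change Exp G x.1 (Real.pi • x.2) = _ at this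
      rwa [e1] at this
    have hxV : x.2 ∈ Vl G (phi G q) := by
      have h3 : x.2 ∈ G.T (phi G q).1 := by
        change x.2 ∈ G.T q.1
        rw [← e1]; exact hxU.1.2
      exact ((mem_Vl hT hz0).2 ⟨h3, hxU.2, e2⟩).1
    have hqV := snd_mem_Vl hB hT hq
    -- `x.2 - ⟪x.2, q.2⟫ q.2 ∈ K0`
    have h4 : x.2 - ⟪q.2, x.2⟫ • q.2 ∈ K0 G q := by
      refine ⟨?_, (Vl G (phi G q)).sub_mem hxV ((Vl G (phi G q)).smul_mem _ hqV)⟩
      change _ ∈ (ℝ ∙ q.2)ᗮ
      rw [Submodule.mem_orthogonal_singleton_iff_inner_right, inner_sub_right, inner_smul_right,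
        real_inner_self_eq_norm_sq, hq.2]
      ring
    have h5 := (Submodule.mem_orthogonal _ _).1 (sl_eq_zero.1 hxs) _ h4
    have h6 := (Submodule.mem_orthogonal _ _).1 (sl_eq_zero.1 (sl_self (G := G) (q := q))) _ h4
    have h7 : ⟪x.2 - ⟪q.2, x.2⟫ • q.2, x.2 - ⟪q.2, x.2⟫ • q.2⟫ = 0 := by
      rw [inner_sub_right, inner_smul_right, h5, h6]; ring
    have h8 : x.2 = ⟪q.2, x.2⟫ • q.2 := sub_eq_zero.1 (inner_self_eq_zero.1 h7)
    have h9 : |⟪q.2, x.2⟫| = 1 := by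
      have := hxU.2
      rw [h8, norm_smul, hq.2, mul_one, Real.norm_eq_abs] at this
      exact this
    have h10 : ⟪q.2, x.2⟫ = 1 := by
      rw [real_inner_comm] at hxp
      rwa [abs_of_nonneg hxp] at h9
    rw [h10, one_smul] at h8
    have : x = q := Prod.ext e1 h8
    rw [this]; exact hqO
  have hN : (phi G '' (K \ O'))ᶜ ∈ 𝓝 (phi G q) := himg.isClosed.isOpen_compl.mem_nhds hnot
  filter_upwards [nhdsWithin_le_nhds hN, self_mem_nhdsWithin] with y hy1 hy2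
  -- a unit vector of `V_y` orthogonal to `K0`
  have hdim : finrank ℝ (K0 G q) < finrank ℝ (Vl G y) := by
    have := finrank_K0 hB hT hq
    rw [finrank_Vl hT hy2]; omega
  obtain ⟨v, hvV, hvK, hv0⟩ : ∃ v ∈ Vl G y, v ∈ (K0 G q)ᗮ ∧ v ≠ 0 := by
    by_contra hcon
    push Not at hcon
    let A : Vl G y →ₗ[ℝ] K0 G q :=
      ((K0 G q).orthogonalProjectionOnto : Euc N →ₗ[ℝ] K0 G q).domRestrict (Vl G y)
    have hA : Function.Injective A := by
      rw [injective_iff_map_eq_zero]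
      rintro ⟨v, hv⟩ hv2
      have h3 : v ∈ (K0 G q)ᗮ := Submodule.orthogonalProjectionOnto_eq_zero_iff.1 hv2
      exact Subtype.ext (hcon v hv h3)
    have := LinearMap.finrank_le_finrank_of_injective hA
    omega
  have hn : ‖v‖ ≠ 0 := norm_ne_zero_iff.2 hv0
  obtain ⟨c, hc⟩ : ∃ c : ℝ, ‖c • v‖ = 1 ∧ 0 ≤ ⟪c • v, q.2⟫ := by
    rcases le_total 0 ⟪v, q.2⟫ with h | h
    · refine ⟨‖v‖⁻¹, ?_, ?_⟩
      · rw [norm_smul, norm_inv, norm_norm, inv_mul_cancel₀ hn]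
      · rw [real_inner_smul_left]; positivity
    · refine ⟨-‖v‖⁻¹, ?_, ?_⟩
      · rw [norm_smul, norm_neg, norm_inv, norm_norm, inv_mul_cancel₀ hn]
      · rw [real_inner_smul_left]
        have : 0 ≤ ‖v‖⁻¹ := by positivity
        nlinarith
  have h11 := (mem_Vl hT hy2).1 ⟨(Vl G y).smul_mem c hvV, hc.1⟩
  have h12 : (y.1, c • v) ∈ K :=
    ⟨⟨⟨hy2.1, h11.1⟩, h11.2.1⟩, sl_eq_zero.2 ((K0 G q)ᗮ.smul_mem c hvK), hc.2⟩
  have h13 : phi G (y.1, c • v) = y := Prod.ext rfl h11.2.2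
  have h14 : (y.1, c • v) ∈ O' := by
    by_contra h
    exact hy1 ⟨_, ⟨h12, h⟩, h13⟩
  exact ⟨(y.1, c • v), ⟨⟨h12.1, h12.2.1⟩, h14⟩, h13⟩

theorem hi (hB : Bl n N κ S G Real.pi) (hT : I.Typ G k) (hS : Sub n S) {q : Euc N × Euc N}
    (hq : q ∈ US G) (ξ : Euc N × Euc N) (hξ : ξ ∈ Tan (Sl G q) q)
    (h0 : fderiv ℝ (phi G) q ξ = 0) : ξ = 0 := by
  have h1 : ξ ∈ Tan (US G) q ⊓ LinearMap.ker (fderiv ℝ (sl G q) q : Euc N × Euc N →ₗ[ℝ] K0 G q) :=
    Tan_le_ker (X := US G) (g := sl G q) (sl G q).differentiableAt hξ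
  obtain ⟨h2, h3⟩ := h1
  rw [(sl G q).fderiv] at h3
  have h3' : sl G q ξ = 0 := h3
  rw [sl_eq_zero] at h3'
  replace h2 : ξ ∈ Tan (US G) q := h2
  rw [LB.mem_Tan_US hS hq] at h2
  have h4 : ξ.1 = 0 := by
    have := congrArg Prod.fst h0
    rwa [fderiv_phi hq.1] at this
  obtain ⟨ξ1, ξ2⟩ := ξ
  simp only at h4 h2 h3'
  subst h4
  have h5 : ξ2 ∈ G.T q.1 := by
    rw [P_eq_self G hq.1.1]
    have := h2.2.1
    simp only [map_zero, zero_apply] at this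
    exact (sub_eq_zero.1 this).symm
  have h6 : fderiv ℝ (Exp G q.1) (Real.pi • q.2) ξ2 = 0 := by
    have := congrArg Prod.snd h0
    rw [fderiv_phi_zero hq.1, map_smul] at this
    simpa [Real.pi_ne_zero] using this
  have h7 := (ker_Vl hT (phi_mem hB hq) (snd_mem_Vl hB hT hq) hq.2).1 ⟨h5, h6⟩
  have h8 : ξ2 ∈ K0 G q :=
    ⟨Submodule.mem_orthogonal_singleton_iff_inner_right.2 h7.2, h7.1⟩
  have h9 := (Submodule.mem_orthogonal _ _).1 h3' _ h8
  have h10 : ξ2 = 0 := inner_self_eq_zero.1 h9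
  rw [h10]; rfl

theorem loc_slice (hB : Bl n N κ S G Real.pi) (hT : I.Typ G k) (hS : Sub n S)
    {d : ℕ} (hd : d + k = 2 * n) {q : Euc N × Euc N} (hq : q ∈ US G) :
    ∃ (f : Eu d → Euc N × Euc N) (W : Set (Eu d)) (O : Set (Euc N × Euc N))
      (ℓ : Euc N × Euc N → Eu d), Loc (Sl G q) f W O ℓ ∧ q ∈ O := by
  have hn := hB.hn
  have hd1 : (2 * n - 1) + 1 = 2 * n := by omega
  obtain ⟨f, W, O, ℓ, h1, h2⟩ := (LB.sub_US (G := G) hS hd1).exists_loc hq
  have h3 := h1.level (g := sl G q) (fun x _ => (sl G q).contDiff.contDiffAt) hq h2 sl_self ?_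
  · have h4 : 2 * n - 1 - finrank ℝ (K0 G q) = d := by
      have := finrank_K0 hB hT hq
      omega
    rw [h4] at h3
    exact h3
  · intro y
    refine ⟨(0, (y : Euc N)), ?_, ?_⟩
    · rw [LB.mem_Tan_US hS hq]
      have hyT : (y : Euc N) ∈ G.T q.1 := Vl_le hT (phi_mem hB hq) y.2.2
      refine ⟨(G.T q.1).zero_mem, ?_, Submodule.mem_orthogonal_singleton_iff_inner_right.1 y.2.1⟩
      simp only [map_zero, zero_apply]
      rw [(P_eq_self G hq.1.1).1 hyT, sub_self]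
    · rw [(sl G q).fderiv]
      change (K0 G q).orthogonalProjectionOnto (y : Euc N) = y
      exact Submodule.orthogonalProjectionOnto_mem_subspace_eq_self y

/-- **`F` is a closed manifold of dimension `2n - k`.** -/
theorem sub_FF (hB : Bl n N κ S G Real.pi) (hT : I.Typ G k) (hS : Sub n S)
    {d : ℕ} (hd : d + k = 2 * n) : Sub d (FF G) := by
  refine Sub.of_loc' fun z hz => ?_
  have hz' := hz
  rw [FF_eq_image hB hT] at hz'
  obtain ⟨q, hq, rfl⟩ := hz'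
  obtain ⟨f, W, O, ℓ, h1, h2⟩ := loc_slice hB hT hS hd hq
  obtain ⟨U', O', ℓ', h3, h4, -, -⟩ := Loc.image h1 (g := phi G) (Y := FF G)
    (fun x hx => contDiffAt_phi hx.1.1) (x := q) ⟨hq, sl_self⟩ h2
    (fun v hv h0 => hi hB hT hS hq v hv h0) (fun x hx => phi_mem hB hx.1)
    (fun O' hO' hqO => hop hB hT hq O' hO' hqO)
  exact ⟨_, _, _, _, h3, h4⟩

theorem clo_FF (hB : Bl n N κ S G Real.pi) (hT : I.Typ G k) (hS : Sub n S)
    {d : ℕ} (hd : d + k = 2 * n) : Clo d (FF G) :=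
  (sub_FF hB hT hS hd).clo (isCompact_FF hB hT)

/-- **Smooth local sections of `US → F` through every point.** -/
theorem exists_sec (hB : Bl n N κ S G Real.pi) (hT : I.Typ G k) (hS : Sub n S)
    {q : Euc N × Euc N} (hq : q ∈ US G) :
    ∃ (σ : Euc N × Euc N → Euc N × Euc N) (O' : Set (Euc N × Euc N)), IsOpen O' ∧ phi G q ∈ O' ∧
      ContDiffOn ℝ ∞ σ O' ∧ σ (phi G q) = q ∧ (∀ y ∈ O', σ y ∈ US G) ∧
      (∀ y ∈ FF G ∩ O', phi G (σ y) = y) := by
  obtain ⟨d, hd⟩ : ∃ d, d + k = 2 * n := ⟨2 * n - k, by have := hT.le; omega⟩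
  obtain ⟨f, W, O, ℓ, h1, h2⟩ := loc_slice hB hT hS hd hq
  obtain ⟨σ, O', a1, a2, a3, a4, a5, a6, -⟩ := exists_section h1 (g := phi G) (Y := FF G)
    (fun x hx => contDiffAt_phi hx.1.1) (x := q) ⟨hq, sl_self⟩ h2
    (fun v hv h0 => hi hB hT hS hq v hv h0) (fun x hx => phi_mem hB hx.1)
    (fun O' hO' hqO => hop hB hT hq O' hO' hqO)
  exact ⟨σ, O', a1, a2, a3, a4, fun y hy => (a5 y hy).1, a6⟩

/-- **The tangent space of `F`** is the image of the tangent space of the unit tangent bundle. -/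
theorem Tan_FF (hB : Bl n N κ S G Real.pi) (hT : I.Typ G k) (hS : Sub n S)
    {q : Euc N × Euc N} (hq : q ∈ US G) :
    Tan (FF G) (phi G q) = (Tan (US G) q).map (fderiv ℝ (phi G) q : _ →ₗ[ℝ] Euc N × Euc N) := by
  have hdq : DifferentiableAt ℝ (phi G) q := (contDiffAt_phi hq.1).differentiableAt (by simp)
  apply le_antisymm
  · obtain ⟨σ, O', a1, a2, a3, a4, a5, a6⟩ := exists_sec hB hT hS hq
    rw [Tan, Submodule.span_le]
    rintro v ⟨γ, hγ0, hγ, hγS⟩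
    have hσd : HasFDerivAt σ (fderiv ℝ σ (phi G q)) (γ 0) := by
      rw [hγ0]
      exact ((a3.contDiffAt (a1.mem_nhds a2)).differentiableAt (by simp)).hasFDerivAt
    have h1 : HasDerivAt (fun t => σ (γ t)) (fderiv ℝ σ (phi G q) v) 0 :=
      hσd.comp_hasDerivAt 0 hγ
    have hO : ∀ᶠ t in 𝓝 (0 : ℝ), γ t ∈ O' := by
      have : Tendsto γ (𝓝 0) (𝓝 (phi G q)) := by rw [← hγ0]; exact hγ.continuousAt
      exact this.eventually (a1.mem_nhds a2)
    have h2 : fderiv ℝ σ (phi G q) v ∈ Tan (US G) q := by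
      have := mem_Tan_of_curve (X := US G) h1 (by filter_upwards [hO] with t ht using a5 _ ht)
      rw [hγ0, a4] at this
      exact this
    refine ⟨_, h2, ?_⟩
    have h3 : HasFDerivAt (phi G) (fderiv ℝ (phi G) q) (σ (γ 0)) := by
      rw [hγ0, a4]; exact hdq.hasFDerivAt
    have h4 : HasDerivAt (fun t => phi G (σ (γ t)))
        (fderiv ℝ (phi G) q (fderiv ℝ σ (phi G q) v)) 0 :=
      HasFDerivAt.comp_hasDerivAt (l := phi G) (f := fun t => σ (γ t)) (0 : ℝ) h3 h1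
    have h5 : γ =ᶠ[𝓝 0] fun t => phi G (σ (γ t)) := by
      filter_upwards [hO, hγS] with t ht htS using (a6 _ ⟨htS, ht⟩).symm
    exact (h4.congr_of_eventuallyEq h5).unique hγ
  · rintro _ ⟨ξ, hξ, rfl⟩
    exact fderiv_mem_Tan_of_mapsTo (fun x hx => phi_mem hB hx) hdq hξ

/-! ### the projection field onto the link spaces -/

/-- a positive operator with kernel `V_{phi q}` -/
def Cop (G : Geo n N κ S) (q : Euc N × Euc N) : Euc N →L[ℝ] Euc N :=
  (ContinuousLinearMap.adjoint (1 - G.P q.1)) ∘L (1 - G.P q.1) +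
  (ContinuousLinearMap.adjoint
    (fderiv ℝ (Exp G q.1) (Real.pi • q.2) ∘L
      (1 - (innerSL ℝ q.2).smulRight q.2))) ∘L
    (fderiv ℝ (Exp G q.1) (Real.pi • q.2) ∘L (1 - (innerSL ℝ q.2).smulRight q.2))

theorem contDiffAt_Cop {q : Euc N × Euc N} (hq : q ∈ TS G) : ContDiffAt ℝ ∞ (Cop G) q := by
  have h1 : ContDiffAt ℝ ∞ (fun q : Euc N × Euc N => (1 - G.P q.1 : Euc N →L[ℝ] Euc N)) q :=
    contDiffAt_const.sub (G.contDiff_P.contDiffAt.comp q contDiffAt_fst)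
  have h2 : ContDiffAt ℝ ∞ (fun q : Euc N × Euc N => fderiv ℝ (Exp G q.1) (Real.pi • q.2)) q := by
    have h3 : ContDiffAt ℝ ∞ (fun q : Euc N × Euc N => (q.1, Real.pi • q.2)) q := by fun_prop
    have h4 := I.contDiffAt_fderiv_Exp (G := G) (q := (q.1, Real.pi • q.2))
      ⟨hq.1, (G.T q.1).smul_mem _ hq.2⟩
    exact ContDiffAt.comp q h4 h3
  have h5 : ContDiffAt ℝ ∞ (fun q : Euc N × Euc N =>
      (1 - (innerSL ℝ q.2).smulRight q.2 : Euc N →L[ℝ] Euc N)) q := by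
    refine contDiffAt_const.sub ?_
    refine ContDiff.contDiffAt ?_
    rw [contDiff_clm_apply_iff]
    intro y
    change ContDiff ℝ ∞ (fun q : Euc N × Euc N => ⟪q.2, y⟫ • q.2)
    exact (contDiff_snd.inner ℝ contDiff_const).smul contDiff_snd
  have h6 := h2.clm_comp h5
  exact (((IB.adjL (Euc N) (Euc N)).contDiff.contDiffAt.comp q h1).clm_comp h1).add
    (((IB.adjL (Euc N) (Euc N)).contDiff.contDiffAt.comp q h6).clm_comp h6)

theorem ker_Cop (hB : Bl n N κ S G Real.pi) (hT : I.Typ G k) {q : Euc N × Euc N} (hq : q ∈ US G) :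
    LinearMap.ker (Cop G q : Euc N →ₗ[ℝ] Euc N) = Vl G (phi G q) := by
  have hz := phi_mem hB hq
  have hqV := snd_mem_Vl hB hT hq
  set A : Euc N →L[ℝ] Euc N :=
    fderiv ℝ (Exp G q.1) (Real.pi • q.2) ∘L (1 - (innerSL ℝ q.2).smulRight q.2) with hA
  have hAap : ∀ b, A b = fderiv ℝ (Exp G q.1) (Real.pi • q.2) (b - ⟪q.2, b⟫ • q.2) := fun b => rfl
  have hNap : ∀ b, (1 - G.P q.1 : Euc N →L[ℝ] Euc N) b = b - G.P q.1 b := fun b => rfl
  have key : ∀ b, Cop G q b = 0 ↔ (b - G.P q.1 b = 0 ∧ A b = 0) := by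
    intro b
    constructor
    · intro h
      have h1 : ⟪Cop G q b, b⟫ = ‖(1 - G.P q.1 : Euc N →L[ℝ] Euc N) b‖ ^ 2 + ‖A b‖ ^ 2 := by
        change ⟪(ContinuousLinearMap.adjoint (1 - G.P q.1 : Euc N →L[ℝ] Euc N))
          ((1 - G.P q.1 : Euc N →L[ℝ] Euc N) b) +
          (ContinuousLinearMap.adjoint A) (A b), b⟫ = _
        rw [inner_add_left, ContinuousLinearMap.adjoint_inner_left,
          ContinuousLinearMap.adjoint_inner_left, real_inner_self_eq_norm_sq,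
          real_inner_self_eq_norm_sq]
      rw [h, inner_zero_left] at h1
      have p1 := sq_nonneg (‖A b‖)
      have p2 := sq_nonneg (‖(1 - G.P q.1 : Euc N →L[ℝ] Euc N) b‖)
      have h2 : ‖(1 - G.P q.1 : Euc N →L[ℝ] Euc N) b‖ ^ 2 = 0 := by linarith
      have h3 : ‖A b‖ ^ 2 = 0 := by linarith
      exact ⟨by rw [← hNap]; simpa using h2, by simpa using h3⟩
    · rintro ⟨h1, h2⟩
      change (ContinuousLinearMap.adjoint (1 - G.P q.1 : Euc N →L[ℝ] Euc N))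
          ((1 - G.P q.1 : Euc N →L[ℝ] Euc N) b) +
          (ContinuousLinearMap.adjoint A) (A b) = 0
      rw [hNap, h1, h2, map_zero, map_zero, add_zero]
  ext b
  rw [LinearMap.mem_ker]
  change Cop G q b = 0 ↔ _
  rw [key]
  have hsub : ∀ b, b ∈ G.T q.1 → b - ⟪q.2, b⟫ • q.2 ∈ G.T q.1 := fun b hb =>
    (G.T q.1).sub_mem hb ((G.T q.1).smul_mem _ hq.1.2)
  have hperp : ∀ b, ⟪q.2, b - ⟪q.2, b⟫ • q.2⟫ = 0 := by
    intro b
    rw [inner_sub_right, inner_smul_right, real_inner_self_eq_norm_sq, hq.2]; ring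
  constructor
  · rintro ⟨h1, h2⟩
    have hb : b ∈ G.T q.1 := (P_eq_self G hq.1.1).2 (sub_eq_zero.1 h1).symm
    rw [hAap] at h2
    have h3 := (ker_Vl hT hz hqV hq.2).1 ⟨hsub b hb, h2⟩
    have h4 := (Vl G (phi G q)).add_mem h3.1 ((Vl G (phi G q)).smul_mem ⟪q.2, b⟫ hqV)
    rwa [sub_add_cancel] at h4
  · intro hb
    have hbT : b ∈ G.T q.1 := Vl_le hT hz hb
    refine ⟨by rw [(P_eq_self G hq.1.1).1 hbT, sub_self], ?_⟩
    rw [hAap]
    exact ((ker_Vl hT hz hqV hq.2).2 ⟨(Vl G (phi G q)).sub_mem hb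
      ((Vl G (phi G q)).smul_mem _ hqV), hperp b⟩).2

theorem exists_PV (hB : Bl n N κ S G Real.pi) (hT : I.Typ G k) (hS : Sub n S) :
    ∃ P : Euc N × Euc N → (Euc N →L[ℝ] Euc N), ContDiff ℝ ∞ P ∧
      ∀ z ∈ FF G, P z = (Vl G z).starProjection := by
  obtain ⟨d, hd⟩ : ∃ d, d + k = 2 * n := ⟨2 * n - k, by have := hT.le; omega⟩
  refine exists_glue (sub_FF hB hT hS hd) (isCompact_FF hB hT).isClosed ?_
  intro z hz
  have hz' := hz
  rw [FF_eq_image hB hT] at hz'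
  obtain ⟨q, hq, rfl⟩ := hz'
  obtain ⟨σ, O', a1, a2, a3, a4, a5, a6⟩ := exists_sec hB hT hS hq
  obtain ⟨Q, hQ, hQev⟩ := exists_kerproj (Cop G) q (contDiffAt_Cop hq.1)
  have hσ : ContDiffAt ℝ ∞ σ (phi G q) := a3.contDiffAt (a1.mem_nhds a2)
  refine ⟨fun y => Q (σ y), ?_, ?_⟩
  · have : ContDiffAt ℝ ∞ Q (σ (phi G q)) := by rw [a4]; exact hQ
    exact this.comp _ hσ
  · have h1 : Tendsto σ (𝓝 (phi G q)) (𝓝 q) := by
      have := hσ.continuousAt.tendsto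
      rwa [a4] at this
    filter_upwards [nhdsWithin_le_nhds (h1.eventually hQev),
      nhdsWithin_le_nhds (a1.mem_nhds a2), self_mem_nhdsWithin] with y hy1 hyO hyF
    have h2 := a5 y hyO
    have h3 := a6 y ⟨hyF, hyO⟩
    have h4 := hy1 (by
      rw [ker_Cop hB hT h2, ker_Cop hB hT hq, finrank_Vl hT (phi_mem hB h2),
        finrank_Vl hT (phi_mem hB hq)])
    change Q (σ y) = _
    rw [← h4]
    have h5 : LinearMap.ker (Cop G (σ y) : Euc N →ₗ[ℝ] Euc N) = Vl G y := by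
      rw [ker_Cop hB hT h2, h3]
    congr 1

/-- the globally smooth field `PV`, on `F` the orthogonal projection onto the link space. -/
def PV (hB : Bl n N κ S G Real.pi) (hT : I.Typ G k) (hS : Sub n S) :
    Euc N × Euc N → (Euc N →L[ℝ] Euc N) := Classical.choose (exists_PV hB hT hS)

theorem contDiff_PV (hB : Bl n N κ S G Real.pi) (hT : I.Typ G k) (hS : Sub n S) :
    ContDiff ℝ ∞ (PV hB hT hS) := (Classical.choose_spec (exists_PV hB hT hS)).1

theorem PV_eq (hB : Bl n N κ S G Real.pi) (hT : I.Typ G k) (hS : Sub n S) {z : Euc N × Euc N}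
    (hz : z ∈ FF G) : PV hB hT hS z = (Vl G z).starProjection :=
  (Classical.choose_spec (exists_PV hB hT hS)).2 z hz

theorem range_PV (hB : Bl n N κ S G Real.pi) (hT : I.Typ G k) (hS : Sub n S)
    {z : Euc N × Euc N} (hz : z ∈ FF G) :
    LinearMap.range (PV hB hT hS z : Euc N →ₗ[ℝ] Euc N) = Vl G z := by
  rw [PV_eq hB hT hS hz]
  exact Submodule.range_starProjection _

theorem PV_eq_self (hB : Bl n N κ S G Real.pi) (hT : I.Typ G k) (hS : Sub n S)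
    {z : Euc N × Euc N} (hz : z ∈ FF G) {v : Euc N} : PV hB hT hS z v = v ↔ v ∈ Vl G z := by
  rw [PV_eq hB hT hS hz]
  exact Submodule.starProjection_eq_self_iff

theorem pfield_PV (hB : Bl n N κ S G Real.pi) (hT : I.Typ G k) (hS : Sub n S) :
    PField (FF G) k (PV hB hT hS) where
  smooth := fun z _ => (contDiff_PV hB hT hS).contDiffAt
  idem := fun z hz v => by
    rw [PV_eq_self hB hT hS hz, PV_eq hB hT hS hz]
    exact Submodule.starProjection_apply_mem _ _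
  rank := fun z hz => by rw [range_PV hB hT hS hz, finrank_Vl hT hz]

end Crest.Agent.R208.FV
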