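import Crest.Agent.R208.GP3
import Crest.Agent.R208.GP3a
import Crest.Agent.R208.GT2
import Crest.Agent.R208.FV2
import Crest.Agent.R208.TDefs

-- ▼ part R208/GP3b
section

/-! Row 208, block GP (helper198), part GP3b: fields of lines over the unit tangent bundle and over
`F = {d = π}` have smooth unit sections (`k ≥ 2`, `n ≥ 3`); the link bundle `V` is orientable. -/

set_option autoImplicit false
set_option linter.unusedSectionVars false

open MeasureTheory Measure Set Filter Topology Module Metric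
open scoped ContDiff RealInnerProductSpace
open Crest.GeometryTopology.Submanifold
open Crest.Agent.R241.DDefs
open Crest.Agent.R241.D2
open Crest.Agent.R208.F Crest.Agent.R208.FI

noncomputable section

namespace Crest.Agent.R208.GP

section inv
variable {V F E : Type*} [NormedAddCommGroup V] [NormedSpace ℝ V]
  [NormedAddCommGroup F] [InnerProductSpace ℝ F] [FiniteDimensional ℝ F]
  [NormedAddCommGroup E] [InnerProductSpace ℝ E] [FiniteDimensional ℝ E]

theorem isUnit_of_injective {B : F →L[ℝ] F} (hB : Function.Injective B) : IsUnit B := by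
  have h1 : LinearMap.ker (B : F →ₗ[ℝ] F) = ⊥ := LinearMap.ker_eq_bot.2 hB
  let e : F ≃ₗ[ℝ] F := LinearEquiv.ofInjectiveEndo (B : F →ₗ[ℝ] F) hB
  let e' : F ≃L[ℝ] F := e.toContinuousLinearEquiv
  have h2 : B = (ContinuousLinearEquiv.toUnit e' : F →L[ℝ] F) := by
    ext x; rfl
  rw [h2]
  exact Units.isUnit _

/-- left inverse of an injective operator -/
def linv (B : F →L[ℝ] E) : E →L[ℝ] F := (Ring.inverse (B.adjoint.comp B)).comp B.adjoint

theorem isUnit_gram {B : F →L[ℝ] E} (hB : Function.Injective B) :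
    IsUnit (B.adjoint.comp B) := by
  apply isUnit_of_injective
  intro x y hxy
  have h1 : (B.adjoint.comp B) (x - y) = 0 := by rw [map_sub, hxy, sub_self]
  have h2 : (⟪B (x - y), B (x - y)⟫ : ℝ) = 0 := by
    rw [← ContinuousLinearMap.adjoint_inner_left]
    have h3 : B.adjoint (B (x - y)) = 0 := h1
    rw [h3, inner_zero_left]
  have h3 : B (x - y) = 0 := inner_self_eq_zero.1 h2
  exact sub_eq_zero.1 (hB (by rw [h3, map_zero]))

theorem linv_apply {B : F →L[ℝ] E} (hB : Function.Injective B) (x : F) : linv B (B x) = x := by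
  have h1 : Ring.inverse (B.adjoint.comp B) * (B.adjoint.comp B) = 1 :=
    Ring.inverse_mul_cancel _ (isUnit_gram hB)
  have h2 := congrArg (fun T : F →L[ℝ] F => T x) h1
  exact h2

theorem continuousOn_linv {A : Set V} {B : V → (F →L[ℝ] E)} (hB : ContinuousOn B A)
    (hi : ∀ x ∈ A, Function.Injective (B x)) : ContinuousOn (fun x => linv (B x)) A := by
  have h1 : ContinuousOn (fun x => (B x).adjoint) A :=
    (ContinuousLinearMap.adjoint (𝕜 := ℝ) (E := F) (F := E)).continuous.comp_continuousOn hB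
  have h2 : ContinuousOn (fun x => (B x).adjoint.comp (B x)) A := h1.clm_comp hB
  have h3 : ContinuousOn (fun x => Ring.inverse ((B x).adjoint.comp (B x))) A := by
    intro x hx
    have h4 := NormedRing.inverse_continuousAt (isUnit_gram (hi x hx)).unit
    rw [IsUnit.unit_spec] at h4
    exact ContinuousAt.comp_continuousWithinAt (f := fun x => (B x).adjoint.comp (B x))
      (g := Ring.inverse) h4 (h2 x hx)
  exact h3.clm_comp h1

end inv

variable {n N k : ℕ} {κ : ℝ} {S : Set (Euc N)} {G : Geo n N κ S}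
variable {W : Type*} [NormedAddCommGroup W] [InnerProductSpace ℝ W]

/-- **lifting over the unit tangent bundle** -/
theorem lift_US (hB : Bl n N κ S G Real.pi) (hT : I.Typ G k) (hk : 2 ≤ k) (hn : 3 ≤ n)
    {P : Euc N × Euc N → (W →L[ℝ] W)} (hP : ContinuousOn P (L.US G))
    (hR : ∀ x ∈ L.US G, R1 (P x)) :
    ∃ w : Euc N × Euc N → W, ContinuousOn w (L.US G) ∧
      ∀ x ∈ L.US G, ‖w x‖ = 1 ∧ P x (w x) = w x := by
  classical
  obtain ⟨p, hp⟩ := hB.conn.nonempty
  obtain ⟨b, hb⟩ := exists_frame G hp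
  set f : Euc n → Euc N := fun v => Exp G p (b v) with hf
  have hfS : ∀ v, f v ∈ S := fun v => Exp_mem G hp (frame_mem hb v)
  have hfc : Continuous f := (contDiff_Exp_frame G hp hb).continuous
  set A := closedBall (0 : Euc n) Real.pi with hA
  have hAc : IsCompact A := isCompact_closedBall _ _
  have hA0 : (0 : Euc n) ∈ A := mem_closedBall_self Real.pi_pos.le
  have hst : ∀ x ∈ A, ∀ t ∈ Icc (0 : ℝ) 1, t • x ∈ A := by
    intro x hx t ht
    rw [hA, mem_closedBall_zero_iff] at hx ⊢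
    rw [norm_smul, Real.norm_eq_abs, abs_of_nonneg ht.1]
    calc t * ‖x‖ ≤ 1 * ‖x‖ := mul_le_mul_of_nonneg_right ht.2 (norm_nonneg _)
      _ ≤ Real.pi := by rw [one_mul]; exact hx
  have hf0 : f 0 = p := by
    show Exp G p (b 0) = p
    rw [map_zero, Exp_zero G hp]
  obtain ⟨B, hBc, hBi⟩ := star_frame (A := A) (P := fun v => G.P (f v)) (F := Euc n)
    (B₀ := b.toContinuousLinearMap) hAc hA0 hst
    ((G.contDiff_P.continuous.comp hfc).continuousOn) (fun v _ x => P_idem G (hfS v) x)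
    b.injective (fun v => by
      rw [hf0]
      exact (P_eq_self G hp).1 (frame_mem hb v))
  have hBT : ∀ v ∈ A, ∀ x, B v x ∈ G.T (f v) := fun v hv x =>
    (P_eq_self G (hfS v)).2 ((hBi v hv).2 x)
  have hBrange : ∀ v ∈ A, ∀ u ∈ G.T (f v), ∃ x, B v x = u := by
    intro v hv u hu
    have h1 : LinearMap.range (B v : Euc n →ₗ[ℝ] Euc N) = G.T (f v) := by
      apply Submodule.eq_of_le_of_finrank_eq
      · rintro _ ⟨x, rfl⟩; exact hBT v hv x
      · rw [LinearMap.finrank_range_of_inj (hBi v hv).1, G.finrank_T _ (hfS v)]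
        simp
    rw [← h1] at hu
    exact hu
  have hBne : ∀ v ∈ A, ∀ x, x ≠ 0 → B v x ≠ 0 := fun v hv x hx h =>
    hx ((hBi v hv).1 (by rw [h, map_zero]))
  -- the parametrisation of the unit tangent bundle
  set g : Euc n × Euc n → Euc N × Euc N := fun z => (f z.1, (‖B z.1 z.2‖)⁻¹ • B z.1 z.2) with hg
  have hBc2 : ContinuousOn (fun z : Euc n × Euc n => B z.1 z.2) (A ×ˢ sphere (0 : Euc n) 1) :=
    (hBc.comp continuousOn_fst fun z hz => hz.1).clm_apply continuousOn_snd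
  have hsne : ∀ x ∈ sphere (0 : Euc n) 1, x ≠ 0 := by
    intro x hx h
    rw [mem_sphere_zero_iff_norm, h, norm_zero] at hx
    norm_num at hx
  have hgc : ContinuousOn g (A ×ˢ sphere (0 : Euc n) 1) := by
    have h1 : ContinuousOn (fun z : Euc n × Euc n => (‖B z.1 z.2‖)⁻¹) (A ×ˢ sphere (0 : Euc n) 1) :=
      hBc2.norm.inv₀ fun z hz => norm_ne_zero_iff.2 (hBne _ hz.1 _ (hsne _ hz.2))
    exact (hfc.comp_continuousOn continuousOn_fst).prodMk (h1.smul hBc2)
  have hgm : ∀ z ∈ A ×ˢ sphere (0 : Euc n) 1, g z ∈ L.US G := by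
    rintro ⟨v, x⟩ ⟨hv, hx⟩
    refine ⟨⟨hfS v, (G.T _).smul_mem _ (hBT v hv x)⟩, ?_⟩
    show ‖(‖B v x‖)⁻¹ • B v x‖ = 1
    rw [norm_smul, norm_inv, norm_norm,
      inv_mul_cancel₀ (norm_ne_zero_iff.2 (hBne _ hv _ (hsne _ hx)))]
  have himg : g '' (A ×ˢ sphere (0 : Euc n) 1) = L.US G := by
    refine Subset.antisymm (image_subset_iff.2 hgm) ?_
    rintro ⟨q, u⟩ ⟨⟨hq, hu⟩, hu1⟩
    have hu1' : ‖u‖ = 1 := hu1
    have hq' : q ∈ S := hq
    rw [← image_closedBall hB hp hb] at hq'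
    obtain ⟨v, hv, hvq⟩ := hq'
    have hvq' : f v = q := hvq
    obtain ⟨x, hx⟩ := hBrange v hv u (by rw [hvq']; exact hu)
    have hx0 : x ≠ 0 := by
      intro h
      rw [h, map_zero] at hx
      rw [← hx, norm_zero] at hu1'
      norm_num at hu1'
    have hxn : 0 < ‖x‖ := norm_pos_iff.2 hx0
    refine ⟨(v, ‖x‖⁻¹ • x), ⟨hv, ?_⟩, ?_⟩
    · rw [mem_sphere_zero_iff_norm, norm_smul, norm_inv, norm_norm, inv_mul_cancel₀ hxn.ne']
    · rw [hg]
      simp only
      rw [hvq', map_smul, hx, norm_smul, norm_inv, norm_norm, hu1', mul_one, _root_.inv_inv, smul_smul,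
        mul_inv_cancel₀ hxn.ne', one_smul]
  obtain ⟨w, hw, hw1⟩ := lift_prod_sphere (F := Euc n) (P := fun z => P (g z)) hAc hA0 hst
    (by simpa using hn) (hP.comp hgc hgm) (fun z hz => hR _ (hgm z hz))
  obtain ⟨w', h1, h2, -⟩ := descend (hAc.prod (isCompact_sphere _ _)) hgc himg (by
    rintro ⟨q, u⟩ ⟨⟨hq, hu⟩, hu1⟩
    have hu1' : ‖u‖ = 1 := hu1
    have hpre := fibre_preconn hB hT hk hp hb hq
    have hfib : A ∩ f ⁻¹' {q} = closedBall (0 : Euc n) Real.pi ∩
        (fun v => Exp G p (b v)) ⁻¹' {q} := rfl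
    rw [← hfib] at hpre
    set c : Euc n → Euc n × Euc n := fun v => (v, (‖linv (B v) u‖)⁻¹ • linv (B v) u) with hc
    have hl : ContinuousOn (fun v => linv (B v)) A := continuousOn_linv hBc fun x hx => (hBi x hx).1
    have hlu : ContinuousOn (fun v => linv (B v) u) (A ∩ f ⁻¹' {q}) :=
      (hl.mono inter_subset_left).clm_apply continuousOn_const
    have hlne : ∀ v ∈ A ∩ f ⁻¹' {q}, linv (B v) u ≠ 0 ∧ B v (linv (B v) u) = u := by
      rintro v ⟨hv, hvq⟩
      have hvq' : f v = q := hvq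
      obtain ⟨x, hx⟩ := hBrange v hv u (by rw [hvq']; exact hu)
      have h3 : linv (B v) u = x := by rw [← hx, linv_apply (hBi v hv).1]
      refine ⟨fun h => ?_, by rw [h3, hx]⟩
      rw [h3] at h
      rw [h, map_zero] at hx
      rw [← hx, norm_zero] at hu1'
      norm_num at hu1'
    have hcc : ContinuousOn c (A ∩ f ⁻¹' {q}) :=
      continuousOn_id.prodMk ((hlu.norm.inv₀ fun v hv => norm_ne_zero_iff.2 (hlne v hv).1).smul hlu)
    have h3 := hpre.image c hcc
    have h4 : c '' (A ∩ f ⁻¹' {q}) = A ×ˢ sphere (0 : Euc n) 1 ∩ g ⁻¹' {(q, u)} := by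
      ext ⟨v, x⟩
      constructor
      · rintro ⟨v', hv', h⟩
        obtain ⟨rfl, h5⟩ := Prod.mk.inj h
        have h6 := hlne v' hv'
        have h7 : 0 < ‖linv (B v') u‖ := norm_pos_iff.2 h6.1
        refine ⟨⟨hv'.1, ?_⟩, ?_⟩
        · show x ∈ sphere (0 : Euc n) 1
          rw [← h5, mem_sphere_zero_iff_norm, norm_smul, norm_inv, norm_norm,
            inv_mul_cancel₀ h7.ne']
        · show (f v', (‖B v' x‖)⁻¹ • B v' x) = (q, u)
          have h8 : f v' = q := hv'.2
          rw [← h5, map_smul, h6.2, norm_smul, norm_inv, norm_norm, hu1', mul_one, _root_.inv_inv,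
            smul_smul, mul_inv_cancel₀ h7.ne', one_smul, h8]
      · rintro ⟨⟨hv, hx⟩, h⟩
        have h' : (f v, (‖B v x‖)⁻¹ • B v x) = (q, u) := h
        obtain ⟨h5, h6⟩ := Prod.mk.inj h'
        refine ⟨v, ⟨hv, h5⟩, ?_⟩
        have hx' : ‖x‖ = 1 := by
          have : x ∈ sphere (0 : Euc n) 1 := hx
          rwa [mem_sphere_zero_iff_norm] at this
        have hBx : 0 < ‖B v x‖ := norm_pos_iff.2 (hBne v hv x (hsne x hx))
        have h7 : linv (B v) u = (‖B v x‖)⁻¹ • x := by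
          rw [← h6, map_smul, linv_apply (hBi v hv).1]
        rw [hc]
        simp only
        rw [h7, norm_smul, norm_inv, norm_norm, hx', mul_one, _root_.inv_inv, smul_smul,
          mul_inv_cancel₀ hBx.ne', one_smul]
    rwa [h4] at h3) hR hw hw1
  exact ⟨w', h1, h2⟩

end Crest.Agent.R208.GP
end
end

-- ▼ part R208/GP3c

/-! Row 208, block GP (helper198), part GP3c: smooth fields of lines over `F = {d = π}` have smooth
unit sections (`k ≥ 2`, `n ≥ 3`); orientation of the link bundle `V` in the format `T.OR`. -/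

set_option autoImplicit false
set_option linter.unusedSectionVars false

open MeasureTheory Measure Set Filter Topology Module Metric
open scoped ContDiff RealInnerProductSpace
open Crest.GeometryTopology.Submanifold
open Crest.Agent.R241.DDefs
open Crest.Agent.R241.D2
open Crest.Agent.R208.F Crest.Agent.R208.FI
open Crest.Agent.R208.FV (FF Vl phi PV)

noncomputable section

namespace Crest.Agent.R208.GP

variable {n N k : ℕ} {κ : ℝ} {S : Set (Euc N)} {G : Geo n N κ S}
variable {W : Type*} [NormedAddCommGroup W] [InnerProductSpace ℝ W]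

theorem phi_fibre (hB : Bl n N κ S G Real.pi) (hT : I.Typ G k) (hk : 2 ≤ k)
    {z : Euc N × Euc N} (hz : z ∈ FF G) : IsPreconnected (L.US G ∩ phi G ⁻¹' {z}) := by
  have h1 := (sphere_preconn (V := Vl G z) (by rw [FV.finrank_Vl hT hz]; exact hk)).image
    (fun v => (z.1, v)) (by fun_prop)
  have h2 : (fun v => (z.1, v)) '' {v : Euc N | v ∈ Vl G z ∧ ‖v‖ = 1} =
      L.US G ∩ phi G ⁻¹' {z} := by
    ext ⟨p, v⟩
    constructor
    · rintro ⟨v', hv', h⟩
      obtain ⟨rfl, rfl⟩ := Prod.mk.inj h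
      have h3 := (FV.mem_Vl hT hz).1 hv'
      refine ⟨⟨⟨hz.1, h3.1⟩, h3.2.1⟩, ?_⟩
      show (z.1, Exp G z.1 (Real.pi • v')) = z
      rw [h3.2.2]
    · rintro ⟨⟨⟨hp, hv⟩, hv1⟩, h⟩
      have h' : (p, Exp G p (Real.pi • v)) = z := h
      subst h'
      exact ⟨v, (FV.mem_Vl hT hz).2 ⟨hv, hv1, rfl⟩, rfl⟩
  rwa [h2] at h1

/-- **lifting over `F`** -/
theorem lift_FF (hB : Bl n N κ S G Real.pi) (hT : I.Typ G k) (hk : 2 ≤ k) (hn : 3 ≤ n)
    {P : Euc N × Euc N → (W →L[ℝ] W)} (hP : ∀ z ∈ FF G, ContDiffAt ℝ ∞ P z)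
    (hR : ∀ z ∈ FF G, R1 (P z)) :
    ∃ w : Euc N × Euc N → W, (∀ z ∈ FF G, ContDiffAt ℝ ∞ w z) ∧
      ∀ z ∈ FF G, ‖w z‖ = 1 ∧ P z (w z) = w z := by
  have hUS : ∀ q ∈ L.US G, q ∈ TS G := fun q hq => hq.1
  have hphic : ContinuousOn (phi G) (L.US G) := fun q hq =>
    (FV.contDiffAt_phi (hUS q hq)).continuousAt.continuousWithinAt
  have hphim : ∀ q ∈ L.US G, phi G q ∈ FF G := fun q hq => FV.phi_mem hB hq
  have hPc : ContinuousOn P (FF G) := fun x hx => (hP x hx).continuousAt.continuousWithinAt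
  obtain ⟨w, hw, hw1⟩ := lift_US hB hT hk hn (P := fun q => P (phi G q))
    (hPc.comp hphic hphim) (fun q hq => hR _ (hphim q hq))
  obtain ⟨w', h1, h2, -⟩ := descend (LB.isCompact_US hB.cpt) hphic
    (FV.FF_eq_image hB hT).symm (fun z hz => phi_fibre hB hT hk hz) hR hw hw1
  obtain ⟨w'', h3, h4⟩ := smooth_lift (FV.isCompact_FF hB hT) hP hR h1 h2
  exact ⟨w'', h3, fun z hz => by rw [h4 z hz]; exact h2 z hz⟩

theorem R1_V (hB : Bl n N κ S G Real.pi) (hT : I.Typ G k) (hS : Sub n S) {z : Euc N × Euc N}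
    (hz : z ∈ FF G) : R1 (TP k (PV hB hT hS z)) := by
  obtain ⟨e, he, -⟩ := exists_OF (Vl G z) (FV.finrank_Vl hT hz)
  rw [FV.PV_eq hB hT hS hz]
  exact R1_TP he

/-- **orientation of `V`** by unit tensors. -/
theorem exists_orient_V (hB : Bl n N κ S G Real.pi) (hT : I.Typ G k) (hk : 2 ≤ k) (hn : 3 ≤ n)
    (hS : Sub n S) : ∃ w : Euc N × Euc N → Ten k N, (∀ z ∈ FF G, ContDiffAt ℝ ∞ w z) ∧
      ∀ z ∈ FF G, ∃ e, OF k (PV hB hT hS z) e ∧ (∀ a, e a ∈ Vl G z) ∧ w z = udt e := by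
  obtain ⟨w, h1, h2⟩ := lift_FF hB hT hk hn (P := fun z => TP k (PV hB hT hS z))
    (fun z _ => (contDiff_TP k).contDiffAt.comp z (FV.contDiff_PV hB hT hS).contDiffAt)
    (fun z hz => R1_V hB hT hS hz)
  refine ⟨w, h1, fun z hz => ?_⟩
  obtain ⟨e, he, -⟩ := exists_OF (Vl G z) (FV.finrank_Vl hT hz)
  rw [← FV.PV_eq hB hT hS hz] at he
  obtain ⟨e', he', hwe⟩ := exists_frame_of_unit (by omega) he (h2 z hz).1 (h2 z hz).2
  refine ⟨e', he', fun a => ?_, hwe⟩
  rw [← FV.PV_eq_self hB hT hS hz, he'.eq, Finset.sum_eq_single a]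
  · rw [real_inner_self_eq_norm_sq, he'.on.1 a]; simp
  · intro c _ hc
    rw [he'.on.2 hc, zero_smul]
  · intro h; exact absurd (Finset.mem_univ _) h

/-- conversion to the format of block T. -/
theorem or_of {E : Type*} [NormedAddCommGroup E] [NormedSpace ℝ E] {ι : Type*} [Fintype ι]
    [DecidableEq ι] {r : ℕ} (φ : ι × Fin 2 ≃ Fin r) {X : Set E}
    {P : E → (EuclideanSpace ℝ (Fin N) →L[ℝ] EuclideanSpace ℝ (Fin N))}
    (hP : ∀ x ∈ X, ContDiffAt ℝ ∞ P x) {w : E → Ten r N} (hw : ∀ x ∈ X, ContDiffAt ℝ ∞ w x)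
    (h : ∀ x ∈ X, ∃ e, OF r (P x) e ∧ w x = udt e) :
    T.OR X P (fun x (I : ι × Fin 2 → Fin N) => Real.sqrt r.factorial * w x (I ∘ φ.symm)) where
  sP := hP
  sW := fun x hx I => contDiffAt_const.mul
    ((EuclideanSpace.proj (𝕜 := ℝ) (I ∘ φ.symm)).contDiff.contDiffAt.comp x (hw x hx))
  fr := by
    intro x hx
    obtain ⟨e, he, hwe⟩ := h x hx
    refine ⟨Matrix.of fun i a => e (φ a) i, ?_, ?_, ?_⟩
    · ext a b
      rw [Matrix.mul_apply, Matrix.one_apply]
      have h1 := (orthonormal_iff_ite.1 he.on) (φ a) (φ b)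
      rw [PiLp.inner_apply] at h1
      simp only [Matrix.transpose_apply, Matrix.of_apply]
      have h2 : (∑ i, e (φ a) i * e (φ b) i) = ∑ i, (⟪e (φ a) i, e (φ b) i⟫ : ℝ) :=
        Finset.sum_congr rfl fun i _ => by simp [mul_comm]
      rw [h2, h1]
      simp
    · intro v i
      rw [he.eq]
      simp only [WithLp.ofLp_sum, Finset.sum_apply, PiLp.smul_apply, smul_eq_mul]
      simp only [Matrix.mul_apply, Matrix.transpose_apply, Matrix.of_apply]
      simp only [Finset.sum_mul]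
      rw [Finset.sum_comm, ← φ.sum_comp]
      refine Finset.sum_congr rfl fun a _ => ?_
      rw [PiLp.inner_apply, Finset.sum_mul]
      refine Finset.sum_congr rfl fun j _ => ?_
      simp
      ring
    · intro I
      simp only
      rw [hwe, udt, PiLp.smul_apply, smul_eq_mul, ← mul_assoc,
        mul_inv_cancel₀ (sqrt_fact_pos r).ne', one_mul, dtn_apply]
      rw [← Matrix.det_transpose, ← Matrix.det_submatrix_equiv_self φ.symm]
      congr 1
      ext a b
      simp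

/-- **`V → F` is oriented**, format of block T. -/
theorem exists_OR_V (hB : Bl n N κ S G Real.pi) (hT : I.Typ G k) (hk : 2 ≤ k) (hn : 3 ≤ n)
    (hS : Sub n S) {ι : Type*} [Fintype ι] [DecidableEq ι] (hι : 2 * Fintype.card ι = k) :
    ∃ Wt : Euc N × Euc N → (ι × Fin 2 → Fin N) → ℝ, T.OR (FF G) (PV hB hT hS) Wt := by
  obtain ⟨w, h1, h2⟩ := exists_orient_V hB hT hk hn hS
  have hc : Fintype.card (ι × Fin 2) = k := by rw [Fintype.card_prod, Fintype.card_fin]; omega
  let φ : ι × Fin 2 ≃ Fin k := Fintype.equivFinOfCardEq hc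
  exact ⟨_, or_of φ (fun z _ => (FV.contDiff_PV hB hT hS).contDiffAt) h1 fun z hz => by
    obtain ⟨e, he, -, hwe⟩ := h2 z hz
    exact ⟨e, he, hwe⟩⟩

/-- **`S` is oriented**, format of block T (`n` even). -/
theorem exists_OR_S (hB : Bl n N κ S G Real.pi) (hT : I.Typ G k) (hk : 2 ≤ k)
    {ι : Type*} [Fintype ι] [DecidableEq ι] (hι : 2 * Fintype.card ι = n) :
    ∃ Wt : Euc N → (ι × Fin 2 → Fin N) → ℝ, T.OR S G.P Wt := by
  obtain ⟨w, h1, h2⟩ := exists_orient hB hT hk
  have hc : Fintype.card (ι × Fin 2) = n := by rw [Fintype.card_prod, Fintype.card_fin]; omega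
  let φ : ι × Fin 2 ≃ Fin n := Fintype.equivFinOfCardEq hc
  exact ⟨_, or_of φ (fun z _ => G.contDiff_P.contDiffAt) h1 fun z hz => by
    obtain ⟨e, he, -, hwe⟩ := h2 z hz
    exact ⟨e, he, hwe⟩⟩

end Crest.Agent.R208.GP
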