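import Crest.Agent.R208.SP8
import Crest.Agent.R208.GT2
import Crest.Agent.R208.FI2d
import Crest.Agent.R208.CW4

-- ▼ part R208/GT3
section

/-!
Row 208, block GT (helper989), part GT3: the transposed pencil, `T_J` of the transposed pencil is
the transpose of `F_J`.
-/

set_option autoImplicit false

namespace Crest.Agent.R208.SP

variable {m n : Type*} [Fintype m] [Fintype n] [DecidableEq n] [DecidableEq m]

theorem Rhp.transpose {M : Matrix n n ℂ} (h : Rhp M) : Rhp M.transpose := by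
  intro z hz
  have h1 : M.transpose - algebraMap ℂ (Matrix n n ℂ) z =
      (M - algebraMap ℂ (Matrix n n ℂ) z).transpose := by
    rw [Matrix.transpose_sub]
    congr 1
    rw [Matrix.algebraMap_eq_diagonal, Matrix.diagonal_transpose]
  rw [h1]
  exact (Matrix.isUnit_transpose _).2 (h z hz)

theorem Pol.transpose {P J I : Matrix n n ℂ} (h : Pol P J I) :
    Pol P.transpose J.transpose I.transpose := by
  refine ⟨?_, ?_, ?_, ?_, ?_, ?_, ?_, ?_⟩
  · rw [← Matrix.transpose_mul, h.PP]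
  · rw [← Matrix.transpose_mul, h.JP]
  · rw [← Matrix.transpose_mul, h.PJ]
  · rw [← Matrix.transpose_mul, h.IP]
  · rw [← Matrix.transpose_mul, h.PI]
  · rw [← Matrix.transpose_mul, h.II, Matrix.transpose_neg]
  · rw [Commute, SemiconjBy, ← Matrix.transpose_mul, ← Matrix.transpose_mul, h.comm.eq]
  · have h1 := h.rhp.transpose
    rwa [Matrix.transpose_add, Matrix.transpose_neg, Matrix.transpose_sub, Matrix.transpose_one,
      h.comm.eq, Matrix.transpose_mul] at h1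

omit [DecidableEq n] [DecidableEq m] in
theorem PIso.transpose {R : Type*} [CommRing R] {P : Matrix n n R} {P' : Matrix m m R}
    {S : Matrix m n R} {W : Matrix n m R} (h : PIso P P' S W) :
    PIso P'.transpose P.transpose S.transpose W.transpose :=
  ⟨by rw [← Matrix.transpose_mul, h.ps], by rw [← Matrix.transpose_mul, h.sp],
    by rw [← Matrix.transpose_mul, h.pw], by rw [← Matrix.transpose_mul, h.wp],
    by rw [← Matrix.transpose_mul, h.sw], by rw [← Matrix.transpose_mul, h.ws]⟩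

variable {P : Matrix n n ℝ} {P' : Matrix m m ℝ} {S₁ S₂ : Matrix m n ℝ}

omit [DecidableEq m] in
theorem Pencil.transpose (h : Pencil P P' S₁ S₂) (hP : P.transpose = P)
    (hP' : P'.transpose = P') : Pencil P' P S₁.transpose S₂.transpose := by
  refine ⟨h.pp', h.pp, ?_, ?_, ?_, ?_, ?_, h.rank.symm⟩
  · conv_lhs => rw [← hP']
    rw [← Matrix.transpose_mul, h.ps1]
  · conv_lhs => rw [← hP']
    rw [← Matrix.transpose_mul, h.ps2]
  · conv_lhs => rw [← hP]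
    rw [← Matrix.transpose_mul, h.sp1]
  · conv_lhs => rw [← hP]
    rw [← Matrix.transpose_mul, h.sp2]
  · intro a b hab v hv h0
    have h1 := (h.pIso hab).transpose
    rw [hP, hP'] at h1
    have h2 : a • S₁.transpose + b • S₂.transpose = (a • S₁ + b • S₂).transpose := by
      rw [Matrix.transpose_add, Matrix.transpose_smul, Matrix.transpose_smul]
    rw [h2] at h0
    rw [← hv, ← h1.ws, ← Matrix.mulVec_mulVec, h0, Matrix.mulVec_zero]


theorem cr_transpose {m n : Type*} (M : Matrix m n ℝ) : (cr M).transpose = cr M.transpose := rfl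




/-! ### `F_J + conj F_J = P'_ℂ` -/

theorem cj_cr_mul (A : Matrix m n ℝ) (B : Matrix n n ℂ) (C : Matrix n m ℝ) :
    cj (cr A * B * cr C) = cr A * cj B * cr C := by
  have h1 : ∀ M : Matrix m m ℂ, cj M = M.map (starRingEnd ℂ) := fun M => rfl
  have h2 : ∀ M : Matrix n n ℂ, cj M = M.map (starRingEnd ℂ) := fun M => rfl
  have h3 : (cr A).map (starRingEnd ℂ) = cr A := by ext i j; simp
  have h4 : (cr C).map (starRingEnd ℂ) = cr C := by ext i j; simp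
  rw [h1, h2, Matrix.map_mul, Matrix.map_mul, h3, h4]

omit [DecidableEq m] in
theorem Pencil.cx_mul_tj (h : Pencil P P' S₁ S₂) : cr P * tj P P' S₁ S₂ = tj P P' S₁ S₂ := by
  rw [cr_eq_cx]; exact Pol.P_qp h.polR

omit [DecidableEq m] in
theorem Pencil.cx_mul_cj_tj (h : Pencil P P' S₁ S₂) :
    cr P * cj (tj P P' S₁ S₂) = cj (tj P P' S₁ S₂) := by
  have h1 := congrArg cj h.cx_mul_tj
  rwa [map_mul, cr_eq_cx, cj_cx] at h1

theorem Pencil.fj_add_cj (h : Pencil P P' S₁ S₂) :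
    fj P P' S₁ S₂ + cj (fj P P' S₁ S₂) = cx P' := by
  rw [fj, cj_cr_mul, ← Matrix.add_mul, ← Matrix.mul_add, h.tj_add_cj, ← cr_eq_cx, ← cr_eq_cx,
    ← cr_mul, ← cr_mul, h.sp1, h.pIso1.sw]

theorem Pencil.fj_mul_cj (h : Pencil P P' S₁ S₂) :
    fj P P' S₁ S₂ * cj (fj P P' S₁ S₂) = 0 := by
  rw [fj, cj_cr_mul]
  have e : cr (pinv P P' S₁) * (cr S₁ * cj (tj P P' S₁ S₂) * cr (pinv P P' S₁)) =
      cj (tj P P' S₁ S₂) * cr (pinv P P' S₁) := by
    rw [← Matrix.mul_assoc, ← Matrix.mul_assoc, ← cr_mul, h.pIso1.ws, h.cx_mul_cj_tj]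
  rw [Matrix.mul_assoc, e, ← Matrix.mul_assoc, Matrix.mul_assoc (cr S₁), h.tj_mul_cj,
    Matrix.mul_zero, Matrix.zero_mul]

theorem Pencil.cj_mul_fj (h : Pencil P P' S₁ S₂) :
    cj (fj P P' S₁ S₂) * fj P P' S₁ S₂ = 0 := by
  rw [fj, cj_cr_mul]
  have e : cr (pinv P P' S₁) * (cr S₁ * tj P P' S₁ S₂ * cr (pinv P P' S₁)) =
      tj P P' S₁ S₂ * cr (pinv P P' S₁) := by
    rw [← Matrix.mul_assoc, ← Matrix.mul_assoc, ← cr_mul, h.pIso1.ws, h.cx_mul_tj]
  rw [Matrix.mul_assoc, e, ← Matrix.mul_assoc, Matrix.mul_assoc (cr S₁), h.cj_mul_tj,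
    Matrix.mul_zero, Matrix.zero_mul]

end Crest.Agent.R208.SP
end

-- ▼ part R208/GT4

/-!
Row 208, block GT (helper989), part GT4: the fields `T_J`, `F_J` and the line `ℓ` on the manifold
`Z = V_2(V)` of orthonormal pairs of `V_pq`, smoothness, idempotency.
-/

set_option autoImplicit false

open MeasureTheory Measure Set Filter Topology Module Metric
open scoped ContDiff RealInnerProductSpace
open Crest.GeometryTopology.Submanifold
open Crest.Agent.R241.DDefs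
open Crest.Agent.R241.D2

noncomputable section

namespace Crest.Agent.R208.GT

variable {n N k : ℕ} {κ : ℝ} {S : Set (Euc N)} {G : Geo n N κ S}
  {PV : Euc N × Euc N → Euc N →L[ℝ] Euc N}

/-- The manifold of `(p, q, v₀, v₁)`, `d(p,q) = π`, `(v₀, v₁)` orthonormal in `V_pq`. -/
abbrev ZZ (S : Set (Euc N)) (PV : Euc N × Euc N → Euc N →L[ℝ] Euc N) :
    Set ((Euc N × Euc N) × (Fin 2 → Euc N)) := FI.Fr (FF S) PV 2

/-- the standard basis -/
def bas (N : ℕ) : Basis (Fin N) ℝ (Euc N) := (EuclideanSpace.basisFun (Fin N) ℝ).toBasis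

lemma bas_apply (i : Fin N) : bas N i = EuclideanSpace.basisFun (Fin N) ℝ i := by
  simp [bas]

lemma mt_bas (T : Euc N →L[ℝ] Euc N) (i j : Fin N) :
    SP.mt (bas N) (bas N) T i j = ⟪bas N i, T (bas N j)⟫ := by
  rw [SP.mt_apply, bas_apply i]
  exact (OrthonormalBasis.coe_toBasis_repr_apply _ _ _).trans
    (OrthonormalBasis.repr_apply_apply _ _ _)

/-- `T_q C_p` -/
def mP (G : Geo n N κ S) (PV : Euc N × Euc N → Euc N →L[ℝ] Euc N)
    (z : Euc N × Euc N) : Matrix (Fin N) (Fin N) ℝ := SP.mt (bas N) (bas N) (PTC G PV z)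

/-- `S_v : T_q C_p → T_p C_q` -/
def mS (G : Geo n N κ S) (PV : Euc N × Euc N → Euc N →L[ℝ] Euc N)
    (z : Euc N × Euc N) (v : Euc N) : Matrix (Fin N) (Fin N) ℝ :=
  SP.mt (bas N) (bas N) (Sf G PV z v)

/-- The complex bundle `T_J ⊂ T_q C_p ⊗ ℂ`. -/
def TJ (G : Geo n N κ S) (PV : Euc N × Euc N → Euc N →L[ℝ] Euc N)
    (ζ : (Euc N × Euc N) × (Fin 2 → Euc N)) : Matrix (Fin N) (Fin N) ℂ :=
  SP.tj (mP G PV ζ.1) (mP G PV ζ.1.swap) (mS G PV ζ.1 (ζ.2 0)) (mS G PV ζ.1 (ζ.2 1))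

/-- The complex bundle `F_J ⊂ T_p C_q ⊗ ℂ`. -/
def FJ (G : Geo n N κ S) (PV : Euc N × Euc N → Euc N →L[ℝ] Euc N)
    (ζ : (Euc N × Euc N) × (Fin 2 → Euc N)) : Matrix (Fin N) (Fin N) ℂ :=
  SP.fj (mP G PV ζ.1) (mP G PV ζ.1.swap) (mS G PV ζ.1 (ζ.2 0)) (mS G PV ζ.1 (ζ.2 1))

/-- the tautological line `ℓ` of the oriented plane `(v₀, v₁)` -/
def LL (ζ : (Euc N × Euc N) × (Fin 2 → Euc N)) : Matrix (Fin N) (Fin N) ℂ :=
  SP.qL (fun c => ζ.2 0 c) (fun c => ζ.2 1 c)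

lemma mS_sum (z : Euc N × Euc N) (v : Euc N) :
    mS G PV z v = ∑ c, v c • mS G PV z (bas N c) := by
  ext i j
  rw [Matrix.sum_apply]
  simp only [Matrix.smul_apply, smul_eq_mul, mS, mt_bas]
  have h1 : Sf G PV z v (bas N j) = ∑ c, v c • Sf G PV z (bas N c) (bas N j) := by
    have h2 : v = ∑ c, v c • bas N c := by
      have h3 := (bas N).sum_repr v
      conv_lhs => rw [← h3]
      refine Finset.sum_congr rfl fun c _ => ?_
      congr 1
    conv_lhs => rw [h2]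
    rw [Sf_apply, _root_.map_sum]
    refine Finset.sum_congr rfl fun c _ => ?_
    rw [map_smul]; rfl
  rw [h1, inner_sum]
  refine Finset.sum_congr rfl fun c _ => ?_
  rw [inner_smul_right]

variable (hV : VField G PV) (h : Bla G k) {ζ : (Euc N × Euc N) × (Fin 2 → Euc N)}

include hV in
lemma mem_Vs_of_ZZ (hζ : ζ ∈ ZZ S PV) (i : Fin 2) : ζ.2 i ∈ Vs G ζ.1.1 ζ.1.2 := by
  rw [← hζ.2.1 i]
  exact hV.PV_mem (p := ζ.1.1) (q := ζ.1.2) hζ.1 _

include hV h in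
theorem pencil_ZZ (hζ : ζ ∈ ZZ S PV) :
    SP.Pencil (mP G PV ζ.1) (mP G PV ζ.1.swap) (mS G PV ζ.1 (ζ.2 0)) (mS G PV ζ.1 (ζ.2 1)) := by
  have ho := hζ.2.2
  exact hV.pencil h (p := ζ.1.1) (q := ζ.1.2) hζ.1 (mem_Vs_of_ZZ hV hζ 0)
    (mem_Vs_of_ZZ hV hζ 1) (ho.1 0) (ho.1 1) (ho.2 (by decide)) (bas N)

/-! ### smoothness -/

include hV in
lemma smooth_PTC {z : Euc N × Euc N} (hz : z ∈ FF S) : ContDiffAt ℝ ∞ (PTC G PV) z := by
  have h1 : ContDiffAt ℝ ∞ (fun z : Euc N × Euc N => G.P z.2) z :=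
    G.contDiff_P.contDiffAt.comp z contDiffAt_snd
  have h2 : ContDiffAt ℝ ∞ (fun z : Euc N × Euc N => PV z.swap) z :=
    ContDiffAt.comp z (hV.smooth _ (FF_symm hz)) (contDiffAt_snd.prodMk contDiffAt_fst)
  exact h1.sub h2

include hV in
lemma smooth_Sf {z : Euc N × Euc N} (hz : z ∈ FF S) (v : Euc N) :
    ContDiffAt ℝ ∞ (fun y : (Euc N × Euc N) × Euc N => Sf G PV y.1 y.2) (z, v) := by
  have h1 : ContDiffAt ℝ ∞ (fun y : (Euc N × Euc N) × Euc N => fderiv ℝ PV y.1) (z, v) :=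
    ContDiffAt.comp (z, v) ((hV.smooth z hz).fderiv_right (m := ∞) (by simp)) contDiffAt_fst
  have h2 : ContDiffAt ℝ ∞ (fun y : (Euc N × Euc N) × Euc N => PTC G PV y.1) (z, v) :=
    ContDiffAt.comp (z, v) (smooth_PTC hV hz) contDiffAt_fst
  have h3 : ContDiffAt ℝ ∞ (fun y : (Euc N × Euc N) × Euc N =>
      (fderiv ℝ PV y.1).flip y.2) (z, v) := by
    have h5 : ContDiff ℝ ∞ (ContinuousLinearMap.apply ℝ (Euc N) : Euc N →L[ℝ] _) :=
      ContinuousLinearMap.contDiff _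
    have h4 : ContDiffAt ℝ ∞ (fun y : (Euc N × Euc N) × Euc N =>
        (ContinuousLinearMap.apply ℝ (Euc N) : Euc N →L[ℝ] _) y.2) (z, v) :=
      ContDiffAt.comp (z, v) h5.contDiffAt contDiffAt_snd
    exact h4.clm_comp h1
  have h4 : ContDiffAt ℝ ∞ (fun y : (Euc N × Euc N) × Euc N =>
      (ContinuousLinearMap.inr ℝ (Euc N) (Euc N)).comp (PTC G PV y.1)) (z, v) :=
    contDiffAt_const.clm_comp h2
  exact h3.clm_comp h4

variable {X : Type*} [NormedAddCommGroup X] [NormedSpace ℝ X] {x : X}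

include hV in
lemma smooth_mP {f : X → Euc N × Euc N} (hf : ContDiffAt ℝ ∞ f x) (hx : f x ∈ FF S) :
    SP.MSm ∞ (fun y => mP G PV (f y)) x :=
  SP.MSm.mt _ _ (ContDiffAt.comp x (smooth_PTC hV hx) hf)

include hV in
lemma smooth_mS {f : X → Euc N × Euc N} {v : X → Euc N} (hf : ContDiffAt ℝ ∞ f x)
    (hx : f x ∈ FF S) (hv : ContDiffAt ℝ ∞ v x) :
    SP.MSm ∞ (fun y => mS G PV (f y) (v y)) x :=
  SP.MSm.mt _ _ (ContDiffAt.comp (g := fun y : (Euc N × Euc N) × Euc N => Sf G PV y.1 y.2)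
    (f := fun y => (f y, v y)) x (smooth_Sf hV hx (v x)) (hf.prodMk hv))

lemma smooth_z (ζ : (Euc N × Euc N) × (Fin 2 → Euc N)) :
    ContDiffAt ℝ ∞ (fun y : (Euc N × Euc N) × (Fin 2 → Euc N) => y.1) ζ := contDiffAt_fst

lemma smooth_v (ζ : (Euc N × Euc N) × (Fin 2 → Euc N)) (i : Fin 2) :
    ContDiffAt ℝ ∞ (fun y : (Euc N × Euc N) × (Fin 2 → Euc N) => y.2 i) ζ :=
  contDiffAt_pi.1 contDiffAt_snd i

lemma smooth_swap (ζ : (Euc N × Euc N) × (Fin 2 → Euc N)) :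
    ContDiffAt ℝ ∞ (fun y : (Euc N × Euc N) × (Fin 2 → Euc N) => y.1.swap) ζ :=
  (contDiffAt_snd.comp ζ contDiffAt_fst).prodMk (contDiffAt_fst.comp ζ contDiffAt_fst)

include hV h in
theorem smooth_TJ (hζ : ζ ∈ ZZ S PV) : SP.MSm ∞ (TJ G PV) ζ :=
  (pencil_ZZ hV h hζ).smooth_tj (smooth_mP hV (smooth_z ζ) hζ.1)
    (smooth_mP hV (smooth_swap ζ) (FF_symm hζ.1)) (smooth_mS hV (smooth_z ζ) hζ.1 (smooth_v ζ 0))
    (smooth_mS hV (smooth_z ζ) hζ.1 (smooth_v ζ 1))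

include hV h in
theorem smooth_FJ (hζ : ζ ∈ ZZ S PV) : SP.MSm ∞ (FJ G PV) ζ :=
  (pencil_ZZ hV h hζ).smooth_fj (smooth_mP hV (smooth_z ζ) hζ.1)
    (smooth_mP hV (smooth_swap ζ) (FF_symm hζ.1)) (smooth_mS hV (smooth_z ζ) hζ.1 (smooth_v ζ 0))
    (smooth_mS hV (smooth_z ζ) hζ.1 (smooth_v ζ 1))

lemma smooth_LL (ζ : (Euc N × Euc N) × (Fin 2 → Euc N)) : SP.MSm ∞ LL ζ := by
  have h1 : ∀ i c, ContDiffAt ℝ ∞
      (fun y : (Euc N × Euc N) × (Fin 2 → Euc N) => y.2 i c) ζ := fun i c =>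
    ContDiffAt.comp (g := fun u : Euc N => u c) ζ
      (EuclideanSpace.proj c : Euc N →L[ℝ] ℝ).contDiff.contDiffAt (smooth_v ζ i)
  exact SP.MSm.qL (h1 0) (h1 1)

end Crest.Agent.R208.GT
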