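import Crest.Agent.R208.GP1
import Crest.Agent.R208.FI2a

/-! Row 208, block GP (helper198), part GP1b: closed forms of positive degree are exact off the cut
locus. -/

set_option autoImplicit false
set_option linter.unusedSectionVars false

open MeasureTheory Measure Set Filter Topology Module Metric
open scoped ContDiff RealInnerProductSpace
open Crest.GeometryTopology.Submanifold
open Crest.Agent.R241.DDefs
open Crest.Agent.R241.D2
open Crest.Agent.R208.F Crest.Agent.R208.FI

noncomputable section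

namespace Crest.Agent.R208.GP

section gen
variable {E E' : Type*} [NormedAddCommGroup E] [NormedSpace ℝ E] [FiniteDimensional ℝ E]
  [NormedAddCommGroup E'] [NormedSpace ℝ E'] [FiniteDimensional ℝ E']


/-- if `f` is the identity on `X` near `x` then `f^*` is the identity on restrictions. -/
theorem fderiv_eq_of_id {X : Set E} {f : E → E} {x : E} (hf : DifferentiableAt ℝ f x)
    (h : ∀ᶠ y in 𝓝 x, y ∈ X → f y = y) {v : E} (hv : v ∈ FI.Tan X x) : fderiv ℝ f x v = v := by
  induction hv using Submodule.span_induction with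
  | mem v hv =>
    obtain ⟨γ, h0, hγ, hX⟩ := hv
    subst h0
    have h1 : HasDerivAt (fun t => f (γ t)) (fderiv ℝ f (γ 0) v) 0 :=
      hf.hasFDerivAt.comp_hasDerivAt 0 hγ
    have h2 : (fun t => f (γ t)) =ᶠ[𝓝 0] γ := by
      filter_upwards [hX, hγ.continuousAt.eventually h] with t h3 h4 using h4 h3
    exact (h1.congr_of_eventuallyEq h2.symm).unique hγ
  | zero => rw [map_zero]
  | add x y _ _ hx hy => rw [map_add, hx, hy]
  | smul a x _ hx => rw [map_smul, hx]


theorem Tan_open {X X' : Set E} {x : E} (h : ∀ᶠ y in 𝓝 x, y ∈ X → y ∈ X') :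
    FI.Tan X x ≤ FI.Tan X' x := by
  refine Submodule.span_mono ?_
  rintro v ⟨γ, h0, hγ, hX⟩
  refine ⟨γ, h0, hγ, ?_⟩
  have h1 : Tendsto γ (𝓝 0) (𝓝 x) := by rw [← h0]; exact hγ.continuousAt
  filter_upwards [hX, h1.eventually h] with t h2 h3 using h3 h2


end gen

variable {n N : ℕ} {κ : ℝ} {S : Set (Euc N)} {G : Geo n N κ S}

theorem contDiffAt_Exp_comp {F : Type*} [NormedAddCommGroup F] [NormedSpace ℝ F] {p : Euc N}
    (hp : p ∈ S) {g : F → Euc N} {x : F} (hg : ContDiffAt ℝ ∞ g x) (hx : g x ∈ G.T p) :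
    ContDiffAt ℝ ∞ (fun y => Exp G p (g y)) x := by
  have h1 := contDiffAt_Exp G hp hx
  have h2 : ContDiffAt ℝ ∞ (fun y => ((p, g y) : Euc N × Euc N)) x := contDiffAt_const.prodMk hg
  exact ContDiffAt.comp (g := fun q : Euc N × Euc N => Exp G q.1 q.2) x h1 h2


end Crest.Agent.R208.GP
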