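import Crest.Agent.R208.AF4
import Crest.Agent.R208.SB2
import Crest.Agent.R208.SN7
import Crest.Agent.R208.KG7

-- ▼ part R208/AF5
section

/-! Row 208, block (A2) (helper601).  AF5: the integrals over one window. -/

set_option autoImplicit false
set_option linter.unusedSectionVars false

open MeasureTheory Set Filter Topology Module
open scoped ContDiff
open Crest.Agent.R208.F Crest.Agent.R208.FI Crest.Agent.R208.CW Crest.Agent.R208.T

noncomputable section

namespace Crest.Agent.R208.AF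

section um
universe v
variable {E₁ : Type v} [NormedAddCommGroup E₁] [NormedSpace ℝ E₁] [FiniteDimensional ℝ E₁]
  {E' : Type*} [NormedAddCommGroup E'] [NormedSpace ℝ E'] [FiniteDimensional ℝ E']

/-- `∫_0^s ι G^* om` -/
def ell (G : E₁ × ℝ → E') (om : E' → Ext E') : E₁ × ℝ → Ext E₁ := PL (xiF G om)
/-- `∫_0^1 ι G^* om` -/
def lam (G : E₁ × ℝ → E') (om : E' → Ext E') : E₁ → Ext E₁ := TI 0 1 (xiF G om)
/-- `∫ ℓ θ` -/
def eta (G : E₁ × ℝ → E') (om : E' → Ext E') : E₁ → Ext E₁ :=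
  TI 0 1 (fun p => ell G om p * xiF G om p)
/-- `∫ W θ` -/
def MM (G : E₁ × ℝ → E') (om : E' → Ext E') : E₁ → Ext E₁ :=
  TI 0 1 (fun p => WF G om p * xiF G om p)
/-- `∫ W θ ℓ` -/
def NN (G : E₁ × ℝ → E') (om : E' → Ext E') : E₁ → Ext E₁ :=
  TI 0 1 (fun p => WF G om p * xiF G om p * ell G om p)

variable {U : Set E₁} {Y : Set E'} {G : E₁ × ℝ → E'} {om : E' → Ext E'}

theorem sm_lam (hG : Fam U Y G) (hs : Sm Y om) : Sm U (lam G om) := (hG.smF_xi hs).sm_TI 0 1
theorem sm_eta (hG : Fam U Y G) (hs : Sm Y om) : Sm U (eta G om) :=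
  ((hG.smF_xi hs).PL.mul (hG.smF_xi hs)).sm_TI 0 1
theorem sm_MM (hG : Fam U Y G) (hs : Sm Y om) : Sm U (MM G om) :=
  ((hG.smF_W hs).mul (hG.smF_xi hs)).sm_TI 0 1
theorem sm_NN (hG : Fam U Y G) (hs : Sm Y om) : Sm U (NN G om) :=
  (((hG.smF_W hs).mul (hG.smF_xi hs)).mul (hG.smF_xi hs).PL).sm_TI 0 1

end um

section win
universe u v
variable {E : Type u} [NormedAddCommGroup E] [NormedSpace ℝ E] [FiniteDimensional ℝ E]
  {E₁ : Type v} [NormedAddCommGroup E₁] [NormedSpace ℝ E₁] [FiniteDimensional ℝ E₁]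
  {E' : Type*} [NormedAddCommGroup E'] [NormedSpace ℝ E'] [FiniteDimensional ℝ E']
  {X : Set E} {U : Set E₁} {Y : Set E'} {Fm : E × ℝ → E'} {G : E₁ × ℝ → E'} {om : E' → Ext E'}
  {pr : E → E₁} {h h' : ℝ → ℝ} {x : E} {t α β : ℝ}

/-- restriction of a pulled back form, at a point -/
def Pr (X : Set E) (pr : E → E₁) (x : E) : Ext E₁ →L[ℝ] Ext (Tan X x) :=
  (rs X x).comp (pbL (fderiv ℝ pr x))

theorem Pr_apply (w : E₁ → Ext E₁) : Pr X pr x (w (pr x)) = rs X x (pull pr w x) := rfl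
theorem Pr_mul (a b : Ext E₁) : Pr X pr x (a * b) = Pr X pr x a * Pr X pr x b := by
  show rs X x (pb _ (a * b)) = rs X x (pb _ a) * rs X x (pb _ b)
  rw [map_mul, rs_mul]
theorem Pr_inv (a : Ext E₁) : inv (Pr X pr x a) = Pr X pr x (inv a) := by
  show inv (rs X x (pb _ a)) = rs X x (pb _ (inv a))
  rw [rs_inv, ← pb_inv]

/-- data of one window -/
structure Win (X : Set E) (U : Set E₁) (Y : Set E') (Fm : E × ℝ → E') (G : E₁ × ℝ → E')
    (pr : E → E₁) (h h' : ℝ → ℝ) (α β : ℝ) : Prop where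
  hF : Fam X Y Fm
  hG : Fam U Y G
  hpr : SMap X U pr
  lt : α < β
  hh : ∀ t, HasDerivAt h (h' t) t
  ch : Continuous h'
  eq : ∀ x ∈ X, ∀ t ∈ Ioo α β, Fm (x, t) = G (pr x, h t)

variable (w : Win X U Y Fm G pr h h' α β) (hs : Sm Y om)
include w

theorem Win.c_h : Continuous h := continuous_iff_continuousAt.2 fun t => (w.hh t).continuousAt

theorem Win.eqOn {f g : ℝ → Ext (Tan X x)} (hf : Continuous f) (hg : Continuous g)
    (he : ∀ t ∈ Ioo α β, f t = g t) : ∀ t ∈ Icc α β, f t = g t := by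
  have h1 : EqOn f g (closure (Ioo α β)) := EqOn.closure he hf hg
  rwa [closure_Ioo w.lt.ne] at h1

include hs

theorem Win.cont_th (hx : x ∈ X) : Continuous fun s => Pr X pr x (xiF G om (pr x, s)) :=
  (Pr X pr x).continuous.comp ((w.hG.smF_xi hs).cont (w.hpr.maps hx))

theorem Win.cont_ell (hx : x ∈ X) : Continuous fun s => Pr X pr x (ell G om (pr x, s)) :=
  (Pr X pr x).continuous.comp ((w.hG.smF_xi hs).PL.cont (w.hpr.maps hx))

theorem Win.cont_W (hx : x ∈ X) : Continuous fun s => Pr X pr x (WF G om (pr x, s)) :=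
  (Pr X pr x).continuous.comp ((w.hG.smF_W hs).cont (w.hpr.maps hx))

theorem Win.xi (hx : x ∈ X) : ∀ t ∈ Icc α β, rs X x (xiF Fm om (x, t)) =
    h' t • Pr X pr x (xiF G om (pr x, h t)) := by
  refine w.eqOn (f := fun t => rs X x (xiF Fm om (x, t)))
    (g := fun t => h' t • Pr X pr x (xiF G om (pr x, h t)))
    ((rs X x).continuous.comp ((w.hF.smF_xi hs).cont hx))
    (w.ch.smul ((w.cont_th hs hx).comp w.c_h)) ?_
  intro t ht
  exact xiF_window w.hF w.hG w.hpr isOpen_Ioo w.hh w.eq hx ht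

theorem Win.W (hx : x ∈ X) : ∀ t ∈ Icc α β, rs X x (WF Fm om (x, t)) =
    Pr X pr x (WF G om (pr x, h t)) := by
  refine w.eqOn (f := fun t => rs X x (WF Fm om (x, t)))
    (g := fun t => Pr X pr x (WF G om (pr x, h t)))
    ((rs X x).continuous.comp ((w.hF.smF_W hs).cont hx))
    ((w.cont_W hs hx).comp w.c_h) ?_
  intro t ht
  have d1 : ∀ y ∈ X, DifferentiableAt ℝ (fun y => Fm (y, t)) y := fun y hy =>
    ((w.hF.sm y hy t).comp y (contDiffAt_id.prodMk contDiffAt_const)).differentiableAt (by simp)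
  have d2 : ∀ z ∈ U, DifferentiableAt ℝ (fun z => G (z, h t)) z := fun y hy =>
    ((w.hG.sm y hy _).comp y (contDiffAt_id.prodMk contDiffAt_const)).differentiableAt (by simp)
  have h1 := eqv_rs.1 (eqv_pull_of_eq (X := X) (f := fun y => Fm (y, t))
    (g := fun y => G (pr y, h t)) om d1
    (fun y hy => (d2 _ (w.hpr.maps hy)).comp y (w.hpr.diff hy)) (fun y hy => w.eq y hy t ht)) x hx
  have h2 : pull (fun y => G (pr y, h t)) om x = pull pr (fun z => WF G om (z, h t)) x :=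
    (pull_comp (f := pr) (g := fun z => G (z, h t)) (w.hpr.diff hx) (d2 _ (w.hpr.maps hx))).symm
  show rs X x (pull (fun y => Fm (y, t)) om x) = _
  rw [h1, h2]
  rfl

theorem Win.PL (hx : x ∈ X) : ∀ t ∈ Icc α β, rs X x (AF.PL (xiF Fm om) (x, t)) =
    rs X x (AF.PL (xiF Fm om) (x, α)) - Pr X pr x (ell G om (pr x, h α)) +
      Pr X pr x (ell G om (pr x, h t)) := by
  intro t ht
  have sF := w.hF.smF_xi hs
  have sG := w.hG.smF_xi hs
  have hz := w.hpr.maps hx
  have h1 : ∫ s in α..t, rs X x (xiF Fm om (x, s)) = rs X x (AF.PL (xiF Fm om) (x, t)) -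
      rs X x (AF.PL (xiF Fm om) (x, α)) :=
    intervalIntegral.integral_eq_sub_of_hasDerivAt
      (fun s _ => (rs X x).hasFDerivAt.comp_hasDerivAt s (sF.hasDerivAt_PL hx s))
      (((rs X x).continuous.comp (sF.cont hx)).intervalIntegrable _ _)
  have h2 : ∀ s, HasDerivAt (fun s => Pr X pr x (ell G om (pr x, h s)))
      (h' s • Pr X pr x (xiF G om (pr x, h s))) s := by
    intro s
    have h3 : HasDerivAt (fun s => Pr X pr x (ell G om (pr x, s)))
        (Pr X pr x (xiF G om (pr x, h s))) (h s) :=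
      (Pr X pr x).hasFDerivAt.comp_hasDerivAt (h s) (sG.hasDerivAt_PL hz (h s))
    exact h3.scomp s (w.hh s)
  have h4 : ∫ s in α..t, h' s • Pr X pr x (xiF G om (pr x, h s)) =
      Pr X pr x (ell G om (pr x, h t)) - Pr X pr x (ell G om (pr x, h α)) :=
    intervalIntegral.integral_eq_sub_of_hasDerivAt (fun s _ => h2 s)
      ((w.ch.smul ((w.cont_th hs hx).comp w.c_h)).intervalIntegrable _ _)
  have h5 : ∫ s in α..t, rs X x (xiF Fm om (x, s)) =
      ∫ s in α..t, h' s • Pr X pr x (xiF G om (pr x, h s)) := by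
    refine intervalIntegral.integral_congr fun s hs' => ?_
    rw [uIcc_of_le ht.1] at hs'
    exact w.xi hs hx s ⟨hs'.1, hs'.2.trans ht.2⟩
  rw [h5, h4] at h1
  rw [sub_add_eq_add_sub, add_sub_assoc, h1]
  abel

/-- the integrand in terms of `s = h t` -/
theorem Win.int (hx : x ∈ X) (ra : Ext (Tan X x)) (σ : Ext (Tan X x))
    (hσ : rs X x (AF.PL (xiF Fm om) (x, α)) - Pr X pr x (ell G om (pr x, h α)) = σ) :
    ∫ t in α..β, (ra + (2 : ℝ) • rs X x (WF Fm om (x, t))) * rs X x (xiF Fm om (x, t)) *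
        rs X x (AF.PL (xiF Fm om) (x, t)) =
      ∫ s in h α..h β, (ra + (2 : ℝ) • Pr X pr x (WF G om (pr x, s))) *
        Pr X pr x (xiF G om (pr x, s)) * (σ + Pr X pr x (ell G om (pr x, s))) := by
  have cq : Continuous fun s => (ra + (2 : ℝ) • Pr X pr x (WF G om (pr x, s))) *
        Pr X pr x (xiF G om (pr x, s)) * (σ + Pr X pr x (ell G om (pr x, s))) := by
    have q1 : Continuous fun s => ra + (2 : ℝ) • Pr X pr x (WF G om (pr x, s)) :=
      continuous_const.add ((w.cont_W hs hx).const_smul 2)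
    have q2 : Continuous fun s => σ + Pr X pr x (ell G om (pr x, s)) :=
      continuous_const.add (w.cont_ell hs hx)
    exact cont_mul (cont_mul q1 (w.cont_th hs hx)) q2
  have h1 := intervalIntegral.integral_deriv_smul_comp (a := α) (b := β) (f := h) (f' := h')
    (g := fun s => (ra + (2 : ℝ) • Pr X pr x (WF G om (pr x, s))) *
        Pr X pr x (xiF G om (pr x, s)) * (σ + Pr X pr x (ell G om (pr x, s))))
    (fun t _ => w.hh t) w.ch.continuousOn cq
  rw [← h1]
  refine intervalIntegral.integral_congr fun t ht => ?_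
  rw [uIcc_of_le w.lt.le] at ht
  simp only [Function.comp_apply]
  rw [w.xi hs hx t ht, w.W hs hx t ht, w.PL hs hx t ht, hσ, mul_smul_comm, smul_mul_assoc]

/-- evaluation over `[0,1]` -/
theorem Win.val (he : ∀ y, inv (om y) = om y) (hx : x ∈ X) (ra σ : Ext (Tan X x)) :
    ∫ s in (0 : ℝ)..1, (ra + (2 : ℝ) • Pr X pr x (WF G om (pr x, s))) *
        Pr X pr x (xiF G om (pr x, s)) * (σ + Pr X pr x (ell G om (pr x, s))) =
      ra * Pr X pr x (lam G om (pr x)) * σ - ra * Pr X pr x (eta G om (pr x)) +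
        (2 : ℝ) • (Pr X pr x (MM G om (pr x)) * σ) + (2 : ℝ) • Pr X pr x (NN G om (pr x)) := by
  have cth := w.cont_th hs hx
  have cell := w.cont_ell hs hx
  have cW := w.cont_W hs hx
  have hz := w.hpr.maps hx
  have sG := w.hG.smF_xi hs
  have c1 : Continuous fun s => ra * Pr X pr x (xiF G om (pr x, s)) * σ :=
    cont_mul (cont_mul continuous_const cth) continuous_const
  have c2 : Continuous fun s => (2 : ℝ) • (Pr X pr x (WF G om (pr x, s)) *
      Pr X pr x (xiF G om (pr x, s)) * σ) :=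
    (cont_mul (cont_mul cW cth) continuous_const).const_smul 2
  have c3 : Continuous fun s => ra * (Pr X pr x (ell G om (pr x, s)) *
      Pr X pr x (xiF G om (pr x, s))) := cont_mul continuous_const (cont_mul cell cth)
  have c4 : Continuous fun s => (2 : ℝ) • (Pr X pr x (WF G om (pr x, s)) *
      Pr X pr x (xiF G om (pr x, s)) * Pr X pr x (ell G om (pr x, s))) :=
    (cont_mul (cont_mul cW cth) cell).const_smul 2
  have oell : ∀ s, inv (ell G om (pr x, s)) = - ell G om (pr x, s) := by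
    intro s
    show inv (∫ r in (0 : ℝ)..s, xiF G om (pr x, r)) = - ∫ r in (0 : ℝ)..s, xiF G om (pr x, r)
    rw [inv_int (sG.cont hz), ← intervalIntegral.integral_neg]
    simp only [inv_xiF he]
  have hpt : ∀ s, (ra + (2 : ℝ) • Pr X pr x (WF G om (pr x, s))) *
        Pr X pr x (xiF G om (pr x, s)) * (σ + Pr X pr x (ell G om (pr x, s))) =
      ra * Pr X pr x (xiF G om (pr x, s)) * σ + (2 : ℝ) • (Pr X pr x (WF G om (pr x, s)) *
      Pr X pr x (xiF G om (pr x, s)) * σ) - ra * (Pr X pr x (ell G om (pr x, s)) *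
      Pr X pr x (xiF G om (pr x, s))) + (2 : ℝ) • (Pr X pr x (WF G om (pr x, s)) *
      Pr X pr x (xiF G om (pr x, s)) * Pr X pr x (ell G om (pr x, s))) := by
    intro s
    have h1 : Pr X pr x (xiF G om (pr x, s)) * Pr X pr x (ell G om (pr x, s)) =
        - (Pr X pr x (ell G om (pr x, s)) * Pr X pr x (xiF G om (pr x, s))) :=
      odd_anti (by rw [Pr_inv, inv_xiF he, map_neg]) (by rw [Pr_inv, oell, map_neg])
    rw [mul_add, add_mul, add_mul, smul_mul_assoc, smul_mul_assoc, add_mul, smul_mul_assoc,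
      mul_assoc ra _ (Pr X pr x (ell G om (pr x, s))), h1, mul_neg]
    abel
  simp only [hpt]
  rw [int_comb c1 c2 c3 c4, int_right σ (cont_mul continuous_const cth), int_left ra cth,
    intervalIntegral.integral_smul, int_right σ (cont_mul cW cth), int_left ra (cont_mul cell cth),
    intervalIntegral.integral_smul]
  have r1 : ∫ s in (0 : ℝ)..1, Pr X pr x (xiF G om (pr x, s)) = Pr X pr x (lam G om (pr x)) :=
    (Pr X pr x).intervalIntegral_comp_comm ((sG.cont hz).intervalIntegrable _ _)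
  have r2 : ∫ s in (0 : ℝ)..1, Pr X pr x (WF G om (pr x, s)) * Pr X pr x (xiF G om (pr x, s)) =
      Pr X pr x (MM G om (pr x)) := by
    simp only [← Pr_mul]
    exact (Pr X pr x).intervalIntegral_comp_comm
      ((((w.hG.smF_W hs).mul sG).cont hz).intervalIntegrable _ _)
  have r3 : ∫ s in (0 : ℝ)..1, Pr X pr x (ell G om (pr x, s)) * Pr X pr x (xiF G om (pr x, s)) =
      Pr X pr x (eta G om (pr x)) := by
    simp only [← Pr_mul]
    exact (Pr X pr x).intervalIntegral_comp_comm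
      (((sG.PL.mul sG).cont hz).intervalIntegrable _ _)
  have r4 : ∫ s in (0 : ℝ)..1, Pr X pr x (WF G om (pr x, s)) * Pr X pr x (xiF G om (pr x, s)) *
      Pr X pr x (ell G om (pr x, s)) = Pr X pr x (NN G om (pr x)) := by
    simp only [← Pr_mul]
    exact (Pr X pr x).intervalIntegral_comp_comm
      (((((w.hG.smF_W hs).mul sG).mul sG.PL).cont hz).intervalIntegrable _ _)
  rw [r1, r2, r3, r4]
  abel

end win

end Crest.Agent.R208.AF
end
end

-- ▼ part R208/AF6
section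

/-! Row 208, block (A2) (helper601).  AF6: the family of loops with four arcs
`p -u₀-> q -u₁-> p -u₂-> q -u₃-> p`. -/

set_option autoImplicit false
set_option linter.unusedSectionVars false

open MeasureTheory Set Filter Topology Module
open scoped ContDiff
open Crest.Agent.R208.F Crest.Agent.R208.FI Crest.Agent.R208.CW Crest.Agent.R208.T

noncomputable section

namespace Crest.Agent.R208.AF

universe u v
variable {E : Type u} [NormedAddCommGroup E] [NormedSpace ℝ E] [FiniteDimensional ℝ E]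
  {E₁ : Type v} [NormedAddCommGroup E₁] [NormedSpace ℝ E₁] [FiniteDimensional ℝ E₁]
  {E' : Type*} [NormedAddCommGroup E'] [NormedSpace ℝ E'] [FiniteDimensional ℝ E']

/-- a family of loops of period `T` over `K`, with four arcs `G (pr i x, ·)`, run through forwards
(`i = 0, 2`) and backwards (`i = 1, 3`). -/
structure Four (K : Set E) (U : Set E₁) (Y : Set E') (Fm : E × ℝ → E') (G : E₁ × ℝ → E')
    (pr : Fin 4 → E → E₁) (h h' : ℝ → ℝ) (T : ℝ) : Prop where
  pos : 0 < T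
  hF : Fam K Y Fm
  hG : Fam U Y G
  hpr : ∀ i, SMap K U (pr i)
  hh : ∀ t, HasDerivAt h (h' t) t
  ch : Continuous h'
  h0 : h 0 = 0
  h1 : h (T / 4) = 1
  h2 : h (T / 2) = 0
  h3 : h (3 * T / 4) = 1
  h4 : h T = 0
  per : ∀ x ∈ K, ∀ t, Fm (x, t + T) = Fm (x, t)
  e0 : ∀ x ∈ K, ∀ t ∈ Ioo 0 (T / 4), Fm (x, t) = G (pr 0 x, h t)
  e1 : ∀ x ∈ K, ∀ t ∈ Ioo (T / 4) (T / 2), Fm (x, t) = G (pr 1 x, h t)
  e2 : ∀ x ∈ K, ∀ t ∈ Ioo (T / 2) (3 * T / 4), Fm (x, t) = G (pr 2 x, h t)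
  e3 : ∀ x ∈ K, ∀ t ∈ Ioo (3 * T / 4) T, Fm (x, t) = G (pr 3 x, h t)

/-- value of an arc: `a λ σ - a η + 2 M σ + 2 N` -/
def Ph (G : E₁ × ℝ → E') (om : E' → Ext E') (a : E → Ext E) (p : E → E₁) (σ : E → Ext E) :
    E → Ext E :=
  a * pull p (lam G om) * σ - a * pull p (eta G om) + (2 : ℝ) • (pull p (MM G om) * σ) +
    (2 : ℝ) • pull p (NN G om)

variable {K : Set E} {U : Set E₁} {Y : Set E'} {Fm : E × ℝ → E'} {G : E₁ × ℝ → E'}
    {pr : Fin 4 → E → E₁} {h h' : ℝ → ℝ} {T : ℝ} {om : E' → Ext E'} {x : E}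

/-- periodicity of `ξ` -/
theorem rs_per (hF : Fam K Y Fm) (per : ∀ x ∈ K, ∀ t, Fm (x, t + T) = Fm (x, t)) (hx : x ∈ K)
    (t : ℝ) : rs K x (xiF Fm om (x, t + T)) = rs K x (xiF Fm om (x, t)) := by
  have h1 := xiF_window (om := om) (pr := fun y : E => y) (h := fun t => t + T) (h' := fun _ => 1)
    (I := univ) hF hF
    (⟨fun _ _ => contDiffAt_id, fun _ h => h⟩ : SMap K K (fun y : E => y)) isOpen_univ
    (fun t => (hasDerivAt_id t).add_const T) (fun x hx t _ => (per x hx t).symm) hx (mem_univ t)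
  rw [one_smul, pull_id] at h1
  exact h1.symm

variable (w : Four K U Y Fm G pr h h' T) (hs : Sm Y om) (hc : Cl Y om)
  (he : ∀ y, inv (om y) = om y)
include w

theorem Four.w0 : Win K U Y Fm G (pr 0) h h' 0 (T / 4) :=
  ⟨w.hF, w.hG, w.hpr 0, by have := w.pos; linarith, w.hh, w.ch, w.e0⟩
theorem Four.w1 : Win K U Y Fm G (pr 1) h h' (T / 4) (T / 2) :=
  ⟨w.hF, w.hG, w.hpr 1, by have := w.pos; linarith, w.hh, w.ch, w.e1⟩
theorem Four.w2 : Win K U Y Fm G (pr 2) h h' (T / 2) (3 * T / 4) :=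
  ⟨w.hF, w.hG, w.hpr 2, by have := w.pos; linarith, w.hh, w.ch, w.e2⟩
theorem Four.w3 : Win K U Y Fm G (pr 3) h h' (3 * T / 4) T :=
  ⟨w.hF, w.hG, w.hpr 3, by have := w.pos; linarith, w.hh, w.ch, w.e3⟩

include hs

/-- `∫_0^{c_i} ξ` at the corners -/
theorem Four.corners (hx : x ∈ K) :
    rs K x (PL (xiF Fm om) (x, T / 4)) = Pr K (pr 0) x (lam G om (pr 0 x)) ∧
    rs K x (PL (xiF Fm om) (x, T / 2)) = Pr K (pr 0) x (lam G om (pr 0 x)) -
      Pr K (pr 1) x (lam G om (pr 1 x)) ∧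
    rs K x (PL (xiF Fm om) (x, 3 * T / 4)) = Pr K (pr 0) x (lam G om (pr 0 x)) -
      Pr K (pr 1) x (lam G om (pr 1 x)) + Pr K (pr 2) x (lam G om (pr 2 x)) ∧
    rs K x (PL (xiF Fm om) (x, T)) = Pr K (pr 0) x (lam G om (pr 0 x)) -
      Pr K (pr 1) x (lam G om (pr 1 x)) + Pr K (pr 2) x (lam G om (pr 2 x)) -
      Pr K (pr 3) x (lam G om (pr 3 x)) := by
  have hT := w.pos
  have z : ∀ z, ell G om (z, 0) = 0 := fun z => PL_zero _ _
  have o : ∀ z, ell G om (z, 1) = lam G om z := fun z => rfl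
  have a1 := w.w0.PL hs hx (T / 4) ⟨by linarith, le_rfl⟩
  rw [PL_zero, w.h0, z, map_zero, map_zero, sub_zero, zero_add, w.h1, o] at a1
  have a2 := w.w1.PL hs hx (T / 2) ⟨by linarith, le_rfl⟩
  rw [a1, w.h1, w.h2, z, o, map_zero, add_zero] at a2
  have a3 := w.w2.PL hs hx (3 * T / 4) ⟨by linarith, le_rfl⟩
  rw [a2, w.h2, w.h3, z, o, map_zero, sub_zero] at a3
  have a4 := w.w3.PL hs hx T ⟨by linarith, le_rfl⟩
  rw [a3, w.h3, w.h4, z, o, map_zero, add_zero] at a4
  exact ⟨a1, a2, a3, a4⟩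

/-- `∫_0^T ξ = λ₀ - λ₁ + λ₂ - λ₃` -/
theorem Four.L_eqv : Eqv K (TI 0 T (xiF Fm om))
    (pull (pr 0) (lam G om) - pull (pr 1) (lam G om) + pull (pr 2) (lam G om) -
      pull (pr 3) (lam G om)) := by
  refine eqv_rs.2 fun x hx => ?_
  have h1 := (w.corners hs hx).2.2.2
  rw [Pi.sub_apply, Pi.add_apply, Pi.sub_apply, map_sub, map_add, map_sub]
  exact h1

include hc he

theorem Four.dD (hx : x ∈ K) (t : ℝ) : rs K x (WF Fm om (x, t)) =
    rs K x (pull (pr 0) (fun z => WF G om (z, 0)) x + dF (PL (xiF Fm om)) (x, t)) := by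
  have h1 := w.hF.rs_W hs hc hx t
  have h2 := w.w0.W hs hx 0 ⟨le_rfl, by have := w.pos; linarith⟩
  rw [w.h0] at h2
  rw [h1, map_add, map_add, h2]
  rfl

theorem Four.D0 (hx : x ∈ K) : rs K x (dF (PL (xiF Fm om)) (x, T)) = 0 := by
  have h1 := w.hF.rs_W hs hc hx T
  have d1 : ∀ t, ∀ y ∈ K, DifferentiableAt ℝ (fun y => Fm (y, t)) y := fun t y hy =>
    ((w.hF.sm y hy t).comp y (contDiffAt_id.prodMk contDiffAt_const)).differentiableAt (by simp)
  have h2 := eqv_rs.1 (eqv_pull_of_eq (X := K) om (d1 T) (d1 0)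
    (fun y hy => by have := w.per y hy 0; rwa [zero_add] at this)) x hx
  have h3 : rs K x (WF Fm om (x, T)) = rs K x (WF Fm om (x, 0)) := h2
  rw [h3, map_add] at h1
  exact left_eq_add.1 h1

/-- the cubic integral of the family -/
theorem Four.B_eqv : Eqv K (TI 0 T (bb (pull (pr 0) (fun z => WF G om (z, 0))) (xiF Fm om)))
    (Ph G om (pull (pr 0) (fun z => WF G om (z, 0))) (pr 0) 0
      - Ph G om (pull (pr 0) (fun z => WF G om (z, 0))) (pr 1)
          (pull (pr 0) (lam G om) - pull (pr 1) (lam G om))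
      + Ph G om (pull (pr 0) (fun z => WF G om (z, 0))) (pr 2)
          (pull (pr 0) (lam G om) - pull (pr 1) (lam G om))
      - Ph G om (pull (pr 0) (fun z => WF G om (z, 0))) (pr 3)
          (pull (pr 0) (lam G om) - pull (pr 1) (lam G om) + pull (pr 2) (lam G om) -
            pull (pr 3) (lam G om))) := by
  refine eqv_rs.2 fun x hx => ?_
  have hT := w.pos
  have sF := w.hF.smF_xi hs
  have cξ := sF.cont hx
  have cP := sF.PL.cont hx
  have cDP := sF.PL.dF.cont hx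
  have cW := (w.hF.smF_W hs).cont hx
  set a : E → Ext E := pull (pr 0) (fun z => WF G om (z, 0)) with ha
  have cbb : Continuous fun t => bb a (xiF Fm om) (x, t) := by
    have q1 : Continuous fun t => (3 : ℝ) • a x + (2 : ℝ) • dF (PL (xiF Fm om)) (x, t) :=
      continuous_const.add (cDP.const_smul 2)
    exact cont_mul (cont_mul q1 cξ) cP
  rw [rs_TI cbb]
  set g : ℝ → Ext (Tan K x) := fun t => (rs K x (a x) + (2 : ℝ) • rs K x (WF Fm om (x, t))) *
    rs K x (xiF Fm om (x, t)) * rs K x (PL (xiF Fm om) (x, t)) with hg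
  have hbb : ∀ t, rs K x (bb a (xiF Fm om) (x, t)) = g t := by
    intro t
    simp only [bb, hg]
    rw [rs_mul, rs_mul, w.dD hs hc he hx t, map_add, map_add, map_smul, map_smul, smul_add]
    congr 2
    rw [← add_assoc]
    congr 1
    have : (3 : ℝ) • rs K x (a x) = (1 : ℝ) • rs K x (a x) + (2 : ℝ) • rs K x (a x) := by
      rw [← add_smul]; norm_num
    rw [this, one_smul]
  simp only [hbb]
  have R : ∀ {f : ℝ → Ext E}, Continuous f → Continuous fun t => rs K x (f t) := fun hf =>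
    (rs K x).continuous.comp hf
  have cg : Continuous g := by
    have q1 : Continuous fun t => rs K x (a x) + (2 : ℝ) • rs K x (WF Fm om (x, t)) :=
      continuous_const.add ((R cW).const_smul 2)
    exact cont_mul (cont_mul q1 (R cξ)) (R cP)
  have i := fun a b => cg.intervalIntegrable (μ := volume) a b
  rw [← intervalIntegral.integral_add_adjacent_intervals (i 0 (3 * T / 4)) (i (3 * T / 4) T),
    ← intervalIntegral.integral_add_adjacent_intervals (i 0 (T / 2)) (i (T / 2) (3 * T / 4)),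
    ← intervalIntegral.integral_add_adjacent_intervals (i 0 (T / 4)) (i (T / 4) (T / 2))]
  obtain ⟨c1, c2, c3, c4⟩ := w.corners hs hx
  have z : ∀ z, ell G om (z, 0) = 0 := fun z => PL_zero _ _
  have o : ∀ z, ell G om (z, 1) = lam G om z := fun z => rfl
  have v0 := w.w0.int hs hx (rs K x (a x)) 0 (by rw [w.h0, z, PL_zero, map_zero, map_zero, sub_zero])
  have v1 := w.w1.int hs hx (rs K x (a x)) _ rfl
  have v2 := w.w2.int hs hx (rs K x (a x)) _ rfl
  have v3 := w.w3.int hs hx (rs K x (a x)) _ rfl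
  rw [w.h0, w.h1, w.w0.val hs he hx] at v0
  rw [w.h1, w.h2, intervalIntegral.integral_symm 0 1, w.w1.val hs he hx, c1, o] at v1
  rw [w.h2, w.h3, w.w2.val hs he hx, c2, z, map_zero, sub_zero] at v2
  rw [w.h3, w.h4, intervalIntegral.integral_symm 0 1, w.w3.val hs he hx, c3, o] at v3
  rw [v0, v1, v2, v3]
  have hPh : ∀ (p : E → E₁) (σ : E → Ext E), rs K x (Ph G om a p σ x) =
      rs K x (a x) * Pr K p x (lam G om (p x)) * rs K x (σ x) -
        rs K x (a x) * Pr K p x (eta G om (p x)) +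
        (2 : ℝ) • (Pr K p x (MM G om (p x)) * rs K x (σ x)) +
        (2 : ℝ) • Pr K p x (NN G om (p x)) := by
    intro p σ
    simp only [Ph, Pi.add_apply, Pi.sub_apply, Pi.mul_apply, Pi.smul_apply, map_add, map_sub,
      map_smul, rs_mul, Pr_apply]
  simp only [Pi.add_apply, Pi.sub_apply, map_add, map_sub, hPh, Pi.zero_apply, map_zero,
    Pr_apply]
  abel

/-- **`T² ψ` of a four arc family** -/
theorem Four.psi_eqv : ∃ τ : E → Ext E, Sm K τ ∧ Eqv K ((T ^ 2) • psiK T (WF Fm om) (xiF Fm om))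
    (-((pull (pr 0) (lam G om) - pull (pr 1) (lam G om) + pull (pr 2) (lam G om) -
        pull (pr 3) (lam G om)) *
      (Ph G om (pull (pr 0) (fun z => WF G om (z, 0))) (pr 0) 0
      - Ph G om (pull (pr 0) (fun z => WF G om (z, 0))) (pr 1)
          (pull (pr 0) (lam G om) - pull (pr 1) (lam G om))
      + Ph G om (pull (pr 0) (fun z => WF G om (z, 0))) (pr 2)
          (pull (pr 0) (lam G om) - pull (pr 1) (lam G om))
      - Ph G om (pull (pr 0) (fun z => WF G om (z, 0))) (pr 3)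
          (pull (pr 0) (lam G om) - pull (pr 1) (lam G om) + pull (pr 2) (lam G om) -
            pull (pr 3) (lam G om)))) - F.d τ) := by
  have sF := w.hF.smF_xi hs
  refine ⟨_, ?_, (psiK_eqv (X := K) (a := pull (pr 0) (fun z => WF G om (z, 0))) w.pos.ne' sF
    (w.hF.smF_W hs) (inv_xiF he) ?_ (fun x hx t => rs_per w.hF w.per hx t)
    (fun x hx t => w.dD hs hc he hx t) (fun x hx => w.D0 hs hc he hx)).trans
    (((w.L_eqv hs).mul (w.B_eqv hs hc he)).neg.sub (Eqv.refl _))⟩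
  · exact (sF.sm_TI 0 T).mul ((sF.PL.av T).mul ((sF.PL.mul sF).sm_TI 0 T))
  · intro y
    rw [pull, ← pb_inv, inv_WF he]

end Crest.Agent.R208.AF
end
end

-- ▼ part R208/AF7
section

/-! Row 208, block (A2) (helper601).  AF7: top forms killed by a tangent vector field integrate to
zero; the integral of `ψ * y` over the four arc family. -/

set_option autoImplicit false
set_option linter.unusedSectionVars false

open MeasureTheory Set Filter Topology Module
open scoped ContDiff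
open Crest.Agent.R208.F Crest.Agent.R208.FI Crest.Agent.R208.CW Crest.Agent.R208.T

noncomputable section

namespace Crest.Agent.R208.AF

section kill
variable {E : Type*} [NormedAddCommGroup E] [NormedSpace ℝ E] [FiniteDimensional ℝ E]
  {E₁ : Type*} [NormedAddCommGroup E₁] [NormedSpace ℝ E₁] [FiniteDimensional ℝ E₁]
  {d : ℕ} {K : Set E} {v : E → E} {a b : E → Ext E} {o : E → Ext E}

/-- killed by the contraction with `v` -/
def Kl (K : Set E) (v : E → E) (a : E → Ext E) : Prop := ∀ x ∈ K, ii (v x) (a x) = 0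

theorem Kl.mul (ha : Kl K v a) (hb : Kl K v b) : Kl K v (a * b) := fun x hx => by
  rw [Pi.mul_apply, ii_mul, ha x hx, hb x hx, zero_mul, mul_zero, add_zero]
theorem Kl.add (ha : Kl K v a) (hb : Kl K v b) : Kl K v (a + b) := fun x hx => by
  rw [Pi.add_apply, map_add, ha x hx, hb x hx, add_zero]
theorem Kl.sub (ha : Kl K v a) (hb : Kl K v b) : Kl K v (a - b) := fun x hx => by
  rw [Pi.sub_apply, map_sub, ha x hx, hb x hx, sub_zero]
theorem Kl.neg (ha : Kl K v a) : Kl K v (-a) := fun x hx => by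
  rw [Pi.neg_apply, map_neg, ha x hx, neg_zero]
theorem Kl.smul (r : ℝ) (ha : Kl K v a) : Kl K v (r • a) := fun x hx => by
  rw [Pi.smul_apply, map_smul, ha x hx, smul_zero]
theorem Kl.zero : Kl K v (0 : E → Ext E) := fun _ _ => map_zero _
theorem Kl.pull {p : E → E₁} (h : ∀ x ∈ K, fderiv ℝ p x (v x) = 0) (w : E₁ → Ext E₁) :
    Kl K v (F.pull p w) := fun x hx => by
  have h1 : ((fderiv ℝ p x : E →L[ℝ] E₁) : E →ₗ[ℝ] E₁) (v x) = 0 := h x hx
  rw [F.pull, ii_pb, h1, map_zero, LinearMap.zero_apply, map_zero]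

theorem evA_eq_zero_of_ii {T : Submodule ℝ E} (hT : finrank ℝ T = d) {u : E} (hu : u ∈ T)
    (h0 : u ≠ 0) {c : Ext E} (hc : ii u c = 0) {w : Fin d → E} (hw : ∀ i, w i ∈ T) :
    evA E d c w = 0 := by
  obtain ⟨l, hl⟩ : ∃ l : Module.Dual ℝ E, l u ≠ 0 := by
    by_contra h
    push Not at h
    exact h0 ((Module.forall_dual_apply_eq_zero_iff ℝ u).1 h)
  have h1 : ii u (io l * c) = l u • c := by rw [ii_io_mul, hc, mul_zero, sub_zero]
  have h2 := evA_ii d (io l * c) u w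
  rw [h1, map_smul, AlternatingMap.smul_apply, smul_eq_mul] at h2
  have h3 : evA E (d + 1) (io l * c) (Matrix.vecCons u w) = 0 := by
    refine AlternatingMap.map_linearDependent _ _ fun hli => ?_
    have hmem : ∀ i, Matrix.vecCons u w i ∈ T := by
      intro i
      refine Fin.cases ?_ (fun j => ?_) i
      · exact hu
      · exact hw j
    have h4 : LinearIndependent ℝ (fun i => (⟨Matrix.vecCons u w i, hmem i⟩ : T)) := by
      rw [← LinearMap.linearIndependent_iff T.subtype (Submodule.ker_subtype T)]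
      exact hli
    have h5 := h4.fintype_card_le_finrank
    rw [hT, Fintype.card_fin] at h5
    omega
  rw [h3] at h2
  exact (mul_eq_zero.1 h2.symm).resolve_left hl

/-- **killed top forms have integral zero** -/
theorem J_kl (hK : Clo d K) (hv : ∀ x ∈ K, v x ∈ Tan K x) (h0 : ∀ x ∈ K, v x ≠ 0)
    (ha : Kl K v a) : J d K o a = 0 :=
  J_eq_zero hK fun x hx _ hw => evA_eq_zero_of_ii (hK.finrank_Tan hx) (hv x hx) (h0 x hx)
    (ha x hx) hw

theorem J_eqv (hK : Clo d K) (h : Eqv K a b) : J d K o a = J d K o b := by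
  refine J_congr hK fun x hx w hw => ?_
  have h1 := eqv_iff.1 h x hx
  let w' : Fin d → Tan K x := fun i => ⟨w i, hw i⟩
  have h2 : w = fun i => (Tan K x).subtype (w' i) := rfl
  rw [h2, ← evA_pb, ← evA_pb, h1]

/-- smooth with integral zero -/
def Nu (d : ℕ) (K : Set E) (o a : E → Ext E) : Prop := Sm K a ∧ J d K o a = 0

theorem Sm.contOn (ha : Sm K a) : ContinuousOn a K := fun x hx =>
  (ha x hx).continuousAt.continuousWithinAt

theorem J_add' (hK : Clo d K) (ho : Ori d K o) (ha : Sm K a) (hb : Sm K b) :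
    J d K o (a + b) = J d K o a + J d K o b := FI.J_add hK ho (Sm.contOn ha) (Sm.contOn hb)
theorem J_sub' (hK : Clo d K) (ho : Ori d K o) (ha : Sm K a) (hb : Sm K b) :
    J d K o (a - b) = J d K o a - J d K o b := FI.J_sub hK ho (Sm.contOn ha) (Sm.contOn hb)
theorem J_smul' (r : ℝ) : J d K o (r • a) = r * J d K o a := FI.J_smul r
theorem J_neg' : J d K o (-a) = - J d K o a := FI.J_neg

theorem Nu.add (hK : Clo d K) (ho : Ori d K o) (ha : Nu d K o a) (hb : Nu d K o b) :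
    Nu d K o (a + b) := ⟨ha.1.add hb.1, by rw [J_add' hK ho ha.1 hb.1, ha.2, hb.2, add_zero]⟩
theorem Nu.sub (hK : Clo d K) (ho : Ori d K o) (ha : Nu d K o a) (hb : Nu d K o b) :
    Nu d K o (a - b) := ⟨ha.1.sub hb.1, by rw [J_sub' hK ho ha.1 hb.1, ha.2, hb.2, sub_zero]⟩
theorem Nu.neg (ha : Nu d K o a) : Nu d K o (-a) := ⟨ha.1.neg, by rw [J_neg', ha.2, neg_zero]⟩
theorem Nu.smul (r : ℝ) (ha : Nu d K o a) : Nu d K o (r • a) :=
  ⟨ha.1.smul r, by rw [J_smul', ha.2, mul_zero]⟩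
theorem Nu.dd (hK : Clo d K) (ho : Ori d K o) (ha : Sm K a) : Nu d K o (F.d a) :=
  ⟨ha.d, J_d hK ho fun x hx => (ha x hx).of_le (by exact_mod_cast le_top)⟩
theorem Nu.of_eqv (hK : Clo d K) (ha : Sm K a) (h : Eqv K a b) (hb : Nu d K o b) : Nu d K o a :=
  ⟨ha, by rw [J_eqv hK h, hb.2]⟩

end kill

/-! ### the computation -/
section comp
variable {E : Type*} [NormedAddCommGroup E] [NormedSpace ℝ E] [FiniteDimensional ℝ E]
  {d : ℕ} {K : Set E} {o : E → Ext E}

/-- the differential forms on `K` occurring in the computation: `l i = λ_i`, `e i = η_i`,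
`M i`, `N i`; `a`, `y` basic; `v j` vertical vector of the `j`-th sphere. -/
structure Alg (d : ℕ) (K : Set E) (o : E → Ext E) (v : Fin 4 → E → E) (l e M N : Fin 4 → E → Ext E)
    (a b y : E → Ext E) : Prop where
  hK : Clo d K
  ho : Ori d K o
  vT : ∀ j, j ≠ 0 → ∀ x ∈ K, v j x ∈ Tan K x
  v0 : ∀ j, j ≠ 0 → ∀ x ∈ K, v j x ≠ 0
  sl : ∀ i, Sm K (l i)
  se : ∀ i, Sm K (e i)
  sM : ∀ i, Sm K (M i)
  sN : ∀ i, Sm K (N i)
  sa : Sm K a
  sb : Sm K b
  sy : Sm K y
  kl : ∀ i j, j ≠ 0 → i ≠ j → Kl K (v j) (l i)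
  ke : ∀ i j, j ≠ 0 → i ≠ j → Kl K (v j) (e i)
  kM : ∀ i j, j ≠ 0 → i ≠ j → Kl K (v j) (M i)
  kN : ∀ i j, j ≠ 0 → i ≠ j → Kl K (v j) (N i)
  ka : ∀ j, j ≠ 0 → Kl K (v j) a
  kb : ∀ j, j ≠ 0 → Kl K (v j) b
  ky : ∀ j, j ≠ 0 → Kl K (v j) y
  ol : ∀ i x, inv (l i x) = - l i x
  ee : ∀ i x, inv (e i x) = e i x
  oM : ∀ i x, inv (M i x) = - M i x
  ea : ∀ x, inv (a x) = a x
  eb : ∀ x, inv (b x) = b x
  dl : ∀ i, Eqv K (F.d (l i)) (b - a)
  dM : ∀ i, Eqv K ((2 : ℝ) • M i) ((a + b) * l i + F.d (e i))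
  dy : Cl K y

variable {v : Fin 4 → E → E} {l e M N : Fin 4 → E → Ext E} {a b y : E → Ext E}
  (A : Alg d K o v l e M N a b y)
include A

theorem Alg.nu_of_kl {f : E → Ext E} (hf : Sm K f) {j : Fin 4} (hj : j ≠ 0) (hk : Kl K (v j) f) :
    Nu d K o f := ⟨hf, J_kl A.hK (A.vT j hj) (A.v0 j hj) hk⟩

omit A in
theorem exists_j : ∀ m i : Fin 4, ∃ j : Fin 4, j ≠ 0 ∧ m ≠ j ∧ i ≠ j := by decide

/-- `l m * f * y` for `f` killed by all `v j`, `j ≠ 0, i` -/
theorem Alg.nu3 (m i : Fin 4) {f : E → Ext E} (hf : Sm K f)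
    (hk : ∀ j, j ≠ 0 → i ≠ j → Kl K (v j) f) : Nu d K o (l m * f * y) := by
  obtain ⟨j, hj0, hjm, hji⟩ := exists_j m i
  exact A.nu_of_kl (((A.sl m).mul hf).mul A.sy) hj0
    (((A.kl m j hj0 hjm).mul (hk j hj0 hji)).mul (A.ky j hj0))

/-- `L * f * y` -/
theorem Alg.nuL (i : Fin 4) {f : E → Ext E} (hf : Sm K f)
    (hk : ∀ j, j ≠ 0 → i ≠ j → Kl K (v j) f) : Nu d K o ((l 0 - l 1 + l 2 - l 3) * f * y) := by
  have h := fun m => A.nu3 m i hf hk
  have e1 : (l 0 - l 1 + l 2 - l 3) * f * y = l 0 * f * y - l 1 * f * y + l 2 * f * y - l 3 * f * y := by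
    simp only [add_mul, sub_mul]
  rw [e1]
  exact (((h 0).sub A.hK A.ho (h 1)).add A.hK A.ho (h 2)).sub A.hK A.ho (h 3)

/-- value of an arc -/
def Phi (l e M N : Fin 4 → E → Ext E) (a : E → Ext E) (i : Fin 4) (σ : E → Ext E) : E → Ext E :=
  a * l i * σ - a * e i + (2 : ℝ) • (M i * σ) + (2 : ℝ) • N i

theorem Alg.sPhi (i : Fin 4) {σ : E → Ext E} (hσ : Sm K σ) : Sm K (Phi l e M N a i σ) :=
  ((((A.sa.mul (A.sl i)).mul hσ).sub (A.sa.mul (A.se i))).add (((A.sM i).mul hσ).smul 2)).add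
    ((A.sN i).smul 2)

theorem Alg.kPhi (i : Fin 4) {σ : E → Ext E} {j : Fin 4} (hj : j ≠ 0) (hij : i ≠ j)
    (hσ : Kl K (v j) σ) : Kl K (v j) (Phi l e M N a i σ) :=
  (((((A.ka j hj).mul (A.kl i j hj hij)).mul hσ).sub ((A.ka j hj).mul (A.ke i j hj hij))).add
    (((A.kM i j hj hij).mul hσ).smul 2)).add ((A.kN i j hj hij).smul 2)

/-- the odd form `L` -/
theorem Alg.oL (x : E) : inv ((l 0 - l 1 + l 2 - l 3) x) = - (l 0 - l 1 + l 2 - l 3) x := by
  simp only [Pi.sub_apply, Pi.add_apply, map_sub, map_add, A.ol]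
  abel

/-- **first reduction** -/
theorem Alg.red1 : J d K o ((l 0 - l 1 + l 2 - l 3) *
      (Phi l e M N a 0 0 - Phi l e M N a 1 (l 0 - l 1) + Phi l e M N a 2 (l 0 - l 1)
        - Phi l e M N a 3 (l 0 - l 1 + l 2 - l 3)) * y) =
    J d K o (l 3 * ((a * l 2 + (2 : ℝ) • M 2) * l 1) * y) := by
  have hK := A.hK
  have ho := A.ho
  have s01 : Sm K (l 0 - l 1) := (A.sl 0).sub (A.sl 1)
  have sL : Sm K (l 0 - l 1 + l 2 - l 3) := ((s01.add (A.sl 2)).sub (A.sl 3))
  set L := l 0 - l 1 + l 2 - l 3 with hL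
  -- arc 0
  have n0 : Nu d K o (L * Phi l e M N a 0 0 * y) :=
    A.nuL 0 (A.sPhi 0 Sm.zero) fun j hj hij => A.kPhi 0 hj hij Kl.zero
  -- arc 1
  have n1 : Nu d K o (L * Phi l e M N a 1 (l 0 - l 1) * y) :=
    A.nuL 1 (A.sPhi 1 s01) fun j hj hij => A.kPhi 1 hj hij
      ((A.kl 0 j hj hj.symm).sub (A.kl 1 j hj hij))
  -- arc 3
  have n3 : Nu d K o (L * Phi l e M N a 3 L * y) := by
    have h1 : Nu d K o (L * ((2 : ℝ) • N 3 - a * e 3) * y) :=
      A.nuL 3 (((A.sN 3).smul 2).sub (A.sa.mul (A.se 3))) fun j hj hij =>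
        ((A.kN 3 j hj hij).smul 2).sub ((A.ka j hj).mul (A.ke 3 j hj hij))
    have h2 : L * Phi l e M N a 3 L * y = L * ((2 : ℝ) • N 3 - a * e 3) * y := by
      funext x
      have hll : L x * L x = 0 := odd_sq (A.oL x)
      have z : ∀ c : Ext E, L x * (c * L x) = 0 := fun c => by
        rw [← mul_assoc, odd_comm (A.oL x), mul_assoc, hll, mul_zero]
      have e1 : L x * Phi l e M N a 3 L x = L x * ((2 : ℝ) • N 3 x - a x * e 3 x) := by
        simp only [Phi, Pi.add_apply, Pi.sub_apply, Pi.mul_apply, Pi.smul_apply, mul_add, mul_sub,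
          mul_smul_comm, z]
        rw [smul_zero]; abel
      simp only [Pi.mul_apply, Pi.sub_apply, Pi.smul_apply]
      rw [e1]
    rw [h2]; exact h1
  -- arc 2
  have n2 : Nu d K o (L * (Phi l e M N a 2 (l 0)) * y) :=
    A.nuL 2 (A.sPhi 2 (A.sl 0)) fun j hj hij => A.kPhi 2 hj hij (A.kl 0 j hj hj.symm)
  set Q : E → Ext E := (a * l 2 + (2 : ℝ) • M 2) * l 1 with hQ
  have sQ : Sm K Q := ((A.sa.mul (A.sl 2)).add ((A.sM 2).smul 2)).mul (A.sl 1)
  have kQ : Kl K (v 3) Q := (((A.ka 3 (by decide)).mul (A.kl 2 3 (by decide) (by decide))).add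
    ((A.kM 2 3 (by decide) (by decide)).smul 2)).mul (A.kl 1 3 (by decide) (by decide))
  have nQ : ∀ m : Fin 4, m ≠ 3 → Nu d K o (l m * Q * y) := fun m hm =>
    A.nu_of_kl (((A.sl m).mul sQ).mul A.sy) (j := 3) (by decide)
      (((A.kl m 3 (by decide) hm).mul kQ).mul (A.ky 3 (by decide)))
  have key : L * (Phi l e M N a 0 0 - Phi l e M N a 1 (l 0 - l 1) + Phi l e M N a 2 (l 0 - l 1)
        - Phi l e M N a 3 L) * y = l 3 * Q * y + (L * Phi l e M N a 0 0 * y -
        L * Phi l e M N a 1 (l 0 - l 1) * y - L * Phi l e M N a 3 L * y + L * Phi l e M N a 2 (l 0) * y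
        - l 0 * Q * y + l 1 * Q * y - l 2 * Q * y) := by
    have e2 : Phi l e M N a 2 (l 0 - l 1) = Phi l e M N a 2 (l 0) - Q := by
      simp only [Phi, hQ, mul_sub, add_mul, smul_sub, smul_mul_assoc]
      abel
    have e3 : L * Q * y = l 0 * Q * y - l 1 * Q * y + l 2 * Q * y - l 3 * Q * y := by
      simp only [hL, add_mul, sub_mul]
    rw [e2]
    simp only [mul_add, mul_sub, add_mul, sub_mul, e3]
    abel
  rw [key]
  have hN : Nu d K o (L * Phi l e M N a 0 0 * y -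
        L * Phi l e M N a 1 (l 0 - l 1) * y - L * Phi l e M N a 3 L * y + L * Phi l e M N a 2 (l 0) * y
        - l 0 * Q * y + l 1 * Q * y - l 2 * Q * y) :=
    ((((((n0.sub hK ho n1).sub hK ho n3).add hK ho n2).sub hK ho (nQ 0 (by decide))).add hK ho
      (nQ 1 (by decide))).sub hK ho (nQ 2 (by decide)))
  rw [J_add' hK ho (((A.sl 3).mul sQ).mul A.sy) hN.1, hN.2, add_zero]

/-- **second reduction** -/
theorem Alg.red2 : J d K o (l 3 * ((a * l 2 + (2 : ℝ) • M 2) * l 1) * y) =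
    J d K o ((l 3 - l 0) * ((l 2 - l 0) * ((l 1 - l 0) * (((2 : ℝ) • a + b) * y)))) := by
  have hK := A.hK
  have ho := A.ho
  set c : E → Ext E := (2 : ℝ) • a + b with hc
  have sc : Sm K c := (A.sa.smul 2).add A.sb
  have kc : ∀ j, j ≠ 0 → Kl K (v j) c := fun j hj => ((A.ka j hj).smul 2).add (A.kb j hj)
  have ec : ∀ x, inv (c x) = c x := fun x => by
    simp only [hc, Pi.add_apply, Pi.smul_apply, map_add, map_smul, A.ea, A.eb]
  have scy : Sm K (c * y) := sc.mul A.sy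
  -- replace `2 M`
  have e1 : J d K o (l 3 * ((a * l 2 + (2 : ℝ) • M 2) * l 1) * y) =
      J d K o (l 3 * ((c * l 2) * l 1) * y + l 3 * (F.d (e 2) * l 1) * y) := by
    refine J_eqv hK ?_
    have h1 : Eqv K (l 3 * ((a * l 2 + (2 : ℝ) • M 2) * l 1) * y)
        (l 3 * ((a * l 2 + ((a + b) * l 2 + F.d (e 2))) * l 1) * y) :=
      ((Eqv.refl (l 3)).mul (((Eqv.refl _).add (A.dM 2)).mul (Eqv.refl _))).mul (Eqv.refl _)
    have h2 : l 3 * ((a * l 2 + ((a + b) * l 2 + F.d (e 2))) * l 1) * y =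
        l 3 * ((c * l 2) * l 1) * y + l 3 * (F.d (e 2) * l 1) * y := by
      simp only [hc, two_smul, add_mul, mul_add]
      abel
    rwa [h2] at h1
  -- the exact part
  have n1 : Nu d K o (l 3 * (F.d (e 2) * l 1) * y) := by
    have s1 : Sm K (l 1 * y) := (A.sl 1).mul A.sy
    have s2 : Sm K (e 2 * (l 1 * y)) := (A.se 2).mul s1
    have sba : Sm K (b - a) := A.sb.sub A.sa
    have n2 : Nu d K o (F.d (l 3 * (e 2 * (l 1 * y)))) := Nu.dd hK ho ((A.sl 3).mul s2)
    have e3 : Eqv K (F.d (l 3 * (e 2 * (l 1 * y))))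
        ((b - a) * (e 2 * (l 1 * y)) - l 3 * (F.d (e 2) * (l 1 * y) + e 2 * ((b - a) * y))) := by
      have d1 := d_mul_eqv (A.sl 3) s2
      have d2 := d_mul_eqv (A.se 2) s1
      have d3 := d_mul_eqv (A.sl 1) A.sy
      have i3 : (fun x => inv (l 3 x)) = - l 3 := funext fun x => A.ol 3 x
      have i2 : (fun x => inv (e 2 x)) = e 2 := funext fun x => A.ee 2 x
      have i1 : (fun x => inv (l 1 x)) = - l 1 := funext fun x => A.ol 1 x
      rw [i3] at d1; rw [i2] at d2; rw [i1] at d3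
      have hy : Eqv K (F.d y) 0 := resZero_iff.1 A.dy
      have d3' : Eqv K (F.d (l 1 * y)) ((b - a) * y) := by
        refine d3.trans ?_
        have := ((A.dl 1).mul (Eqv.refl y)).add ((Eqv.refl (-(l 1))).mul hy)
        rwa [mul_zero, add_zero] at this
      have d2' := d2.trans ((Eqv.refl (F.d (e 2) * (l 1 * y))).add ((Eqv.refl (e 2)).mul d3'))
      have d1' := d1.trans (((A.dl 3).mul (Eqv.refl (e 2 * (l 1 * y)))).add
        ((Eqv.refl (-(l 3))).mul d2'))
      rwa [neg_mul, ← sub_eq_add_neg] at d1'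
    have k1 : Nu d K o ((b - a) * (e 2 * (l 1 * y))) :=
      A.nu_of_kl (sba.mul s2) (j := 3) (by decide)
        (((A.kb 3 (by decide)).sub (A.ka 3 (by decide))).mul
          ((A.ke 2 3 (by decide) (by decide)).mul ((A.kl 1 3 (by decide) (by decide)).mul
            (A.ky 3 (by decide)))))
    have k2 : Nu d K o (l 3 * (e 2 * ((b - a) * y))) :=
      A.nu_of_kl ((A.sl 3).mul ((A.se 2).mul (sba.mul A.sy))) (j := 1) (by decide)
        ((A.kl 3 1 (by decide) (by decide)).mul ((A.ke 2 1 (by decide) (by decide)).mul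
          (((A.kb 1 (by decide)).sub (A.ka 1 (by decide))).mul (A.ky 1 (by decide)))))
    have sde : Sm K (l 3 * (F.d (e 2) * l 1) * y) := ((A.sl 3).mul ((A.se 2).d.mul (A.sl 1))).mul A.sy
    refine Nu.of_eqv hK sde ?_ ((k1.sub hK ho k2).sub hK ho n2)
    have e4 := (Eqv.refl ((b - a) * (e 2 * (l 1 * y)) - l 3 * (e 2 * ((b - a) * y)))).sub e3.symm
    have e5 : (b - a) * (e 2 * (l 1 * y)) - l 3 * (e 2 * ((b - a) * y)) -
        ((b - a) * (e 2 * (l 1 * y)) - l 3 * (F.d (e 2) * (l 1 * y) + e 2 * ((b - a) * y))) =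
        l 3 * (F.d (e 2) * l 1) * y := by
      simp only [mul_add, mul_assoc]
      abel
    rw [e5] at e4
    exact e4
  have sm1 : Sm K (l 3 * ((c * l 2) * l 1) * y) := ((A.sl 3).mul ((sc.mul (A.sl 2)).mul (A.sl 1))).mul A.sy
  rw [e1, J_add' hK ho sm1 n1.1, n1.2, add_zero]
  have e6 : l 3 * ((c * l 2) * l 1) * y = l 3 * (l 2 * (l 1 * (c * y))) := by
    funext x
    simp only [Pi.mul_apply]
    have cc : ∀ b, c x * b = b * c x := fun b => even_comm (ec x) b
    simp only [mul_assoc]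
    rw [← mul_assoc (c x), cc (l 2 x), mul_assoc, ← mul_assoc (c x), cc (l 1 x), mul_assoc]
  rw [e6]
  -- replace `l j` by `l j - l 0`
  have k0 : ∀ j, j ≠ 0 → Kl K (v j) (l 0) := fun j hj => A.kl 0 j hj hj.symm
  have kcy : ∀ j, j ≠ 0 → Kl K (v j) (c * y) := fun j hj => (kc j hj).mul (A.ky j hj)
  have key : (l 3 - l 0) * ((l 2 - l 0) * ((l 1 - l 0) * (c * y))) =
      l 3 * (l 2 * (l 1 * (c * y))) - (l 0 * ((l 2 - l 0) * ((l 1 - l 0) * (c * y))) +
        l 3 * (l 0 * ((l 1 - l 0) * (c * y))) + l 3 * (l 2 * (l 0 * (c * y)))) := by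
    simp only [mul_sub, sub_mul]
    abel
  have sl0 := fun i => (A.sl i).sub (A.sl 0)
  have t3 : Nu d K o (l 0 * ((l 2 - l 0) * ((l 1 - l 0) * (c * y)))) :=
    A.nu_of_kl ((A.sl 0).mul ((sl0 2).mul ((sl0 1).mul scy))) (j := 3) (by decide)
      ((k0 3 (by decide)).mul (((A.kl 2 3 (by decide) (by decide)).sub (k0 3 (by decide))).mul
        (((A.kl 1 3 (by decide) (by decide)).sub (k0 3 (by decide))).mul (kcy 3 (by decide)))))
  have t2 : Nu d K o (l 3 * (l 0 * ((l 1 - l 0) * (c * y)))) :=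
    A.nu_of_kl ((A.sl 3).mul ((A.sl 0).mul ((sl0 1).mul scy))) (j := 2) (by decide)
      ((A.kl 3 2 (by decide) (by decide)).mul ((k0 2 (by decide)).mul
        (((A.kl 1 2 (by decide) (by decide)).sub (k0 2 (by decide))).mul (kcy 2 (by decide)))))
  have t1 : Nu d K o (l 3 * (l 2 * (l 0 * (c * y)))) :=
    A.nu_of_kl ((A.sl 3).mul ((A.sl 2).mul ((A.sl 0).mul scy))) (j := 1) (by decide)
      ((A.kl 3 1 (by decide) (by decide)).mul ((A.kl 2 1 (by decide) (by decide)).mul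
        ((k0 1 (by decide)).mul (kcy 1 (by decide)))))
  have tt := (t3.add hK ho t2).add hK ho t1
  rw [key, J_sub' hK ho ((A.sl 3).mul ((A.sl 2).mul ((A.sl 1).mul scy))) tt.1, tt.2, sub_zero]

end comp

end Crest.Agent.R208.AF
end
end

-- ▼ part R208/AF8
section

/-! Row 208, block (A2) (helper601).  AF8: the integral of `ψ * y` over the four arc family is
`- T⁻² ∫ (λ₃-λ₀)(λ₂-λ₀)(λ₁-λ₀)(2a+b) y`. -/

set_option autoImplicit false
set_option linter.unusedSectionVars false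

open MeasureTheory Set Filter Topology Module
open scoped ContDiff
open Crest.Agent.R208.F Crest.Agent.R208.FI Crest.Agent.R208.CW Crest.Agent.R208.T

noncomputable section

namespace Crest.Agent.R208.AF

section par
variable {V : Type*} [NormedAddCommGroup V] [NormedSpace ℝ V] [FiniteDimensional ℝ V]

/-- the grade involution as an equivalence -/
def invE : Ext V ≃L[ℝ] Ext V :=
  (LinearEquiv.ofInvolutive (inv : Ext V →ₐ[ℝ] Ext V).toLinearMap
    (fun x => F.inv_inv x)).toContinuousLinearEquiv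

theorem inv_int' (g : ℝ → Ext V) (a b : ℝ) : inv (∫ t in a..b, g t) = ∫ t in a..b, inv (g t) := by
  have h : ∀ c : Ext V, invE c = inv c := fun _ => rfl
  rw [intervalIntegral, intervalIntegral, map_sub, ← h, ← h, ← ContinuousLinearEquiv.integral_comp_comm,
    ← ContinuousLinearEquiv.integral_comp_comm]
  rfl

theorem inv_int_odd {g : ℝ → Ext V} (a b : ℝ) (hg : ∀ t, inv (g t) = - g t) :
    inv (∫ t in a..b, g t) = - ∫ t in a..b, g t := by
  rw [inv_int']
  simp only [hg, intervalIntegral.integral_neg]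

theorem inv_int_even {g : ℝ → Ext V} (a b : ℝ) (hg : ∀ t, inv (g t) = g t) :
    inv (∫ t in a..b, g t) = ∫ t in a..b, g t := by
  rw [inv_int']
  simp only [hg]

end par

section um
universe v
variable {E₁ : Type v} [NormedAddCommGroup E₁] [NormedSpace ℝ E₁] [FiniteDimensional ℝ E₁]
  {E' : Type*} [NormedAddCommGroup E'] [NormedSpace ℝ E'] [FiniteDimensional ℝ E']
  {U : Set E₁} {Y : Set E'} {G : E₁ × ℝ → E'} {om : E' → Ext E'}

theorem inv_ell (he : ∀ y, inv (om y) = om y) (p : E₁ × ℝ) :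
    inv (ell G om p) = - ell G om p := inv_int_odd _ _ fun _ => inv_xiF he _
theorem inv_lam (he : ∀ y, inv (om y) = om y) (z : E₁) :
    inv (lam G om z) = - lam G om z := inv_int_odd _ _ fun _ => inv_xiF he _
theorem inv_eta (he : ∀ y, inv (om y) = om y) (z : E₁) : inv (eta G om z) = eta G om z :=
  inv_int_even _ _ fun _ => by rw [map_mul, inv_ell he, inv_xiF he, neg_mul_neg]
theorem inv_MM (he : ∀ y, inv (om y) = om y) (z : E₁) : inv (MM G om z) = - MM G om z :=
  inv_int_odd _ _ fun _ => by rw [map_mul, inv_WF he, inv_xiF he, mul_neg]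

/-- `d λ = b - a` on `U` -/
theorem d_lam (hG : Fam U Y G) (hs : Sm Y om) (hc : Cl Y om) :
    Eqv U (F.d (lam G om)) ((fun z => WF G om (z, 1)) - fun z => WF G om (z, 0)) := by
  refine eqv_rs.2 fun z hz => ?_
  have h1 := hG.rs_W hs hc hz 1
  rw [Pi.sub_apply, map_sub, h1, map_add, add_sub_cancel_left]
  rfl

/-- `2 ∫ W θ = (a + b) λ + d η` on `U` -/
theorem two_MM (hG : Fam U Y G) (hs : Sm Y om) (hc : Cl Y om) (he : ∀ y, inv (om y) = om y) :
    Eqv U ((2 : ℝ) • MM G om)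
      (((fun z => WF G om (z, 0)) + fun z => WF G om (z, 1)) * lam G om + F.d (eta G om)) := by
  refine eqv_rs.2 fun z hz => ?_
  have sG := hG.smF_xi hs
  have cξ := sG.cont hz
  have cP := sG.PL.cont hz
  have cDP := sG.PL.dF.cont hz
  have cdξ := sG.dF.cont hz
  have hPξ : SmF U (fun p => PL (xiF G om) p * xiF G om p) := sG.PL.mul sG
  set R := rs U z with hR
  have Rm : ∀ a b, R (a * b) = R a * R b := rs_mul U z
  have Rinv : ∀ a, inv (R a) = R (inv a) := rs_inv U z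
  have cX1 : Continuous fun t => R (xiF G om (z, t)) := R.continuous.comp cξ
  have dL1 : ∀ t, HasDerivAt (fun t => R (PL (xiF G om) (z, t))) (R (xiF G om (z, t))) t := fun t =>
    R.hasFDerivAt.comp_hasDerivAt t (sG.hasDerivAt_PL hz t)
  have hdP : ∀ t, dF (PL (xiF G om)) (z, t) = PL (dF (xiF G om)) (z, t) := fun t => sG.dF_PL hz t
  have dD1 : ∀ t, HasDerivAt (fun t => R (dF (PL (xiF G om)) (z, t))) (R (dF (xiF G om) (z, t))) t := by
    intro t
    have h1 := sG.dF.hasDerivAt_PL hz t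
    simp only [hdP]
    exact R.hasFDerivAt.comp_hasDerivAt t h1
  have eD : ∀ t, inv (dF (PL (xiF G om)) (z, t)) = dF (PL (xiF G om)) (z, t) := by
    intro t
    rw [hdP]
    show inv (∫ s in (0 : ℝ)..t, dF (xiF G om) (z, s)) = ∫ s in (0 : ℝ)..t, dF (xiF G om) (z, s)
    rw [inv_int']
    refine intervalIntegral.integral_congr fun s _ => ?_
    exact inv_d_of_odd ((sG.slice hz s).differentiableAt (by simp))
      (Eventually.of_forall fun y => inv_xiF he _)
  have cRD : Continuous fun t => R (dF (PL (xiF G om)) (z, t)) := R.continuous.comp cDP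
  have cRd : Continuous fun t => R (dF (xiF G om) (z, t)) := R.continuous.comp cdξ
  have h2C := two_C (T := 1) cX1 dL1 cRd dD1
    (by simp only [PL_zero, map_zero]) (fun t => by rw [Rinv, eD])
  -- left side
  have rW : ∀ t, R (WF G om (z, t)) = R (WF G om (z, 0)) + R (dF (PL (xiF G om)) (z, t)) := by
    intro t
    rw [← map_add]
    exact hG.rs_W hs hc hz t
  have e1 : R (((2 : ℝ) • MM G om) z) = (2 : ℝ) • (R (WF G om (z, 0)) * R (lam G om z)) +
      (2 : ℝ) • ∫ t in (0 : ℝ)..1, R (dF (PL (xiF G om)) (z, t)) * R (xiF G om (z, t)) := by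
    have cWθ : Continuous fun t => WF G om (z, t) * xiF G om (z, t) :=
      cont_mul ((hG.smF_W hs).cont hz) cξ
    have h1 : R (MM G om z) = ∫ t in (0 : ℝ)..1, R (WF G om (z, t) * xiF G om (z, t)) := by
      rw [hR]; exact rs_TI cWθ 0 1
    have h2 : R (lam G om z) = ∫ t in (0 : ℝ)..1, R (xiF G om (z, t)) := by
      rw [hR]; exact rs_TI cξ 0 1
    rw [Pi.smul_apply, map_smul, h1, h2, ← int_left _ cX1, ← smul_add,
      ← intervalIntegral.integral_add ((cont_mul continuous_const cX1).intervalIntegrable _ _)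
        ((cont_mul cRD cX1).intervalIntegrable _ _)]
    congr 1
    refine intervalIntegral.integral_congr fun t _ => ?_
    show R (WF G om (z, t) * xiF G om (z, t)) = _
    rw [Rm, rW t, add_mul]
  have rdη : R (F.d (eta G om) z) =
      ∫ t in (0 : ℝ)..1, (R (dF (PL (xiF G om)) (z, t)) * R (xiF G om (z, t)) +
        -(R (PL (xiF G om) (z, t))) * R (dF (xiF G om) (z, t))) := by
    have h1 : F.d (eta G om) z = TI 0 1 (dF (fun p => PL (xiF G om) p * xiF G om p)) z :=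
      hPξ.d_TI 0 1 hz
    rw [h1, hR, rs_TI (hPξ.dF.cont hz)]
    refine intervalIntegral.integral_congr fun t _ => ?_
    show rs U z (dF (fun p => PL (xiF G om) p * xiF G om p) (z, t)) = _
    rw [dF_mul sG.PL sG hz t, map_add, rs_mul, rs_mul]
    have : inv (PL (xiF G om) (z, t)) = - PL (xiF G om) (z, t) := inv_ell he (z, t)
    rw [this, map_neg]
  have eW : inv (R (WF G om (z, 0))) = R (WF G om (z, 0)) := by rw [Rinv, inv_WF he]
  rw [e1, h2C, Pi.add_apply, Pi.mul_apply, Pi.add_apply, map_add, Rm, map_add, rdη, rW 1]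
  have hl : R (PL (xiF G om) (z, 1)) = R (lam G om z) := rfl
  rw [hl]
  have c1 : R (lam G om z) * R (dF (PL (xiF G om)) (z, 1)) =
      R (dF (PL (xiF G om)) (z, 1)) * R (lam G om z) :=
    (even_comm (by rw [Rinv, eD]) _).symm
  rw [c1, two_smul, add_mul, add_mul]
  abel

end um

section four
universe u v
variable {E : Type u} [NormedAddCommGroup E] [NormedSpace ℝ E] [FiniteDimensional ℝ E]
  {E₁ : Type v} [NormedAddCommGroup E₁] [NormedSpace ℝ E₁] [FiniteDimensional ℝ E₁]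
  {E' : Type*} [NormedAddCommGroup E'] [NormedSpace ℝ E'] [FiniteDimensional ℝ E']
  {K : Set E} {U : Set E₁} {Y : Set E'} {Fm : E × ℝ → E'} {G : E₁ × ℝ → E'}
  {pr : Fin 4 → E → E₁} {h h' : ℝ → ℝ} {T : ℝ} {om : E' → Ext E'} {d : ℕ} {o : E → Ext E}
  {v : Fin 4 → E → E} {y : E₁ → Ext E₁}

/-- pull-backs of the end forms do not depend on the arc -/
theorem end_eqv (hG : Fam U Y G) {p q : E → E₁} (hp : SMap K U p) (hq : SMap K U q)
    (c : ℝ) (h : ∀ x ∈ K, G (p x, c) = G (q x, c)) :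
    Eqv K (pull p (fun z => WF G om (z, c))) (pull q (fun z => WF G om (z, c))) := by
  have dG : ∀ z ∈ U, DifferentiableAt ℝ (fun z => G (z, c)) z := fun z hz =>
    ((hG.sm z hz c).comp z (contDiffAt_id.prodMk contDiffAt_const)).differentiableAt (by simp)
  have e : ∀ {p : E → E₁}, SMap K U p → ∀ x ∈ K, pull p (fun z => WF G om (z, c)) x =
      pull (fun x => G (p x, c)) om x := fun {p} hp x hx =>
    pull_comp (f := p) (g := fun z => G (z, c)) (hp.diff hx) (dG _ (hp.maps hx))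
  refine (Eqv.of_eq (e hp)).trans (Eqv.trans ?_ (Eqv.of_eq (e hq)).symm)
  exact eqv_pull_of_eq om (fun x hx => (dG _ (hp.maps hx)).comp x (hp.diff hx))
    (fun x hx => (dG _ (hq.maps hx)).comp x (hq.diff hx)) h

variable (w : Four K U Y Fm G pr h h' T) (hs : Sm Y om) (hc : Cl Y om)
  (he : ∀ y, inv (om y) = om y)
include w hs hc he

/-- the data of AF7 -/
theorem Four.alg (hK : Clo d K) (ho : Ori d K o)
    (hp0 : ∀ i, ∀ x ∈ K, G (pr i x, 0) = G (pr 0 x, 0))
    (hp1 : ∀ i, ∀ x ∈ K, G (pr i x, 1) = G (pr 0 x, 1))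
    (vT : ∀ j, j ≠ 0 → ∀ x ∈ K, v j x ∈ Tan K x) (v0 : ∀ j, j ≠ 0 → ∀ x ∈ K, v j x ≠ 0)
    (hv : ∀ i j, j ≠ 0 → i ≠ j → ∀ x ∈ K, fderiv ℝ (pr i) x (v j x) = 0)
    (sy : Sm U y) (cy : Cl U y) :
    Alg d K o v (fun i => pull (pr i) (lam G om)) (fun i => pull (pr i) (eta G om))
      (fun i => pull (pr i) (MM G om)) (fun i => pull (pr i) (NN G om))
      (pull (pr 0) (fun z => WF G om (z, 0))) (pull (pr 0) (fun z => WF G om (z, 1)))
      (pull (pr 0) y) := by
  have hG := w.hG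
  have hW := hG.smF_W hs
  have sW : ∀ c : ℝ, Sm U (fun z => WF G om (z, c)) := fun c z hz => hW.slice hz c
  have kill : ∀ i j, j ≠ 0 → i ≠ j → ∀ f : E₁ → Ext E₁, Kl K (v j) (pull (pr i) f) :=
    fun i j hj hij f => Kl.pull (hv i j hj hij) f
  refine
    { hK := hK, ho := ho, vT := vT, v0 := v0
      sl := fun i => (sm_lam hG hs).pull (w.hpr i)
      se := fun i => (sm_eta hG hs).pull (w.hpr i)
      sM := fun i => (sm_MM hG hs).pull (w.hpr i)
      sN := fun i => (sm_NN hG hs).pull (w.hpr i)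
      sa := (sW 0).pull (w.hpr 0)
      sb := (sW 1).pull (w.hpr 0)
      sy := sy.pull (w.hpr 0)
      kl := fun i j hj hij => kill i j hj hij _
      ke := fun i j hj hij => kill i j hj hij _
      kM := fun i j hj hij => kill i j hj hij _
      kN := fun i j hj hij => kill i j hj hij _
      ka := fun j hj => kill 0 j hj hj.symm _
      kb := fun j hj => kill 0 j hj hj.symm _
      ky := fun j hj => kill 0 j hj hj.symm _
      ol := fun i x => by rw [pull, ← pb_inv, inv_lam he, map_neg]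
      ee := fun i x => by rw [pull, ← pb_inv, inv_eta he]
      oM := fun i x => by rw [pull, ← pb_inv, inv_MM he, map_neg]
      ea := fun x => by rw [pull, ← pb_inv, inv_WF he]
      eb := fun x => by rw [pull, ← pb_inv, inv_WF he]
      dl := ?_
      dM := ?_
      dy := Cl.pull (w.hpr 0) sy cy }
  · intro i
    refine (d_pull_eqv (w.hpr i) (sm_lam hG hs)).trans ?_
    refine ((d_lam hG hs hc).pull (w.hpr i)).trans ?_
    rw [pull_sub']
    exact (end_eqv hG (w.hpr i) (w.hpr 0) 1 (hp1 i)).sub (end_eqv hG (w.hpr i) (w.hpr 0) 0 (hp0 i))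
  · intro i
    have h1 := (two_MM hG hs hc he).pull (w.hpr i)
    rw [pull_smul', pull_add', pull_mul', pull_add'] at h1
    refine h1.trans ?_
    exact (((end_eqv hG (w.hpr i) (w.hpr 0) 0 (hp0 i)).add
      (end_eqv hG (w.hpr i) (w.hpr 0) 1 (hp1 i))).mul (Eqv.refl _)).add
      (d_pull_eqv (w.hpr i) (sm_eta hG hs)).symm

/-- **the integral of `ψ * y` over a four arc family** -/
theorem Four.J_psi (hK : Clo d K) (ho : Ori d K o)
    (hp0 : ∀ i, ∀ x ∈ K, G (pr i x, 0) = G (pr 0 x, 0))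
    (hp1 : ∀ i, ∀ x ∈ K, G (pr i x, 1) = G (pr 0 x, 1))
    (vT : ∀ j, j ≠ 0 → ∀ x ∈ K, v j x ∈ Tan K x) (v0 : ∀ j, j ≠ 0 → ∀ x ∈ K, v j x ≠ 0)
    (hv : ∀ i j, j ≠ 0 → i ≠ j → ∀ x ∈ K, fderiv ℝ (pr i) x (v j x) = 0)
    (sy : Sm U y) (cy : Cl U y) :
    T ^ 2 * J d K o (psiK T (WF Fm om) (xiF Fm om) * pull (pr 0) y) =
      - J d K o ((pull (pr 3) (lam G om) - pull (pr 0) (lam G om)) *
        ((pull (pr 2) (lam G om) - pull (pr 0) (lam G om)) *
        ((pull (pr 1) (lam G om) - pull (pr 0) (lam G om)) *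
        (((2 : ℝ) • pull (pr 0) (fun z => WF G om (z, 0)) + pull (pr 0) (fun z => WF G om (z, 1))) *
          pull (pr 0) y)))) := by
  have A := w.alg hs hc he hK ho hp0 hp1 vT v0 hv sy cy
  obtain ⟨τ, sτ, hτ⟩ := w.psi_eqv hs hc he
  have r1 := A.red1
  have r2 := A.red2
  have e1 : (T ^ 2) • (psiK T (WF Fm om) (xiF Fm om) * pull (pr 0) y) =
      ((T ^ 2) • psiK T (WF Fm om) (xiF Fm om)) * pull (pr 0) y := by
    rw [smul_mul_assoc]
  rw [← J_smul', e1, J_eqv hK (hτ.mul (Eqv.refl (pull (pr 0) y)))]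
  have s01 : Sm K (pull (pr 0) (lam G om) - pull (pr 1) (lam G om)) := (A.sl 0).sub (A.sl 1)
  have sL : Sm K (pull (pr 0) (lam G om) - pull (pr 1) (lam G om) + pull (pr 2) (lam G om) -
    pull (pr 3) (lam G om)) := (s01.add (A.sl 2)).sub (A.sl 3)
  have sB := (((A.sPhi 0 Sm.zero).sub (A.sPhi 1 s01)).add (A.sPhi 2 s01)).sub (A.sPhi 3 sL)
  have nτ : Nu d K o (F.d τ * pull (pr 0) y) := by
    refine Nu.of_eqv hK (sτ.d.mul A.sy) ?_ (Nu.dd hK ho (sτ.mul A.sy))
    have h1 := d_mul_eqv sτ A.sy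
    have h2 : Eqv K (F.d (pull (pr 0) y)) 0 := resZero_iff.1 A.dy
    have h3 := h1.trans ((Eqv.refl (F.d τ * pull (pr 0) y)).add
      ((Eqv.refl (fun x => inv (τ x))).mul h2))
    rw [mul_zero, add_zero] at h3
    exact h3.symm
  rw [sub_mul, neg_mul]
  refine (J_sub' hK ho ((sL.mul sB).mul A.sy).neg nτ.1).trans ?_
  rw [nτ.2, sub_zero, J_neg']
  congr 1
  exact r1.trans r2

end four

end Crest.Agent.R208.AF
end
end

-- ▼ part R208/AF9

/-! Row 208, block (A2) (helper601).  AF9: integration over the nested sphere bundle. -/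

set_option autoImplicit false
set_option linter.unusedSectionVars false

open MeasureTheory Set Filter Topology Module
open scoped ContDiff RealInnerProductSpace
open Crest.GeometryTopology.Submanifold
open Crest.Agent.R241.DDefs
open Crest.Agent.R241.D2
open Crest.Agent.R208.F Crest.Agent.R208.FI Crest.Agent.R208.CW Crest.Agent.R208.T
open Crest.Agent.R208.FG (OSubm)
open Crest.Agent.R208.SB (OPr oV)

noncomputable section

namespace Crest.Agent.R208.AF

section gen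
variable {E H : Type*} [NormedAddCommGroup E] [NormedSpace ℝ E] [FiniteDimensional ℝ E]
  [NormedAddCommGroup H] [InnerProductSpace ℝ H] [FiniteDimensional ℝ H]
  {X : Set E} {P : E → H →L[ℝ] H} {r : ℕ}

theorem preconn_Sph (hX : IsCompact X) (hXc : IsPreconnected X) (hP : PField X r P) (hr : 2 ≤ r) :
    IsPreconnected (Sph X P) := by
  have key : ∀ x ∈ X, Sph X P ∩ Prod.fst ⁻¹' {x} =
      (fun v : H => (x, v)) '' {v : H | v ∈ LinearMap.range (P x : H →ₗ[ℝ] H) ∧ ‖v‖ = 1} := by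
    intro x hx
    ext ⟨y, v⟩
    constructor
    · rintro ⟨⟨⟨h1, h2⟩, h3⟩, h4⟩
      obtain rfl : y = x := h4
      exact ⟨v, ⟨⟨v, h2⟩, h3⟩, rfl⟩
    · rintro ⟨w, ⟨⟨u, hu⟩, h3⟩, h4⟩
      obtain ⟨rfl, rfl⟩ := Prod.mk.inj h4
      have hu' : P x u = w := hu
      exact ⟨⟨⟨hx, by show P x w = w; rw [← hu', hP.idem x hx]⟩, h3⟩, rfl⟩
  have hfr : ∀ x ∈ X, 2 ≤ finrank ℝ (LinearMap.range (P x : H →ₗ[ℝ] H)) := fun x hx => by
    rw [hP.rank x hx]; exact hr
  refine FV.preconn_of_fibres (SB.isCompact_Sph hX hP) continuousOn_fst ?_ hXc fun x hx => ?_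
  · refine Subset.antisymm ?_ fun x hx => ?_
    · rintro _ ⟨z, hz, rfl⟩
      exact hz.1.1
    · have : Nontrivial (LinearMap.range (P x : H →ₗ[ℝ] H)) :=
        Module.nontrivial_of_finrank_pos (R := ℝ) (by have := hfr x hx; omega)
      obtain ⟨u, hu⟩ := exists_norm_eq (LinearMap.range (P x : H →ₗ[ℝ] H)) (c := 1) zero_le_one
      have h1 : (x, (u : H)) ∈ Sph X P ∩ Prod.fst ⁻¹' {x} := by
        rw [key x hx]; exact ⟨u, ⟨u.2, hu⟩, rfl⟩
      exact ⟨_, h1.1, rfl⟩
  · rw [key x hx]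
    exact (SN.preconn_sph (hfr x hx)).image _ (by fun_prop)

theorem J_ori_eq {n : ℕ} {o o' om : E → Ext E} (hX : Clo n X) (h : ∀ x ∈ X, o x = o' x) :
    J n X o om = J n X o' om := by
  rw [J, J]
  refine setIntegral_congr_fun hX.measurableSet ?_
  rintro _ ⟨x, hx, rfl⟩
  simp only [ContinuousLinearEquiv.symm_apply_apply, dens, h x hx]

end gen

section step
variable {E E' : Type*} [NormedAddCommGroup E] [NormedSpace ℝ E] [FiniteDimensional ℝ E]
  [NormedAddCommGroup E'] [NormedSpace ℝ E'] [FiniteDimensional ℝ E']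
  {r b : ℕ} {Z : Set E'} {X : Set E} {π : E' → E} {oV' : E' → Ext E'} {oX : E → Ext E}

theorem step (h : OSubm r b Z X π oV' oX) {μ : E' → Ext E'} (hμ : ContinuousOn μ Z) {c : ℝ}
    (hc : ∀ x ∈ X, J r (Z ∩ π ⁻¹' {x}) oV' μ = c) {w : E → Ext E} (hw : ContinuousOn w X)
    (hd : Hom b w) :
    J (r + b) Z (fun z => oV' z * pull π oX z) (μ * pull π w) = c * J b X oX w := by
  have h1 := fibre_integration h.subm h.cV h.tot h.low hμ hw (fun x _ q hq => hd x q (by omega))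
  change J _ Z _ (fun z => μ z * pull π w z) = _
  rw [h1, ← J_smul]
  exact J_congr' h.subm.cloX fun x hx => by rw [hc x hx]

end step

section link
variable {n N k r d : ℕ} {κ : ℝ} {S : Set (Euc N)} {G : Geo n N κ S}
  {E : Type*} [NormedAddCommGroup E] [NormedSpace ℝ E] [FiniteDimensional ℝ E]
  {X : Set E} {b : E → Euc N × Euc N} {σ : ℝ} {oX : E → Ext E}
  {oP : Euc N × Euc N → Ext (Euc N)} {lm : Euc N × Euc N → Ext (Euc N × Euc N)}
open Crest.Agent.R208.L (US)
open Crest.Agent.R208.FV (phi PVB up dn)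

/-- the link field along `b` -/
def PB (h : GT.Bla G k) (b : E → Euc N × Euc N) (z : E) : Euc N →L[ℝ] Euc N := PVB h (phi G (b z))

/-- `(x, v) ↦ (p, σ v)` -/
def ar (b : E → Euc N × Euc N) (σ : ℝ) (z : E × Euc N) : Euc N × Euc N := ((b z.1).1, σ • z.2)

theorem smap_phi (h : GT.Bla G k) : SMap (US G) (GT.FF S) (phi G) :=
  ⟨fun _ hz => FV.contDiffAt_phi hz.1, fun _ hz => FV.phi_mem h.bl hz⟩

theorem pfield_PB (h : GT.Bla G k) (hb : SMap X (US G) b) : PField X k (PB h b) where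
  smooth x hx := ((FV.pfield_PVB h).smooth _ ((smap_phi h).maps (hb.maps hx))).comp x
    (((smap_phi h).smooth _ (hb.maps hx)).comp x (hb.smooth x hx))
  idem x hx := (FV.pfield_PVB h).idem _ ((smap_phi h).maps (hb.maps hx))
  rank x hx := (FV.pfield_PVB h).rank _ ((smap_phi h).maps (hb.maps hx))

theorem ar_spec (h : GT.Bla G k) (hb : SMap X (US G) b) (hσ : σ = 1 ∨ σ = -1) {z : E × Euc N}
    (hz : z ∈ Sph X (PB h b)) : ar b σ z ∈ US G ∧ phi G (ar b σ z) = phi G (b z.1) := by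
  have h0 := hb.maps hz.1.1
  have h1 : PVB h (phi G (b z.1)) (σ • z.2) = σ • z.2 := by
    rw [map_smul]; congr 1; exact hz.1.2
  have h2 : ‖σ • z.2‖ = 1 := by
    rw [norm_smul, hz.2, mul_one]
    rcases hσ with rfl | rfl <;> simp
  obtain ⟨e1, e2, e3⟩ := KG.link_spec h h0 h1 h2
  exact ⟨⟨⟨h0.1.1, e1⟩, e2⟩, Prod.ext rfl e3⟩

theorem smap_ar (h : GT.Bla G k) (hb : SMap X (US G) b) (hσ : σ = 1 ∨ σ = -1) :
    SMap (Sph X (PB h b)) (US G) (ar b σ) where
  smooth z hz := by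
    have h1 : ContDiffAt ℝ ∞ (fun z : E × Euc N => (b z.1).1) z :=
      contDiffAt_fst.comp z ((hb.smooth z.1 hz.1.1).comp z contDiffAt_fst)
    exact h1.prodMk (by fun_prop)
  maps z hz := (ar_spec h hb hσ hz).1

theorem smap_bf (h : GT.Bla G k) (hb : SMap X (US G) b) :
    SMap (Sph X (PB h b)) (US G) (fun z => b z.1) :=
  ⟨fun z hz => (hb.smooth z.1 hz.1.1).comp z contDiffAt_fst, fun z hz => hb.maps hz.1.1⟩

theorem smap_pb (h : GT.Bla G k) (hb : SMap X (US G) b) :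
    SMap X (GT.FF S) (fun z => phi G (b z)) :=
  ⟨fun z hz => ((smap_phi h).smooth _ (hb.maps hz)).comp z (hb.smooth z hz),
    fun _ hz => (smap_phi h).maps (hb.maps hz)⟩

theorem opr_PB (h : GT.Bla G k) (hb : SMap X (US G) b) (hoP : OPr (GT.FF S) k (PVB h) oP) :
    OPr X k (PB h b) (fun z => oP (phi G (b z))) :=
  ⟨fun z hz => (hoP.sm _ ((smap_pb h hb).maps hz)).comp z ((smap_pb h hb).smooth z hz),
    fun z => hoP.deg _, fun z hz e he hPe => hoP.ne _ ((smap_pb h hb).maps hz) e he hPe⟩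

/-- vertical orientation form of `US → F` -/
def oWf (G : Geo n N κ S) (oP : Euc N × Euc N → Ext (Euc N)) :
    Euc N × Euc N → Ext (Euc N × Euc N) := F.pull (up G) (oV oP)

theorem oWf_eq {z : Euc N × Euc N} (hz : z ∈ US G) : oWf G oP z =
    pb (ContinuousLinearMap.snd ℝ (Euc N) (Euc N) : Euc N × Euc N →ₗ[ℝ] Euc N)
      (ii z.2 (oP (phi G z))) := by
  have h1 : DifferentiableAt ℝ (phi G) z := (FV.contDiffAt_phi hz.1).differentiableAt (by simp)
  have h2 : HasFDerivAt (up G) ((fderiv ℝ (phi G) z).prod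
      (ContinuousLinearMap.snd ℝ (Euc N) (Euc N))) z := h1.hasFDerivAt.prodMk hasFDerivAt_snd
  rw [oWf, F.pull, h2.fderiv, oV, pb_comp]
  rfl

theorem pb_neg_deg {V : Type*} [NormedAddCommGroup V] [NormedSpace ℝ V] [FiniteDimensional ℝ V]
    {c : Ext V} (hc : IsDeg r c) (σ : ℝ) : pb (σ • (LinearMap.id : V →ₗ[ℝ] V)) c = σ ^ r • c :=
  isDeg_pb_smul hc σ

/-- **the fibre integral of an arc** -/
theorem fib_int (h : GT.Bla G (r + 1)) (hX : Clo d X) (hb : SMap X (US G) b)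
    (hσ : σ = 1 ∨ σ = -1) (ev : Even (r + 1)) (hoP : OPr (GT.FF S) (r + 1) (PVB h) oP)
    {Y : Set (Euc N × Euc N)} {oF : Euc N × Euc N → Ext (Euc N × Euc N)} {d' : ℕ}
    (hW : OSubm r d' (US G) Y (phi G) (oWf G oP) oF) (hr : 1 ≤ r)
    (hl : Sm (US G) lm) {x : E} (hx : x ∈ X) :
    J r (Sph X (PB h b) ∩ Prod.fst ⁻¹' {x}) (oV fun z => oP (phi G (b z)))
      (pull (ar b σ) lm - pull (fun z => b z.1) lm) =
    J r (US G ∩ phi G ⁻¹' {phi G (b x)}) (oWf G oP) lm := by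
  have hP := pfield_PB h hb
  have hS := SB.subm_Sph hX hP
  have hFx := hS.clo_fibre x
  have hF' := hW.subm.clo_fibre (phi G (b x))
  have sar := smap_ar h hb hσ
  have hσ2 : σ * σ = 1 := by rcases hσ with rfl | rfl <;> norm_num
  have hev : σ ^ r * σ = 1 := by
    rw [← pow_succ]
    rcases hσ with rfl | rfl
    · exact one_pow _
    · exact ev.neg_one_pow
  -- the bijection of fibres
  have hbij : BijOn (ar b σ) (Sph X (PB h b) ∩ Prod.fst ⁻¹' {x})
      (US G ∩ phi G ⁻¹' {phi G (b x)}) := by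
    refine ⟨?_, ?_, ?_⟩
    · rintro ⟨y, v⟩ ⟨hz, hy⟩
      obtain rfl : y = x := hy
      exact ⟨(ar_spec h hb hσ hz).1, (ar_spec h hb hσ hz).2⟩
    · rintro ⟨y, v⟩ ⟨hz, hy⟩ ⟨y', v'⟩ ⟨hz', hy'⟩ e
      obtain rfl : y = x := hy
      obtain rfl : y' = y := hy'
      have h2 : σ • v = σ • v' := (Prod.mk.inj e).2
      have h3 : v = v' := by
        have := congrArg (fun u => σ • u) h2
        simpa only [smul_smul, hσ2, one_smul] using this
      rw [h3]
    · rintro ⟨p, v⟩ ⟨hz, hz'⟩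
      have hz' : phi G (p, v) = phi G (b x) := hz'
      have e1 : p = (b x).1 := congrArg Prod.fst hz'
      have hF := FV.phi_mem h.bl hz
      have h1 : PVB h (phi G (b x)) v = v := by
        rw [← hz']
        exact (FV.PV_eq_self h.bl h.ty (FV.sub_S h.bl) hF).2 (FV.snd_mem_Vl h.bl h.ty hz)
      refine ⟨(x, σ • v), ⟨⟨⟨hx, ?_⟩, ?_⟩, rfl⟩, ?_⟩
      · show PVB h (phi G (b x)) (σ • v) = σ • v
        rw [map_smul, h1]
      · show ‖σ • v‖ = 1
        rw [norm_smul, hz.2, mul_one]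
        rcases hσ with rfl | rfl <;> simp
      · show ((b x).1, σ • σ • v) = (p, v)
        rw [smul_smul, hσ2, one_smul, e1]
  have hdar : ∀ z ∈ Sph X (PB h b) ∩ Prod.fst ⁻¹' {x}, DifferentiableAt ℝ (ar b σ) z :=
    fun z hz => sar.diff hz.1
  have e0 := J_pull hFx hF' hdar hbij (hW.fib _)
    (om := lm) (fun z hz => ((hl z hz.1).continuousAt).continuousWithinAt)
  rw [← e0]
  -- orientations
  have hor : ∀ z ∈ Sph X (PB h b) ∩ Prod.fst ⁻¹' {x},
      oV (fun z => oP (phi G (b z))) z = pull (ar b σ) (oWf G oP) z := by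
    rintro ⟨y, v⟩ ⟨hz, hy⟩
    obtain ⟨h1, h2⟩ := ar_spec h hb hσ hz
    have hd : DifferentiableAt ℝ (ar b σ) (y, v) := sar.diff hz
    have h3 : (ContinuousLinearMap.snd ℝ (Euc N) (Euc N)).comp (fderiv ℝ (ar b σ) (y, v)) =
        σ • ContinuousLinearMap.snd ℝ E (Euc N) := by
      have h4 : HasFDerivAt (fun z : E × Euc N => (ar b σ z).2)
          ((ContinuousLinearMap.snd ℝ (Euc N) (Euc N)).comp (fderiv ℝ (ar b σ) (y, v))) (y, v) :=
        hasFDerivAt_snd.comp (y, v) hd.hasFDerivAt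
      have h5 : HasFDerivAt (fun z : E × Euc N => (ar b σ z).2)
          (σ • ContinuousLinearMap.snd ℝ E (Euc N)) (y, v) := hasFDerivAt_snd.const_smul σ
      exact h4.unique h5
    rw [F.pull, oWf_eq h1, pb_comp]
    have h6 : ((ContinuousLinearMap.snd ℝ (Euc N) (Euc N) : Euc N × Euc N →ₗ[ℝ] Euc N) ∘ₗ
        (fderiv ℝ (ar b σ) (y, v) : E × Euc N →ₗ[ℝ] Euc N × Euc N)) =
        (σ • (LinearMap.id : Euc N →ₗ[ℝ] Euc N)) ∘ₗ
          (ContinuousLinearMap.snd ℝ E (Euc N) : E × Euc N →ₗ[ℝ] Euc N) := by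
      refine LinearMap.ext fun u => ?_
      exact DFunLike.congr_fun h3 u
    rw [h6, ← pb_comp, pb_neg_deg ((hoP.deg _).ii _), h2]
    show _ = pb _ (σ ^ r • ii (σ • v) (oP (phi G (b y))))
    rw [map_smul ii, LinearMap.smul_apply, smul_smul, hev, one_smul]
    rfl
  rw [J_ori_eq hFx hor]
  -- forms
  refine J_congr hFx ?_
  rintro ⟨y, v⟩ ⟨hz, hy⟩ w hw
  rw [Pi.sub_apply, map_sub, AlternatingMap.sub_apply]
  have h1 : evA _ r (pull (fun z : E × Euc N => b z.1) lm (y, v)) w = 0 := by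
    rw [F.pull, evA_pb]
    refine AlternatingMap.map_coord_zero _ (⟨0, by omega⟩ : Fin r) ?_
    have h2 : w ⟨0, by omega⟩ ∈ Tan (Sph X (PB h b) ∩ Prod.fst ⁻¹' {Prod.fst (y, v)}) (y, v) := by
      have := hw ⟨0, by omega⟩
      obtain rfl : y = x := hy
      exact this
    rw [hS.tan_fibre hz] at h2
    have h3 : (w ⟨0, by omega⟩).1 = 0 := by
      have h5 : fderiv ℝ (Prod.fst : E × Euc N → E) (y, v) (w ⟨0, by omega⟩) = 0 := h2.2
      rwa [hasFDerivAt_fst.fderiv] at h5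
    have h4 : HasFDerivAt (fun z : E × Euc N => b z.1)
        ((fderiv ℝ b y).comp (ContinuousLinearMap.fst ℝ E (Euc N))) (y, v) :=
      (hb.diff hz.1.1).hasFDerivAt.comp (y, v) hasFDerivAt_fst
    show fderiv ℝ (fun z : E × Euc N => b z.1) (y, v) (w ⟨0, by omega⟩) = 0
    rw [h4.fderiv]
    show fderiv ℝ b y (w ⟨0, by omega⟩).1 = 0
    rw [h3, map_zero]
  rw [h1, sub_zero]

end link

end Crest.Agent.R208.AF
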