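import Crest.Agent.R208.KG7

/-!
Row 208, block KG (helper10), part KG8: the linearisation of the family of rounded chains at the
diagonal, with its properties.
-/

set_option autoImplicit false

open Set Filter Topology MeasureTheory
open scoped ContDiff RealInnerProductSpace Interval
open Crest.GeometryTopology.Submanifold
open Crest.Agent.R241.DDefs
open Crest.Agent.R241.D2
open Crest.Agent.R241.D3c
open Crest.Agent.R208.L (dfl)

noncomputable section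

namespace Crest.Agent.R208.KG

variable {n N : ℕ} {κ : ℝ} {S : Set (Euc N)} {G : Geo n N κ S} {m k : ℕ} {ε : ℝ}
  {x : Euc N × Euc N}

/-! ### normalised curves and the tube -/

/-- `(v + r a)/|v + r a|` -/
def nv (v a : Euc N) (r : ℝ) : Euc N := ‖v + r • a‖⁻¹ • (v + r • a)

lemma norm_add_smul_sq {v a : Euc N} (hv : ‖v‖ = 1) (ha : ⟪v, a⟫ = 0) (r : ℝ) :
    ‖v + r • a‖ ^ 2 = 1 + r ^ 2 * ‖a‖ ^ 2 := by
  rw [norm_add_sq_real, hv, inner_smul_right, ha, norm_smul, mul_pow, Real.norm_eq_abs, sq_abs]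
  ring

lemma norm_add_smul_pos {v a : Euc N} (hv : ‖v‖ = 1) (ha : ⟪v, a⟫ = 0) (r : ℝ) :
    0 < ‖v + r • a‖ := by
  have h := norm_add_smul_sq hv ha r
  have h2 : 0 ≤ r ^ 2 * ‖a‖ ^ 2 := by positivity
  have h3 : 0 < ‖v + r • a‖ ^ 2 := by linarith
  rcases (norm_nonneg (v + r • a)).lt_or_eq with h4 | h4
  · exact h4
  · rw [← h4] at h3; norm_num at h3

lemma norm_nv {v a : Euc N} (hv : ‖v‖ = 1) (ha : ⟪v, a⟫ = 0) (r : ℝ) : ‖nv v a r‖ = 1 := by
  unfold nv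
  rw [norm_smul, norm_inv, norm_norm, inv_mul_cancel₀ (norm_add_smul_pos hv ha r).ne']

lemma nv_zero {v a : Euc N} (hv : ‖v‖ = 1) : nv v a 0 = v := by
  unfold nv
  simp [hv]


lemma hasDerivAt_nv {v a : Euc N} (hv : ‖v‖ = 1) (ha : ⟪v, a⟫ = 0) :
    HasDerivAt (nv v a) a 0 := by
  have h1 : HasDerivAt (fun r : ℝ => v + r • a) a 0 := by
    simpa using ((hasDerivAt_id (0 : ℝ)).smul_const a).const_add v
  have h2 : HasDerivAt (fun r : ℝ => ‖v + r • a‖⁻¹) 0 0 := by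
    have h3 : HasDerivAt (fun r : ℝ => ‖v + r • a‖ ^ 2) 0 0 := by
      have h4 : (fun r : ℝ => ‖v + r • a‖ ^ 2) = fun r => 1 + r ^ 2 * ‖a‖ ^ 2 :=
        funext fun r => norm_add_smul_sq hv ha r
      rw [h4]
      have h5 := ((hasDerivAt_pow 2 (0 : ℝ)).mul_const (‖a‖ ^ 2)).const_add 1
      simpa using h5
    have h4 : (fun r : ℝ => ‖v + r • a‖⁻¹) = fun r => (Real.sqrt (‖v + r • a‖ ^ 2))⁻¹ :=
      funext fun r => by rw [Real.sqrt_sq (norm_nonneg _)]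
    rw [h4]
    have h5 : ‖v + (0 : ℝ) • a‖ ^ 2 ≠ 0 := by simp [hv]
    have h6 := (h3.sqrt h5).fun_inv (by simp [hv])
    exact h6.congr_deriv (by simp)
  have h7 := h2.smul h1
  have h8 : (fun r : ℝ => ‖v + r • a‖⁻¹ • (v + r • a)) = nv v a := rfl
  rw [← h8]
  refine h7.congr_deriv ?_
  simp [hv]

/-- null directions at `x = (p,v)`: vectors of the link orthogonal to `v` -/
def Nul (G : Geo n N κ S) (x : Euc N × Euc N) (a : Euc N) : Prop :=
  a ∈ GT.Vs G x.1 (Exp G x.1 (Real.pi • x.2)) ∧ ⟪x.2, a⟫ = 0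

lemma Nul.smul {a : Euc N} (h : Nul G x a) (r : ℝ) : Nul G x (r • a) :=
  ⟨Submodule.smul_mem _ _ h.1, by rw [inner_smul_right, h.2, mul_zero]⟩

lemma Nul.add {a b : Euc N} (h : Nul G x a) (h' : Nul G x b) : Nul G x (a + b) :=
  ⟨Submodule.add_mem _ h.1 h'.1, by rw [inner_add_right, h.2, h'.2, add_zero]⟩

lemma Nul.zero : Nul G x 0 := ⟨Submodule.zero_mem _, inner_zero_right _⟩

lemma FF_of (h : GT.Bla G k) (hx : x ∈ L.US G) : (x.1, Exp G x.1 (Real.pi • x.2)) ∈ GT.FF S :=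
  h.mem_FF hx.1.1 hx.1.2 hx.2

lemma Nul.mem (h : GT.Bla G k) (hx : x ∈ L.US G) {a : Euc N} (ha : Nul G x a) :
    a ∈ G.T x.1 := h.Vs_le (FF_of h hx) ha.1

lemma nv_link (h : GT.Bla G k) (hx : x ∈ L.US G) {a : Euc N} (ha : Nul G x a) (r : ℝ) :
    nv x.2 a r ∈ G.T x.1 ∧ ‖nv x.2 a r‖ = 1 ∧
      Exp G x.1 (Real.pi • nv x.2 a r) = Exp G x.1 (Real.pi • x.2) := by
  have hv : x.2 ∈ GT.Vs G x.1 (Exp G x.1 (Real.pi • x.2)) := GT.mem_Vs hx.1.2 hx.2
  have h1 : nv x.2 a r ∈ GT.Vs G x.1 (Exp G x.1 (Real.pi • x.2)) :=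
    Submodule.smul_mem _ _ (Submodule.add_mem _ hv (Submodule.smul_mem _ _ ha.1))
  have h2 := norm_nv hx.2 ha.2 r
  exact ⟨h.Vs_le (FF_of h hx) h1, h2, h.Exp_pi (FF_of h hx) h1 h2⟩

/-- the tube around the diagonal -/
def tub (x : Euc N × Euc N) (ζ : Fin m → Euc N) : Euc N × (Fin m → Euc N) :=
  (x.1, fun i => nv x.2 (ζ i) 1)





/-! ### null directions and the flow -/

lemma mem_TS_nv (h : GT.Bla G k) (hx : x ∈ L.US G) {a : Euc N} (ha : Nul G x a) (r : ℝ) :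
    (x.1, nv x.2 a r) ∈ TS G := ⟨hx.1.1, (nv_link h hx ha r).1⟩

lemma hasDerivAt_fl_nv (h : GT.Bla G k) (hx : x ∈ L.US G) {a : Euc N} (ha : Nul G x a) (t : ℝ) :
    HasDerivAt (fun r => fl G ((x.1, nv x.2 a r), t)) (dfl G x t (0, a)) 0 := by
  have h1 : HasDerivAt (fun r : ℝ => ((x.1, nv x.2 a r) : Euc N × Euc N)) (0, a) 0 :=
    (hasDerivAt_const (0 : ℝ) x.1).prodMk (hasDerivAt_nv hx.2 ha.2)
  have h2 : HasFDerivAt (fun y => fl G (y, t)) (dfl G x t) (x.1, nv x.2 a 0) := by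
    rw [nv_zero hx.2]
    exact L.hasFDerivAt_fl_left hx.1 t
  exact h2.comp_hasDerivAt (0 : ℝ) h1



/-- null directions: the linearised flow is `2π`-periodic -/
lemma dfl_nul_per (h : GT.Bla G k) (hx : x ∈ L.US G) {a : Euc N} (ha : Nul G x a) (t : ℝ)
    (j : ℤ) : dfl G x (t + 2 * j * Real.pi) (0, a) = dfl G x t (0, a) := by
  have h1 := hasDerivAt_fl_nv h hx ha (t + 2 * j * Real.pi)
  have h2 : (fun r => fl G ((x.1, nv x.2 a r), t + 2 * j * Real.pi)) =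
      fun r => fl G ((x.1, nv x.2 a r), t) := funext fun r =>
    fl_int h.ty.per (mem_TS_nv h hx ha r) (nv_link h hx ha r).2.1 t j
  rw [h2] at h1
  exact h1.unique (hasDerivAt_fl_nv h hx ha t)



/-- velocity of the null Jacobi field at `jπ` -/
def vj (G : Geo n N κ S) (x : Euc N × Euc N) (a : Euc N) (j : ℤ) : Euc N :=
  (dfl G x (j * Real.pi) (0, a)).2



lemma vj_add (h : GT.Bla G k) (hx : x ∈ L.US G) {a : Euc N} (ha : Nul G x a) (j l : ℤ) :
    vj G x a (j + 2 * l) = vj G x a j := by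
  unfold vj
  have e : ((j + 2 * l : ℤ) : ℝ) * Real.pi = j * Real.pi + 2 * l * Real.pi := by
    push_cast; ring
  rw [e, dfl_nul_per h hx ha]

/-! ### the linearised family -/

variable [NeZero m]

/-- the linearised family near the `j`-th corner -/
def AZj (G : Geo n N κ S) (ε : ℝ) (x : Euc N × Euc N) (ζ : Fin m → Euc N) (j : ℤ) (s : ℝ) :
    Euc N :=
  fderiv ℝ (Exp G (fl G (x, j * Real.pi)).1) (s • (fl G (x, j * Real.pi)).2)
    (gT ε 0 s • vj G x (ζ (idx m j)) j - gT ε 0 (-s) • vj G x (ζ (idx m (j - 1))) j)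

/-- **the linearisation at the diagonal** -/
def AZ (G : Geo n N κ S) (ε : ℝ) (x : Euc N × Euc N) (ζ : Fin m → Euc N) (t : ℝ) : Euc N :=
  AZj G ε x ζ (round (t / Real.pi)) (t - round (t / Real.pi) * Real.pi)



/-! ### properties -/








lemma vj_lin_add (x : Euc N × Euc N) (a b : Euc N) (j : ℤ) :
    vj G x (a + b) j = vj G x a j + vj G x b j := by
  unfold vj
  have : ((0, a + b) : Euc N × Euc N) = (0, a) + (0, b) := by simp
  rw [this, map_add]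
  rfl


lemma AZ_add (x : Euc N × Euc N) (ζ ξ : Fin m → Euc N) (t : ℝ) :
    AZ G ε x (ζ + ξ) t = AZ G ε x ζ t + AZ G ε x ξ t := by
  unfold AZ AZj
  rw [← map_add]
  congr 1
  simp only [Pi.add_apply, vj_lin_add, smul_add]
  abel


/-- shift by `2π` -/
lemma AZ_shift (h : GT.Bla G k) (hx : x ∈ L.US G) {ζ ξ : Fin m → Euc N}
    (hζ : ∀ i, Nul G x (ζ i)) (hsh : ∀ j : ℤ, ζ (idx m (j + 2)) = ξ (idx m j))
    (t : ℝ) : AZ G ε x ζ (t + 2 * Real.pi) = AZ G ε x ξ t := by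
  unfold AZ
  have e1 : (t + 2 * Real.pi) / Real.pi = t / Real.pi + (2 : ℕ) := by
    push_cast
    field_simp
  rw [e1, round_add_natCast]
  set j := round (t / Real.pi)
  have e2 : t + 2 * Real.pi - ((j + ((2 : ℕ) : ℤ) : ℤ) : ℝ) * Real.pi = t - j * Real.pi := by
    push_cast; ring
  rw [e2]
  unfold AZj
  have e3 : fl G (x, ((j + ((2 : ℕ) : ℤ) : ℤ) : ℝ) * Real.pi) = fl G (x, j * Real.pi) := by
    have e4 : ((j + ((2 : ℕ) : ℤ) : ℤ) : ℝ) * Real.pi =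
        j * Real.pi + 2 * ((1 : ℤ) : ℝ) * Real.pi := by
      push_cast; ring
    rw [e4, fl_int h.ty.per hx.1 hx.2]
  have e5 : (j + ((2 : ℕ) : ℤ)) = j + 2 * 1 := by push_cast; ring
  have e6 : idx m (j + 2 * 1 - 1) = idx m ((j - 1) + 2) := by congr 1; ring
  rw [e3, e5, vj_add h hx (hζ _), vj_add h hx (hζ _), e6, hsh, mul_one, hsh]

end Crest.Agent.R208.KG
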