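import Crest.Agent.R208.KR4

-- ▼ part R208/KR5
section

/-!
R208, block KF (helper844), file KR5: smoothness of `uu`, the Jacobi fields `Jr z r w`.
-/

set_option autoImplicit false

open Set Filter Topology MeasureTheory Real Module
open scoped RealInnerProductSpace Interval ContDiff
open Crest.GeometryTopology.Submanifold
open Crest.Agent.R241.DDefs
open Crest.Agent.R241.D2
open Crest.Agent.R208.L (om TanTS dfl om_dfl)
open Crest.Agent.R208.FI (Tan Sub)
open Crest.Agent.R208.NN (Wt nuP qq V0 fd fd' qf Rt ev ev')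

noncomputable section

namespace Crest.Agent.R208.KR

variable {n N k K : ℕ} {κ : ℝ} {S : Set (Euc N)} {G : Geo n N κ S} {z ξ η : Euc N × Euc N}
  {h : GT.Bla G k} {P : Euc N × Euc N → Wt N K →L[ℝ] Wt N K}

/-! ### smoothness -/

theorem dfl_eq_inl {q : Euc N × Euc N} {t : ℝ} (hq : (q, t) ∈ R241.D2.fd G) :
    dfl G q t = (fderiv ℝ (fl G) (q, t)).comp (ContinuousLinearMap.inl ℝ (Euc N × Euc N) ℝ) := by
  have h1 := ((contDiffAt_fl G hq).differentiableAt (by simp)).hasFDerivAt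
  have h2 : HasFDerivAt (fun y : Euc N × Euc N => (y, t))
      (ContinuousLinearMap.inl ℝ (Euc N × Euc N) ℝ) q :=
    (hasFDerivAt_id q).prodMk (hasFDerivAt_const t q)
  exact (HasFDerivAt.comp (g := fl G) q h1 h2).fderiv

/-- the linearised flow is jointly smooth -/
theorem contDiffAt_dfl {q : Euc N × Euc N} (hq : q ∈ TS G) (t : ℝ) :
    ContDiffAt ℝ ∞ (fun p : (Euc N × Euc N) × ℝ => dfl G p.1 p.2) (q, t) := by
  have h0 : ContDiffAt ℝ ∞ (fderiv ℝ (fl G)) (q, t) :=
    (contDiffAt_fl' G hq t).fderiv_right (m := ∞) (by simp)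
  have h1 : ContDiffAt ℝ ∞ (fun p : (Euc N × Euc N) × ℝ =>
      (fderiv ℝ (fl G) p).comp (ContinuousLinearMap.inl ℝ (Euc N × Euc N) ℝ)) (q, t) :=
    h0.clm_comp contDiffAt_const
  refine h1.congr_of_eventuallyEq ?_
  filter_upwards [(isOpen_fd G).mem_nhds (complete G hq t)] with p hp
  exact dfl_eq_inl hp

theorem contDiffAt_PV0 (h : GT.Bla G k) (hz : z ∈ L.US G) : ContDiffAt ℝ ∞ (PV0 h) z := by
  unfold PV0
  have h1 : ContDiffAt ℝ ∞ (fun z => FV.PVB h (FV.phi G z)) z :=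
    (FV.contDiff_PVB h).contDiffAt.comp z (FV.contDiffAt_phi hz.1)
  have h2 : ContDiffAt ℝ ∞ (fun z : Euc N × Euc N => (innerSL ℝ z.2).smulRight z.2) z := by
    have e1 : ContDiff ℝ ∞ (fun z : Euc N × Euc N => innerSL ℝ z.2) :=
      (innerSL ℝ).contDiff.comp contDiff_snd
    exact (e1.smulRight contDiff_snd).contDiffAt
  exact h1.sub h2

theorem contDiffAt_fo (hz : z ∈ TS G) (t : ℝ) : ContDiffAt ℝ ∞ (fun z => fo G K z t) z := by
  unfold fo
  have h1 : ContDiffAt ℝ ∞ (fun z => (fl G (z, t)).1) z := by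
    have e1 : ContDiffAt ℝ ∞ (fun z : Euc N × Euc N => (z, t)) z := by fun_prop
    exact (ContDiffAt.comp (g := fl G) z (contDiffAt_fl' G hz t) e1).fst
  exact (G.contDiff_P.contDiffAt.comp z h1).clm_comp contDiffAt_const

theorem contDiffAt_De (hz : z ∈ TS G) : ContDiffAt ℝ ∞ (De G) z := by
  unfold De
  have h1 : ContDiffAt ℝ ∞ (fun z => dfl G z π) z := by
    have e1 : ContDiffAt ℝ ∞ (fun z : Euc N × Euc N => (z, π)) z := by fun_prop
    exact ContDiffAt.comp (g := fun p : (Euc N × Euc N) × ℝ => dfl G p.1 p.2) z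
      (contDiffAt_dfl hz π) e1
  exact contDiffAt_const.clm_comp (h1.clm_comp contDiffAt_const)

/-- the adjoint as a continuous linear map -/
theorem contDiff_adjoint {E F : Type*} [NormedAddCommGroup E] [InnerProductSpace ℝ E]
    [CompleteSpace E] [NormedAddCommGroup F] [InnerProductSpace ℝ F] [CompleteSpace F] :
    ContDiff ℝ ∞ (fun T : E →L[ℝ] F => ContinuousLinearMap.adjoint T) := by
  have h1 : ContDiff ℝ ∞ ((ContinuousLinearMap.adjoint : (E →L[ℝ] F) ≃ₗᵢ⋆[ℝ] (F →L[ℝ] E)) :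
      (E →L[ℝ] F) → (F →L[ℝ] E)) := by
    have h2 : IsBoundedLinearMap ℝ ((ContinuousLinearMap.adjoint :
      (E →L[ℝ] F) ≃ₗᵢ⋆[ℝ] (F →L[ℝ] E)) : (E →L[ℝ] F) → (F →L[ℝ] E)) :=
      { map_add := fun x y => map_add _ x y
        map_smul := fun c x => by
          simp
        bound := ⟨1, one_pos, fun x => by rw [one_mul, LinearIsometryEquiv.norm_map]⟩ }
    exact h2.contDiff
  exact h1

theorem contDiffAt_l1 (h : GT.Bla G k) (hz : z ∈ L.US G) : ContDiffAt ℝ ∞ (l1 h K) z := by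
  unfold l1
  have h1 := contDiffAt_PV0 h hz
  have h2 := contDiffAt_fo (K := K) hz.1 0
  have h3 := contDiffAt_fo (K := K) hz.1 π
  have h4 : ContDiffAt ℝ ∞ (fun z => ContinuousLinearMap.adjoint (De G z)) z :=
    contDiff_adjoint.contDiffAt.comp z (contDiffAt_De hz.1)
  exact h1.clm_comp (h2.sub (h4.clm_comp h3))

theorem NegB.contDiffAt_uu (hP : NegB h K P) (hz : z ∈ L.US G) : ContDiffAt ℝ ∞ (uu h P) z := by
  unfold uu
  have h1 := contDiffAt_l1 (K := K) h hz
  have h2 := hP.smooth z hz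
  have h3 : ContDiffAt ℝ ∞ (Gz h P) z := by
    unfold Gz
    have h4 : ContDiffAt ℝ ∞ (fun z => ContinuousLinearMap.adjoint (l1 h K z)) z :=
      contDiff_adjoint.contDiffAt.comp z h1
    exact (h1.clm_comp (h2.clm_comp h4)).add (contDiffAt_const.sub (contDiffAt_PV0 h hz))
  have h5 : ContDiffAt ℝ ∞ (fun z => Ring.inverse (Gz h P z)) z := by
    obtain ⟨v, hv⟩ := hP.isUnit_Gz hz
    have h6 := contDiffAt_ringInverse (n := ∞) ℝ v
    rw [hv] at h6
    exact h6.comp z h3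
  have h7 : ContDiffAt ℝ ∞ (fun z => (Ring.inverse (Gz h P z)).comp ((l1 h K z).comp
      ((P z).comp (NB.Cz G (nuP K) z)))) z :=
    h5.clm_comp (h1.clm_comp (h2.clm_comp (NB.contDiffAt_Cz hz.1)))
  exact h7.const_smul (-(1 / 2 : ℝ))

/-! ### the Jacobi fields `J_r` -/

/-- initial data at time `0` of the Jacobi field `J_r(w)`, vanishing at `r` and `r + π` -/
def Jr (h : GT.Bla G k) (P : Euc N × Euc N → Wt N K →L[ℝ] Wt N K) (z : Euc N × Euc N) (r : ℝ) :
    Wt N K →L[ℝ] Euc N × Euc N :=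
  (dfl G (fl G (z, r)) (-r)).comp ((ContinuousLinearMap.inr ℝ (Euc N) (Euc N)).comp
    ((uu h P (fl G (z, r))).comp (Rt (nuP K) r)))

theorem Jr_apply (z : Euc N × Euc N) (r : ℝ) (w : Wt N K) : Jr h P z r w =
    dfl G (fl G (z, r)) (-r) (0, uu h P (fl G (z, r)) (Rt (nuP K) r w)) := rfl

theorem dfl_back (hz : z ∈ TS G) (r t : ℝ) (ξ : Euc N × Euc N) :
    dfl G z t (dfl G (fl G (z, r)) (-r) ξ) = dfl G (fl G (z, r)) (t - r) ξ := by
  have h1 := dfl_add (fl_mem G hz r) (-r) t ξ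
  have h2 : fl G (fl G (z, r), -r) = z := by
    rw [← fl_add' G hz, add_neg_cancel, fl_zero]
  rw [h2] at h1
  rw [← h1]
  congr 2
  ring

theorem dfl_Jr (hz : z ∈ TS G) (r t : ℝ) (w : Wt N K) : dfl G z t (Jr h P z r w) =
    dfl G (fl G (z, r)) (t - r) (0, uu h P (fl G (z, r)) (Rt (nuP K) r w)) :=
  dfl_back hz r t _

theorem mapsTo_fl (G : Geo n N κ S) (t : ℝ) :
    MapsTo (fun y => fl G (y, t)) (L.US G) (L.US G) := fun _ hy => fl_mem_US hy t

theorem tan_dfl (hz : z ∈ L.US G) (hξ : ξ ∈ Tan (L.US G) z) (t : ℝ) :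
    dfl G z t ξ ∈ Tan (L.US G) (fl G (z, t)) :=
  FV.fderiv_mem_Tan_of_mapsTo (mapsTo_fl G t)
    (L.hasFDerivAt_fl_left hz.1 t).differentiableAt hξ

theorem NegB.Jr_tan (hP : NegB h K P) (hz : z ∈ L.US G) (r : ℝ) (w : Wt N K) :
    Jr h P z r w ∈ Tan (L.US G) z := by
  have h1 := fl_mem_US hz r
  have h2 := tan_dfl h1 (tan_V0 h h1 (hP.uu_mem h1 (Rt (nuP K) r w))) (-r)
  have h3 : fl G (fl G (z, r), -r) = z := by
    rw [← fl_add' G hz.1, add_neg_cancel, fl_zero]
  rw [h3] at h2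
  exact h2

theorem Jr_v0 (hz : z ∈ L.US G) (r : ℝ) (w : Wt N K) :
    SV.jf G z (Jr h P z r w) r = 0 := by
  unfold SV.jf
  rw [dfl_Jr hz.1, sub_self, L.dfl_zero (fl_mem G hz.1 r)]

theorem Jr_d0 (hz : z ∈ L.US G) (r : ℝ) (w : Wt N K) :
    SV.jf' G z (Jr h P z r w) r = uu h P (fl G (z, r)) (Rt (nuP K) r w) := by
  unfold SV.jf'
  rw [dfl_Jr hz.1, sub_self, L.dfl_zero (fl_mem G hz.1 r)]

theorem NegB.Jr_v1 (hP : NegB h K P) (hz : z ∈ L.US G) (r : ℝ) (w : Wt N K) :
    SV.jf G z (Jr h P z r w) (r + π) = 0 := by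
  have h1 := fl_mem_US hz r
  unfold SV.jf
  rw [dfl_Jr hz.1, add_sub_cancel_left]
  exact dfl_V0_fst h h1 (hP.uu_mem h1 _)

/-- **the pairing of `J_r(w)` with the fields of `N`** -/
theorem NegB.pair (hP : NegB h K P) (hz : z ∈ L.US G) (r : ℝ) (w : Wt N K) {w' : Wt N K}
    (hw' : P z w' = w') :
    ⟪SV.jf' G z (Jr h P z r w) (r + π), fd G z (nuP K) w' (r + π)⟫ -
      ⟪SV.jf' G z (Jr h P z r w) r, fd G z (nuP K) w' r⟫ = (1 / 2) * bb G z w w' := by
  have h1 := fl_mem_US hz r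
  set p := fl G (z, r) with hp
  set u := uu h P p (Rt (nuP K) r w) with hu
  have huV : u ∈ V0 G p := hP.uu_mem h1 _
  have e1 : SV.jf' G z (Jr h P z r w) (r + π) = (dfl G p π (0, u)).2 := by
    unfold SV.jf'
    rw [dfl_Jr hz.1, add_sub_cancel_left]
  have e2 : SV.jf' G z (Jr h P z r w) r = u := Jr_d0 hz r w
  have e3 : fd G z (nuP K) w' (r + π) = fd G p (nuP K) (Rt (nuP K) r w') π := by
    rw [hp, fd_shift hz.1, add_comm]
  have e4 : fd G z (nuP K) w' r = fd G p (nuP K) (Rt (nuP K) r w') 0 := by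
    rw [hp, fd_shift hz.1, zero_add]
  have hPw : P p (Rt (nuP K) r w') = Rt (nuP K) r w' := by rw [hp, hP.equi z hz, hw']
  have e5 := inner_l1 h h1 huV (Rt (nuP K) r w')
  rw [hu, hP.inner_uu h1 hPw, hp, bb_flow h hz] at e5
  rw [e1, e2, e3, e4]
  linarith

theorem Rt_per' (r : ℝ) (w : Wt N K) : Rt (nuP K) (r + 2 * π) w = Rt (nuP K) r w := by
  rw [NN.Rt_add, NN.Rt_per]

theorem NegB.Jr_per (hP : NegB h K P) (hz : z ∈ L.US G) (r : ℝ) (w : Wt N K) :
    Jr h P z (r + 2 * π) w = Jr h P z r w := by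
  have h1 := fl_mem_US hz r
  rw [Jr_apply, Jr_apply, fl_per h hz, Rt_per']
  have h2 := dfl_per h h1 (tan_V0 h h1 (hP.uu_mem h1 (Rt (nuP K) r w))) (-(r + 2 * π))
  rw [← h2]
  congr 2
  ring

theorem contDiff_Rt : ContDiff ℝ ∞ (fun s : ℝ => (Rt (nuP K) s : Wt N K →L[ℝ] Wt N K)) :=
  NB.contDiff_Rt _

/-- **joint smoothness** -/
theorem NegB.contDiffAt_Jr (hP : NegB h K P) (hz : z ∈ L.US G) (r : ℝ) :
    ContDiffAt ℝ ∞ (fun p : (Euc N × Euc N) × ℝ => Jr h P p.1 p.2) (z, r) := by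
  unfold Jr
  have h1 := fl_mem_US hz r
  have hfl : ContDiffAt ℝ ∞ (fun p : (Euc N × Euc N) × ℝ => fl G p) (z, r) :=
    contDiffAt_fl' G hz.1 r
  have h2 : ContDiffAt ℝ ∞ (fun p : (Euc N × Euc N) × ℝ => dfl G (fl G (p.1, p.2)) (-p.2))
      (z, r) := by
    have e1 : ContDiffAt ℝ ∞ (fun p : (Euc N × Euc N) × ℝ => (fl G p, -p.2)) (z, r) :=
      hfl.prodMk contDiffAt_snd.neg
    exact ContDiffAt.comp (z, r) (g := fun p : (Euc N × Euc N) × ℝ => dfl G p.1 p.2)
      (contDiffAt_dfl h1.1 (-r)) e1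
  have h3 : ContDiffAt ℝ ∞ (fun p : (Euc N × Euc N) × ℝ => uu h P (fl G (p.1, p.2))) (z, r) :=
    ContDiffAt.comp (z, r) (g := uu h P) (hP.contDiffAt_uu h1) hfl
  have h4 : ContDiffAt ℝ ∞ (fun p : (Euc N × Euc N) × ℝ =>
      (Rt (nuP K) p.2 : Wt N K →L[ℝ] Wt N K)) (z, r) :=
    (contDiff_Rt.comp contDiff_snd).contDiffAt
  exact h2.clm_comp (contDiffAt_const.clm_comp (h3.clm_comp h4))

theorem NegB.continuous_Jr (hP : NegB h K P) (hz : z ∈ L.US G) :
    Continuous fun r => Jr h P z r := by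
  refine continuous_iff_continuousAt.2 fun r => ?_
  have h1 : ContinuousAt (fun r : ℝ => (z, r)) r :=
    continuousAt_const.prodMk continuousAt_id
  have h2 : ContinuousAt (fun p : (Euc N × Euc N) × ℝ => Jr h P p.1 p.2) (z, r) :=
    (hP.contDiffAt_Jr hz r).continuousAt
  exact ContinuousAt.comp (f := fun r : ℝ => (z, r)) (x := r) h2 h1

/-- `uu` is injective on `N` -/
theorem NegB.uu_ne (hP : NegB h K P) (hz : z ∈ L.US G) {w : Wt N K} (hw : P z w = w)
    (hw0 : w ≠ 0) : uu h P z w ≠ 0 := by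
  intro h0
  have h1 := hP.inner_uu hz (w := w) hw
  rw [h0, inner_zero_left] at h1
  have := hP.bb_neg hz hw hw0
  linarith

end Crest.Agent.R208.KR
end
end

-- ▼ part R208/KR6
section

/-!
R208, block KF (helper844), file KR6: the kernel of the fields `xi` and its positivity.
-/

set_option autoImplicit false

open Set Filter Topology MeasureTheory Real Module
open scoped RealInnerProductSpace Interval ContDiff
open Crest.GeometryTopology.Submanifold
open Crest.Agent.R241.DDefs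
open Crest.Agent.R241.D2
open Crest.Agent.R208.L (om TanTS dfl om_dfl)
open Crest.Agent.R208.FI (Tan Sub)
open Crest.Agent.R208.NN (Wt nuP qq V0 fd fd' qf Rt ev ev')

noncomputable section

namespace Crest.Agent.R208.KR

/-! ### changes of the angle -/

/-- admissible change of the angle -/
structure Ang (θ θ' : ℝ → ℝ) : Prop where
  der : ∀ r, HasDerivAt θ (θ' r) r
  cont : Continuous θ'
  pos : ∀ r, 0 < θ' r
  per : ∀ r, θ (r + π) = θ r + π

section ang
variable {θ θ' : ℝ → ℝ}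

theorem Ang.continuous (hθ : Ang θ θ') : Continuous θ :=
  continuous_iff_continuousAt.2 fun r => (hθ.der r).continuousAt

theorem Ang.per_two (hθ : Ang θ θ') (r : ℝ) : θ (r + 2 * π) = θ r + 2 * π := by
  have : r + 2 * π = r + π + π := by ring
  rw [this, hθ.per, hθ.per]; ring

theorem Ang.per' (hθ : Ang θ θ') (r : ℝ) : θ' (r + π) = θ' r := by
  have h1 : HasDerivAt (fun r => θ (r + π)) (θ' (r + π)) r := by
    have := (hθ.der (r + π)).comp_add_const r π
    exact this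
  have h2 : (fun r => θ (r + π)) = fun r => θ r + π := funext hθ.per
  rw [h2] at h1
  exact h1.unique ((hθ.der r).add_const π)

theorem Ang.per'_two (hθ : Ang θ θ') (r : ℝ) : θ' (r + 2 * π) = θ' r := by
  have : r + 2 * π = r + π + π := by ring
  rw [this, hθ.per', hθ.per']

theorem Ang.strictMono (hθ : Ang θ θ') : StrictMono θ := by
  refine strictMono_of_deriv_pos fun r => ?_
  rw [(hθ.der r).deriv]; exact hθ.pos r

theorem Ang.nat (hθ : Ang θ θ') (m : ℕ) (r : ℝ) : θ (r + m * π) = θ r + m * π := by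
  induction m with
  | zero => simp
  | succ m ih =>
    have : r + ((m + 1 : ℕ) : ℝ) * π = r + m * π + π := by push_cast; ring
    rw [this, hθ.per, ih]; push_cast; ring

theorem Ang.surj (hθ : Ang θ θ') : Function.Surjective θ := by
  have hpi := Real.pi_pos
  refine hθ.continuous.surjective ?_ ?_
  · refine hθ.strictMono.monotone.tendsto_atTop_atTop fun b => ?_
    obtain ⟨m, hm⟩ := exists_nat_ge ((b - θ 0) / π)
    refine ⟨0 + m * π, ?_⟩
    rw [hθ.nat]
    rw [div_le_iff₀ hpi] at hm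
    linarith
  · refine hθ.strictMono.monotone.tendsto_atBot_atBot fun b => ?_
    obtain ⟨m, hm⟩ := exists_nat_ge ((θ 0 - b) / π)
    refine ⟨-(m * π), ?_⟩
    have h1 := hθ.nat m (-(m * π))
    rw [neg_add_cancel] at h1
    rw [div_le_iff₀ hpi] at hm
    linarith

theorem Ang.exists_inv (hθ : Ang θ θ') : ∃ ρ : ℝ → ℝ, Continuous ρ ∧ (∀ r, ρ (θ r) = r) ∧
    (∀ t, θ (ρ t) = t) ∧ ∀ t, ρ (t + π) = ρ t + π := by
  let e := hθ.strictMono.orderIsoOfSurjective θ hθ.surj
  have h1 : ∀ r, e.symm (θ r) = r := fun r => e.symm_apply_apply r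
  have h2 : ∀ t, θ (e.symm t) = t := fun t => e.apply_symm_apply t
  refine ⟨e.symm, e.symm.continuous, h1, h2, fun t => ?_⟩
  apply hθ.strictMono.injective
  rw [h2, hθ.per, h2]

end ang

variable {n N k K : ℕ} {κ : ℝ} {S : Set (Euc N)} {G : Geo n N κ S} {z ξ η : Euc N × Euc N}
  {h : GT.Bla G k} {P : Euc N × Euc N → Wt N K →L[ℝ] Wt N K} {θ θ' ρ c : ℝ → ℝ} {a b : Wt N K}

/-- the coefficient vector of angle `t` -/
def Nt (a b : Wt N K) (t : ℝ) : Wt N K := cos (t / 2) • a + sin (t / 2) • b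

theorem Nt_per (a b : Wt N K) (t : ℝ) : Nt a b (t + 2 * π) = -Nt a b t := by
  unfold Nt
  have : (t + 2 * π) / 2 = t / 2 + π := by ring
  rw [this, cos_add_pi, sin_add_pi, neg_smul, neg_smul, neg_add]

theorem contDiff_Nt (a b : Wt N K) : ContDiff ℝ ∞ (Nt a b) := by
  unfold Nt; fun_prop

theorem NegB.P_Nt (ha : P z a = a) (hb : P z b = b) (t : ℝ) :
    P z (Nt a b t) = Nt a b t := by
  unfold Nt
  rw [map_add, map_smul, map_smul, ha, hb]

/-- the curve of Jacobi fields -/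
def Cc (h : GT.Bla G k) (P : Euc N × Euc N → Wt N K →L[ℝ] Wt N K) (z : Euc N × Euc N)
    (θ θ' c : ℝ → ℝ) (a b : Wt N K) (r : ℝ) : Euc N × Euc N :=
  (c (θ r) * θ' r) • Jr h P z r (Nt a b (θ r))

theorem jf_smul (r : ℝ) (ξ : Euc N × Euc N) (t : ℝ) : SV.jf G z (r • ξ) t = r • SV.jf G z ξ t := by
  unfold SV.jf; rw [map_smul]; rfl

theorem jf'_smul (r : ℝ) (ξ : Euc N × Euc N) (t : ℝ) :
    SV.jf' G z (r • ξ) t = r • SV.jf' G z ξ t := by
  unfold SV.jf'; rw [map_smul]; rfl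

theorem NegB.crv (hP : NegB h K P) (hz : z ∈ L.US G) (hθ : Ang θ θ') (hc : Continuous c) :
    Crv G z (Cc h P z θ θ' c a b) where
  cont := by
    have h1 := hθ.continuous
    have h2 := hθ.cont
    have h3 : Continuous fun r => Nt a b (θ r) := (contDiff_Nt a b).continuous.comp h1
    exact ((hc.comp h1).mul h2).smul ((hP.continuous_Jr hz).clm_apply h3)
  tan r := Submodule.smul_mem _ _ (hP.Jr_tan hz r _)
  v0 r := by unfold Cc; rw [jf_smul, Jr_v0 hz, smul_zero]
  v1 r := by unfold Cc; rw [jf_smul, hP.Jr_v1 hz, smul_zero]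

theorem NegB.Cc_per (hP : NegB h K P) (hz : z ∈ L.US G) (hθ : Ang θ θ') {σ : ℝ}
    (hσ : ∀ t, c (t + 2 * π) = σ * c t) (r : ℝ) :
    Cc h P z θ θ' c a b (r + 2 * π) = (-σ) • Cc h P z θ θ' c a b r := by
  unfold Cc
  rw [hθ.per_two, hσ, hθ.per'_two, Nt_per, hP.Jr_per hz, map_neg, smul_neg, smul_smul, ← neg_smul]
  congr 1; ring

/-! ### the kernel -/

/-- Jacobi field of angle `t` -/
def JJ (h : GT.Bla G k) (P : Euc N × Euc N → Wt N K →L[ℝ] Wt N K) (z : Euc N × Euc N)
    (ρ : ℝ → ℝ) (a b : Wt N K) (t : ℝ) : Euc N × Euc N := Jr h P z (ρ t) (Nt a b t)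

/-- data of an inverse angle -/
structure Inv (θ θ' ρ : ℝ → ℝ) : Prop where
  ang : Ang θ θ'
  cont : Continuous ρ
  left : ∀ r, ρ (θ r) = r
  right : ∀ t, θ (ρ t) = t
  per : ∀ t, ρ (t + π) = ρ t + π

theorem Inv.per_two (hρ : Inv θ θ' ρ) (t : ℝ) : ρ (t + 2 * π) = ρ t + 2 * π := by
  have : t + 2 * π = t + π + π := by ring
  rw [this, hρ.per, hρ.per]; ring

theorem Inv.int (hρ : Inv θ θ' ρ) (m : ℤ) (t : ℝ) : ρ (t + m * π) = ρ t + m * π := by
  have h0 : Function.Periodic (fun t => ρ t - t) π := fun t => by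
    simp only [hρ.per]; ring
  have h1 : ρ (t + m * π) - (t + m * π) = ρ t - t := h0.int_mul m t
  linarith

theorem NegB.continuous_JJ (hP : NegB h K P) (hz : z ∈ L.US G) (hρ : Inv θ θ' ρ) :
    Continuous (JJ h P z ρ a b) :=
  ((hP.continuous_Jr hz).comp hρ.cont).clm_apply (contDiff_Nt a b).continuous

theorem NegB.JJ_per (hP : NegB h K P) (hz : z ∈ L.US G) (hρ : Inv θ θ' ρ) (t : ℝ) :
    JJ h P z ρ a b (t + 2 * π) = -JJ h P z ρ a b t := by
  unfold JJ
  rw [hρ.per_two, hP.Jr_per hz, Nt_per, map_neg]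

/-- all zeros of `J_r` -/
theorem NegB.Jr_zero (hP : NegB h K P) (hz : z ∈ L.US G) (r : ℝ) (w : Wt N K) (m : ℤ) :
    SV.jf G z (Jr h P z r w) (r + m * π) = 0 := by
  have hper : Function.Periodic (SV.jf G z (Jr h P z r w)) (2 * π) := fun t => by
    unfold SV.jf; rw [dfl_per h hz (hP.Jr_tan hz r w)]
  obtain ⟨j, hj | hj⟩ := Int.even_or_odd' m
  · have h1 := hper.int_mul j r
    have h2 : r + (m : ℝ) * π = r + j * (2 * π) := by rw [hj]; push_cast; ring
    rw [h2, h1]
    exact Jr_v0 hz r w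
  · have h1 := hper.int_mul j (r + π)
    have h2 : r + (m : ℝ) * π = r + π + j * (2 * π) := by rw [hj]; push_cast; ring
    rw [h2, h1]
    exact hP.Jr_v1 hz r w

/-- the symplectic kernel -/
def WW (h : GT.Bla G k) (P : Euc N × Euc N → Wt N K →L[ℝ] Wt N K) (z : Euc N × Euc N)
    (ρ : ℝ → ℝ) (a b : Wt N K) (s t : ℝ) : ℝ := om (JJ h P z ρ a b s) (JJ h P z ρ a b t)

theorem NegB.JJ_tan (hP : NegB h K P) (hz : z ∈ L.US G) (t : ℝ) :
    TanTS G z (JJ h P z ρ a b t) := NN.tanTS_of_Tan h hz (hP.Jr_tan hz _ _)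

theorem NegB.WW_eq (hP : NegB h K P) (hz : z ∈ L.US G) (s t : ℝ) :
    WW h P z ρ a b s t = -⟪SV.jf' G z (JJ h P z ρ a b t) (ρ t), SV.jf G z (JJ h P z ρ a b s) (ρ t)⟫ := by
  unfold WW
  rw [← om_dfl hz.1 (hP.JJ_tan hz s) (hP.JJ_tan hz t) (ρ t)]
  unfold om
  have h3 : (dfl G z (ρ t) (JJ h P z ρ a b t)).1 = 0 := Jr_v0 hz (ρ t) _
  rw [h3, inner_zero_right, zero_sub]
  rfl

theorem NegB.WW_zero (hP : NegB h K P) (hz : z ∈ L.US G) (hρ : Inv θ θ' ρ) {s t : ℝ}
    (hst : sin (t - s) = 0) : WW h P z ρ a b s t = 0 := by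
  obtain ⟨m, hm⟩ := sin_eq_zero_iff.1 hst
  have h1 : t = s + m * π := by linarith
  rw [hP.WW_eq hz, h1, hρ.int]
  have h2 : SV.jf G z (JJ h P z ρ a b s) (ρ s + m * π) = 0 := hP.Jr_zero hz _ _ m
  rw [h2, inner_zero_right, neg_zero]

theorem continuous_om : Continuous fun p : (Euc N × Euc N) × (Euc N × Euc N) => om p.1 p.2 := by
  unfold om; fun_prop

theorem NegB.continuous_WW (hP : NegB h K P) (hz : z ∈ L.US G) (hρ : Inv θ θ' ρ) :
    Continuous (Function.uncurry (WW h P z ρ a b)) := by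
  have h1 := hP.continuous_JJ (a := a) (b := b) hz hρ
  have h2 : Continuous fun p : ℝ × ℝ => (JJ h P z ρ a b p.1, JJ h P z ρ a b p.2) := by fun_prop
  exact (continuous_om (N := N)).comp h2

/-- the signed kernel -/
def kap (h : GT.Bla G k) (P : Euc N × Euc N → Wt N K →L[ℝ] Wt N K) (z : Euc N × Euc N)
    (ρ : ℝ → ℝ) (a b : Wt N K) (s t : ℝ) : ℝ :=
  if 0 ≤ sin (t - s) then WW h P z ρ a b s t else -WW h P z ρ a b s t

theorem NegB.continuous_kap (hP : NegB h K P) (hz : z ∈ L.US G) (hρ : Inv θ θ' ρ) :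
    Continuous (Function.uncurry (kap h P z ρ a b)) := by
  have h1 := hP.continuous_WW (a := a) (b := b) hz hρ
  have h2 : Continuous fun p : ℝ × ℝ => WW h P z ρ a b p.1 p.2 := h1
  refine Continuous.if_le h2 h2.neg continuous_const (by fun_prop) ?_
  rintro ⟨s, t⟩ hst
  have := hP.WW_zero (a := a) (b := b) (s := s) (t := t) hz hρ hst.symm
  simp only [this, neg_zero]

theorem NegB.kap_symm (hP : NegB h K P) (hz : z ∈ L.US G) (hρ : Inv θ θ' ρ) (s t : ℝ) :
    kap h P z ρ a b s t = kap h P z ρ a b t s := by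
  have h1 : sin (s - t) = -sin (t - s) := by rw [← sin_neg]; congr 1; ring
  have h2 : WW h P z ρ a b t s = -WW h P z ρ a b s t := L.om_skew _ _
  unfold kap
  rw [h1, h2]
  rcases lt_trichotomy (sin (t - s)) 0 with h3 | h3 | h3
  · rw [if_neg (not_le.2 h3), if_pos (by linarith)]
  · rw [hP.WW_zero hz hρ h3]; simp
  · rw [if_pos h3.le, if_neg (by linarith), neg_neg]

theorem NegB.WW_per_left (hP : NegB h K P) (hz : z ∈ L.US G) (hρ : Inv θ θ' ρ) (s t : ℝ) :
    WW h P z ρ a b (s + 2 * π) t = -WW h P z ρ a b s t := by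
  unfold WW
  rw [hP.JJ_per hz hρ, ← neg_one_smul ℝ (JJ h P z ρ a b s), L.om_smul_left]; ring

theorem NegB.kap_per (hP : NegB h K P) (hz : z ∈ L.US G) (hρ : Inv θ θ' ρ) (s t : ℝ) :
    kap h P z ρ a b (s + 2 * π) t = -kap h P z ρ a b s t := by
  have h1 : sin (t - (s + 2 * π)) = sin (t - s) := by
    rw [← sin_sub_two_pi (t - s)]; congr 1; ring
  unfold kap
  rw [h1, hP.WW_per_left hz hρ]
  split_ifs <;> ring

theorem kap_of_le {s t : ℝ}
    (h1 : s ≤ t) (h2 : t ≤ s + π) : kap h P z ρ a b s t = WW h P z ρ a b s t := by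
  unfold kap
  rw [if_pos (sin_nonneg_of_nonneg_of_le_pi (by linarith) (by linarith))]

theorem NegB.kap_of_ge (hP : NegB h K P) (hz : z ∈ L.US G) (hρ : Inv θ θ' ρ) {s t : ℝ}
    (h1 : s - π ≤ t) (h2 : t ≤ s) : kap h P z ρ a b s t = -WW h P z ρ a b s t := by
  have h3 : sin (t - s) ≤ 0 := by
    have : 0 ≤ sin (s - t) := sin_nonneg_of_nonneg_of_le_pi (by linarith) (by linarith)
    have h4 : sin (s - t) = -sin (t - s) := by rw [← sin_neg]; congr 1; ring
    linarith
  unfold kap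
  rcases h3.lt_or_eq with h4 | h4
  · rw [if_neg (not_le.2 h4)]
  · rw [hP.WW_zero hz hρ h4]; simp

end Crest.Agent.R208.KR
end
end

-- ▼ part R208/KR7
section

/-!
R208, block KF (helper844), file KR7: index forms of the fields `xi` through the kernel, and
**negativity**.
-/

set_option autoImplicit false

open Set Filter Topology MeasureTheory Real Module
open scoped RealInnerProductSpace Interval ContDiff
open Crest.GeometryTopology.Submanifold
open Crest.Agent.R241.DDefs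
open Crest.Agent.R241.D2
open Crest.Agent.R208.L (om TanTS dfl om_dfl)
open Crest.Agent.R208.FI (Tan Sub)
open Crest.Agent.R208.NN (Wt nuP qq V0 fd fd' qf Rt ev ev')

noncomputable section

namespace Crest.Agent.R208.KR

variable {n N k K : ℕ} {κ : ℝ} {S : Set (Euc N)} {G : Geo n N κ S} {z ξ η : Euc N × Euc N}
  {h : GT.Bla G k} {P : Euc N × Euc N → Wt N K →L[ℝ] Wt N K} {θ θ' ρ c : ℝ → ℝ} {a b : Wt N K}

/-! ### integrals -/

theorem cont_left {F : ℝ → ℝ → ℝ} (hF : Continuous (Function.uncurry F)) (s : ℝ) :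
    Continuous fun t => F s t := hF.comp (continuous_const.prodMk continuous_id)

theorem cont_shift {F : ℝ → ℝ → ℝ} (hF : Continuous (Function.uncurry F)) :
    Continuous fun p : ℝ × ℝ => F p.1 (p.1 + p.2) :=
  hF.comp (continuous_fst.prodMk (continuous_fst.add continuous_snd))

theorem cont_mul {F : ℝ → ℝ → ℝ} (hF : Continuous (Function.uncurry F)) {c : ℝ → ℝ}
    (hc : Continuous c) : Continuous (Function.uncurry fun s t => c s * c t * F s t) := by
  have h1 : Continuous fun p : ℝ × ℝ => F p.1 p.2 := hF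
  have h2 : Continuous fun p : ℝ × ℝ => c p.1 * c p.2 * F p.1 p.2 := by fun_prop
  exact h2

theorem Inv.int_Cc (hρ : Inv θ θ' ρ) (hP : NegB h K P) (hz : z ∈ L.US G) (hc : Continuous c)
    (u v : ℝ) : ∫ r in u..v, Cc h P z θ θ' c a b r = ∫ t in θ u..θ v, c t • JJ h P z ρ a b t := by
  have h1 := hP.continuous_JJ (a := a) (b := b) hz hρ
  have h2 := intervalIntegral.integral_deriv_smul_comp (a := u) (b := v) (f := θ) (f' := θ')
    (g := fun t => c t • JJ h P z ρ a b t) (fun x _ => hρ.ang.der x) hρ.ang.cont.continuousOn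
    (hc.smul h1)
  rw [← h2]
  refine intervalIntegral.integral_congr fun r _ => ?_
  simp only [Function.comp_apply, Cc, JJ]
  rw [hρ.left, smul_smul, mul_comm]

theorem om_int {F : ℝ → Euc N × Euc N} (hF : Continuous F) (ξ : Euc N × Euc N) (u v : ℝ) :
    om ξ (∫ t in u..v, F t) = ∫ t in u..v, om ξ (F t) := by
  let A : Euc N × Euc N →L[ℝ] ℝ := LinearMap.toContinuousLinearMap
    { toFun := om ξ
      map_add' := fun x y => L.om_add_right ξ x y
      map_smul' := fun r x => L.om_smul_right r ξ x }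
  have h1 : ∀ x, A x = om ξ x := fun x => rfl
  rw [← h1, ← A.intervalIntegral_comp_comm (hF.intervalIntegrable _ _)]
  rfl

/-- the inner integral -/
def Ph (h : GT.Bla G k) (P : Euc N × Euc N → Wt N K →L[ℝ] Wt N K) (z : Euc N × Euc N)
    (ρ c : ℝ → ℝ) (a b : Wt N K) (s : ℝ) : ℝ :=
  ∫ t in (s - π)..(s + π), c s * c t * kap h P z ρ a b s t

theorem NegB.Ph_eq (hP : NegB h K P) (hz : z ∈ L.US G) (hρ : Inv θ θ' ρ) (hc : Continuous c)
    (s : ℝ) : Ph h P z ρ c a b s = c s * ((∫ t in s..(s + π), c t * WW h P z ρ a b s t) -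
      ∫ t in (s - π)..s, c t * WW h P z ρ a b s t) := by
  have hpi := Real.pi_pos
  have hk0 : Continuous fun t => kap h P z ρ a b s t :=
    cont_left (hP.continuous_kap (a := a) (b := b) hz hρ) s
  have hk : Continuous fun t => c s * c t * kap h P z ρ a b s t :=
    (continuous_const.mul hc).mul hk0
  unfold Ph
  rw [← intervalIntegral.integral_add_adjacent_intervals (b := s)
    (hk.intervalIntegrable _ _) (hk.intervalIntegrable _ _), mul_sub,
    ← intervalIntegral.integral_const_mul, ← intervalIntegral.integral_const_mul]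
  have e1 : ∫ t in (s - π)..s, c s * c t * kap h P z ρ a b s t =
      -∫ t in (s - π)..s, c s * (c t * WW h P z ρ a b s t) := by
    rw [← intervalIntegral.integral_neg]
    refine intervalIntegral.integral_congr fun t ht => ?_
    rw [uIcc_of_le (by linarith)] at ht
    rw [hP.kap_of_ge hz hρ ht.1 ht.2]; ring
  have e2 : ∫ t in s..(s + π), c s * c t * kap h P z ρ a b s t =
      ∫ t in s..(s + π), c s * (c t * WW h P z ρ a b s t) := by
    refine intervalIntegral.integral_congr fun t ht => ?_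
    rw [uIcc_of_le (by linarith)] at ht
    rw [kap_of_le ht.1 ht.2]; ring
  rw [e1, e2]; ring

theorem NegB.continuous_Ph (hP : NegB h K P) (hz : z ∈ L.US G) (hρ : Inv θ θ' ρ)
    (hc : Continuous c) : Continuous (Ph h P z ρ c a b) := by
  have e1 : Ph h P z ρ c a b = fun s => ∫ t in (-π)..π, c s * c (s + t) *
      kap h P z ρ a b s (s + t) := by
    funext s
    unfold Ph
    rw [intervalIntegral.integral_comp_add_left (fun t => c s * c t * kap h P z ρ a b s t) s]
    congr 1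
  rw [e1]
  refine intervalIntegral.continuous_parametric_intervalIntegral_of_continuous' ?_ _ _
  exact cont_shift (cont_mul (hP.continuous_kap (a := a) (b := b) hz hρ) hc)

theorem NegB.kap_per_right (hP : NegB h K P) (hz : z ∈ L.US G) (hρ : Inv θ θ' ρ) (s t : ℝ) :
    kap h P z ρ a b s (t + 2 * π) = -kap h P z ρ a b s t := by
  rw [hP.kap_symm hz hρ, hP.kap_per hz hρ, hP.kap_symm hz hρ]

theorem NegB.Ph_per (hP : NegB h K P) (hz : z ∈ L.US G) (hρ : Inv θ θ' ρ) {σ : ℝ}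
    (hσ1 : σ * σ = 1) (hσ : ∀ t, c (t + 2 * π) = σ * c t) (s : ℝ) :
    Ph h P z ρ c a b (s + 2 * π) = Ph h P z ρ c a b s := by
  have e1 : Ph h P z ρ c a b (s + 2 * π) = ∫ t in (s - π)..(s + π), c (s + 2 * π) *
      c (t + 2 * π) * kap h P z ρ a b (s + 2 * π) (t + 2 * π) := by
    rw [intervalIntegral.integral_comp_add_right (fun t => c (s + 2 * π) * c t *
      kap h P z ρ a b (s + 2 * π) t) (2 * π)]
    unfold Ph
    congr 1 <;> ring
  rw [e1]
  refine intervalIntegral.integral_congr fun t _ => ?_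
  rw [hσ, hσ, hP.kap_per hz hρ, hP.kap_per_right hz hρ]
  linear_combination (c s * c t * kap h P z ρ a b s t) * hσ1

/-- **index form through the kernel** -/
theorem NegB.ix_kap (hP : NegB h K P) (hz : z ∈ L.US G) (hρ : Inv θ θ' ρ) (hc : Continuous c)
    {σ : ℝ} (hσ1 : σ * σ = 1) (hσ : ∀ t, c (t + 2 * π) = σ * c t) :
    SV.ix G z 0 (2 * π) (xi G z (Cc h P z θ θ' c a b)) (xi' G z (Cc h P z θ θ' c a b))
      (xi G z (Cc h P z θ θ' c a b)) (xi' G z (Cc h P z θ θ' c a b)) =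
    ∫ s in (0:ℝ)..(2 * π), Ph h P z ρ c a b s := by
  have hC := hP.crv (a := a) (b := b) hz hρ.ang hc
  have hper := hP.Cc_per (a := a) (b := b) hz hρ.ang hσ
  rw [ix_xi_xi h hz hC hC (ε := -σ) (by rw [neg_mul_neg, hσ1]) hper hper]
  have hJ : Continuous fun t => c t • JJ h P z ρ a b t :=
    hc.smul (hP.continuous_JJ (a := a) (b := b) hz hρ)
  have e1 : ∀ r, om (Cc h P z θ θ' c a b r) (∫ s in r..(r + π), Cc h P z θ θ' c a b s) -
      om (Cc h P z θ θ' c a b r) (∫ s in (r - π)..r, Cc h P z θ θ' c a b s) =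
      (Ph h P z ρ c a b ∘ θ) r * θ' r := by
    intro r
    have hm : θ (r - π) = θ r - π := by
      have := hρ.ang.per (r - π)
      rw [sub_add_cancel] at this; linarith
    have e2 : Cc h P z θ θ' c a b r = (c (θ r) * θ' r) • JJ h P z ρ a b (θ r) := by
      unfold Cc JJ; rw [hρ.left]
    rw [hρ.int_Cc hP hz hc, hρ.int_Cc hP hz hc, hρ.ang.per, hm, e2, L.om_smul_left,
      L.om_smul_left, om_int hJ, om_int hJ, Function.comp_apply,
      hP.Ph_eq hz hρ hc]
    simp only [L.om_smul_right]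
    unfold WW
    ring
  rw [intervalIntegral.integral_congr fun r _ => e1 r,
    intervalIntegral.integral_comp_mul_deriv (fun x _ => hρ.ang.der x)
      hρ.ang.cont.continuousOn (hP.continuous_Ph hz hρ hc)]
  have h2 : θ (2 * π) = θ 0 + 2 * π := by
    have := hρ.ang.per_two 0
    rwa [zero_add] at this
  rw [h2, per_shift (hP.Ph_per hz hρ hσ1 hσ)]

/-! ### the pairing with the fields of `N` -/

theorem bb_eq (hz : z ∈ TS G) (w w' : Wt N K) : bb G z w w' = ⟪NB.Cz G (nuP K) z w, w'⟫ :=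
  (inner_Cz hz w w').symm

theorem NegB.ix_fd (hP : NegB h K P) (hz : z ∈ L.US G) (hρ : Inv θ θ' ρ) (hc : Continuous c)
    (hσ : ∀ t, c (t + 2 * π) = -c t) {w : Wt N K} (hw : P z w = w) :
    SV.ix G z 0 (2 * π) (xi G z (Cc h P z θ θ' c a b)) (xi' G z (Cc h P z θ θ' c a b))
      (fd G z (nuP K) w) (fd' G z (nuP K) w) =
    (1 / 2) * bb G z (∫ t in (0:ℝ)..(2 * π), c t • Nt a b t) w := by
  have hC := hP.crv (a := a) (b := b) hz hρ.ang hc
  have hσ' : ∀ t, c (t + 2 * π) = (-1) * c t := fun t => by rw [hσ]; ring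
  have hper := hP.Cc_per (a := a) (b := b) hz hρ.ang hσ'
  have hNc := (contDiff_Nt a b).continuous
  have hcN : Continuous fun t => c t • Nt a b t := hc.smul hNc
  rw [ix_xi h hz hC (ε := 1) (by norm_num) (fun r => by rw [hper, neg_neg]) (gf_fd h hz w)]
  have hΨc : Continuous fun t => c t * bb G z (Nt a b t) w := by
    simp only [bb_eq hz.1]
    exact hc.mul (((NB.Cz G (nuP K) z).continuous.comp hNc).inner continuous_const)
  have e1 : ∀ r, ⟪SV.jf' G z (Cc h P z θ θ' c a b r) (r + π), fd G z (nuP K) w (r + π)⟫ -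
      ⟪SV.jf' G z (Cc h P z θ θ' c a b r) r, fd G z (nuP K) w r⟫ =
      (1 / 2) * (((fun t => c t * bb G z (Nt a b t) w) ∘ θ) r * θ' r) := by
    intro r
    have h1 := hP.pair hz r (Nt a b (θ r)) hw
    unfold Cc
    rw [jf'_smul, jf'_smul, real_inner_smul_left, real_inner_smul_left, ← mul_sub, h1]
    simp only [Function.comp_apply]
    ring
  rw [intervalIntegral.integral_congr fun r _ => e1 r, intervalIntegral.integral_const_mul,
    intervalIntegral.integral_comp_mul_deriv (fun x _ => hρ.ang.der x)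
      hρ.ang.cont.continuousOn hΨc]
  have h2 : θ (2 * π) = θ 0 + 2 * π := by
    have := hρ.ang.per_two 0
    rwa [zero_add] at this
  have h3 : ∀ t, (fun t => c t * bb G z (Nt a b t) w) (t + 2 * π) =
      (fun t => c t * bb G z (Nt a b t) w) t := by
    intro t
    simp only [bb_eq hz.1]
    rw [hσ, Nt_per, map_neg, inner_neg_left]; ring
  rw [h2, per_shift h3]
  congr 1
  have h4 : bb G z (∫ t in (0:ℝ)..(2 * π), c t • Nt a b t) w =
      (innerSL ℝ w) (NB.Cz G (nuP K) z (∫ t in (0:ℝ)..(2 * π), c t • Nt a b t)) := by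
    rw [bb_eq hz.1, real_inner_comm]; rfl
  rw [h4, ← ContinuousLinearMap.comp_apply,
    ← ContinuousLinearMap.intervalIntegral_comp_comm _ (hcN.intervalIntegrable _ _)]
  refine intervalIntegral.integral_congr fun t _ => ?_
  simp only [ContinuousLinearMap.comp_apply, map_smul, smul_eq_mul, innerSL_apply_apply]
  rw [bb_eq hz.1, real_inner_comm]

theorem bb_int (hz : z ∈ TS G) (hc : Continuous c) :
    bb G z (∫ t in (0:ℝ)..(2 * π), c t • Nt a b t) (∫ t in (0:ℝ)..(2 * π), c t • Nt a b t) =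
      ∫ s in (0:ℝ)..(2 * π), ∫ t in (0:ℝ)..(2 * π), c s * c t * bb G z (Nt a b s) (Nt a b t) := by
  have hNc := (contDiff_Nt a b).continuous
  have hcN : Continuous fun t => c t • Nt a b t := hc.smul hNc
  set m := ∫ t in (0:ℝ)..(2 * π), c t • Nt a b t with hm
  have h4 : bb G z m m = (innerSL ℝ m) (NB.Cz G (nuP K) z (∫ t in (0:ℝ)..(2 * π),
      c t • Nt a b t)) := by
    rw [bb_eq hz, real_inner_comm]; rfl
  rw [h4, ← ContinuousLinearMap.comp_apply,
    ← ContinuousLinearMap.intervalIntegral_comp_comm _ (hcN.intervalIntegrable _ _)]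
  refine intervalIntegral.integral_congr fun s _ => ?_
  simp only [ContinuousLinearMap.comp_apply, map_smul, smul_eq_mul, innerSL_apply_apply]
  have h5 : ⟪m, NB.Cz G (nuP K) z (Nt a b s)⟫ = (innerSL ℝ (NB.Cz G (nuP K) z (Nt a b s)))
      (∫ t in (0:ℝ)..(2 * π), c t • Nt a b t) := by
    rw [real_inner_comm]; rfl
  rw [h5, ← ContinuousLinearMap.intervalIntegral_comp_comm _
    (hcN.intervalIntegrable _ _), ← intervalIntegral.integral_const_mul]
  refine intervalIntegral.integral_congr fun t _ => ?_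
  simp only [map_smul, smul_eq_mul, innerSL_apply_apply]
  rw [bb_eq hz]; ring

/-- the full kernel -/
def kk (h : GT.Bla G k) (P : Euc N × Euc N → Wt N K →L[ℝ] Wt N K) (z : Euc N × Euc N)
    (ρ : ℝ → ℝ) (a b : Wt N K) (s t : ℝ) : ℝ :=
  4 * kap h P z ρ a b s t - bb G z (Nt a b s) (Nt a b t)

theorem continuous_bb (hz : z ∈ TS G) :
    Continuous fun p : ℝ × ℝ => bb G z (Nt a b p.1) (Nt a b p.2) := by
  have hNc := (contDiff_Nt a b).continuous
  simp only [bb_eq hz]
  exact ((NB.Cz G (nuP K) z).continuous.comp (hNc.comp continuous_fst)).inner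
    (hNc.comp continuous_snd)

theorem NegB.continuous_kk (hP : NegB h K P) (hz : z ∈ L.US G) (hρ : Inv θ θ' ρ) :
    Continuous (Function.uncurry (kk h P z ρ a b)) :=
  (continuous_const.mul (hP.continuous_kap (a := a) (b := b) hz hρ)).sub (continuous_bb hz.1)

theorem NegB.kk_symm (hP : NegB h K P) (hz : z ∈ L.US G) (hρ : Inv θ θ' ρ) (s t : ℝ) :
    kk h P z ρ a b s t = kk h P z ρ a b t s := by
  unfold kk; rw [hP.kap_symm hz hρ, bb_symm hz.1]

theorem NegB.kk_per (hP : NegB h K P) (hz : z ∈ L.US G) (hρ : Inv θ θ' ρ) (s t : ℝ) :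
    kk h P z ρ a b (s + 2 * π) t = -kk h P z ρ a b s t := by
  unfold kk
  rw [hP.kap_per hz hρ, bb_eq hz.1, Nt_per, map_neg, inner_neg_left, ← bb_eq hz.1]; ring

theorem NegB.kk_per' (hP : NegB h K P) (hz : z ∈ L.US G) (hρ : Inv θ θ' ρ) (s t : ℝ) :
    kk h P z ρ a b s (t + 2 * π) = -kk h P z ρ a b s t := by
  rw [hP.kk_symm hz hρ, hP.kk_per hz hρ, hP.kk_symm hz hρ]

/-- **integral positivity** -/
theorem NegB.kk_pos (hP : NegB h K P) (hz : z ∈ L.US G) (hρ : Inv θ θ' ρ) (ha : P z a = a)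
    (hb : P z b = b) (hc : Continuous c) (hσ : ∀ t, c (t + 2 * π) = -c t) :
    0 ≤ ∫ x in (0:ℝ)..(2 * π), ∫ y in (0:ℝ)..(2 * π), c x * c y * kk h P z ρ a b x y := by
  have hpi := Real.pi_pos
  have h2pi : (0:ℝ) ≤ 2 * π := by positivity
  have hC := hP.crv (a := a) (b := b) hz hρ.ang hc
  have hσ' : ∀ t, c (t + 2 * π) = (-1) * c t := fun t => by rw [hσ]; ring
  have hper : ∀ r, Cc h P z θ θ' c a b (r + 2 * π) = (1:ℝ) • Cc h P z θ θ' c a b r := fun r => by
    rw [hP.Cc_per (a := a) (b := b) hz hρ.ang hσ', neg_neg]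
  have hNc := (contDiff_Nt a b).continuous
  have hcN : Continuous fun t => c t • Nt a b t := hc.smul hNc
  set m := ∫ t in (0:ℝ)..(2 * π), c t • Nt a b t with hm
  have hPm : P z m = m := by
    rw [hm, ← ContinuousLinearMap.intervalIntegral_comp_comm _
      (hcN.intervalIntegrable _ _)]
    refine intervalIntegral.integral_congr fun t _ => ?_
    simp only [map_smul]
    rw [NegB.P_Nt ha hb]
  -- the field
  have hX := hC.fld h hz 0 (2 * π)
  have hY := NN.fld_fd (G := G) hz.1 (nuP K) m 0 (2 * π)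
  have hY2 : SV.Fld G z 0 (2 * π) ((-(1/2:ℝ)) • fd G z (nuP K) m)
      ((-(1/2:ℝ)) • fd' G z (nuP K) m) := hY.smul _
  have hV := hX.add hY2
  have hfdm : ∀ w, P z w = w → SV.ix G z 0 (2 * π) (fd G z (nuP K) w) (fd' G z (nuP K) w)
      (xi G z (Cc h P z θ θ' c a b)) (xi' G z (Cc h P z θ θ' c a b)) = (1 / 2) * bb G z m w := by
    intro w hw
    rw [SV.ix_symm h2pi hz.1 (NN.fld_fd hz.1 _ _ _ _) hX]
    exact hP.ix_fd hz hρ hc hσ hw
  have h0 : 0 ≤ SV.ix G z 0 (2 * π)
      (xi G z (Cc h P z θ θ' c a b) + (-(1/2:ℝ)) • fd G z (nuP K) m)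
      (xi' G z (Cc h P z θ θ' c a b) + (-(1/2:ℝ)) • fd' G z (nuP K) m)
      (xi G z (Cc h P z θ θ' c a b) + (-(1/2:ℝ)) • fd G z (nuP K) m)
      (xi' G z (Cc h P z θ θ' c a b) + (-(1/2:ℝ)) • fd' G z (nuP K) m) := by
    refine NN.nonneg_compl_qf h hz
      (Q := LinearMap.range (P z : Wt N K →ₗ[ℝ] Wt N K)) (by rw [hP.rank z hz])
      (fun w hw hw0 => hP.neg z hz w ((hP.mem_range hz).1 hw) hw0) (NN.BFld.of_fld hV) ?_ ?_
    · have e1 := (hC.xi_per h hz hper 0).1
      rw [zero_add, one_smul] at e1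
      have e2 := NN.fd_two_pi (K := K) h hz m
      simp only [Pi.add_apply, Pi.smul_apply]
      rw [e1, e2]
    · intro w hw
      have hw' := (hP.mem_range hz).1 hw
      rw [SV.ix_add_right h2pi hz.1 (NN.fld_fd hz.1 _ _ _ _) hX hY2, SV.ix_smul_right,
        hfdm w hw']
      change _ + _ * bb G z w m = 0
      rw [bb_symm hz.1 w m]; ring
  rw [SV.ix_add_self h2pi hz.1 hX hY2, SV.ix_smul_left, SV.ix_smul_left, SV.ix_smul_right,
    hfdm m hPm, hP.ix_kap hz hρ hc (σ := -1) (by norm_num) hσ'] at h0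
  change 0 ≤ _ + _ + _ * (_ * bb G z m m) at h0
  have hbb := bb_int (a := a) (b := b) hz.1 hc
  rw [← hm] at hbb
  rw [hbb] at h0
  -- compare
  have e3 : ∀ s, Ph h P z ρ c a b s = ∫ t in (0:ℝ)..(2 * π), c s * c t * kap h P z ρ a b s t := by
    intro s
    unfold Ph
    have h5 := per_shift (f := fun t => c s * c t * kap h P z ρ a b s t) (fun t => by
      rw [hσ, hP.kap_per_right hz hρ]; ring) (s - π)
    rw [← h5]
    congr 1; ring
  simp only [e3] at h0
  have hk1 : Continuous (Function.uncurry fun s t => c s * c t * kap h P z ρ a b s t) :=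
    cont_mul (hP.continuous_kap hz hρ) hc
  have hk2 : Continuous (Function.uncurry fun s t => c s * c t * bb G z (Nt a b s) (Nt a b t)) :=
    cont_mul (F := fun s t => bb G z (Nt a b s) (Nt a b t)) (continuous_bb hz.1) hc
  have e4 : ∀ s, ∫ t in (0:ℝ)..(2 * π), c s * c t * kk h P z ρ a b s t =
      4 * (∫ t in (0:ℝ)..(2 * π), c s * c t * kap h P z ρ a b s t) -
        ∫ t in (0:ℝ)..(2 * π), c s * c t * bb G z (Nt a b s) (Nt a b t) := by
    intro s
    rw [← intervalIntegral.integral_const_mul, ← intervalIntegral.integral_sub]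
    · refine intervalIntegral.integral_congr fun t _ => ?_
      simp only [kk]; ring
    · exact (continuous_const.mul (cont_left hk1 s)).intervalIntegrable _ _
    · exact (cont_left hk2 s).intervalIntegrable _ _
  simp only [e4]
  rw [intervalIntegral.integral_sub, intervalIntegral.integral_const_mul]
  · linarith
  · exact (continuous_const.mul (intervalIntegral.continuous_parametric_intervalIntegral_of_continuous'
      hk1 _ _)).intervalIntegrable _ _
  · exact (intervalIntegral.continuous_parametric_intervalIntegral_of_continuous'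
      hk2 _ _).intervalIntegrable _ _

end Crest.Agent.R208.KR
end
end

-- ▼ part R208/KR8

/-!
R208, block KF (helper844), file KR8: **negativity of the index form on the fields `xi`.**
-/

set_option autoImplicit false

open Set Filter Topology MeasureTheory Real Module
open scoped RealInnerProductSpace Interval ContDiff
open Crest.GeometryTopology.Submanifold
open Crest.Agent.R241.DDefs
open Crest.Agent.R241.D2
open Crest.Agent.R208.L (om TanTS dfl om_dfl)
open Crest.Agent.R208.FI (Tan Sub)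
open Crest.Agent.R208.NN (Wt nuP qq V0 fd fd' qf Rt ev ev')

noncomputable section

namespace Crest.Agent.R208.KR

variable {n N k K : ℕ} {κ : ℝ} {S : Set (Euc N)} {G : Geo n N κ S} {z ξ η : Euc N × Euc N}
  {h : GT.Bla G k} {P : Euc N × Euc N → Wt N K →L[ℝ] Wt N K} {θ θ' ρ c : ℝ → ℝ} {a b : Wt N K}

theorem cont_diag {F : ℝ → ℝ → ℝ} (hF : Continuous (Function.uncurry F)) :
    Continuous fun x => F x x := hF.comp (continuous_id.prodMk continuous_id)

/-- pointwise positivity -/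
theorem NegB.kk_psd (hP : NegB h K P) (hz : z ∈ L.US G) (hρ : Inv θ θ' ρ) (ha : P z a = a)
    (hb : P z b = b) (s : Finset ℝ) (c : ℝ → ℝ) :
    0 ≤ ∑ i ∈ s, ∑ j ∈ s, c i * c j * kk h P z ρ a b i j :=
  psd_of_int (hP.continuous_kk hz hρ) (hP.kk_per hz hρ) (hP.kk_per' hz hρ)
    (fun _ hc hσ => hP.kk_pos hz hρ ha hb hc.continuous hσ) s c

/-- window integral of the trigonometric part -/
theorem win_Nt (hz : z ∈ TS G) (x : ℝ) :
    ∫ y in (x - π)..(x + π), bb G z (Nt a b x) (Nt a b y) =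
      4 * bb G z (Nt a b x) (Nt a b x) := by
  have hcos : ∫ y in (x - π)..(x + π), cos (y / 2) = 4 * cos (x / 2) := by
    have hd : ∀ y, HasDerivAt (fun y : ℝ => 2 * sin (y / 2)) (cos (y / 2)) y := by
      intro y
      have h1 : HasDerivAt (fun y : ℝ => y / 2) (1 / 2) y := (hasDerivAt_id y).div_const 2
      refine ((h1.sin).const_mul 2).congr_deriv ?_
      ring
    rw [intervalIntegral.integral_eq_sub_of_hasDerivAt (fun y _ => hd y)
      (Continuous.intervalIntegrable (by fun_prop) _ _)]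
    have e1 : (x + π) / 2 = x / 2 + π / 2 := by ring
    have e2 : (x - π) / 2 = x / 2 - π / 2 := by ring
    rw [e1, e2, sin_add_pi_div_two, sin_sub_pi_div_two]; ring
  have hsin : ∫ y in (x - π)..(x + π), sin (y / 2) = 4 * sin (x / 2) := by
    have hd : ∀ y, HasDerivAt (fun y : ℝ => -(2 * cos (y / 2))) (sin (y / 2)) y := by
      intro y
      have h1 : HasDerivAt (fun y : ℝ => y / 2) (1 / 2) y := (hasDerivAt_id y).div_const 2
      refine ((h1.cos).const_mul 2).neg.congr_deriv ?_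
      ring
    rw [intervalIntegral.integral_eq_sub_of_hasDerivAt (fun y _ => hd y)
      (Continuous.intervalIntegrable (by fun_prop) _ _)]
    have e1 : (x + π) / 2 = x / 2 + π / 2 := by ring
    have e2 : (x - π) / 2 = x / 2 - π / 2 := by ring
    rw [e1, e2, cos_add_pi_div_two, cos_sub_pi_div_two]; ring
  have hlin : ∀ w y, bb G z w (Nt a b y) = cos (y / 2) * bb G z w a + sin (y / 2) * bb G z w b := by
    intro w y
    rw [bb_eq hz, bb_eq hz, bb_eq hz, Nt, inner_add_right, real_inner_smul_right,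
      real_inner_smul_right]
  rw [intervalIntegral.integral_congr fun y _ => hlin (Nt a b x) y,
    intervalIntegral.integral_add (Continuous.intervalIntegrable (by fun_prop) _ _)
      (Continuous.intervalIntegrable (by fun_prop) _ _),
    intervalIntegral.integral_mul_const, intervalIntegral.integral_mul_const, hcos, hsin,
    hlin (Nt a b x) x]
  ring

/-- the basic curve -/
def C1 (h : GT.Bla G k) (P : Euc N × Euc N → Wt N K →L[ℝ] Wt N K) (z : Euc N × Euc N)
    (θ θ' : ℝ → ℝ) (a b : Wt N K) (r : ℝ) : Euc N × Euc N :=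
  θ' r • Jr h P z r (Nt a b (θ r))

theorem C1_eq : C1 h P z θ θ' a b = Cc h P z θ θ' (fun _ => 1) a b := by
  funext r; unfold C1 Cc; rw [one_mul]

theorem NegB.bb_nonpos (hP : NegB h K P) (hz : z ∈ L.US G) {w : Wt N K} (hw : P z w = w) :
    bb G z w w ≤ 0 := by
  by_cases h0 : w = 0
  · rw [h0, bb_eq hz.1]; simp
  · exact (hP.bb_neg hz hw h0).le

/-- **index form of `xi` as the defect of the kernel inequality** -/
theorem NegB.ix_defect (hP : NegB h K P) (hz : z ∈ L.US G) (hρ : Inv θ θ' ρ) :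
    4 * SV.ix G z 0 (2 * π) (xi G z (C1 h P z θ θ' a b)) (xi' G z (C1 h P z θ θ' a b))
      (xi G z (C1 h P z θ θ' a b)) (xi' G z (C1 h P z θ θ' a b)) =
    (∫ x in (0:ℝ)..(2 * π), ∫ y in (x - π)..(x + π), kk h P z ρ a b x y) -
      4 * ∫ x in (0:ℝ)..(2 * π), kk h P z ρ a b x x := by
  rw [C1_eq, hP.ix_kap hz hρ continuous_const (σ := 1) (by norm_num) (fun _ => (one_mul _).symm)]
  have hkc := hP.continuous_kap (a := a) (b := b) hz hρ
  have hbc := continuous_bb (a := a) (b := b) hz.1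
  have e1 : ∀ x, ∫ y in (x - π)..(x + π), kk h P z ρ a b x y =
      4 * Ph h P z ρ (fun _ => 1) a b x - 4 * bb G z (Nt a b x) (Nt a b x) := by
    intro x
    rw [← win_Nt hz.1 x]
    unfold Ph
    simp only [one_mul]
    rw [← intervalIntegral.integral_const_mul, ← intervalIntegral.integral_sub]
    · rfl
    · exact (continuous_const.mul (cont_left hkc x)).intervalIntegrable _ _
    · exact (cont_left (F := fun s t => bb G z (Nt a b s) (Nt a b t)) hbc x).intervalIntegrable _ _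
  have e2 : ∀ x, kk h P z ρ a b x x = -bb G z (Nt a b x) (Nt a b x) := by
    intro x
    unfold kk
    have : kap h P z ρ a b x x = 0 := by
      unfold kap
      rw [sub_self, sin_zero, if_pos le_rfl]
      exact L.om_self _
    rw [this]; ring
  have hdc : Continuous fun x => bb G z (Nt a b x) (Nt a b x) :=
    cont_diag (F := fun s t => bb G z (Nt a b s) (Nt a b t)) hbc
  simp only [e1, e2]
  rw [intervalIntegral.integral_sub, intervalIntegral.integral_const_mul,
    intervalIntegral.integral_const_mul, intervalIntegral.integral_neg]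
  · ring
  · exact (continuous_const.mul (hP.continuous_Ph hz hρ continuous_const)).intervalIntegrable _ _
  · exact (continuous_const.mul hdc).intervalIntegrable _ _

/-- **NEGATIVITY (KF2)** -/
theorem NegB.ix_neg (hP : NegB h K P) (hz : z ∈ L.US G) (hθ : Ang θ θ') (ha : P z a = a)
    (hb : P z b = b) (hab : (a, b) ≠ 0) :
    SV.ix G z 0 (2 * π) (xi G z (C1 h P z θ θ' a b)) (xi' G z (C1 h P z θ θ' a b))
      (xi G z (C1 h P z θ θ' a b)) (xi' G z (C1 h P z θ θ' a b)) < 0 := by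
  have hpi := Real.pi_pos
  obtain ⟨ρ, g1, g2, g3, g4⟩ := hθ.exists_inv
  have hρ : Inv θ θ' ρ := ⟨hθ, g1, g2, g3, g4⟩
  have hdef := hP.ix_defect (a := a) (b := b) hz hρ
  obtain ⟨hle, hstrict⟩ := kernel_main (hP.continuous_kk (a := a) (b := b) hz hρ)
    (hP.kk_symm hz hρ) (hP.kk_per hz hρ) (hP.kk_psd hz hρ ha hb)
  by_contra hcon
  rw [not_lt] at hcon
  obtain ⟨C, hC⟩ := hstrict (by linarith)
  -- a base point where `Nt` does not vanish
  obtain ⟨x₀, hx₀, hN0⟩ : ∃ x₀ ∈ Ico (0:ℝ) (2 * π), Nt a b x₀ ≠ 0 := by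
    by_cases ha0 : a = 0
    · refine ⟨π, ⟨hpi.le, by linarith⟩, ?_⟩
      intro h0
      apply hab
      unfold Nt at h0
      rw [cos_pi_div_two, sin_pi_div_two, zero_smul, one_smul, zero_add] at h0
      rw [ha0, h0]; rfl
    · refine ⟨0, ⟨le_rfl, by positivity⟩, ?_⟩
      unfold Nt
      rw [zero_div, cos_zero, sin_zero, one_smul, zero_smul, add_zero]
      exact ha0
  set r₀ := ρ x₀ with hr₀
  have hθr₀ : θ r₀ = x₀ := g3 x₀
  set p := fl G (z, r₀) with hp
  have hpU : p ∈ L.US G := fl_mem_US hz r₀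
  set u₀ := uu h P p (Rt (nuP K) r₀ (Nt a b x₀)) with hu₀
  have hPN : P p (Rt (nuP K) r₀ (Nt a b x₀)) = Rt (nuP K) r₀ (Nt a b x₀) := by
    rw [hp, hP.equi z hz, NegB.P_Nt ha hb]
  have hRN : Rt (nuP K) r₀ (Nt a b x₀) ≠ 0 := by
    intro h0
    apply hN0
    have := NN.norm_Rt (nuP K) r₀ (Nt a b x₀)
    rw [h0, norm_zero] at this
    exact norm_eq_zero.1 this.symm
  have hu0 : u₀ ≠ 0 := hP.uu_ne hpU hPN hRN
  -- the functions
  set A : ℝ → Euc N := fun r => uu h P (fl G (z, r)) (Rt (nuP K) r (Nt a b (θ r))) with hA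
  set B : ℝ → Euc N := fun r => SV.jf G z (Jr h P z r₀ (Nt a b x₀)) r with hB
  have hA0 : A r₀ = u₀ := by rw [hA]; simp only [hθr₀, hu₀, hp]
  have hB0 : B r₀ = 0 := Jr_v0 hz r₀ _
  have hBd : HasDerivAt B u₀ r₀ := by
    have h1 := SV.hasDerivAt_jf hz.1 (Jr h P z r₀ (Nt a b x₀)) r₀
    rw [Jr_d0 hz] at h1
    exact h1
  have hAc : ContinuousAt A r₀ := by
    have h1 : ContinuousAt (fun r => uu h P (fl G (z, r))) r₀ :=
      ContinuousAt.comp (f := fun r : ℝ => fl G (z, r)) (x := r₀)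
        (hP.contDiffAt_uu hpU).continuousAt (SV.continuous_fl hz.1).continuousAt
    have h2 : ContinuousAt (fun r => Rt (nuP K) r (Nt a b (θ r))) r₀ := by
      have h3 : Continuous fun r => (Rt (nuP K) r : Wt N K →L[ℝ] Wt N K) :=
        contDiff_Rt.continuous
      have h4 : Continuous fun r => Nt a b (θ r) :=
        (contDiff_Nt a b).continuous.comp hθ.continuous
      exact (h3.clm_apply h4).continuousAt
    exact h1.clm_apply h2
  -- the inequality
  have hineq : ∀ᶠ r in 𝓝[>] r₀, ⟪A r, (r - r₀)⁻¹ • (B r - B r₀)⟫ ≤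
      (r - r₀)⁻¹ * (C / 8 * (θ r - θ r₀) ^ 2) := by
    have h1 : Ioo r₀ (ρ (min (2 * π) (x₀ + π))) ∈ 𝓝[>] r₀ := by
      refine Ioo_mem_nhdsGT ?_
      apply hθ.strictMono.lt_iff_lt.1
      rw [hθr₀, g3]
      exact lt_min hx₀.2 (by linarith)
    filter_upwards [h1] with r hr
    have hy1 : x₀ < θ r := by rw [← hθr₀]; exact hθ.strictMono hr.1
    have hy2 : θ r < min (2 * π) (x₀ + π) := by
      have := hθ.strictMono hr.2
      rwa [g3] at this
    have hy3 := hy2.trans_le (min_le_left _ _)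
    have hy4 := hy2.trans_le (min_le_right _ _)
    have h2 := hC x₀ ⟨hx₀.1, hx₀.2.le⟩ (θ r) ⟨hx₀.1.trans hy1.le, hy3.le⟩
    have h3 : kap h P z ρ a b x₀ (θ r) = -⟪A r, B r⟫ := by
      rw [kap_of_le hy1.le hy4.le, hP.WW_eq hz]
      unfold JJ
      rw [g2, Jr_d0 hz]
    have h4 : kk h P z ρ a b x₀ x₀ + kk h P z ρ a b (θ r) (θ r) - 2 * kk h P z ρ a b x₀ (θ r) =
        -bb G z (Nt a b x₀ - Nt a b (θ r)) (Nt a b x₀ - Nt a b (θ r)) +
          8 * ⟪A r, B r⟫ := by
      have e5 : ∀ x, kap h P z ρ a b x x = 0 := by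
        intro x
        unfold kap
        rw [sub_self, sin_zero, if_pos le_rfl]
        exact L.om_self _
      unfold kk
      rw [e5, e5, h3, bb_eq hz.1, bb_eq hz.1, bb_eq hz.1, bb_eq hz.1, map_sub,
        inner_sub_left, inner_sub_right, inner_sub_right, ← bb_eq hz.1, ← bb_eq hz.1,
        ← bb_eq hz.1, ← bb_eq hz.1, bb_symm hz.1 (Nt a b (θ r)) (Nt a b x₀)]
      ring
    have h5 : bb G z (Nt a b x₀ - Nt a b (θ r)) (Nt a b x₀ - Nt a b (θ r)) ≤ 0 :=
      hP.bb_nonpos hz (by rw [map_sub, NegB.P_Nt ha hb, NegB.P_Nt ha hb])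
    rw [h4] at h2
    have h6 : ⟪A r, B r⟫ ≤ C / 8 * (θ r - θ r₀) ^ 2 := by
      rw [hθr₀]; nlinarith
    rw [hB0, sub_zero, real_inner_smul_right]
    exact mul_le_mul_of_nonneg_left h6 (inv_nonneg.2 (by linarith [hr.1]))
  -- limits
  have hlim1 : Tendsto (fun r => ⟪A r, (r - r₀)⁻¹ • (B r - B r₀)⟫) (𝓝[>] r₀) (𝓝 ⟪u₀, u₀⟫) := by
    have h1 : Tendsto (fun r => (r - r₀)⁻¹ • (B r - B r₀)) (𝓝[>] r₀) (𝓝 u₀) := by
      have h2 := hasDerivAt_iff_tendsto_slope.1 hBd
      have h3 : (𝓝[>] r₀) ≤ 𝓝[≠] r₀ := nhdsWithin_mono _ fun x hx => ne_of_gt hx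
      refine (h2.mono_left h3).congr fun r => ?_
      rw [slope_def_module]
    have h4 : Tendsto A (𝓝[>] r₀) (𝓝 u₀) := by
      rw [← hA0]; exact hAc.mono_left nhdsWithin_le_nhds
    exact h4.inner h1
  have hlim2 : Tendsto (fun r => (r - r₀)⁻¹ * (C / 8 * (θ r - θ r₀) ^ 2)) (𝓝[>] r₀) (𝓝 0) := by
    have h2 := hasDerivAt_iff_tendsto_slope.1 (hθ.der r₀)
    have h3 : (𝓝[>] r₀) ≤ 𝓝[≠] r₀ := nhdsWithin_mono _ fun x hx => ne_of_gt hx
    have h4 : Tendsto (fun r => C / 8 * (θ r - θ r₀)) (𝓝[>] r₀) (𝓝 0) := by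
      have : Continuous fun r => C / 8 * (θ r - θ r₀) := by
        have := hθ.continuous
        fun_prop
      have h5 := this.tendsto r₀
      simp only [sub_self, mul_zero] at h5
      exact h5.mono_left nhdsWithin_le_nhds
    have h6 := (h2.mono_left h3).mul h4
    rw [mul_zero] at h6
    refine h6.congr fun r => ?_
    rw [slope_def_field]
    ring
  have h7 := le_of_tendsto_of_tendsto hlim1 hlim2 hineq
  have h8 : 0 < ⟪u₀, u₀⟫ := real_inner_self_pos.2 hu0
  linarith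

end Crest.Agent.R208.KR
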