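import Crest.Agent.R208.CW6

/-! Row 208, block CW (helper586).  CW6a: the real Euler form `EU` on the oriented Grassmannian
`GR b` of a Euclidean space `H` (projections as continuous linear maps, orientation tensors). -/

set_option autoImplicit false
set_option linter.unusedSectionVars false
set_option linter.unusedSimpArgs false
set_option linter.unusedVariables false

open scoped BigOperators ContDiff Topology RealInnerProductSpace
open Module Set Matrix

noncomputable section

namespace Crest.Agent.R208.CW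

open Crest.Agent.R208.F Crest.Agent.R208.FI

universe u

/-- tensors of degree `card A` -/
abbrev TW (A n : Type*) := (A → n) → ℝ

section clm
variable {H : Type*} [NormedAddCommGroup H] [InnerProductSpace ℝ H]
  {H' : Type*} [NormedAddCommGroup H'] [InnerProductSpace ℝ H']
  {H'' : Type*} [NormedAddCommGroup H''] [InnerProductSpace ℝ H'']
  {A ι n m l : Type*} [Fintype A] [DecidableEq A] [Fintype ι] [DecidableEq ι] [Fintype n]
  [DecidableEq n] [Fintype m] [DecidableEq m] [Fintype l] [DecidableEq l]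

/-- the tensor of a family of vectors -/
def tn (b : OrthonormalBasis n ℝ H) (f : A → H) : TW A n := fun I =>
  (Matrix.of fun p q => ⟪b (I p), f q⟫).det

/-- `P` is the orthogonal projection to the span of the orthonormal family `f`, and `w` is the
tensor of `f` -/
def FrR (b : OrthonormalBasis n ℝ H) (P : H →L[ℝ] H) (w : TW A n) : Prop :=
  ∃ f : A → H, Orthonormal ℝ f ∧ (∀ v, P v = ∑ p, ⟪f p, v⟫ • f p) ∧ w = tn b f

/-- complex matrix of a continuous linear map -/
def cM (b : OrthonormalBasis n ℝ H) (P : H →L[ℝ] H) : Matrix n n ℂ :=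
  SP.cr (SP.mt b.toBasis b.toBasis P)

theorem cM_apply (b : OrthonormalBasis n ℝ H) (P : H →L[ℝ] H) (i j : n) :
    cM b P i j = ((⟪b i, P (b j)⟫ : ℝ) : ℂ) := by
  rw [cM, SP.cr_apply, SP.mt_apply]
  simp [OrthonormalBasis.repr_apply_apply]

/-- complex tensor -/
def cW (w : TW A n) (I : A → n) : ℂ := (w I : ℂ)

theorem FrR.fr {b : OrthonormalBasis n ℝ H} {P : H →L[ℝ] H} {w : TW (ι × Fin 2) n}
    (h : FrR b P w) : Fr (cM b P) (cW w) := by
  obtain ⟨f, h1, h2, rfl⟩ := h
  refine ⟨Matrix.of fun a p => ((⟪b a, f p⟫ : ℝ) : ℂ), ?_, ?_, fun I => ?_⟩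
  · refine Matrix.ext fun p q => ?_
    have e := b.sum_inner_mul_inner (f p) (f q)
    have e' : ∑ i, ((⟪f p, b i⟫ * ⟪b i, f q⟫ : ℝ) : ℂ) = ((⟪f p, f q⟫ : ℝ) : ℂ) := by
      rw [← e]; push_cast; rfl
    rw [Matrix.mul_apply]
    simp only [transpose_apply, of_apply]
    rw [Matrix.one_apply]
    have e2 := (orthonormal_iff_ite.1 h1) p q
    rw [e2] at e'
    have e3 : ∀ i, ((⟪b i, f p⟫ : ℝ) : ℂ) * ((⟪b i, f q⟫ : ℝ) : ℂ)
        = ((⟪f p, b i⟫ * ⟪b i, f q⟫ : ℝ) : ℂ) := fun i => by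
      rw [real_inner_comm (b i) (f p)]; push_cast; ring
    simp only [e3, e']
    split_ifs <;> simp
  · refine Matrix.ext fun i j => ?_
    rw [Matrix.mul_apply, cM_apply, h2, inner_sum]
    simp only [transpose_apply, of_apply, inner_smul_right]
    push_cast
    refine Finset.sum_congr rfl fun p _ => ?_
    rw [real_inner_comm (f p) (b j), mul_comm]
  · change ((_ : ℝ) : ℂ) = _
    have := RingHom.map_det Complex.ofRealHom (Matrix.of fun p q => ⟪b (I p), f q⟫)
    exact this

/-- complexified projection, universal -/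
def uP (b : OrthonormalBasis n ℝ H) (z : (H →L[ℝ] H) × TW A n) : Matrix n n ℂ := cM b z.1
/-- complexified tensor, universal -/
def uW (z : (H →L[ℝ] H) × TW A n) : (A → n) → ℂ := cW z.2

/-- the oriented Grassmannian -/
def GR (A : Type*) [Fintype A] [DecidableEq A] (b : OrthonormalBasis n ℝ H) :
    Set ((H →L[ℝ] H) × TW A n) := {z | FrR b z.1 z.2}

variable [FiniteDimensional ℝ H] [FiniteDimensional ℝ H'] [FiniteDimensional ℝ H'']

section smooth
variable {G : Type*} [NormedAddCommGroup G] [NormedSpace ℝ G] {x : G} {k : WithTop ℕ∞}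

theorem SM.cM (b : OrthonormalBasis n ℝ H) {P : G → H →L[ℝ] H} (h : ContDiffAt ℝ k P x) :
    SM k (fun y => cM b (P y)) x := fun i j => by
  have : (fun y => CW.cM b (P y) i j) = fun y => Complex.ofRealCLM (⟪b i, P y (b j)⟫) :=
    funext fun y => cM_apply b (P y) i j
  rw [this]
  exact Complex.ofRealCLM.contDiff.contDiffAt.comp x
    (contDiffAt_const.inner ℝ (h.clm_apply contDiffAt_const))

theorem contDiffAt_cW {w : G → TW A n} (h : ContDiffAt ℝ k w x) (I : A → n) :
    ContDiffAt ℝ k (fun y => cW (w y) I) x :=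
  Complex.ofRealCLM.contDiff.contDiffAt.comp x (contDiffAt_pi.1 h I)

end smooth

/-- **the Euler form on the oriented Grassmannian** (`2^r r!` times the Pfaffian) -/
def EU (b : OrthonormalBasis n ℝ H) (z : (H →L[ℝ] H) × TW (ι × Fin 2) n) :
    Ext ((H →L[ℝ] H) × TW (ι × Fin 2) n) := (ef (uP b) uW z).re

theorem uP_im (b : OrthonormalBasis n ℝ H) (z : (H →L[ℝ] H) × TW A n) (i j : n) :
    (uP b z i j).im = 0 := by
  rw [uP, cM_apply, Complex.ofReal_im]

theorem ofR_EU (b : OrthonormalBasis n ℝ H) (z : (H →L[ℝ] H) × TW (ι × Fin 2) n) :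
    ef (uP b) uW z = Cx.ofR (EU b z) :=
  (IsRe_ef (fun y i j => uP_im b y i j) fun I => Complex.ofReal_im _).eq

theorem SM_uP (b : OrthonormalBasis n ℝ H) (z : (H →L[ℝ] H) × TW A n) {k : WithTop ℕ∞} :
    SM k (uP b) z := SM.cM b contDiffAt_fst


theorem contDiffAt_EU (b : OrthonormalBasis n ℝ H) (z : (H →L[ℝ] H) × TW (ι × Fin 2) n) :
    ContDiffAt ℝ ∞ (EU b) z :=
  (CD_ef (SM_uP b z) fun I => contDiffAt_cW contDiffAt_snd I).re




section fam
variable {E : Type u} [NormedAddCommGroup E] [NormedSpace ℝ E] [FiniteDimensional ℝ E] {x : E}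
  {X : Set E} {dX : ℕ}

/-- the Euler form of a family -/
def er (b : OrthonormalBasis n ℝ H) (P : E → H →L[ℝ] H) (w : E → TW (ι × Fin 2) n) :
    E → Ext E := pull (fun y => (P y, w y)) (EU b)

theorem ofR_er (b : OrthonormalBasis n ℝ H) {P : E → H →L[ℝ] H} {w : E → TW (ι × Fin 2) n}
    (hP : ContDiffAt ℝ 2 P x) (hw : ContDiffAt ℝ 2 w x) :
    ef (fun y => cM b (P y)) (fun y => cW (w y)) x = Cx.ofR (er b P w x) := by
  have h1 := pullC_ef (f := fun y => (P y, w y)) (P := uP b) (W := uW) (x := x)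
    (hP.prodMk hw) (SM_uP b _)
  have h2 : ef (fun y => cM b (P y)) (fun y => cW (w y)) x
    = pullC (fun y => (P y, w y)) (ef (uP b) uW) x := h1.symm
  have h3 : (ef (uP b) uW (P x, w x)).im = 0 := by rw [ofR_EU]; rfl
  have h4 : (pullC (fun y => (P y, w y)) (ef (uP b) uW) x).im = 0 := by
    change pb _ ((ef (uP b) uW (P x, w x)).im) = 0
    rw [h3, map_zero]
  rw [h2]
  exact Cx.ext rfl h4


/-- a family of oriented subspaces -/
structure OFR (b : OrthonormalBasis n ℝ H) (X : Set E) (P : E → H →L[ℝ] H)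
    (w : E → TW A n) : Prop where
  sP : ∀ x ∈ X, ContDiffAt ℝ ∞ P x
  sW : ∀ x ∈ X, ContDiffAt ℝ ∞ w x
  fr : ∀ x ∈ X, FrR b (P x) (w x)

variable {b : OrthonormalBasis n ℝ H} {P : E → H →L[ℝ] H} {w : E → TW (ι × Fin 2) n}

theorem OFR.of (h : OFR b X P w) : OF X (fun x => cM b (P x)) (fun x => cW (w x)) :=
  ⟨fun x hx => SM.cM b (h.sP x hx), fun x hx I => contDiffAt_cW (h.sW x hx) I,
    fun x hx => (h.fr x hx).fr⟩

theorem OFR.smap (h : OFR b X P w) : SMap X (GR (ι × Fin 2) b) (fun x => (P x, w x)) :=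
  ⟨fun x hx => (h.sP x hx).prodMk (h.sW x hx), fun x hx => h.fr x hx⟩

theorem OFR.ofR_er (h : OFR b X P w) (hx : x ∈ X) :
    ef (fun y => cM b (P y)) (fun y => cW (w y)) x = Cx.ofR (er b P w x) :=
  CW.ofR_er b ((h.sP x hx).of_le two_le) ((h.sW x hx).of_le two_le)

theorem OFR.contDiffAt_er (h : OFR b X P w) (hx : x ∈ X) : ContDiffAt ℝ ∞ (er b P w) x :=
  contDiffAt_pull (((h.sP x hx).prodMk (h.sW x hx))) inf_add_one (contDiffAt_EU b _)

theorem OFR.er_closed (h : OFR b X P w) : ResZero X (F.d (er b P w)) := fun x hx => by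
  have h1 := congrArg Cx.re (rs_dC_ef h.of hx)
  have h2 : ∀ᶠ y in 𝓝 x, (ef (fun y => cM b (P y)) (fun y => cW (w y)) y).re = er b P w y := by
    have e1 : ∀ᶠ y in 𝓝 x, ContDiffAt ℝ 2 P y := ((h.sP x hx).of_le two_le).eventually (by simp)
    have e2 : ∀ᶠ y in 𝓝 x, ContDiffAt ℝ 2 w y := ((h.sW x hx).of_le two_le).eventually (by simp)
    filter_upwards [e1, e2] with y h3 h4
    rw [CW.ofR_er b h3 h4, Cx.ofR_re]
  rw [← d_congr h2]
  exact h1



theorem inv_er (b : OrthonormalBasis n ℝ H) (P : E → H →L[ℝ] H) (w : E → TW (ι × Fin 2) n)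
    (x : E) : F.inv (er b P w x) = er b P w x := by
  have h1 : F.inv (EU b (P x, w x)) = EU b (P x, w x) := by
    have e : invC (ef (uP b) uW (P x, w x)) = ef (uP b) uW (P x, w x) := EvC.inv _
    exact congrArg Cx.re e
  rw [er, pull, ← pb_inv, h1]

theorem OFR.mem_Z (h : OFR b X P w) : (fun x => Cx.ofR (er b P w x)) ∈ Z X := by
  refine CW.mem_Z.2 ⟨fun x => ?_, fun x hx => ⟨h.contDiffAt_er hx, contDiffAt_const⟩,
    fun x hx => ?_⟩
  · exact Cx.ext (inv_er b P w x) (map_zero (F.inv : Ext E →ₐ[ℝ] Ext E))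
  · exact Cx.ext (h.er_closed x hx) (by
      change pb _ (d (fun _ => (0 : Ext E)) x) = 0
      rw [d_const, map_zero])

/-- the Euler class of a family, as the class of the real form `er` -/
theorem OFR.ec_eq (h : OFR b X P w) : ec h.of = cls (fun x => Cx.ofR (er b P w x)) h.mem_Z :=
  cls_congr fun x hx => by rw [h.ofR_er hx]

end fam

end clm

end Crest.Agent.R208.CW
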