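import Crest.Agent.R208.GP0b
import Crest.Agent.R208.FH6
import Crest.Agent.R208.FH10
import Crest.Agent.R208.FH12
import Crest.Agent.R208.I7

/-! Row 208, block GP (helper198), part GP1: `Exp_p` on the open ball of radius `π` is a chart of `S`
onto the complement of the cut locus; smooth logarithms; closed forms are exact off the cut locus. -/

set_option autoImplicit false
set_option linter.unusedSectionVars false

open MeasureTheory Measure Set Filter Topology Module Metric
open scoped ContDiff RealInnerProductSpace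
open Crest.GeometryTopology.Submanifold
open Crest.Agent.R241.DDefs
open Crest.Agent.R241.D2
open Crest.Agent.R208.F Crest.Agent.R208.FI

noncomputable section

namespace Crest.Agent.R208.GP

variable {n N : ℕ} {κ : ℝ} {S : Set (Euc N)} {G : Geo n N κ S}

/-- the cut locus of `p` -/
def Cut (S : Set (Euc N)) (p : Euc N) : Set (Euc N) := {q | q ∈ S ∧ intrinsicDist S p q = Real.pi}

theorem norm_b {b : Euc n →ₗᵢ[ℝ] Euc N} (v : Euc n) : ‖b v‖ = ‖v‖ := b.norm_map v

theorem inj_fderiv (hB : Bl n N κ S G Real.pi) {p : Euc N} (hp : p ∈ S)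
    {b : Euc n →ₗᵢ[ℝ] Euc N} (hb : LinearMap.range b.toLinearMap = G.T p) {v : Euc n}
    (hv : ‖v‖ < Real.pi) : Function.Injective (fderiv ℝ (fun v => Exp G p (b v)) v) := by
  by_cases hv0 : v = 0
  · obtain ⟨r, hr, h⟩ := exists_radius G hp hb
    exact h v (by rw [hv0, norm_zero]; exact hr)
  · have hn : 0 < ‖v‖ := norm_pos_iff.2 hv0
    have hbv : b v ∈ G.T p := frame_mem hb v
    have h1 : fderiv ℝ (fun v => Exp G p (b v)) v =
        (fderiv ℝ (Exp G p) (b v)).comp b.toContinuousLinearMap := by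
      have h2 : DifferentiableAt ℝ (Exp G p) (b v) := by
        have h3 := (contDiffAt_Exp G hp hbv).differentiableAt (by simp)
        exact h3.comp (b v) ((differentiableAt_const p).prodMk differentiableAt_id)
      exact (h2.hasFDerivAt.comp v b.toContinuousLinearMap.hasFDerivAt).fderiv
    rw [h1]
    intro x y hxy
    have h4 : fderiv ℝ (Exp G p) (b v) (b (x - y)) = 0 := by
      have : fderiv ℝ (Exp G p) (b v) (b x) = fderiv ℝ (Exp G p) (b v) (b y) := hxy
      rw [map_sub, map_sub, this, sub_self]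
    have h5 := I.no_conj hB (z := (p, ‖v‖⁻¹ • b v)) ⟨hp, (G.T p).smul_mem _ hbv⟩
      (by simp only; rw [norm_smul, norm_inv, norm_norm, norm_b, inv_mul_cancel₀ hn.ne'])
      hn hv (b := b (x - y)) (frame_mem hb _)
      (by simp only; rw [smul_smul, mul_inv_cancel₀ hn.ne', one_smul]; exact h4)
    have h6 : x - y = 0 := b.injective (by rw [h5, map_zero])
    exact sub_eq_zero.1 h6

/-- **`Exp_p` is a chart** -/
theorem chart_exp (hB : Bl n N κ S G Real.pi) {p : Euc N} (hp : p ∈ S)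
    {b : Euc n →ₗᵢ[ℝ] Euc N} (hb : LinearMap.range b.toLinearMap = G.T p) :
    Chart n S (fun v => Exp G p (b v)) (ball 0 Real.pi) where
  isOpen := isOpen_ball
  contDiffOn := (contDiff_Exp_frame G hp hb).contDiffOn
  injOn := by
    intro v hv w hw h
    rw [mem_ball_zero_iff] at hv hw
    have := hB.Exp_inj hp (frame_mem hb v) (frame_mem hb w) (by rwa [norm_b]) (by
      rw [norm_b]; exact hw.le) h
    exact b.injective this
  inj := fun v hv => inj_fderiv hB hp hb (by rwa [mem_ball_zero_iff] at hv)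
  image_open := by
    intro W hW hWo
    set Φ : Euc n → Euc N := fun v => Exp G p (b v) with hΦ
    have hmem : ∀ v, Φ v ∈ S := fun v => Exp_mem G hp (frame_mem hb v)
    -- every point of the image is interior relative to `S`
    have key : ∀ v ∈ W, ∃ U : Set (Euc N), IsOpen U ∧ Φ v ∈ U ∧ S ∩ U ⊆ Φ '' W := by
      intro v hv
      have hvπ : ‖v‖ < Real.pi := by have := hW hv; rwa [mem_ball_zero_iff] at this
      obtain ⟨R, h1, h2, h3, h4⟩ := local_inverse hB.sub (Φ := Φ) (v₀ := v)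
        (contDiff_Exp_frame G hp hb).contDiffAt (Eventually.of_forall hmem)
        (inj_fderiv hB hp hb hvπ)
      have h5 : ∀ᶠ y in 𝓝[S] (Φ v), R y ∈ W := by
        have := h1.continuousAt
        rw [ContinuousAt, h2] at this
        exact (this.mono_left nhdsWithin_le_nhds).eventually (hWo.mem_nhds hv)
      have h6 := h4.and h5
      rw [eventually_nhdsWithin_iff] at h6
      obtain ⟨U, hU, hUo, hvU⟩ := _root_.eventually_nhds_iff.1 h6
      exact ⟨U, hUo, hvU, fun y hy => ⟨R y, (hU y hy.2 hy.1).2, (hU y hy.2 hy.1).1⟩⟩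
    choose! U hU hvU hUW using key
    refine ⟨⋃ v ∈ W, U v, isOpen_biUnion hU, ?_⟩
    ext y
    constructor
    · rintro ⟨v, hv, rfl⟩
      exact ⟨hmem v, mem_iUnion₂.2 ⟨v, hv, hvU v hv⟩⟩
    · rintro ⟨hy, hy2⟩
      obtain ⟨v, hv, hyv⟩ := mem_iUnion₂.1 hy2
      exact hUW v hv ⟨hy, hyv⟩

theorem exists_v (hB : Bl n N κ S G Real.pi) {p : Euc N} (hp : p ∈ S)
    {b : Euc n →ₗᵢ[ℝ] Euc N} (hb : LinearMap.range b.toLinearMap = G.T p) {q : Euc N}
    (hq : q ∈ S) : ∃ v : Euc n, ‖v‖ = intrinsicDist S p q ∧ Exp G p (b v) = q := by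
  obtain ⟨w, hw, h1, h2⟩ := hB.exists_Exp hp hq
  obtain ⟨v, rfl⟩ := exists_frame_eq hb hw
  exact ⟨v, by rw [← h1, norm_b], h2⟩

theorem dist_exp (hB : Bl n N κ S G Real.pi) {p : Euc N} (hp : p ∈ S)
    {b : Euc n →ₗᵢ[ℝ] Euc N} (hb : LinearMap.range b.toLinearMap = G.T p) {v : Euc n}
    (hv : ‖v‖ ≤ Real.pi) : intrinsicDist S p (Exp G p (b v)) = ‖v‖ := by
  rw [hB.dist_Exp hp (frame_mem hb v) (by rwa [norm_b]), norm_b]


theorem continuousOn_dist_left (hB : Bl n N κ S G Real.pi) {p : Euc N} (hp : p ∈ S) :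
    ContinuousOn (fun y => intrinsicDist S p y) S := by
  have h2 : ContinuousOn (fun z : Euc N × Euc N => intrinsicDist S z.1 z.2) (S ×ˢ S) :=
    hB.continuousOn_dist
  have h3 : ContinuousOn (fun y : Euc N => ((p, y) : Euc N × Euc N)) S :=
    (continuous_const.prodMk continuous_id).continuousOn
  exact ContinuousOn.comp (g := fun z : Euc N × Euc N => intrinsicDist S z.1 z.2) h2 h3
    fun y hy => ⟨hp, hy⟩

theorem isCompact_sub (hB : Bl n N κ S G Real.pi) {p : Euc N} (hp : p ∈ S) (r : ℝ) :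
    IsCompact {y | y ∈ S ∧ intrinsicDist S p y ≤ r} := by
  have h1 := continuousOn_dist_left hB hp
  obtain ⟨C, hC, hCe⟩ := continuousOn_iff_isClosed.1 h1 (Iic r) isClosed_Iic
  have h3 : {y | y ∈ S ∧ intrinsicDist S p y ≤ r} = C ∩ S := by
    rw [← hCe]; ext y; exact and_comm
  rw [h3]
  exact hB.cpt.inter_left hC

theorem isClosed_Cut (hB : Bl n N κ S G Real.pi) {p : Euc N} (hp : p ∈ S) :
    IsCompact (Cut S p) := by
  have h1 := continuousOn_dist_left hB hp
  obtain ⟨C, hC, hCe⟩ := continuousOn_iff_isClosed.1 h1 {Real.pi} isClosed_singleton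
  have h3 : Cut S p = C ∩ S := by
    rw [← hCe]; ext y; exact and_comm
  rw [h3]
  exact hB.cpt.inter_left hC

/-- **smooth logarithm** on `{d(p,·) ≤ r}`, `r < π`. -/
theorem exists_log (hB : Bl n N κ S G Real.pi) {p : Euc N} (hp : p ∈ S) {r : ℝ}
    (hr : r < Real.pi) : ∃ L : Euc N → Euc N,
      (∀ y ∈ S, intrinsicDist S p y ≤ r → ContDiffAt ℝ ∞ L y) ∧
      ∀ y ∈ S, intrinsicDist S p y ≤ r →
        L y ∈ G.T p ∧ ‖L y‖ = intrinsicDist S p y ∧ Exp G p (L y) = y := by
  classical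
  obtain ⟨b, hb⟩ := exists_frame G hp
  have hch := chart_exp hB hp hb
  have hex : ∀ y : Euc N, y ∈ S → ∃ v : Euc n, ‖v‖ = intrinsicDist S p y ∧ Exp G p (b v) = y :=
    fun y hy => exists_v hB hp hb hy
  choose! lg hlg1 hlg2 using hex
  obtain ⟨L, h1, h2⟩ := exists_extension (isCompact_sub hB hp r) (f := lg) (by
    rintro y ⟨hy, hyr⟩
    have hv : lg y ∈ ball (0 : Euc n) Real.pi := by
      rw [mem_ball_zero_iff, hlg1 y hy]; exact lt_of_le_of_lt hyr hr
    obtain ⟨g, U, hU, hyU, hg, hg1, hg2⟩ := hch.leftInv hv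
    rw [hlg2 y hy] at hyU
    refine ⟨U, g, hU, hyU, fun z hz => hg z hz.2, fun z hz => ?_⟩
    obtain ⟨⟨hzS, hzr⟩, hzU⟩ := hz
    have hvz : lg z ∈ ball (0 : Euc n) Real.pi := by
      rw [mem_ball_zero_iff, hlg1 z hzS]; exact lt_of_le_of_lt hzr hr
    have h3 := hg2 (lg z) hvz (by rw [hlg2 z hzS]; exact hzU)
    rw [hlg2 z hzS] at h3
    exact h3)
  refine ⟨fun y => b (L y), fun y hy hyr => ?_, fun y hy hyr => ?_⟩
  · exact b.toContinuousLinearMap.contDiff.contDiffAt.comp y (h1 y ⟨hy, hyr⟩)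
  · have h3 : L y = lg y := h2 y ⟨hy, hyr⟩
    simp only
    rw [h3]
    exact ⟨frame_mem hb _, by rw [norm_b, hlg1 y hy], hlg2 y hy⟩

end Crest.Agent.R208.GP
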