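import Crest.Agent.R208.FV2
import Crest.Agent.R208.GT2
import Crest.Agent.R208.GP3

/-! Row 208, block F2 (helper349), part FV3: bridges to the blocks GT and GP; connectedness of the
unit tangent bundle, of `F`, of the cut loci and of the manifold of orthonormal pairs of `V`. -/

set_option autoImplicit false
set_option linter.unusedSectionVars false
set_option linter.unusedVariables false

open Set Filter Topology Module
open scoped ContDiff RealInnerProductSpace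
open Crest.GeometryTopology.Submanifold
open Crest.Agent.R241.DDefs
open Crest.Agent.R241.D2
open Crest.Agent.R241
open Crest.Agent.R208.F Crest.Agent.R208.FI
open Crest.Agent.R208.L (US)

noncomputable section

namespace Crest.Agent.R208.FV

variable {n N : ℕ} {κ : ℝ} {S : Set (Euc N)} {G : Geo n N κ S} {k : ℕ}

/-! ### bridges -/

theorem sub_S (hB : Bl n N κ S G Real.pi) : Sub n S := (GP.clo_S hB).sub



/-- the globally smooth field of projections onto the link spaces -/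
abbrev PVB (h : GT.Bla G k) : Euc N × Euc N → (Euc N →L[ℝ] Euc N) := PV h.bl h.ty (sub_S h.bl)

theorem contDiff_PVB (h : GT.Bla G k) : ContDiff ℝ ∞ (PVB h) := contDiff_PV _ _ _

theorem vfield_PV (hB : Bl n N κ S G Real.pi) (hT : I.Typ G k) (hS : Sub n S) :
    GT.VField G (PV hB hT hS) where
  eq := fun z hz => PV_eq hB hT hS hz
  smooth := fun z _ => (contDiff_PV hB hT hS).contDiffAt

theorem vfield_PVB (h : GT.Bla G k) : GT.VField G (PVB h) := vfield_PV _ _ _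

theorem pfield_PVB (h : GT.Bla G k) : PField (GT.FF S) k (PVB h) := pfield_PV h.bl h.ty (sub_S h.bl)

theorem clo_FF' (h : GT.Bla G k) {d : ℕ} (hd : d + k = 2 * n) : Clo d (GT.FF S) :=
  clo_FF h.bl h.ty (sub_S h.bl) hd

theorem sub_FF' (h : GT.Bla G k) {d : ℕ} (hd : d + k = 2 * n) : Sub d (GT.FF S) :=
  (clo_FF' h hd).sub

theorem Bla.one_le (h : GT.Bla G k) : 1 ≤ k := h.ty.one_le
theorem Bla.le (h : GT.Bla G k) : k ≤ n := h.ty.le

/-- the manifold of orthonormal pairs of `V` -/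
theorem clo_ZZ (h : GT.Bla G k) (hk : 2 ≤ k) {d : ℕ} (hd : d + 3 = 2 * n + k) :
    Clo d (Fr (GT.FF S) (PVB h) 2) := by
  have hle := h.ty.le
  have h1 := clo_Fr (clo_FF' h (d := 2 * n - k) (by omega)) (pfield_PVB h) 2
  have h2 : 2 * n - k + 2 * k - Fintype.card (Pr 2) = d := by
    rw [card_Pr_two]; omega
  rwa [h2] at h1



/-! ### connectedness -/

/-- A compact set which is fibred over a preconnected set with preconnected fibres is
preconnected. -/
theorem preconn_of_fibres {E F : Type*} [TopologicalSpace E] [TopologicalSpace F] [T2Space F]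
    {X : Set E} {Y : Set F} {f : E → F} (hX : IsCompact X) (hf : ContinuousOn f X)
    (hfY : f '' X = Y) (hY : IsPreconnected Y)
    (hfib : ∀ y ∈ Y, IsPreconnected (X ∩ f ⁻¹' {y})) : IsPreconnected X := by
  rw [isPreconnected_closed_iff]
  rintro t t' ht ht' hsub ⟨a, haX, hat⟩ ⟨b, hbX, hbt⟩
  have hc : ∀ u : Set E, IsClosed u → IsClosed (f '' (X ∩ u)) := fun u hu =>
    ((hX.inter_right hu).image_of_continuousOn (hf.mono inter_subset_left)).isClosed
  have h1 := (isPreconnected_closed_iff.1 hY) _ _ (hc t ht) (hc t' ht') (by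
    rw [← hfY]
    rintro _ ⟨x, hx, rfl⟩
    rcases hsub hx with h | h
    · exact Or.inl ⟨x, ⟨hx, h⟩, rfl⟩
    · exact Or.inr ⟨x, ⟨hx, h⟩, rfl⟩)
    ⟨f a, by rw [← hfY]; exact ⟨a, haX, rfl⟩, ⟨a, ⟨haX, hat⟩, rfl⟩⟩
    ⟨f b, by rw [← hfY]; exact ⟨b, hbX, rfl⟩, ⟨b, ⟨hbX, hbt⟩, rfl⟩⟩
  obtain ⟨y, hy, ⟨x, ⟨hxX, hxt⟩, hxy⟩, ⟨x', ⟨hxX', hxt'⟩, hxy'⟩⟩ := h1
  obtain ⟨z, hz, hz'⟩ := (isPreconnected_closed_iff.1 (hfib y hy)) t t' ht ht'
    (inter_subset_left.trans hsub) ⟨x, ⟨hxX, hxy⟩, hxt⟩ ⟨x', ⟨hxX', hxy'⟩, hxt'⟩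
  exact ⟨z, hz.1, hz'⟩

theorem fst_US (hB : Bl n N κ S G Real.pi) : Prod.fst '' US G = S := by
  ext p
  constructor
  · rintro ⟨z, hz, rfl⟩; exact hz.1.1
  · intro hp
    have h1 : 0 < finrank ℝ (G.T p) := by rw [G.finrank_T p hp]; have := hB.hn; omega
    obtain ⟨v, hv⟩ : ∃ v : G.T p, v ≠ 0 := by
      have := (Module.finrank_pos_iff (R := ℝ) (M := G.T p)).1 h1
      exact exists_ne 0
    have hv' : (v : Euc N) ≠ 0 := fun h => hv (Subtype.ext h)
    refine ⟨(p, (‖(v : Euc N)‖⁻¹ : ℝ) • (v : Euc N)), ⟨⟨hp, (G.T p).smul_mem _ v.2⟩, ?_⟩, rfl⟩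
    exact GT.unit_of hv'

theorem preconn_US (hB : Bl n N κ S G Real.pi) (hn : 2 ≤ n) : IsPreconnected (US G) := by
  refine preconn_of_fibres (f := Prod.fst) (LB.isCompact_US hB.cpt) continuous_fst.continuousOn
    (fst_US hB) hB.conn.isPreconnected ?_
  intro p hp
  have h1 := GP.sphere_preconn (V := G.T p) (by rw [G.finrank_T p hp]; exact hn)
  have h2 := h1.image (fun v => (p, v)) (by fun_prop)
  have h3 : (fun v => (p, v)) '' {v : Euc N | v ∈ G.T p ∧ ‖v‖ = 1} =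
      US G ∩ Prod.fst ⁻¹' {p} := by
    ext z
    constructor
    · rintro ⟨v, ⟨hv, hv1⟩, rfl⟩
      exact ⟨⟨⟨hp, hv⟩, hv1⟩, rfl⟩
    · rintro ⟨⟨⟨h1, h2⟩, h3⟩, h4⟩
      have h4' : z.1 = p := h4
      refine ⟨z.2, ⟨by rw [← h4']; exact h2, h3⟩, ?_⟩
      rw [← h4']
  rwa [h3] at h2

theorem continuousOn_phi : ContinuousOn (phi G) (US G) := fun q hq =>
  (contDiffAt_phi hq.1).continuousAt.continuousWithinAt

theorem preconn_FF (hB : Bl n N κ S G Real.pi) (hT : I.Typ G k) (hn : 2 ≤ n) :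
    IsPreconnected (FF G) := by
  rw [FF_eq_image hB hT]
  exact (preconn_US hB hn).image _ continuousOn_phi

theorem preconn_FF' (h : GT.Bla G k) (hn : 2 ≤ n) : IsPreconnected (GT.FF S) :=
  preconn_FF h.bl h.ty hn

/-- the cut locus of `p` is the image of the unit sphere of `T_p` under `v ↦ Exp_p (π v)` -/
theorem Cut_eq_image (hB : Bl n N κ S G Real.pi) (hT : I.Typ G k) {p : Euc N} (hp : p ∈ S) :
    GP.Cut S p = (fun v => Exp G p (Real.pi • v)) '' {v : Euc N | v ∈ G.T p ∧ ‖v‖ = 1} := by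
  ext q
  constructor
  · rintro ⟨hq, hd⟩
    have hz : (p, q) ∈ FF G := ⟨hp, hq, hd⟩
    rw [FF_eq_image hB hT] at hz
    obtain ⟨z, hz, hz2⟩ := hz
    have h1 : z.1 = p := congrArg Prod.fst hz2
    have h2 : Exp G z.1 (Real.pi • z.2) = q := congrArg Prod.snd hz2
    refine ⟨z.2, ⟨by rw [← h1]; exact hz.1.2, hz.2⟩, ?_⟩
    change Exp G p _ = q
    rw [← h1]; exact h2
  · rintro ⟨v, ⟨hv, hv1⟩, rfl⟩
    have := phi_mem hB (q := (p, v)) ⟨⟨hp, hv⟩, hv1⟩
    exact ⟨this.2.1, this.2.2⟩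

theorem preconn_Cut (hB : Bl n N κ S G Real.pi) (hT : I.Typ G k) (hn : 2 ≤ n) {p : Euc N}
    (hp : p ∈ S) : IsPreconnected (GP.Cut S p) := by
  rw [Cut_eq_image hB hT hp]
  refine (GP.sphere_preconn (V := G.T p) (by rw [G.finrank_T p hp]; exact hn)).image _ ?_
  intro v hv
  have h1 := (contDiffAt_phi (G := G) (q := (p, v)) ⟨hp, hv.1⟩).continuousAt
  have h2 : ContinuousAt (fun w : Euc N => phi G (p, w)) v :=
    ContinuousAt.comp (f := fun w : Euc N => (p, w)) (g := phi G) h1 (by fun_prop)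
  exact (continuous_snd.continuousAt.comp h2).continuousWithinAt

theorem nonempty_Cut (hB : Bl n N κ S G Real.pi) (hT : I.Typ G k) {p : Euc N}
    (hp : p ∈ S) : (GP.Cut S p).Nonempty := by
  have h1 : p ∈ Prod.fst '' US G := by rw [fst_US hB]; exact hp
  obtain ⟨z, hz, rfl⟩ := h1
  have := phi_mem hB hz
  exact ⟨_, this.2.1, this.2.2⟩

theorem nonempty_FF (hB : Bl n N κ S G Real.pi) (hT : I.Typ G k) : (FF G).Nonempty := by
  obtain ⟨p, hp⟩ := hB.conn.nonempty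
  obtain ⟨q, hq⟩ := nonempty_Cut hB hT hp
  exact ⟨(p, q), hp, hq.1, hq.2⟩

/-- orthonormal pairs of a subspace of dimension `≥ 3` form a preconnected set -/
theorem pairs_preconn {V : Submodule ℝ (Euc N)} (hV : 3 ≤ finrank ℝ V) :
    IsPreconnected {v : Fin 2 → Euc N | (∀ i, v i ∈ V) ∧ Orthonormal ℝ v} := by
  have hon : ∀ v : Fin 2 → Euc N, Orthonormal ℝ v ↔ ‖v 0‖ = 1 ∧ ‖v 1‖ = 1 ∧ ⟪v 0, v 1⟫ = 0 := by
    intro v
    constructor
    · intro h; exact ⟨h.1 0, h.1 1, h.2 (by decide)⟩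
    · rintro ⟨h0, h1, h01⟩
      refine ⟨fun i => ?_, fun i j hij => ?_⟩
      · fin_cases i
        · exact h0
        · exact h1
      · fin_cases i <;> fin_cases j
        · exact absurd rfl hij
        · exact h01
        · change ⟪v 1, v 0⟫ = 0; rw [real_inner_comm]; exact h01
        · exact absurd rfl hij
  have hset : {v : Fin 2 → Euc N | (∀ i, v i ∈ V) ∧ Orthonormal ℝ v} =
      {v : Fin 2 → Euc N | (v 0 ∈ V ∧ v 1 ∈ V) ∧ ‖v 0‖ = 1 ∧ ‖v 1‖ = 1 ∧ ⟪v 0, v 1⟫ = 0} := by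
    ext v
    simp only [mem_setOf_eq, hon, Fin.forall_fin_two]
  rw [hset]
  have hVc : IsClosed (V : Set (Euc N)) := V.closed_of_finiteDimensional
  have hcl : IsClosed {v : Fin 2 → Euc N |
      (v 0 ∈ V ∧ v 1 ∈ V) ∧ ‖v 0‖ = 1 ∧ ‖v 1‖ = 1 ∧ ⟪v 0, v 1⟫ = 0} := by
    refine ((hVc.preimage (continuous_apply 0)).inter (hVc.preimage (continuous_apply 1))).inter
      ((isClosed_eq (by fun_prop) (by fun_prop)).inter
      ((isClosed_eq (by fun_prop) (by fun_prop)).inter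
      (isClosed_eq (by fun_prop) (by fun_prop))))
  have hcpt : IsCompact {v : Fin 2 → Euc N |
      (v 0 ∈ V ∧ v 1 ∈ V) ∧ ‖v 0‖ = 1 ∧ ‖v 1‖ = 1 ∧ ⟪v 0, v 1⟫ = 0} := by
    refine (isCompact_univ_pi (X := fun _ : Fin 2 => Euc N) fun _ : Fin 2 =>
      isCompact_closedBall (0 : Euc N) 1).of_isClosed_subset hcl ?_
    rintro v ⟨-, h0, h1, -⟩ i -
    rw [mem_closedBall_zero_iff]
    fin_cases i
    · exact h0.le
    · exact h1.le
  have hfr : ∀ y ∈ V, ‖y‖ = 1 → 2 ≤ finrank ℝ (V ⊓ (ℝ ∙ y)ᗮ : Submodule ℝ (Euc N)) := by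
    intro y hy hy1
    have h1 : (ℝ ∙ y) ≤ V := by
      rw [Submodule.span_singleton_le_iff_mem]; exact hy
    have h2 := Submodule.finrank_add_inf_finrank_orthogonal h1
    rw [finrank_span_singleton (by rintro rfl; simp at hy1)] at h2
    rw [inf_comm]
    omega
  refine preconn_of_fibres (f := fun v : Fin 2 → Euc N => v 0) hcpt (by fun_prop)
    (Y := {v : Euc N | v ∈ V ∧ ‖v‖ = 1}) ?_ (GP.sphere_preconn (by omega)) ?_
  · ext y
    constructor
    · rintro ⟨v, ⟨⟨h1, -⟩, h2, -⟩, rfl⟩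
      exact ⟨h1, h2⟩
    · rintro ⟨hy, hy1⟩
      have h1 : 0 < finrank ℝ (V ⊓ (ℝ ∙ y)ᗮ : Submodule ℝ (Euc N)) := by
        have := hfr y hy hy1; omega
      obtain ⟨w, hw⟩ : ∃ w : (V ⊓ (ℝ ∙ y)ᗮ : Submodule ℝ (Euc N)), w ≠ 0 := by
        have := (Module.finrank_pos_iff (R := ℝ)
          (M := (V ⊓ (ℝ ∙ y)ᗮ : Submodule ℝ (Euc N)))).1 h1
        exact exists_ne 0
      have hw' : (w : Euc N) ≠ 0 := fun h => hw (Subtype.ext h)
      have hw2 := (V ⊓ (ℝ ∙ y)ᗮ : Submodule ℝ (Euc N)).smul_mem (‖(w : Euc N)‖⁻¹ : ℝ) w.2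
      refine ⟨![y, (‖(w : Euc N)‖⁻¹ : ℝ) • (w : Euc N)], ⟨⟨hy, hw2.1⟩, hy1, GT.unit_of hw', ?_⟩, rfl⟩
      exact Submodule.mem_orthogonal_singleton_iff_inner_right.1 hw2.2
  · rintro y ⟨hy, hy1⟩
    have h1 := GP.sphere_preconn (hfr y hy hy1)
    have h2 := h1.image (fun w => (![y, w] : Fin 2 → Euc N)) (by
      refine Continuous.continuousOn (continuous_pi fun i => ?_)
      fin_cases i
      · exact continuous_const
      · exact continuous_id)
    convert h2 using 1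
    ext v
    constructor
    · rintro ⟨⟨⟨h3, h4⟩, h5, h6, h7⟩, h8⟩
      have h8' : v 0 = y := h8
      refine ⟨v 1, ⟨⟨h4, ?_⟩, h6⟩, ?_⟩
      · exact Submodule.mem_orthogonal_singleton_iff_inner_right.2 (by rw [← h8']; exact h7)
      · funext i
        fin_cases i
        · exact h8'.symm
        · rfl
    · rintro ⟨w, ⟨⟨h3, h4⟩, h5⟩, rfl⟩
      exact ⟨⟨⟨hy, h3⟩, hy1, h5, Submodule.mem_orthogonal_singleton_iff_inner_right.1 h4⟩, rfl⟩

theorem fst_Fr {X : Set (Euc N × Euc N)} {P : Euc N × Euc N → Euc N →L[ℝ] Euc N}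
    (hP : PField X k P) {r : ℕ} (hr : r ≤ k) : Prod.fst '' Fr X P r = X := by
  ext z
  constructor
  · rintro ⟨v, hv, rfl⟩; exact hv.1
  · intro hz
    obtain ⟨b⟩ : Nonempty (OrthonormalBasis (Fin k) ℝ
        (LinearMap.range (P z : Euc N →ₗ[ℝ] Euc N))) :=
      ⟨(stdOrthonormalBasis ℝ _).reindex (finCongr (hP.rank z hz))⟩
    refine ⟨(z, fun i : Fin r => (b (Fin.castLE hr i) : Euc N)), ⟨hz, fun i => ?_, ?_⟩, rfl⟩
    · obtain ⟨w, hw⟩ := (b (Fin.castLE hr i)).2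
      change P z (b (Fin.castLE hr i) : Euc N) = (b (Fin.castLE hr i) : Euc N)
      rw [← hw]
      exact hP.idem z hz w
    · have h1 := b.orthonormal.comp_linearIsometry
        (LinearMap.range (P z : Euc N →ₗ[ℝ] Euc N)).subtypeₗᵢ
      exact h1.comp _ (Fin.castLE_injective hr)

theorem preconn_ZZ (h : GT.Bla G k) (hk : 3 ≤ k) :
    IsPreconnected (Fr (GT.FF S) (PVB h) 2) := by
  have hle := h.ty.le
  refine preconn_of_fibres (f := Prod.fst) (isCompact_Fr (isCompact_FF h.bl h.ty)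
    (pfield_PVB h) 2) continuous_fst.continuousOn (fst_Fr (pfield_PVB h) (by omega))
    (preconn_FF' h (by omega)) ?_
  intro z hz
  have h1 := pairs_preconn (V := Vl G z) (by rw [finrank_Vl h.ty hz]; exact hk)
  have h2 := h1.image (fun v => (z, v)) (by fun_prop)
  convert h2 using 1
  ext ζ
  constructor
  · rintro ⟨⟨h3, h4, h5⟩, h6⟩
    have h6' : ζ.1 = z := h6
    refine ⟨ζ.2, ⟨fun i => ?_, h5⟩, by rw [← h6']⟩
    have := h4 i
    rw [PV_eq_self h.bl h.ty (sub_S h.bl) h3, h6'] at this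
    exact this
  · rintro ⟨v, ⟨h3, h4⟩, rfl⟩
    exact ⟨⟨hz, fun i => (PV_eq_self h.bl h.ty (sub_S h.bl) hz).2 (h3 i), h4⟩, rfl⟩

end Crest.Agent.R208.FV
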