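import Crest.Agent.R208.GT6

/-!
Row 208, block GT (helper989), part GT7: the swap of `Z = V_2(V)`, its action on `T_J`, `ℓ`; the
decomposition `V ⊗ ℂ = ℓ + conj ℓ + V₀`.
-/

set_option autoImplicit false

open Set Filter Topology Module Metric
open scoped ContDiff RealInnerProductSpace Kronecker Matrix
open Crest.GeometryTopology.Submanifold
open Crest.Agent.R241.DDefs
open Crest.Agent.R241.D2
open Crest.Agent.R208.CW (IdF SM)
open Crest.Agent.R208.FI (Sub)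

noncomputable section

namespace Crest.Agent.R208.GT

variable {n N k d : ℕ} {κ : ℝ} {S : Set (Euc N)} {G : Geo n N κ S}
  {PV : Euc N × Euc N → Euc N →L[ℝ] Euc N} {ζ : (Euc N × Euc N) × (Fin 2 → Euc N)}



lemma smooth_repr {X : Type*} [NormedAddCommGroup X] [NormedSpace ℝ X] {x : X}
    {f : X → Euc N} (hf : ContDiffAt ℝ ∞ f x) (c : Fin N) :
    ContDiffAt ℝ ∞ (fun y => (bas N).repr (f y) c) x := by
  have h1 : ContDiff ℝ ∞ (LinearMap.toContinuousLinearMap ((bas N).coord c)) :=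
    ContinuousLinearMap.contDiff _
  exact ContDiffAt.comp x h1.contDiffAt hf

variable (hV : VField G PV) (h : Bla G k)

include hV h





/-! ### the line -/

omit hV h in
lemma LL_apply (ζ : (Euc N × Euc N) × (Fin 2 → Euc N)) (a b : Fin N) :
    LL ζ a b = (1 / 2) * ((ζ.2 0 a - Complex.I * ζ.2 1 a) * (ζ.2 0 b + Complex.I * ζ.2 1 b)) :=
  rfl

omit hV h in
lemma bas_repr (v : Euc N) (c : Fin N) : (bas N).repr v c = v c := by
  simp [bas]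

omit hV h in
/-- a real operator applied to `ℓ` -/
lemma mE_LL (T : Euc N →L[ℝ] Euc N) (ζ : (Euc N × Euc N) × (Fin 2 → Euc N)) (a b : Fin N) :
    (SP.cr (mE T) * LL ζ) a b = (1 / 2) * (((T (ζ.2 0) a : ℝ) - Complex.I * (T (ζ.2 1) a : ℝ)) *
      (ζ.2 0 b + Complex.I * ζ.2 1 b)) := by
  have h1 : ∀ v : Euc N, ((T v a : ℝ) : ℂ) = ∑ c, (mE T a c : ℂ) * (v c : ℂ) := by
    intro v
    have h2 := congrFun (SP.mt_mulVec (bas N) (bas N) T v) a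
    rw [bas_repr] at h2
    rw [← h2, Matrix.mulVec, dotProduct]
    push_cast
    exact Finset.sum_congr rfl fun c _ => by rw [bas_repr]
  rw [h1, h1, Matrix.mul_apply, Finset.mul_sum, ← Finset.sum_sub_distrib, Finset.sum_mul,
    Finset.mul_sum]
  refine Finset.sum_congr rfl fun c _ => ?_
  rw [SP.cr_apply, LL_apply]
  ring



omit hV h in
lemma LL_of_fixed (T : Euc N →L[ℝ] Euc N) (h' : ∀ i, T (ζ.2 i) = ζ.2 i) :
    SP.cr (mE T) * LL ζ = LL ζ := by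
  ext a b
  rw [mE_LL, h', h', LL_apply]





/-! ### `V ⊗ ℂ = ℓ + conj ℓ + V₀` -/

omit hV h in
lemma LL_mul_conj (hζ : ζ ∈ ZZ S PV) : LL ζ * (LL ζ).map (starRingEnd ℂ) = 0 := by
  have h0 := dot_self (hζ.2.2.1 0)
  have h1 := dot_self (hζ.2.2.1 1)
  have h01 : ∑ c, (ζ.2 0 c) * (ζ.2 1 c) = 0 := by
    have h2 : ⟪ζ.2 0, ζ.2 1⟫ = 0 := hζ.2.2.2 (show (0 : Fin 2) ≠ 1 by decide)
    rw [PiLp.inner_apply] at h2
    rw [← h2]
    exact Finset.sum_congr rfl fun c _ => by simp [mul_comm]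
  have h3 : ∑ c, ((ζ.2 0 c : ℂ) + Complex.I * ζ.2 1 c) * ((ζ.2 0 c : ℂ) + Complex.I * ζ.2 1 c)
      = 0 := by
    have h4 : ∀ c, ((ζ.2 0 c : ℂ) + Complex.I * ζ.2 1 c) * ((ζ.2 0 c : ℂ) + Complex.I * ζ.2 1 c)
        = ((ζ.2 0 c * ζ.2 0 c : ℝ) : ℂ) - ((ζ.2 1 c * ζ.2 1 c : ℝ) : ℂ) +
          2 * Complex.I * ((ζ.2 0 c * ζ.2 1 c : ℝ) : ℂ) := by
      intro c
      push_cast
      linear_combination (ζ.2 1 c : ℂ) * (ζ.2 1 c : ℂ) * Complex.I_mul_I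
    rw [Finset.sum_congr rfl fun c _ => h4 c, Finset.sum_add_distrib, Finset.sum_sub_distrib,
      ← Finset.mul_sum, ← Complex.ofReal_sum, ← Complex.ofReal_sum, ← Complex.ofReal_sum, h01]
    rw [dotProduct] at h0 h1
    rw [h0, h1]; simp
  ext a b
  rw [Matrix.mul_apply]
  have h5 : ∀ c, LL ζ a c * ((LL ζ).map (starRingEnd ℂ)) c b =
      (1 / 4 * (ζ.2 0 a - Complex.I * ζ.2 1 a) * (ζ.2 0 b - Complex.I * ζ.2 1 b)) *
        (((ζ.2 0 c : ℂ) + Complex.I * ζ.2 1 c) * ((ζ.2 0 c : ℂ) + Complex.I * ζ.2 1 c)) := by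
    intro c
    rw [Matrix.map_apply, LL_apply, LL_apply]
    simp only [map_mul, map_sub, map_add, map_div₀, map_one, map_ofNat, Complex.conj_ofReal,
      Complex.conj_I]
    ring
  rw [Finset.sum_congr rfl fun c _ => h5 c, ← Finset.mul_sum, h3, mul_zero]
  rfl

omit hV h in
lemma LL_hermitian (ζ : (Euc N × Euc N) × (Fin 2 → Euc N)) :
    (LL ζ).transpose = (LL ζ).map (starRingEnd ℂ) := by
  ext a b
  rw [Matrix.transpose_apply, Matrix.map_apply, LL_apply, LL_apply]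
  simp only [map_mul, map_sub, map_add, map_div₀, map_one, map_ofNat, Complex.conj_ofReal,
    Complex.conj_I]
  ring

omit hV h in
lemma conj_mul_LL (hζ : ζ ∈ ZZ S PV) : (LL ζ).map (starRingEnd ℂ) * LL ζ = 0 := by
  have h1 := congrArg (fun M => M.map (starRingEnd ℂ)) (LL_mul_conj hζ)
  simp only [Matrix.map_mul, Matrix.map_map] at h1
  have h2 : (LL ζ).map (⇑(starRingEnd ℂ) ∘ ⇑(starRingEnd ℂ)) = LL ζ := by
    ext a b; simp
  rw [h2] at h1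
  rw [h1]; ext a b; simp

/-- `V₀ = V ⊖ ⟨v₀, v₁⟩` (complexified) -/
def V0 (PV : Euc N × Euc N → Euc N →L[ℝ] Euc N) (ζ : (Euc N × Euc N) × (Fin 2 → Euc N)) :
    Matrix (Fin N) (Fin N) ℂ := mV PV ζ.1 - (LL ζ + (LL ζ).map (starRingEnd ℂ))

omit hV h in
lemma mV_LL (hζ : ζ ∈ ZZ S PV) : mV PV ζ.1 * LL ζ = LL ζ := LL_of_fixed _ hζ.2.1

omit h in
lemma mV_transpose (hζ : ζ ∈ ZZ S PV) : (mV PV ζ.1).transpose = mV PV ζ.1 := by
  rw [mV, SP.cr_transpose]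
  congr 1
  ext i j
  rw [Matrix.transpose_apply, mt_bas, mt_bas, real_inner_comm,
    hV.inner_PV (p := ζ.1.1) (q := ζ.1.2) hζ.1]

omit hV h in
lemma mV_conj (ζ : (Euc N × Euc N) × (Fin 2 → Euc N)) :
    (mV PV ζ.1).map (starRingEnd ℂ) = mV PV ζ.1 := by
  ext i j; simp [mV]

omit hV h in
lemma mV_conjLL (hζ : ζ ∈ ZZ S PV) :
    mV PV ζ.1 * (LL ζ).map (starRingEnd ℂ) = (LL ζ).map (starRingEnd ℂ) := by
  have h1 := congrArg (fun M => M.map (starRingEnd ℂ)) (mV_LL hζ)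
  simp only [Matrix.map_mul, mV_conj] at h1
  exact h1

omit h in
lemma LL_mV (hζ : ζ ∈ ZZ S PV) : LL ζ * mV PV ζ.1 = LL ζ := by
  have h1 := congrArg Matrix.transpose (mV_conjLL hζ)
  rw [Matrix.transpose_mul, mV_transpose hV hζ, ← LL_hermitian, Matrix.transpose_transpose] at h1
  exact h1

omit h in
lemma conjLL_mV (hζ : ζ ∈ ZZ S PV) :
    (LL ζ).map (starRingEnd ℂ) * mV PV ζ.1 = (LL ζ).map (starRingEnd ℂ) := by
  have h1 := congrArg Matrix.transpose (mV_LL hζ)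
  rw [Matrix.transpose_mul, mV_transpose hV hζ, LL_hermitian] at h1
  exact h1

omit hV h in
lemma idf_LLc : IdF (ZZ S PV) (fun ζ => LL ζ + (LL ζ).map (starRingEnd ℂ)) :=
  ⟨fun ζ hζ => (idf_LL.smooth ζ hζ).add (idf_LL.conj.smooth ζ hζ), fun ζ hζ => by
    have h1 : LL ζ * LL ζ = LL ζ := (idf_LL (PV := PV)).idem ζ hζ
    have h2 : (LL ζ).map (starRingEnd ℂ) * (LL ζ).map (starRingEnd ℂ) =
      (LL ζ).map (starRingEnd ℂ) := (idf_LL (PV := PV)).conj.idem ζ hζ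
    rw [add_mul, mul_add, mul_add, h1, h2, LL_mul_conj hζ, conj_mul_LL hζ, add_zero, zero_add]⟩

omit h in
lemma idf_V0 : IdF (ZZ S PV) (V0 PV) :=
  ⟨fun ζ hζ => (((idf_mV hV).comp smap_fst).smooth ζ hζ).sub (idf_LLc.smooth ζ hζ),
    fun ζ hζ => by
    have h1 : mV PV ζ.1 * mV PV ζ.1 = mV PV ζ.1 := (idf_mV hV).idem _ hζ.1
    have h2 : (LL ζ + (LL ζ).map (starRingEnd ℂ)) * (LL ζ + (LL ζ).map (starRingEnd ℂ)) =
      LL ζ + (LL ζ).map (starRingEnd ℂ) := idf_LLc.idem ζ hζ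
    have h3 : mV PV ζ.1 * (LL ζ + (LL ζ).map (starRingEnd ℂ)) =
      LL ζ + (LL ζ).map (starRingEnd ℂ) := by rw [mul_add, mV_LL hζ, mV_conjLL hζ]
    have h4 : (LL ζ + (LL ζ).map (starRingEnd ℂ)) * mV PV ζ.1 =
      LL ζ + (LL ζ).map (starRingEnd ℂ) := by rw [add_mul, LL_mV hV hζ, conjLL_mV hV hζ]
    rw [V0, sub_mul, mul_sub, mul_sub, h1, h2, h3, h4, sub_self, sub_zero]⟩

omit h in
/-- `V ⊗ ℂ = ℓ + conj ℓ + V₀` on classes -/
theorem sc_V (hZ : Sub d (ZZ S PV)) (j : ℕ) : CW.sc hZ ((idf_mV hV).comp smap_fst) j =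
    (1 + (-1) ^ j) * CW.sc hZ (idf_LL (PV := PV) (S := S)) j + CW.sc hZ (idf_V0 hV) j := by
  have h1 := CW.sc_add_conj hZ (idf_LLc (PV := PV) (S := S)) idf_LL (fun ζ _ => rfl)
    (fun ζ hζ => LL_mul_conj hζ) (fun ζ hζ => conj_mul_LL hζ) j
  rw [← h1]
  refine CW.sc_orth hZ _ idf_LLc (idf_V0 hV) ?_ ?_ ?_ j
  · intro ζ _
    rw [V0, add_sub_cancel]
  · intro ζ hζ
    have h2 : (LL ζ + (LL ζ).map (starRingEnd ℂ)) * (LL ζ + (LL ζ).map (starRingEnd ℂ)) =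
      LL ζ + (LL ζ).map (starRingEnd ℂ) := (idf_LLc (PV := PV)).idem ζ hζ
    rw [V0, mul_sub, add_mul, LL_mV hV hζ, conjLL_mV hV hζ, h2, sub_self]
  · intro ζ hζ
    have h2 : (LL ζ + (LL ζ).map (starRingEnd ℂ)) * (LL ζ + (LL ζ).map (starRingEnd ℂ)) =
      LL ζ + (LL ζ).map (starRingEnd ℂ) := (idf_LLc (PV := PV)).idem ζ hζ
    rw [V0, sub_mul, mul_add, mV_LL hζ, mV_conjLL hζ, h2, sub_self]

end Crest.Agent.R208.GT
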