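import Crest.Agent.R208.NB8
import Crest.Agent.R208.FV3
import Crest.Agent.R208.GT7
import Crest.Agent.R208.CW6a
import Crest.Agent.R208.CM4a

/-! Row 208, block NB (helper537), part NB9: over `US G` the negative bundle `N` is smoothly
isomorphic to `V_pq ⊖ v`; its complexified Chern series is that of `V_pq`. -/

set_option autoImplicit false
set_option linter.unusedSectionVars false
set_option linter.unusedVariables false

open MeasureTheory Set Filter Topology Module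
open scoped ContDiff RealInnerProductSpace
open Crest.GeometryTopology.Submanifold
open Crest.Agent.R241.DDefs
open Crest.Agent.R241.D2
open Crest.Agent.R208.NN
open Crest.Agent.R208.GT (bas LM)
open Crest.Agent.R208.FI (Sub)

noncomputable section

namespace Crest.Agent.R208.NB

/-! ### isomorphisms of ranges -/

theorem exists_inv_op {W E : Type*} [NormedAddCommGroup W] [NormedSpace ℝ W]
    [NormedAddCommGroup E] [NormedSpace ℝ E] [FiniteDimensional ℝ E]
    {A : W →L[ℝ] E} {P : W →L[ℝ] W} {P' : E →L[ℝ] E}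
    (hP : ∀ w, P (P w) = P w) (hP' : ∀ x, P' (P' x) = P' x) (hA : ∀ w, A (P w) = A w)
    (hA' : ∀ w, P' (A w) = A w) (inj : ∀ w, P w = w → A w = 0 → w = 0)
    (surj : ∀ x, P' x = x → ∃ w, P w = w ∧ A w = x) :
    ∃ T : E →L[ℝ] W, (∀ x, T (P' x) = T x) ∧ (∀ x, P (T x) = T x) ∧ (∀ w, T (A w) = P w) ∧
      (∀ x, A (T x) = P' x) := by
  have h1 : ∀ x, ∃ w, P w = w ∧ A w = P' x := fun x => surj _ (hP' x)
  choose f hf hf' using h1
  have huniq : ∀ w w', P w = w → P w' = w' → A w = A w' → w = w' := by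
    intro w w' hw hw' he
    refine sub_eq_zero.1 (inj _ (by rw [map_sub, hw, hw']) (by rw [map_sub, he, sub_self]))
  let T : E →ₗ[ℝ] W :=
    { toFun := f
      map_add' := fun x y => huniq _ _ (hf _) (by rw [map_add, hf, hf]) (by
        rw [hf', map_add, map_add, hf', hf'])
      map_smul' := fun c x => huniq _ _ (hf _) (by
        rw [map_smul, RingHom.id_apply, hf]) (by
        rw [hf', map_smul, map_smul, hf', RingHom.id_apply]) }
  refine ⟨LinearMap.toContinuousLinearMap T, fun x => ?_, fun x => hf x, fun w => ?_, hf'⟩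
  · change f (P' x) = f x
    exact huniq _ _ (hf _) (hf _) (by rw [hf', hf', hP'])
  · change f (A w) = P w
    exact huniq _ _ (hf _) (hP w) (by rw [hf', hA', hA])

/-- matrix form -/
theorem exists_pIso {W E : Type*} [NormedAddCommGroup W] [NormedSpace ℝ W]
    [NormedAddCommGroup E] [NormedSpace ℝ E] [FiniteDimensional ℝ E]
    {m l : Type*} [Fintype m] [Fintype l] [DecidableEq m] [DecidableEq l]
    (b : Basis m ℝ W) (b' : Basis l ℝ E)
    {A : W →L[ℝ] E} {P : W →L[ℝ] W} {P' : E →L[ℝ] E}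
    (hP : ∀ w, P (P w) = P w) (hP' : ∀ x, P' (P' x) = P' x) (hA : ∀ w, A (P w) = A w)
    (hA' : ∀ w, P' (A w) = A w) (inj : ∀ w, P w = w → A w = 0 → w = 0)
    (surj : ∀ x, P' x = x → ∃ w, P w = w ∧ A w = x) :
    ∃ T : E →L[ℝ] W, SP.PIso (SP.mt b b P) (SP.mt b' b' P') (SP.mt b b' A) (SP.mt b' b T) := by
  obtain ⟨T, h1, h2, h3, h4⟩ := exists_inv_op hP hP' hA hA' inj surj
  refine ⟨T, ?_, ?_, ?_, ?_, ?_, ?_⟩
  · rw [← SP.mt_comp]; congr 1; ext1 w; exact hA w
  · rw [← SP.mt_comp]; congr 1; ext1 w; exact hA' w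
  · rw [← SP.mt_comp]; congr 1; ext1 x; exact h1 x
  · rw [← SP.mt_comp]; congr 1; ext1 x; exact h2 x
  · rw [← SP.mt_comp]; congr 1; ext1 w; exact h3 w
  · rw [← SP.mt_comp]; congr 1; ext1 x; exact h4 x

/-! ### Chern series of a line with a section -/

section line
variable {E : Type} [NormedAddCommGroup E] [NormedSpace ℝ E] [FiniteDimensional ℝ E]
  {X : Set E} {dX : ℕ} {m : Type} [Fintype m] [DecidableEq m]

theorem cs_line (hX : Sub dX X) {Q : E → Matrix m m ℂ} (hQ : CW.IdF X Q) {s : E → m → ℂ}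
    (hs : ∀ x ∈ X, ∀ i, ContDiffAt ℝ ∞ (fun y => s y i) x) (hQs : ∀ x ∈ X, (Q x).mulVec (s x) = s x)
    (h0 : ∀ x ∈ X, s x ≠ 0) (hr : ∀ x ∈ X, (Q x).rank = 1) : CW.cs hX hQ = 1 := by
  obtain ⟨Q', hQ', h1, h2, h3⟩ := CW.exists_split hX hQ hs hQs h0
  rw [← h3]
  ext j
  rw [CW.coeff_cs, PowerSeries.coeff_one]
  split_ifs with hj
  · subst hj
    rw [CW.cc_eq_el]
    exact CW.el_zero _
  · refine CW.cc_eq_zero hX hQ' fun x hx => ?_
    have h4 := h1 x hx
    rw [hr x hx] at h4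
    have h5 : ((Q' x).rank : ℂ) = 0 := by
      have : ((Q' x).rank : ℂ) + 1 = 0 + 1 := by rw [h4]; simp
      exact add_right_cancel this
    have h6 : (Q' x).rank = 0 := by exact_mod_cast h5
    omega

end line

/-! ### `V_pq ⊖ v` as a smooth field over `US G` -/

variable {n N k K r dU : ℕ} {κ : ℝ} {S : Set (Euc N)} {G : Geo n N κ S} {z : Euc N × Euc N}
  {ν : Fin K → ℝ} {δ : ℝ} {PN : Euc N × Euc N → Wt N K →L[ℝ] Wt N K}

/-- the point `(p, q)` of `FF S` -/
def ph (G : Geo n N κ S) (z : Euc N × Euc N) : Euc N × Euc N := (z.1, qq G z)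

lemma contDiffAt_qq (hz : z ∈ TS G) : ContDiffAt ℝ ∞ (qq G) z := by
  have h1 : ContDiffAt ℝ ∞ (fun z : Euc N × Euc N => (z, Real.pi)) z := by fun_prop
  exact (ContDiffAt.comp z (g := fl G) (contDiffAt_fl' G hz Real.pi) h1).fst

lemma contDiffAt_ph (hz : z ∈ TS G) : ContDiffAt ℝ ∞ (ph G) z :=
  contDiffAt_fst.prodMk (contDiffAt_qq hz)

theorem smap_ph (h : GT.Bla G k) : CW.SMap (L.US G) (GT.FF S) (ph G) :=
  ⟨fun _ hz => contDiffAt_ph hz.1, fun _ hz => mem_FF h hz⟩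

/-- smooth field equal to the orthogonal projection to `V_pq ⊖ v` on `US G` -/
def V0s (h : GT.Bla G k) (z : Euc N × Euc N) : Euc N →L[ℝ] Euc N :=
  FV.PVB h (ph G z) - (innerSL ℝ z.2).smulRight z.2

lemma V0s_apply (h : GT.Bla G k) (z : Euc N × Euc N) (x : Euc N) :
    V0s h z x = FV.PVB h (ph G z) x - ⟪z.2, x⟫ • z.2 := rfl

theorem contDiffAt_vv : ContDiffAt ℝ ∞ (fun z : Euc N × Euc N =>
    (innerSL ℝ z.2).smulRight z.2) z := by
  have h0 : ContDiff ℝ ∞ (fun z : Euc N × Euc N => (innerSL ℝ z.2).smulRight z.2) := by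
    rw [contDiff_clm_apply_iff]
    intro x
    have h1 : ContDiff ℝ ∞ (fun z : Euc N × Euc N => ⟪z.2, x⟫ • z.2) :=
      (contDiff_snd.inner ℝ contDiff_const).smul contDiff_snd
    exact h1
  exact h0.contDiffAt

theorem contDiffAt_V0s (h : GT.Bla G k) (hz : z ∈ TS G) : ContDiffAt ℝ ∞ (V0s h) z :=
  ((FV.contDiff_PVB h).contDiffAt.comp z (contDiffAt_ph hz)).sub contDiffAt_vv

theorem V0s_eq (h : GT.Bla G k) (hz : z ∈ L.US G) : V0s h z = (V0 G z).starProjection := by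
  have hF := mem_FF h hz
  have hV := FV.vfield_PVB h
  have hv : z.2 ∈ GT.Vs G z.1 (qq G z) := mem_Vs hz
  have hvv : ⟪z.2, z.2⟫ = (1 : ℝ) := by rw [real_inner_self_eq_norm_sq, hz.2]; norm_num
  ext1 x
  symm
  rw [V0s_apply]
  have hPx : FV.PVB h (ph G z) x ∈ GT.Vs G z.1 (qq G z) :=
    hV.PV_mem (p := z.1) (q := qq G z) hF x
  have hin : ∀ u ∈ GT.Vs G z.1 (qq G z), ⟪u, FV.PVB h (ph G z) x⟫ = ⟪u, x⟫ := by
    intro u hu
    have h1 := hV.inner_PV (p := z.1) (q := qq G z) hF u x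
    rw [hV.PV_eq_self (p := z.1) (q := qq G z) hF hu] at h1
    exact h1.symm
  refine Submodule.eq_starProjection_of_mem_of_inner_eq_zero ?_ ?_
  · refine mem_V0.2 ⟨Submodule.sub_mem _ hPx (Submodule.smul_mem _ _ hv), ?_⟩
    rw [inner_sub_left, real_inner_smul_left, hvv, real_inner_comm, hin _ hv, mul_one, sub_self]
  · intro w hw
    obtain ⟨hw1, hw2⟩ := mem_V0.1 hw
    rw [real_inner_comm, inner_sub_right, inner_sub_right, real_inner_smul_right, hw2, hin _ hw1,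
      mul_zero, sub_zero, sub_self]

theorem V0s_idem (h : GT.Bla G k) (hz : z ∈ L.US G) (x : Euc N) :
    V0s h z (V0s h z x) = V0s h z x := by
  rw [V0s_eq h hz]
  exact Submodule.starProjection_eq_self_iff.2 (Submodule.starProjection_apply_mem _ _)

theorem V0s_eq_self (h : GT.Bla G k) (hz : z ∈ L.US G) (x : Euc N) :
    V0s h z x = x ↔ x ∈ V0 G z := by
  rw [V0s_eq h hz, Submodule.starProjection_eq_self_iff]

theorem pfield_V0s (h : GT.Bla G k) : FI.PField (L.US G) (k - 1) (V0s h) := by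
  refine ⟨fun z hz => contDiffAt_V0s h hz.1, fun z hz x => V0s_idem h hz x, fun z hz => ?_⟩
  have h1 := finrank_V0 h hz
  have h2 : LinearMap.range (V0s h z : Euc N →ₗ[ℝ] Euc N) = V0 G z := by
    ext x
    rw [← V0s_eq_self h hz]
    constructor
    · rintro ⟨y, rfl⟩; exact V0s_idem h hz y
    · intro hx; exact ⟨x, hx⟩
  rw [h2]; omega

/-! ### the isomorphism -/

section iso
variable {ι : Type} [Fintype ι] [DecidableEq ι]

/-- real matrix of the isomorphism `N → V_pq ⊖ v` -/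
def lM (h : GT.Bla G k) (ν : Fin K → ℝ) (PN : Euc N × Euc N → Wt N K →L[ℝ] Wt N K)
    (b : Basis ι ℝ (Wt N K)) (z : Euc N × Euc N) : Matrix (Fin N) ι ℝ :=
  SP.mt (bas N) (bas N) (V0s h z) *
    (SP.mt b (bas N) ((G.P z.1).comp (ev ν 0)) +
      LM G (FV.PVB h) (ph G z).swap * SP.mt b (bas N) ((G.P (qq G z)).comp (ev ν Real.pi))) *
    SP.mt b b (PN z)

theorem lM_eq (h : GT.Bla G k) (hkn : k < n) (hz : z ∈ L.US G) (b : Basis ι ℝ (Wt N K)) :
    lM h ν PN b z = SP.mt b (bas N) ((l0 G z ν).comp (PN z)) := by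
  have hF : ((ph G z).swap : Euc N × Euc N) ∈ GT.FF S := GT.FF_symm (mem_FF h hz)
  rw [lM, GT.LM_eq (FV.vfield_PVB h) h hkn hF]
  change SP.mt (bas N) (bas N) (V0s h z) *
    (SP.mt b (bas N) ((G.P z.1).comp (ev ν 0)) +
      SP.mt (bas N) (bas N) (GT.lf G (qq G z) z.1) *
        SP.mt b (bas N) ((G.P (qq G z)).comp (ev ν Real.pi))) *
    SP.mt b b (PN z) = _
  rw [← SP.mt_comp, ← SP.mt_add, ← SP.mt_comp, ← SP.mt_comp, V0s_eq h hz]
  rfl

theorem smooth_lM (h : GT.Bla G k) (hkn : k < n) (H : NegB G r ν δ PN) (hz : z ∈ L.US G)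
    (b : Basis ι ℝ (Wt N K)) : SP.MSm ∞ (lM h ν PN b) z := by
  have hF : ((ph G z).swap : Euc N × Euc N) ∈ GT.FF S := GT.FF_symm (mem_FF h hz)
  have h1 : SP.MSm ∞ (fun y => SP.mt (bas N) (bas N) (V0s h y)) z :=
    SP.MSm.mt _ _ (contDiffAt_V0s h hz.1)
  have h2 : SP.MSm ∞ (fun y : Euc N × Euc N =>
      SP.mt b (bas N) ((G.P y.1).comp (ev ν 0))) z :=
    SP.MSm.mt _ _ ((G.contDiff_P.contDiffAt.comp z contDiffAt_fst).clm_comp contDiffAt_const)
  have h3 : SP.MSm ∞ (fun y : Euc N × Euc N =>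
      SP.mt b (bas N) ((G.P (qq G y)).comp (ev ν Real.pi))) z :=
    SP.MSm.mt _ _ ((G.contDiff_P.contDiffAt.comp z (contDiffAt_qq hz.1)).clm_comp
      contDiffAt_const)
  have h4 : SP.MSm ∞ (fun y => LM G (FV.PVB h) (ph G y).swap) z := by
    intro i j
    have h5 := GT.smooth_LM (FV.vfield_PVB h) h hkn hF i j
    have h6 : ContDiffAt ℝ ∞ (fun y => (ph G y).swap) z :=
      (contDiffAt_qq hz.1).prodMk contDiffAt_fst
    exact ContDiffAt.comp z (g := fun y => LM G (FV.PVB h) y i j) h5 h6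
  exact (h1.mul (h2.add (h4.mul h3))).mul (SP.MSm.mt _ _ (H.smooth z hz))

/-- **`N ≅ V_pq ⊖ v`**, real matrices -/
theorem exists_pIso_N (h : GT.Bla G k) (hkn : k < n) (H : NegB G (k - 1) (nuP K) δ PN)
    (hz : z ∈ L.US G) (b : Basis ι ℝ (Wt N K)) :
    ∃ W, SP.PIso (SP.mt b b (PN z)) (SP.mt (bas N) (bas N) (V0s h z))
      (lM h (nuP K) PN b z) W := by
  rw [lM_eq h hkn hz b]
  obtain ⟨T, hT⟩ := exists_pIso b (bas N) (A := (l0 G z (nuP K)).comp (PN z)) (P := PN z)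
    (P' := V0s h z) (H.idem z) (V0s_idem h hz)
    (fun w => by
      change l0 G z (nuP K) (PN z (PN z w)) = l0 G z (nuP K) (PN z w)
      rw [H.idem])
    (fun w => (V0s_eq_self h hz (l0 G z (nuP K) (PN z w))).2 (l0_mem (nuP K) (PN z w)))
    (fun w hw h0 => by
      change l0 G z (nuP K) (PN z w) = 0 at h0
      rw [hw] at h0
      exact H.l0_inj h hz hw h0)
    (fun x hx => by
      obtain ⟨w, hw, hwx⟩ := H.l0_bij h hz ((V0s_eq_self h hz x).1 hx)
      refine ⟨w, hw, ?_⟩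
      change l0 G z (nuP K) (PN z w) = x
      rw [hw, hwx])
  exact ⟨_, hT⟩

/-- `N ⊗ ℂ` -/
theorem idf_PN (H : NegB G r ν δ PN) (b : Basis ι ℝ (Wt N K)) :
    CW.IdF (L.US G) (fun z => SP.cr (SP.mt b b (PN z))) :=
  ⟨fun z hz => (SP.MSm.mt _ _ (H.smooth z hz)).cr, fun z hz => by
    rw [← SP.cr_mul, ← SP.mt_comp]
    congr 2
    ext1 w
    exact H.idem z w⟩

/-- `(V_pq ⊖ v) ⊗ ℂ` -/
theorem idf_V0 (h : GT.Bla G k) :
    CW.IdF (L.US G) (fun z => SP.cr (SP.mt (bas N) (bas N) (V0s h z))) :=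
  ⟨fun z hz => (SP.MSm.mt _ _ (contDiffAt_V0s h hz.1)).cr, fun z hz => by
    rw [← SP.cr_mul, ← SP.mt_comp]
    congr 2
    ext1 w
    exact V0s_idem h hz w⟩

/-- the trivial line `ℝ v` -/
theorem idf_v : CW.IdF (L.US G) (fun z : Euc N × Euc N =>
    SP.cr (SP.mt (bas N) (bas N) ((innerSL ℝ z.2).smulRight z.2))) :=
  ⟨fun z hz => (SP.MSm.mt _ _ contDiffAt_vv).cr, fun z hz => by
    rw [← SP.cr_mul, ← SP.mt_comp]
    congr 2
    ext1 w
    change ⟪z.2, ⟪z.2, w⟫ • z.2⟫ • z.2 = ⟪z.2, w⟫ • z.2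
    rw [real_inner_smul_right, real_inner_self_eq_norm_sq, hz.2]
    norm_num⟩

theorem cs_PN_V0 (h : GT.Bla G k) (hkn : k < n) (H : NegB G (k - 1) (nuP K) δ PN)
    (hU : Sub dU (L.US G)) (b : Basis ι ℝ (Wt N K)) :
    CW.cs hU (idf_PN H b) = CW.cs hU (idf_V0 h) :=
  CW.cs_iso hU _ _ (S := fun z => SP.cr (lM h (nuP K) PN b z))
    (fun z hz => (smooth_lM h hkn H hz b).cr) fun z hz => by
      obtain ⟨W, hW⟩ := exists_pIso_N h hkn H hz b
      exact ⟨_, hW.cr⟩

end iso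

/-! ### Chern series -/

/-- coordinates of `v` -/
def sv (z : Euc N × Euc N) (i : Fin N) : ℂ := ((bas N).repr z.2 i : ℝ)

lemma sv_smooth (i : Fin N) : ContDiffAt ℝ ∞ (fun z : Euc N × Euc N => sv z i) z :=
  Complex.ofRealCLM.contDiff.contDiffAt.comp z (GT.smooth_repr contDiffAt_snd i)

lemma cr_mulVec {m l : Type*} [Fintype l] (M : Matrix m l ℝ) (v : l → ℝ) (i : m) :
    (SP.cr M).mulVec (fun j => (v j : ℂ)) i = ((M.mulVec v i : ℝ) : ℂ) := by
  simp only [Matrix.mulVec, dotProduct, SP.cr_apply]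
  push_cast
  rfl

lemma trace_vv (v : Euc N) :
    (SP.cr (SP.mt (bas N) (bas N) ((innerSL ℝ v).smulRight v))).trace = ((‖v‖ ^ 2 : ℝ) : ℂ) := by
  have h1 : (SP.cr (SP.mt (bas N) (bas N) ((innerSL ℝ v).smulRight v))).trace =
      ((SP.mt (bas N) (bas N) ((innerSL ℝ v).smulRight v)).trace : ℝ) := by
    simp [Matrix.trace]
  rw [h1]
  congr 1
  rw [← real_inner_self_eq_norm_sq, ← (EuclideanSpace.basisFun (Fin N) ℝ).sum_inner_mul_inner v v]
  refine Finset.sum_congr rfl fun i _ => ?_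
  rw [Matrix.diag_apply, SP.mt_apply, GT.bas_apply]
  change (bas N).repr (⟪v, EuclideanSpace.basisFun (Fin N) ℝ i⟫ • v) i = _
  rw [map_smul, Finsupp.smul_apply, smul_eq_mul]
  congr 1
  have h2 : (bas N).repr v i = (EuclideanSpace.basisFun (Fin N) ℝ).repr v i := by
    rw [bas, OrthonormalBasis.coe_toBasis_repr_apply]
  rw [h2, OrthonormalBasis.repr_apply_apply]

theorem cs_v (hU : Sub dU (L.US G)) : CW.cs hU (idf_v (G := G)) = 1 := by
  refine cs_line hU _ (s := sv) (fun z _ i => sv_smooth i) (fun z hz => ?_) (fun z hz => ?_)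
    fun z hz => ?_
  · funext i
    unfold sv
    rw [cr_mulVec, SP.mt_mulVec]
    change (((bas N).repr (⟪z.2, z.2⟫ • z.2) i : ℝ) : ℂ) = _
    rw [real_inner_self_eq_norm_sq, hz.2, one_pow, one_smul]
  · intro h0
    have h1 : z.2 = 0 := by
      have h2 : (bas N).repr z.2 = 0 := by
        ext i
        have h3 : (((bas N).repr z.2 i : ℝ) : ℂ) = 0 := congrFun h0 i
        exact Complex.ofReal_eq_zero.1 h3
      exact (LinearEquiv.map_eq_zero_iff _).1 h2
    have h2 := hz.2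
    rw [h1, norm_zero] at h2
    exact zero_ne_one h2
  · have h1 := CW.rank_eq_trace ((idf_v (G := G)).idem z hz)
    rw [trace_vv, hz.2] at h1
    have : ((SP.cr (SP.mt (bas N) (bas N) ((innerSL ℝ z.2).smulRight z.2))).rank : ℂ) =
      ((1 : ℕ) : ℂ) := by rw [h1]; norm_num
    exact_mod_cast this

theorem cs_V_eq (h : GT.Bla G k) (hU : Sub dU (L.US G)) :
    CW.cs hU ((GT.idf_mV (FV.vfield_PVB h)).comp (smap_ph h)) = CW.cs hU (idf_V0 h) := by
  have hV := FV.vfield_PVB h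
  rw [CW.cs_orth hU ((GT.idf_mV (FV.vfield_PVB h)).comp (smap_ph h)) (idf_V0 h) idf_v ?_ ?_ ?_,
    cs_v, mul_one]
  · intro z hz
    rw [← SP.cr_add, ← SP.mt_add, V0s, sub_add_cancel]
    rfl
  · intro z hz
    have h0 : (V0s h z).comp ((innerSL ℝ z.2).smulRight z.2) = 0 := by
      ext1 w
      change V0s h z (⟪z.2, w⟫ • z.2) = 0
      have h1 : FV.PVB h (ph G z) z.2 = z.2 :=
        hV.PV_eq_self (p := z.1) (q := qq G z) (mem_FF h hz) (mem_Vs hz)
      rw [map_smul, V0s_apply, h1, real_inner_self_eq_norm_sq, hz.2, one_pow, one_smul, sub_self,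
        smul_zero]
    rw [← SP.cr_mul, ← SP.mt_comp, h0]
    ext i j
    simp [SP.mt_apply]
  · intro z hz
    have h0 : ((innerSL ℝ z.2).smulRight z.2).comp (V0s h z) = 0 := by
      ext1 w
      change ⟪z.2, V0s h z w⟫ • z.2 = 0
      have h1 : V0s h z w ∈ V0 G z := (V0s_eq_self h hz _).1 (V0s_idem h hz w)
      rw [real_inner_comm, (mem_V0.1 h1).2, zero_smul]
    rw [← SP.cr_mul, ← SP.mt_comp, h0]
    ext i j
    simp [SP.mt_apply]

/-- **the Chern series of `N ⊗ ℂ` is that of `V_pq ⊗ ℂ` over `US G`** -/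
theorem cs_PN {ι : Type} [Fintype ι] [DecidableEq ι] (h : GT.Bla G k) (hkn : k < n)
    (H : NegB G (k - 1) (nuP K) δ PN) (hU : Sub dU (L.US G)) (b : Basis ι ℝ (Wt N K)) :
    CW.cs hU (idf_PN H b) = CW.cs hU ((GT.idf_mV (FV.vfield_PVB h)).comp (smap_ph h)) := by
  rw [cs_PN_V0 h hkn H hU b, cs_V_eq h hU]

/-- pulled back from `FF` -/
theorem cs_PN_map {ι : Type} [Fintype ι] [DecidableEq ι] {dF : ℕ} (h : GT.Bla G k) (hkn : k < n)
    (H : NegB G (k - 1) (nuP K) δ PN) (hU : Sub dU (L.US G)) (hF : Sub dF (GT.FF S))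
    (b : Basis ι ℝ (Wt N K)) :
    CW.cs hU (idf_PN H b) = (CW.cs hF (GT.idf_mV (FV.vfield_PVB h))).map
      (CW.H.map (smap_ph h) : CW.H (GT.FF S) →+* CW.H (L.US G)) := by
  rw [cs_PN h hkn H hU b, CW.cs_map hU hF (smap_ph h)]

/-! ### the representation of the circle -/

theorem contDiff_Rt (ν : Fin K → ℝ) : ContDiff ℝ ∞ (fun s => (Rt ν s : Wt N K →L[ℝ] Wt N K)) := by
  rw [contDiff_clm_apply_iff]
  intro w
  rw [contDiff_euclidean]
  intro x
  have h0 : ContDiff ℝ ∞ (fun s : ℝ => ν x.1.1 * s) := contDiff_const.mul contDiff_id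
  have hc := Real.contDiff_cos (n := ∞)
  have hs := Real.contDiff_sin (n := ∞)
  by_cases hx : x.1.2 = 0
  · have e : (fun s : ℝ => (Rt ν s w : Wt N K) x) = fun s =>
        Real.cos (ν x.1.1 * s) * w ((x.1.1, 0), x.2) +
            Real.sin (ν x.1.1 * s) * w ((x.1.1, 1), x.2) := by
      funext s; simp [Rt, hx]
    rw [e]
    exact ((hc.comp h0).mul contDiff_const).add ((hs.comp h0).mul contDiff_const)
  · have e : (fun s : ℝ => (Rt ν s w : Wt N K) x) = fun s =>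
        -(Real.sin (ν x.1.1 * s) * w ((x.1.1, 0), x.2)) +
            Real.cos (ν x.1.1 * s) * w ((x.1.1, 1), x.2) := by
      funext s; simp [Rt, hx]
    rw [e]
    exact (((hs.comp h0).mul contDiff_const).neg).add ((hc.comp h0).mul contDiff_const)

/-- the periodic rotation is an orthogonal representation of the circle -/
theorem rep_per (N K : ℕ) : CM.Rep (fun s => (Rt (nuP K) s : Wt N K →L[ℝ] Wt N K)) where
  smooth := contDiff_Rt _
  zero w := Rt_zero _ w
  add s t w := Rt_add _ s t w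
  per w := Rt_per w
  iso t w := norm_Rt _ t w


/-- equivariance in the form of `CM4` -/
theorem NegB.comm (H : NegB G r ν δ PN) (hz : z ∈ L.US G) (s : ℝ) :
    (Rt ν s).comp (PN z) = (PN (fl G (z, s))).comp (Rt ν s) := by
  ext1 w
  exact (H.equi z hz s w).symm

end Crest.Agent.R208.NB
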