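import Crest.Agent.R208.AK6
import Crest.Agent.R208.NB9
import Crest.Agent.R208.KR8
import Crest.Agent.R208.KG8

-- ▼ part R208/AK7
section

/-!
R208, block AK (helper952), part 7: families of rounded chains from linear maps; removal of the
diagonal direction.
-/

set_option autoImplicit false
set_option linter.unusedSectionVars false

open Set Filter Topology MeasureTheory
open scoped ContDiff RealInnerProductSpace Interval
open Crest.GeometryTopology.Submanifold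
open Crest.Agent.R241.DDefs
open Crest.Agent.R241.D2
open Crest.Agent.R241.D3c
open Crest.Agent.R208.SV (ixd ix Fld jf jf')
open Crest.Agent.R208.NN (V0 qq)
open Crest.Agent.R208.KG (idx Km cc sta pc rnd uu gT OK)

noncomputable section

namespace Crest.Agent.R208.AK

variable {n N k : ℕ} {κ : ℝ} {S : Set (Euc N)} {G : Geo n N κ S} {m : ℕ} [NeZero m] {ε : ℝ}
  {E V : Type*} [NormedAddCommGroup E] [NormedSpace ℝ E]
  [NormedAddCommGroup V] [NormedSpace ℝ V]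
  {K : Set E} {P : E → V →L[ℝ] V} {g : E → Euc N × Euc N}
  {Lm : E → V →L[ℝ] (Fin m → Euc N)} {δ σ T : ℝ}

/-- smooth linear map to chains of `V_0`-vectors -/
structure LinC (G : Geo n N κ S) (K : Set E) (P : E → V →L[ℝ] V) (g : E → Euc N × Euc N)
    (Lm : E → V →L[ℝ] (Fin m → Euc N)) : Prop where
  gs : ∀ x ∈ K, ContDiffAt ℝ ∞ g x
  gm : ∀ x ∈ K, g x ∈ L.US G
  smooth : ∀ x ∈ K, ContDiffAt ℝ ∞ Lm x
  mem : ∀ x ∈ K, ∀ ζ : V, P x ζ = ζ → ∀ i, Lm x ζ i ∈ V0 G (g x)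

/-- the family of rounded chains -/
def fam (G : Geo n N κ S) (ε : ℝ) (g : E → Euc N × Euc N) (Lm : E → V →L[ℝ] (Fin m → Euc N))
    (p : (E × V) × ℝ) : Euc N := FT G m ε (kap (g p.1.1) (Lm p.1.1 p.1.2), p.2)

/-- its linearisation -/
def fla (G : Geo n N κ S) (ε : ℝ) (g : E → Euc N × Euc N) (Lm : E → V →L[ℝ] (Fin m → Euc N))
    (p : (E × V) × ℝ) : Euc N := AZ G ε (g p.1.1) (Lm p.1.1 p.1.2) p.2

theorem LinC.lfam (h : OK G m ε) (hB : GT.Bla G k) (hL : LinC G K P g Lm) {r : ℝ} (hr : 0 < r) :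
    LFam G K P (m * Real.pi) g (fam G ε g Lm) r := by
  refine ⟨hr, fun x hx ζ hζ _ t => ?_, fun x hx ζ hζ _ t => ?_, fun x hx ζ hζ _ t => ?_,
    fun x hx t => ?_⟩
  · have hm := hL.mem x hx ζ hζ
    have h1 : ContDiffAt ℝ ∞ (fun p : (E × V) × ℝ => (g p.1.1, Lm p.1.1 p.1.2)) ((x, ζ), t) := by
      have e1 : ContDiffAt ℝ ∞ (fun p : (E × V) × ℝ => p.1.1) ((x, ζ), t) := by fun_prop
      have e2 : ContDiffAt ℝ ∞ (fun p : (E × V) × ℝ => p.1.2) ((x, ζ), t) := by fun_prop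
      have e3 := ContDiffAt.comp (g := g) (f := fun p : (E × V) × ℝ => p.1.1) ((x, ζ), t)
        (hL.gs x hx) e1
      have e4 := ContDiffAt.comp (g := Lm) (f := fun p : (E × V) × ℝ => p.1.1) ((x, ζ), t)
        (hL.smooth x hx) e1
      exact e3.prodMk (e4.clm_apply e2)
    have h2 : ContDiffAt ℝ ∞ (fun p : (E × V) × ℝ => kap (g p.1.1) (Lm p.1.1 p.1.2))
        ((x, ζ), t) :=
      ContDiffAt.comp (g := fun p : (Euc N × Euc N) × (Fin m → Euc N) => kap p.1 p.2)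
        (f := fun p : (E × V) × ℝ => (g p.1.1, Lm p.1.1 p.1.2)) ((x, ζ), t)
        (contDiffAt_kap (hL.gm x hx) hm) h1
    exact ContDiffAt.comp (g := FT G m ε)
      (f := fun p : (E × V) × ℝ => (kap (g p.1.1) (Lm p.1.1 p.1.2), p.2)) ((x, ζ), t)
      (contDiffAt_FT h (kap_mem hB (hL.gm x hx) hm) t) (h2.prodMk (by fun_prop))
  · have hm := kap_mem hB (hL.gm x hx) (hL.mem x hx ζ hζ)
    simp only [fam]
    rw [FT_eq h hm]
    exact KG.cc_mem h.per hm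
  · have hm := kap_mem hB (hL.gm x hx) (hL.mem x hx ζ hζ)
    simp only [fam]
    rw [FT_eq h hm, FT_eq h hm, KG.cc_period h.per h.even hm]
  · simp only [fam]
    rw [map_zero]
    exact FT_diag h (hL.gm x hx) hB t

theorem LinC.lA_fam (h : OK G m ε) (hB : GT.Bla G k) (hL : LinC G K P g Lm) {x : E}
    (hx : x ∈ K) {ζ : V} (hζ : P x ζ = ζ) (t : ℝ) :
    lA (fam G ε g Lm) x ζ t = fla G ε g Lm ((x, ζ), t) := by
  have hLF := hL.lfam h hB one_pos
  have h1 : HasFDerivAt (fam G ε g Lm) (fderiv ℝ (fam G ε g Lm) ((x, 0), t))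
      ((x, (0:ℝ) • ζ), t) := by
    rw [zero_smul]
    exact ((hLF.zero_mem hx t).differentiableAt (by simp)).hasFDerivAt
  have h2 := h1.comp_hasDerivAt (0:ℝ) (hasDerivAt_ray (t := t) (x := x) (ζ := ζ) 0)
  have h3 := hasDerivAt_AZ (t := t) h hB (hL.gm x hx) (hL.mem x hx ζ hζ)
  have h4 : (fam G ε g Lm ∘ fun s : ℝ => ((x, s • ζ), t)) =
      fun s : ℝ => FT G m ε (kap (g x) (s • Lm x ζ), t) := by
    funext s
    simp only [fam, Function.comp_apply, map_smul]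
  rw [h4] at h2
  exact h2.unique h3

theorem LinC.lmap (h : OK G m ε) (hB : GT.Bla G k) (hL : LinC G K P g Lm)
    (hper : ∀ x ∈ K, ∀ ζ : V, P x ζ = ζ → ∀ t,
      AZ G ε (g x) (Lm x ζ) (t + T) = σ • AZ G ε (g x) (Lm x ζ) t) :
    LMap G K P T σ g (fla G ε g Lm) := by
  refine ⟨fun x hx ζ hζ t => ?_, fun x hx ζ hζ s t => ?_, fun x hx ζ hζ t => ?_, hper⟩
  · have e1 : ContDiffAt ℝ ∞ (fun p : (E × V) × ℝ => p.1.1) ((x, ζ), t) := by fun_prop
    have e2 : ContDiffAt ℝ ∞ (fun p : (E × V) × ℝ => p.1.2) ((x, ζ), t) := by fun_prop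
    have e3 := ContDiffAt.comp (g := g) (f := fun p : (E × V) × ℝ => p.1.1) ((x, ζ), t)
      (hL.gs x hx) e1
    have e4 := ContDiffAt.comp (g := Lm) (f := fun p : (E × V) × ℝ => p.1.1) ((x, ζ), t)
      (hL.smooth x hx) e1
    have e5 : ContDiffAt ℝ ∞ (fun p : (E × V) × ℝ => ((g p.1.1, Lm p.1.1 p.1.2), p.2))
        ((x, ζ), t) := (e3.prodMk (e4.clm_apply e2)).prodMk (by fun_prop)
    exact ContDiffAt.comp (g := fun p : ((Euc N × Euc N) × (Fin m → Euc N)) × ℝ =>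
      AZ G ε p.1.1 p.1.2 p.2)
      (f := fun p : (E × V) × ℝ => ((g p.1.1, Lm p.1.1 p.1.2), p.2)) ((x, ζ), t)
      (contDiffAt_AZ h hB (hL.gm x hx) _ t) e5
  · simp only [fla, map_smul]
    exact AZ_smul s _ t
  · exact AZ_mem h hB (hL.gm x hx) (hL.mem x hx ζ hζ) t

/-! ### removal of the diagonal -/

/-- remove the zeroth component -/
def rem (Lm : E → V →L[ℝ] (Fin m → Euc N)) (x : E) : V →L[ℝ] (Fin m → Euc N) :=
  Lm x - ContinuousLinearMap.pi fun _ => (ContinuousLinearMap.proj (0 : Fin m)).comp (Lm x)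

lemma rem_apply (x : E) (ζ : V) (i : Fin m) : rem Lm x ζ i = Lm x ζ i - Lm x ζ 0 := rfl

lemma rem_zero (x : E) (ζ : V) : rem Lm x ζ 0 = 0 := by rw [rem_apply, sub_self]

theorem LinC.rem (hL : LinC G K P g Lm) : LinC G K P g (rem Lm) where
  gs := hL.gs
  gm := hL.gm
  smooth x hx := by
    refine (hL.smooth x hx).sub ?_
    set Φ : (V →L[ℝ] (Fin m → Euc N)) →L[ℝ] (V →L[ℝ] (Fin m → Euc N)) :=
      ContinuousLinearMap.compL ℝ V (Fin m → Euc N) (Fin m → Euc N)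
        (ContinuousLinearMap.pi fun _ => ContinuousLinearMap.proj (0 : Fin m)) with hΦ
    have h1 : (fun x => ContinuousLinearMap.pi fun _ : Fin m =>
        (ContinuousLinearMap.proj (0 : Fin m)).comp (Lm x)) = fun x => Φ (Lm x) := by
      funext x; ext ζ i; rfl
    change ContDiffAt ℝ ∞ (fun x => ContinuousLinearMap.pi fun _ : Fin m =>
        (ContinuousLinearMap.proj (0 : Fin m)).comp (Lm x)) x
    rw [h1]
    exact Φ.contDiff.contDiffAt.comp x (hL.smooth x hx)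
  mem x hx ζ hζ i := by
    rw [rem_apply]
    exact (V0 G (g x)).sub_mem (hL.mem x hx ζ hζ i) (hL.mem x hx ζ hζ 0)

lemma AZ_rem (h : OK G m ε) (hB : GT.Bla G k) (hL : LinC G K P g Lm) {x : E}
    (hx : x ∈ K) {ζ : V} (hζ : P x ζ = ζ) (t : ℝ) :
    fla G ε g (rem Lm) ((x, ζ), t) = fla G ε g Lm ((x, ζ), t) - jf G (g x) (0, Lm x ζ 0) t := by
  simp only [fla]
  rw [← AZ_const h hB (hL.gm x hx) (hL.mem x hx ζ hζ 0) t, ← AZ_sub]
  rfl




/-- index forms of a chain field and of the field without diagonal part -/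
theorem LinC.ix_rem (h : OK G m ε) (hB : GT.Bla G k) (hL : LinC G K P g Lm) {l : ℕ}
    (hm : m = 2 * l) {x : E} (hx : x ∈ K) {ζ : V} (hζ : P x ζ = ζ) :
    ix G (g x) 0 (m * Real.pi)
      (fun t => fla G ε g Lm ((x, ζ), t)) (deriv fun t => fla G ε g Lm ((x, ζ), t))
      (fun t => fla G ε g (AK.rem Lm) ((x, ζ), t))
      (deriv fun t => fla G ε g (AK.rem Lm) ((x, ζ), t)) =
    ix G (g x) 0 (m * Real.pi)
      (fun t => fla G ε g Lm ((x, ζ), t)) (deriv fun t => fla G ε g Lm ((x, ζ), t))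
      (fun t => fla G ε g Lm ((x, ζ), t)) (deriv fun t => fla G ε g Lm ((x, ζ), t)) ∧
    ix G (g x) 0 (m * Real.pi)
      (fun t => fla G ε g (AK.rem Lm) ((x, ζ), t))
      (deriv fun t => fla G ε g (AK.rem Lm) ((x, ζ), t))
      (fun t => fla G ε g (AK.rem Lm) ((x, ζ), t))
      (deriv fun t => fla G ε g (AK.rem Lm) ((x, ζ), t)) =
    ix G (g x) 0 (m * Real.pi)
      (fun t => fla G ε g Lm ((x, ζ), t)) (deriv fun t => fla G ε g Lm ((x, ζ), t))
      (fun t => fla G ε g Lm ((x, ζ), t)) (deriv fun t => fla G ε g Lm ((x, ζ), t)) := by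
  have hz := hL.gm x hx
  have hpi := Real.pi_pos
  have hT : (m : ℝ) * Real.pi = l * (2 * Real.pi) := by rw [hm]; push_cast; ring
  have hT0 : 0 ≤ (m : ℝ) * Real.pi := by positivity
  have hper : ∀ {L' : E → V →L[ℝ] (Fin m → Euc N)}, LinC G K P g L' →
      LMap G K P (m * Real.pi) 1 g (fla G ε g L') := fun {L'} hL' =>
    hL'.lmap h hB fun x hx ζ hζ t => by
      rw [one_smul]; exact AZ_per h hB (hL'.gm x hx) (hL'.mem x hx ζ hζ) t
  have hM := hper hL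
  have hR := hper hL.rem
  set A := fun t => fla G ε g Lm ((x, ζ), t) with hA
  set B := fun t => fla G ε g (AK.rem Lm) ((x, ζ), t) with hB'
  set J := jf G (g x) (0, Lm x ζ 0) with hJ
  set J' := jf' G (g x) (0, Lm x ζ 0) with hJ'
  have fA : Fld G (g x) 0 (m * Real.pi) A (deriv A) := hM.fld hx hζ _ _
  have fB : Fld G (g x) 0 (m * Real.pi) B (deriv B) := hR.fld hx hζ _ _
  have fJ : Fld G (g x) 0 (m * Real.pi) J J' :=
    SV.fld_jf (tanTS_zero hB hz (hL.mem x hx ζ hζ 0)) _ _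
  have e1 : B = A - J := funext fun t => AZ_rem h hB hL hx hζ t
  have e2 : deriv B = deriv A - J' := by
    funext t
    rw [e1]
    have dA := ((hM.cd hx hζ).differentiable (by simp) t).hasDerivAt
    have dJ := SV.hasDerivAt_jf hz.1 (0, Lm x ζ 0) t
    exact (dA.sub dJ).deriv
  have pA : A (m * Real.pi) = A 0 := by
    have := hM.per x hx ζ hζ 0
    rw [zero_add, one_smul] at this
    exact this
  have pB : B (m * Real.pi) = B 0 := by
    have := hR.per x hx ζ hζ 0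
    rw [zero_add, one_smul] at this
    exact this
  have k1 : ix G (g x) 0 (m * Real.pi) J J' A (deriv A) = 0 :=
    ix_jf_eq_zero hB hz (hL.mem x hx ζ hζ 0) hT fA pA
  have k2 : ix G (g x) 0 (m * Real.pi) J J' B (deriv B) = 0 :=
    ix_jf_eq_zero hB hz (hL.mem x hx ζ hζ 0) hT fB pB
  have k3 : ix G (g x) 0 (m * Real.pi) A (deriv A) B (deriv B) =
      ix G (g x) 0 (m * Real.pi) A (deriv A) A (deriv A) := by
    rw [e2, e1, SV.ix_sub_right hT0 hz.1 fA fA fJ, SV.ix_symm hT0 hz.1 fA fJ, k1, sub_zero]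
  refine ⟨k3, ?_⟩
  have k4 : ix G (g x) 0 (m * Real.pi) B (deriv B) B (deriv B) =
      ix G (g x) 0 (m * Real.pi) A (deriv A) B (deriv B) := by
    have : ix G (g x) 0 (m * Real.pi) (A - J) (deriv A - J') B (deriv B) =
        ix G (g x) 0 (m * Real.pi) A (deriv A) B (deriv B) := by
      rw [SV.ix_sub_left hT0 hz.1 fA fJ fB, k2, sub_zero]
    rw [← this, ← e2, ← e1]
  rw [k4, k3]

/-- **the straight path from the field without diagonal part** -/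
theorem LinC.spath_rem (h : OK G m ε) (hB : GT.Bla G k) (hL : LinC G K P g Lm) {l : ℕ}
    (hm : m = 2 * l) (hδ : 0 ≤ δ)
    (hneg : ∀ x ∈ K, ∀ ζ : V, P x ζ = ζ → ix G (g x) 0 (m * Real.pi)
      (fun t => fla G ε g Lm ((x, ζ), t)) (deriv fun t => fla G ε g Lm ((x, ζ), t))
      (fun t => fla G ε g Lm ((x, ζ), t)) (deriv fun t => fla G ε g Lm ((x, ζ), t)) ≤
        -δ * ‖ζ‖ ^ 2) :
    SPath G K P (m * Real.pi) 1 g (lin (fla G ε g (AK.rem Lm)) (fla G ε g Lm)) (δ / 2) := by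
  have hper : ∀ {L' : E → V →L[ℝ] (Fin m → Euc N)}, LinC G K P g L' →
      LMap G K P (m * Real.pi) 1 g (fla G ε g L') := fun {L'} hL' =>
    hL'.lmap h hB fun x hx ζ hζ t => by
      rw [one_smul]; exact AZ_per h hB (hL'.gm x hx) (hL'.mem x hx ζ hζ) t
  have hpi := Real.pi_pos
  refine SPath.line (fun x hx => (hL.gm x hx).1) (by positivity) (hper hL.rem) (hper hL) hδ
    (fun x hx ζ hζ => ?_) hneg (fun x hx ζ hζ => ?_)
  · rw [(hL.ix_rem h hB hm hx hζ).2]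
    exact hneg x hx ζ hζ
  · rw [(hL.ix_rem h hB hm hx hζ).1]
    refine (hneg x hx ζ hζ).trans ?_
    have : 0 ≤ δ * ‖ζ‖ ^ 2 := by positivity
    linarith

end Crest.Agent.R208.AK
end
end

-- ▼ part R208/AK8
section

/-!
R208, block AK (helper952), part 8: the periodic part.  Over `US G` the negative bundle `N` is
joined to the fields of the chains `(u,-u,u,-u)`.
-/

set_option autoImplicit false
set_option linter.unusedSectionVars false

open Set Filter Topology MeasureTheory Module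
open scoped ContDiff RealInnerProductSpace Interval
open Crest.GeometryTopology.Submanifold
open Crest.Agent.R241.DDefs
open Crest.Agent.R241.D2
open Crest.Agent.R241.D3c
open Crest.Agent.R208.SV (ixd ix Fld jf jf')
open Crest.Agent.R208.NN (V0 qq Wt nuP fd fd')
open Crest.Agent.R208.KG (idx Km cc sta pc rnd uu gT OK)
open Crest.Agent.R208.NB (NegB npr V0s)

noncomputable section

namespace Crest.Agent.R208.AK

/-! ### smooth inverses -/

section sinv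

variable {U W : Type*} [NormedAddCommGroup U] [InnerProductSpace ℝ U] [FiniteDimensional ℝ U]
  [NormedAddCommGroup W] [InnerProductSpace ℝ W] [FiniteDimensional ℝ W]

/-- the operator `A'* A' + (1 - Q)* (1 - Q)` with `A' = A Q` -/
def mop (A : U →L[ℝ] W) (Q : U →L[ℝ] U) : U →L[ℝ] U :=
  (ContinuousLinearMap.adjoint (A.comp Q)).comp (A.comp Q) +
    (ContinuousLinearMap.adjoint (1 - Q)).comp (1 - Q)

/-- inverse of an injective map of the range of `Q` -/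
def sinv (A : U →L[ℝ] W) (Q : U →L[ℝ] U) : W →L[ℝ] U :=
  (Ring.inverse (mop A Q)).comp (ContinuousLinearMap.adjoint (A.comp Q))

variable {A : U →L[ℝ] W} {Q : U →L[ℝ] U}

lemma mop_inj (hA : ∀ u, Q u = u → A u = 0 → u = 0) {u : U} (h : mop A Q u = 0) : u = 0 := by
  have h1 : ⟪mop A Q u, u⟫ = ‖A (Q u)‖ ^ 2 + ‖u - Q u‖ ^ 2 := by
    simp only [mop, add_apply, ContinuousLinearMap.comp_apply]
    rw [inner_add_left, ContinuousLinearMap.adjoint_inner_left,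
      ContinuousLinearMap.adjoint_inner_left]
    simp only [ContinuousLinearMap.comp_apply, sub_apply]
    rw [real_inner_self_eq_norm_sq, real_inner_self_eq_norm_sq]
    rfl
  rw [h, inner_zero_left] at h1
  have h2 : ‖u - Q u‖ ^ 2 = 0 := by nlinarith [sq_nonneg ‖A (Q u)‖, sq_nonneg ‖u - Q u‖]
  have h3 : ‖A (Q u)‖ ^ 2 = 0 := by nlinarith [sq_nonneg ‖A (Q u)‖, sq_nonneg ‖u - Q u‖]
  have h4 : Q u = u := by
    have := norm_eq_zero.1 (pow_eq_zero_iff (two_ne_zero) |>.1 h2)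
    exact (sub_eq_zero.1 this).symm
  have h5 : A (Q u) = 0 := norm_eq_zero.1 (pow_eq_zero_iff (two_ne_zero) |>.1 h3)
  rw [h4] at h5
  exact hA u h4 h5

lemma isUnit_mop (hA : ∀ u, Q u = u → A u = 0 → u = 0) : IsUnit (mop A Q) := by
  have h1 : IsUnit (mop A Q : U →ₗ[ℝ] U) :=
    (LinearMap.isUnit_iff_ker_eq_bot _).2 (LinearMap.ker_eq_bot'.2 fun u hu => mop_inj hA hu)
  obtain ⟨u, hu⟩ := h1
  refine ⟨⟨mop A Q, LinearMap.toContinuousLinearMap (u⁻¹ : (U →ₗ[ℝ] U)ˣ).1, ?_, ?_⟩, rfl⟩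
  · ext1 w
    have h2 : ((u : U →ₗ[ℝ] U) * (u⁻¹ : (U →ₗ[ℝ] U)ˣ).1) w = w := by
      rw [Units.mul_inv]; rfl
    rw [hu] at h2
    exact h2
  · ext1 w
    have h2 : ((u⁻¹ : (U →ₗ[ℝ] U)ˣ).1 * (u : U →ₗ[ℝ] U)) w = w := by
      rw [Units.inv_mul]; rfl
    rw [hu] at h2
    exact h2

/-- left inverse -/
theorem sinv_apply (hA : ∀ u, Q u = u → A u = 0 → u = 0) {u : U} (hu : Q u = u) :
    sinv A Q (A u) = u := by
  have h1 : ContinuousLinearMap.adjoint (A.comp Q) (A u) = mop A Q u := by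
    have e1 : (1 : U →L[ℝ] U) u = u := rfl
    simp only [mop, add_apply, ContinuousLinearMap.comp_apply, sub_apply,
      e1, hu, sub_self, map_zero, add_zero]
  unfold sinv
  rw [ContinuousLinearMap.comp_apply, h1]
  have h2 := Ring.inverse_mul_cancel _ (isUnit_mop hA)
  exact congrArg (fun B : U →L[ℝ] U => B u) h2

theorem contDiffAt_sinv {E : Type*} [NormedAddCommGroup E] [NormedSpace ℝ E]
    {A : E → U →L[ℝ] W} {Q : E → U →L[ℝ] U} {x : E} (hA : ContDiffAt ℝ ∞ A x)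
    (hQ : ContDiffAt ℝ ∞ Q x) (hi : ∀ u, Q x u = u → A x u = 0 → u = 0) :
    ContDiffAt ℝ ∞ (fun y => sinv (A y) (Q y)) x := by
  have hAQ : ContDiffAt ℝ ∞ (fun y => (A y).comp (Q y)) x := hA.clm_comp hQ
  have hAQ' : ContDiffAt ℝ ∞ (fun y => ContinuousLinearMap.adjoint ((A y).comp (Q y))) x :=
    (ContinuousLinearMap.adjoint (𝕜 := ℝ) (E := U) (F := W)).toContinuousLinearEquiv.contDiff.contDiffAt.comp
      x hAQ
  have hQ1 : ContDiffAt ℝ ∞ (fun y => (1 : U →L[ℝ] U) - Q y) x := contDiffAt_const.sub hQ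
  have hQ1' : ContDiffAt ℝ ∞ (fun y => ContinuousLinearMap.adjoint ((1 : U →L[ℝ] U) - Q y)) x :=
    (ContinuousLinearMap.adjoint (𝕜 := ℝ) (E := U) (F := U)).toContinuousLinearEquiv.contDiff.contDiffAt.comp
      x hQ1
  have hm : ContDiffAt ℝ ∞ (fun y => mop (A y) (Q y)) x :=
    (hAQ'.clm_comp hAQ).add (hQ1'.clm_comp hQ1)
  obtain ⟨u, hu⟩ := isUnit_mop hi
  have h1 : ContDiffAt ℝ ∞ Ring.inverse (mop (A x) (Q x)) := by
    rw [← hu]; exact contDiffAt_ringInverse ℝ u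
  exact (h1.comp x hm).clm_comp hAQ'

end sinv

/-- a continuous linear map given on the standard basis -/
def ofB {W : Type*} [NormedAddCommGroup W] [NormedSpace ℝ W] {N : ℕ} (f : Fin N → W) :
    Euc N →L[ℝ] W :=
  ∑ j, (innerSL ℝ (EuclideanSpace.basisFun (Fin N) ℝ j)).smulRight (f j)

lemma ofB_apply {W : Type*} [NormedAddCommGroup W] [NormedSpace ℝ W] {N : ℕ}
    (ℓ : Euc N →ₗ[ℝ] W) (u : Euc N) :
    ofB (fun j => ℓ (EuclideanSpace.basisFun (Fin N) ℝ j)) u = ℓ u := by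
  unfold ofB
  rw [sum_apply]
  conv_rhs => rw [← (EuclideanSpace.basisFun (Fin N) ℝ).sum_repr' u, map_sum]
  refine Finset.sum_congr rfl fun j _ => ?_
  rw [map_smul]
  rfl

lemma contDiffAt_ofB {W E : Type*} [NormedAddCommGroup W] [NormedSpace ℝ W]
    [NormedAddCommGroup E] [NormedSpace ℝ E] {N : ℕ} {f : E → Fin N → W} {x : E}
    (hf : ∀ j, ContDiffAt ℝ ∞ (fun y => f y j) x) : ContDiffAt ℝ ∞ (fun y => ofB (f y)) x := by
  unfold ofB
  refine ContDiffAt.sum fun j _ => ?_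
  have h1 : ContDiff ℝ ∞ (fun w : W =>
      (innerSL ℝ (EuclideanSpace.basisFun (Fin N) ℝ j)).smulRight w) :=
    (ContinuousLinearMap.smulRightL ℝ (Euc N) W
      (innerSL ℝ (EuclideanSpace.basisFun (Fin N) ℝ j))).contDiff
  exact h1.contDiffAt.comp x (hf j)

/-! ### chains with four arcs -/

/-- the chain `(c₀ u, c₁ u, c₂ u, c₃ u)` -/
def mkZ {N m : ℕ} (c : Fin m → ℝ) : Euc N →L[ℝ] (Fin m → Euc N) :=
  ContinuousLinearMap.pi fun i => c i • ContinuousLinearMap.id ℝ (Euc N)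

lemma mkZ_apply {N m : ℕ} (c : Fin m → ℝ) (u : Euc N) (i : Fin m) : mkZ c u i = c i • u := rfl

lemma dsq_four {N : ℕ} (Z : Fin 4 → Euc N) :
    dsq Z = ‖Z 0 - Z 3‖ ^ 2 + ‖Z 1 - Z 0‖ ^ 2 + ‖Z 2 - Z 1‖ ^ 2 + ‖Z 3 - Z 2‖ ^ 2 := by
  unfold dsq
  simp only [Finset.sum_range_succ, Finset.sum_range_zero, zero_add]
  rfl

lemma shf_four {N : ℕ} (Z : Fin 4 → Euc N) : shf Z = ![Z 2, Z 3, Z 0, Z 1] := by
  funext i
  fin_cases i <;> rfl

/-- periodic chains -/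
def cP : Fin 4 → ℝ := ![1, -1, 1, -1]

lemma shf_per {N : ℕ} (u : Euc N) : shf (mkZ cP u) = mkZ cP u := by
  rw [shf_four]
  funext i
  fin_cases i <;> simp [mkZ_apply, cP]

lemma mkZ_sub {N m : ℕ} (c : Fin m → ℝ) (u : Euc N) (i j : Fin m) :
    mkZ c u i - mkZ c u j = (c i - c j) • u := by
  rw [mkZ_apply, mkZ_apply, sub_smul]

lemma norm_mkZ_sub {N m : ℕ} (c : Fin m → ℝ) (u : Euc N) (i j : Fin m) :
    ‖mkZ c u i - mkZ c u j‖ ^ 2 = (c i - c j) ^ 2 * ‖u‖ ^ 2 := by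
  rw [mkZ_sub, norm_smul, mul_pow, Real.norm_eq_abs, sq_abs]

lemma dsq_per {N : ℕ} (u : Euc N) : dsq (mkZ cP u) = 16 * ‖u‖ ^ 2 := by
  rw [dsq_four, norm_mkZ_sub, norm_mkZ_sub, norm_mkZ_sub, norm_mkZ_sub]
  have e0 : cP 0 = 1 := rfl
  have e1 : cP 1 = -1 := rfl
  have e2 : cP 2 = 1 := rfl
  have e3 : cP 3 = -1 := rfl
  rw [e0, e1, e2, e3]
  ring

variable {n N k : ℕ} {κ : ℝ} {S : Set (Euc N)} {G : Geo n N κ S} {z : Euc N × Euc N}

/-- index form of a `2π`-periodic field over the doubled interval -/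
lemma ix_half {q : Euc N × Euc N} (hq : q ∈ TS G) (h1 : fl G (q, 2 * Real.pi) = q)
    {A : ℝ → Euc N} (hA : ContDiff ℝ ∞ A)
    (hAm : ∀ t, A t ∈ G.T (fl G (q, t)).1) {σ : ℝ} (hσ : σ = 1 ∨ σ = -1)
    (hAp : ∀ t, A (t + 2 * Real.pi) = σ • A t) :
    ix G q 0 (4 * Real.pi) A (deriv A) A (deriv A) =
      2 * ix G q 0 (2 * Real.pi) A (deriv A) A (deriv A) := by
  have h0 : ∀ t : ℝ, (0 : Euc N) ∈ G.T (fl G (q, t)).1 := fun t => (G.T _).zero_mem
  have z0 : ix G q 0 (2 * Real.pi) (fun _ => (0 : Euc N)) (deriv fun _ => (0 : Euc N))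
      (fun _ => (0 : Euc N)) (deriv fun _ => (0 : Euc N)) = 0 := by
    have := SV.ix_smul_left (G := G) (q := q) (a := 0) (b := 2 * Real.pi)
      (A := fun _ => (0 : Euc N)) (A' := fun _ => (0 : Euc N)) (C := fun _ => (0 : Euc N))
      (C' := fun _ => (0 : Euc N)) (0 : ℝ)
    rw [zero_mul] at this
    have e : (deriv fun _ : ℝ => (0 : Euc N)) = fun _ => (0 : Euc N) := by
      funext t; simp
    rw [e]
    have e2 : ((0:ℝ) • fun _ : ℝ => (0 : Euc N)) = fun _ => (0 : Euc N) := by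
      funext t; simp
    rw [e2] at this
    exact this
  rcases hσ with rfl | rfl
  · have h2 := ix_double hq h1 (A := A) (B := fun _ => 0) hA contDiff_const hAm h0 hAp
      (fun t => by simp)
    simp only [zero_add] at h2
    rw [z0, mul_zero, zero_add] at h2
    exact h2
  · have h2 := ix_double hq h1 (A := fun _ => 0) (B := A) contDiff_const hA h0 hAm
      (fun t => by simp) hAp
    simp only [add_zero] at h2
    rw [z0, mul_zero, add_zero] at h2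
    exact h2

end Crest.Agent.R208.AK
end
end

-- ▼ part R208/AK8b
section

/-!
R208, block AK (helper952), part 8b: the isomorphism `V_0 ≅ N` given by the chains `(u,-u,u,-u)` and
the straight line to the fields `nf w`.
-/

set_option autoImplicit false
set_option linter.unusedSectionVars false

open Set Filter Topology MeasureTheory Module
open scoped ContDiff RealInnerProductSpace Interval
open Crest.GeometryTopology.Submanifold
open Crest.Agent.R241.DDefs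
open Crest.Agent.R241.D2
open Crest.Agent.R241.D3c
open Crest.Agent.R208.SV (ixd ix Fld jf jf')
open Crest.Agent.R208.NN (V0 qq Wt nuP fd fd')
open Crest.Agent.R208.KG (idx Km cc sta pc rnd uu gT OK)
open Crest.Agent.R208.NB (NegB npr V0s)

noncomputable section

namespace Crest.Agent.R208.AK

variable {n N k Kn : ℕ} {κ : ℝ} {S : Set (Euc N)} {G : Geo n N κ S} {z : Euc N × Euc N}
  {δ ε : ℝ} {PN : Euc N × Euc N → Wt N Kn →L[ℝ] Wt N Kn}

lemma V0s_mem (h : GT.Bla G k) (hz : z ∈ L.US G) (u : Euc N) : V0s h z u ∈ V0 G z :=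
  (NB.V0s_eq_self h hz _).1 (NB.V0s_idem h hz u)

lemma mkZ_mem {m : ℕ} (c : Fin m → ℝ) {u : Euc N} (hu : u ∈ V0 G z) (i : Fin m) :
    mkZ c u i ∈ V0 G z := by rw [mkZ_apply]; exact V0_smul hu _

/-- the periodic chain field -/
def QP (h : GT.Bla G k) (ε : ℝ) (z : Euc N × Euc N) (u : Euc N) (t : ℝ) : Euc N :=
  AZ G ε z (mkZ cP (V0s h z u)) t

section

variable (hO : OK G 4 ε) (h : GT.Bla G k)

include hO in
lemma QP_per (hz : z ∈ L.US G) (u : Euc N) (t : ℝ) :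
    QP h ε z u (t + 2 * Real.pi) = QP h ε z u t := by
  unfold QP
  rw [AZ_shift hO h hz (mkZ_mem cP (V0s_mem h hz u)), shf_per]

include hO in
lemma QP_cd (hz : z ∈ L.US G) (u : Euc N) : ContDiff ℝ ∞ (QP h ε z u) :=
  contDiff_AZ_t hO h hz _

include hO in
lemma QP_tan (hz : z ∈ L.US G) (u : Euc N) (t : ℝ) : QP h ε z u t ∈ G.T (fl G (z, t)).1 :=
  AZ_mem hO h hz (mkZ_mem cP (V0s_mem h hz u)) t

include hO in
lemma QP_fld (hz : z ∈ L.US G) (u : Euc N) (a b : ℝ) :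
    Fld G z a b (QP h ε z u) (deriv (QP h ε z u)) :=
  fld_of_contDiff (QP_cd hO h hz u) (QP_tan hO h hz u)

lemma QP_add (u u' : Euc N) : QP h ε z (u + u') = QP h ε z u + QP h ε z u' := by
  funext t
  simp only [QP, Pi.add_apply]
  rw [map_add, map_add, AZ_add]

lemma QP_smul (c : ℝ) (u : Euc N) : QP h ε z (c • u) = c • QP h ε z u := by
  funext t
  simp only [QP, Pi.smul_apply]
  rw [map_smul, map_smul, AZ_smul]

include hO in
theorem contDiffAt_QP (hz : z ∈ L.US G) (u : Euc N) (t : ℝ) :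
    ContDiffAt ℝ ∞ (fun p : (Euc N × Euc N) × ℝ => QP h ε p.1 u p.2) (z, t) := by
  have h1 : ContDiffAt ℝ ∞ (fun p : (Euc N × Euc N) × ℝ => V0s h p.1) (z, t) :=
    ContDiffAt.comp (g := V0s h) (f := fun p : (Euc N × Euc N) × ℝ => p.1) (z, t)
      (NB.contDiffAt_V0s h hz.1) (by fun_prop)
  have h2 : ContDiffAt ℝ ∞ (fun p : (Euc N × Euc N) × ℝ =>
      (mkZ cP : Euc N →L[ℝ] (Fin 4 → Euc N)) (V0s h p.1 u)) (z, t) :=
    (mkZ cP : Euc N →L[ℝ] (Fin 4 → Euc N)).contDiff.contDiffAt.comp (z, t)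
      (h1.clm_apply contDiffAt_const)
  have h3 : ContDiffAt ℝ ∞ (fun p : (Euc N × Euc N) × ℝ =>
      ((p.1, (mkZ cP : Euc N →L[ℝ] (Fin 4 → Euc N)) (V0s h p.1 u)), p.2)) (z, t) :=
    (contDiffAt_fst.prodMk h2).prodMk contDiffAt_snd
  exact ContDiffAt.comp (g := fun p : ((Euc N × Euc N) × (Fin 4 → Euc N)) × ℝ =>
      AZ G ε p.1.1 p.1.2 p.2)
    (f := fun p : (Euc N × Euc N) × ℝ =>
      ((p.1, (mkZ cP : Euc N →L[ℝ] (Fin 4 → Euc N)) (V0s h p.1 u)), p.2)) (z, t)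
    (contDiffAt_AZ hO h hz _ t) h3

/-- energy bound hypothesis of helper10 -/
def HC (G : Geo n N κ S) (ε c : ℝ) : Prop :=
  ∀ κ' ∈ Km G 4, MS.En (KG.F G 4 ε κ' 0) ≤ ((4 : ℕ) : ℝ) ^ 2 * Real.pi / 4 - c * KG.jsq κ'

include hO in
/-- negativity of the periodic chain field -/
theorem ix_QP_le {c : ℝ} (hc : HC G ε c) (hz : z ∈ L.US G) {u : Euc N} (hu : u ∈ V0 G z) :
    ix G z 0 (2 * Real.pi) (QP h ε z u) (deriv (QP h ε z u)) (QP h ε z u)
      (deriv (QP h ε z u)) ≤ -(8 * c) * ‖u‖ ^ 2 := by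
  have h1 := ix_AZ_le hO h hc hz (mkZ_mem cP hu)
  have hu' : V0s h z u = u := (NB.V0s_eq_self h hz u).2 hu
  have e1 : AZ G ε z (mkZ cP u) = QP h ε z u := by
    funext t; rw [QP, hu']
  rw [e1, dsq_per] at h1
  have e2 : ((4 : ℕ) : ℝ) * Real.pi = 4 * Real.pi := by push_cast; ring
  rw [e2, ix_half hz.1 (NN.fl_two_pi h hz) (QP_cd hO h hz u) (QP_tan hO h hz u) (Or.inl rfl)
    (fun t => by rw [one_smul]; exact QP_per hO h hz u t)] at h1
  push_cast at h1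
  linarith

end

/-! ### the isomorphism -/

section iso

variable (hO : OK G 4 ε) (h : GT.Bla G k) (H : NegB G (k - 1) (nuP Kn) δ PN)

/-- `u ↦ npr (Q_u)` as a linear map, at the points of `US` -/
def psi (h : GT.Bla G k) (ε δ : ℝ) (PN : Euc N × Euc N → Wt N Kn →L[ℝ] Wt N Kn)
    (z : Euc N × Euc N) : Euc N →L[ℝ] Wt N Kn :=
  ofB fun j => npr G (nuP Kn) δ PN z (QP h ε z (EuclideanSpace.basisFun (Fin N) ℝ j))

include hO H in
theorem psi_apply (hz : z ∈ L.US G) (u : Euc N) :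
    psi h ε δ PN z u = npr G (nuP Kn) δ PN z (QP h ε z u) := by
  have hcO : ∀ u, ContinuousOn (QP h ε z u) (Icc 0 (2 * Real.pi)) := fun u =>
    (QP_cd hO h hz u).continuous.continuousOn
  let ℓ : Euc N →ₗ[ℝ] Wt N Kn :=
    { toFun := fun u => npr G (nuP Kn) δ PN z (QP h ε z u)
      map_add' := fun u u' => by rw [QP_add, H.npr_add hz.1 (hcO _) (hcO _)]
      map_smul' := fun c u => by rw [QP_smul, H.npr_smul hz.1 c (hcO _)]; rfl }
  exact ofB_apply ℓ u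

include hO H in
theorem contDiffAt_psi (hz : z ∈ L.US G) : ContDiffAt ℝ ∞ (psi h ε δ PN) z := by
  refine contDiffAt_ofB fun j => ?_
  exact H.contDiffAt_npr (E := Euc N × Euc N) (zz := fun z => z)
    (F := fun p : (Euc N × Euc N) × ℝ => QP h ε p.1 (EuclideanSpace.basisFun (Fin N) ℝ j) p.2)
    contDiffAt_id hz (fun t _ => contDiffAt_QP hO h hz _ t)

include hO H in
theorem psi_mem (hz : z ∈ L.US G) (u : Euc N) : PN z (psi h ε δ PN z u) = psi h ε δ PN z u := by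
  rw [psi_apply hO h H hz]
  exact H.npr_mem hz _

include hO H in
theorem psi_inj {c : ℝ} (hc0 : 0 < c) (hc : HC G ε c) (hz : z ∈ L.US G) {u : Euc N}
    (hu : V0s h z u = u) (h0 : psi h ε δ PN z u = 0) : u = 0 := by
  have huV : u ∈ V0 G z := (NB.V0s_eq_self h hz u).1 hu
  rw [psi_apply hO h H hz] at h0
  obtain ⟨-, -, -, h1, h2⟩ := H.decomp h hz (QP_fld hO h hz u 0 (2 * Real.pi))
    (by have := QP_per hO h hz u 0; rwa [zero_add] at this) h0
  have h3 := ix_QP_le hO h hc hz huV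
  have h4 : ix G z 0 (2 * Real.pi) (fd G z (nuP Kn) 0) (fd' G z (nuP Kn) 0)
      (fd G z (nuP Kn) 0) (fd' G z (nuP Kn) 0) = 0 := by
    have := H.ix_npr h hz NB.sig_per (W := fd G z (nuP Kn) 0) (W' := fd' G z (nuP Kn) 0)
      (NN.fld_fd hz.1 (nuP Kn) 0 0 (2 * Real.pi)) (by rw [one_smul]; exact NN.fd_two_pi h hz 0)
      (m := 0) (map_zero _)
    have e1 : fd G z (nuP Kn) (0 : Wt N Kn) = (0:ℝ) • fd G z (nuP Kn) (0 : Wt N Kn) := by
      funext t; simp [NN.fd]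
    have e2 : fd' G z (nuP Kn) (0 : Wt N Kn) = (0:ℝ) • fd' G z (nuP Kn) (0 : Wt N Kn) := by
      funext t; simp [NN.fd']
    rw [e1, e2, SV.ix_smul_left, zero_mul]
  rw [h4, add_zero] at h2
  rw [h2] at h3
  by_contra hne
  have h5 : 0 < ‖u‖ := norm_pos_iff.2 hne
  have h6 : 0 < 8 * c * ‖u‖ ^ 2 := by positivity
  linarith

include hO H in
theorem psi_surj {c : ℝ} (hc0 : 0 < c) (hc : HC G ε c) (hz : z ∈ L.US G) {w : Wt N Kn}
    (hw : PN z w = w) : ∃ u, V0s h z u = u ∧ psi h ε δ PN z u = w := by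
  set R := LinearMap.range (PN z : Wt N Kn →ₗ[ℝ] Wt N Kn) with hR
  let f : V0 G z →ₗ[ℝ] R := LinearMap.codRestrict R
    ((psi h ε δ PN z : Euc N →ₗ[ℝ] Wt N Kn).comp (V0 G z).subtype)
    (fun u => H.mem_range.2 (psi_mem hO h H hz _))
  have hinj : Function.Injective f := by
    rw [injective_iff_map_eq_zero]
    rintro ⟨u, hu⟩ h0
    have h1 : psi h ε δ PN z u = 0 := congrArg Subtype.val h0
    exact Subtype.ext (psi_inj hO h H hc0 hc hz ((NB.V0s_eq_self h hz u).2 hu) h1)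
  have hfr : finrank ℝ (V0 G z) = finrank ℝ R := by
    have h1 := H.rank z hz
    have h2 := NN.finrank_V0 h hz
    rw [hR, h1]; omega
  obtain ⟨u, hu⟩ := (LinearMap.injective_iff_surjective_of_finrank_eq_finrank hfr).1 hinj
    ⟨w, H.mem_range.2 hw⟩
  exact ⟨u, (NB.V0s_eq_self h hz _).2 u.2, congrArg Subtype.val hu⟩

/-- the inverse `N_z → V_0` -/
def uN (h : GT.Bla G k) (ε δ : ℝ) (PN : Euc N × Euc N → Wt N Kn →L[ℝ] Wt N Kn)
    (z : Euc N × Euc N) : Wt N Kn →L[ℝ] Euc N :=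
  sinv (psi h ε δ PN z) (V0s h z)

include hO H in
theorem uN_spec {c : ℝ} (hc0 : 0 < c) (hc : HC G ε c) (hz : z ∈ L.US G) {w : Wt N Kn}
    (hw : PN z w = w) :
    uN h ε δ PN z w ∈ V0 G z ∧ npr G (nuP Kn) δ PN z (QP h ε z (uN h ε δ PN z w)) = w := by
  obtain ⟨u, hu, huw⟩ := psi_surj hO h H hc0 hc hz hw
  have h1 : uN h ε δ PN z w = u := by
    rw [← huw]
    exact sinv_apply (fun u hu h0 => psi_inj hO h H hc0 hc hz hu h0) hu
  rw [h1]
  exact ⟨(NB.V0s_eq_self h hz u).1 hu, by rw [← psi_apply hO h H hz]; exact huw⟩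

include hO H in
theorem contDiffAt_uN {c : ℝ} (hc0 : 0 < c) (hc : HC G ε c) (hz : z ∈ L.US G) :
    ContDiffAt ℝ ∞ (uN h ε δ PN) z :=
  contDiffAt_sinv (contDiffAt_psi hO h H hz) (NB.contDiffAt_V0s h hz.1)
    (fun u hu h0 => psi_inj hO h H hc0 hc hz hu h0)

/-- the chain map of the periodic part -/
def LP (h : GT.Bla G k) (ε δ : ℝ) (PN : Euc N × Euc N → Wt N Kn →L[ℝ] Wt N Kn)
    (z : Euc N × Euc N) : Wt N Kn →L[ℝ] (Fin 4 → Euc N) :=
  (mkZ cP).comp (uN h ε δ PN z)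

include hO H in
theorem linC_LP {c : ℝ} (hc0 : 0 < c) (hc : HC G ε c) :
    LinC G (L.US G) PN (fun z => z) (LP h ε δ PN) where
  gs _ _ := contDiffAt_id
  gm _ hx := hx
  smooth _ hx := contDiffAt_const.clm_comp (contDiffAt_uN hO h H hc0 hc hx)
  mem _ hx _ hζ i := mkZ_mem cP (uN_spec hO h H hc0 hc hx hζ).1 i

include hO H in
lemma fla_LP {c : ℝ} (hc0 : 0 < c) (hc : HC G ε c) (hz : z ∈ L.US G) {w : Wt N Kn}
    (hw : PN z w = w) (t : ℝ) :
    fla G ε (fun z => z) (LP h ε δ PN) ((z, w), t) = QP h ε z (uN h ε δ PN z w) t := by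
  have h1 := (NB.V0s_eq_self h hz _).2 (uN_spec hO h H hc0 hc hz hw).1
  change AZ G ε z (mkZ cP (uN h ε δ PN z w)) t = AZ G ε z (mkZ cP (V0s h z (uN h ε δ PN z w))) t
  rw [h1]

/-- the fields `nf w` as a family -/
def nfF (G : Geo n N κ S) (Kn : ℕ) (p : ((Euc N × Euc N) × Wt N Kn) × ℝ) : Euc N :=
  fd G p.1.1 (nuP Kn) p.1.2 p.2

include h in
theorem lmap_nf : LMap G (L.US G) PN (2 * Real.pi) 1 (fun z => z) (nfF G Kn) := by
  refine ⟨fun z hz w _ t => (NB.contDiffAt_fd hz.1 w t).1, fun z hz w _ s t => ?_,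
    fun z hz w _ t => NN.fd_mem hz.1 _ _ t, fun z hz w _ t => ?_⟩
  · simp [nfF, NN.fd]
  · rw [one_smul]
    change fd G z (nuP Kn) w (t + 2 * Real.pi) = fd G z (nuP Kn) w t
    unfold NN.fd
    rw [fl_add_two_pi hz.1 (NN.fl_two_pi h hz), NN.ev_two_pi]

include hO H in
/-- **the periodic part** -/
theorem exists_spath_N (hS : IsCompact S) {c : ℝ} (hc0 : 0 < c) (hc : HC G ε c) :
    ∃ δ' > 0, SPath G (L.US G) PN (2 * Real.pi) 1 (fun z => z)
      (lin (fla G ε (fun z => z) (LP h ε δ PN)) (nfF G Kn)) δ' := by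
  obtain ⟨C, hC0, hC⟩ := NB.exists_bound_US (G := G) hS (f := psi h ε δ PN)
    (fun z hz => (contDiffAt_psi hO h H hz).continuousAt.continuousWithinAt)
  have hpi := Real.pi_pos
  have hδ := H.pos_δ
  -- lower bound for `uN`
  have hlow : ∀ z ∈ L.US G, ∀ w, PN z w = w → ‖w‖ ≤ (C + 1) * ‖uN h ε δ PN z w‖ := by
    intro z hz w hw
    have h1 := (uN_spec hO h H hc0 hc hz hw).2
    rw [← psi_apply hO h H hz] at h1
    calc ‖w‖ = ‖psi h ε δ PN z (uN h ε δ PN z w)‖ := by rw [h1]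
      _ ≤ ‖psi h ε δ PN z‖ * ‖uN h ε δ PN z w‖ := ContinuousLinearMap.le_opNorm _ _
      _ ≤ (C + 1) * ‖uN h ε δ PN z w‖ := by
        gcongr; exact (hC z hz).trans (by linarith)
  have hC1 : 0 < C + 1 := by linarith
  set δ1 := min (8 * c / (C + 1) ^ 2) δ with hδ1
  have hδ1p : 0 < δ1 := lt_min (by positivity) hδ
  have hM : LMap G (L.US G) PN (2 * Real.pi) 1 (fun z => z)
      (fla G ε (fun z => z) (LP h ε δ PN)) :=
    (linC_LP hO h H hc0 hc).lmap hO h fun z hz w hw t => by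
      have h1 := fla_LP hO h H hc0 hc hz hw (t + 2 * Real.pi)
      have h2 := fla_LP hO h H hc0 hc hz hw t
      rw [QP_per hO h hz] at h1
      rw [one_smul]
      exact h1.trans h2.symm
  refine ⟨δ1 / 2, by positivity, SPath.line (fun z hz => hz.1) (by positivity) hM (lmap_nf h)
    hδ1p.le (fun z hz w hw => ?_) (fun z hz w hw => ?_) (fun z hz w hw => ?_)⟩
  · have e1 : (fun t => fla G ε (fun z => z) (LP h ε δ PN) ((z, w), t)) =
        QP h ε z (uN h ε δ PN z w) := funext fun t => fla_LP hO h H hc0 hc hz hw t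
    rw [e1]
    have h1 := ix_QP_le hO h hc hz (uN_spec hO h H hc0 hc hz hw).1
    have h2 := hlow z hz w hw
    have h3 : ‖w‖ ^ 2 ≤ (C + 1) ^ 2 * ‖uN h ε δ PN z w‖ ^ 2 := by
      rw [← mul_pow]
      exact pow_le_pow_left₀ (norm_nonneg _) h2 2
    have h4 : δ1 * ‖w‖ ^ 2 ≤ 8 * c * ‖uN h ε δ PN z w‖ ^ 2 := by
      calc δ1 * ‖w‖ ^ 2 ≤ 8 * c / (C + 1) ^ 2 * ((C + 1) ^ 2 * ‖uN h ε δ PN z w‖ ^ 2) := by
            gcongr; exact min_le_left _ _
        _ = 8 * c * ‖uN h ε δ PN z w‖ ^ 2 := by field_simp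
    change _ ≤ _
    linarith
  · have h1 := H.ix_neg hz hw
    have e1 : (deriv fun t => nfF G Kn ((z, w), t)) = fd' G z (nuP Kn) w :=
      funext fun t => (NN.hasDerivAt_fd hz.1 (nuP Kn) w t).deriv
    rw [e1]
    change ix G z 0 (2 * Real.pi) (fd G z (nuP Kn) w) (fd' G z (nuP Kn) w)
      (fd G z (nuP Kn) w) (fd' G z (nuP Kn) w) ≤ -δ1 * ‖w‖ ^ 2
    have h2 : δ1 * ‖w‖ ^ 2 ≤ δ * ‖w‖ ^ 2 := by gcongr; exact min_le_right _ _
    linarith
  · have e1 : (deriv fun t => nfF G Kn ((z, w), t)) = fd' G z (nuP Kn) w :=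
      funext fun t => (NN.hasDerivAt_fd hz.1 (nuP Kn) w t).deriv
    have e2 : (fun t => fla G ε (fun z => z) (LP h ε δ PN) ((z, w), t)) =
        QP h ε z (uN h ε δ PN z w) := funext fun t => fla_LP hO h H hc0 hc hz hw t
    rw [e1, e2]
    change ix G z 0 (2 * Real.pi) (fd G z (nuP Kn) w) (fd' G z (nuP Kn) w)
      (QP h ε z (uN h ε δ PN z w)) (deriv (QP h ε z (uN h ε δ PN z w))) ≤ 0
    have hQ := QP_fld hO h hz (uN h ε δ PN z w) 0 (2 * Real.pi)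
    rw [SV.ix_symm (by positivity) hz.1 (NN.fld_fd hz.1 _ _ _ _) hQ,
      H.ix_npr h hz NB.sig_per hQ (by
        rw [one_smul]
        have := QP_per hO h hz (uN h ε δ PN z w) 0
        rwa [zero_add] at this) hw, (uN_spec hO h H hc0 hc hz hw).2]
    have h1 := H.ix_neg hz hw
    have h2 : 0 ≤ δ * ‖w‖ ^ 2 := by positivity
    linarith

end iso

end Crest.Agent.R208.AK
end
end

-- ▼ part R208/AK9
section

/-!
R208, block AK (helper952), part 9: the antiperiodic part.  The fields of the chains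
`(a,-b,-a,b)`, `a = uu w₁`, `b = uu w₂`.
-/

set_option autoImplicit false
set_option linter.unusedSectionVars false

open Set Filter Topology MeasureTheory Module
open scoped ContDiff RealInnerProductSpace Interval
open Crest.GeometryTopology.Submanifold
open Crest.Agent.R241.DDefs
open Crest.Agent.R241.D2
open Crest.Agent.R241.D3c
open Crest.Agent.R208.SV (ixd ix Fld jf jf')
open Crest.Agent.R208.NN (V0 qq Wt nuP fd fd')
open Crest.Agent.R208.KG (idx Km cc sta pc rnd gT OK)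
open Crest.Agent.R208.NB (npr V0s)
open Crest.Agent.R208.L (dfl)

noncomputable section

namespace Crest.Agent.R208.AK

/-! ### general pull back along a linear map of the fibre -/

section comp

variable {n N : ℕ} {κ : ℝ} {S : Set (Euc N)} {G : Geo n N κ S}
  {E V V' : Type*} [NormedAddCommGroup E] [NormedSpace ℝ E]
  [NormedAddCommGroup V] [NormedSpace ℝ V] [NormedAddCommGroup V'] [NormedSpace ℝ V']
  {K : Set E} {P : E → V →L[ℝ] V} {P' : E → V' →L[ℝ] V'} {T σ δ : ℝ}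
  {g : E → Euc N × Euc N} {j : V' →L[ℝ] V}

/-- pull back of a path of fields -/
def pbj (j : V' →L[ℝ] V) (A : ((E × ℝ) × V) × ℝ → Euc N) (p : ((E × ℝ) × V') × ℝ) : Euc N :=
  A ((p.1.1, j p.1.2), p.2)

theorem SPath.comp {A : ((E × ℝ) × V) × ℝ → Euc N} (h : SPath G K P T σ g A δ) (hδ : 0 ≤ δ)
    (hj : ∀ x ∈ K, ∀ ζ : V', P' x ζ = ζ → P x (j ζ) = j ζ) {c : ℝ}
    (hc : ∀ x ∈ K, ∀ ζ : V', P' x ζ = ζ → c * ‖ζ‖ ^ 2 ≤ ‖j ζ‖ ^ 2) :
    SPath G K P' T σ g (pbj j A) (δ * c) where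
  smooth x hx τ hτ ζ hζ t := by
    have h1 : ContDiffAt ℝ ∞ (fun p : ((E × ℝ) × V') × ℝ => ((p.1.1, j p.1.2), p.2))
        (((x, τ), ζ), t) := by
      have h2 : ContDiffAt ℝ ∞ (fun p : ((E × ℝ) × V') × ℝ => j p.1.2) (((x, τ), ζ), t) :=
        j.contDiff.contDiffAt.comp _ (by fun_prop)
      exact ((by fun_prop : ContDiffAt ℝ ∞ (fun p : ((E × ℝ) × V') × ℝ => p.1.1)
        (((x, τ), ζ), t)).prodMk h2).prodMk (by fun_prop)
    exact ContDiffAt.comp (g := A)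
      (f := fun p : ((E × ℝ) × V') × ℝ => ((p.1.1, j p.1.2), p.2)) (((x, τ), ζ), t)
      (h.smooth x hx τ hτ _ (hj x hx ζ hζ) t) h1
  hom x hx τ hτ ζ hζ s t := by
    simp only [pbj, map_smul]
    exact h.hom x hx τ hτ _ (hj x hx ζ hζ) s t
  tan x hx τ hτ ζ hζ t := h.tan x hx τ hτ _ (hj x hx ζ hζ) t
  per x hx τ hτ ζ hζ t := h.per x hx τ hτ _ (hj x hx ζ hζ) t
  neg x hx τ hτ ζ hζ := by
    refine (h.neg x hx τ hτ _ (hj x hx ζ hζ)).trans ?_
    have := mul_le_mul_of_nonneg_left (hc x hx ζ hζ) hδ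
    linarith

end comp

variable {n N k Kn : ℕ} {κ : ℝ} {S : Set (Euc N)} {G : Geo n N κ S} {z : Euc N × Euc N}
  {δ ε : ℝ} {PN : Euc N × Euc N → Wt N Kn →L[ℝ] Wt N Kn}

/-- helper844's structure from helper537's -/
theorem kr_of_nb (h : GT.Bla G k) (hk : 1 ≤ k) (H : NB.NegB G (k - 1) (nuP Kn) δ PN) :
    KR.NegB h Kn PN where
  smooth := H.smooth
  idem z _ w := H.idem z w
  symm z _ w w' := H.sy z w w'
  equi := H.equi
  rank z hz := by rw [H.rank z hz]; omega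
  neg z hz w hw hw0 := by
    have h1 := H.neg z hz w hw
    have h2 := H.pos_δ
    have h3 : 0 < ‖w‖ := norm_pos_iff.2 hw0
    have h4 : 0 < δ * ‖w‖ ^ 2 := by positivity
    linarith

/-! ### the chain map -/

/-- coefficients of `a` -/
def cA : Fin 4 → ℝ := ![1, 0, -1, 0]

/-- coefficients of `b` -/
def cB : Fin 4 → ℝ := ![0, -1, 0, 1]

/-- the chain `(a, -b, -a, b)` -/
def zan {N : ℕ} (a b : Euc N) : Fin 4 → Euc N := mkZ cA a + mkZ cB b

lemma zan_eq {N : ℕ} (a b : Euc N) : zan a b = ![a, -b, -a, b] := by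
  funext i
  unfold zan
  rw [Pi.add_apply, mkZ_apply, mkZ_apply]
  fin_cases i <;> simp [cA, cB]

lemma zan_mem {a b : Euc N} (ha : a ∈ V0 G z) (hb : b ∈ V0 G z) (i : Fin 4) :
    zan a b i ∈ V0 G z := (V0 G z).add_mem (mkZ_mem cA ha i) (mkZ_mem cB hb i)

lemma shf_zan {N : ℕ} (a b : Euc N) : shf (zan a b) = -zan a b := by
  rw [shf_four, zan_eq]
  funext i
  fin_cases i <;> simp

lemma dsq_zan {N : ℕ} (a b : Euc N) : dsq (zan a b) = 4 * (‖a‖ ^ 2 + ‖b‖ ^ 2) := by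
  rw [dsq_four]
  have e0 : zan a b 0 = a := by rw [zan_eq]; rfl
  have e1 : zan a b 1 = -b := by rw [zan_eq]; rfl
  have e2 : zan a b 2 = -a := by rw [zan_eq]; rfl
  have e3 : zan a b 3 = b := by rw [zan_eq]; rfl
  rw [e0, e1, e2, e3]
  have k1 : ‖-b - a‖ = ‖a + b‖ := by rw [← norm_neg]; congr 1; abel
  have k2 : ‖-a - -b‖ = ‖a - b‖ := by rw [← norm_neg]; congr 1; abel
  have k3 : ‖b - -a‖ = ‖a + b‖ := by congr 1; abel
  rw [k1, k2, k3]
  have := parallelogram_law_with_norm ℝ a b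
  nlinarith [this]

section

variable (hO : OK G 4 ε) (h : GT.Bla G k) (hP : KR.NegB h Kn PN)

/-- the chain map `(w₁, w₂) ↦ (uu w₁, - uu w₂, - uu w₁, uu w₂)` -/
def LA (h : GT.Bla G k) (PN : Euc N × Euc N → Wt N Kn →L[ℝ] Wt N Kn) (z : Euc N × Euc N) :
    (Wt N Kn × Wt N Kn) →L[ℝ] (Fin 4 → Euc N) :=
  (mkZ cA).comp ((KR.uu h PN z).comp (ContinuousLinearMap.fst ℝ (Wt N Kn) (Wt N Kn))) +
    (mkZ cB).comp ((KR.uu h PN z).comp (ContinuousLinearMap.snd ℝ (Wt N Kn) (Wt N Kn)))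

lemma LA_apply (ζ : Wt N Kn × Wt N Kn) :
    LA h PN z ζ = zan (KR.uu h PN z ζ.1) (KR.uu h PN z ζ.2) := rfl

include hP in
theorem linC_LA : LinC G (L.US G) (PP PN PN) (fun z => z) (LA h PN) where
  gs _ _ := contDiffAt_id
  gm _ hx := hx
  smooth x hx := by
    have h1 := hP.contDiffAt_uu hx
    exact (contDiffAt_const.clm_comp (h1.clm_comp contDiffAt_const)).add
      (contDiffAt_const.clm_comp (h1.clm_comp contDiffAt_const))
  mem x hx ζ _ i := by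
    rw [LA_apply]
    exact zan_mem (hP.uu_mem hx _) (hP.uu_mem hx _) i

/-- the antiperiodic chain field -/
def QA (h : GT.Bla G k) (ε : ℝ) (PN : Euc N × Euc N → Wt N Kn →L[ℝ] Wt N Kn)
    (p : ((Euc N × Euc N) × (Wt N Kn × Wt N Kn)) × ℝ) : Euc N :=
  fla G ε (fun z => z) (LA h PN) p

include hO hP in
theorem lmap_QA : LMap G (L.US G) (PP PN PN) (2 * Real.pi) (-1) (fun z => z) (QA h ε PN) :=
  (linC_LA h hP).lmap hO h fun z hz ζ _ t => by
    rw [LA_apply, AZ_shift hO h hz (zan_mem (hP.uu_mem hz _) (hP.uu_mem hz _)), shf_zan, AZ_neg,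
      neg_one_smul]

include hO hP in
/-- negativity of the antiperiodic chain field -/
theorem ix_QA_le {c : ℝ} (hc : HC G ε c) (hz : z ∈ L.US G) {ζ : Wt N Kn × Wt N Kn}
    (hζ : PP PN PN z ζ = ζ) :
    ix G z 0 (2 * Real.pi) (fun t => QA h ε PN ((z, ζ), t)) (deriv fun t => QA h ε PN ((z, ζ), t))
      (fun t => QA h ε PN ((z, ζ), t)) (deriv fun t => QA h ε PN ((z, ζ), t)) ≤
      -(2 * c) * (‖KR.uu h PN z ζ.1‖ ^ 2 + ‖KR.uu h PN z ζ.2‖ ^ 2) := by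
  have h1 := ix_AZ_le hO h hc hz (zan_mem (hP.uu_mem hz ζ.1) (hP.uu_mem hz ζ.2))
  have hM := lmap_QA hO h hP
  have e1 : AZ G ε z (zan (KR.uu h PN z ζ.1) (KR.uu h PN z ζ.2)) =
      fun t => QA h ε PN ((z, ζ), t) := rfl
  rw [e1, dsq_zan] at h1
  have e2 : ((4 : ℕ) : ℝ) * Real.pi = 4 * Real.pi := by push_cast; ring
  rw [e2, ix_half hz.1 (NN.fl_two_pi h hz) (hM.cd hz hζ) (hM.tan z hz ζ hζ) (Or.inr rfl)
    (hM.per z hz ζ hζ)] at h1
  push_cast at h1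
  linarith

/-! ### values at the corners -/








end

/-! ### lower bound for `uu` -/

theorem exists_le_uu (hS : IsCompact S) (h : GT.Bla G k) (hk : 1 ≤ k)
    (H : NB.NegB G (k - 1) (nuP Kn) δ PN) :
    ∃ c > 0, ∀ z ∈ L.US G, ∀ w, PN z w = w → c * ‖w‖ ≤ ‖KR.uu h PN z w‖ := by
  have hP := kr_of_nb h hk H
  obtain ⟨C, hC0, hC⟩ := NB.exists_bound_US (G := G) hS (f := KR.l1 h Kn)
    (fun z hz => (KR.contDiffAt_l1 h hz).continuousAt.continuousWithinAt)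
  have hδ := H.pos_δ
  refine ⟨δ / (2 * (C + 1)), by positivity, fun z hz w hw => ?_⟩
  have h1 := hP.inner_uu hz (w := w) hw
  have h2 : KR.bb G z w w ≤ -(δ * ‖w‖ ^ 2) := H.ix_neg hz hw
  have h3 : ⟪KR.uu h PN z w, KR.l1 h Kn z w⟫ ≤ ‖KR.uu h PN z w‖ * ((C + 1) * ‖w‖) := by
    refine (real_inner_le_norm _ _).trans ?_
    refine mul_le_mul_of_nonneg_left ?_ (norm_nonneg _)
    refine (ContinuousLinearMap.le_opNorm _ _).trans ?_
    gcongr
    exact (hC z hz).trans (by linarith)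
  have h4 : δ / 2 * ‖w‖ ^ 2 ≤ ‖KR.uu h PN z w‖ * ((C + 1) * ‖w‖) := by linarith
  rcases eq_or_lt_of_le (norm_nonneg w) with h5 | h5
  · rw [← h5, mul_zero]; exact norm_nonneg _
  · have h6 : δ / 2 * ‖w‖ ≤ ‖KR.uu h PN z w‖ * (C + 1) := by
      have : (δ / 2 * ‖w‖) * ‖w‖ ≤ (‖KR.uu h PN z w‖ * (C + 1)) * ‖w‖ := by
        calc (δ / 2 * ‖w‖) * ‖w‖ = δ / 2 * ‖w‖ ^ 2 := by ring
          _ ≤ _ := h4
          _ = _ := by ring
      exact le_of_mul_le_mul_right this h5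
    have h7 : 0 < 2 * (C + 1) := by positivity
    rw [div_mul_eq_mul_div, div_le_iff₀ h7]
    linarith

end Crest.Agent.R208.AK
end
end

-- ▼ part R208/AK10
section

/-!
R208, block AK (helper952), part 10: retraction families, scaling of fields, the path from the
broken chains to the sum of the antiperiodic and the periodic part, and the junction.
-/

set_option autoImplicit false
set_option linter.unusedSectionVars false

open Set Filter Topology MeasureTheory Module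
open scoped ContDiff RealInnerProductSpace Interval
open Crest.GeometryTopology.Submanifold
open Crest.Agent.R241.DDefs
open Crest.Agent.R241.D2
open Crest.Agent.R241.D3c
open Crest.Agent.R208.SV (ixd ix Fld jf jf')
open Crest.Agent.R208.NN (V0 qq Wt nuP fd fd')
open Crest.Agent.R208.KG (idx Km cc sta pc rnd gT OK)
open Crest.Agent.R208.NB (npr V0s)

noncomputable section

namespace Crest.Agent.R208.AK

section gen

variable {n N k : ℕ} {κ : ℝ} {S : Set (Euc N)} {G : Geo n N κ S}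
  {E V : Type*} [NormedAddCommGroup E] [NormedSpace ℝ E]
  [NormedAddCommGroup V] [NormedSpace ℝ V]
  {K : Set E} {P : E → V →L[ℝ] V} {T σ δ : ℝ} {g : E → Euc N × Euc N}

/-! ### retraction families -/

/-- the family `R(γ + B)` -/
def retF (G : Geo n N κ S) (R : Euc N → Euc N) (g : E → Euc N × Euc N)
    (B : (E × V) × ℝ → Euc N) (p : (E × V) × ℝ) : Euc N :=
  R ((fl G (g p.1.1, p.2)).1 + B p)

lemma LMap.zero {B : (E × V) × ℝ → Euc N} (h : LMap G K P T σ g B) {x : E} (hx : x ∈ K) (t : ℝ) :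
    B ((x, 0), t) = 0 := by
  have h1 := h.hom x hx 0 (map_zero _) 0 t
  rwa [smul_zero, zero_smul] at h1

theorem exists_lfam_ret {R : Euc N → Euc N} {O : Set (Euc N)} (hO : IsOpen O) (hSO : S ⊆ O)
    (hR : ContDiffOn ℝ ∞ R O) (hRS : MapsTo R O S) (hRid : ∀ x ∈ S, R x = x)
    (hK : IsCompact K) (hT : 0 < T) (hg : ∀ x ∈ K, g x ∈ TS G)
    (hgs : ∀ x ∈ K, ContDiffAt ℝ ∞ g x) (hgT : ∀ x ∈ K, fl G (g x, T) = g x)
    {B : (E × V) × ℝ → Euc N} (hB : LMap G K P T 1 g B) :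
    ∃ r > 0, LFam G K P T g (retF G R g B) r ∧
      ∀ x ∈ K, ∀ ζ : V, P x ζ = ζ → ∀ t, lA (retF G R g B) x ζ t = B ((x, ζ), t) := by
  set Y : (E × V) × ℝ → Euc N := fun p => (fl G (g p.1.1, p.2)).1 + B p with hY
  have hYs : ∀ x ∈ K, ∀ ζ : V, P x ζ = ζ → ∀ t, ContDiffAt ℝ ∞ Y ((x, ζ), t) := by
    intro x hx ζ hζ t
    have e1 : ContDiffAt ℝ ∞ (fun p : (E × V) × ℝ => p.1.1) ((x, ζ), t) := by fun_prop
    have e3 := ContDiffAt.comp (g := g) (f := fun p : (E × V) × ℝ => p.1.1) ((x, ζ), t)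
      (hgs x hx) e1
    have e4 : ContDiffAt ℝ ∞ (fun p : (E × V) × ℝ => (g p.1.1, p.2)) ((x, ζ), t) :=
      e3.prodMk contDiffAt_snd
    have e5 : ContDiffAt ℝ ∞ (fun p : (E × V) × ℝ => fl G (g p.1.1, p.2)) ((x, ζ), t) :=
      ContDiffAt.comp ((x, ζ), t) (g := fl G) (contDiffAt_fl' G (hg x hx) t) e4
    exact e5.fst.add (hB.smooth x hx ζ hζ t)
  have hY0 : ∀ x ∈ K, ∀ t, Y ((x, 0), t) = (fl G (g x, t)).1 := fun x hx t => by
    simp only [hY]
    rw [hB.zero hx, add_zero]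
  have hYper : ∀ x ∈ K, ∀ ζ : V, P x ζ = ζ → ∀ t, Y ((x, ζ), t + T) = Y ((x, ζ), t) := by
    intro x hx ζ hζ t
    simp only [hY]
    rw [hB.per x hx ζ hζ, one_smul, add_comm t T, fl_add' G (hg x hx), hgT x hx]
  obtain ⟨r1, hr1, hr1O⟩ : ∃ r1 > 0, ∀ x ∈ K, ∀ ζ : V, ‖ζ‖ < r1 →
      ∀ t ∈ Icc (0:ℝ) T, Y ((x, ζ), t) ∈ O := by
    set Q : Set ((E × V) × ℝ) :=
      (fun p : E × ℝ => ((p.1, (0 : V)), p.2)) '' (K ×ˢ Icc 0 T) with hQ
    have hQc : IsCompact Q := (hK.prod isCompact_Icc).image (by fun_prop)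
    have hUQ : Y ⁻¹' O ∈ 𝓝ˢ Q := by
      rw [mem_nhdsSet_iff_forall]
      rintro _ ⟨⟨x, t⟩, ⟨hx, ht⟩, rfl⟩
      have c1 := (hYs x hx 0 (map_zero (P x)) t).continuousAt
      refine c1.preimage_mem_nhds (hO.mem_nhds (hSO ?_))
      change Y ((x, 0), t) ∈ S
      rw [hY0 x hx t]
      exact (fl_mem G (hg x hx) t).1
    obtain ⟨O', hO', hQO', hO'U⟩ := mem_nhdsSet_iff_exists.1 hUQ
    obtain ⟨ε, hε, hεO⟩ := hQc.exists_thickening_subset_open hO' hQO'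
    refine ⟨ε, hε, fun x hx ζ hζ t ht => hO'U (hεO ?_)⟩
    rw [Metric.mem_thickening_iff]
    refine ⟨((x, 0), t), ⟨(x, t), ⟨hx, ht⟩, rfl⟩, ?_⟩
    rw [dist_eq_norm]
    have : (((x, ζ), t) : (E × V) × ℝ) - ((x, 0), t) = ((0, ζ), 0) := by
      ext <;> simp
    rw [this, norm_vec]
    exact hζ
  have hO2 : ∀ x ∈ K, ∀ ζ : V, P x ζ = ζ → ‖ζ‖ < r1 → ∀ t, Y ((x, ζ), t) ∈ O := by
    intro x hx ζ hζP hζ t
    have hper : Function.Periodic (fun t => Y ((x, ζ), t)) T := fun t => hYper x hx ζ hζP t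
    obtain ⟨y, hy, hty⟩ := hper.exists_mem_Ico₀ hT t
    rw [hty]
    exact hr1O x hx ζ hζ y ⟨hy.1, hy.2.le⟩
  have hLF : LFam G K P T g (retF G R g B) r1 := by
    refine ⟨hr1, fun x hx ζ hζP hζ t => ?_, fun x hx ζ hζP hζ t => hRS (hO2 x hx ζ hζP hζ t),
      fun x hx ζ hζP hζ t => ?_, fun x hx t => ?_⟩
    · exact ContDiffAt.comp ((x, ζ), t)
        (hR.contDiffAt (hO.mem_nhds (hO2 x hx ζ hζP hζ t))) (hYs x hx ζ hζP t)
    · change R (Y ((x, ζ), t + T)) = R (Y ((x, ζ), t))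
      rw [hYper x hx ζ hζP]
    · change R (Y ((x, 0), t)) = _
      rw [hY0 x hx t]
      exact hRid _ (fl_mem G (hg x hx) t).1
  refine ⟨r1, hr1, hLF, fun x hx ζ hζP t => ?_⟩
  have hxS : (fl G (g x, t)).1 ∈ S := (fl_mem G (hg x hx) t).1
  have k1 : HasDerivAt (fun s : ℝ => Y ((x, s • ζ), t)) (B ((x, ζ), t)) 0 := by
    have e1 : (fun s : ℝ => Y ((x, s • ζ), t)) =
        fun s : ℝ => (fl G (g x, t)).1 + s • B ((x, ζ), t) := by
      funext s
      simp only [hY]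
      rw [hB.hom x hx ζ hζP]
    rw [e1]
    simpa using ((hasDerivAt_id (0:ℝ)).smul_const (B ((x, ζ), t))).const_add (fl G (g x, t)).1
  have k2 : HasDerivAt (fun s : ℝ => retF G R g B ((x, s • ζ), t))
      (fderiv ℝ R (fl G (g x, t)).1 (B ((x, ζ), t))) 0 := by
    have h2 : HasFDerivAt R (fderiv ℝ R (fl G (g x, t)).1) (Y ((x, (0:ℝ) • ζ), t)) := by
      rw [zero_smul, hY0 x hx t]
      exact ((hR.contDiffAt (hO.mem_nhds (hSO hxS))).differentiableAt (by simp)).hasFDerivAt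
    exact h2.comp_hasDerivAt (0:ℝ) k1
  have k3 : HasDerivAt (fun s : ℝ => retF G R g B ((x, s • ζ), t))
      (lA (retF G R g B) x ζ t) 0 := by
    have h2 : HasFDerivAt (retF G R g B) (fderiv ℝ (retF G R g B) ((x, 0), t))
        ((x, (0:ℝ) • ζ), t) := by
      rw [zero_smul]
      exact ((hLF.zero_mem hx t).differentiableAt (by simp)).hasFDerivAt
    exact h2.comp_hasDerivAt (0:ℝ) (hasDerivAt_ray (t := t) (x := x) (ζ := ζ) 0)
  rw [k3.unique k2]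
  exact (MS.retract_fderiv (G := G) hO hSO hR hRS hRid hxS).2 _ (hB.tan x hx ζ hζP t)

/-! ### scaling -/

theorem LMap.smul {B : (E × V) × ℝ → Euc N} (h : LMap G K P T σ g B) (c : ℝ) :
    LMap G K P T σ g (fun p => c • B p) where
  smooth x hx ζ hζ t := (h.smooth x hx ζ hζ t).const_smul c
  hom x hx ζ hζ s t := by
    change c • B ((x, s • ζ), t) = s • (c • B ((x, ζ), t))
    rw [h.hom x hx ζ hζ, smul_comm]
  tan x hx ζ hζ t := (G.T _).smul_mem _ (h.tan x hx ζ hζ t)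
  per x hx ζ hζ t := by
    change c • B ((x, ζ), t + T) = σ • (c • B ((x, ζ), t))
    rw [h.per x hx ζ hζ, smul_comm]

theorem LMap.add {B B' : (E × V) × ℝ → Euc N} (h : LMap G K P T σ g B)
    (h' : LMap G K P T σ g B') : LMap G K P T σ g (fun p => B p + B' p) where
  smooth x hx ζ hζ t := (h.smooth x hx ζ hζ t).add (h'.smooth x hx ζ hζ t)
  hom x hx ζ hζ s t := by
    rw [h.hom x hx ζ hζ, h'.hom x hx ζ hζ, smul_add]
  tan x hx ζ hζ t := (G.T _).add_mem (h.tan x hx ζ hζ t) (h'.tan x hx ζ hζ t)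
  per x hx ζ hζ t := by
    rw [h.per x hx ζ hζ, h'.per x hx ζ hζ, smul_add]

/-- end map of a path -/
theorem SPath.lmap {A : ((E × ℝ) × V) × ℝ → Euc N} (h : SPath G K P T σ g A δ) {τ : ℝ}
    (hτ : τ ∈ Icc (0:ℝ) 1) : LMap G K P T σ g (fun p => A (((p.1.1, τ), p.1.2), p.2)) where
  smooth x hx ζ hζ t :=
    ContDiffAt.comp (g := A) (f := fun p : (E × V) × ℝ => (((p.1.1, τ), p.1.2), p.2)) ((x, ζ), t)
      (h.smooth x hx τ hτ ζ hζ t) (by fun_prop)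
  hom x hx ζ hζ s t := h.hom x hx τ hτ ζ hζ s t
  tan x hx ζ hζ t := h.tan x hx τ hτ ζ hζ t
  per x hx ζ hζ t := h.per x hx τ hτ ζ hζ t

lemma ix_smul_smul {q : Euc N × Euc N} {a b : ℝ} {A : ℝ → Euc N} (hA : Differentiable ℝ A)
    (s r : ℝ) :
    ix G q a b (fun t => s • A t) (deriv fun t => s • A t) (fun t => r • A t)
      (deriv fun t => r • A t) = s * r * ix G q a b A (deriv A) A (deriv A) := by
  have e : ∀ c : ℝ, (deriv fun t => c • A t) = c • deriv A := fun c => by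
    funext t
    exact ((hA t).hasDerivAt.const_smul c).deriv
  have e2 : ∀ c : ℝ, (fun t => c • A t) = c • A := fun c => rfl
  rw [e, e, e2, e2, SV.ix_smul_left, SV.ix_smul_right]
  ring

/-- **scaling**: the straight path from `B` to `c B` -/
theorem SPath.scale {B : (E × V) × ℝ → Euc N} (hg : ∀ x ∈ K, g x ∈ TS G) (hT : 0 ≤ T)
    (hB : LMap G K P T σ g B) (hδ : 0 < δ) {c : ℝ} (hc : 0 < c)
    (h0 : ∀ x ∈ K, ∀ ζ : V, P x ζ = ζ →
      ix G (g x) 0 T (fun t => B ((x, ζ), t)) (deriv fun t => B ((x, ζ), t))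
        (fun t => B ((x, ζ), t)) (deriv fun t => B ((x, ζ), t)) ≤ -δ * ‖ζ‖ ^ 2) :
    SPath G K P T σ g (lin B (fun p => c • B p)) (min 1 (c ^ 2) * δ / 2) := by
  have hm : 0 < min 1 (c ^ 2) := lt_min one_pos (by positivity)
  refine SPath.line hg hT hB (hB.smul c) (by positivity) (fun x hx ζ hζ => ?_)
    (fun x hx ζ hζ => ?_) (fun x hx ζ hζ => ?_)
  · refine (h0 x hx ζ hζ).trans ?_
    have h1 : min 1 (c ^ 2) * (δ * ‖ζ‖ ^ 2) ≤ 1 * (δ * ‖ζ‖ ^ 2) := by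
      gcongr; exact min_le_left _ _
    linarith
  · have hd := (hB.cd hx hζ).differentiable (by simp)
    rw [ix_smul_smul hd]
    have h1 := mul_le_mul_of_nonneg_left (h0 x hx ζ hζ) (by positivity : 0 ≤ c * c)
    have h2 : min 1 (c ^ 2) * (δ * ‖ζ‖ ^ 2) ≤ c ^ 2 * (δ * ‖ζ‖ ^ 2) := by
      gcongr; exact min_le_right _ _
    nlinarith
  · have hd := (hB.cd hx hζ).differentiable (by simp)
    have h3 := ix_smul_smul (G := G) (q := g x) (a := 0) (b := T) hd c 1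
    simp only [one_smul] at h3
    rw [h3]
    have h1 := mul_le_mul_of_nonneg_left (h0 x hx ζ hζ) (by positivity : 0 ≤ c * 1)
    have h2 : 0 ≤ c * 1 * (δ * ‖ζ‖ ^ 2) := by positivity
    linarith

theorem LPath.toSPath {A : ((E × ℝ) × V) × ℝ → Euc N} (h : LPath G K P T g A δ) :
    SPath G K P T 1 g A δ where
  smooth := h.smooth
  hom := h.hom
  tan := h.tan
  per x hx τ hτ ζ hζ t := by rw [h.per x hx τ hτ ζ hζ t, one_smul]
  neg := h.neg

end gen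

/-! ### the path from the chains -/

section main

variable {n N k Kn : ℕ} {κ : ℝ} {S : Set (Euc N)} {G : Geo n N κ S} {z : Euc N × Euc N}
  {δ ε δ' : ℝ} {PN : Euc N × Euc N → Wt N Kn →L[ℝ] Wt N Kn}
  {H₂ : Type*} [NormedAddCommGroup H₂] [NormedSpace ℝ H₂]
  {P₂ : Euc N × Euc N → H₂ →L[ℝ] H₂} {j : H₂ →L[ℝ] Wt N Kn × Wt N Kn}
  {A₂ : (((Euc N × Euc N) × ℝ) × H₂) × ℝ → Euc N}
  {A₁ : (((Euc N × Euc N) × ℝ) × Wt N Kn) × ℝ → Euc N}

/-- the chain map of both parts -/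
def Lall (h : GT.Bla G k) (ε δ : ℝ) (PN : Euc N × Euc N → Wt N Kn →L[ℝ] Wt N Kn)
    (j : H₂ →L[ℝ] Wt N Kn × Wt N Kn) (z : Euc N × Euc N) :
    (H₂ × Wt N Kn) →L[ℝ] (Fin 4 → Euc N) :=
  (LA h PN z).comp (j.comp (ContinuousLinearMap.fst ℝ H₂ (Wt N Kn))) +
    (LP h ε δ PN z).comp (ContinuousLinearMap.snd ℝ H₂ (Wt N Kn))

lemma Lall_apply (h : GT.Bla G k) (z : Euc N × Euc N) (ζ : H₂ × Wt N Kn) :
    Lall h ε δ PN j z ζ = LA h PN z (j ζ.1) + LP h ε δ PN z ζ.2 := rfl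

lemma fla_Lall (h : GT.Bla G k) (z : Euc N × Euc N) (ζ : H₂ × Wt N Kn) (t : ℝ) :
    fla G ε (fun z => z) (Lall h ε δ PN j) ((z, ζ), t) =
      QA h ε PN ((z, j ζ.1), t) + fla G ε (fun z => z) (LP h ε δ PN) ((z, ζ.2), t) := by
  simp only [fla, QA]
  rw [Lall_apply, AZ_add]

variable (hO : OK G 4 ε) (h : GT.Bla G k) (hk : 1 ≤ k) (H : NB.NegB G (k - 1) (nuP Kn) δ PN)
  {c : ℝ} (hc0 : 0 < c) (hc : HC G ε c)
  (hj : ∀ z ∈ L.US G, ∀ ν, P₂ z ν = ν → PP PN PN z (j ν) = j ν)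

include hO hk H hc0 hc hj in
theorem linC_Lall : LinC G (L.US G) (PP P₂ PN) (fun z => z) (Lall h ε δ PN j) where
  gs _ _ := contDiffAt_id
  gm _ hx := hx
  smooth x hx := by
    have h1 := (linC_LA h (kr_of_nb h hk H)).smooth x hx
    have h2 := (linC_LP hO h H hc0 hc).smooth x hx
    exact (h1.clm_comp contDiffAt_const).add (h2.clm_comp contDiffAt_const)
  mem x hx ζ hζ i := by
    rw [PP_eq] at hζ
    rw [Lall_apply]
    exact (V0 G x).add_mem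
      ((linC_LA h (kr_of_nb h hk H)).mem x hx _ (hj x hx _ hζ.1) i)
      ((linC_LP hO h H hc0 hc).mem x hx _ hζ.2 i)

include hO hk H hc0 hc hj in
/-- **the path from the chains to the sum of the two parts** -/
theorem exists_lpath (hδ' : 0 < δ') (h₂ : SPath G (L.US G) P₂ (2 * Real.pi) (-1) (fun z => z) A₂ δ')
    (h₁ : SPath G (L.US G) PN (2 * Real.pi) 1 (fun z => z) A₁ δ')
    (e₂ : ∀ z ∈ L.US G, ∀ ν, P₂ z ν = ν → ∀ t, A₂ (((z, 0), ν), t) = QA h ε PN ((z, j ν), t))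
    (e₁ : ∀ z ∈ L.US G, ∀ w, PN z w = w → ∀ t,
      A₁ (((z, 0), w), t) = fla G ε (fun z => z) (LP h ε δ PN) ((z, w), t)) :
    ∃ A : (((Euc N × Euc N) × ℝ) × (H₂ × Wt N Kn)) × ℝ → Euc N,
      LPath G (L.US G) (PP P₂ PN) (4 * Real.pi) (fun z => z) A (δ' / 2) ∧
      (∀ z ∈ L.US G, ∀ ζ, PP P₂ PN z ζ = ζ → ∀ t,
        A (((z, 0), ζ), t) = fla G ε (fun z => z) (AK.rem (Lall h ε δ PN j)) ((z, ζ), t)) ∧
      (∀ z ∈ L.US G, ∀ ζ, PP P₂ PN z ζ = ζ → ∀ t,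
        A (((z, 1), ζ), t) = A₂ (((z, 1), ζ.1), t) + A₁ (((z, 1), ζ.2), t)) := by
  have hL := linC_Lall (P₂ := P₂) (j := j) hO h hk H hc0 hc hj
  have hg : ∀ x ∈ L.US G, (fun z : Euc N × Euc N => z) x ∈ TS G := fun x hx => hx.1
  have hs := SPath.sum hg (fun x hx => NN.fl_two_pi h hx) hδ' h₂ h₁
  have hE : ∀ z ∈ L.US G, ∀ ζ, PP P₂ PN z ζ = ζ → ∀ t,
      fla G ε (fun z => z) (Lall h ε δ PN j) ((z, ζ), t) = sumP A₂ A₁ (((z, 0), ζ), t) := by
    intro z hz ζ hζ t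
    rw [PP_eq] at hζ
    rw [fla_Lall]
    simp only [sumP]
    rw [e₂ z hz _ hζ.1, e₁ z hz _ hζ.2]
  have e4 : ((4 : ℕ) : ℝ) * Real.pi = 4 * Real.pi := by push_cast; ring
  have hp1 := hL.spath_rem (δ := δ') (l := 2) hO h (by norm_num) hδ'.le (fun z hz ζ hζ => by
    rw [funext (hE z hz ζ hζ), e4]
    exact hs.neg z hz 0 ⟨le_rfl, zero_le_one⟩ ζ hζ)
  rw [e4] at hp1
  have hp2 : SPath G (L.US G) (PP P₂ PN) (4 * Real.pi) 1 (fun z => z) (sumP A₂ A₁) (δ' / 2) :=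
    hs.toSPath.mono (by linarith)
  have hjn : ∀ z ∈ L.US G, ∀ ζ, PP P₂ PN z ζ = ζ → ∀ t,
      lin (fla G ε (fun z => z) (AK.rem (Lall h ε δ PN j)))
        (fla G ε (fun z => z) (Lall h ε δ PN j)) (((z, 1), ζ), t) =
      sumP A₂ A₁ (((z, 0), ζ), t) := fun z hz ζ hζ t => by
    rw [lin_one, hE z hz ζ hζ]
  refine ⟨cat (lin (fla G ε (fun z => z) (AK.rem (Lall h ε δ PN j)))
        (fla G ε (fun z => z) (Lall h ε δ PN j))) (sumP A₂ A₁),
    (SPath.trans hp1 hp2 hjn).toLPath (by linarith), fun z hz ζ hζ t => ?_,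
    fun z hz ζ hζ t => ?_⟩
  · rw [cat_zero, lin_zero]
  · rw [cat_one (hjn z hz ζ hζ t)]
    rfl

end main

end Crest.Agent.R208.AK
end
end

-- ▼ part R208/AK11

/-!
R208, block AK (helper952), part 11: **the junction**: the broken four-arc family near the diagonal
is joined to the family `R(γ + ε₂ ξ(ν) + ε₁ nf(w))` by families of energy `< 2π` (period `4π`).
-/

set_option autoImplicit false
set_option linter.unusedSectionVars false

open Set Filter Topology MeasureTheory Module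
open scoped ContDiff RealInnerProductSpace Interval
open Crest.GeometryTopology.Submanifold
open Crest.Agent.R241.DDefs
open Crest.Agent.R241.D2
open Crest.Agent.R241.D3c
open Crest.Agent.R208.SV (ixd ix Fld jf jf')
open Crest.Agent.R208.NN (V0 qq Wt nuP fd fd')
open Crest.Agent.R208.KG (idx Km cc sta pc rnd gT OK)
open Crest.Agent.R208.NB (npr V0s)

noncomputable section

namespace Crest.Agent.R208.AK

variable {n N k Kn : ℕ} {κ : ℝ} {S : Set (Euc N)} {G : Geo n N κ S} {z : Euc N × Euc N}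
  {δ ε δ₂ : ℝ} {PN : Euc N × Euc N → Wt N Kn →L[ℝ] Wt N Kn}

section anti

variable {XI : (((Euc N × Euc N) × ℝ) × (Wt N Kn × Wt N Kn)) × ℝ → Euc N}

/-- helper844's cross condition at the end of the path of angle functions -/
def Cross (h : GT.Bla G k) (ε : ℝ) (PN : Euc N × Euc N → Wt N Kn →L[ℝ] Wt N Kn)
    (XI : (((Euc N × Euc N) × ℝ) × (Wt N Kn × Wt N Kn)) × ℝ → Euc N) : Prop :=
  ∀ z ∈ L.US G, ∀ ζ : Wt N Kn × Wt N Kn, PP PN PN z ζ = ζ →
    ix G z 0 (2 * Real.pi) (fun t => XI (((z, 1), ζ), t)) (deriv fun t => XI (((z, 1), ζ), t))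
      (fun t => QA h ε PN ((z, ζ), t)) (deriv fun t => QA h ε PN ((z, ζ), t)) ≤ 0

/-- **the antiperiodic path** from the chains `(a,-b,-a,b)` to `XI (τ = 0)` -/
theorem exists_spath_A (hS : IsCompact S) (hO : OK G 4 ε) (h : GT.Bla G k) (hk : 1 ≤ k)
    (H : NB.NegB G (k - 1) (nuP Kn) δ PN) {c : ℝ} (hc0 : 0 < c) (hc : HC G ε c) (hδ₂ : 0 < δ₂)
    (hXI : SPath G (L.US G) (PP PN PN) (2 * Real.pi) (-1) (fun z => z) XI δ₂)
    (hX : Cross h ε PN XI) :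
    ∃ (A : (((Euc N × Euc N) × ℝ) × (Wt N Kn × Wt N Kn)) × ℝ → Euc N) (δ' : ℝ), 0 < δ' ∧
      SPath G (L.US G) (PP PN PN) (2 * Real.pi) (-1) (fun z => z) A δ' ∧
      (∀ z ∈ L.US G, ∀ ζ : Wt N Kn × Wt N Kn, PP PN PN z ζ = ζ → ∀ t,
        A (((z, 0), ζ), t) = QA h ε PN ((z, ζ), t)) ∧
      (∀ z ∈ L.US G, ∀ ζ : Wt N Kn × Wt N Kn, PP PN PN z ζ = ζ → ∀ t,
        A (((z, 1), ζ), t) = XI (((z, 0), ζ), t)) := by
  have hP := kr_of_nb h hk H
  obtain ⟨cu, hcu, hcu'⟩ := exists_le_uu hS h hk H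
  have hpi := Real.pi_pos
  have h1 : (1:ℝ) ∈ Icc (0:ℝ) 1 := ⟨zero_le_one, le_rfl⟩
  have hM := lmap_QA hO h hP
  have hM1 := hXI.lmap h1
  set δ1 := min (2 * c * cu ^ 2) δ₂ with hδ1
  have hδ1p : 0 < δ1 := lt_min (by positivity) hδ₂
  have hl := SPath.line (δ := δ1) (fun z (hz : z ∈ L.US G) => hz.1) (by positivity) hM hM1 hδ1p.le
    (fun z hz ζ hζ => by
      refine (ix_QA_le hO h hP hc hz hζ).trans ?_
      rw [PP_eq] at hζ
      have k1 := pow_le_pow_left₀ (by positivity) (hcu' z hz _ hζ.1) 2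
      have k2 := pow_le_pow_left₀ (by positivity) (hcu' z hz _ hζ.2) 2
      rw [mul_pow] at k1 k2
      have k3 : ‖ζ‖ ^ 2 ≤ ‖ζ.1‖ ^ 2 + ‖ζ.2‖ ^ 2 := by
        rw [Prod.norm_def]
        rcases le_total ‖ζ.1‖ ‖ζ.2‖ with h | h
        · rw [max_eq_right h]; nlinarith [sq_nonneg ‖ζ.1‖]
        · rw [max_eq_left h]; nlinarith [sq_nonneg ‖ζ.2‖]
      have k4 : δ1 * ‖ζ‖ ^ 2 ≤ 2 * c * cu ^ 2 * (‖ζ.1‖ ^ 2 + ‖ζ.2‖ ^ 2) := by
        gcongr; exact min_le_left _ _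
      have k5 : 2 * c * (cu ^ 2 * ‖ζ.1‖ ^ 2 + cu ^ 2 * ‖ζ.2‖ ^ 2) ≤
          2 * c * (‖KR.uu h PN z ζ.1‖ ^ 2 + ‖KR.uu h PN z ζ.2‖ ^ 2) := by gcongr
      linarith)
    (fun z hz ζ hζ => by
      refine (hXI.neg z hz 1 h1 ζ hζ).trans ?_
      have k4 : δ1 * ‖ζ‖ ^ 2 ≤ δ₂ * ‖ζ‖ ^ 2 := by gcongr; exact min_le_right _ _
      linarith)
    (fun z hz ζ hζ => hX z hz ζ hζ)
  have hs : SPath G (L.US G) (PP PN PN) (2 * Real.pi) (-1) (fun z => z)
      (fun p => XI (((p.1.1.1, 1 - p.1.1.2), p.1.2), p.2)) (δ1 / 2) :=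
    hXI.symm.mono (by have := min_le_right (2 * c * cu ^ 2) δ₂; linarith)
  have he : ∀ z ∈ L.US G, ∀ ζ, PP PN PN z ζ = ζ → ∀ t,
      lin (QA h ε PN) (fun p => XI (((p.1.1, 1), p.1.2), p.2)) (((z, 1), ζ), t) =
      (fun p : (((Euc N × Euc N) × ℝ) × (Wt N Kn × Wt N Kn)) × ℝ =>
        XI (((p.1.1.1, 1 - p.1.1.2), p.1.2), p.2)) (((z, 0), ζ), t) := by
    intro z hz ζ hζ t
    rw [lin_one]
    simp
  refine ⟨_, δ1 / 2, by linarith, SPath.trans hl hs he, fun z hz ζ hζ t => ?_,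
    fun z hz ζ hζ t => ?_⟩
  · rw [cat_zero, lin_zero]
  · rw [cat_one (he z hz ζ hζ t)]
    simp

end anti

section junction

variable {H₂ : Type*} [NormedAddCommGroup H₂] [NormedSpace ℝ H₂]
  {P₂ : Euc N × Euc N → H₂ →L[ℝ] H₂} {j : H₂ →L[ℝ] Wt N Kn × Wt N Kn}
  {XI : (((Euc N × Euc N) × ℝ) × (Wt N Kn × Wt N Kn)) × ℝ → Euc N}

/-- the model fields `ε₂ ξ(ν) + ε₁ nf(w)` -/
def BM (G : Geo n N κ S) (Kn : ℕ) (j : H₂ →L[ℝ] Wt N Kn × Wt N Kn)
    (XI : (((Euc N × Euc N) × ℝ) × (Wt N Kn × Wt N Kn)) × ℝ → Euc N) (ε₁ ε₂ : ℝ)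
    (p : ((Euc N × Euc N) × (H₂ × Wt N Kn)) × ℝ) : Euc N :=
  ε₂ • XI (((p.1.1, 0), j p.1.2.1), p.2) + ε₁ • fd G p.1.1 (nuP Kn) p.1.2.2 p.2

/-- the model family -/
def FM (G : Geo n N κ S) (Kn : ℕ) (j : H₂ →L[ℝ] Wt N Kn × Wt N Kn)
    (XI : (((Euc N × Euc N) × ℝ) × (Wt N Kn × Wt N Kn)) × ℝ → Euc N) (ε₁ ε₂ : ℝ)
    (R : Euc N → Euc N) (p : ((Euc N × Euc N) × (H₂ × Wt N Kn)) × ℝ) : Euc N :=
  R ((fl G (p.1.1, p.2)).1 + BM G Kn j XI ε₁ ε₂ p)

/-- **the junction**: the broken family near the diagonal is joined to the model family -/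
theorem exists_junction (hS : IsCompact S) (hO : OK G 4 ε) (h : GT.Bla G k) (hk : 1 ≤ k)
    (H : NB.NegB G (k - 1) (nuP Kn) δ PN) {c : ℝ} (hc0 : 0 < c) (hc : HC G ε c) (hδ₂ : 0 < δ₂)
    (hXI : SPath G (L.US G) (PP PN PN) (2 * Real.pi) (-1) (fun z => z) XI δ₂)
    (hX : Cross h ε PN XI)
    (hj : ∀ z ∈ L.US G, ∀ ν, P₂ z ν = ν → PP PN PN z (j ν) = j ν) {cj : ℝ} (hcj : 0 < cj)
    (hjc : ∀ z ∈ L.US G, ∀ ν, P₂ z ν = ν → cj * ‖ν‖ ^ 2 ≤ ‖j ν‖ ^ 2)
    {ε₁ ε₂ : ℝ} (hε₁ : 0 < ε₁) (hε₂ : 0 < ε₂)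
    {R : Euc N → Euc N} {O : Set (Euc N)} (hOo : IsOpen O) (hSO : S ⊆ O)
    (hR : ContDiffOn ℝ ∞ R O) (hRS : MapsTo R O S) (hRid : ∀ x ∈ S, R x = x) :
    ∃ (Hm : (((Euc N × Euc N) × ℝ) × (H₂ × Wt N Kn)) × ℝ → Euc N) (r δf : ℝ), 0 < r ∧ 0 < δf ∧
      LFam G (L.US G ×ˢ Icc (0:ℝ) 1) (fun p => PP P₂ PN p.1) (4 * Real.pi) (fun p => p.1) Hm r ∧
      (∀ z ∈ L.US G, ∀ ζ, PP P₂ PN z ζ = ζ → ‖ζ‖ < r → ∀ t,
        Hm (((z, 0), ζ), t) = FT G 4 ε (kap z (AK.rem (Lall h ε δ PN j) z ζ), t)) ∧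
      (∀ z ∈ L.US G, ∀ ζ, PP P₂ PN z ζ = ζ → ‖ζ‖ < r → ∀ t,
        Hm (((z, 1), ζ), t) = FM G Kn j XI ε₁ ε₂ R ((z, ζ), t)) ∧
      (∀ z ∈ L.US G, ∀ τ ∈ Icc (0:ℝ) 1, ∀ ζ, PP P₂ PN z ζ = ζ → ‖ζ‖ < r →
        EnT (4 * Real.pi) (fun t => Hm (((z, τ), ζ), t)) ≤ 2 * Real.pi - δf * ‖ζ‖ ^ 2) := by
  have hpi := Real.pi_pos
  have hUS : IsCompact (L.US G) := LB.isCompact_US hS
  have hg : ∀ z ∈ L.US G, (fun z : Euc N × Euc N => z) z ∈ TS G := fun z hz => hz.1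
  have h0 : (0:ℝ) ∈ Icc (0:ℝ) 1 := ⟨le_rfl, zero_le_one⟩
  -- antiperiodic part
  obtain ⟨A, δa, hδa, hA, hA0, hA1⟩ := exists_spath_A hS hO h hk H hc0 hc hδ₂ hXI hX
  have hAj := hA.comp (P' := P₂) (j := j) hδa.le hj hjc
  have hXIj := hXI.comp (P' := P₂) (j := j) hδ₂.le hj hjc
  have hsc2 := SPath.scale (c := ε₂) hg (by positivity) (hXIj.lmap h0) (by positivity) hε₂
    (fun z hz ν hν => hXIj.neg z hz 0 h0 ν hν)
  set da := min (δa * cj) (min 1 (ε₂ ^ 2) * (δ₂ * cj) / 2) with hda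
  have hm2 : 0 < min 1 (ε₂ ^ 2) := lt_min one_pos (by positivity)
  have hdap : 0 < da := lt_min (by positivity) (by positivity)
  have he2 : ∀ z ∈ L.US G, ∀ ν, P₂ z ν = ν → ∀ t,
      pbj j A (((z, 1), ν), t) = lin (fun p => pbj j XI (((p.1.1, 0), p.1.2), p.2))
        (fun p => ε₂ • pbj j XI (((p.1.1, 0), p.1.2), p.2)) (((z, 0), ν), t) := by
    intro z hz ν hν t
    rw [lin_zero]
    exact hA1 z hz _ (hj z hz ν hν) t
  have h₂ := SPath.trans (hAj.mono (min_le_left _ _ : da ≤ _)) (hsc2.mono (min_le_right _ _)) he2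
  -- periodic part
  obtain ⟨δn, hδn, hN⟩ := exists_spath_N hO h H hS hc0 hc
  have h1 : (1:ℝ) ∈ Icc (0:ℝ) 1 := ⟨zero_le_one, le_rfl⟩
  have hN1 : ∀ z ∈ L.US G, ∀ w, PN z w = w →
      ix G z 0 (2 * Real.pi) (fun t => nfF G Kn ((z, w), t)) (deriv fun t => nfF G Kn ((z, w), t))
        (fun t => nfF G Kn ((z, w), t)) (deriv fun t => nfF G Kn ((z, w), t)) ≤
        -δn * ‖w‖ ^ 2 := by
    intro z hz w hw
    have := hN.neg z hz 1 h1 w hw
    simp only [lin_one] at this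
    exact this
  have hsc1 := SPath.scale (c := ε₁) hg (by positivity) (lmap_nf (PN := PN) h) hδn hε₁ hN1
  set dn := min δn (min 1 (ε₁ ^ 2) * δn / 2) with hdn
  have hm1 : 0 < min 1 (ε₁ ^ 2) := lt_min one_pos (by positivity)
  have hdnp : 0 < dn := lt_min hδn (by positivity)
  have he1 : ∀ z ∈ L.US G, ∀ w, PN z w = w → ∀ t,
      lin (fla G ε (fun z => z) (LP h ε δ PN)) (nfF G Kn) (((z, 1), w), t) =
        lin (nfF G Kn) (fun p => ε₁ • nfF G Kn p) (((z, 0), w), t) := by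
    intro z hz w hw t
    rw [lin_one, lin_zero]
  have h₁ := SPath.trans (hN.mono (min_le_left _ _ : dn ≤ _)) (hsc1.mono (min_le_right _ _)) he1
  set δ' := min da dn with hδ'
  have hδ'p : 0 < δ' := lt_min hdap hdnp
  -- the path
  obtain ⟨B, hB, hB0, hB1⟩ := exists_lpath (P₂ := P₂) (j := j) hO h hk H hc0 hc hj hδ'p
    (h₂.mono (min_le_left _ _ : δ' ≤ _)) (h₁.mono (min_le_right _ _))
    (fun z hz ν hν t => by
      rw [cat_zero]
      exact hA0 z hz _ (hj z hz ν hν) t)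
    (fun z hz w hw t => by rw [cat_zero, lin_zero])
  have hB1' : ∀ z ∈ L.US G, ∀ ζ, PP P₂ PN z ζ = ζ → ∀ t,
      B (((z, 1), ζ), t) = BM G Kn j XI ε₁ ε₂ ((z, ζ), t) := by
    intro z hz ζ hζ t
    rw [hB1 z hz ζ hζ t]
    rw [PP_eq] at hζ
    rw [cat_one (he2 z hz _ hζ.1 t), cat_one (he1 z hz _ hζ.2 t), lin_one, lin_one]
    rfl
  -- the model family
  have hfl4 : ∀ z ∈ L.US G, fl G (z, 4 * Real.pi) = z := by
    intro z hz
    have e1 : 4 * Real.pi = 2 * Real.pi + 2 * Real.pi := by ring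
    rw [e1, fl_add_two_pi hz.1 (NN.fl_two_pi h hz), NN.fl_two_pi h hz]
  have hBMm : LMap G (L.US G) (PP P₂ PN) (4 * Real.pi) 1 (fun z => z) (BM G Kn j XI ε₁ ε₂) := by
    have hl := hB.toSPath.lmap h1
    refine ⟨fun z hz ζ hζ t => ?_, fun z hz ζ hζ s t => ?_, fun z hz ζ hζ t => ?_,
      fun z hz ζ hζ t => ?_⟩
    · have hζ' := PP_eq.1 hζ
      have m2 := (hXIj.lmap h0).smul ε₂
      have m1 := (lmap_nf (PN := PN) (Kn := Kn) h).smul ε₁
      have c2 : ContDiffAt ℝ ∞ (fun p : ((Euc N × Euc N) × (H₂ × Wt N Kn)) × ℝ =>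
          ε₂ • pbj j XI (((p.1.1, 0), p.1.2.1), p.2)) ((z, ζ), t) :=
        ContDiffAt.comp
          (g := fun p : ((Euc N × Euc N) × H₂) × ℝ => ε₂ • pbj j XI (((p.1.1, 0), p.1.2), p.2))
          (f := fun p : ((Euc N × Euc N) × (H₂ × Wt N Kn)) × ℝ => ((p.1.1, p.1.2.1), p.2))
          ((z, ζ), t) (m2.smooth z hz _ hζ'.1 t) (by fun_prop)
      have c1 : ContDiffAt ℝ ∞ (fun p : ((Euc N × Euc N) × (H₂ × Wt N Kn)) × ℝ =>
          ε₁ • nfF G Kn ((p.1.1, p.1.2.2), p.2)) ((z, ζ), t) :=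
        ContDiffAt.comp
          (g := fun p : ((Euc N × Euc N) × Wt N Kn) × ℝ => ε₁ • nfF G Kn p)
          (f := fun p : ((Euc N × Euc N) × (H₂ × Wt N Kn)) × ℝ => ((p.1.1, p.1.2.2), p.2))
          ((z, ζ), t) (m1.smooth z hz _ hζ'.2 t) (by fun_prop)
      exact c2.add c1
    · rw [← hB1' z hz ζ hζ, ← hB1' z hz _ (by rw [map_smul, hζ])]
      exact hB.hom z hz 1 h1 ζ hζ s t
    · rw [← hB1' z hz ζ hζ]
      exact hB.tan z hz 1 h1 ζ hζ t
    · rw [← hB1' z hz ζ hζ, ← hB1' z hz ζ hζ, one_smul]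
      exact hB.per z hz 1 h1 ζ hζ t
  obtain ⟨r1, hr1, hF1, hF1l⟩ := exists_lfam_ret (E := Euc N × Euc N) (K := L.US G)
    (g := fun z => z) (B := BM G Kn j XI ε₁ ε₂) hOo hSO hR hRS hRid hUS (by positivity) hg
    (fun z _ => contDiffAt_id) hfl4 hBMm
  -- the broken family
  have hL := linC_Lall (P₂ := P₂) (j := j) hO h hk H hc0 hc hj
  have hF0 := hL.rem.lfam hO h hr1
  have e4 : ((4 : ℕ) : ℝ) * Real.pi = 4 * Real.pi := by push_cast; ring
  rw [e4] at hF0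
  obtain ⟨Hm, r, hr, -, hLF, hm0, hm1, hen⟩ := join h.bl hUS (by positivity) hg hF0 hF1 hB
    (fun z hz ζ hζ t => by rw [hB0 z hz ζ hζ, hL.rem.lA_fam hO h hz hζ])
    (fun z hz ζ hζ t => by rw [hB1' z hz ζ hζ, hF1l z hz ζ hζ])
  refine ⟨Hm, r, δ' / 2 / 4, hr, by positivity, hLF, hm0, hm1, fun z hz τ hτ ζ hζ hζr => ?_⟩
  have h5 := hen z hz τ hτ ζ hζ hζr
  rw [int_fl hz] at h5
  linarith

end junction

end Crest.Agent.R208.AK
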