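import Crest.Agent.R208.TU9_Mg

-- ▼ part R208/FU2
section

/-!
R208, (8,2), (A2) (helper336, second hands for helper952's AK16), part FU2: a homotopy of loops over
the part `‖ν‖, ‖w‖ < r` of the total space whose relative forms vanish outside the smaller disks
gives a closed form over `Z × ℝ`, hence (helper537's `HO.hom_iso`) cohomologous push forwards.
-/

set_option autoImplicit false
set_option linter.unusedSectionVars false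
set_option linter.unusedVariables false
set_option maxHeartbeats 1600000

open MeasureTheory Set Filter Topology Module
open scoped ContDiff RealInnerProductSpace Real
open Crest.GeometryTopology.Submanifold
open Crest.Agent.R241.DDefs Crest.Agent.R241.D Crest.Agent.R241.D2
open Crest.Agent.R208.F Crest.Agent.R208.FI Crest.Agent.R208.CW Crest.Agent.R208.T
open Crest.Agent.R208.CM (Triv Qd)
open Crest.Agent.R208.VC (rsL rsL_apply)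
open Crest.Agent.R208.EX
open Crest.Agent.R208.MS (En)
open Crest.Agent.R208.TP (TT CV pu₁ pu₂)

noncomputable section

namespace Crest.Agent.R208.FU

variable {N N' m : ℕ}
  {H₁ H₂ : Type} [NormedAddCommGroup H₁] [InnerProductSpace ℝ H₁] [FiniteDimensional ℝ H₁]
  [NormedAddCommGroup H₂] [InnerProductSpace ℝ H₂] [FiniteDimensional ℝ H₂]

/-- the disks of radius `r` -/
def Ud (N : ℕ) (H₂ H₁ : Type) [NormedAddCommGroup H₁] [NormedAddCommGroup H₂] (r : ℝ) :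
    Set (((Euc N × Euc N) × H₂) × H₁) := {z | ‖z.1.2‖ < r ∧ ‖z.2‖ < r}

theorem isOpen_Ud (r : ℝ) : IsOpen (Ud N H₂ H₁ r) :=
  (isOpen_lt (continuous_snd.comp continuous_fst).norm continuous_const).inter
    (isOpen_lt continuous_snd.norm continuous_const)

section form
variable {D : ED N'} {Z : Set (((Euc N × Euc N) × H₂) × H₁)}
  {α : ((Euc N × Euc N) × H₂) × H₁ → Ext (((Euc N × Euc N) × H₂) × H₁)} {R R' r : ℝ}
  {fh : (((Euc N × Euc N) × H₂) × H₁) × ℝ → ℝ → Euc N'}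
  {ch : (((Euc N × Euc N) × H₂) × H₁) × ℝ → ℝ}
  {V0 V1 : ((Euc N × Euc N) × H₂) × H₁ → Ext (((Euc N × Euc N) × H₂) × H₁)}

theorem set_eq (Z : Set (((Euc N × Euc N) × H₂) × H₁)) (r : ℝ) :
    (Z ∩ Ud N H₂ H₁ r) ×ˢ (univ : Set ℝ) =
      (Z ×ˢ (univ : Set ℝ)) ∩ (Prod.fst ⁻¹' Ud N H₂ H₁ r) := by
  ext p
  simp only [mem_prod, mem_inter_iff, mem_univ, and_true, mem_preimage]

/-- **the closed form of a homotopy of relative forms**, extended by zero -/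
theorem exists_homform (hD : D.OK) (hZ : Sub m Z) (hα : Sm Z α) (hα1 : Hom 1 α) (hR : 0 < R)
    (hR' : R < R') (hr : R' < r)
    (hf : LF D.S ((Z ∩ Ud N H₂ H₁ r) ×ˢ (univ : Set ℝ)) fh)
    (hc : ∀ y ∈ (Z ∩ Ud N H₂ H₁ r) ×ˢ (univ : Set ℝ), ContDiffAt ℝ ∞ ch y)
    (hE : ∀ y ∈ (Z ∩ Ud N H₂ H₁ r) ×ˢ (univ : Set ℝ), 0 < ch y → En (fh y) ≤ D.B)
    (hco : ∀ y ∈ (Z ∩ Ud N H₂ H₁ r) ×ˢ (univ : Set ℝ), (R < ‖y.1.2‖ ∨ R < ‖y.1.1.2‖) → 3 / 4 < ch y)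
    (h0 : D.IsRel (Z ∩ Ud N H₂ H₁ r) α (fun y => fh (y, 0)) (fun y => ch (y, 0)) V0)
    (h1 : D.IsRel (Z ∩ Ud N H₂ H₁ r) α (fun y => fh (y, 1)) (fun y => ch (y, 1)) V1)
    (z0 : ∀ z ∈ Z, (R < ‖z.2‖ ∨ R < ‖z.1.2‖) → rsL Z z (V0 z) = 0)
    (z1 : ∀ z ∈ Z, (R < ‖z.2‖ ∨ R < ‖z.1.2‖) → rsL Z z (V1 z) = 0) :
    ∃ Om : (((Euc N × Euc N) × H₂) × H₁) × ℝ → Ext ((((Euc N × Euc N) × H₂) × H₁) × ℝ),
      Sm (Z ×ˢ (univ : Set ℝ)) Om ∧ Cl (Z ×ˢ (univ : Set ℝ)) Om ∧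
      (∀ p ∈ Z ×ˢ (univ : Set ℝ), (R < ‖p.1.2‖ ∨ R < ‖p.1.1.2‖) →
        pb (Tan (Z ×ˢ (univ : Set ℝ)) p).subtype (Om p) = 0) ∧
      Eqv Z (F.pull (fun z : ((Euc N × Euc N) × H₂) × H₁ => (z, (0 : ℝ))) Om) V0 ∧
      Eqv Z (F.pull (fun z : ((Euc N × Euc N) × H₂) × H₁ => (z, (1 : ℝ))) Om) V1 := by
  have hUo : IsOpen (Ud N H₂ H₁ r) := isOpen_Ud r
  have hZU : Sub m (Z ∩ Ud N H₂ H₁ r) := T.Sub.inter_open' hZ hUo
  have hWm : Sub (m + 1) ((Z ∩ Ud N H₂ H₁ r) ×ˢ (univ : Set ℝ)) :=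
    hZU.prod (sub_open (by simp) isOpen_univ)
  have hfst : SMap ((Z ∩ Ud N H₂ H₁ r) ×ˢ (univ : Set ℝ)) (Z ∩ Ud N H₂ H₁ r)
      (fun y : (((Euc N × Euc N) × H₂) × H₁) × ℝ => y.1) :=
    ⟨fun _ _ => contDiffAt_fst, fun _ hy => hy.1⟩
  have hαU : Sm (Z ∩ Ud N H₂ H₁ r) α := hα.mono inter_subset_left
  have hαW := hαU.pull hfst
  have hαW1 : Hom 1 (F.pull (fun y : (((Euc N × Euc N) × H₂) × H₁) × ℝ => y.1) α) := hα1.pull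
  obtain ⟨Om₀, hO⟩ := ED.exists_rel hD hWm hαW hαW1 hf hc hE
  have hcl := ED.IsRel.cl hD hWm hαW hαW1 hf hc hO
  have hz0 : ∀ p ∈ (Z ∩ Ud N H₂ H₁ r) ×ˢ (univ : Set ℝ), (R < ‖p.1.2‖ ∨ R < ‖p.1.1.2‖) →
      rsL ((Z ∩ Ud N H₂ H₁ r) ×ˢ (univ : Set ℝ)) p (Om₀ p) = 0 := fun p hp h =>
    ED.IsRel.zero hD hWm hαW hαW1 hf hc hO hp (hco p hp h)
  set b : ((Euc N × Euc N) × H₂) × H₁ → ℝ := TU.bmp R R' with hb
  have b1 : ∀ z : ((Euc N × Euc N) × H₂) × H₁, ‖z.1.2‖ ≤ R → ‖z.2‖ ≤ R → b z = 1 :=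
    fun z h1 h2 => TU.bmp_one hR hR' h1 h2
  have b0 : ∀ z : ((Euc N × Euc N) × H₂) × H₁, (R' ≤ ‖z.1.2‖ ∨ R' ≤ ‖z.2‖) → b z = 0 :=
    fun z h1 => TU.bmp_zero hR hR' h1
  set Om : (((Euc N × Euc N) × H₂) × H₁) × ℝ → Ext ((((Euc N × Euc N) × H₂) × H₁) × ℝ) :=
    fun p => b p.1 • Om₀ p with hOm
  -- outside `Ud r` the form vanishes near the point
  have hout : ∀ p : (((Euc N × Euc N) × H₂) × H₁) × ℝ, p.1 ∉ Ud N H₂ H₁ r → Om =ᶠ[𝓝 p] 0 := by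
    intro p hp
    have h2 : R' < ‖p.1.1.2‖ ∨ R' < ‖p.1.2‖ := by
      by_contra hcon
      push Not at hcon
      exact hp ⟨by linarith [hcon.1], by linarith [hcon.2]⟩
    have ho : IsOpen {q : (((Euc N × Euc N) × H₂) × H₁) × ℝ | R' < ‖q.1.1.2‖ ∨ R' < ‖q.1.2‖} :=
      (isOpen_lt continuous_const (continuous_snd.comp (continuous_fst.comp continuous_fst)).norm).union
        (isOpen_lt continuous_const (continuous_snd.comp continuous_fst).norm)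
    filter_upwards [ho.mem_nhds h2] with q hq
    rw [hOm]
    show b q.1 • Om₀ q = 0
    rw [b0 q.1 (hq.imp le_of_lt le_of_lt), zero_smul]
  have hbs : ∀ p : (((Euc N × Euc N) × H₂) × H₁) × ℝ, ContDiffAt ℝ ∞ (fun p => b p.1) p :=
    fun p => (TU.contDiff_bmp R R').contDiffAt.comp p contDiffAt_fst
  have sO : Sm (Z ×ˢ (univ : Set ℝ)) Om := by
    intro p hp
    by_cases h : p.1 ∈ Ud N H₂ H₁ r
    · exact (hbs p).smul (hO.1 p ⟨⟨hp.1, h⟩, mem_univ _⟩)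
    · exact (contDiffAt_const (c := (0 : Ext ((((Euc N × Euc N) × H₂) × H₁) × ℝ)))).congr_of_eventuallyEq
        (hout p h)
  have eO : Eqv ((Z ∩ Ud N H₂ H₁ r) ×ˢ (univ : Set ℝ)) Om Om₀ := by
    refine eqv_iff.2 fun p hp => ?_
    change pb _ (b p.1 • Om₀ p) = _
    by_cases h : R < ‖p.1.2‖ ∨ R < ‖p.1.1.2‖
    · have h2 := hz0 p hp h
      rw [rsL_apply] at h2
      rw [map_smul, h2, smul_zero]
    · push Not at h
      rw [b1 p.1 h.2 h.1, one_smul]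
  have cO : Cl (Z ×ˢ (univ : Set ℝ)) Om := by
    have h2 : Cl ((Z ∩ Ud N H₂ H₁ r) ×ˢ (univ : Set ℝ)) Om :=
      Cl.of_eqv hWm (sO.mono (prod_mono inter_subset_left subset_rfl)) hO.1 eO hcl
    rw [Cl, resZero_iff] at h2 ⊢
    rw [set_eq] at h2
    refine eqv_iff.2 fun p hp => ?_
    by_cases h : p.1 ∈ Ud N H₂ H₁ r
    · exact eqv_of_open (hUo.preimage continuous_fst) h2 hp h
    · rw [F.d_congr (hout p h), d_zero']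
  have zO : ∀ p ∈ Z ×ˢ (univ : Set ℝ), (R < ‖p.1.2‖ ∨ R < ‖p.1.1.2‖) →
      pb (Tan (Z ×ˢ (univ : Set ℝ)) p).subtype (Om p) = 0 := by
    intro p hp h2
    by_cases h : p.1 ∈ Ud N H₂ H₁ r
    · have h3 : rsL ((Z ×ˢ (univ : Set ℝ)) ∩ (Prod.fst ⁻¹' Ud N H₂ H₁ r)) p (Om₀ p) = 0 := by
        rw [← set_eq]; exact hz0 p ⟨⟨hp.1, h⟩, mem_univ _⟩ h2
      have h4 : Tan ((Z ×ˢ (univ : Set ℝ)) ∩ (Prod.fst ⁻¹' Ud N H₂ H₁ r)) p =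
          Tan (Z ×ˢ (univ : Set ℝ)) p := Tan_inter_open (hUo.preimage continuous_fst) h
      have h5 : ∀ (K K' : Submodule ℝ ((((Euc N × Euc N) × H₂) × H₁) × ℝ)), K = K' →
          pb K.subtype (Om₀ p) = 0 → pb K'.subtype (Om₀ p) = 0 := by
        rintro K K' rfl h; exact h
      have h6 := h5 _ _ h4 h3
      change pb _ (b p.1 • Om₀ p) = _
      rw [map_smul, h6, smul_zero]
    · rw [(hout p h).self_of_nhds]
      exact map_zero _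
  -- the ends
  have key : ∀ (t : ℝ) (V : ((Euc N × Euc N) × H₂) × H₁ → Ext (((Euc N × Euc N) × H₂) × H₁)),
      D.IsRel (Z ∩ Ud N H₂ H₁ r) α (fun y => fh (y, t)) (fun y => ch (y, t)) V →
      (∀ z ∈ Z, (R < ‖z.2‖ ∨ R < ‖z.1.2‖) → rsL Z z (V z) = 0) →
      Eqv Z (F.pull (fun z : ((Euc N × Euc N) × H₂) × H₁ => (z, t)) Om) V := by
    intro t V hV zV
    have hg : SMap (Z ∩ Ud N H₂ H₁ r) ((Z ∩ Ud N H₂ H₁ r) ×ˢ (univ : Set ℝ))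
        (fun z : ((Euc N × Euc N) × H₂) × H₁ => (z, t)) :=
      ⟨fun _ _ => contDiffAt_id.prodMk contDiffAt_const, fun _ hx => ⟨hx, mem_univ _⟩⟩
    have h2 : Eqv (Z ∩ Ud N H₂ H₁ r)
        (F.pull (fun z : ((Euc N × Euc N) × H₂) × H₁ => (z, t)) Om₀) V := by
      refine hO.nat hD hWm hαW hαW1 hf hc hZU hαU hα1 (hf.comp hg.smooth hg.maps)
        (fun y hy => (hc _ (hg.maps hy)).comp y (hg.smooth y hy)) hV hg (fun _ _ _ => rfl)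
        (fun _ _ => rfl) (Eqv.of_eq fun y hy => ?_)
      rw [F.pull_comp (hg.diff hy) differentiableAt_fst]
      exact F.pull_id α y
    refine eqv_iff.2 fun z hz => ?_
    have e1 : F.pull (fun z : ((Euc N × Euc N) × H₂) × H₁ => (z, t)) Om z =
        b z • F.pull (fun z : ((Euc N × Euc N) × H₂) × H₁ => (z, t)) Om₀ z := by
      change pb _ (b z • Om₀ (z, t)) = b z • pb _ (Om₀ (z, t))
      rw [map_smul]
    rw [e1, map_smul]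
    by_cases h : z ∈ Ud N H₂ H₁ r
    · rw [eqv_of_open hUo h2 hz h]
      by_cases h3 : R < ‖z.2‖ ∨ R < ‖z.1.2‖
      · have h4 := zV z hz h3
        rw [rsL_apply] at h4
        rw [h4, smul_zero]
      · push Not at h3
        rw [b1 z h3.2 h3.1, one_smul]
    · have h3 : R' ≤ ‖z.1.2‖ ∨ R' ≤ ‖z.2‖ := by
        by_contra hcon
        push Not at hcon
        exact h ⟨by linarith [hcon.1], by linarith [hcon.2]⟩
      have h4 := zV z hz (h3.symm.imp (fun h => by linarith) fun h => by linarith)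
      rw [rsL_apply] at h4
      rw [b0 z h3, zero_smul, h4]
  exact ⟨Om, sO, cO, zO, key 0 V0 h0 z0, key 1 V1 h1 z1⟩

end form

end Crest.Agent.R208.FU
end
end

-- ▼ part R208/FU3
section

/-!
R208, (8,2), (A2) (helper336), part FU3: from the relative form of the level two family over
`Z = TT (US G) P₂ P₁` to the form pulled back from `N4 h` (helper10's `Pair`): cohomologous push
forwards. Two homotopies: change of the cut off, and the junction.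
-/

set_option autoImplicit false
set_option linter.unusedSectionVars false
set_option linter.unusedVariables false
set_option maxHeartbeats 1600000

open MeasureTheory Set Filter Topology Module
open scoped ContDiff RealInnerProductSpace Real
open Crest.GeometryTopology.Submanifold
open Crest.Agent.R241.DDefs Crest.Agent.R241.D Crest.Agent.R241.D2
open Crest.Agent.R208.F Crest.Agent.R208.FI Crest.Agent.R208.CW Crest.Agent.R208.T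
open Crest.Agent.R208.CM (Triv Qd)
open Crest.Agent.R208.VC (rsL rsL_apply)
open Crest.Agent.R208.EX
open Crest.Agent.R208.MS (En)
open Crest.Agent.R208.TP (TT CV pu₁ pu₂)
open Crest.Agent.R208.TU (bT bN FK Psi LinK Cut Pair smap_bT)

noncomputable section

namespace Crest.Agent.R208.FU

section restr
variable {N m m' : ℕ} {E : Type} [NormedAddCommGroup E] [NormedSpace ℝ E] [FiniteDimensional ℝ E]
  {D : ED N} {X X' : Set E} {α : E → Ext E} {f f' : E → ℝ → Euc N} {c c' : E → ℝ}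
  {Om : E → Ext E}

/-- restriction of a relative form to a subset, with equal loops and cut off there -/
theorem isRel_sub (hD : D.OK) (hX : Sub m X) (hα : Sm X α) (hα1 : Hom 1 α) (hf : LF D.S X f)
    (hc : ∀ y ∈ X, ContDiffAt ℝ ∞ c y) (hO : D.IsRel X α f c Om) (hX' : Sub m' X') (hs : X' ⊆ X)
    (hf' : LF D.S X' f') (hff : ∀ y ∈ X', ∀ t, f' y t = f y t)
    (hc' : ∀ y ∈ X', ContDiffAt ℝ ∞ c' y) (hcc : ∀ y ∈ X', c' y = c y)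
    (hE : ∀ y ∈ X', 0 < c' y → En (f' y) ≤ D.B) : D.IsRel X' α f' c' Om := by
  obtain ⟨Om', h'⟩ := ED.exists_rel hD hX' (hα.mono hs) hα1 hf' hc' hE
  refine h'.of_eqv (hO.1.mono hs) ?_
  have hg : SMap X' X (fun y : E => y) := ⟨fun _ _ => contDiffAt_id, fun y hy => hs hy⟩
  have h1 := hO.nat hD hX hα hα1 hf hc hX' (hα.mono hs) hα1 hf' hc' h' hg hff hcc
    (Eqv.of_eq fun y _ => F.pull_id α y)
  exact (Eqv.of_eq fun y _ => (F.pull_id Om y).symm).trans h1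

end restr

variable {N N' n k d m r₁ r₂ : ℕ} {κ : ℝ} {S : Set (Euc N)} {G : Geo n N κ S}
  {H₁ H₂ : Type} [NormedAddCommGroup H₁] [InnerProductSpace ℝ H₁] [FiniteDimensional ℝ H₁]
  [NormedAddCommGroup H₂] [InnerProductSpace ℝ H₂] [FiniteDimensional ℝ H₂]
  {V₁ V₂ : Type} [NormedAddCommGroup V₁] [InnerProductSpace ℝ V₁] [FiniteDimensional ℝ V₁]
  [MeasurableSpace V₁] [BorelSpace V₁] (μ₁ : Measure V₁) [μ₁.IsAddHaarMeasure]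
  [NormedAddCommGroup V₂] [InnerProductSpace ℝ V₂] [FiniteDimensional ℝ V₂]
  [MeasurableSpace V₂] [BorelSpace V₂] (μ₂ : Measure V₂) [μ₂.IsAddHaarMeasure]
  {P₁ : Euc N × Euc N → H₁ →L[ℝ] H₁} {P₂ : Euc N × Euc N → H₂ →L[ℝ] H₂}
  {Q₁ : Euc N × Euc N → V₁ →L[ℝ] V₁} {Q₂ : Euc N × Euc N → V₂ →L[ℝ] V₂}
  {T₁ : Euc N × Euc N → H₁ →L[ℝ] V₁} {T₂ : Euc N × Euc N → H₂ →L[ℝ] V₂}
  {τ₁' : (Euc N × Euc N) × V₁ → Ext ((Euc N × Euc N) × V₁)}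
  {τ₂' : (Euc N × Euc N) × V₂ → Ext ((Euc N × Euc N) × V₂)}
  {X : Set (Euc N × Euc N)} {R R₀ R₁ R₂ R' r : ℝ}

/-- the isometry of total spaces -/
abbrev Phi (T₂ : Euc N × Euc N → H₂ →L[ℝ] V₂) (T₁ : Euc N × Euc N → H₁ →L[ℝ] V₁)
    (z : ((Euc N × Euc N) × H₂) × H₁) : ((Euc N × Euc N) × V₂) × V₁ :=
  ((z.1.1, T₂ z.1.1 z.1.2), T₁ z.1.1 z.2)

/-- the data of the isometries -/
structure Iso (X : Set (Euc N × Euc N)) (r₁ r₂ : ℕ) (P₁ : Euc N × Euc N → H₁ →L[ℝ] H₁)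
    (P₂ : Euc N × Euc N → H₂ →L[ℝ] H₂) (Q₁ : Euc N × Euc N → V₁ →L[ℝ] V₁)
    (Q₂ : Euc N × Euc N → V₂ →L[ℝ] V₂) (T₁ : Euc N × Euc N → H₁ →L[ℝ] V₁)
    (T₂ : Euc N × Euc N → H₂ →L[ℝ] V₂) (R₁ R₂ : ℝ)
    (τ₁' : (Euc N × Euc N) × V₁ → Ext ((Euc N × Euc N) × V₁))
    (τ₂' : (Euc N × Euc N) × V₂ → Ext ((Euc N × Euc N) × V₂)) : Prop where
  s₁ : ∀ x ∈ X, ContDiffAt ℝ ∞ T₁ x
  i₁ : ∀ x ∈ X, ∀ w, ‖T₁ x w‖ = ‖w‖
  s₂ : ∀ x ∈ X, ContDiffAt ℝ ∞ T₂ x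
  i₂ : ∀ x ∈ X, ∀ w, ‖T₂ x w‖ = ‖w‖
  q₁ : ∀ x ∈ X, Q₁ x = Qd T₁ P₁ x
  q₂ : ∀ x ∈ X, Q₂ x = Qd T₂ P₂ x
  hP₁ : PField X r₁ P₁
  hP₂ : PField X r₂ P₂
  hQ₁ : PField X r₁ Q₁
  hQ₂ : PField X r₂ Q₂
  hτ₁ : CSF X (fun x => 1 - Q₁ x) R₁ τ₁'
  hτ₂ : CSF X (fun x => 1 - Q₂ x) R₂ τ₂'

section hom
variable {D : ED N'}
  {α : ((Euc N × Euc N) × H₂) × H₁ → Ext (((Euc N × Euc N) × H₂) × H₁)}
  {fh : (((Euc N × Euc N) × H₂) × H₁) × ℝ → ℝ → Euc N'}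
  {ch : (((Euc N × Euc N) × H₂) × H₁) × ℝ → ℝ}
  {V0 V1 : ((Euc N × Euc N) × H₂) × H₁ → Ext (((Euc N × Euc N) × H₂) × H₁)}
  {W0 W1 : ((Euc N × Euc N) × V₂) × V₁ → Ext (((Euc N × Euc N) × V₂) × V₁)}

/-- two relative forms joined by a homotopy have cohomologous push forwards -/
theorem pu_hom (hX : Sub d X) (I : Iso X r₁ r₂ P₁ P₂ Q₁ Q₂ T₁ T₂ R₁ R₂ τ₁' τ₂') (hD : D.OK)
    (hZ : Sub m (TT X P₂ P₁)) (hα : Sm (TT X P₂ P₁) α) (hα1 : Hom 1 α) (hR : 0 < R) (hR' : R < R')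
    (hr : R' < r)
    (hf : LF D.S ((TT X P₂ P₁ ∩ Ud N H₂ H₁ r) ×ˢ (univ : Set ℝ)) fh)
    (hc : ∀ y ∈ (TT X P₂ P₁ ∩ Ud N H₂ H₁ r) ×ˢ (univ : Set ℝ), ContDiffAt ℝ ∞ ch y)
    (hE : ∀ y ∈ (TT X P₂ P₁ ∩ Ud N H₂ H₁ r) ×ˢ (univ : Set ℝ), 0 < ch y → En (fh y) ≤ D.B)
    (hco : ∀ y ∈ (TT X P₂ P₁ ∩ Ud N H₂ H₁ r) ×ˢ (univ : Set ℝ),
      (R < ‖y.1.2‖ ∨ R < ‖y.1.1.2‖) → 3 / 4 < ch y)
    (h0 : D.IsRel (TT X P₂ P₁ ∩ Ud N H₂ H₁ r) α (fun y => fh (y, 0)) (fun y => ch (y, 0)) V0)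
    (h1 : D.IsRel (TT X P₂ P₁ ∩ Ud N H₂ H₁ r) α (fun y => fh (y, 1)) (fun y => ch (y, 1)) V1)
    (z0 : ∀ z ∈ TT X P₂ P₁, (R < ‖z.2‖ ∨ R < ‖z.1.2‖) → rsL (TT X P₂ P₁) z (V0 z) = 0)
    (z1 : ∀ z ∈ TT X P₂ P₁, (R < ‖z.2‖ ∨ R < ‖z.1.2‖) → rsL (TT X P₂ P₁) z (V1 z) = 0) (j : ℕ)
    (hW0 : CV X Q₂ Q₁ R₀ W0) (hW1 : CV X Q₂ Q₁ R₀ W1)
    (e0 : Eqv (TT X P₂ P₁) (F.pull (Phi T₂ T₁) W0) (T.dp j V0))
    (e1 : Eqv (TT X P₂ P₁) (F.pull (Phi T₂ T₁) W1) (T.dp j V1)) :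
    Coh X (pu₂ μ₁ μ₂ Q₂ τ₂' Q₁ τ₁' W1) (pu₂ μ₁ μ₂ Q₂ τ₂' Q₁ τ₁' W0) := by
  obtain ⟨Om, sO, cO, zO, k0, k1⟩ := exists_homform hD hZ hα hα1 hR hR' hr hf hc hE hco h0 h1 z0 z1
  exact HO.hom_iso μ₁ μ₂ hX I.s₁ I.i₁ I.s₂ I.i₂ I.q₁ I.q₂ I.hQ₁ I.hQ₂ I.hτ₁ I.hτ₂ hR.le sO cO zO j
    hW0 hW1 (e0.trans (k0.dp j).symm) (e1.trans (k1.dp j).symm)

end hom

end Crest.Agent.R208.FU
end
end

-- ▼ part R208/FU4

/-!
R208, (8,2), (A2) (helper336), part FU4: **the main theorem of the `TT` half of (A2)**: the push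
forward of the relative form of the family `fo` (cut off `c`) over `Z = TT (US G) P₂ P₁` is
cohomologous to the push forward of the form pulled back from `N4 h` (helper10's `Pair`).
-/

set_option autoImplicit false
set_option linter.unusedSectionVars false
set_option linter.unusedVariables false
set_option maxHeartbeats 1600000

open MeasureTheory Set Filter Topology Module
open scoped ContDiff RealInnerProductSpace Real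
open Crest.GeometryTopology.Submanifold
open Crest.Agent.R241.DDefs Crest.Agent.R241.D Crest.Agent.R241.D2
open Crest.Agent.R208.F Crest.Agent.R208.FI Crest.Agent.R208.CW Crest.Agent.R208.T
open Crest.Agent.R208.CM (Triv Qd)
open Crest.Agent.R208.VC (rsL rsL_apply)
open Crest.Agent.R208.EX
open Crest.Agent.R208.MS (En)
open Crest.Agent.R208.TP (TT CV pu₁ pu₂)
open Crest.Agent.R208.TU (bT bN FK Psi LinK Cut Pair smap_bT)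

noncomputable section

namespace Crest.Agent.R208.FU

variable {N n k d r₁ r₂ : ℕ} {κ : ℝ} {S : Set (Euc N)} {G : Geo n N κ S}
  {H₁ H₂ : Type} [NormedAddCommGroup H₁] [InnerProductSpace ℝ H₁] [FiniteDimensional ℝ H₁]
  [NormedAddCommGroup H₂] [InnerProductSpace ℝ H₂] [FiniteDimensional ℝ H₂]
  {V₁ V₂ : Type} [NormedAddCommGroup V₁] [InnerProductSpace ℝ V₁] [FiniteDimensional ℝ V₁]
  [MeasurableSpace V₁] [BorelSpace V₁] (μ₁ : Measure V₁) [μ₁.IsAddHaarMeasure]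
  [NormedAddCommGroup V₂] [InnerProductSpace ℝ V₂] [FiniteDimensional ℝ V₂]
  [MeasurableSpace V₂] [BorelSpace V₂] (μ₂ : Measure V₂) [μ₂.IsAddHaarMeasure]
  {P₁ : Euc N × Euc N → H₁ →L[ℝ] H₁} {P₂ : Euc N × Euc N → H₂ →L[ℝ] H₂}
  {Q₁ : Euc N × Euc N → V₁ →L[ℝ] V₁} {Q₂ : Euc N × Euc N → V₂ →L[ℝ] V₂}
  {T₁ : Euc N × Euc N → H₁ →L[ℝ] V₁} {T₂ : Euc N × Euc N → H₂ →L[ℝ] V₂}
  {τ₁' : (Euc N × Euc N) × V₁ → Ext ((Euc N × Euc N) × V₁)}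
  {τ₂' : (Euc N × Euc N) × V₂ → Ext ((Euc N × Euc N) × V₂)}
  {R R₀ R₀' R₁ R₂ r : ℝ}
  {D : ED N} {hb : GT.Bla G k} {Lz : Euc N × Euc N → (H₂ × H₁) →L[ℝ] (Fin 4 → Euc N)} {εg : ℝ}
  {cK : (((Euc N × Euc N) × Euc N) × Euc N) × Euc N → ℝ} {ρ ρ' δ' ρ₁ : ℝ}
  {α : Euc N × Euc N → Ext (Euc N × Euc N)}
  {om : (((Euc N × Euc N) × Euc N) × Euc N) × Euc N →
    Ext ((((Euc N × Euc N) × Euc N) × Euc N) × Euc N)}
  {V₀ V V' : ((Euc N × Euc N) × H₂) × H₁ → Ext (((Euc N × Euc N) × H₂) × H₁)}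
  {fJ : (((Euc N × Euc N) × H₂) × H₁) × ℝ → ℝ → Euc N}
  {fo : ((Euc N × Euc N) × H₂) × H₁ → ℝ → Euc N}
  {c c' : ((Euc N × Euc N) × H₂) × H₁ → ℝ}
  {W W0 W' : ((Euc N × Euc N) × V₂) × V₁ → Ext (((Euc N × Euc N) × V₂) × V₁)}

theorem dp_zero_rs {E : Type} [NormedAddCommGroup E] [NormedSpace ℝ E] [FiniteDimensional ℝ E]
    {Z : Set E} {x : E} {V : E → Ext E} (j : ℕ) (h : rsL Z x (V x) = 0) :
    pb (Tan Z x).subtype (T.dp j V x) = 0 := by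
  rw [rsL_apply] at h
  rw [T.dp, ← dpl_pb, h, map_zero]

section cutoff
variable (hX : Sub d (L.US G)) (hZ : Sub (d + r₂ + r₁) (TT (L.US G) P₂ P₁))
  (I : Iso (L.US G) r₁ r₂ P₁ P₂ Q₁ Q₂ T₁ T₂ R₁ R₂ τ₁' τ₂') (hD : D.OK)
  (hα : Sm (L.US G) α) (hα1 : Hom 1 α) (ho : LF D.S (TT (L.US G) P₂ P₁) fo)

include hX hZ I hD hα hα1 ho

/-- **change of the cut off** -/
theorem pu_cutoff (hR : 0 < R) (hc : ∀ x ∈ TT (L.US G) P₂ P₁, ContDiffAt ℝ ∞ c x)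
    (hcE : ∀ x ∈ TT (L.US G) P₂ P₁, 0 < c x → En (fo x) ≤ D.B)
    (hcR : ∀ x ∈ TT (L.US G) P₂ P₁, (R < ‖x.2‖ ∨ R < ‖x.1.2‖) → 3 / 4 < c x)
    (hc' : ∀ x ∈ TT (L.US G) P₂ P₁, ContDiffAt ℝ ∞ c' x)
    (hcE' : ∀ x ∈ TT (L.US G) P₂ P₁, 0 < c' x → En (fo x) ≤ D.B)
    (hcR' : ∀ x ∈ TT (L.US G) P₂ P₁, (R < ‖x.2‖ ∨ R < ‖x.1.2‖) → 3 / 4 < c' x)
    (hV : D.IsRel (TT (L.US G) P₂ P₁) (F.pull bT α) fo c V)
    (hV' : D.IsRel (TT (L.US G) P₂ P₁) (F.pull bT α) fo c' V') (j : ℕ)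
    (hW : CV (L.US G) Q₂ Q₁ R₀ W) (hW' : CV (L.US G) Q₂ Q₁ R₀ W')
    (eW : Eqv (TT (L.US G) P₂ P₁) (F.pull (Phi T₂ T₁) W) (T.dp j V))
    (eW' : Eqv (TT (L.US G) P₂ P₁) (F.pull (Phi T₂ T₁) W') (T.dp j V')) :
    Coh (L.US G) (pu₂ μ₁ μ₂ Q₂ τ₂' Q₁ τ₁' W') (pu₂ μ₁ μ₂ Q₂ τ₂' Q₁ τ₁' W) := by
  have hbT : SMap (TT (L.US G) P₂ P₁) (L.US G) bT := smap_bT
  have hαT := hα.pull hbT
  have hαT1 : Hom 1 (F.pull (bT (H₁ := H₁) (H₂ := H₂)) α) := hα1.pull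
  have hUo : IsOpen (Ud N H₂ H₁ (R + 2)) := isOpen_Ud _
  have hZU : Sub (d + r₂ + r₁) (TT (L.US G) P₂ P₁ ∩ Ud N H₂ H₁ (R + 2)) :=
    T.Sub.inter_open' hZ hUo
  have hsub : TT (L.US G) P₂ P₁ ∩ Ud N H₂ H₁ (R + 2) ⊆ TT (L.US G) P₂ P₁ := inter_subset_left
  have hfh : LF D.S ((TT (L.US G) P₂ P₁ ∩ Ud N H₂ H₁ (R + 2)) ×ˢ (univ : Set ℝ))
      (fun y => fo y.1) :=
    ho.comp (g := fun y : (((Euc N × Euc N) × H₂) × H₁) × ℝ => y.1)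
      (fun y _ => contDiffAt_fst) fun y hy => hy.1.1
  have hsm : ∀ t : ℝ, 0 ≤ Real.smoothTransition t ∧ Real.smoothTransition t ≤ 1 := fun t =>
    ⟨Real.smoothTransition.nonneg t, Real.smoothTransition.le_one t⟩
  have hcm : ∀ y ∈ (TT (L.US G) P₂ P₁ ∩ Ud N H₂ H₁ (R + 2)) ×ˢ (univ : Set ℝ),
      ContDiffAt ℝ ∞ (fun y : (((Euc N × Euc N) × H₂) × H₁) × ℝ =>
        (1 - Real.smoothTransition y.2) * c y.1 + Real.smoothTransition y.2 * c' y.1) y := by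
    intro y hy
    have a1 : ContDiffAt ℝ ∞ (fun y : (((Euc N × Euc N) × H₂) × H₁) × ℝ =>
        Real.smoothTransition y.2) y :=
      Real.smoothTransition.contDiff.contDiffAt.comp y contDiffAt_snd
    have a2 : ContDiffAt ℝ ∞ (fun y : (((Euc N × Euc N) × H₂) × H₁) × ℝ => c y.1) y :=
      (hc y.1 hy.1.1).comp y contDiffAt_fst
    have a3 : ContDiffAt ℝ ∞ (fun y : (((Euc N × Euc N) × H₂) × H₁) × ℝ => c' y.1) y :=
      (hc' y.1 hy.1.1).comp y contDiffAt_fst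
    exact ((contDiffAt_const.sub a1).mul a2).add (a1.mul a3)
  have hEm : ∀ y ∈ (TT (L.US G) P₂ P₁ ∩ Ud N H₂ H₁ (R + 2)) ×ˢ (univ : Set ℝ),
      0 < (1 - Real.smoothTransition y.2) * c y.1 + Real.smoothTransition y.2 * c' y.1 →
        En (fo y.1) ≤ D.B := by
    intro y hy h0
    by_cases h1 : 0 < c y.1
    · exact hcE _ hy.1.1 h1
    · by_cases h2 : 0 < c' y.1
      · exact hcE' _ hy.1.1 h2
      · exfalso
        have h3 := hsm y.2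
        have h4 : (1 - Real.smoothTransition y.2) * c y.1 ≤ 0 :=
          mul_nonpos_of_nonneg_of_nonpos (by linarith [h3.2]) (not_lt.1 h1)
        have h5 : Real.smoothTransition y.2 * c' y.1 ≤ 0 :=
          mul_nonpos_of_nonneg_of_nonpos h3.1 (not_lt.1 h2)
        linarith
  have hcom : ∀ y ∈ (TT (L.US G) P₂ P₁ ∩ Ud N H₂ H₁ (R + 2)) ×ˢ (univ : Set ℝ),
      (R < ‖y.1.2‖ ∨ R < ‖y.1.1.2‖) →
      3 / 4 < (1 - Real.smoothTransition y.2) * c y.1 + Real.smoothTransition y.2 * c' y.1 := by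
    intro y hy h0
    have h1 := hcR _ hy.1.1 h0
    have h2 := hcR' _ hy.1.1 h0
    have h3 := hsm y.2
    rcases le_total (c y.1) (c' y.1) with h4 | h4
    · nlinarith [mul_nonneg h3.1 (sub_nonneg.2 h4)]
    · nlinarith [mul_nonneg (sub_nonneg.2 h3.2) (sub_nonneg.2 h4)]
  refine pu_hom μ₁ μ₂ (R := R) (R' := R + 1) (r := R + 2) (fh := fun y => fo y.1)
    (ch := fun y => (1 - Real.smoothTransition y.2) * c y.1 + Real.smoothTransition y.2 * c' y.1)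
    hX I hD hZ hαT hαT1 hR (by linarith) (by linarith) hfh hcm hEm hcom (V0 := V) (V1 := V')
    ?_ ?_ ?_ ?_ j hW hW' eW eW'
  · exact isRel_sub hD hZ hαT hαT1 ho hc hV hZU hsub (ho.mono hsub) (fun _ _ _ => rfl)
      (fun y hy => (hcm (y, 0) ⟨hy, mem_univ _⟩).comp (g := fun y : (((Euc N × Euc N) × H₂) × H₁) × ℝ =>
        (1 - Real.smoothTransition y.2) * c y.1 + Real.smoothTransition y.2 * c' y.1) y
        (contDiffAt_id.prodMk contDiffAt_const))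
      (fun y _ => by
        show (1 - Real.smoothTransition 0) * c y + Real.smoothTransition 0 * c' y = c y
        rw [Real.smoothTransition.zero]; ring)
      (fun y hy h0 => hEm (y, 0) ⟨hy, mem_univ _⟩ h0)
  · exact isRel_sub hD hZ hαT hαT1 ho hc' hV' hZU hsub (ho.mono hsub) (fun _ _ _ => rfl)
      (fun y hy => (hcm (y, 1) ⟨hy, mem_univ _⟩).comp (g := fun y : (((Euc N × Euc N) × H₂) × H₁) × ℝ =>
        (1 - Real.smoothTransition y.2) * c y.1 + Real.smoothTransition y.2 * c' y.1) y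
        (contDiffAt_id.prodMk contDiffAt_const))
      (fun y _ => by
        show (1 - Real.smoothTransition 1) * c y + Real.smoothTransition 1 * c' y = c' y
        rw [Real.smoothTransition.one]; ring)
      (fun y hy h0 => hEm (y, 1) ⟨hy, mem_univ _⟩ h0)
  · intro z hz h0
    exact hV.zero hD hZ hαT hαT1 ho hc hz (hcR z hz h0)
  · intro z hz h0
    exact hV'.zero hD hZ hαT hαT1 ho hc' hz (hcR' z hz h0)

end cutoff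

/-- **(A2), the `TT` half.** -/
theorem main (hd : d + 1 = 2 * n) (I : Iso (L.US G) r₁ r₂ P₁ P₂ Q₁ Q₂ T₁ T₂ R₁ R₂ τ₁' τ₂')
    (hD : D.OK) (hS : D.S = S) (hO : KG.OK G 4 εg) (hL : LinK hb P₂ P₁ Lz)
    (hC : Cut hb P₂ P₁ Lz εg cK ρ ρ' δ') (hρ : 0 < ρ) (hDB : 4 * π - δ' ≤ D.B)
    (hα : Sm (L.US G) α) (hα1 : Hom 1 α) (hP : Pair D hb P₂ P₁ Lz εg cK ρ ρ₁ α om V₀)
    (hρr : ρ < r)
    (hf : LF S ((TT (L.US G) P₂ P₁ ∩ Ud N H₂ H₁ r) ×ˢ (univ : Set ℝ)) fJ)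
    (hf0 : ∀ x ∈ TT (L.US G) P₂ P₁ ∩ Ud N H₂ H₁ r, ∀ t, fJ (x, 0) t = FK G εg 0 (Psi Lz x) t)
    (hf1 : ∀ x ∈ TT (L.US G) P₂ P₁ ∩ Ud N H₂ H₁ r, ∀ t, fJ (x, 1) t = fo x t)
    (hfE : ∀ x ∈ TT (L.US G) P₂ P₁ ∩ Ud N H₂ H₁ r, ∀ τ, ¬ (‖x.1.2‖ < ρ' ∧ ‖x.2‖ < ρ') →
      En (fJ (x, τ)) ≤ D.B)
    (ho : LF S (TT (L.US G) P₂ P₁) fo)
    (hoE : ∀ x ∈ TT (L.US G) P₂ P₁, ¬ (‖x.1.2‖ < ρ' ∧ ‖x.2‖ < ρ') → En (fo x) ≤ D.B)
    (hR : 0 < R) (hc : ∀ x ∈ TT (L.US G) P₂ P₁, ContDiffAt ℝ ∞ c x)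
    (hcE : ∀ x ∈ TT (L.US G) P₂ P₁, 0 < c x → En (fo x) ≤ D.B)
    (hcR : ∀ x ∈ TT (L.US G) P₂ P₁, (R < ‖x.2‖ ∨ R < ‖x.1.2‖) → 3 / 4 < c x)
    (hV : D.IsRel (TT (L.US G) P₂ P₁) (F.pull bT α) fo c V) (j : ℕ)
    (hW : CV (L.US G) Q₂ Q₁ R₀ W) (hW0 : CV (L.US G) Q₂ Q₁ R₀' W0)
    (eW : Eqv (TT (L.US G) P₂ P₁) (F.pull (Phi T₂ T₁) W) (T.dp j V))
    (eW0 : Eqv (TT (L.US G) P₂ P₁) (F.pull (Phi T₂ T₁) W0) (T.dp j V₀)) :
    Coh (L.US G) (pu₂ μ₁ μ₂ Q₂ τ₂' Q₁ τ₁' W) (pu₂ μ₁ μ₂ Q₂ τ₂' Q₁ τ₁' W0) := by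
  have hX : Sub d (L.US G) := (SB.clo_US hb hd).sub
  have hZ := TU.sub_TT hb hd I.hP₂ I.hP₁
  have hbT : SMap (TT (L.US G) P₂ P₁) (L.US G) bT := smap_bT
  have hαT := hα.pull hbT
  have hαT1 : Hom 1 (F.pull (bT (H₁ := H₁) (H₂ := H₂)) α) := hα1.pull
  have hPs := hL.smap_Psi
  have hcP : ∀ x ∈ TT (L.US G) P₂ P₁, ContDiffAt ℝ ∞ (fun x => cK (Psi Lz x)) x := fun x hx =>
    ContDiffAt.comp (g := cK) x hC.smooth.contDiffAt (hPs.smooth x hx)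
  have hcPE : ∀ x ∈ TT (L.US G) P₂ P₁, 0 < cK (Psi Lz x) → ¬ (‖x.1.2‖ < ρ' ∧ ‖x.2‖ < ρ') := by
    intro x hx h0 h1
    rw [hC.zero x hx h1.1 h1.2] at h0
    exact lt_irrefl _ h0
  have hcP1 : ∀ x ∈ TT (L.US G) P₂ P₁, (ρ < ‖x.2‖ ∨ ρ < ‖x.1.2‖) → cK (Psi Lz x) = 1 := by
    intro x hx h0
    refine hC.one hL hx fun h1 => ?_
    rcases h0 with h0 | h0
    · exact absurd h1.2 (not_lt.2 h0.le)
    · exact absurd h1.1 (not_lt.2 h0.le)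
  have ho' : LF D.S (TT (L.US G) P₂ P₁) fo := by rw [hS]; exact ho
  have hf' : LF D.S ((TT (L.US G) P₂ P₁ ∩ Ud N H₂ H₁ r) ×ˢ (univ : Set ℝ)) fJ := by
    rw [hS]; exact hf
  have hFK : LF D.S (TT (L.US G) P₂ P₁) (fun x => FK G εg 0 (Psi Lz x)) := by
    rw [hS]
    exact (TU.lf_N4 hO hb (⟨le_rfl, zero_le_one⟩ : (0:ℝ) ∈ Icc (0:ℝ) 1)).comp hPs.smooth hPs.maps
  -- the intermediate form
  obtain ⟨V₁', hV₁⟩ := ED.exists_rel hD hZ hαT hαT1 ho' hcP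
    fun x hx h0 => hoE x hx (hcPE x hx h0)
  have zV₁ : ∀ z ∈ TT (L.US G) P₂ P₁, (ρ < ‖z.2‖ ∨ ρ < ‖z.1.2‖) →
      rsL (TT (L.US G) P₂ P₁) z (V₁' z) = 0 := fun z hz h0 =>
    hV₁.zero hD hZ hαT hαT1 ho' hcP hz (by
      show 3 / 4 < cK (Psi Lz z)
      rw [hcP1 z hz h0]; norm_num)
  have cV₁ := ED.IsRel.cl hD hZ hαT hαT1 ho' hcP hV₁
  obtain ⟨W1, hW1, eW1⟩ := HO.exists_CV_iso hX I.s₁ I.i₁ I.s₂ I.i₂ I.q₁ I.q₂ I.hQ₁ I.hQ₂ hρ.le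
    (hV₁.1.dp j) (Cl.dp j hV₁.1 cV₁) (fun z hz h0 => dp_zero_rs j (zV₁ z hz h0)) I.hP₁ I.hP₂
  -- change of the cut off
  have hm : 0 < max R ρ := lt_of_lt_of_le hR (le_max_left _ _)
  set RR := max R₀ (max R₀' (ρ + 1)) with hRR
  have hW' := HO.cv_mono (R' := RR) (le_max_left _ _) hW
  have hW0' := HO.cv_mono (R' := RR) ((le_max_left _ _).trans (le_max_right _ _)) hW0
  have hW1' := HO.cv_mono (R' := RR) ((le_max_right _ _).trans (le_max_right _ _)) hW1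
  have k2 : Coh (L.US G) (pu₂ μ₁ μ₂ Q₂ τ₂' Q₁ τ₁' W) (pu₂ μ₁ μ₂ Q₂ τ₂' Q₁ τ₁' W1) := by
    refine pu_cutoff μ₁ μ₂ hX hZ I hD hα hα1 ho' (R := max R ρ) (c := fun x => cK (Psi Lz x))
      (c' := c) hm hcP (fun x hx h0 => hoE x hx (hcPE x hx h0)) (fun x hx h0 => ?_) hc hcE
      (fun x hx h0 => ?_) hV₁ hV j hW1' hW' eW1 eW
    · rw [hcP1 x hx (h0.imp (fun h => (le_max_right _ _).trans_lt h)
        fun h => (le_max_right _ _).trans_lt h)]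
      norm_num
    · exact hcR x hx (h0.imp (fun h => (le_max_left _ _).trans_lt h)
        fun h => (le_max_left _ _).trans_lt h)
  -- the junction
  have hUo : IsOpen (Ud N H₂ H₁ r) := isOpen_Ud _
  have hZU : Sub (d + r₂ + r₁) (TT (L.US G) P₂ P₁ ∩ Ud N H₂ H₁ r) := T.Sub.inter_open' hZ hUo
  have hsub : TT (L.US G) P₂ P₁ ∩ Ud N H₂ H₁ r ⊆ TT (L.US G) P₂ P₁ := inter_subset_left
  have hft : ∀ t : ℝ, LF D.S (TT (L.US G) P₂ P₁ ∩ Ud N H₂ H₁ r) (fun y => fJ (y, t)) := fun t =>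
    hf'.comp (g := fun y : ((Euc N × Euc N) × H₂) × H₁ => (y, t))
      (fun y _ => contDiffAt_id.prodMk contDiffAt_const) fun y hy => ⟨hy, mem_univ _⟩
  have k1 : Coh (L.US G) (pu₂ μ₁ μ₂ Q₂ τ₂' Q₁ τ₁' W1) (pu₂ μ₁ μ₂ Q₂ τ₂' Q₁ τ₁' W0) := by
    refine pu_hom μ₁ μ₂ (R := ρ) (R' := (ρ + r) / 2) (r := r) (fh := fJ)
      (ch := fun y => cK (Psi Lz y.1)) hX I hD hZ hαT hαT1 hρ (by linarith) (by linarith) hf'
      (fun y hy => (hcP y.1 hy.1.1).comp y contDiffAt_fst)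
      (fun y hy h0 => hfE y.1 hy.1 y.2 (hcPE y.1 hy.1.1 h0))
      (fun y hy h0 => ?_) (V0 := V₀) (V1 := V₁') ?_ ?_ ?_ zV₁ j hW0' hW1' eW0 eW1
    · rw [hcP1 y.1 hy.1.1 h0]; norm_num
    · exact isRel_sub hD hZ hαT hαT1 hFK hcP hP.relV hZU hsub (hft 0) hf0
        (fun y hy => hcP y hy.1) (fun _ _ => rfl)
        (fun y hy h0 => hfE y hy 0 (hcPE y hy.1 h0))
    · exact isRel_sub hD hZ hαT hαT1 ho' hcP hV₁ hZU hsub (hft 1) hf1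
        (fun y hy => hcP y hy.1) (fun _ _ => rfl)
        (fun y hy h0 => hfE y hy 1 (hcPE y hy.1 h0))
    · intro z hz h0
      rw [hP.offV z hz (fun h1 => by
        rcases h0 with h0 | h0
        · exact absurd h1.2 (not_lt.2 h0.le)
        · exact absurd h1.1 (not_lt.2 h0.le)), map_zero]
  exact k2.trans k1

end Crest.Agent.R208.FU
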