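import Crest.Agent.R208.DEG1
import Crest.Agent.R208.T2a

/-! Row 208, block DEG (helper595).  DEG2: transfer between real forms on `X` up to exact forms
(`Sm`, `Cl`, `Hom`, `Coh`) and the complex even cohomology ring `H X`; independence of degrees. -/

set_option autoImplicit false
set_option linter.unusedSectionVars false
set_option linter.unusedSimpArgs false

open MeasureTheory Set Filter Topology Module Matrix
open scoped ContDiff
open Crest.Agent.R208.F Crest.Agent.R208.FI Crest.Agent.R208.CW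

noncomputable section

namespace Crest.Agent.R208.T

section tr
variable {E F' : Type*} [NormedAddCommGroup E] [NormedSpace ℝ E] [FiniteDimensional ℝ E]
  [NormedAddCommGroup F'] [NormedSpace ℝ F'] [FiniteDimensional ℝ F']
  {X : Set E} {Y : Set F'} {a b : E → Ext E} {om η : E → CF E} {p : ℕ}

/-- real and imaginary parts of a complex form -/
def reF (om : E → CF E) (x : E) : Ext E := (om x).re
def imF (om : E → CF E) (x : E) : Ext E := (om x).im

/-- the complex form `a + i b` -/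
def mkF (a b : E → Ext E) (x : E) : CF E := ⟨a x, b x⟩

@[simp] theorem reF_mkF : reF (mkF a b) = a := rfl
@[simp] theorem imF_mkF : imF (mkF a b) = b := rfl
@[simp] theorem mkF_re_im (om : E → CF E) : mkF (reF om) (imF om) = om := rfl

theorem smo_iff : Smo X om ↔ Sm X (reF om) ∧ Sm X (imF om) :=
  ⟨fun h => ⟨fun x hx => (h x hx).re, fun x hx => (h x hx).im⟩,
    fun h x hx => ⟨h.1 x hx, h.2 x hx⟩⟩


theorem mem_Z_iff : om ∈ Z X ↔ ((∀ x, F.inv (reF om x) = reF om x) ∧ Sm X (reF om) ∧ Cl X (reF om)) ∧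
    ((∀ x, F.inv (imF om x) = imF om x) ∧ Sm X (imF om) ∧ Cl X (imF om)) := by
  rw [mem_Z, smo_iff]
  constructor
  · rintro ⟨h1, h2, h3⟩
    exact ⟨⟨fun x => congrArg Cx.re (h1 x), h2.1, fun x hx => congrArg Cx.re (h3 x hx)⟩,
      ⟨fun x => congrArg Cx.im (h1 x), h2.2, fun x hx => congrArg Cx.im (h3 x hx)⟩⟩
  · rintro ⟨⟨h1, h2, h3⟩, h4, h5, h6⟩
    exact ⟨fun x => Cx.ext (h1 x) (h4 x), ⟨h2, h5⟩, fun x hx => Cx.ext (h3 x hx) (h6 x hx)⟩

theorem inv_of_isDeg {c : Ext E} {j : ℕ} (h : IsDeg (2 * j) c) : F.inv c = c := by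
  refine ext_evA fun q => ?_
  rw [evA_inv]
  by_cases hq : q = 2 * j
  · subst hq
    rw [pow_mul]
    simp
  · rw [h q hq, smul_zero]


/-- equality of classes is `Coh` of the two parts -/
theorem cls_eq_iff_coh {h : om ∈ Z X} {h' : η ∈ Z X} :
    cls om h = cls η h' ↔ Coh X (reF om) (reF η) ∧ Coh X (imF om) (imF η) := by
  rw [cls_eq_iff]
  have key : ∀ (x : E) (a b c : Ext E), pb (Tan X x).subtype a = pb (Tan X x).subtype (b + c) ↔
      pb (Tan X x).subtype a - pb (Tan X x).subtype b = pb (Tan X x).subtype c := fun x a b c => by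
    rw [map_add, sub_eq_iff_eq_add, add_comm]
  constructor
  · rintro ⟨ξ, h1, h2⟩
    refine ⟨⟨reF ξ, (smo_iff.1 h1).1, eqv_iff.2 fun x hx => ?_⟩,
      ⟨imF ξ, (smo_iff.1 h1).2, eqv_iff.2 fun x hx => ?_⟩⟩
    · rw [pbT]
      exact (key x _ _ _).1 (congrArg Cx.re (h2 x hx))
    · rw [pbT]
      exact (key x _ _ _).1 (congrArg Cx.im (h2 x hx))
  · rintro ⟨⟨ξ, h1, h2⟩, ζ, h3, h4⟩
    refine ⟨mkF ξ ζ, smo_iff.2 ⟨h1, h3⟩, fun x hx => Cx.ext ?_ ?_⟩
    · have := eqv_iff.1 h2 x hx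
      rw [pbT] at this
      exact (key x _ _ _).2 this
    · have := eqv_iff.1 h4 x hx
      rw [pbT] at this
      exact (key x _ _ _).2 this

theorem cls_eq_zero_iff_coh {h : om ∈ Z X} :
    cls om h = 0 ↔ Coh X (reF om) 0 ∧ Coh X (imF om) 0 := by
  have h0 : (0 : CW.H X) = cls (0 : E → CF E) (Z X).zero_mem := (map_zero (H.mk X)).symm
  rw [h0, cls_eq_iff_coh]
  rfl

/-- homogeneous classes have homogeneous closed real and imaginary parts -/
theorem mem_HD_iff {j : ℕ} {c : CW.H X} : c ∈ HD X (2 * j) ↔ ∃ a b : E → Ext E,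
    (Sm X a ∧ Cl X a ∧ Hom (2 * j) a) ∧ (Sm X b ∧ Cl X b ∧ Hom (2 * j) b) ∧
      ∃ h : mkF a b ∈ Z X, cls (mkF a b) h = c := by
  constructor
  · rintro ⟨om, h, hd, rfl⟩
    obtain ⟨⟨h1, h2, h3⟩, h4, h5, h6⟩ := mem_Z_iff.1 h
    exact ⟨reF om, imF om, ⟨h2, h3, fun x => (hd x).1⟩, ⟨h5, h6, fun x => (hd x).2⟩, h, rfl⟩
  · rintro ⟨a, b, ⟨h1, h2, h3⟩, ⟨h4, h5, h6⟩, h, rfl⟩
    exact ⟨mkF a b, h, fun x => ⟨h3 x, h6 x⟩, rfl⟩

/-! ### real classes -/

/-- closed even real forms -/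
structure EC (X : Set E) (a : E → Ext E) : Prop where
  inv : ∀ x, F.inv (a x) = a x
  sm : Sm X a
  cl : Cl X a

theorem EC.of_hom {j : ℕ} (ha : Sm X a) (hc : Cl X a) (hd : Hom (2 * j) a) : EC X a :=
  ⟨fun x => inv_of_isDeg (hd x), ha, hc⟩

theorem EC.zero : EC X (0 : E → Ext E) :=
  ⟨fun _ => map_zero _, Sm.zero, fun x _ => by rw [d_zero']; exact map_zero _⟩

theorem EC.one : EC X (1 : E → Ext E) :=
  ⟨fun _ => map_one _, fun _ _ => contDiffAt_const, Cl.const 1⟩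

theorem EC.add (ha : EC X a) (hb : EC X b) : EC X (a + b) :=
  ⟨fun x => by rw [Pi.add_apply, map_add, ha.inv, hb.inv], ha.sm.add hb.sm,
    Cl.add ha.sm hb.sm ha.cl hb.cl⟩

theorem EC.smul (r : ℝ) (ha : EC X a) : EC X (r • a) :=
  ⟨fun x => by rw [Pi.smul_apply, map_smul, ha.inv], ha.sm.smul r, Cl.smul r ha.sm ha.cl⟩

theorem EC.mul (ha : EC X a) (hb : EC X b) : EC X (a * b) :=
  ⟨fun x => by rw [Pi.mul_apply, _root_.map_mul, ha.inv, hb.inv], ha.sm.mul hb.sm,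
    Cl.mul ha.sm hb.sm ha.cl hb.cl⟩

theorem EC.pow (ha : EC X a) (i : ℕ) : EC X (a ^ i) := by
  induction i with
  | zero => rw [pow_zero]; exact EC.one
  | succ i ih => rw [pow_succ]; exact ih.mul ha

theorem EC.sum {κ : Type*} {s : Finset κ} {w : κ → E → Ext E} (h : ∀ i ∈ s, EC X (w i)) :
    EC X (∑ i ∈ s, w i) := by
  classical
  induction s using Finset.induction_on with
  | empty => rw [Finset.sum_empty]; exact EC.zero
  | insert j s hj ih =>
    rw [Finset.sum_insert hj]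
    exact (h j (Finset.mem_insert_self _ _)).add (ih fun i hi => h i (Finset.mem_insert_of_mem hi))

theorem EC.pull {f : E → F'} {w : F' → Ext F'} (hf : SMap X Y f) (h : EC Y w) :
    EC X (F.pull f w) :=
  ⟨fun x => by rw [F.pull, ← pb_inv, h.inv], h.sm.pull hf, Cl.pull hf h.sm h.cl⟩

theorem EC.mem_Z (ha : EC X a) (hb : EC X b) : mkF a b ∈ Z X :=
  mem_Z_iff.2 ⟨⟨ha.inv, ha.sm, ha.cl⟩, hb.inv, hb.sm, hb.cl⟩

/-- the class of a closed even real form -/
def rcl (h : EC X a) : CW.H X := cls (mkF a 0) (h.mem_Z EC.zero)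

theorem rcl_eq_iff (ha : EC X a) (hb : EC X b) : rcl ha = rcl hb ↔ Coh X a b := by
  rw [rcl, rcl, cls_eq_iff_coh]
  exact ⟨fun h => h.1, fun h => ⟨h, Coh.refl _⟩⟩

theorem rcl_congr (ha : EC X a) (hb : EC X b) (h : Coh X a b) : rcl ha = rcl hb :=
  (rcl_eq_iff ha hb).2 h

theorem rcl_zero : rcl (EC.zero (X := X)) = 0 := map_zero (H.mk X)

theorem rcl_one : rcl (EC.one (X := X)) = 1 := map_one (H.mk X)

theorem rcl_eq_zero_iff (ha : EC X a) : rcl ha = 0 ↔ Coh X a 0 := by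
  rw [← rcl_zero, rcl_eq_iff]

theorem cls_of_eq {om η : E → CF E} (h : om ∈ Z X) (h' : η ∈ Z X) (e : om = η) :
    cls om h = cls η h' := by subst e; rfl

theorem rcl_add (ha : EC X a) (hb : EC X b) : rcl (ha.add hb) = rcl ha + rcl hb := by
  rw [rcl, rcl, rcl, ← cls_add]
  exact cls_of_eq _ _ (funext fun x => Cx.ext rfl (add_zero _).symm)

theorem rcl_mul (ha : EC X a) (hb : EC X b) : rcl (ha.mul hb) = rcl ha * rcl hb := by
  rw [rcl, rcl, rcl, ← cls_mul]
  exact cls_of_eq _ _ (funext fun x => Cx.ext (by simp [mkF]) (by simp [mkF]))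

theorem rcl_smul (r : ℝ) (ha : EC X a) : rcl (ha.smul r) = (r : ℂ) • rcl ha := by
  rw [rcl, rcl, ← cls_smul]
  refine cls_of_eq _ _ (funext fun x => Cx.ext ?_ ?_)
  · change r • a x = (r : ℂ).re • a x - (r : ℂ).im • (0 : Ext E)
    simp
  · change (0 : Ext E) = (r : ℂ).re • (0 : Ext E) + (r : ℂ).im • a x
    simp

theorem rcl_of_eq (ha : EC X a) (hb : EC X b) (e : a = b) : rcl ha = rcl hb := by subst e; rfl

theorem rcl_pow (ha : EC X a) (i : ℕ) : rcl (ha.pow i) = rcl ha ^ i := by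
  induction i with
  | zero =>
    refine (rcl_of_eq _ EC.one (pow_zero _)).trans ?_
    rw [rcl_one, pow_zero]
  | succ i ih =>
    refine (rcl_of_eq _ ((ha.pow i).mul ha) (pow_succ _ _)).trans ?_
    rw [rcl_mul (ha.pow i) ha, ih, pow_succ]

theorem rcl_sum {κ : Type*} (s : Finset κ) {w : κ → E → Ext E} (h : ∀ i, EC X (w i)) :
    rcl (EC.sum (s := s) fun i _ => h i) = ∑ i ∈ s, rcl (h i) := by
  classical
  induction s using Finset.induction_on with
  | empty =>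
    refine (rcl_of_eq _ EC.zero Finset.sum_empty).trans ?_
    rw [rcl_zero, Finset.sum_empty]
  | insert j s hj ih =>
    refine (rcl_of_eq _ ((h j).add (EC.sum (s := s) fun i _ => h i))
      (Finset.sum_insert hj)).trans ?_
    rw [rcl_add (h j) (EC.sum (s := s) fun i _ => h i), ih, Finset.sum_insert hj]

theorem rcl_pull {f : E → F'} {w : F' → Ext F'} (hf : SMap X Y f) (h : EC Y w) :
    rcl (h.pull hf) = H.map hf (rcl h) := by
  rw [rcl, rcl, H.map_cls]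
  exact cls_of_eq _ _ (funext fun x => Cx.ext rfl (map_zero _).symm)

theorem rcl_mem_HD {p : ℕ} (ha : EC X a) (hd : Hom p a) : rcl ha ∈ HD X p :=
  cls_mem_HD _ fun x => ⟨hd x, IsDeg.zero⟩

/-- every class is `rcl a + i rcl b` -/
theorem cls_eq_rcl (ha : EC X a) (hb : EC X b) :
    cls (mkF a b) (ha.mem_Z hb) = rcl ha + Complex.I • rcl hb := by
  rw [rcl, rcl, ← cls_smul, ← cls_add]
  exact cls_of_eq _ _ (funext fun x => Cx.ext (by simp [mkF]) (by simp [mkF]))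

theorem exists_rcl (c : CW.H X) : ∃ a b : E → Ext E, ∃ (ha : EC X a) (hb : EC X b),
    c = rcl ha + Complex.I • rcl hb := by
  obtain ⟨om, h, rfl⟩ := H.exists_rep c
  obtain ⟨⟨h1, h2, h3⟩, h4, h5, h6⟩ := mem_Z_iff.1 h
  exact ⟨reF om, imF om, ⟨h1, h2, h3⟩, ⟨h4, h5, h6⟩, by rw [← cls_eq_rcl]; rfl⟩

theorem exists_rcl_HD {j : ℕ} {c : CW.H X} (hc : c ∈ HD X (2 * j)) :
    ∃ a b : E → Ext E, ∃ (ha : EC X a) (hb : EC X b), Hom (2 * j) a ∧ Hom (2 * j) b ∧
      c = rcl ha + Complex.I • rcl hb := by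
  obtain ⟨a, b, ⟨h1, h2, h3⟩, ⟨h4, h5, h6⟩, h, rfl⟩ := mem_HD_iff.1 hc
  exact ⟨a, b, EC.of_hom h1 h2 h3, EC.of_hom h4 h5 h6, h3, h6, by rw [← cls_eq_rcl]⟩

/-- **transfer**: if the closed real forms of degree `2 j` are spanned by the closed forms `w i` up
to exact forms, then `HD X (2 j)` is spanned by their classes -/
theorem HD_span {j : ℕ} {κ : Type*} (s : Finset κ) {w : κ → E → Ext E} (hw : ∀ i, EC X (w i))
    (h : ∀ b, Sm X b → Cl X b → Hom (2 * j) b → ∃ c : κ → ℝ, Coh X b (∑ i ∈ s, c i • w i))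
    {c : CW.H X} (hc : c ∈ HD X (2 * j)) : ∃ C : κ → ℂ, c = ∑ i ∈ s, C i • rcl (hw i) := by
  obtain ⟨a, b, ha, hb, hda, hdb, rfl⟩ := exists_rcl_HD hc
  obtain ⟨u, hu⟩ := h a ha.sm ha.cl hda
  obtain ⟨v, hv⟩ := h b hb.sm hb.cl hdb
  have e1 : ∀ u : κ → ℝ, ∀ {a : E → Ext E} (ha : EC X a), Coh X a (∑ i ∈ s, u i • w i) →
      rcl ha = ∑ i ∈ s, (u i : ℂ) • rcl (hw i) := by
    intro u a ha hu
    rw [rcl_congr ha (EC.sum fun i _ => (hw i).smul (u i)) hu,
      rcl_sum s fun i => (hw i).smul (u i)]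
    exact Finset.sum_congr rfl fun i _ => rcl_smul _ _
  refine ⟨fun i => u i + Complex.I * v i, ?_⟩
  rw [e1 u ha hu, e1 v hb hv, Finset.smul_sum, ← Finset.sum_add_distrib]
  refine Finset.sum_congr rfl fun i _ => ?_
  rw [smul_smul, ← add_smul]

/-- **transfer** of vanishing -/
theorem HD_eq_bot {j : ℕ} (h : ∀ b, Sm X b → Cl X b → Hom (2 * j) b → Coh X b 0) :
    HD X (2 * j) = ⊥ := by
  refine (Submodule.eq_bot_iff _).2 fun c hc => ?_
  obtain ⟨a, b, ha, hb, hda, hdb, rfl⟩ := exists_rcl_HD hc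
  rw [(rcl_eq_zero_iff ha).2 (h a ha.sm ha.cl hda), (rcl_eq_zero_iff hb).2 (h b hb.sm hb.cl hdb),
    smul_zero, add_zero]

/-! ### independence of degrees -/


theorem HD_eq_bot_of_gt {d : ℕ} (hX : Sub d X) (hp : d < p) : HD X p = ⊥ := by
  refine (Submodule.eq_bot_iff _).2 fun c hc => ?_
  obtain ⟨om, h, hd, rfl⟩ := hc
  have h0 : (0 : CW.H X) = cls (0 : E → CF E) (Z X).zero_mem := (map_zero (H.mk X)).symm
  rw [h0]
  refine cls_congr fun x hx => ?_
  obtain ⟨f, V, hf, u, hu, rfl⟩ := hX x hx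
  have hT := finrank_Tan_chart hf hu
  refine Cx.ext ?_ ?_
  · exact (IsDeg.eq_zero ((hd (f u)).1.pb _) (by rw [hT]; exact hp)).trans (map_zero _).symm
  · exact (IsDeg.eq_zero ((hd (f u)).2.pb _) (by rw [hT]; exact hp)).trans (map_zero _).symm

theorem dp_sum {κ : Type*} (s : Finset κ) (w : κ → E → Ext E) (j : ℕ) :
    dp j (∑ i ∈ s, w i) = ∑ i ∈ s, dp j (w i) := funext fun x => by
  rw [dp, Finset.sum_apply, map_sum, Finset.sum_apply]; rfl

theorem cls_sum {κ : Type*} (s : Finset κ) {w : κ → E → CF E} (h : ∀ i, w i ∈ Z X) :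
    cls (∑ i ∈ s, w i) ((Z X).sum_mem fun i _ => h i) = ∑ i ∈ s, cls (w i) (h i) := by
  have := map_sum (H.mk X) (fun i => (⟨w i, h i⟩ : Z X)) s
  rw [show (∑ i ∈ s, cls (w i) (h i)) = ∑ i ∈ s, H.mk X ⟨w i, h i⟩ from rfl, ← this, cls]
  congr 1
  refine Subtype.ext ?_
  rw [AddSubmonoidClass.coe_finsetSum]

/-- **classes of different degrees are independent** -/
theorem HD_independent {s : Finset ℕ} {c : ℕ → CW.H X} (hc : ∀ j ∈ s, c j ∈ HD X j)
    (h0 : ∑ j ∈ s, c j = 0) : ∀ j ∈ s, c j = 0 := by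
  classical
  have h1 : ∀ j, ∃ om, ∃ h : om ∈ Z X, (∀ x, DegC j (om x)) ∧ (j ∈ s → cls om h = c j) := by
    intro j
    by_cases hj : j ∈ s
    · obtain ⟨om, h, h2, h3⟩ := hc j hj
      exact ⟨om, h, h2, fun _ => h3⟩
    · exact ⟨0, (Z X).zero_mem, fun _ => DegC.zero, fun h => absurd h hj⟩
  choose om hm hd he using h1
  have h2 : cls (∑ j ∈ s, om j) ((Z X).sum_mem fun i _ => hm i) = 0 := by
    rw [cls_sum s hm, ← h0]
    exact Finset.sum_congr rfl fun j hj => he j hj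
  rw [cls_eq_zero_iff_coh] at h2
  intro j hj
  rw [← he j hj, cls_eq_zero_iff_coh]
  have e1 : reF (∑ i ∈ s, om i) = ∑ i ∈ s, reF (om i) := funext fun x => by
    rw [reF, Finset.sum_apply, Cx.sum_re, Finset.sum_apply]; rfl
  have e2 : imF (∑ i ∈ s, om i) = ∑ i ∈ s, imF (om i) := funext fun x => by
    rw [imF, Finset.sum_apply, Cx.sum_im, Finset.sum_apply]; rfl
  have h3 := h2.1.dp j
  have h4 := h2.2.dp j
  have hz : dp j (0 : E → Ext E) = 0 := funext fun x => map_zero (dpl j)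
  rw [e1, dp_sum, Finset.sum_eq_single j, hz] at h3
  rw [e2, dp_sum, Finset.sum_eq_single j, hz] at h4
  · rw [show dp j (reF (om j)) = reF (om j) from Hom.dp_eq fun x => (hd j x).1] at h3
    rw [show dp j (imF (om j)) = imF (om j) from Hom.dp_eq fun x => (hd j x).2] at h4
    exact ⟨h3, h4⟩
  · intro i _ hij
    exact funext fun x => dpl_of_isDeg_ne (hd i x).2 hij
  · intro h; exact absurd hj h
  · intro i _ hij
    exact funext fun x => dpl_of_isDeg_ne (hd i x).1 hij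
  · intro h; exact absurd hj h

end tr

end Crest.Agent.R208.T
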