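import Crest.Agent.R208.TDefs
import Crest.Agent.R208.THB4
import Crest.Agent.R208.THD1

-- ▼ part R208/THD0a
section

/-! Row 208, block TH-D0 (helper423), part a: products of two-forms, curvature of the complement of
a unit section of a constant bundle. -/

set_option autoImplicit false
set_option linter.unusedSectionVars false

open Module Set Matrix
open scoped ContDiff
open Crest.Agent.R208.F Crest.Agent.R208.FI Crest.Agent.R208.CW

noncomputable section

namespace Crest.Agent.R208.T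

section alg
variable {T : Type*} [AddCommGroup T] [Module ℝ T] {ι : Type*} [Fintype ι] [DecidableEq ι]

/-- the two-form `l ∧ m`, as an even complex form -/
def m2 (l m : Module.Dual ℝ T) : EvC T := ⟨Cx.ofR (io l * io m), by
  change invC _ = _
  refine Cx.ext ?_ ?_
  · simp
  · simp⟩


/-- enumeration of the index set -/
def kFin (ι : Type*) [Fintype ι] : (ι × Fin 2) ≃ Fin (Fintype.card ι * 2) :=
  (Equiv.prodCongr (Fintype.equivFin ι) (Equiv.refl _)).trans finProdFinEquiv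

theorem prod_m2 (l : ι × Fin 2 → Module.Dual ℝ T) :
    ((∏ j, m2 (l (j, 0)) (l (j, 1)) : EvC T) : CF T)
      = Cx.ofR (ExteriorAlgebra.ιMulti ℝ (Fintype.card ι * 2) fun k => l ((kFin ι).symm k)) := by
  set r := Fintype.card ι
  set e := Fintype.equivFin ι
  have h1 : (∏ j, m2 (l (j, 0)) (l (j, 1)) : EvC T)
      = (List.ofFn fun i : Fin r => m2 (l (e.symm i, 0)) (l (e.symm i, 1))).prod := by
    rw [List.prod_ofFn, ← e.symm.prod_comp]
  have h2 : ∀ L : List (EvC T), ((L.prod : EvC T) : CF T) = (L.map (EvC T).val).prod :=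
    fun L => map_list_prod (EvC T).val L
  have h3 : ∀ L : List (Ext T), Cx.ofR L.prod = (L.map (Cx.ofR (R := Ext T))).prod :=
    fun L => map_list_prod (Cx.ofR (R := Ext T)) L
  rw [h1, h2, ExteriorAlgebra.ιMulti_apply, List.ofFn_mul, List.prod_flatten, h3, List.map_ofFn,
    List.map_ofFn, List.map_ofFn]
  congr 1
  refine congrArg List.ofFn (funext fun i => ?_)
  have h4 : ∀ (b : Fin 2) (hb : (i : ℕ) * 2 + b < r * 2),
      (kFin ι).symm ⟨(i : ℕ) * 2 + b, hb⟩ = (e.symm i, b) := by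
    intro b hb
    rw [Equiv.symm_apply_eq]
    apply Fin.ext
    simp [kFin, e]
    ring
  simp only [Function.comp, h4, List.ofFn_succ, List.ofFn_zero, List.prod_cons, List.prod_nil,
    mul_one]
  rfl

/-- the wedge of all covectors -/
def Xw (l : ι × Fin 2 → Module.Dual ℝ T) : Ext T :=
  ExteriorAlgebra.ιMulti ℝ (Fintype.card ι * 2) fun k => l ((kFin ι).symm k)

theorem Xw_perm (l : ι × Fin 2 → Module.Dual ℝ T) (σ : Equiv.Perm (ι × Fin 2)) :
    Xw (fun p => l (σ p)) = ((Equiv.Perm.sign σ : ℤ) : ℝ) • Xw l := by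
  have h := (ExteriorAlgebra.ιMulti ℝ (Fintype.card ι * 2) (M := Module.Dual ℝ T)).map_perm
    (fun k => l ((kFin ι).symm k)) ((kFin ι).permCongr σ)
  have e1 : (fun k => l ((kFin ι).symm k)) ∘ ((kFin ι).permCongr σ)
      = fun k => l (σ ((kFin ι).symm k)) := by
    funext k
    simp [Equiv.permCongr_apply]
  rw [e1, Equiv.Perm.sign_permCongr] at h
  rw [Xw, h, Xw]
  rcases Int.units_eq_one_or (Equiv.Perm.sign σ) with hs | hs <;> rw [hs] <;> simp

/-- the matrix `θ θᵀ` of two-forms -/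
def th (l : ι × Fin 2 → Module.Dual ℝ T) : Matrix (ι × Fin 2) (ι × Fin 2) (EvC T) :=
  Matrix.of fun a b => m2 (l a) (l b)

theorem pfS_th (l : ι × Fin 2 → Module.Dual ℝ T) :
    ((PF.pfS (th l) : EvC T) : CF T)
      = Cx.ofR (((Fintype.card (ι × Fin 2)).factorial : ℝ) • Xw l) := by
  have e1 : ∀ (s : Finset (Equiv.Perm (ι × Fin 2))) (g : Equiv.Perm (ι × Fin 2) → EvC T),
      ((∑ i ∈ s, g i : EvC T) : CF T) = ∑ i ∈ s, (g i : CF T) := fun s g =>
    map_sum (EvC T).val g s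
  rw [PF.pfS, e1]
  have h1 : ∀ σ : Equiv.Perm (ι × Fin 2),
      (((((Equiv.Perm.sign σ : ℤ) : EvC T) * ∏ j, th l (σ (j, 0)) (σ (j, 1)) : EvC T)) : CF T)
        = Cx.ofR (Xw l) := by
    intro σ
    have h2 := prod_m2 (fun p => l (σ p))
    have h3 : (∏ j, th l (σ (j, 0)) (σ (j, 1)) : EvC T)
        = ∏ j, m2 (l (σ (j, 0))) (l (σ (j, 1))) := rfl
    have h4 : ((((Equiv.Perm.sign σ : ℤ) : EvC T) * ∏ j, th l (σ (j, 0)) (σ (j, 1)) : EvC T) : CF T)
        = ((Equiv.Perm.sign σ : ℤ) : CF T) * ((∏ j, th l (σ (j, 0)) (σ (j, 1)) : EvC T) : CF T) := by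
      rw [← map_intCast (EvC T).val]
      rfl
    rw [h4, h3, h2]
    change _ * Cx.ofR (Xw fun p => l (σ p)) = _
    rw [Xw_perm]
    rcases Int.units_eq_one_or (Equiv.Perm.sign σ) with hs | hs <;> rw [hs] <;> simp
  rw [Finset.sum_congr rfl fun σ _ => h1 σ, Finset.sum_const, Finset.card_univ, Fintype.card_perm,
    ← map_nsmul, Nat.cast_smul_eq_nsmul]

theorem th_lin {l η : ι × Fin 2 → Module.Dual ℝ T} (L : Matrix (ι × Fin 2) (ι × Fin 2) ℝ)
    (h : ∀ a, l a = ∑ b, L a b • η b) :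
    ((PF.pfS (th l) : EvC T) : CF T)
      = Cx.ofR ((((Fintype.card (ι × Fin 2)).factorial : ℝ) * L.det) • Xw η) := by
  have h1 : th l = ((hv T (L.map ((↑) : ℝ → ℂ)))ᵀ)ᵀ * th η * (hv T (L.map ((↑) : ℝ → ℂ)))ᵀ := by
    rw [transpose_transpose]
    refine Matrix.ext fun a b => Subtype.ext ?_
    rw [expand_frame]
    have e1 : ∀ (s : Finset (ι × Fin 2)) (g : (ι × Fin 2) → EvC T),
      ((∑ i ∈ s, g i : EvC T) : CF T) = ∑ i ∈ s, (g i : CF T) := fun s g =>
        map_sum (EvC T).val g s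
    rw [e1]
    simp only [e1]
    have h2 : (th l a b : CF T) = Cx.ofR (io (l a) * io (l b)) := rfl
    rw [h2, h a, h b, map_sum, map_sum, Finset.sum_mul, map_sum]
    refine Finset.sum_congr rfl fun p _ => ?_
    rw [Finset.mul_sum, map_sum]
    refine Finset.sum_congr rfl fun q _ => ?_
    have h3 : (((L.map ((↑) : ℝ → ℂ)) a p * (L.map ((↑) : ℝ → ℂ)) b q) • th η p q : EvC T)
        = (((L a p * L b q : ℝ) : ℂ) • th η p q : EvC T) := by
      simp [Matrix.map_apply]
    rw [h3]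
    change _ = ((L a p * L b q : ℝ) : ℂ) • (Cx.ofR (io (η p) * io (η q)) : CF T)
    rw [map_smul, map_smul]
    refine Cx.ext ?_ ?_
    · simp [smul_smul, mul_comm]
    · simp
  rw [h1, PF.pfS_congr, det_transpose]
  have h4 : (hv T (L.map ((↑) : ℝ → ℂ))).det = algebraMap ℂ (EvC T) ((L.det : ℝ) : ℂ) := by
    have e2 : ((L.det : ℝ) : ℂ) = (L.map ((↑) : ℝ → ℂ)).det := by
      have := RingHom.map_det (algebraMap ℝ ℂ) L
      exact this
    rw [e2]
    exact (RingHom.map_det (algebraMap ℂ (EvC T)) _).symm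
  rw [h4, ← Algebra.smul_def]
  change ((L.det : ℝ) : ℂ) • ((PF.pfS (th η) : EvC T) : CF T) = _
  rw [pfS_th]
  refine Cx.ext ?_ ?_
  · rw [Cx.csmul_re, Cx.ofR_re, Cx.ofR_re, Cx.ofR_im, smul_zero, sub_zero, Complex.ofReal_re,
      smul_smul, mul_comm]
  · rw [Cx.csmul_im, Cx.ofR_im, Cx.ofR_im, smul_zero, Complex.ofReal_im, zero_smul, add_zero]

end alg

section field
variable {G : Type*} [NormedAddCommGroup G] [NormedSpace ℝ G] [FiniteDimensional ℝ G]
  {N ι : Type*} [Fintype N] [DecidableEq N] [Fintype ι] [DecidableEq ι] {x : G}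

/-- complexified real matrix -/
abbrev mc {α β : Type*} (f : Matrix α β ℝ) : Matrix α β ℂ := f.map ((↑) : ℝ → ℂ)

/-- a real vector field as a column -/
def Uc (u : G → N → ℝ) (y : G) : Matrix N Unit ℂ := Matrix.of fun a _ => ((u y a : ℝ) : ℂ)

theorem DD_Uc {u : G → N → ℝ} (hu : ∀ a, ContDiffAt ℝ 1 (fun y => u y a) x) (a : N) (t : Unit) :
    DD (Uc u) x a t = Cx.ofR (io ((fderiv ℝ (fun y => u y a) x : G →L[ℝ] ℝ) : Module.Dual ℝ G)) := by
  rw [DD_apply]
  refine Cx.ext ?_ ?_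
  · change F.d (fun y => (algebraMap ℂ (CF G) (Uc u y a t)).re) x = _
    have h1 : (fun y => (algebraMap ℂ (CF G) (Uc u y a t)).re) = fun y => u y a • (1 : Ext G) := by
      funext y
      rw [Cx.algebraMap_re, Algebra.algebraMap_eq_smul_one]
      rfl
    rw [h1, F.d_smul ((hu a).differentiableAt (by norm_num)) (differentiableAt_const _), F.d_const,
      smul_zero, add_zero, mul_one, Cx.ofR_re]
  · change F.d (fun y => (algebraMap ℂ (CF G) (Uc u y a t)).im) x = _
    have h1 : (fun y => (algebraMap ℂ (CF G) (Uc u y a t)).im) = fun _ => (0 : Ext G) := by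
      funext y
      rw [Cx.algebraMap_im]
      change algebraMap ℝ _ ((u y a : ℂ)).im = 0
      rw [Complex.ofReal_im, map_zero]
    rw [h1, F.d_const, Cx.ofR_im]

theorem SM_Uc {k : WithTop ℕ∞} {u : G → N → ℝ} (hu : ∀ a, ContDiffAt ℝ k (fun y => u y a) x) :
    SM k (Uc u) x := fun a _ => Complex.ofRealCLM.contDiff.contDiffAt.comp x (hu a)

theorem Om_complement {P : G → Matrix N N ℂ} {Q : Matrix N N ℂ} {u : G → N → ℝ}
    {f : Matrix N (ι × Fin 2) ℝ}
    (hP : ∀ y, P y = Q - Uc u y * (Uc u y)ᵀ) (hu : ∀ a, ContDiffAt ℝ 1 (fun y => u y a) x)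
    (hf1 : fᵀ * f = 1) (hfP : mc f * (mc f)ᵀ = P x)
    (huu : ∑ a, u x a * u x a = 1) (hfu : ∀ p, ∑ a, f a p * u x a = 0) :
    (hv G (mc f))ᵀ * Om P x * hv G (mc f)
      = th fun p => ∑ a, f a p • ((fderiv ℝ (fun y => u y a) x : G →L[ℝ] ℝ) : Module.Dual ℝ G) := by
  have hf1' : (mc f)ᵀ * mc f = 1 := by
    have : (mc f)ᵀ * mc f = mc (fᵀ * f) := by
      ext a b
      simp [Matrix.mul_apply]
    rw [this, hf1]
    ext a b
    by_cases h : a = b
    · subst h; simp
    · simp [Matrix.one_apply_ne h]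
  have hUU : (Uc u x)ᵀ * Uc u x = 1 := by
    ext a b
    rw [Matrix.mul_apply, Matrix.one_apply]
    simp only [transpose_apply, Uc, Matrix.of_apply]
    rw [if_pos trivial]
    exact_mod_cast huu
  have hfU : (mc f)ᵀ * Uc u x = 0 := by
    ext a b
    rw [Matrix.mul_apply, Matrix.zero_apply]
    simp only [transpose_apply, Uc, Matrix.of_apply, Matrix.map_apply]
    exact_mod_cast hfu a
  have hUf : (Uc u x)ᵀ * mc f = 0 := by
    have := congrArg Matrix.transpose hfU
    rwa [transpose_mul, transpose_transpose, transpose_zero] at this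
  have hPf : P x * mc f = mc f := by rw [← hfP, Matrix.mul_assoc, hf1', Matrix.mul_one]
  have hfPt : (mc f)ᵀ * P x = (mc f)ᵀ := by rw [← hfP, ← Matrix.mul_assoc, hf1', Matrix.one_mul]
  have hU := SM_Uc (x := x) hu
  set D := DD (Uc u) x with hD
  have hDt : DD (fun y => (Uc u y)ᵀ) x = Dᵀ := rfl
  have hDP : DD P x = -(D * (hat G (Uc u x))ᵀ + hat G (Uc u x) * Dᵀ) := by
    have h1 : P = fun y => Q + (-1 : ℂ) • (Uc u y * (Uc u y)ᵀ) := by
      funext y
      rw [hP y, neg_one_smul, sub_eq_add_neg]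
    have h2 : P = fun y => Q + (-Uc u y) * (Uc u y)ᵀ := by
      funext y
      rw [hP y, Matrix.neg_mul, sub_eq_add_neg]
    have hN : SM 1 (fun y => -Uc u y) x := fun a b => (hU a b).neg
    have hDN : DD (fun y => -Uc u y) x = -D := by
      refine Matrix.ext fun a b => ?_
      rw [Matrix.neg_apply, hD, DD_apply, DD_apply, ← dC_neg]
      congr 1
      funext y
      rw [Matrix.neg_apply, map_neg]
    have hhN : hat G (-Uc u x) = -hat G (Uc u x) := by
      refine Matrix.ext fun a b => ?_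
      exact map_neg (algebraMap ℂ (CF G)) _
    rw [h2, DD_add (SM.const Q) (hN.mul hU.transpose), DD_const, zero_add, DD_mul hN hU.transpose,
      hDN, hDt, hhN, Matrix.neg_mul, Matrix.neg_mul, neg_add]
    rfl
  refine vl_inj ?_
  have e3 : vl ((hv G (mc f))ᵀ) = hat G (mc f)ᵀ := rfl
  rw [vl_mul, vl_mul, vl_Om, vl_hv, e3]
  have e4 : hat G (mc f)ᵀ * (hat G (P x) * (DD P x * DD P x) * hat G (P x)) * hat G (mc f)
      = hat G (mc f)ᵀ * (DD P x * DD P x) * hat G (mc f) := by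
    calc _ = (hat G (mc f)ᵀ * hat G (P x)) * (DD P x * DD P x) * (hat G (P x) * hat G (mc f)) := by
          simp only [Matrix.mul_assoc]
      _ = _ := by rw [← hat_mul, ← hat_mul, hPf, hfPt]
  have ht : (hat G (Uc u x))ᵀ = hat G (Uc u x)ᵀ := rfl
  have z1 : hat G (mc f)ᵀ * hat G (Uc u x) = 0 := by rw [← hat_mul, hfU, hat_zero]
  have z2 : hat G (Uc u x)ᵀ * hat G (mc f) = 0 := by rw [← hat_mul, hUf, hat_zero]
  have z3 : hat G (Uc u x)ᵀ * hat G (Uc u x) = 1 := by rw [← hat_mul, hUU, hat_one]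
  rw [e4, hDP, ht]
  have e5 : hat G (mc f)ᵀ * (-(D * hat G (Uc u x)ᵀ + hat G (Uc u x) * Dᵀ)
        * -(D * hat G (Uc u x)ᵀ + hat G (Uc u x) * Dᵀ)) * hat G (mc f)
      = (hat G (mc f)ᵀ * D) * (Dᵀ * hat G (mc f)) := by
    rw [neg_mul_neg]
    calc _ = (hat G (mc f)ᵀ * D) * hat G (Uc u x)ᵀ * D * (hat G (Uc u x)ᵀ * hat G (mc f))
          + (hat G (mc f)ᵀ * D) * (hat G (Uc u x)ᵀ * hat G (Uc u x)) * (Dᵀ * hat G (mc f))
          + (hat G (mc f)ᵀ * hat G (Uc u x)) * Dᵀ * D * (hat G (Uc u x)ᵀ * hat G (mc f))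
          + (hat G (mc f)ᵀ * hat G (Uc u x)) * Dᵀ * hat G (Uc u x) * (Dᵀ * hat G (mc f)) := by
          simp only [Matrix.mul_add, Matrix.add_mul, Matrix.mul_assoc]
          abel
      _ = _ := by rw [z1, z2, z3]; simp
  rw [e5]
  refine Matrix.ext fun a b => ?_
  have h5 : ∀ p t, (hat G (mc f)ᵀ * D) p t = Cx.ofR (io (∑ a, f a p •
      ((fderiv ℝ (fun y => u y a) x : G →L[ℝ] ℝ) : Module.Dual ℝ G))) := by
    intro p t
    rw [Matrix.mul_apply, map_sum, map_sum]
    refine Finset.sum_congr rfl fun c _ => ?_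
    rw [hD, DD_Uc hu, map_smul]
    change algebraMap ℂ (CF G) ((f c p : ℝ) : ℂ) * _ = _
    rw [← Algebra.smul_def]
    refine Cx.ext ?_ ?_
    · rw [Cx.csmul_re, Cx.ofR_re, Cx.ofR_re, Cx.ofR_im, smul_zero, sub_zero, Complex.ofReal_re]
    · rw [Cx.csmul_im, Cx.ofR_im, Cx.ofR_im, smul_zero, Complex.ofReal_im, zero_smul, add_zero]
  have h6 : ∀ p t, (Dᵀ * hat G (mc f)) t p = Cx.ofR (io (∑ a, f a p •
      ((fderiv ℝ (fun y => u y a) x : G →L[ℝ] ℝ) : Module.Dual ℝ G))) := by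
    intro p t
    rw [← h5 p t, Matrix.mul_apply, Matrix.mul_apply]
    refine Finset.sum_congr rfl fun c _ => ?_
    exact (alg_comm _ _).symm
  rw [Matrix.mul_apply]
  simp only [h5, h6, Finset.univ_unique, Finset.sum_singleton, ← map_mul]
  rfl

theorem ef_complement {P : G → Matrix N N ℂ} {Wt : G → (ι × Fin 2 → N) → ℂ} {Q : Matrix N N ℂ}
    {u : G → N → ℝ} {f : Matrix N (ι × Fin 2) ℝ}
    (hP : ∀ y, P y = Q - Uc u y * (Uc u y)ᵀ) (hu : ∀ a, ContDiffAt ℝ 1 (fun y => u y a) x)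
    (hf1 : fᵀ * f = 1) (hfP : mc f * (mc f)ᵀ = P x)
    (huu : ∑ a, u x a * u x a = 1) (hfu : ∀ p, ∑ a, f a p * u x a = 0)
    (hW : ∀ I, Wt x I = ((mc f).submatrix I id).det) :
    ef P Wt x = ((PF.pfS (th fun p => ∑ a, f a p •
      ((fderiv ℝ (fun y => u y a) x : G →L[ℝ] ℝ) : Module.Dual ℝ G)) : EvC G) : CF G) := by
  rw [ef, eu_frame hW, Om_complement hP hu hf1 hfP huu hfu]

end field

end Crest.Agent.R208.T
end
end

-- ▼ part R208/THD0b
section

/-! Row 208, block TH-D0 (helper423), part b: algebra of the model frame, the determinant, and the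
derivatives of the model section. -/

set_option autoImplicit false
set_option linter.unusedSectionVars false

open Module Set Matrix Filter Topology
open scoped ContDiff
open Crest.Agent.R208.F Crest.Agent.R208.FI Crest.Agent.R208.CW

noncomputable section

namespace Crest.Agent.R208.T

/-! ### determinant -/

theorem det_rank_one {κ : Type*} [Fintype κ] [DecidableEq κ] [Nonempty κ] (s β : ℝ) (y : κ → ℝ) :
    (s • (1 : Matrix κ κ ℝ) + β • Matrix.vecMulVec y y).det
      = s ^ (Fintype.card κ - 1) * (s + β * (y ⬝ᵥ y)) := by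
  have key : ∀ s : ℝ, s ≠ 0 → (s • (1 : Matrix κ κ ℝ) + β • Matrix.vecMulVec y y).det
      = s ^ (Fintype.card κ - 1) * (s + β * (y ⬝ᵥ y)) := by
    intro s hs
    have h1 : s • (1 : Matrix κ κ ℝ) + β • Matrix.vecMulVec y y
        = s • (1 + Matrix.replicateCol Unit ((s⁻¹ * β) • y) * Matrix.replicateRow Unit y) := by
      ext a b
      simp [Matrix.mul_apply, Matrix.vecMulVec_apply]
      field_simp
    rw [h1, det_smul, det_one_add_replicateCol_mul_replicateRow, dotProduct_smul, smul_eq_mul]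
    have hc : Fintype.card κ = (Fintype.card κ - 1) + 1 := by
      have := Fintype.card_pos (α := κ); omega
    conv_lhs => rw [hc, pow_succ]
    field_simp
  have hf : Continuous fun s : ℝ => (s • (1 : Matrix κ κ ℝ) + β • Matrix.vecMulVec y y).det := by
    refine Continuous.matrix_det ?_
    fun_prop
  have hg : Continuous fun s : ℝ => s ^ (Fintype.card κ - 1) * (s + β * (y ⬝ᵥ y)) := by fun_prop
  have := Continuous.ext_on (dense_compl_singleton (0 : ℝ)) hf hg (fun s hs => key s hs)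
  exact congrFun this s

/-! ### the model frame -/

section frame
variable {n κ : Type*} [Fintype n] [DecidableEq n] [Fintype κ] [DecidableEq κ]
  {f : Matrix n κ ℝ} {y : κ → ℝ} {v : n → ℝ} {c b co : ℝ}

/-- real model frame -/
def mF (f : Matrix n κ ℝ) (v : n → ℝ) (y : κ → ℝ) (c b : ℝ) : Matrix (n ⊕ Unit) κ ℝ :=
  Matrix.of fun a p => match a with
    | Sum.inl i => f i p + c * v i * y p
    | Sum.inr _ => b * y p

/-- real model section -/
def mU (v : n → ℝ) (b co : ℝ) : n ⊕ Unit → ℝ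
  | Sum.inl i => -b * v i
  | Sum.inr _ => co

theorem sum_fv (hf : fᵀ * f = 1) (hv : ∀ i, v i = ∑ p, f i p * y p) (p : κ) :
    ∑ i, f i p * v i = y p := by
  simp only [hv, Finset.mul_sum]
  rw [Finset.sum_comm]
  have h1 : ∀ q, ∑ i, f i p * (f i q * y q) = (if p = q then 1 else 0) * y q := by
    intro q
    have := congrFun (congrFun hf p) q
    rw [Matrix.mul_apply, Matrix.one_apply] at this
    rw [← this, Finset.sum_mul]
    exact Finset.sum_congr rfl fun i _ => by rw [transpose_apply]; ring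
  simp [h1]

theorem sum_vv (hf : fᵀ * f = 1) (hv : ∀ i, v i = ∑ p, f i p * y p) :
    ∑ i, v i * v i = ∑ p, y p * y p := by
  have h1 : ∀ i, v i * v i = ∑ p, y p * (f i p * v i) := by
    intro i
    conv_lhs => rw [hv i, Finset.sum_mul]
    exact Finset.sum_congr rfl fun p _ => by rw [← hv i]; ring
  simp only [h1]
  rw [Finset.sum_comm]
  refine Finset.sum_congr rfl fun p _ => ?_
  rw [← Finset.mul_sum, sum_fv hf hv]

theorem mF_orth (hf : fᵀ * f = 1) (hv : ∀ i, v i = ∑ p, f i p * y p)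
    (h3 : 2 * c + c ^ 2 * (∑ p, y p * y p) + b ^ 2 = 0) : (mF f v y c b)ᵀ * mF f v y c b = 1 := by
  ext p q
  have e := congrFun (congrFun hf p) q
  rw [Matrix.mul_apply] at e
  rw [Matrix.mul_apply, Fintype.sum_sum_type, ← e]
  simp only [transpose_apply, mF, Matrix.of_apply, Finset.univ_unique, Finset.sum_singleton]
  have e1 : ∀ i, (f i p + c * v i * y p) * (f i q + c * v i * y q)
      = f i p * f i q + c * y q * (f i p * v i) + c * y p * (f i q * v i)
        + c ^ 2 * y p * y q * (v i * v i) := fun i => by ring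
  simp only [e1, Finset.sum_add_distrib, ← Finset.mul_sum, sum_fv hf hv, sum_vv hf hv]
  linear_combination (y p * y q) * h3

theorem mF_range (hv : ∀ i, v i = ∑ p, f i p * y p)
    (h1 : 1 + c * (∑ p, y p * y p) = co) (h2 : b ^ 2 * (∑ p, y p * y p) + co ^ 2 = 1)
    (h3 : 2 * c + c ^ 2 * (∑ p, y p * y p) + b ^ 2 = 0) (a a' : n ⊕ Unit) :
    (mF f v y c b * (mF f v y c b)ᵀ) a a'
      = (Matrix.fromBlocks (f * fᵀ) 0 0 (1 : Matrix Unit Unit ℝ)) a a'
        - mU v b co a * mU v b co a' := by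
  rw [Matrix.mul_apply]
  rcases a with i | t <;> rcases a' with j | t'
  · simp only [transpose_apply, mF, Matrix.of_apply, Matrix.fromBlocks_apply₁₁, mU]
    rw [Matrix.mul_apply]
    have e1 : ∀ p, (f i p + c * v i * y p) * (f j p + c * v j * y p)
        = f i p * fᵀ p j + c * v j * (f i p * y p) + c * v i * (f j p * y p)
          + c ^ 2 * v i * v j * (y p * y p) := fun p => by rw [transpose_apply]; ring
    simp only [e1, Finset.sum_add_distrib, ← Finset.mul_sum, ← hv]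
    linear_combination (v i * v j) * h3
  · simp only [transpose_apply, mF, Matrix.of_apply, Matrix.fromBlocks_apply₁₂, mU,
      Matrix.zero_apply]
    have e1 : ∀ p, (f i p + c * v i * y p) * (b * y p)
        = b * (f i p * y p) + b * c * v i * (y p * y p) := fun p => by ring
    simp only [e1, Finset.sum_add_distrib, ← Finset.mul_sum, ← hv]
    linear_combination (b * v i) * h1
  · simp only [transpose_apply, mF, Matrix.of_apply, Matrix.fromBlocks_apply₂₁, mU,
      Matrix.zero_apply]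
    have e1 : ∀ p, (b * y p) * (f j p + c * v j * y p)
        = b * (f j p * y p) + b * c * v j * (y p * y p) := fun p => by ring
    simp only [e1, Finset.sum_add_distrib, ← Finset.mul_sum, ← hv]
    linear_combination (b * v j) * h1
  · simp only [transpose_apply, mF, Matrix.of_apply, Matrix.fromBlocks_apply₂₂, mU,
      Matrix.one_apply]
    have e1 : ∀ p, (b * y p) * (b * y p) = b ^ 2 * (y p * y p) := fun p => by ring
    simp only [e1, ← Finset.mul_sum]
    rw [if_pos trivial]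
    linear_combination h2

theorem mU_unit (hf : fᵀ * f = 1) (hv : ∀ i, v i = ∑ p, f i p * y p)
    (h2 : b ^ 2 * (∑ p, y p * y p) + co ^ 2 = 1) : ∑ a, mU v b co a * mU v b co a = 1 := by
  rw [Fintype.sum_sum_type]
  simp only [mU, Finset.univ_unique, Finset.sum_singleton]
  have e1 : ∀ i, (-b * v i) * (-b * v i) = b ^ 2 * (v i * v i) := fun i => by ring
  simp only [e1, ← Finset.mul_sum, sum_vv hf hv]
  linear_combination h2

theorem mF_mU (hf : fᵀ * f = 1) (hv : ∀ i, v i = ∑ p, f i p * y p)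
    (h1 : 1 + c * (∑ p, y p * y p) = co) (p : κ) :
    ∑ a, mF f v y c b a p * mU v b co a = 0 := by
  rw [Fintype.sum_sum_type]
  simp only [mF, mU, Matrix.of_apply, Finset.univ_unique, Finset.sum_singleton]
  have e1 : ∀ i, (f i p + c * v i * y p) * (-b * v i)
      = -b * (f i p * v i) + -(b * c * y p) * (v i * v i) := fun i => by ring
  simp only [e1, Finset.sum_add_distrib, ← Finset.mul_sum, sum_fv hf hv, sum_vv hf hv]
  linear_combination (-b * y p) * h1

end frame

/-! ### scalar identities -/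

theorem sc1 {s : ℝ} (hs : 0 ≤ s) : 1 + ca s * s = Real.cos (ph s) := by
  rcases hs.eq_or_lt with h | h
  · rw [← h, ph_of_le (by norm_num), Real.cos_zero, mul_zero, add_zero]
  · rw [ca, div_mul_cancel₀ _ h.ne']; ring

theorem sc2 {s : ℝ} (hs : 0 ≤ s) : cb s ^ 2 * s + Real.cos (ph s) ^ 2 = 1 := by
  rcases hs.eq_or_lt with h | h
  · rw [← h, ph_of_le (by norm_num), Real.cos_zero, mul_zero]; norm_num
  · rw [cb, div_pow, Real.sq_sqrt hs, div_mul_cancel₀ _ h.ne', neg_sq]
    exact Real.sin_sq_add_cos_sq _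

theorem sc3 {s : ℝ} (hs : 0 ≤ s) : 2 * ca s + ca s ^ 2 * s + cb s ^ 2 = 0 := by
  rcases hs.eq_or_lt with h | h
  · rw [← h, ca_of_le (by norm_num), cb_of_le (by norm_num)]; norm_num
  · exact ca_cb h

theorem deriv_cb {s : ℝ} (hs : 0 < s) :
    deriv cb s * s = - Real.cos (ph s) * deriv ph s * Real.sqrt s + Real.sin (ph s) / (2 * Real.sqrt s) := by
  have h1 : HasDerivAt ph (deriv ph s) s :=
    ((ph_contDiff.differentiable (by simp)) s).hasDerivAt
  have h2 : HasDerivAt (fun t => -Real.sin (ph t)) (-(Real.cos (ph s) * deriv ph s)) s :=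
    (h1.sin).neg
  have h3 := Real.hasDerivAt_sqrt hs.ne'
  have hq : Real.sqrt s ≠ 0 := (Real.sqrt_pos.2 hs).ne'
  have h4 : HasDerivAt cb _ s := h2.div h3 hq
  rw [h4.deriv]
  have h5 : Real.sqrt s ^ 2 = s := Real.sq_sqrt hs.le
  generalize Real.sqrt s = q at *
  subst h5
  field_simp
  ring

/-- the eigenvalue in the radial direction -/
theorem sc4 {s : ℝ} (hs : 0 ≤ s) :
    -cb s + (-2 * deriv cb s * (1 + ca s * s) - ca s * cb s
      - 2 * cb s * (Real.sin (ph s) * deriv ph s)) * s = 2 * Real.sqrt s * deriv ph s := by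
  rw [sc1 hs]
  rcases hs.eq_or_lt with h | h
  · rw [← h, cb_of_le (by norm_num)]; simp
  · have h1 := deriv_cb h
    have h5 : Real.sqrt s ^ 2 = s := Real.sq_sqrt hs
    have hq : Real.sqrt s ≠ 0 := (Real.sqrt_pos.2 h).ne'
    have h6 : cb s = -Real.sin (ph s) / Real.sqrt s := rfl
    have h7 : ca s * s = Real.cos (ph s) - 1 := by rw [← sc1 hs]; ring
    have h8 := Real.sin_sq_add_cos_sq (ph s)
    have h9 : cb s * s = - Real.sin (ph s) * Real.sqrt s := by
      rw [h6, div_mul_eq_mul_div, div_eq_iff hq, mul_assoc, ← sq, h5]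
    have h10 : Real.sin (ph s) / (2 * Real.sqrt s) = - cb s / 2 := by
      rw [h6]; field_simp
    rw [h10] at h1
    linear_combination (-2 * Real.cos (ph s)) * h1 - cb s * h7
      + (-2 * Real.sin (ph s) * deriv ph s) * h9 + 2 * Real.sqrt s * deriv ph s * h8

end Crest.Agent.R208.T
end
private theorem rz_ba3a4a3da9 : type_of% @_root_.Crest.Agent.R208.T.mU.eq_1 := @_root_.Crest.Agent.R208.T.mU.eq_1 -- L56
end

-- ▼ part R208/THD0
section

/-! Row 208, block TH-D0 (helper423): the vertical part of the Thom form, in the frame. -/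

set_option autoImplicit false
set_option linter.unusedSectionVars false

open Module Set Matrix Filter Topology
open scoped ContDiff Nat
open Crest.Agent.R208.F Crest.Agent.R208.FI Crest.Agent.R208.CW

noncomputable section

namespace Crest.Agent.R208.T

section main
variable {n ι : Type*} [Fintype n] [DecidableEq n] [Fintype ι] [DecidableEq ι]

/-- the covectors of a frame -/
def eta (f : Matrix n (ι × Fin 2) ℝ) (a : ι × Fin 2) : Module.Dual ℝ (EuclideanSpace ℝ n) :=
  ∑ i, f i a • ((EuclideanSpace.proj i : EuclideanSpace ℝ n →L[ℝ] ℝ) :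
    Module.Dual ℝ (EuclideanSpace ℝ n))

@[simp] theorem eta_apply (f : Matrix n (ι × Fin 2) ℝ) (a : ι × Fin 2) (v : EuclideanSpace ℝ n) :
    eta f a v = ∑ i, f i a * v i := by
  simp [eta]

/-- the wedge of the covectors of a frame -/
def Xi (f : Matrix n (ι × Fin 2) ℝ) : Ext (EuclideanSpace ℝ n) :=
  ExteriorAlgebra.ιMulti ℝ (Fintype.card ι * 2) fun k => eta f ((kFin ι).symm k)

/-- the density of the Thom form -/
def GG (ι : Type*) [Fintype ι] (s : ℝ) : ℝ :=
  ((2 * Fintype.card ι)! : ℝ) * (2 * Real.sqrt s * deriv ph s *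
    (Real.sin (ph s) / Real.sqrt s) ^ (2 * Fintype.card ι - 1))

variable {A : EuclideanSpace ℝ n →L[ℝ] EuclideanSpace ℝ n} {f : Matrix n (ι × Fin 2) ℝ}

/-- coordinates -/
def yy (f : Matrix n (ι × Fin 2) ℝ) (h : EuclideanSpace ℝ n) (p : ι × Fin 2) : ℝ :=
  ∑ i, f i p * h i

theorem A_yy (hA : ∀ v i, A v i = ∑ j, (f * fᵀ) i j * v j) (h : EuclideanSpace ℝ n) (i : n) :
    A h i = ∑ p, f i p * yy f h p := by
  rw [hA]
  simp only [Matrix.mul_apply, yy, Finset.mul_sum, Finset.sum_mul, transpose_apply]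
  rw [Finset.sum_comm]
  exact Finset.sum_congr rfl fun p _ => Finset.sum_congr rfl fun j _ => by ring

theorem yy_A (hf : fᵀ * f = 1) (hA : ∀ v i, A v i = ∑ j, (f * fᵀ) i j * v j)
    (h : EuclideanSpace ℝ n) (p : ι × Fin 2) : ∑ i, f i p * A h i = yy f h p :=
  sum_fv hf (v := fun i => A h i) (A_yy hA h) p

theorem norm_A (hf : fᵀ * f = 1) (hA : ∀ v i, A v i = ∑ j, (f * fᵀ) i j * v j)
    (h : EuclideanSpace ℝ n) : ‖A h‖ ^ 2 = ∑ p, yy f h p * yy f h p := by
  rw [nsq, sum_vv hf (v := fun i => A h i) (A_yy hA h)]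

theorem SS_frame (hf : fᵀ * f = 1) (hA : ∀ v i, A v i = ∑ j, (f * fᵀ) i j * v j)
    (h : EuclideanSpace ℝ n) :
    SS (A h) * mc f = mc (mF f (fun i => A h i) (yy f h) (ca (‖A h‖ ^ 2)) (cb (‖A h‖ ^ 2))) := by
  refine Matrix.ext fun a p => ?_
  rw [Matrix.mul_apply]
  have h1 := yy_A hf hA h p
  rcases a with i | t
  · have e1 : ∀ j, SS (A h) (Sum.inl i) j * mc f j p
        = (if i = j then ((f j p : ℝ) : ℂ) else 0)
          + ((ca (‖A h‖ ^ 2) * A h i * (f j p * A h j) : ℝ) : ℂ) := by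
      intro j
      simp only [SS, of_apply, Matrix.map_apply]
      push_cast
      split_ifs <;> ring
    simp only [e1, Finset.sum_add_distrib, Finset.sum_ite_eq, Finset.mem_univ, if_true]
    rw [← Complex.ofReal_sum, ← Finset.mul_sum, h1]
    simp [mF]
  · have e1 : ∀ j, SS (A h) (Sum.inr t) j * mc f j p
        = ((cb (‖A h‖ ^ 2) * (f j p * A h j) : ℝ) : ℂ) := by
      intro j
      simp only [SS, of_apply, Matrix.map_apply]
      push_cast
      ring
    simp only [e1]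
    rw [← Complex.ofReal_sum, ← Finset.mul_sum, h1]
    simp [mF]

/-- the section -/
def uu (A : EuclideanSpace ℝ n →L[ℝ] EuclideanSpace ℝ n) (h : EuclideanSpace ℝ n) : n ⊕ Unit → ℝ :=
  mU (fun i => A h i) (cb (‖A h‖ ^ 2)) (Real.cos (ph (‖A h‖ ^ 2)))

theorem mc_mul {α β γ : Type*} [Fintype β] (M : Matrix α β ℝ) (N : Matrix β γ ℝ) :
    mc M * mc N = mc (M * N) := by
  ext a b
  simp [Matrix.mul_apply]

theorem field_eq (hf : fᵀ * f = 1) (hA : ∀ v i, A v i = ∑ j, (f * fᵀ) i j * v j)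
    (h : EuclideanSpace ℝ n) : SS (A h) * mtx A * (SS (A h))ᵀ
      = mc (Matrix.fromBlocks (f * fᵀ) 0 0 (1 : Matrix Unit Unit ℝ)) - Uc (uu A) h * (Uc (uu A) h)ᵀ := by
  have h1 : mtx A = mc f * (mc f)ᵀ := by
    have : (mc f)ᵀ = mc fᵀ := rfl
    rw [this, mc_mul]
    exact mtx_of_frame hA
  have h2 : SS (A h) * mtx A * (SS (A h))ᵀ = (SS (A h) * mc f) * (SS (A h) * mc f)ᵀ := by
    rw [h1, transpose_mul]
    simp only [Matrix.mul_assoc]
  have ht : (0 : ℝ) ≤ ‖A h‖ ^ 2 := sq_nonneg _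
  have hn := norm_A hf hA h
  rw [h2, SS_frame hf hA]
  refine Matrix.ext fun a b => ?_
  have h3 := mF_range (f := f) (v := fun i => A h i) (y := yy f h) (c := ca (‖A h‖ ^ 2))
    (b := cb (‖A h‖ ^ 2)) (co := Real.cos (ph (‖A h‖ ^ 2))) (A_yy hA h)
    (by rw [← hn]; exact sc1 ht) (by rw [← hn]; exact sc2 ht) (by rw [← hn]; exact sc3 ht) a b
  have h4 : (mc (mF f (fun i => A h i) (yy f h) (ca (‖A h‖ ^ 2)) (cb (‖A h‖ ^ 2))))ᵀ
      = mc (mF f (fun i => A h i) (yy f h) (ca (‖A h‖ ^ 2)) (cb (‖A h‖ ^ 2)))ᵀ := rfl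
  rw [h4, mc_mul, Matrix.sub_apply, Matrix.mul_apply]
  change ((_ : ℝ) : ℂ) = _
  rw [h3]
  simp only [Uc, of_apply, transpose_apply, Finset.univ_unique, Finset.sum_singleton,
    Matrix.map_apply]
  push_cast
  rfl

/-- the matrix of the derivative in the frame -/
def LL2 (y : ι × Fin 2 → ℝ) (s : ℝ) : Matrix (ι × Fin 2) (ι × Fin 2) ℝ :=
  (-cb s) • (1 : Matrix (ι × Fin 2) (ι × Fin 2) ℝ)
    + (-2 * deriv cb s * (1 + ca s * s) - ca s * cb s
      - 2 * cb s * (Real.sin (ph s) * deriv ph s)) • Matrix.vecMulVec y y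

theorem det_LL2 [Nonempty ι] {y : ι × Fin 2 → ℝ} {s : ℝ} (hs : ∑ p, y p * y p = s) (h0 : 0 ≤ s) :
    (LL2 y s).det = 2 * Real.sqrt s * deriv ph s *
      (Real.sin (ph s) / Real.sqrt s) ^ (2 * Fintype.card ι - 1) := by
  have h1 : y ⬝ᵥ y = s := hs
  rw [LL2, det_rank_one, h1, sc4 h0, mul_comm]
  have h2 : Fintype.card (ι × Fin 2) = 2 * Fintype.card ι := by
    rw [Fintype.card_prod, Fintype.card_fin, mul_comm]
  have h3 : -cb s = Real.sin (ph s) / Real.sqrt s := by rw [cb]; ring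
  rw [h2, h3]

theorem hasFDerivAt_uu (A : EuclideanSpace ℝ n →L[ℝ] EuclideanSpace ℝ n) (h : EuclideanSpace ℝ n)
    (a : n ⊕ Unit) : HasFDerivAt (fun z => uu A z a)
      (match a with
        | Sum.inl i => (-cb (‖A h‖ ^ 2)) • (EuclideanSpace.proj i : EuclideanSpace ℝ n →L[ℝ] ℝ).comp A
            + (-(deriv cb (‖A h‖ ^ 2)) * (2 * A h i)) •
              (innerSL ℝ (A h)).comp A
        | Sum.inr _ => (-(Real.sin (ph (‖A h‖ ^ 2)) * deriv ph (‖A h‖ ^ 2)) * 2) •
              (innerSL ℝ (A h)).comp A) h := by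
  have hA1 : HasFDerivAt (fun z => A z) A h := A.hasFDerivAt
  have hn : HasFDerivAt (fun z => ‖A z‖ ^ 2) ((2 : ℝ) • (innerSL ℝ (A h)).comp A) h := by
    have := hA1.norm_sq
    refine this.congr_fderiv ?_
    ext w
    simp
  have hcb : HasDerivAt cb (deriv cb (‖A h‖ ^ 2)) (‖A h‖ ^ 2) :=
    ((cb_contDiff.differentiable (by simp)) _).hasDerivAt
  have hph : HasDerivAt ph (deriv ph (‖A h‖ ^ 2)) (‖A h‖ ^ 2) :=
    ((ph_contDiff.differentiable (by simp)) _).hasDerivAt
  rcases a with i | t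
  · have h1 : HasFDerivAt (fun z => -cb (‖A z‖ ^ 2))
        (-(deriv cb (‖A h‖ ^ 2) • ((2 : ℝ) • (innerSL ℝ (A h)).comp A))) h :=
      (hcb.comp_hasFDerivAt (f := fun z => ‖A z‖ ^ 2) h hn).fun_neg
    have h2 : HasFDerivAt (fun z => A z i)
        ((EuclideanSpace.proj i : EuclideanSpace ℝ n →L[ℝ] ℝ).comp A) h :=
      (EuclideanSpace.proj i : EuclideanSpace ℝ n →L[ℝ] ℝ).hasFDerivAt.comp h hA1
    have h3 := h1.mul h2
    refine h3.congr_fderiv ?_
    ext w
    simp only [_root_.add_apply, _root_.smul_apply, _root_.neg_apply,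
      ContinuousLinearMap.comp_apply, smul_eq_mul]
    ring
  · have h1 : HasFDerivAt (fun z => Real.cos (ph (‖A z‖ ^ 2)))
        ((-Real.sin (ph (‖A h‖ ^ 2)) * deriv ph (‖A h‖ ^ 2)) •
          ((2 : ℝ) • (innerSL ℝ (A h)).comp A)) h :=
      (hph.cos).comp_hasFDerivAt (f := fun z => ‖A z‖ ^ 2) h hn
    refine h1.congr_fderiv ?_
    ext w
    simp only [_root_.smul_apply, ContinuousLinearMap.comp_apply, smul_eq_mul]
    ring

theorem inner_A (hf : fᵀ * f = 1) (hA : ∀ v i, A v i = ∑ j, (f * fᵀ) i j * v j)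
    (h w : EuclideanSpace ℝ n) : ∑ i, A h i * A w i = ∑ q, yy f h q * yy f w q := by
  have h1 : ∀ i, A h i * A w i = ∑ q, yy f h q * (f i q * A w i) := by
    intro i
    rw [A_yy hA h i, Finset.sum_mul]
    exact Finset.sum_congr rfl fun q _ => by ring
  simp only [h1]
  rw [Finset.sum_comm]
  refine Finset.sum_congr rfl fun q _ => ?_
  rw [← Finset.mul_sum, yy_A hf hA]

theorem theta_eq (hf : fᵀ * f = 1) (hA : ∀ v i, A v i = ∑ j, (f * fᵀ) i j * v j)
    (h : EuclideanSpace ℝ n) (p : ι × Fin 2) :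
    ∑ a, mF f (fun i => A h i) (yy f h) (ca (‖A h‖ ^ 2)) (cb (‖A h‖ ^ 2)) a p •
      ((fderiv ℝ (fun z => uu A z a) h : EuclideanSpace ℝ n →L[ℝ] ℝ) :
        Module.Dual ℝ (EuclideanSpace ℝ n))
      = ∑ q, LL2 (yy f h) (‖A h‖ ^ 2) p q • eta f q := by
  refine LinearMap.ext fun w => ?_
  set s := ‖A h‖ ^ 2 with hs
  have hn : ∑ i, A h i * A h i = s := (nsq (A h)).symm
  have e1 := yy_A hf hA w p
  have e2 := yy_A hf hA h p
  have e3 := inner_A hf hA h w
  rw [LinearMap.sum_apply, LinearMap.sum_apply, Fintype.sum_sum_type]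
  simp only [LinearMap.smul_apply, ContinuousLinearMap.coe_coe, (hasFDerivAt_uu A h _).fderiv,
    Finset.univ_unique, Finset.sum_singleton, mF, of_apply, _root_.add_apply, _root_.smul_apply,
    ContinuousLinearMap.comp_apply, smul_eq_mul, eta_apply]
  have e4 : (innerSL ℝ (A h)) (A w) = ∑ i, A h i * A w i := by
    rw [innerSL_apply_apply, PiLp.inner_apply]
    refine Finset.sum_congr rfl fun i _ => ?_
    rw [RCLike.inner_apply, conj_trivial, mul_comm]
  have e5 : ∀ i, (EuclideanSpace.proj i : EuclideanSpace ℝ n →L[ℝ] ℝ) (A w) = A w i := fun _ => rfl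
  simp only [e4, e5, ← hs]
  set r := ∑ i, A h i * A w i with hr
  have e6 : ∀ i, (f i p + ca s * A h i * yy f h p) *
        (-cb s * A w i + -deriv cb s * (2 * A h i) * r)
      = -cb s * (f i p * A w i) + (-2 * deriv cb s * r) * (f i p * A h i)
        + (-(ca s * cb s * yy f h p)) * (A h i * A w i)
        + (-2 * ca s * deriv cb s * yy f h p * r) * (A h i * A h i) := fun i => by ring
  have e7 : ∀ q, LL2 (yy f h) s p q * yy f w q
      = (if p = q then -cb s * yy f w q else 0)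
        + (-2 * deriv cb s * (1 + ca s * s) - ca s * cb s
      - 2 * cb s * (Real.sin (ph s) * deriv ph s)) * yy f h p * (yy f h q * yy f w q) := by
    intro q
    simp only [LL2, Matrix.add_apply, Matrix.smul_apply, Matrix.one_apply, Matrix.vecMulVec_apply,
      smul_eq_mul]
    split_ifs <;> ring
  have e8 : ∀ q, ∑ i, f i q * w i = yy f w q := fun _ => rfl
  simp only [e6, e8, e7, Finset.sum_add_distrib, ← Finset.mul_sum, e1, e2, hn, ← e3, ← hr,
    Finset.sum_ite_eq, Finset.mem_univ, if_true]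
  ring

variable {E : Type*} [NormedAddCommGroup E] [NormedSpace ℝ E] [FiniteDimensional ℝ E]
  {P : E → EuclideanSpace ℝ n →L[ℝ] EuclideanSpace ℝ n} {W : E → (ι × Fin 2 → n) → ℝ} {x : E}

theorem det_mc {κ : Type*} [Fintype κ] [DecidableEq κ] (M : Matrix κ κ ℝ) :
    ((M.det : ℝ) : ℂ) = (mc M).det := by
  have := RingHom.map_det (algebraMap ℝ ℂ) M
  exact this

/-- the vertical part of the Euler form `ue` in the frame -/
theorem pbC_ue [Nonempty ι] (hP : ContDiffAt ℝ ∞ P x)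
    (hf : fᵀ * f = 1) (hPf : ∀ v i, P x v i = ∑ j, (f * fᵀ) i j * v j)
    (hWf : ∀ I, W x I = (f.submatrix I id).det) (h : EuclideanSpace ℝ n) :
    pbC (((ContinuousLinearMap.inr ℝ E (EuclideanSpace ℝ n)).comp (P x) :
        EuclideanSpace ℝ n →L[ℝ] E × EuclideanSpace ℝ n) :
        EuclideanSpace ℝ n →ₗ[ℝ] E × EuclideanSpace ℝ n) (ue P W (x, P x h))
      = Cx.ofR (GG ι (‖P x h‖ ^ 2) • Xi f) := by
  set A := P x with hAdef
  set g : EuclideanSpace ℝ n → E × EuclideanSpace ℝ n := fun z => (x, A z) with hg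
  have hgd : ∀ z, HasFDerivAt g ((ContinuousLinearMap.inr ℝ E (EuclideanSpace ℝ n)).comp A) z := by
    intro z
    have : HasFDerivAt (fun z => (x, A z)) ((0 : EuclideanSpace ℝ n →L[ℝ] E).prod A) z :=
      (hasFDerivAt_const x z).prodMk A.hasFDerivAt
    refine this.congr_fderiv ?_
    ext w <;> simp
  have hg2 : ContDiffAt ℝ 2 g h := contDiffAt_const.prodMk A.contDiff.contDiffAt
  have hSM : SM 1 (fun z : E × EuclideanSpace ℝ n => SS z.2 * mtx (P z.1) * (SS z.2)ᵀ) (g h) := by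
    have h1 : SM ∞ (fun z : E × EuclideanSpace ℝ n => SS z.2) (g h) :=
      (SM_SS (g h).2).comp contDiffAt_snd
    have h2 : SM ∞ (fun z : E × EuclideanSpace ℝ n => mtx (P z.1)) (g h) :=
      (contDiffAt_mtx (x := (g h).1) hP).comp contDiffAt_fst
    exact ((h1.push h2)).of_le one_le_inf
  have e1 : pbC (((ContinuousLinearMap.inr ℝ E (EuclideanSpace ℝ n)).comp A :
        EuclideanSpace ℝ n →L[ℝ] E × EuclideanSpace ℝ n) :
        EuclideanSpace ℝ n →ₗ[ℝ] E × EuclideanSpace ℝ n) (ue P W (x, A h))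
      = pullC g (ue P W) h := by
    rw [pullC, (hgd h).fderiv]
  rw [e1, ue, pullC_ef hg2 hSM]
  have ht : (0 : ℝ) ≤ ‖A h‖ ^ 2 := sq_nonneg _
  have hn := norm_A hf hPf h
  have hW2 : ∀ I, pushW (SS (g h).2) (wC W (g h).1) I
      = ((mc (mF f (fun i => A h i) (yy f h) (ca (‖A h‖ ^ 2)) (cb (‖A h‖ ^ 2)))).submatrix I id).det := by
    intro I
    rw [← SS_frame hf hPf h]
    exact pushW_frame (SS (A h)) (mc f) (fun I => by
      change ((W x I : ℝ) : ℂ) = _
      rw [hWf, det_mc]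
      rfl) I
  have hfld : ∀ z, SS (g z).2 * mtx (P (g z).1) * (SS (g z).2)ᵀ
      = mc (Matrix.fromBlocks (f * fᵀ) 0 0 (1 : Matrix Unit Unit ℝ))
        - Uc (uu A) z * (Uc (uu A) z)ᵀ := fun z => field_eq hf hPf z
  have huC : ∀ a, ContDiffAt ℝ 1 (fun z => uu A z a) h := by
    intro a
    rcases a with i | t
    · have h1 : ContDiff ℝ ∞ fun z => -cb (‖A z‖ ^ 2) * A z i :=
        (contDiff_cb.comp A.contDiff).neg.mul ((contDiff_coord i).comp A.contDiff)
      exact h1.contDiffAt.of_le one_le_inf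
    · have h1 : ContDiff ℝ ∞ fun z => Real.cos (ph (‖A z‖ ^ 2)) :=
        Real.contDiff_cos.comp (ph_contDiff.comp ((contDiff_norm_sq ℝ).comp A.contDiff))
      exact h1.contDiffAt.of_le one_le_inf
  have hq : ∑ p, yy f h p * yy f h p = ‖A h‖ ^ 2 := hn.symm
  have e2 := ef_complement (x := h)
    (P := fun z => SS (g z).2 * mtx (P (g z).1) * (SS (g z).2)ᵀ)
    (Wt := fun z => pushW (SS (g z).2) (wC W (g z).1)) (u := uu A)
    (f := mF f (fun i => A h i) (yy f h) (ca (‖A h‖ ^ 2)) (cb (‖A h‖ ^ 2)))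
    hfld huC (mF_orth hf (A_yy hPf h) (by rw [hq]; exact sc3 ht))
    (by
      have h4 : (mc (mF f (fun i => A h i) (yy f h) (ca (‖A h‖ ^ 2)) (cb (‖A h‖ ^ 2))))ᵀ
        = (SS (A h) * mc f)ᵀ := by rw [SS_frame hf hPf h]
      have h1 : mtx A = mc f * (mc f)ᵀ := by
        have : (mc f)ᵀ = mc fᵀ := rfl
        rw [this, mc_mul]
        exact mtx_of_frame hPf
      rw [h4, ← SS_frame hf hPf h, transpose_mul]
      change _ = SS (A h) * mtx A * (SS (A h))ᵀ
      rw [h1]
      simp only [Matrix.mul_assoc])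
    (mU_unit hf (A_yy hPf h) (by rw [hq]; exact sc2 ht))
    (mF_mU hf (A_yy hPf h) (by rw [hq]; exact sc1 ht)) hW2
  rw [e2, th_lin (LL2 (yy f h) (‖A h‖ ^ 2)) (theta_eq hf hPf h), det_LL2 hq ht]
  have h5 : Fintype.card (ι × Fin 2) = 2 * Fintype.card ι := by
    rw [Fintype.card_prod, Fintype.card_fin, mul_comm]
  rw [h5]
  rfl

theorem pb_zero_of_isDeg {V V' : Type*} [NormedAddCommGroup V] [NormedSpace ℝ V]
    [FiniteDimensional ℝ V] [NormedAddCommGroup V'] [NormedSpace ℝ V'] {p : ℕ} (hp : 0 < p)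
    {c : Ext V'} (hc : IsDeg p c) : pb (0 : V →ₗ[ℝ] V') c = 0 := by
  refine eq_zero_of_evA fun q => ?_
  ext v
  rw [evA_pb]
  rcases Nat.eq_zero_or_pos q with h | h
  · subst h
    rw [hc 0 (by omega)]
    rfl
  · obtain ⟨q', rfl⟩ : ∃ q', q = q' + 1 := ⟨q - 1, by omega⟩
    have : (fun i => (0 : V →ₗ[ℝ] V') (v i)) = fun _ : Fin (q' + 1) => (0 : V') := by
      funext i; simp
    rw [this]
    exact (evA V' (q' + 1) c).map_coord_zero 0 rfl

/-- **(TH-D0)** -/
theorem pb_thomF [Nonempty ι] (hP : ContDiffAt ℝ ∞ P x)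
    (hf : fᵀ * f = 1) (hPf : ∀ v i, P x v i = ∑ j, (f * fᵀ) i j * v j)
    (hWf : ∀ I, W x I = (f.submatrix I id).det) (h : EuclideanSpace ℝ n) :
    pb (((ContinuousLinearMap.inr ℝ E (EuclideanSpace ℝ n)).comp (P x) :
        EuclideanSpace ℝ n →L[ℝ] E × EuclideanSpace ℝ n) :
        EuclideanSpace ℝ n →ₗ[ℝ] E × EuclideanSpace ℝ n) (thomF P W (x, P x h))
      = GG ι (‖P x h‖ ^ 2) • Xi f := by
  have h1 := congrArg Cx.re (pbC_ue (W := W) hP hf hPf hWf h)
  rw [pbC_re, Cx.ofR_re] at h1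
  have h2 : pb (((ContinuousLinearMap.inr ℝ E (EuclideanSpace ℝ n)).comp (P x) :
        EuclideanSpace ℝ n →L[ℝ] E × EuclideanSpace ℝ n) :
        EuclideanSpace ℝ n →ₗ[ℝ] E × EuclideanSpace ℝ n)
        (F.pull (fun z : E × EuclideanSpace ℝ n => z.1) (eR P W) (x, P x h)) = 0 := by
    rw [F.pull, pb_comp]
    have h3 : ((fderiv ℝ (fun z : E × EuclideanSpace ℝ n => z.1) (x, P x h) :
        E × EuclideanSpace ℝ n →L[ℝ] E) : E × EuclideanSpace ℝ n →ₗ[ℝ] E) ∘ₗ
        (((ContinuousLinearMap.inr ℝ E (EuclideanSpace ℝ n)).comp (P x) :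
        EuclideanSpace ℝ n →L[ℝ] E × EuclideanSpace ℝ n) :
        EuclideanSpace ℝ n →ₗ[ℝ] E × EuclideanSpace ℝ n) = 0 := by
      have : fderiv ℝ (fun z : E × EuclideanSpace ℝ n => z.1) (x, P x h)
          = ContinuousLinearMap.fst ℝ E (EuclideanSpace ℝ n) := fderiv_fst
      rw [this]
      ext w
      simp
    rw [h3]
    have h4 : IsDeg (2 * Fintype.card ι) (eR P W x) := (degC_ef _ _ x).1
    exact pb_zero_of_isDeg (by have := Fintype.card_pos (α := ι); omega) h4
  rw [thomF, map_smul, map_add, h1, h2, add_zero]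
  by_cases hle : ‖P x h‖ ≤ 2
  · rw [cut_of_le hle, one_smul]
  · have hs : (1 : ℝ) ≤ ‖P x h‖ ^ 2 := by
      push Not at hle
      nlinarith
    have hG : GG ι (‖P x h‖ ^ 2) = 0 := by
      rw [GG, ph_of_ge hs, Real.sin_pi, zero_div, zero_pow, mul_zero, mul_zero]
      have := Fintype.card_pos (α := ι); omega
    rw [hG, zero_smul, smul_zero]

end main

end Crest.Agent.R208.T
end
end

-- ▼ part R208/THD2

/-! Row 208, block TH-D (helper595).  THD2: the radial function `GG`, the product form of two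
complementary frames, and the fibre integral of the product of two complementary Thom forms. -/

set_option autoImplicit false
set_option linter.unusedSectionVars false
set_option linter.unusedSimpArgs false

open MeasureTheory Set Filter Topology Module Matrix
open scoped ContDiff
open Crest.Agent.R208.F Crest.Agent.R208.FI Crest.Agent.R208.CW

noncomputable section

namespace Crest.Agent.R208.T

/-! ### the radial function -/
section radial
variable (ι : Type*) [Fintype ι]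

theorem ph_monotone : Monotone ph := fun a b h =>
  mul_le_mul_of_nonneg_left (Real.smoothTransition.monotone (by linarith)) Real.pi_pos.le

theorem ph_nonneg (s : ℝ) : 0 ≤ ph s := mul_nonneg Real.pi_pos.le (Real.smoothTransition.nonneg _)

theorem ph_le (s : ℝ) : ph s ≤ Real.pi :=
  (mul_le_mul_of_nonneg_left (Real.smoothTransition.le_one _) Real.pi_pos.le).trans_eq (mul_one _)

theorem sin_ph_nonneg (s : ℝ) : 0 ≤ Real.sin (ph s) :=
  Real.sin_nonneg_of_nonneg_of_le_pi (ph_nonneg s) (ph_le s)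

theorem GG_nonneg (s : ℝ) : 0 ≤ GG ι s := by
  have h1 : 0 ≤ deriv ph s := ph_monotone.deriv_nonneg
  have h2 := sin_ph_nonneg s
  unfold GG
  positivity

variable {ι}

theorem pow_ne [Nonempty ι] : 2 * Fintype.card ι - 1 ≠ 0 := by
  have : 0 < Fintype.card ι := Fintype.card_pos
  omega

theorem GG_of_le [Nonempty ι] {s : ℝ} (h : s ≤ 1 / 2) : GG ι s = 0 := by
  rw [GG, ph_of_le h, Real.sin_zero, zero_div, zero_pow pow_ne, mul_zero, mul_zero]

theorem GG_of_ge [Nonempty ι] {s : ℝ} (h : 1 ≤ s) : GG ι s = 0 := by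
  rw [GG, ph_of_ge h, Real.sin_pi, zero_div, zero_pow pow_ne, mul_zero, mul_zero]

theorem GG_continuous [Nonempty ι] : Continuous (GG ι) := by
  rw [continuous_iff_continuousAt]
  intro s
  rcases lt_or_ge s (1 / 2) with h | h
  · have : GG ι =ᶠ[𝓝 s] fun _ => 0 := by
      filter_upwards [Iio_mem_nhds h] with t ht using GG_of_le (le_of_lt ht)
    exact continuousAt_const.congr this.symm
  · have hs : √s ≠ 0 := (Real.sqrt_pos.2 (by linarith)).ne'
    have h1 : Continuous (deriv ph) := ph_contDiff.continuous_deriv (by norm_num)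
    have h2 : Continuous ph := ph_contDiff.continuous
    unfold GG
    have h3 : ContinuousAt (fun s : ℝ => √s) s := Real.continuous_sqrt.continuousAt
    have h4 : ContinuousAt (fun s => Real.sin (ph s)) s :=
      (Real.continuous_sin.comp h2).continuousAt
    exact continuousAt_const.mul (((continuousAt_const.mul h3).mul h1.continuousAt).mul
      ((h4.div h3 hs).pow _))

theorem exists_GG_pos : ∃ s : ℝ, 0 < s ∧ 0 < GG ι s := by
  obtain ⟨s, hs, h⟩ := exists_deriv_eq_slope ph (a := 1 / 2) (b := 1) (by norm_num)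
    ph_contDiff.continuous.continuousOn (ph_contDiff.differentiable (by simp)).differentiableOn
  refine ⟨s, by linarith [hs.1], ?_⟩
  rw [ph_of_ge le_rfl, ph_of_le le_rfl] at h
  have h1 : 0 < deriv ph s := by rw [h]; have := Real.pi_pos; norm_num; linarith
  have h2 : 0 < Real.sin (ph s) := by
    refine Real.sin_pos_of_pos_of_lt_pi ?_ ?_
    · exact mul_pos Real.pi_pos (Real.smoothTransition.pos_of_pos (by linarith [hs.1]))
    · have := mul_lt_mul_of_pos_left (Real.smoothTransition.lt_one_of_lt_one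
        (x := 2 * s - 1) (by linarith [hs.2])) Real.pi_pos
      rwa [mul_one] at this
  have h3 : 0 < √s := Real.sqrt_pos.2 (by linarith [hs.1])
  unfold GG
  positivity

end radial

/-! ### the product form of two complementary frames -/
section frames
variable {n ι ι' : Type*} [Fintype n] [DecidableEq n] [Fintype ι] [DecidableEq ι]
  [Fintype ι'] [DecidableEq ι']

theorem sum_mul_transpose {κ : Type*} [Fintype κ] (g : Matrix n κ ℝ) (i : n) (v : n → ℝ) :
    ∑ j, (g * gᵀ) i j * v j = ∑ a, g i a * ∑ j, g j a * v j := by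
  simp only [Matrix.mul_apply, Finset.sum_mul, transpose_apply, Finset.mul_sum]
  rw [Finset.sum_comm]
  exact Finset.sum_congr rfl fun a _ => Finset.sum_congr rfl fun j _ => by ring

theorem eq_zero_of_eta {f : Matrix n (ι × Fin 2) ℝ} {f' : Matrix n (ι' × Fin 2) ℝ}
    (h : f * fᵀ + f' * f'ᵀ = 1) {v : EuclideanSpace ℝ n} (h1 : ∀ a, eta f a v = 0)
    (h2 : ∀ a, eta f' a v = 0) : v = 0 := by
  ext i
  have e : v i = ∑ j, (f * fᵀ + f' * f'ᵀ) i j * v j := by
    rw [h]; simp [Matrix.one_apply]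
  rw [e]
  simp only [Matrix.add_apply, add_mul, Finset.sum_add_distrib, sum_mul_transpose]
  simp only [eta_apply] at h1 h2
  simp [h1, h2]

theorem finrank_frames {f : Matrix n (ι × Fin 2) ℝ} {f' : Matrix n (ι' × Fin 2) ℝ}
    (hf : fᵀ * f = 1) (hf' : f'ᵀ * f' = 1) (h : f * fᵀ + f' * f'ᵀ = 1) :
    Fintype.card ι' * 2 + Fintype.card ι * 2 = finrank ℝ (EuclideanSpace ℝ n) := by
  have := card_frames hf hf' h
  rw [finrank_euclideanSpace, ← this]
  simp

theorem Xi_mul_ne {f : Matrix n (ι × Fin 2) ℝ} {f' : Matrix n (ι' × Fin 2) ℝ}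
    (hf : fᵀ * f = 1) (hf' : f'ᵀ * f' = 1) (h : f * fᵀ + f' * f'ᵀ = 1) :
    evA (EuclideanSpace ℝ n) (finrank ℝ (EuclideanSpace ℝ n)) (Xi f' * Xi f)
      (Module.finBasis ℝ (EuclideanSpace ℝ n)) ≠ 0 := by
  have hN := finrank_frames hf hf' h
  set b := Module.finBasis ℝ (EuclideanSpace ℝ n) with hb
  rw [Xi, Xi, ExteriorAlgebra.ιMulti_mul_ιMulti, ← evA_cast hN, evA_iMulti]
  set l := Fin.append (fun k => eta f' ((kFin ι').symm k)) (fun k => eta f ((kFin ι).symm k))
    with hl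
  intro h0
  obtain ⟨c, hc, hc0⟩ := Matrix.exists_vecMul_eq_zero_iff.2 h0
  set v : EuclideanSpace ℝ n := ∑ i, c i • b (Fin.cast hN i) with hv
  have hlv : ∀ j, l j v = 0 := fun j => by
    have := congrFun hc0 j
    rw [Matrix.vecMul, dotProduct] at this
    rw [hv, map_sum]
    simpa using this
  have h1 : ∀ a, eta f a v = 0 := fun a => by
    have := hlv (Fin.natAdd _ (kFin ι a))
    rwa [hl, Fin.append_right, Equiv.symm_apply_apply] at this
  have h2 : ∀ a, eta f' a v = 0 := fun a => by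
    have := hlv (Fin.castAdd _ (kFin ι' a))
    rwa [hl, Fin.append_left, Equiv.symm_apply_apply] at this
  have hv0 := eq_zero_of_eta h h1 h2
  have hli := b.linearIndependent.comp (Fin.cast hN) (Fin.cast_injective hN)
  rw [Fintype.linearIndependent_iff] at hli
  exact hc (funext fun i => hli c (by rw [← hv0, hv]; rfl) i)

end frames

/-! ### the fibre integral -/
section unit
variable {n ι ι' : Type*} [Fintype n] [DecidableEq n] [Fintype ι] [DecidableEq ι]
  [Fintype ι'] [DecidableEq ι'] {E : Type*} [NormedAddCommGroup E] [NormedSpace ℝ E]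
  [FiniteDimensional ℝ E] {X : Set E} {x : E}
  {P : E → EuclideanSpace ℝ n →L[ℝ] EuclideanSpace ℝ n}
  {W : E → (ι × Fin 2 → n) → ℝ} {W' : E → (ι' × Fin 2 → n) → ℝ}

theorem gam_eq_bet (P : E → EuclideanSpace ℝ n →L[ℝ] EuclideanSpace ℝ n) :
    gam P = bet (fun x => 1 - P x) := rfl

theorem fderiv_bet_inr (hP : DifferentiableAt ℝ P x) (k : EuclideanSpace ℝ n) :
    (fderiv ℝ (bet P) (x, k)).comp (ContinuousLinearMap.inr ℝ E (EuclideanSpace ℝ n))
      = (ContinuousLinearMap.inr ℝ E (EuclideanSpace ℝ n)).comp (P x) := by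
  have h1 : DifferentiableAt ℝ (bet P) (x, k) := by
    have h2 : DifferentiableAt ℝ (fun z : E × EuclideanSpace ℝ n => P z.1) (x, k) :=
      DifferentiableAt.comp (x, k) (f := Prod.fst) hP differentiableAt_fst
    exact differentiableAt_fst.prodMk (h2.clm_apply differentiableAt_snd)
  have h3 : HasFDerivAt (fun k : EuclideanSpace ℝ n => ((x, k) : E × EuclideanSpace ℝ n))
      (ContinuousLinearMap.inr ℝ E (EuclideanSpace ℝ n)) k :=
    (hasFDerivAt_const x k).prodMk (hasFDerivAt_id k)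
  have h4 := HasFDerivAt.comp (g := bet P) k h1.hasFDerivAt h3
  have h5 : HasFDerivAt (fun k : EuclideanSpace ℝ n => ((x, P x k) : E × EuclideanSpace ℝ n))
      ((ContinuousLinearMap.inr ℝ E (EuclideanSpace ℝ n)).comp (P x)) k :=
    (hasFDerivAt_const x k).prodMk (P x).hasFDerivAt
  exact h4.unique h5

theorem pb_inr_pull [Nonempty ι] (h : OR X P W) (hx : x ∈ X) {f : Matrix n (ι × Fin 2) ℝ}
    (hf : fᵀ * f = 1) (hPf : ∀ v i, P x v i = ∑ j, (f * fᵀ) i j * v j)
    (hWf : ∀ I, W x I = (f.submatrix I id).det) (k : EuclideanSpace ℝ n) :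
    pb ((ContinuousLinearMap.inr ℝ E (EuclideanSpace ℝ n) :
      EuclideanSpace ℝ n →L[ℝ] E × EuclideanSpace ℝ n) :
      EuclideanSpace ℝ n →ₗ[ℝ] E × EuclideanSpace ℝ n) (F.pull (bet P) (thomF P W) (x, k))
      = GG ι (‖P x k‖ ^ 2) • Xi f := by
  rw [← pb_thomF (h.sP x hx) hf hPf hWf k, F.pull, pb_comp,
    ← fderiv_bet_inr ((h.sP x hx).differentiableAt (by simp)) k]
  rfl

/-- the integrand -/
theorem cH_thom [Nonempty ι] [Nonempty ι'] (h : OR X P W) (h' : OR X (fun x => 1 - P x) W')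
    (hx : x ∈ X) : ∃ K : ℝ, K ≠ 0 ∧ ∀ k,
      cH (ContinuousLinearMap.inl ℝ E (EuclideanSpace ℝ n))
        (ContinuousLinearMap.inr ℝ E (EuclideanSpace ℝ n))
        ((F.pull (gam P) (thomF (fun x => 1 - P x) W') * F.pull (bet P) (thomF P W)) (x, k))
      = algebraMap ℝ (Ext E) (K * (GG ι' (‖k - P x k‖ ^ 2) * GG ι (‖P x k‖ ^ 2))) := by
  obtain ⟨f, hf, hPf, hWf⟩ := h.fr x hx
  obtain ⟨f', hf', hPf', hWf'⟩ := h'.fr x hx
  have hff : f * fᵀ + f' * f'ᵀ = 1 := by
    ext i j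
    have e1 := hPf (EuclideanSpace.single j 1) i
    have e2 := hPf' (EuclideanSpace.single j 1) i
    have e3 : (1 - P x) (EuclideanSpace.single j (1 : ℝ)) i
        = (EuclideanSpace.single j (1 : ℝ) : EuclideanSpace ℝ n) i
          - P x (EuclideanSpace.single j 1) i := rfl
    rw [e3, e1] at e2
    simp only [PiLp.single_apply, mul_ite, mul_one, mul_zero, Finset.sum_ite_eq',
      Finset.mem_univ, if_true] at e2
    rw [Matrix.add_apply, Matrix.one_apply, ← e2]
    ring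
  refine ⟨_, Xi_mul_ne hf hf' hff, fun k => ?_⟩
  have hN := finrank_frames hf hf' hff
  have hdeg : IsDeg (finrank ℝ (EuclideanSpace ℝ n))
      ((F.pull (gam P) (thomF (fun x => 1 - P x) W') * F.pull (bet P) (thomF P W)) (x, k)) := by
    have e : finrank ℝ (EuclideanSpace ℝ n) = 2 * Fintype.card ι' + 2 * Fintype.card ι := by
      rw [← hN]; ring
    rw [e]
    exact IsDeg.mul ((thomF_deg _).pb _) ((thomF_deg _).pb _)
  rw [cH_of_isDeg hdeg, Pi.mul_apply, _root_.map_mul, gam_eq_bet,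
    pb_inr_pull h hx hf hPf hWf, pb_inr_pull h' hx hf' hPf' hWf', smul_mul_smul_comm, map_smul,
    AlternatingMap.smul_apply, smul_eq_mul, mul_comm]
  rfl

/-- a unit vector in the range -/
theorem exists_unit {κ : Type*} [Fintype κ] [DecidableEq κ] [Nonempty κ] {f : Matrix n κ ℝ}
    (hf : fᵀ * f = 1) {A : EuclideanSpace ℝ n →L[ℝ] EuclideanSpace ℝ n}
    (hA : ∀ v i, A v i = ∑ j, (f * fᵀ) i j * v j) : ∃ u : EuclideanSpace ℝ n, ‖u‖ = 1 ∧ A u = u := by
  obtain ⟨a⟩ := ‹Nonempty κ›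
  refine ⟨WithLp.toLp 2 fun i => f i a, ?_, ?_⟩
  · have h1 := congrFun (congrFun hf a) a
    rw [Matrix.mul_apply, Matrix.one_apply_eq] at h1
    have h2 : ‖(WithLp.toLp 2 fun i => f i a : EuclideanSpace ℝ n)‖ ^ 2 = 1 := by
      rw [nsq, ← h1]; rfl
    exact (pow_eq_one_iff_of_nonneg (norm_nonneg _) two_ne_zero).1 h2
  · ext i
    rw [hA, sum_mul_transpose]
    have h1 : ∀ b, ∑ j, f j b * f j a = (1 : Matrix κ κ ℝ) b a := fun b => by
      rw [← hf, Matrix.mul_apply]; rfl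
    simp only [h1]
    simp [Matrix.one_apply]

variable [MeasurableSpace (EuclideanSpace ℝ n)]

theorem thom_unit_pt [Nonempty ι] [Nonempty ι'] [BorelSpace (EuclideanSpace ℝ n)]
    (μ : Measure (EuclideanSpace ℝ n)) [μ.IsAddHaarMeasure] (h : OR X P W)
    (h' : OR X (fun x => 1 - P x) W') (hx : x ∈ X) : ∃ c : ℝ, c ≠ 0 ∧
      pI μ (F.pull (gam P) (thomF (fun x => 1 - P x) W') * F.pull (bet P) (thomF P W)) x
        = algebraMap ℝ (Ext E) c := by
  obtain ⟨K, hK, hk⟩ := cH_thom h h' hx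
  obtain ⟨f, hf, hPf, hWf⟩ := h.fr x hx
  obtain ⟨f', hf', hPf', hWf'⟩ := h'.fr x hx
  set g : EuclideanSpace ℝ n → ℝ := fun k => GG ι' (‖k - P x k‖ ^ 2) * GG ι (‖P x k‖ ^ 2) with hg
  have hgc : Continuous g := by
    have h1 : Continuous fun k : EuclideanSpace ℝ n => ‖k - P x k‖ ^ 2 := by fun_prop
    have h2 : Continuous fun k : EuclideanSpace ℝ n => ‖P x k‖ ^ 2 := by fun_prop
    exact (GG_continuous.comp h1).mul (GG_continuous.comp h2)
  have hgs : HasCompactSupport g := by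
    refine HasCompactSupport.intro (isCompact_closedBall (0 : EuclideanSpace ℝ n) 2)
      fun k hk => ?_
    have h1 : 2 < ‖k‖ := by simpa using hk
    have h2 : ‖k‖ ≤ ‖k - P x k‖ + ‖P x k‖ := by
      have := norm_add_le (k - P x k) (P x k)
      rwa [sub_add_cancel] at this
    rcases lt_or_ge ‖P x k‖ 1 with h3 | h3
    · have h4 : 1 ≤ ‖k - P x k‖ := by linarith
      simp only [hg]
      rw [GG_of_ge (by nlinarith), zero_mul]
    · simp only [hg]
      rw [GG_of_ge (s := ‖P x k‖ ^ 2) (by nlinarith), mul_zero]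
  have hg0 : ∀ k, 0 ≤ g k := fun k => mul_nonneg (GG_nonneg _ _) (GG_nonneg _ _)
  have hgp : ∃ k, g k ≠ 0 := by
    obtain ⟨s, hs, hs'⟩ := exists_GG_pos (ι := ι)
    obtain ⟨t, ht, ht'⟩ := exists_GG_pos (ι := ι')
    obtain ⟨u, hu, hPu⟩ := exists_unit hf hPf
    obtain ⟨v, hv, hPv⟩ := exists_unit hf' hPf'
    have hPv' : P x v = 0 := by
      have : v - P x v = v := hPv
      simpa using this
    refine ⟨√s • u + √t • v, ?_⟩
    have e1 : P x (√s • u + √t • v) = √s • u := by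
      rw [map_add, map_smul, map_smul, hPu, hPv', smul_zero, add_zero]
    simp only [hg]
    rw [e1, add_sub_cancel_left, norm_smul, norm_smul, hu, hv, mul_one, mul_one,
      Real.norm_eq_abs, Real.norm_eq_abs, sq_abs, sq_abs, Real.sq_sqrt hs.le, Real.sq_sqrt ht.le]
    exact (mul_pos ht' hs').ne'
  obtain ⟨k0, hk0⟩ := hgp
  have hpos : 0 < ∫ k, g k ∂μ :=
    hgc.integral_pos_of_hasCompactSupport_nonneg_nonzero hgs hg0 hk0
  refine ⟨K * ∫ k, g k ∂μ, mul_ne_zero hK hpos.ne', ?_⟩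
  have e1 : ∀ k : EuclideanSpace ℝ n, (ContinuousLinearMap.inl ℝ E (EuclideanSpace ℝ n)) x
      + (ContinuousLinearMap.inr ℝ E (EuclideanSpace ℝ n)) k = (x, k) := fun k => by simp
  rw [pI, prH_eq]
  simp only [e1, hk]
  have hint : Integrable (fun k => K * g k) μ :=
    (hgc.integrable_of_hasCompactSupport hgs).const_mul K
  have := (LinearMap.toContinuousLinearMap (Algebra.linearMap ℝ (Ext E))).integral_comp_comm hint
  rw [integral_const_mul] at this
  exact this

end unit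

end Crest.Agent.R208.T
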