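import Crest.Agent.R208.SN2
import Crest.Agent.R208.THD2
import Crest.Agent.R208.FV1
import Crest.Agent.R208.T3a
import Crest.Agent.R208.DEG2

-- ▼ part R208/SN3
section

/-! Row 208, block SN (helper900).  SN3: orientation of the sphere bundle `SB X P`. -/

set_option autoImplicit false
set_option linter.unusedSectionVars false

open MeasureTheory Set Filter Topology Module Matrix
open scoped ContDiff RealInnerProductSpace
open Crest.Agent.R208.F Crest.Agent.R208.FI Crest.Agent.R208.T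

noncomputable section

namespace Crest.Agent.R208.SN

section vol
variable {n ι : Type*} [Fintype n] [DecidableEq n] [Fintype ι] [DecidableEq ι]

/-- coordinate covector -/
def cvn (i : n) : Module.Dual ℝ (EuclideanSpace ℝ n) :=
  ((EuclideanSpace.proj i : EuclideanSpace ℝ n →L[ℝ] ℝ) : Module.Dual ℝ (EuclideanSpace ℝ n))

/-- form of a tensor -/
def volW (w : (ι × Fin 2 → n) → ℝ) : Ext (EuclideanSpace ℝ n) :=
  ∑ I, w I • ExteriorAlgebra.ιMulti ℝ (Fintype.card ι * 2) fun k => cvn (I ((kFin ι).symm k))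

theorem sum_perm (f : Matrix n (ι × Fin 2) ℝ) (σ : Equiv.Perm (ι × Fin 2)) :
    ∑ I : ι × Fin 2 → n, (∏ p, f (I p) (σ p)) •
      ExteriorAlgebra.ιMulti ℝ (Fintype.card ι * 2) (fun k => cvn (I ((kFin ι).symm k)))
      = ((Equiv.Perm.sign σ : ℤ) : ℝ) • Xi f := by
  classical
  set e := (kFin ι).symm with he
  have h1 : ∑ I : ι × Fin 2 → n, (∏ p, f (I p) (σ p)) •
      ExteriorAlgebra.ιMulti ℝ (Fintype.card ι * 2) (fun k => cvn (I (e k)))
      = ∑ J : Fin (Fintype.card ι * 2) → n, (∏ k, f (J k) (σ (e k))) •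
        ExteriorAlgebra.ιMulti ℝ (Fintype.card ι * 2) (fun k => cvn (J k)) := by
    refine Fintype.sum_equiv (Equiv.arrowCongr e.symm (Equiv.refl n)) _ _ fun I => ?_
    have h2 : ∏ p, f (I p) (σ p) = ∏ k, f (I (e k)) (σ (e k)) :=
      (e.prod_comp (fun p => f (I p) (σ p))).symm
    rw [h2]
    simp [Equiv.arrowCongr]
  rw [h1]
  have h2 : ∀ J : Fin (Fintype.card ι * 2) → n, (∏ k, f (J k) (σ (e k))) •
        ExteriorAlgebra.ιMulti ℝ (Fintype.card ι * 2) (fun k => cvn (J k))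
      = (ExteriorAlgebra.ιMulti ℝ (Fintype.card ι * 2)).toMultilinearMap
        (fun k => f (J k) (σ (e k)) • cvn (J k)) := by
    intro J
    rw [MultilinearMap.map_smul_univ]; rfl
  simp only [h2]
  rw [← MultilinearMap.map_sum (ExteriorAlgebra.ιMulti ℝ (Fintype.card ι * 2)).toMultilinearMap
    (fun k i => f i (σ (e k)) • cvn i)]
  have h3 : (fun k => ∑ i, f i (σ (e k)) • cvn (n := n) i)
      = (fun k => eta f (e k)) ∘ (e.trans (σ.trans e.symm)) := by
    funext k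
    simp only [Function.comp, Equiv.trans_apply, Equiv.apply_symm_apply]
    rfl
  have h4 : (ExteriorAlgebra.ιMulti ℝ (Fintype.card ι * 2)).toMultilinearMap
      (fun k => ∑ i, f i (σ (e k)) • cvn (n := n) i)
      = ExteriorAlgebra.ιMulti ℝ (Fintype.card ι * 2)
        (fun k => ∑ i, f i (σ (e k)) • cvn (n := n) i) := rfl
  rw [h4, h3, AlternatingMap.map_perm]
  have h5 : Equiv.Perm.sign (e.trans (σ.trans e.symm)) = Equiv.Perm.sign σ := by
    have := Equiv.Perm.sign_permCongr e.symm σ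
    rw [← this]
    congr 1
  rw [h5, Units.smul_def, ← Int.cast_smul_eq_zsmul ℝ]
  rfl

/-- the form of the tensor of an orthonormal frame -/
theorem volW_frame {f : Matrix n (ι × Fin 2) ℝ} {w : (ι × Fin 2 → n) → ℝ}
    (hw : ∀ I, w I = (f.submatrix I id).det) :
    volW w = (Fintype.card (Equiv.Perm (ι × Fin 2)) : ℝ) • Xi f := by
  classical
  have h1 : ∀ I, w I = ∑ σ : Equiv.Perm (ι × Fin 2),
      ((Equiv.Perm.sign σ : ℤ) : ℝ) * ∏ p, f (I p) (σ p) := by
    intro I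
    rw [hw, ← det_transpose, det_apply']
    refine Finset.sum_congr rfl fun σ _ => ?_
    rfl
  unfold volW
  simp only [h1, Finset.sum_smul, mul_smul]
  rw [Finset.sum_comm]
  have h2 : ∀ σ : Equiv.Perm (ι × Fin 2), ∑ I : ι × Fin 2 → n,
      ((Equiv.Perm.sign σ : ℤ) : ℝ) • ((∏ p, f (I p) (σ p)) •
      ExteriorAlgebra.ιMulti ℝ (Fintype.card ι * 2) (fun k => cvn (I ((kFin ι).symm k)))) = Xi f := by
    intro σ
    rw [← Finset.smul_sum, sum_perm, smul_smul]
    have : ((Equiv.Perm.sign σ : ℤ) : ℝ) * ((Equiv.Perm.sign σ : ℤ) : ℝ) = 1 := by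
      rw [← Int.cast_mul, Int.units_coe_mul_self]; simp
    rw [this, one_smul]
  rw [Finset.sum_congr rfl fun σ _ => h2 σ, Finset.sum_const, Finset.card_univ, Nat.cast_smul_eq_nsmul]

theorem continuous_volW : Continuous (volW : ((ι × Fin 2 → n) → ℝ) → Ext (EuclideanSpace ℝ n)) := by
  unfold volW
  fun_prop

theorem isDeg_Xi (f : Matrix n (ι × Fin 2) ℝ) : IsDeg (Fintype.card ι * 2) (Xi f) := IsDeg.iMulti _

end vol

section ori
variable {n ι : Type*} [Fintype n] [DecidableEq n] [Fintype ι] [DecidableEq ι]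
  {E : Type*} [NormedAddCommGroup E] [NormedSpace ℝ E] [FiniteDimensional ℝ E]
  {X : Set E} {P : E → EuclideanSpace ℝ n →L[ℝ] EuclideanSpace ℝ n} {W : E → (ι × Fin 2 → n) → ℝ}
  {d : ℕ}

/-- radial vector -/
def rad (z : (E × EuclideanSpace ℝ n) × ℝ) : (E × EuclideanSpace ℝ n) × ℝ := ((0, z.1.2), z.2)

/-- the second component as a linear map -/
def p2 : ((E × EuclideanSpace ℝ n) × ℝ) →ₗ[ℝ] EuclideanSpace ℝ n :=
  LinearMap.snd ℝ E (EuclideanSpace ℝ n) ∘ₗ LinearMap.fst ℝ (E × EuclideanSpace ℝ n) ℝ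

/-- the last component as a covector -/
def p3 : Module.Dual ℝ ((E × EuclideanSpace ℝ n) × ℝ) := LinearMap.snd ℝ (E × EuclideanSpace ℝ n) ℝ

/-- vertical orientation form -/
def oVf (W : E → (ι × Fin 2 → n) → ℝ) (z : (E × EuclideanSpace ℝ n) × ℝ) :
    Ext ((E × EuclideanSpace ℝ n) × ℝ) :=
  ii (rad z) (pb p2 (volW (W z.1.1)) * io p3)

theorem continuousOn_oVf (h : OR X P W) : ContinuousOn (oVf W) (SB X P) := by
  have h1 : ContinuousOn (fun z : (E × EuclideanSpace ℝ n) × ℝ => W z.1.1) (SB X P) := by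
    refine continuousOn_pi.2 fun I => ?_
    intro z hz
    have h2 : ContinuousAt (fun y => W y I) z.1.1 := (h.sW _ hz.1.1.1 I).continuousAt
    have h3 : ContinuousAt (fun z : (E × EuclideanSpace ℝ n) × ℝ => z.1.1) z := by fun_prop
    exact (ContinuousAt.comp (g := fun y => W y I)
      (f := fun z : (E × EuclideanSpace ℝ n) × ℝ => z.1.1) h2 h3).continuousWithinAt
  have h2 : ContinuousOn (fun z : (E × EuclideanSpace ℝ n) × ℝ =>
      pb (p2 (E := E) (n := n)) (volW (W z.1.1)) * io p3) (SB X P) := by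
    have h3 : Continuous fun c : Ext (EuclideanSpace ℝ n) =>
        (pb (p2 (E := E) (n := n)) c * io p3 : Ext ((E × EuclideanSpace ℝ n) × ℝ)) := by
      let L : Ext (EuclideanSpace ℝ n) →ₗ[ℝ] Ext ((E × EuclideanSpace ℝ n) × ℝ) :=
        { toFun := fun c => pb p2 c * io p3
          map_add' := fun a b => by rw [map_add, add_mul]
          map_smul' := fun r a => by rw [map_smul, smul_mul_assoc]; rfl }
      exact L.continuous_of_finiteDimensional
    exact h3.comp_continuousOn (continuous_volW.comp_continuousOn h1)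
  let B : ((E × EuclideanSpace ℝ n) × ℝ) →ₗ[ℝ] Ext ((E × EuclideanSpace ℝ n) × ℝ) →L[ℝ]
      Ext ((E × EuclideanSpace ℝ n) × ℝ) :=
    { toFun := fun v => LinearMap.toContinuousLinearMap (ii v)
      map_add' := fun a b => by ext c; simp
      map_smul' := fun r a => by ext c; simp }
  have hB : Continuous B := B.continuous_of_finiteDimensional
  have h4 : Continuous (rad : (E × EuclideanSpace ℝ n) × ℝ → _) := by unfold rad; fun_prop
  have h5 : ContinuousOn (fun z => B (rad z)) (SB X P) := (hB.comp h4).continuousOn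
  exact h5.clm_apply h2

/-- vertical vectors: non vanishing of the vertical orientation form -/
theorem evA_oVf_ne (h : OR X P W) {x : E} {v : EuclideanSpace ℝ n} {t : ℝ}
    (hz : ((x, v), t) ∈ SB X P)
    {w : Fin (Fintype.card ι * 2) → (E × EuclideanSpace ℝ n) × ℝ} (hw : LinearIndependent ℝ w)
    (hv : ∀ i, ∃ b s, w i = ((0, b), s) ∧ P x b = b ∧ ⟪v, b⟫ + t * s = 0) :
    evA _ (Fintype.card ι * 2) (oVf W ((x, v), t)) w ≠ 0 := by
  classical
  have hx : x ∈ X := hz.1.1.1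
  have hPv : P x v = v := hz.1.1.2
  have hvt : ⟪v, v⟫ + t * t = 1 := (SB_iff.1 hz).2.2
  obtain ⟨f, hf, hPf, hWf⟩ := h.fr x hx
  rw [oVf, ← evA_ii, volW_frame hWf]
  set c : ℝ := (Fintype.card (Equiv.Perm (ι × Fin 2)) : ℝ) with hc
  have hc0 : c ≠ 0 := by rw [hc]; exact_mod_cast Fintype.card_ne_zero
  set u : Fin (Fintype.card ι * 2 + 1) → (E × EuclideanSpace ℝ n) × ℝ :=
    Fin.cons (rad ((x, v), t)) w with hu
  -- the covectors
  set l : Fin (Fintype.card ι * 2 + 1) → Module.Dual ℝ ((E × EuclideanSpace ℝ n) × ℝ) :=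
    Fin.append (fun k => eta f ((kFin ι).symm k) ∘ₗ p2) (fun _ : Fin 1 => p3) with hl
  have h1 : pb p2 (c • Xi f) * io (p3 (E := E) (n := n))
      = c • ExteriorAlgebra.ιMulti ℝ (Fintype.card ι * 2 + 1) l := by
    rw [map_smul, smul_mul_assoc, Xi, pb_iMulti]
    congr 1
    have e1 : io (p3 (E := E) (n := n)) = ExteriorAlgebra.ιMulti ℝ 1 (fun _ : Fin 1 => p3) := by
      rw [ExteriorAlgebra.ιMulti_apply]; simp
    rw [e1, ExteriorAlgebra.ιMulti_mul_ιMulti]
  rw [h1, map_smul, AlternatingMap.smul_apply, evA_iMulti, smul_eq_mul]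
  refine mul_ne_zero hc0 fun h0 => ?_
  obtain ⟨a, ha, ha0⟩ := Matrix.exists_vecMul_eq_zero_iff.2 h0
  set y : (E × EuclideanSpace ℝ n) × ℝ := ∑ i, a i • u i with hy
  have hly : ∀ j, l j y = 0 := fun j => by
    have := congrFun ha0 j
    rw [Matrix.vecMul, dotProduct] at this
    rw [hy, map_sum]
    simp only [map_smul, smul_eq_mul]
    have h2 : ∑ i, a i * (l j) (Matrix.vecCons (rad ((x, v), t)) w i) = 0 := by simpa using this
    exact h2
  -- `y = 0`
  have hu0 : ∀ i, (u i).1.1 = 0 ∧ P x (u i).1.2 = (u i).1.2 := by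
    intro i
    refine Fin.cases ?_ (fun i => ?_) i
    · exact ⟨rfl, hPv⟩
    · obtain ⟨b, s, hb, hPb, -⟩ := hv i
      have : u i.succ = w i := by rw [hu, Fin.cons_succ]
      rw [this, hb]; exact ⟨rfl, hPb⟩
  have hy1 : y.1.1 = 0 := by
    have : y.1.1 = ∑ i, a i • (u i).1.1 := by
      rw [hy]; simp [Prod.fst_sum]
    rw [this]; simp [(hu0 _).1]
  have hy2 : P x y.1.2 = y.1.2 := by
    have : y.1.2 = ∑ i, a i • (u i).1.2 := by
      rw [hy]; simp [Prod.fst_sum, Prod.snd_sum]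
    rw [this, map_sum]
    exact Finset.sum_congr rfl fun i _ => by rw [map_smul, (hu0 i).2]
  have hy3 : y.2 = 0 := by
    have := hly (Fin.natAdd _ 0)
    rw [hl, Fin.append_right] at this
    exact this
  have hy4 : ∀ k : ι × Fin 2, eta f k y.1.2 = 0 := by
    intro k
    have := hly (Fin.castAdd 1 (kFin ι k))
    rw [hl, Fin.append_left, Equiv.symm_apply_apply] at this
    exact this
  have hy5 : y.1.2 = 0 := by
    ext i
    rw [← hy2, hPf]
    have e1 : ∑ j, (f * fᵀ) i j * y.1.2 j = ∑ k, f i k * ∑ j, f j k * y.1.2 j :=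
      sum_mul_transpose f i _
    rw [e1]
    refine Finset.sum_eq_zero fun k _ => ?_
    have := hy4 k
    rw [eta_apply] at this
    rw [this, mul_zero]
  have hy0 : y = 0 := Prod.ext (Prod.ext hy1 hy5) hy3
  -- linear independence of `u`
  have hli : LinearIndependent ℝ u := by
    rw [hu, linearIndependent_finCons]
    refine ⟨hw, fun hmem => ?_⟩
    have key : ∀ q ∈ Submodule.span ℝ (Set.range w), ⟪v, q.1.2⟫ + t * q.2 = 0 := by
      intro q hq
      refine Submodule.span_induction (p := fun q _ => ⟪v, q.1.2⟫ + t * q.2 = 0) ?_ ?_ ?_ ?_ hq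
      · rintro _ ⟨i, rfl⟩
        obtain ⟨b, s, hb, -, hs⟩ := hv i
        rw [hb]; exact hs
      · simp
      · intro p q _ _ hp hq
        have e1 : (p + q).1.2 = p.1.2 + q.1.2 := rfl
        have e2 : (p + q).2 = p.2 + q.2 := rfl
        rw [e1, e2, inner_add_right]; linear_combination hp + hq
      · intro c p _ hp
        have e1 : (c • p).1.2 = c • p.1.2 := rfl
        have e2 : (c • p).2 = c * p.2 := rfl
        rw [e1, e2, real_inner_smul_right]; linear_combination c * hp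
    have h3 := key _ hmem
    have h4 : ⟪v, v⟫ + t * t = 0 := h3
    rw [hvt] at h4
    exact one_ne_zero h4
  exact ha (funext fun i => (Fintype.linearIndependent_iff.1 hli a hy0) i)

theorem ori_SB (hX : Clo d X) {oX : E → Ext E} (hoX : Ori d X oX)
    (h : OR X P W) (hs : ∀ x ∈ X, ∀ v w, ⟪P x v, w⟫ = ⟪v, P x w⟫)
    (hoX0 : ∀ x ∈ X, ∀ q < d, evA E q (oX x) = 0) :
    Ori (Fintype.card ι * 2 + d) (SB X P) (fun z => oVf W z * F.pull pB oX z) := by
  have hP : PField X (Fintype.card ι * 2) P := by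
    have := h.pfield
    rwa [mul_comm] at this
  have hS := subm_SB hX hP hs
  refine ori_of hS.cloZ ?_ ?_
  · exact continuousOn_mul (continuousOn_oVf h) (hS.continuousOn_pull hoX.cont)
  · rintro ⟨⟨x, v⟩, t⟩ hz
    have hx : x ∈ X := hz.1.1.1
    have hF := hS.clo_fibre x
    have hzF : ((x, v), t) ∈ SB X P ∩ pB ⁻¹' {x} := ⟨hz, rfl⟩
    have hTF := hF.finrank_Tan hzF
    let b := Module.finBasisOfFinrankEq ℝ (Tan (SB X P ∩ pB ⁻¹' {x}) ((x, v), t)) hTF
    set w : Fin (Fintype.card ι * 2) → (E × EuclideanSpace ℝ n) × ℝ := fun i => (b i : _) with hw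
    have hwi : LinearIndependent ℝ w :=
      b.linearIndependent.map' (Submodule.subtype _) (Submodule.ker_subtype _)
    have hwT : ∀ i, w i ∈ Tan (SB X P ∩ pB ⁻¹' {x}) ((x, v), t) := fun i => (b i).2
    have hwv : ∀ i, ∃ b s, w i = ((0, b), s) ∧ P x b = b ∧ ⟪v, b⟫ + t * s = 0 := by
      intro i
      have key : ∀ y ∈ Tan (SB X P ∩ pB ⁻¹' {x}) ((x, v), t),
          ∃ b s, y = ((0, b), s) ∧ P x b = b ∧ ⟪v, b⟫ + t * s = 0 := by
        rintro ⟨⟨a, b⟩, s⟩ h1
        obtain ⟨⟨rfl, h2⟩, h3⟩ := (mem_Tan_fib hX hP hs hz).1 h1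
        exact ⟨b, s, rfl, h2, h3⟩
      exact key _ (hwT i)
    -- lifts of a frame of the base
    have hfr := frame_isFrame (hX.finrank_Tan hx)
    have hlift : ∀ i, ∃ y ∈ Tan (SB X P) ((x, v), t),
        fderiv ℝ (pB : (E × EuclideanSpace ℝ n) × ℝ → E) ((x, v), t) y = frame d X x i :=
      fun i => hS.sub _ hz _ (hfr.2 i)
    choose y hyT hy using hlift
    refine ⟨Fin.append w y, ?_, ?_⟩
    · intro i
      refine Fin.addCases (fun i => ?_) (fun i => ?_) i
      · rw [Fin.append_left]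
        exact Tan_mono_of_subset inter_subset_left _ (hwT i)
      · rw [Fin.append_right]; exact hyT i
    · have hpw : ∀ i, (fderiv ℝ (pB : (E × EuclideanSpace ℝ n) × ℝ → E) ((x, v), t) :
          (E × EuclideanSpace ℝ n) × ℝ →ₗ[ℝ] E) (w i) = 0 := by
        intro i
        obtain ⟨b, s, hb, -, -⟩ := hwv i
        have h1 : fderiv ℝ (pB : (E × EuclideanSpace ℝ n) × ℝ → E) ((x, v), t) =
          (ContinuousLinearMap.fst ℝ E (EuclideanSpace ℝ n)).comp
            (ContinuousLinearMap.fst ℝ (E × EuclideanSpace ℝ n) ℝ) :=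
          ((ContinuousLinearMap.fst ℝ E (EuclideanSpace ℝ n)).comp
            (ContinuousLinearMap.fst ℝ (E × EuclideanSpace ℝ n) ℝ)).fderiv
        rw [hb]
        show fderiv ℝ (pB : (E × EuclideanSpace ℝ n) × ℝ → E) ((x, v), t) ((0, b), s) = 0
        rw [h1]; rfl
      have h2 := evA_mul_pb ((fderiv ℝ (pB : (E × EuclideanSpace ℝ n) × ℝ → E) ((x, v), t) :
          (E × EuclideanSpace ℝ n) × ℝ →ₗ[ℝ] E)) (oX x) (hoX0 x hx) y (oVf W ((x, v), t)) w hpw
      have h3 : (oVf W ((x, v), t) * F.pull pB oX ((x, v), t)) = oVf W ((x, v), t) *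
          pb ((fderiv ℝ (pB : (E × EuclideanSpace ℝ n) × ℝ → E) ((x, v), t) :
          (E × EuclideanSpace ℝ n) × ℝ →ₗ[ℝ] E)) (oX x) := rfl
      show evA _ _ (oVf W ((x, v), t) * F.pull pB oX ((x, v), t)) _ ≠ 0
      rw [h3, h2]
      refine mul_ne_zero (evA_oVf_ne h hz hwi hwv) ?_
      have h4 : (fun i => (fderiv ℝ (pB : (E × EuclideanSpace ℝ n) × ℝ → E) ((x, v), t) :
          (E × EuclideanSpace ℝ n) × ℝ →ₗ[ℝ] E) (y i)) = frame d X x := funext fun i => hy i
      rw [h4]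
      exact hoX.ne x hx

end ori

end Crest.Agent.R208.SN
end
end

-- ▼ part R208/SN4
section

/-! Row 208, block SN (helper900).  SN4: spreads; the map `g : SB X (P ∘ f) → C` extending
`f ∘ pB` from the upper hemispheres. -/

set_option autoImplicit false
set_option linter.unusedSectionVars false

open MeasureTheory Set Filter Topology Module Matrix
open scoped ContDiff RealInnerProductSpace
open Crest.Agent.R208.F Crest.Agent.R208.FI Crest.Agent.R208.CW Crest.Agent.R208.T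

noncomputable section

namespace Crest.Agent.R208.SN

variable {n ι : Type*} [Fintype n] [DecidableEq n] [Fintype ι] [DecidableEq ι]

section or
variable {E E' : Type*} [NormedAddCommGroup E] [NormedSpace ℝ E] [FiniteDimensional ℝ E]
  [NormedAddCommGroup E'] [NormedSpace ℝ E'] [FiniteDimensional ℝ E']
  {X : Set E} {Y : Set E'} {P : E → EuclideanSpace ℝ n →L[ℝ] EuclideanSpace ℝ n}
  {W : E → (ι × Fin 2 → n) → ℝ}

theorem OR_sym (h : OR X P W) {x : E} (hx : x ∈ X) (v w : EuclideanSpace ℝ n) :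
    ⟪P x v, w⟫ = ⟪v, P x w⟫ := by
  obtain ⟨f, -, hP, -⟩ := h.fr x hx
  have hs : ∀ i j, (f * fᵀ) i j = (f * fᵀ) j i := fun i j => by
    simp only [Matrix.mul_apply, transpose_apply]
    exact Finset.sum_congr rfl fun a _ => mul_comm _ _
  rw [PiLp.inner_apply, PiLp.inner_apply]
  simp only [hP, RCLike.inner_apply, conj_trivial, Finset.mul_sum, Finset.sum_mul]
  rw [Finset.sum_comm]
  refine Finset.sum_congr rfl fun j _ => Finset.sum_congr rfl fun i _ => ?_
  rw [hs i j]; ring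

theorem OR_comp (h : OR X P W) {f : E' → E} (hf : SMap Y X f) :
    OR Y (fun y => P (f y)) (fun y => W (f y)) where
  sP y hy := ContDiffAt.comp y (h.sP _ (hf.maps hy)) (hf.smooth y hy)
  sW y hy I := ContDiffAt.comp (g := fun x => W x I) y (h.sW _ (hf.maps hy) I) (hf.smooth y hy)
  fr y hy := h.fr _ (hf.maps hy)

end or

/-- a spread: the planes `V_q = range (P q)`, `q ∈ C`, partition `T \ {0}` -/
structure Spr (T : Submodule ℝ (EuclideanSpace ℝ n)) (C : Set (EuclideanSpace ℝ n))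
    (P : EuclideanSpace ℝ n → EuclideanSpace ℝ n →L[ℝ] EuclideanSpace ℝ n)
    (W : EuclideanSpace ℝ n → (ι × Fin 2 → n) → ℝ)
    (rho : EuclideanSpace ℝ n → EuclideanSpace ℝ n) : Prop where
  or : OR C P W
  rg : ∀ q ∈ C, ∀ v, P q v ∈ T
  sm : ∀ u ∈ T, u ≠ 0 → ContDiffAt ℝ ∞ rho u
  mem : ∀ u ∈ T, u ≠ 0 → rho u ∈ C
  fix : ∀ u ∈ T, u ≠ 0 → P (rho u) u = u
  uniq : ∀ q ∈ C, ∀ u, u ≠ 0 → P q u = u → rho u = q

section step
variable {T : Submodule ℝ (EuclideanSpace ℝ n)} {C : Set (EuclideanSpace ℝ n)}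
  {P : EuclideanSpace ℝ n → EuclideanSpace ℝ n →L[ℝ] EuclideanSpace ℝ n}
  {W : EuclideanSpace ℝ n → (ι × Fin 2 → n) → ℝ} {rho : EuclideanSpace ℝ n → EuclideanSpace ℝ n}
  {E : Type*} [NormedAddCommGroup E] [NormedSpace ℝ E] [FiniteDimensional ℝ E]
  {X : Set E} {f : E → EuclideanSpace ℝ n} {w : EuclideanSpace ℝ n}

/-- cut off: `0` for `t ≥ -1/2`, positive below -/
def bt (t : ℝ) : ℝ := Real.smoothTransition (-(2 * t) - 1)

theorem bt_zero {t : ℝ} (h : -(1 / 2) ≤ t) : bt t = 0 :=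
  Real.smoothTransition.zero_of_nonpos (by linarith)

theorem bt_pos {t : ℝ} (h : t < -(1 / 2)) : 0 < bt t :=
  Real.smoothTransition.pos_of_pos (by linarith)

theorem contDiff_bt : ContDiff ℝ ∞ bt :=
  Real.smoothTransition.contDiff.comp (by fun_prop)

/-- the section -/
def sv (w : EuclideanSpace ℝ n) (z : (E × EuclideanSpace ℝ n) × ℝ) : EuclideanSpace ℝ n :=
  z.1.2 + bt z.2 • w

theorem contDiff_sv (w : EuclideanSpace ℝ n) :
    ContDiff ℝ ∞ (sv w : (E × EuclideanSpace ℝ n) × ℝ → EuclideanSpace ℝ n) :=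
  (contDiff_snd.comp contDiff_fst).add ((contDiff_bt.comp contDiff_snd).smul contDiff_const)

theorem sv_of_ge (w : EuclideanSpace ℝ n) {z : (E × EuclideanSpace ℝ n) × ℝ}
    (h : -(1 / 2) ≤ z.2) : sv w z = z.1.2 := by
  rw [sv, bt_zero h, zero_smul, add_zero]

theorem sv_ne (hw : ∀ x ∈ X, P (f x) w ≠ w) {z : (E × EuclideanSpace ℝ n) × ℝ}
    (hz : z ∈ SB X (fun x => P (f x))) (h1 : z.2 < 1) : sv w z ≠ 0 := by
  obtain ⟨hx, hP, hn⟩ := SB_iff.1 hz
  rcases le_or_gt (-(1 / 2)) z.2 with h | h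
  · rw [sv_of_ge w h]
    intro h0
    rw [h0, inner_zero_left, zero_add] at hn
    nlinarith
  · intro h0
    have hb := bt_pos h
    refine hw _ hx ?_
    have h2 : w = (-(bt z.2)⁻¹) • z.1.2 := by
      have : z.1.2 = -(bt z.2 • w) := eq_neg_of_add_eq_zero_left h0
      rw [this, smul_neg, neg_smul, neg_neg, smul_smul, inv_mul_cancel₀ hb.ne', one_smul]
    rw [h2, map_smul, hP]

theorem sv_mem (h : Spr T C P W rho) (hf : SMap X C f) (hwT : w ∈ T)
    {z : (E × EuclideanSpace ℝ n) × ℝ} (hz : z ∈ SB X (fun x => P (f x))) : sv w z ∈ T := by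
  obtain ⟨hx, hP, hn⟩ := SB_iff.1 hz
  refine T.add_mem ?_ (T.smul_mem _ hwT)
  rw [← hP]
  exact h.rg _ (hf.maps hx) _

theorem rho_sv (h : Spr T C P W rho) (hf : SMap X C f) (hw : ∀ x ∈ X, P (f x) w ≠ w)
    {z : (E × EuclideanSpace ℝ n) × ℝ} (hz : z ∈ SB X (fun x => P (f x)))
    (h0 : -(1 / 2) ≤ z.2) (h1 : z.2 < 1) : rho (sv w z) = f z.1.1 := by
  obtain ⟨hx, hP, hn⟩ := SB_iff.1 hz
  refine h.uniq _ (hf.maps hx) _ (sv_ne hw hz h1) ?_
  rw [sv_of_ge w h0]; exact hP

/-- the pull-back field over `X` -/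
theorem pf (h : Spr T C P W rho) (hf : SMap X C f) :
    PField X (Fintype.card ι * 2) (fun x => P (f x)) := by
  have := (OR_comp h.or hf).pfield
  rwa [mul_comm] at this

theorem exists_g {d : ℕ} (h : Spr T C P W rho) (hX : Clo d X) (hf : SMap X C f) (hwT : w ∈ T)
    (hw : ∀ x ∈ X, P (f x) w ≠ w) :
    ∃ g : (E × EuclideanSpace ℝ n) × ℝ → EuclideanSpace ℝ n, ContDiff ℝ ∞ g ∧
      (∀ z ∈ SB X (fun x => P (f x)), -(1 / 2) ≤ z.2 → g z = f z.1.1) ∧
      ∀ z ∈ SB X (fun x => P (f x)), z.2 < 1 → g z = rho (sv w z) := by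
  classical
  set Z := SB X (fun x => P (f x)) with hZ
  set g0 : (E × EuclideanSpace ℝ n) × ℝ → EuclideanSpace ℝ n := fun z =>
    if 0 < z.2 then f z.1.1 else rho (sv w z) with hg0
  have hZS : Sub (Fintype.card ι * 2 + d) Z := sub_SB hX.sub (pf h hf)
  have hZc : IsClosed Z := (isCompact_SB hX.compact (pf h hf)).isClosed
  obtain ⟨g, hg, hgg⟩ := FV.exists_glue hZS hZc (g := g0) (by
    intro z hz
    rcases lt_or_ge (-(1 / 2)) z.2 with h1 | h1
    · refine ⟨fun z => f z.1.1, ContDiffAt.comp (g := f) z (hf.smooth _ hz.1.1.1) (by fun_prop), ?_⟩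
      have ho : {y : (E × EuclideanSpace ℝ n) × ℝ | -(1 / 2) < y.2} ∈ 𝓝 z :=
        (isOpen_lt continuous_const continuous_snd).mem_nhds h1
      filter_upwards [self_mem_nhdsWithin, mem_nhdsWithin_of_mem_nhds ho] with y hy hy1
      show f y.1.1 = if 0 < y.2 then f y.1.1 else rho (sv w y)
      split_ifs with h2
      · rfl
      · exact (rho_sv h hf hw hy (le_of_lt hy1) (by push Not at h2; linarith)).symm
    · have h1' : z.2 < 0 := by linarith
      refine ⟨fun z => rho (sv w z), ContDiffAt.comp (g := rho) z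
        (h.sm _ (sv_mem h hf hwT hz) (sv_ne hw hz (by linarith))) (contDiff_sv w).contDiffAt, ?_⟩
      have ho : {y : (E × EuclideanSpace ℝ n) × ℝ | y.2 < 0} ∈ 𝓝 z :=
        (isOpen_lt continuous_snd continuous_const).mem_nhds h1'
      filter_upwards [mem_nhdsWithin_of_mem_nhds ho] with y hy1
      show rho (sv w y) = if 0 < y.2 then f y.1.1 else rho (sv w y)
      rw [if_neg (not_lt.2 (le_of_lt hy1))])
  refine ⟨g, hg, fun z hz h1 => ?_, fun z hz h1 => ?_⟩
  · rw [hgg z hz]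
    show (if 0 < z.2 then f z.1.1 else rho (sv w z)) = _
    split_ifs with h2
    · rfl
    · exact rho_sv h hf hw hz h1 (by push Not at h2; linarith)
  · rw [hgg z hz]
    show (if 0 < z.2 then f z.1.1 else rho (sv w z)) = _
    split_ifs with h2
    · exact (rho_sv h hf hw hz (by linarith) h1).symm
    · rfl

/-- the data of one step -/
structure Stp (T : Submodule ℝ (EuclideanSpace ℝ n)) (C : Set (EuclideanSpace ℝ n))
    (P : EuclideanSpace ℝ n → EuclideanSpace ℝ n →L[ℝ] EuclideanSpace ℝ n)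
    (W : EuclideanSpace ℝ n → (ι × Fin 2 → n) → ℝ) (rho : EuclideanSpace ℝ n → EuclideanSpace ℝ n)
    (X : Set E) (f : E → EuclideanSpace ℝ n) (w : EuclideanSpace ℝ n)
    (g : (E × EuclideanSpace ℝ n) × ℝ → EuclideanSpace ℝ n) : Prop where
  spr : Spr T C P W rho
  hf : SMap X C f
  wT : w ∈ T
  hw : ∀ x ∈ X, P (f x) w ≠ w
  sg : ContDiff ℝ ∞ g
  up : ∀ z ∈ SB X (fun x => P (f x)), -(1 / 2) ≤ z.2 → g z = f z.1.1
  lo : ∀ z ∈ SB X (fun x => P (f x)), z.2 < 1 → g z = rho (sv w z)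

variable {g : (E × EuclideanSpace ℝ n) × ℝ → EuclideanSpace ℝ n}

theorem Stp.smap (h : Stp T C P W rho X f w g) : SMap (SB X (fun x => P (f x))) C g :=
  ⟨fun z _ => h.sg.contDiffAt, fun z hz => by
    rcases le_or_gt (-(1 / 2)) z.2 with h1 | h1
    · rw [h.up z hz h1]; exact h.hf.maps hz.1.1.1
    · have h2 : z.2 < 1 := by linarith
      rw [h.lo z hz h2]
      exact h.spr.mem _ (sv_mem h.spr h.hf h.wT hz) (sv_ne h.hw hz h2)⟩

theorem Stp.fix (h : Stp T C P W rho X f w g) {z : (E × EuclideanSpace ℝ n) × ℝ}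
    (hz : z ∈ SB X (fun x => P (f x))) : P (g z) (sv w z) = sv w z := by
  rcases lt_or_ge z.2 1 with h1 | h1
  · rw [h.lo z hz h1]
    exact h.spr.fix _ (sv_mem h.spr h.hf h.wT hz) (sv_ne h.hw hz h1)
  · rw [h.up z hz (by linarith), sv_of_ge w (by linarith)]
    exact hz.1.1.2

end step

end Crest.Agent.R208.SN
end
end

-- ▼ part R208/SN5
section

/-! Row 208, block SN (helper900).  SN5: the form `T_R = (g, R s)^* thomF` on `SB X (P ∘ f)`. -/

set_option autoImplicit false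
set_option linter.unusedSectionVars false

open MeasureTheory Set Filter Topology Module Matrix
open scoped ContDiff RealInnerProductSpace
open Crest.Agent.R208.F Crest.Agent.R208.FI Crest.Agent.R208.CW Crest.Agent.R208.T

noncomputable section

namespace Crest.Agent.R208.SN

variable {n ι : Type*} [Fintype n] [DecidableEq n] [Fintype ι] [DecidableEq ι]

section er
variable {E : Type*} [NormedAddCommGroup E] [NormedSpace ℝ E] [FiniteDimensional ℝ E]
  {X : Set E} {P : E → EuclideanSpace ℝ n →L[ℝ] EuclideanSpace ℝ n}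
  {W : E → (ι × Fin 2 → n) → ℝ}

theorem eR_ec (h : OR X P W) : EC X (eR P W) := by
  obtain ⟨⟨h1, h2, h3⟩, -⟩ := mem_Z_iff.1 (ef_mem_Z (OR.of h))
  exact ⟨h1, h2, h3⟩

theorem eR_hom : Hom (2 * Fintype.card ι) (eR P W) := fun x => (degC_ef _ _ x).1

theorem pull_pow {E' : Type*} [NormedAddCommGroup E'] [NormedSpace ℝ E'] [FiniteDimensional ℝ E']
    (f : E → E') (a : E' → Ext E') (i : ℕ) : F.pull f (a ^ i) = (F.pull f a) ^ i := by
  funext x
  show pb _ ((a (f x)) ^ i) = (pb _ (a (f x))) ^ i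
  exact map_pow _ _ _

theorem J_of_eqv {m : ℕ} {o a b : E → Ext E} (hX : Clo m X) (ho : Ori m X o)
    (ha : Sm X a) (hb : Sm X b) (h : Eqv X a b) : J m X o a = J m X o b :=
  J_of_coh hX ho ha hb (Coh.of_eqv h)

end er

section int
variable {T : Submodule ℝ (EuclideanSpace ℝ n)} {C : Set (EuclideanSpace ℝ n)}
  {P : EuclideanSpace ℝ n → EuclideanSpace ℝ n →L[ℝ] EuclideanSpace ℝ n}
  {W : EuclideanSpace ℝ n → (ι × Fin 2 → n) → ℝ} {rho : EuclideanSpace ℝ n → EuclideanSpace ℝ n}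
  {E : Type*} [NormedAddCommGroup E] [NormedSpace ℝ E] [FiniteDimensional ℝ E]
  {X : Set E} {f : E → EuclideanSpace ℝ n} {w : EuclideanSpace ℝ n}
  {g : (E × EuclideanSpace ℝ n) × ℝ → EuclideanSpace ℝ n} {c d : ℕ}

/-- `(g, R s)` -/
def sR (R : ℝ) (w : EuclideanSpace ℝ n) (g : (E × EuclideanSpace ℝ n) × ℝ → EuclideanSpace ℝ n)
    (z : (E × EuclideanSpace ℝ n) × ℝ) : EuclideanSpace ℝ n × EuclideanSpace ℝ n :=
  (g z, R • sv w z)

theorem contDiff_rsv (R : ℝ) (w : EuclideanSpace ℝ n) :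
    ContDiff ℝ ∞ (fun z : (E × EuclideanSpace ℝ n) × ℝ => R • sv w z) :=
  (contDiff_sv w).const_smul R

theorem smap_sR (h : Stp T C P W rho X f w g) (R : ℝ) :
    SMap (SB X (fun x => P (f x))) (Tot C P) (sR R w g) :=
  ⟨fun z _ => h.sg.contDiffAt.prodMk (contDiff_rsv R w).contDiffAt,
    fun z hz => ⟨h.smap.maps hz, by
      show P (g z) (R • sv w z) = R • sv w z
      rw [map_smul, h.fix hz]⟩⟩

/-- the form -/
def TR (R : ℝ) (w : EuclideanSpace ℝ n) (g : (E × EuclideanSpace ℝ n) × ℝ → EuclideanSpace ℝ n)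
    (P : EuclideanSpace ℝ n → EuclideanSpace ℝ n →L[ℝ] EuclideanSpace ℝ n)
    (W : EuclideanSpace ℝ n → (ι × Fin 2 → n) → ℝ) :
    (E × EuclideanSpace ℝ n) × ℝ → Ext ((E × EuclideanSpace ℝ n) × ℝ) :=
  F.pull (sR R w g) (thomF P W)

theorem coh_TR [Nonempty ι] (hC : Sub c C) (h : Stp T C P W rho X f w g) (R : ℝ) :
    Coh (SB X (fun x => P (f x))) (TR R w g P W) ((2 : ℝ) • F.pull g (eR P W)) := by
  have hcs := csf_thomF hC h.spr.or
  have h1 := coh_homotopy (X := SB X (fun x => P (f x))) (Y := Tot C P)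
    (Fh := fun p : ((E × EuclideanSpace ℝ n) × ℝ) × ℝ =>
      ((g p.1, (p.2 * R) • sv w p.1) : EuclideanSpace ℝ n × EuclideanSpace ℝ n))
    (w := thomF P W)
    (fun z _ t _ => by
      have e1 : ContDiff ℝ ∞ fun p : ((E × EuclideanSpace ℝ n) × ℝ) × ℝ => g p.1 :=
        h.sg.comp contDiff_fst
      have e2 : ContDiff ℝ ∞ fun p : ((E × EuclideanSpace ℝ n) × ℝ) × ℝ => sv w p.1 :=
        (contDiff_sv w).comp contDiff_fst
      exact (e1.prodMk ((contDiff_snd.mul contDiff_const).smul e2)).contDiffAt)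
    (fun z hz t _ => ⟨h.smap.maps hz, by
      show P (g z) ((t * R) • sv w z) = (t * R) • sv w z
      rw [map_smul, h.fix hz]⟩) hcs.smooth hcs.closed
  have h2 : (fun y : (E × EuclideanSpace ℝ n) × ℝ =>
      ((g y, ((1 : ℝ) * R) • sv w y) : EuclideanSpace ℝ n × EuclideanSpace ℝ n)) = sR R w g :=
    funext fun y => by rw [one_mul]; rfl
  simp only [h2] at h1
  refine h1.trans (Coh.of_eqv ?_)
  have h3 : Eqv (SB X (fun x => P (f x))) (F.pull (fun y : (E × EuclideanSpace ℝ n) × ℝ =>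
      ((g y, ((0 : ℝ) * R) • sv w y) : EuclideanSpace ℝ n × EuclideanSpace ℝ n)) (thomF P W))
      (F.pull g (F.pull (zs (E := EuclideanSpace ℝ n) (H := EuclideanSpace ℝ n)) (thomF P W))) := by
    refine (eqv_pull_pull (X₃ := Tot C P) h.smap smap_zs ?_ ?_ _).symm
    · refine ⟨fun z _ => ?_, fun z hz => ⟨h.smap.maps hz, ?_⟩⟩
      · exact h.sg.contDiffAt.prodMk (contDiff_rsv _ w).contDiffAt
      · show P (g z) (((0 : ℝ) * R) • sv w z) = ((0 : ℝ) * R) • sv w z
        rw [zero_mul, zero_smul, map_zero]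
    · intro z _
      show (g z, (0 : EuclideanSpace ℝ n)) = (g z, ((0 : ℝ) * R) • sv w z)
      rw [zero_mul, zero_smul]
  refine h3.trans ?_
  have h4 : Eqv C (F.pull (zs (E := EuclideanSpace ℝ n) (H := EuclideanSpace ℝ n)) (thomF P W))
      ((2 : ℝ) • eR P W) := thomF_zero h.spr.or
  have h5 := h4.pull h.smap
  rwa [pull_smul'] at h5

theorem sm_TR [Nonempty ι] (hC : Sub c C) (h : Stp T C P W rho X f w g) (R : ℝ) :
    Sm (SB X (fun x => P (f x))) (TR R w g P W) :=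
  (csf_thomF hC h.spr.or).smooth.pull (smap_sR h R)

theorem cl_TR [Nonempty ι] (hC : Sub c C) (h : Stp T C P W rho X f w g) (R : ℝ) :
    Cl (SB X (fun x => P (f x))) (TR R w g P W) :=
  (csf_thomF hC h.spr.or).closed.pull (smap_sR h R) (csf_thomF hC h.spr.or).smooth

/-- for large `R` the form vanishes on `t ≤ 1/2` -/
theorem exists_R (hX : Clo d X) (h : Stp T C P W rho X f w g) :
    ∃ R : ℝ, 1 ≤ R ∧ ∀ z ∈ SB X (fun x => P (f x)), z.2 ≤ 1 / 2 → 3 < ‖R • sv w z‖ := by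
  set K : Set ((E × EuclideanSpace ℝ n) × ℝ) := SB X (fun x => P (f x)) ∩ {z | z.2 ≤ 1 / 2}
    with hK
  have hKc : IsCompact K := (isCompact_SB hX.compact (pf h.spr h.hf)).inter_right
    (isClosed_le continuous_snd continuous_const)
  rcases K.eq_empty_or_nonempty with he | hne
  · refine ⟨1, le_rfl, fun z hz hz2 => ?_⟩
    have : z ∈ K := ⟨hz, hz2⟩
    rw [he] at this
    exact this.elim
  · obtain ⟨z0, hz0, hmin⟩ := hKc.exists_isMinOn hne
      ((contDiff_sv (E := E) w).continuous.norm.continuousOn)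
    set m := ‖sv w z0‖ with hm
    have hmpos : 0 < m := norm_pos_iff.2 (sv_ne h.hw hz0.1 (by
      have : z0.2 ≤ 1 / 2 := hz0.2
      linarith))
    refine ⟨4 / m + 1, by have : 0 < 4 / m := by positivity
                          linarith, fun z hz hz2 => ?_⟩
    have h1 : m ≤ ‖sv w z‖ := hmin (show z ∈ K from ⟨hz, hz2⟩)
    have h2 : 0 < 4 / m + 1 := by positivity
    rw [norm_smul, Real.norm_of_nonneg h2.le]
    calc (3 : ℝ) < 4 := by norm_num
      _ = 4 / m * m := by field_simp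
      _ ≤ (4 / m + 1) * ‖sv w z‖ := by
          have : 0 < 4 / m := by positivity
          nlinarith

theorem TR_zero [Nonempty ι] (hC : Sub c C) (h : Stp T C P W rho X f w g) {R : ℝ}
    (hR : ∀ z ∈ SB X (fun x => P (f x)), z.2 ≤ 1 / 2 → 3 < ‖R • sv w z‖)
    {z : (E × EuclideanSpace ℝ n) × ℝ} (hz : z ∈ SB X (fun x => P (f x))) (h2 : z.2 ≤ 1 / 2) :
    TR R w g P W z = 0 :=
  pull_of_zero ((csf_thomF hC h.spr.or).supp _ (hR z hz h2))

theorem smap_pB (P : E → EuclideanSpace ℝ n →L[ℝ] EuclideanSpace ℝ n) :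
    SMap (SB X P) X (pB : (E × EuclideanSpace ℝ n) × ℝ → E) :=
  ⟨fun z _ => by unfold pB; fun_prop, fun z hz => hz.1.1.1⟩

/-- `T_R a^i = T_R b^i` -/
theorem TR_mul [Nonempty ι] (hC : Sub c C) (h : Stp T C P W rho X f w g) {R : ℝ}
    (hR : ∀ z ∈ SB X (fun x => P (f x)), z.2 ≤ 1 / 2 → 3 < ‖R • sv w z‖) (i : ℕ) :
    Eqv (SB X (fun x => P (f x))) (TR R w g P W * (F.pull g (eR P W)) ^ i)
      (TR R w g P W * F.pull pB ((F.pull f (eR P W)) ^ i)) := by
  have hU : IsOpen {z : (E × EuclideanSpace ℝ n) × ℝ | -(1 / 2) < z.2} :=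
    isOpen_lt continuous_const continuous_snd
  have hU' : IsOpen {z : (E × EuclideanSpace ℝ n) × ℝ | z.2 < 1 / 2} :=
    isOpen_lt continuous_snd continuous_const
  refine Eqv.of_cover hU hU' (fun z _ => ?_) ?_ ?_
  · rcases lt_or_ge z.2 (1 / 2) with h1 | h1
    · exact Or.inr h1
    · left
      show -(1 / 2) < z.2
      linarith
  · refine (Eqv.refl _).mul ?_
    rw [pull_pow]
    refine Eqv.pow ?_ i
    refine (eqv_pull_pull (X₂ := X) (X₃ := C) ?_ h.hf ?_ ?_ _).symm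
    · exact ⟨fun z hz => (smap_pB _).smooth z hz.1, fun z hz => (smap_pB _).maps hz.1⟩
    · exact ⟨fun z hz => h.smap.smooth z hz.1, fun z hz => h.smap.maps hz.1⟩
    · intro z hz
      exact (h.up z hz.1 (le_of_lt hz.2)).symm
  · refine Eqv.of_eq fun z hz => ?_
    have h0 := TR_zero hC h hR hz.1 (le_of_lt hz.2)
    rw [Pi.mul_apply, Pi.mul_apply, h0, zero_mul, zero_mul]

/-- **one step of the tower** in terms of the fibre integral -/
theorem step_int [Nonempty ι] (hC : Sub c C) (hX : Clo d X) (hXc : IsPreconnected X)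
    {oX : E → Ext E} (hoX : Ori d X oX) (hoX0 : ∀ x ∈ X, ∀ q < d, evA E q (oX x) = 0)
    (h : Stp T C P W rho X f w g) {R : ℝ}
    (hR : ∀ z ∈ SB X (fun x => P (f x)), z.2 ≤ 1 / 2 → 3 < ‖R • sv w z‖) {i : ℕ}
    (hd : d = 2 * Fintype.card ι * i) {x : E} (hx : x ∈ X) :
    2 * J (Fintype.card ι * 2 + d) (SB X (fun x => P (f x)))
      (fun z => oVf (fun x => W (f x)) z * F.pull pB oX z) ((F.pull g (eR P W)) ^ (i + 1))
      = J (Fintype.card ι * 2) (SB X (fun x => P (f x)) ∩ pB ⁻¹' {x})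
          (oVf (fun x => W (f x))) (TR R w g P W) * J d X oX ((F.pull f (eR P W)) ^ i) := by
  have hor := OR_comp h.spr.or h.hf
  have hS := subm_SB hX (pf h.spr h.hf) (fun x hx => OR_sym hor hx)
  have hoZ := ori_SB hX hoX hor (fun x hx => OR_sym hor hx) hoX0
  have hec := eR_ec h.spr.or
  have sa : Sm (SB X (fun x => P (f x))) (F.pull g (eR P W)) := hec.sm.pull h.smap
  have ca : Cl (SB X (fun x => P (f x))) (F.pull g (eR P W)) := hec.cl.pull h.smap hec.sm
  have sb : Sm X (F.pull f (eR P W)) := hec.sm.pull h.hf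
  have sT := sm_TR hC h R
  have e1 : Coh (SB X (fun x => P (f x))) (TR R w g P W * (F.pull g (eR P W)) ^ i)
      ((2 : ℝ) • (F.pull g (eR P W)) ^ (i + 1)) := by
    have := Coh.mul_right (sa.pow i) (Cl.pow sa ca i) (coh_TR hC h R)
    rwa [smul_mul_assoc, ← pow_succ'] at this
  have e2 := J_of_coh hS.cloZ hoZ (sT.mul (sa.pow i)) ((sa.pow (i + 1)).smul 2) e1
  have e3 := J_of_eqv hS.cloZ hoZ (sT.mul (sa.pow i))
    (sT.mul ((sb.pow i).pull (smap_pB _))) (TR_mul hC h hR i)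
  have e4 := fibre_integration_const hS hXc hoX (continuousOn_oVf hor) hoZ hoX0
    (η := TR R w g P W) (om := (F.pull f (eR P W)) ^ i)
    (fun z hz => (sT z hz).of_le (by simp)) (cl_TR hC h R)
    (fun y hy => ((sb.pow i) y hy).continuousAt.continuousWithinAt)
    (fun y _ q hq => by
      have : Hom (2 * Fintype.card ι * i) ((F.pull f (eR P W)) ^ i) := (eR_hom.pull).pow i
      exact this y q (by omega)) hx
  have e5 : J (Fintype.card ι * 2 + d) (SB X (fun x => P (f x)))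
      (fun z => oVf (fun x => W (f x)) z * F.pull pB oX z)
      ((2 : ℝ) • (F.pull g (eR P W)) ^ (i + 1)) = 2 * J (Fintype.card ι * 2 + d)
      (SB X (fun x => P (f x))) (fun z => oVf (fun x => W (f x)) z * F.pull pB oX z)
      ((F.pull g (eR P W)) ^ (i + 1)) := J_smul 2
  rw [← e5, ← e2, e3]
  exact e4

end int

end Crest.Agent.R208.SN
end
end

-- ▼ part R208/SN6

/-! Row 208, block SN (helper900).  SN6: the fibre integral of `T_R`. -/

set_option autoImplicit false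
set_option linter.unusedSectionVars false

open MeasureTheory Set Filter Topology Module Matrix
open scoped ContDiff RealInnerProductSpace
open Crest.Agent.R208.F Crest.Agent.R208.FI Crest.Agent.R208.CW Crest.Agent.R208.T

noncomputable section

namespace Crest.Agent.R208.SN

variable {n ι : Type*} [Fintype n] [DecidableEq n] [Fintype ι] [DecidableEq ι]

/-! ### the frame as an isometric embedding of `Eu K` -/

/-- `a ↦ Σ a_k f_k` -/
def fA (f : Matrix n (ι × Fin 2) ℝ) : Eu (Fintype.card ι * 2) →L[ℝ] EuclideanSpace ℝ n :=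
  LinearMap.toContinuousLinearMap
    { toFun := fun a => WithLp.toLp 2 fun i => ∑ k, f i ((kFin ι).symm k) * a k
      map_add' := fun a b => by
        ext i
        simp only [PiLp.add_apply, mul_add, Finset.sum_add_distrib]
      map_smul' := fun c a => by
        ext i
        simp only [PiLp.smul_apply, smul_eq_mul, RingHom.id_apply, Finset.mul_sum]
        exact Finset.sum_congr rfl fun k _ => by ring }

/-- coordinates -/
def fL (f : Matrix n (ι × Fin 2) ℝ) : EuclideanSpace ℝ n →L[ℝ] Eu (Fintype.card ι * 2) :=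
  LinearMap.toContinuousLinearMap
    { toFun := fun v => WithLp.toLp 2 fun k => ∑ i, f i ((kFin ι).symm k) * v i
      map_add' := fun a b => by
        ext i
        simp only [PiLp.add_apply, mul_add, Finset.sum_add_distrib]
      map_smul' := fun c a => by
        ext i
        simp only [PiLp.smul_apply, smul_eq_mul, RingHom.id_apply, Finset.mul_sum]
        exact Finset.sum_congr rfl fun k _ => by ring }

@[simp] theorem fA_apply (f : Matrix n (ι × Fin 2) ℝ) (a : Eu (Fintype.card ι * 2)) (i : n) :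
    fA f a i = ∑ k, f i ((kFin ι).symm k) * a k := rfl

@[simp] theorem fL_apply (f : Matrix n (ι × Fin 2) ℝ) (v : EuclideanSpace ℝ n)
    (k : Fin (Fintype.card ι * 2)) : fL f v k = ∑ i, f i ((kFin ι).symm k) * v i := rfl

variable {f : Matrix n (ι × Fin 2) ℝ}

theorem fL_fA (hf : fᵀ * f = 1) (a : Eu (Fintype.card ι * 2)) : fL f (fA f a) = a := by
  ext k
  rw [fL_apply]
  simp only [fA_apply, Finset.mul_sum]
  rw [Finset.sum_comm]
  have h1 : ∀ l, ∑ i, f i ((kFin ι).symm k) * (f i ((kFin ι).symm l) * a l)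
      = (if k = l then 1 else 0) * a l := by
    intro l
    have h2 := congrFun (congrFun hf ((kFin ι).symm k)) ((kFin ι).symm l)
    rw [Matrix.mul_apply, Matrix.one_apply] at h2
    simp only [EmbeddingLike.apply_eq_iff_eq] at h2
    rw [← h2, Finset.sum_mul]
    exact Finset.sum_congr rfl fun i _ => by rw [transpose_apply]; ring
  simp [h1]

theorem fA_fL {A : EuclideanSpace ℝ n →L[ℝ] EuclideanSpace ℝ n}
    (hA : ∀ v i, A v i = ∑ j, (f * fᵀ) i j * v j) (v : EuclideanSpace ℝ n) :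
    fA f (fL f v) = A v := by
  ext i
  rw [fA_apply, hA]
  have e1 : ∑ j, (f * fᵀ) i j * v j = ∑ k, f i k * ∑ j, f j k * v j := sum_mul_transpose f i _
  rw [e1]
  exact (kFin ι).symm.sum_comp (fun k => f i k * ∑ j, f j k * v j)

theorem inner_fA (a : Eu (Fintype.card ι * 2)) (v : EuclideanSpace ℝ n) :
    ⟪fA f a, v⟫ = ⟪a, fL f v⟫ := by
  rw [PiLp.inner_apply, PiLp.inner_apply]
  simp only [fA_apply, fL_apply, RCLike.inner_apply, conj_trivial, Finset.mul_sum]
  rw [Finset.sum_comm]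
  refine Finset.sum_congr rfl fun k _ => ?_
  rw [Finset.sum_mul]
  exact Finset.sum_congr rfl fun i _ => by ring

theorem inner_fA_fA (hf : fᵀ * f = 1) (a : Eu (Fintype.card ι * 2)) :
    ⟪fA f a, fA f a⟫ = ⟪a, a⟫ := by rw [inner_fA, fL_fA hf]

theorem norm_fA (hf : fᵀ * f = 1) (a : Eu (Fintype.card ι * 2)) : ‖fA f a‖ = ‖a‖ := by
  have h := inner_fA_fA hf a
  rw [real_inner_self_eq_norm_sq, real_inner_self_eq_norm_sq] at h
  exact (sq_eq_sq₀ (norm_nonneg _) (norm_nonneg _)).1 h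

theorem P_fA (hf : fᵀ * f = 1) {A : EuclideanSpace ℝ n →L[ℝ] EuclideanSpace ℝ n}
    (hA : ∀ v i, A v i = ∑ j, (f * fᵀ) i j * v j) (a : Eu (Fintype.card ι * 2)) :
    A (fA f a) = fA f a := by rw [← fA_fL hA, fL_fA hf]

/-! ### the chart of the upper hemisphere -/
section chart
variable {E : Type*} [NormedAddCommGroup E] [NormedSpace ℝ E] [FiniteDimensional ℝ E]
  {X : Set E} {P : E → EuclideanSpace ℝ n →L[ℝ] EuclideanSpace ℝ n} {x : E}

/-- the upper hemisphere -/
def jj (f : Matrix n (ι × Fin 2) ℝ) (x : E) (a : Eu (Fintype.card ι * 2)) :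
    (E × EuclideanSpace ℝ n) × ℝ := ((x, fA f a), Real.sqrt (1 - ‖a‖ ^ 2))

theorem one_sub_pos {a : Eu (Fintype.card ι * 2)} (ha : a ∈ Metric.ball (0 : Eu _) 1) :
    0 < 1 - ‖a‖ ^ 2 := by
  rw [mem_ball_zero_iff] at ha
  have := norm_nonneg a
  nlinarith

theorem contDiffAt_jj {a : Eu (Fintype.card ι * 2)} (ha : a ∈ Metric.ball (0 : Eu _) 1) :
    ContDiffAt ℝ ∞ (jj f x : Eu (Fintype.card ι * 2) → (E × EuclideanSpace ℝ n) × ℝ) a := by
  refine (contDiffAt_const.prodMk (fA f).contDiff.contDiffAt).prodMk ?_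
  exact ContDiffAt.sqrt (contDiffAt_const.sub (contDiff_norm_sq ℝ).contDiffAt)
    (one_sub_pos ha).ne'

theorem jj_mem (hf : fᵀ * f = 1) (hA : ∀ v i, P x v i = ∑ j, (f * fᵀ) i j * v j) (hx : x ∈ X)
    {a : Eu (Fintype.card ι * 2)} (ha : a ∈ Metric.ball (0 : Eu _) 1) :
    jj f x a ∈ SB X P := by
  refine SB_iff.2 ⟨hx, P_fA hf hA a, ?_⟩
  show ⟪fA f a, fA f a⟫ + Real.sqrt (1 - ‖a‖ ^ 2) * Real.sqrt (1 - ‖a‖ ^ 2) = 1
  rw [inner_fA_fA hf, Real.mul_self_sqrt (one_sub_pos ha).le, real_inner_self_eq_norm_sq]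
  ring

/-- points of the fibre over `x` with positive height are in the image -/
theorem eq_jj (hf : fᵀ * f = 1) (hA : ∀ v i, P x v i = ∑ j, (f * fᵀ) i j * v j)
    {z : (E × EuclideanSpace ℝ n) × ℝ} (hz : z ∈ SB X P ∩ pB ⁻¹' {x}) (h0 : 0 < z.2) :
    fL f z.1.2 ∈ Metric.ball (0 : Eu (Fintype.card ι * 2)) 1 ∧ jj f x (fL f z.1.2) = z := by
  obtain ⟨⟨x', v⟩, t⟩ := z
  have hx' : x' = x := hz.2
  subst hx'
  obtain ⟨hx, hP, hn⟩ := SB_iff.1 hz.1
  simp only at hx hP hn h0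
  have h1 : fA f (fL f v) = v := by rw [fA_fL hA, hP]
  have h2 : ‖fL f v‖ = ‖v‖ := by rw [← norm_fA hf, h1]
  rw [real_inner_self_eq_norm_sq] at hn
  constructor
  · rw [mem_ball_zero_iff]
    show ‖fL f v‖ < 1
    rw [h2]
    have := norm_nonneg v
    nlinarith
  · show ((x', fA f (fL f v)), Real.sqrt (1 - ‖fL f v‖ ^ 2)) = ((x', v), t)
    rw [h1, h2]
    have : 1 - ‖v‖ ^ 2 = t ^ 2 := by linarith
    rw [this, Real.sqrt_sq h0.le]

theorem chart_jj (hf : fᵀ * f = 1) (hA : ∀ v i, P x v i = ∑ j, (f * fᵀ) i j * v j) (hx : x ∈ X) :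
    Chart (Fintype.card ι * 2) (SB X P ∩ pB ⁻¹' {x}) (jj f x) (Metric.ball 0 1) where
  isOpen := Metric.isOpen_ball
  contDiffOn a ha := (contDiffAt_jj ha).contDiffWithinAt
  injOn a _ b _ hab := by
    have h1 : fA f a = fA f b := congrArg (fun z => z.1.2) hab
    rw [← fL_fA hf a, h1, fL_fA hf]
  inj a ha := by
    have hd : DifferentiableAt ℝ (jj f x : Eu (Fintype.card ι * 2) →
      (E × EuclideanSpace ℝ n) × ℝ) a := (contDiffAt_jj ha).differentiableAt (by simp)
    let L : ((E × EuclideanSpace ℝ n) × ℝ) →L[ℝ] Eu (Fintype.card ι * 2) :=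
      (fL f).comp ((ContinuousLinearMap.snd ℝ E (EuclideanSpace ℝ n)).comp
        (ContinuousLinearMap.fst ℝ (E × EuclideanSpace ℝ n) ℝ))
    have h1 : (fun b => L (jj f x b)) = fun b => b := funext fun b => by
      show fL f (fA f b) = b
      rw [fL_fA hf]
    have h2 : HasFDerivAt (fun b => L (jj f x b)) (L.comp (fderiv ℝ (jj f x) a)) a :=
      L.hasFDerivAt.comp a hd.hasFDerivAt
    rw [h1] at h2
    have h3 := h2.unique (hasFDerivAt_id a)
    intro u v huv
    have h4 := congrArg (fun A => A u) h3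
    have h5 := congrArg (fun A => A v) h3
    simp only [ContinuousLinearMap.comp_apply, ContinuousLinearMap.id_apply] at h4 h5
    rw [← h4, ← h5, huv]
  image_open W hW hWo := by
    refine ⟨{z | 0 < z.2 ∧ fL f z.1.2 ∈ W}, ?_, ?_⟩
    · refine (isOpen_lt continuous_const continuous_snd).inter (hWo.preimage ?_)
      exact (fL f).continuous.comp (continuous_snd.comp continuous_fst)
    · apply Subset.antisymm
      · rintro _ ⟨a, ha, rfl⟩
        refine ⟨⟨jj_mem hf hA hx (hW ha), rfl⟩, ?_, ?_⟩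
        · exact Real.sqrt_pos.2 (one_sub_pos (hW ha))
        · show fL f (fA f a) ∈ W
          rw [fL_fA hf]; exact ha
      · rintro z ⟨hz, h0, h1⟩
        exact ⟨_, h1, (eq_jj hf hA hz h0).2⟩

end chart

/-! ### the fibre integral -/
section fib
variable {T : Submodule ℝ (EuclideanSpace ℝ n)} {C : Set (EuclideanSpace ℝ n)}
  {P : EuclideanSpace ℝ n → EuclideanSpace ℝ n →L[ℝ] EuclideanSpace ℝ n}
  {W : EuclideanSpace ℝ n → (ι × Fin 2 → n) → ℝ} {rho : EuclideanSpace ℝ n → EuclideanSpace ℝ n}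
  {E : Type*} [NormedAddCommGroup E] [NormedSpace ℝ E] [FiniteDimensional ℝ E]
  {X : Set E} {φ : E → EuclideanSpace ℝ n} {w : EuclideanSpace ℝ n}
  {g : (E × EuclideanSpace ℝ n) × ℝ → EuclideanSpace ℝ n} {c d : ℕ}

/-- the linear model of the fibre -/
def iR (q : EuclideanSpace ℝ n) (R : ℝ) (f : Matrix n (ι × Fin 2) ℝ)
    (a : Eu (Fintype.card ι * 2)) : EuclideanSpace ℝ n × EuclideanSpace ℝ n := (q, R • fA f a)

theorem hasFDerivAt_iR (q : EuclideanSpace ℝ n) (R : ℝ) (f : Matrix n (ι × Fin 2) ℝ)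
    (a : Eu (Fintype.card ι * 2)) : HasFDerivAt (iR q R f)
      ((ContinuousLinearMap.inr ℝ (EuclideanSpace ℝ n) (EuclideanSpace ℝ n)).comp (R • fA f)) a := by
  have : HasFDerivAt (fun a => (q, (R • fA f) a)) ((0 : Eu (Fintype.card ι * 2) →L[ℝ]
      EuclideanSpace ℝ n).prod (R • fA f)) a :=
    (hasFDerivAt_const q a).prodMk (R • fA f).hasFDerivAt
  refine this.congr_fderiv ?_
  ext w <;> simp

theorem top_Xi (hf : fᵀ * f = 1) (R : ℝ) :
    top (Fintype.card ι * 2) (pb ((R • fA f : Eu (Fintype.card ι * 2) →L[ℝ] EuclideanSpace ℝ n) :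
      Eu (Fintype.card ι * 2) →ₗ[ℝ] EuclideanSpace ℝ n) (Xi f)) = R ^ (Fintype.card ι * 2) := by
  rw [top_pb, Xi, evA_iMulti]
  have : (Matrix.of fun i j => eta f ((kFin ι).symm j)
      (((R • fA f : Eu (Fintype.card ι * 2) →L[ℝ] EuclideanSpace ℝ n) :
      Eu (Fintype.card ι * 2) →ₗ[ℝ] EuclideanSpace ℝ n) (sb (Fintype.card ι * 2) i)))
      = R • (1 : Matrix (Fin (Fintype.card ι * 2)) (Fin (Fintype.card ι * 2)) ℝ) := by
    ext i j
    rw [Matrix.of_apply, Matrix.smul_apply, Matrix.one_apply, eta_apply]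
    have h1 : ∑ a, f a ((kFin ι).symm j) * (((R • fA f :
        Eu (Fintype.card ι * 2) →L[ℝ] EuclideanSpace ℝ n) :
        Eu (Fintype.card ι * 2) →ₗ[ℝ] EuclideanSpace ℝ n) (sb (Fintype.card ι * 2) i)) a
        = R * (fL f (fA f (sb (Fintype.card ι * 2) i))) j := by
      rw [fL_apply, Finset.mul_sum]
      refine Finset.sum_congr rfl fun a _ => ?_
      show f a ((kFin ι).symm j) * (R * (fA f (sb (Fintype.card ι * 2) i)) a) = _
      ring
    rw [h1, fL_fA hf, smul_eq_mul]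
    congr 1
    simp [sb, eq_comm]
  rw [this, det_smul, det_one, mul_one, Fintype.card_fin]

theorem top_iR [Nonempty ι] (h : OR C P W) {q : EuclideanSpace ℝ n} (hq : q ∈ C)
    (hf : fᵀ * f = 1) (hPf : ∀ v i, P q v i = ∑ j, (f * fᵀ) i j * v j)
    (hWf : ∀ I, W q I = (f.submatrix I id).det) (R : ℝ) (a : Eu (Fintype.card ι * 2)) :
    top (Fintype.card ι * 2) (F.pull (iR q R f) (thomF P W) a)
      = GG ι (‖R • a‖ ^ 2) * R ^ (Fintype.card ι * 2) := by
  have h1 := pb_thomF (W := W) (h.sP q hq) hf hPf hWf (R • fA f a)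
  have h2 : P q (R • fA f a) = R • fA f a := by rw [map_smul, P_fA hf hPf]
  rw [h2] at h1
  have h3 := congrArg (pb ((R • fA f : Eu (Fintype.card ι * 2) →L[ℝ] EuclideanSpace ℝ n) :
      Eu (Fintype.card ι * 2) →ₗ[ℝ] EuclideanSpace ℝ n)) h1
  rw [pb_comp, map_smul] at h3
  have h4 : (((ContinuousLinearMap.inr ℝ (EuclideanSpace ℝ n) (EuclideanSpace ℝ n)).comp (P q) :
        EuclideanSpace ℝ n →L[ℝ] EuclideanSpace ℝ n × EuclideanSpace ℝ n) :
        EuclideanSpace ℝ n →ₗ[ℝ] EuclideanSpace ℝ n × EuclideanSpace ℝ n) ∘ₗ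
      ((R • fA f : Eu (Fintype.card ι * 2) →L[ℝ] EuclideanSpace ℝ n) :
      Eu (Fintype.card ι * 2) →ₗ[ℝ] EuclideanSpace ℝ n)
      = ((fderiv ℝ (iR q R f) a : Eu (Fintype.card ι * 2) →L[ℝ] _) :
        Eu (Fintype.card ι * 2) →ₗ[ℝ] _) := by
    rw [(hasFDerivAt_iR q R f a).fderiv]
    refine LinearMap.ext fun u => ?_
    show ((0 : EuclideanSpace ℝ n), P q (R • fA f u)) = (0, R • fA f u)
    rw [map_smul, P_fA hf hPf]
  rw [h4] at h3
  have h5 : F.pull (iR q R f) (thomF P W) a = GG ι (‖R • fA f a‖ ^ 2) •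
    pb ((R • fA f : Eu (Fintype.card ι * 2) →L[ℝ] EuclideanSpace ℝ n) :
      Eu (Fintype.card ι * 2) →ₗ[ℝ] EuclideanSpace ℝ n) (Xi f) := h3
  rw [h5, map_smul, smul_eq_mul, top_Xi hf]
  congr 3
  rw [norm_smul, norm_smul, norm_fA hf]

theorem GG_zero [Nonempty ι] {s : ℝ} (h : 1 ≤ s) : GG ι s = 0 := GG_of_ge h

/-- the total integral of the model density -/
def kGG (ι : Type*) [Fintype ι] : ℝ := ∫ a : Eu (Fintype.card ι * 2), GG ι (‖a‖ ^ 2)

theorem integral_scaled [Nonempty ι] {R : ℝ} (hR : 1 ≤ R) :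
    ∫ a in Metric.ball (0 : Eu (Fintype.card ι * 2)) 1,
      GG ι (‖R • a‖ ^ 2) * R ^ (Fintype.card ι * 2) = kGG ι := by
  have hR0 : 0 < R := by linarith
  have h1 : ∫ a in Metric.ball (0 : Eu (Fintype.card ι * 2)) 1,
      GG ι (‖R • a‖ ^ 2) * R ^ (Fintype.card ι * 2)
      = ∫ a : Eu (Fintype.card ι * 2), GG ι (‖R • a‖ ^ 2) * R ^ (Fintype.card ι * 2) := by
    refine setIntegral_eq_integral_of_forall_compl_eq_zero fun a ha => ?_
    have h2 : 1 ≤ ‖a‖ := by
      rw [mem_ball_zero_iff] at ha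
      exact not_lt.1 ha
    rw [GG_zero, zero_mul]
    rw [norm_smul, Real.norm_of_nonneg hR0.le]
    have : 1 ≤ R * ‖a‖ := by nlinarith
    nlinarith
  rw [h1, integral_mul_const, Measure.integral_comp_smul volume (fun a => GG ι (‖a‖ ^ 2)) R]
  rw [finrank_euclideanSpace, Fintype.card_fin, smul_eq_mul, abs_of_pos (by positivity)]
  have : R ^ (Fintype.card ι * 2) ≠ 0 := by positivity
  rw [kGG]
  field_simp

/-- **the fibre integral** -/
theorem J_fibre [Nonempty ι] (hC : Sub c C) (hX : Clo d X) {oX : E → Ext E} (hoX : Ori d X oX)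
    (hoX0 : ∀ x ∈ X, ∀ q < d, evA E q (oX x) = 0)
    (h : Stp T C P W rho X φ w g) {R : ℝ} (hR1 : 1 ≤ R)
    (hR : ∀ z ∈ SB X (fun x => P (φ x)), z.2 ≤ 1 / 2 → 3 < ‖R • sv w z‖) {x : E} (hx : x ∈ X) :
    |J (Fintype.card ι * 2) (SB X (fun x => P (φ x)) ∩ pB ⁻¹' {x})
      (oVf (fun x => W (φ x))) (TR R w g P W)| = |kGG ι| := by
  have hor := OR_comp h.spr.or h.hf
  have hS := subm_SB hX (pf h.spr h.hf) (fun x hx => OR_sym hor hx)
  have hoZ := ori_SB hX hoX hor (fun x hx => OR_sym hor hx) hoX0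
  have hF := hS.clo_fibre x
  have hoF := hS.fibre_ori (continuousOn_oVf hor) hoZ hoX0 x
  obtain ⟨f, hf, hPf, hWf⟩ := h.spr.or.fr _ (h.hf.maps hx)
  have hch := chart_jj (P := fun x => P (φ x)) (X := X) (x := x) hf hPf hx
  rw [J_eq_chart hF hch (fun z hz hz2 => by
    have h0 : ¬ 0 < z.2 := fun h0 =>
      hz2 ⟨_, (eq_jj (P := fun x => P (φ x)) hf hPf hz h0).1,
        (eq_jj (P := fun x => P (φ x)) hf hPf hz h0).2⟩
    rw [TR_zero hC h hR hz.1 (by push Not at h0; linarith), map_zero]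
    rfl)]
  obtain ⟨ε, hε⟩ := hch.exists_sign hoF (convex_ball (0 : Eu _) 1).isPreconnected
  have hε1 : |ε| = 1 := by
    have h0 : (0 : Eu (Fintype.card ι * 2)) ∈ Metric.ball (0 : Eu _) 1 := Metric.mem_ball_self one_pos
    have h1 := hε 0 h0
    have h2 := hch.top_ne_zero hoF h0
    rcases lt_or_gt_of_ne h2 with h3 | h3
    · rw [← h1, Real.sign_of_neg h3]; simp
    · rw [← h1, Real.sign_of_pos h3]; simp
  have key : ∀ u ∈ Metric.ball (0 : Eu (Fintype.card ι * 2)) 1,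
      top (Fintype.card ι * 2) (F.pull (jj f x) (TR R w g P W) u)
        = GG ι (‖R • u‖ ^ 2) * R ^ (Fintype.card ι * 2) := by
    intro u hu
    rw [← top_iR h.spr.or (h.hf.maps hx) hf hPf hWf R u]
    congr 1
    have h1 : DifferentiableAt ℝ (jj f x : Eu (Fintype.card ι * 2) →
      (E × EuclideanSpace ℝ n) × ℝ) u := (contDiffAt_jj hu).differentiableAt (by simp)
    have h2 : DifferentiableAt ℝ (sR R w g) (jj f x u) :=
      (smap_sR h R).diff (jj_mem (P := fun x => P (φ x)) hf hPf hx hu)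
    rw [TR, F.pull_comp h1 h2]
    refine F.pull_congr ?_
    filter_upwards [Metric.isOpen_ball.mem_nhds hu] with b hb
    have h3 : jj f x b ∈ SB X (fun x => P (φ x)) := jj_mem (P := fun x => P (φ x)) hf hPf hx hb
    have h4 : 0 < (jj f x b : (E × EuclideanSpace ℝ n) × ℝ).2 := Real.sqrt_pos.2 (one_sub_pos hb)
    show (g (jj f x b), R • sv w (jj f x b)) = (φ x, R • fA f b)
    rw [h.up _ h3 (by linarith), sv_of_ge w (by linarith)]
    rfl
  rw [setIntegral_congr_fun Metric.isOpen_ball.measurableSet (fun u hu => by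
    show _ = (GG ι (‖R • u‖ ^ 2) * R ^ (Fintype.card ι * 2)) * ε
    rw [key u hu, hε u hu]), integral_mul_const, integral_scaled hR1, abs_mul, hε1, mul_one]

end fib

end Crest.Agent.R208.SN
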