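import Crest.Agent.R208.T2

-- ▼ part R208/TP1
section

/-! Row 208, block TP (helper382).  TP1: vertical integration `push` of forms with compact vertical
support on total spaces of projection fields: smooth, closed, natural, linear over the base, and
the Thom lemma restricted to the zero section. -/

set_option autoImplicit false
set_option linter.unusedSectionVars false

open MeasureTheory Set Filter Topology Module
open scoped ContDiff
open Crest.Agent.R208.F Crest.Agent.R208.FI Crest.Agent.R208.CW Crest.Agent.R208.T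

noncomputable section

namespace Crest.Agent.R208.TP

section one
variable {E H : Type*} [NormedAddCommGroup E] [NormedSpace ℝ E] [FiniteDimensional ℝ E]
  [NormedAddCommGroup H] [InnerProductSpace ℝ H] [FiniteDimensional ℝ H]
  [MeasurableSpace H] [BorelSpace H] (μ : Measure H) [μ.IsAddHaarMeasure]
  {X : Set E} {P : E → H →L[ℝ] H} {r d : ℕ} {R R' : ℝ} {τ' om om' : E × H → Ext (E × H)}

/-- vertical integration of `om` along `P`; `τ'` is a closed form with compact vertical support on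
the complementary field `1 - P`. -/
def push (P : E → H →L[ℝ] H) (τ' om : E × H → Ext (E × H)) : E → Ext E := pI μ (thE' P τ' om)

theorem _root_.Crest.Agent.R208.T.Vt.add {a b : E × H → Ext (E × H)} (h : Vt R a) (h' : Vt R b) :
    Vt R (a + b) := fun z hz => by
  rw [Pi.add_apply, h z hz, h' z hz, add_zero]

theorem vt_th (hτ' : Vt R τ') (hω : Vt R' om) : Vt (2 * max R R') (thE' P τ' om) :=
  vt_eta' (hτ'.mono (le_max_left _ _)) (hω.mono (le_max_right _ _))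

theorem sm_push (hP : PField X r P) (hτ' : CSF X (fun x => 1 - P x) R τ')
    (sω : Sm (Tot X P) om) (vω : Vt R' om) : Sm X (push μ P τ' om) :=
  sm_pI μ (vt_th hτ'.supp vω) (sm_eta' hP hτ'.smooth sω)

theorem cl_push (hP : PField X r P) (hτ' : CSF X (fun x => 1 - P x) R τ')
    (sω : Sm (Tot X P) om) (vω : Vt R' om) (cω : Cl (Tot X P) om) : Cl X (push μ P τ' om) := by
  intro x hx
  have v := vt_th (P := P) hτ'.supp vω
  have s := sm_eta' hP hτ'.smooth sω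
  have h1 := resZero_pI μ v.d s.d (cl_eta' hP hτ'.smooth sω hτ'.closed cω) x hx
  rw [d_pI μ v s hx, map_smul] at h1
  exact (smul_eq_zero.1 h1).resolve_left (pow_ne_zero _ (by norm_num))

theorem hom_push {j q : ℕ} (hτ' : Hom q τ') (hω : Hom (j + r) om) (hq : q + r = finrank ℝ H) :
    Hom j (push μ P τ' om) := fun x => by
  refine isDeg_pI μ (fun z => ?_) x
  have := (Hom.pull (f := gam P) hτ').mul (Hom.pull (f := nbet P) hω)
  have h1 : q + (j + r) = j + finrank ℝ H := by omega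
  rw [h1] at this
  exact this z

theorem thE'_sub (P : E → H →L[ℝ] H) (τ' om om' : E × H → Ext (E × H)) :
    thE' P τ' (om - om') = thE' P τ' om - thE' P τ' om' := by
  rw [thE', pull_sub', mul_sub]; rfl

theorem push_congr (hP : PField X r P) (hτ' : CSF X (fun x => 1 - P x) R τ')
    (s : Sm (Tot X P) om) (v : Vt R' om) (s' : Sm (Tot X P) om') (v' : Vt R' om')
    (h : Eqv (Tot X P) om om') : Eqv X (push μ P τ' om) (push μ P τ' om') :=
  eqv_pI μ (vt_th hτ'.supp v) (sm_eta' hP hτ'.smooth s) (vt_th hτ'.supp v')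
    (sm_eta' hP hτ'.smooth s') ((Eqv.refl _).mul (Eqv.pull (smap_nbet hP) h))

theorem push_sub (hP : PField X r P) (hτ' : CSF X (fun x => 1 - P x) R τ')
    (s : Sm (Tot X P) om) (v : Vt R' om) (s' : Sm (Tot X P) om') (v' : Vt R' om') :
    Eqv X (push μ P τ' (om - om')) (push μ P τ' om - push μ P τ' om') := by
  refine Eqv.of_eq fun x hx => ?_
  rw [push, thE'_sub]
  exact pI_sub μ (vt_th hτ'.supp v) (sm_eta' hP hτ'.smooth s) (vt_th hτ'.supp v')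
    (sm_eta' hP hτ'.smooth s') hx




/-- `push` commutes with `d` up to sign -/
theorem push_d (hP : PField X r P) (hτ' : CSF X (fun x => 1 - P x) R τ')
    (hev : ∀ z, F.inv (τ' z) = τ' z) (s : Sm (Tot X P) om) (v : Vt R' om) :
    Eqv X (push μ P τ' (F.d om)) ((-1 : ℝ) ^ finrank ℝ H • F.d (push μ P τ' om)) := by
  have sγ : Sm (X ×ˢ (univ : Set H)) (F.pull (gam P) τ') := hτ'.smooth.pull (smap_gam hP)
  have cγ : Cl (X ×ˢ (univ : Set H)) (F.pull (gam P) τ') := hτ'.closed.pull (smap_gam hP) hτ'.smooth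
  have sν : Sm (X ×ˢ (univ : Set H)) (F.pull (nbet P) om) := s.pull (smap_nbet hP)
  have e1 : Eqv (X ×ˢ (univ : Set H)) (thE' P τ' (F.d om)) (F.d (thE' P τ' om)) := by
    refine Eqv.symm ((d_mul_eqv sγ sν).trans ?_)
    have h1 : (fun z => F.inv (F.pull (gam P) τ' z)) = F.pull (gam P) τ' := by
      funext z
      rw [F.pull, ← pb_inv, hev]
    rw [h1]
    have h2 := ((resZero_iff.1 cγ).mul (Eqv.refl (F.pull (nbet P) om))).add
      ((Eqv.refl (F.pull (gam P) τ')).mul (d_pull_eqv (smap_nbet hP) s))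
    rwa [zero_mul, zero_add] at h2
  have v1 := vt_th (P := P) hτ'.supp v
  have s1 := sm_eta' hP hτ'.smooth s
  refine (eqv_pI μ (vt_th hτ'.supp v.d) (sm_eta' hP hτ'.smooth s.d) v1.d s1.d e1).trans ?_
  exact Eqv.of_eq fun x hx => d_pI μ v1 s1 hx

/-- forms which differ by `d` of a form with compact vertical support have cohomologous push -/
theorem push_coh (hP : PField X r P) (hτ' : CSF X (fun x => 1 - P x) R τ')
    (hev : ∀ z, F.inv (τ' z) = τ' z) (s : Sm (Tot X P) om) (v : Vt R' om)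
    (s' : Sm (Tot X P) om') (v' : Vt R' om') {L : E × H → Ext (E × H)} (sL : Sm (Tot X P) L)
    (vL : Vt R' L) (h : Eqv (Tot X P) (om - om') (F.d L)) :
    Coh X (push μ P τ' om) (push μ P τ' om') := by
  refine ⟨(-1 : ℝ) ^ finrank ℝ H • push μ P τ' L, (sm_push μ hP hτ' sL vL).smul _, ?_⟩
  refine (push_sub μ hP hτ' s v s' v').symm.trans ?_
  refine (push_congr μ hP hτ' (s.sub s') (v.sub v') sL.d vL.d h).trans ?_
  refine (push_d μ hP hτ' hev sL vL).trans ?_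
  exact (d_smul_eqv _ (sm_push μ hP hτ' sL vL)).symm

/-- linearity over the base -/
theorem push_mul_fst (hP : PField X r P) (hτ' : CSF X (fun x => 1 - P x) R τ')
    (s : Sm (Tot X P) om) (v : Vt R' om) {β : E → Ext E} {x : E} (hx : x ∈ X) :
    push μ P τ' (om * F.pull Prod.fst β) x = push μ P τ' om x * β x := by
  have v1 := vt_th (P := P) hτ'.supp v
  have s1 := sm_eta' hP hτ'.smooth s
  rw [← show pI μ (thE' P τ' om * F.pull (Prod.fst : E × H → E) β) x =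
    push μ P τ' om x * β x from pI_mul_fst μ v1 s1 hx β, push, pI_eq, pI_eq]
  refine integral_congr_ae (Eventually.of_forall fun h => ?_)
  have hz : (x, h) ∈ X ×ˢ (univ : Set H) := ⟨hx, mem_univ _⟩
  have h1 : F.pull (nbet P) (F.pull (Prod.fst : E × H → E) β) (x, h) =
      F.pull (Prod.fst : E × H → E) β (x, h) :=
    F.pull_comp (om := β) ((smap_nbet hP).diff hz) differentiableAt_fst
  change cH _ _ (F.pull (gam P) τ' (x, h) * F.pull (nbet P) (om * F.pull Prod.fst β) (x, h)) =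
    cH _ _ (F.pull (gam P) τ' (x, h) * F.pull (nbet P) om (x, h) * F.pull Prod.fst β (x, h))
  rw [pull_mul', Pi.mul_apply, h1, mul_assoc]

end one

section change
variable {E H E' : Type*} [NormedAddCommGroup E] [NormedSpace ℝ E] [FiniteDimensional ℝ E]
  [NormedAddCommGroup E'] [NormedSpace ℝ E'] [FiniteDimensional ℝ E']
  [NormedAddCommGroup H] [InnerProductSpace ℝ H] [FiniteDimensional ℝ H]
  [MeasurableSpace H] [BorelSpace H] (μ : Measure H) [μ.IsAddHaarMeasure]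
  {X : Set E} {X' : Set E'} {P : E → H →L[ℝ] H} {r d : ℕ} {R R' : ℝ}
  {τ' om : E × H → Ext (E × H)} {f : E' → E}

/-- `(y,h) ↦ (f y,h)` -/
def up (f : E' → E) (z : E' × H) : E × H := (f z.1, z.2)

theorem smap_up (hf : SMap X' X f) : SMap (Tot X' (fun y => P (f y))) (Tot X P) (up f) :=
  ⟨fun z hz => ((hf.smooth z.1 hz.1).comp z contDiffAt_fst).prodMk contDiffAt_snd,
    fun _ hz => ⟨hf.maps hz.1, hz.2⟩⟩

theorem smap_up' (hf : SMap X' X f) :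
    SMap (X' ×ˢ (univ : Set H)) (X ×ˢ (univ : Set H)) (up f) :=
  ⟨fun z hz => ((hf.smooth z.1 hz.1).comp z contDiffAt_fst).prodMk contDiffAt_snd,
    fun _ hz => ⟨hf.maps hz.1, mem_univ _⟩⟩

theorem pfield_up (hP : PField X r P) (hf : SMap X' X f) : PField X' r (fun y => P (f y)) :=
  ⟨fun x hx => (hP.smooth _ (hf.maps hx)).comp x (hf.smooth x hx),
    fun _ hx => hP.idem _ (hf.maps hx), fun _ hx => hP.rank _ (hf.maps hx)⟩

theorem vt_up (h : Vt R om) : Vt R (F.pull (up f) om) := fun z hz => pull_of_zero (h (up f z) hz)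

theorem csf_up (hf : SMap X' X f) (h : CSF X P R om) :
    CSF X' (fun y => P (f y)) R (F.pull (up f) om) :=
  ⟨h.smooth.pull (smap_up hf), vt_up h.supp, h.closed.pull (smap_up hf) h.smooth⟩

/-- base change -/
theorem push_up (hP : PField X r P) (hf : SMap X' X f) (hτ' : CSF X (fun x => 1 - P x) R τ')
    (s : Sm (Tot X P) om) (v : Vt R' om) {y : E'} (hy : y ∈ X') :
    push μ (fun y => P (f y)) (F.pull (up f) τ') (F.pull (up f) om) y =
      F.pull f (push μ P τ' om) y := by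
  have v1 := vt_th (P := P) hτ'.supp v
  have s1 := sm_eta' hP hτ'.smooth s
  have hP' := pfield_up hP hf
  rw [← show pI μ (F.pull (fun z : E' × H => ((f z.1, z.2) : E × H)) (thE' P τ' om)) y =
    F.pull f (push μ P τ' om) y from pI_pull μ (hf.diff hy) v1
      (fun h => (s1 (f y, h) ⟨hf.maps hy, mem_univ _⟩).continuousAt), push, pI_eq, pI_eq]
  refine integral_congr_ae (Eventually.of_forall fun h => ?_)
  have hz : (y, h) ∈ X' ×ˢ (univ : Set H) := ⟨hy, mem_univ _⟩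
  have hu := smap_up' (H := H) hf
  have e1 : F.pull (gam (fun y => P (f y))) (F.pull (up f) τ') (y, h) =
      F.pull (up f) (F.pull (gam P) τ') (y, h) := by
    have a1 := F.pull_comp (om := τ') ((smap_gam hP').diff hz)
      ((smap_up (P := fun x => 1 - P x) hf).diff ((smap_gam hP').maps hz))
    have a2 := F.pull_comp (om := τ') (hu.diff hz) ((smap_gam hP).diff (hu.maps hz))
    exact a1.trans a2.symm
  have e2 : F.pull (nbet (fun y => P (f y))) (F.pull (up f) om) (y, h) =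
      F.pull (up f) (F.pull (nbet P) om) (y, h) := by
    have a1 := F.pull_comp (om := om) ((smap_nbet hP').diff hz)
      ((smap_up (P := P) hf).diff ((smap_nbet hP').maps hz))
    have a2 := F.pull_comp (om := om) (hu.diff hz) ((smap_nbet hP).diff (hu.maps hz))
    exact a1.trans a2.symm
  change cH _ _ (F.pull (gam (fun y => P (f y))) (F.pull (up f) τ') (y, h) *
    F.pull (nbet (fun y => P (f y))) (F.pull (up f) om) (y, h)) =
    cH _ _ (F.pull (up f) (thE' P τ' om) (y, h))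
  rw [e1, e2, thE', pull_mul']
  rfl

end change

section thomzs
universe u w
variable {E : Type u} {H : Type w} [NormedAddCommGroup E] [NormedSpace ℝ E] [FiniteDimensional ℝ E]
  [NormedAddCommGroup H] [InnerProductSpace ℝ H] [FiniteDimensional ℝ H]
  [MeasurableSpace H] [BorelSpace H] (μ : Measure H) [μ.IsAddHaarMeasure]
  {X : Set E} {P : E → H →L[ℝ] H} {r d : ℕ} {R c₀ : ℝ} {e : E → Ext E}
  {τ τ' om : E × H → Ext (E × H)}

/-- **Thom lemma on the zero section** -/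
theorem thom_zs (hX : Sub d X) (hP : PField X r P) (hT : ThomPair μ X P r R c₀ e τ τ')
    (hR : 0 ≤ R) (hω : CSF X P R om) :
    Coh X (c₀ • F.pull zs om) (push μ P τ' om * e) := by
  obtain ⟨sc, cc, L, sL, -, eL⟩ := thom μ hX hP hT hR hω
  set c' := pI μ (thE' P τ' om) with hc'
  have k1 : Coh (Tot X P) (c₀ • om) (F.pull Prod.fst c' * τ) := ⟨L, sL, eL⟩
  have k2 := k1.pull (smap_zs (X := X) (P := P))
  rw [pull_smul', pull_mul'] at k2
  have k4 : Eqv X (F.pull zs (F.pull (Prod.fst : E × H → E) c')) c' :=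
    (eqv_pull_pull smap_zs (smap_fst' (X := X) (P := P)) (SMap.id X) (fun _ _ => rfl) c').trans
      (Eqv.of_eq fun x _ => F.pull_id c' x)
  exact k2.trans (Coh.of_eqv (k4.mul hT.zero))

end thomzs

end Crest.Agent.R208.TP
end
end

-- ▼ part R208/TP2

/-! Row 208, block TP (helper382).  TP2: iterated vertical integration over `P₂ ⊕ P₁`; the Thom
step (TH) of the blueprint: `c₀ (push₁ (V|₀)) ~ (push₂ push₁ V) e(P₂)`; naturality. -/

set_option autoImplicit false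
set_option linter.unusedSectionVars false
set_option maxHeartbeats 2000000

open MeasureTheory Set Filter Topology Module
open scoped ContDiff
open Crest.Agent.R208.F Crest.Agent.R208.FI Crest.Agent.R208.CW Crest.Agent.R208.T

noncomputable section

namespace Crest.Agent.R208.TP

section pt
variable {E H : Type*} [NormedAddCommGroup E] [NormedSpace ℝ E] [FiniteDimensional ℝ E]
  [NormedAddCommGroup H] [InnerProductSpace ℝ H] [FiniteDimensional ℝ H]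
  [MeasurableSpace H] [BorelSpace H] (μ : Measure H) [μ.IsAddHaarMeasure]
  {X : Set E} {P P' : E → H →L[ℝ] H} {r d : ℕ} {R R' : ℝ} {τ' τ'' om om' : E × H → Ext (E × H)}

/-- `push` at `x` only sees the forms over `x`, on the total space -/
theorem push_congr_pt {x : E} (hx : ∀ h, P x (P x h) = P x h)
    (h1 : ∀ h, P x h = 0 → τ' (x, h) = τ'' (x, h)) (h2 : ∀ h, P x h = h → om (x, h) = om' (x, h)) :
    push μ P τ' om x = push μ P τ'' om' x := by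
  rw [push, push, pI_eq, pI_eq]
  refine integral_congr_ae (Eventually.of_forall fun h => ?_)
  change cH _ _ (pb _ (τ' (x, h - P x h)) * pb _ (om (x, -P x h))) =
    cH _ _ (pb _ (τ'' (x, h - P x h)) * pb _ (om' (x, -P x h)))
  rw [h1 _ (by rw [map_sub, hx, sub_self]), h2 _ (by rw [map_neg, hx])]

/-- `push` of a form vanishing over `x` -/
theorem push_eq_zero_pt {x : E} (h : ∀ h, om (x, h) = 0) : push μ P τ' om x = 0 := by
  rw [push, pI_eq]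
  refine (integral_congr_ae (g := fun _ : H => (0 : Ext E))
      (Eventually.of_forall fun k => ?_)).trans (integral_zero _ _)
  change cH _ _ (F.pull (gam P) τ' (x, k) * F.pull (nbet P) om (x, k)) = 0
  rw [pull_of_zero (f := nbet P) (h _), mul_zero, map_zero]

end pt

section two
variable {E : Type*} {H₁ H₂ : Type*} [NormedAddCommGroup E] [NormedSpace ℝ E]
  [FiniteDimensional ℝ E]
  [NormedAddCommGroup H₁] [InnerProductSpace ℝ H₁] [FiniteDimensional ℝ H₁]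
  [MeasurableSpace H₁] [BorelSpace H₁] (μ₁ : Measure H₁) [μ₁.IsAddHaarMeasure]
  [NormedAddCommGroup H₂] [InnerProductSpace ℝ H₂] [FiniteDimensional ℝ H₂]
  [MeasurableSpace H₂] [BorelSpace H₂] (μ₂ : Measure H₂) [μ₂.IsAddHaarMeasure]
  {X : Set E} {P₁ : E → H₁ →L[ℝ] H₁} {P₂ : E → H₂ →L[ℝ] H₂} {r₁ r₂ d : ℕ} {R c₀ : ℝ}
  {τ₁' : E × H₁ → Ext (E × H₁)} {τ₂' : E × H₂ → Ext (E × H₂)}
  {V : (E × H₂) × H₁ → Ext ((E × H₂) × H₁)}

/-- total space of `P₂ ⊕ P₁` -/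
def TT (X : Set E) (P₂ : E → H₂ →L[ℝ] H₂) (P₁ : E → H₁ →L[ℝ] H₁) : Set ((E × H₂) × H₁) :=
  Tot (Tot X P₂) (fun z => P₁ z.1)

/-- closed forms with compact vertical support on the total space of `P₂ ⊕ P₁` -/
structure CV (X : Set E) (P₂ : E → H₂ →L[ℝ] H₂) (P₁ : E → H₁ →L[ℝ] H₁) (R : ℝ)
    (V : (E × H₂) × H₁ → Ext ((E × H₂) × H₁)) : Prop where
  smooth : Sm (TT X P₂ P₁) V
  supp₁ : ∀ z, R < ‖z.2‖ → V z = 0
  supp₂ : ∀ z, R < ‖z.1.2‖ → V z = 0
  closed : Cl (TT X P₂ P₁) V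

/-- first integration -/
def pu₁ (P₁ : E → H₁ →L[ℝ] H₁) (τ₁' : E × H₁ → Ext (E × H₁))
    (V : (E × H₂) × H₁ → Ext ((E × H₂) × H₁)) : E × H₂ → Ext (E × H₂) :=
  push μ₁ (fun z : E × H₂ => P₁ z.1) (F.pull (up (H := H₁) (Prod.fst : E × H₂ → E)) τ₁') V

/-- both integrations -/
def pu₂ (P₂ : E → H₂ →L[ℝ] H₂) (τ₂' : E × H₂ → Ext (E × H₂)) (P₁ : E → H₁ →L[ℝ] H₁)
    (τ₁' : E × H₁ → Ext (E × H₁)) (V : (E × H₂) × H₁ → Ext ((E × H₂) × H₁)) : E → Ext E :=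
  push μ₂ P₂ τ₂' (pu₁ μ₁ P₁ τ₁' V)

theorem csf_fst (hτ₁ : CSF X (fun x => 1 - P₁ x) R τ₁') :
    CSF (Tot X P₂) (fun z : E × H₂ => (1 : H₁ →L[ℝ] H₁) - P₁ z.1) R
      (F.pull (up (H := H₁) (Prod.fst : E × H₂ → E)) τ₁') :=
  csf_up (X' := Tot X P₂) (f := (Prod.fst : E × H₂ → E)) (P := fun x => 1 - P₁ x)
    (smap_fst' (X := X) (P := P₂)) hτ₁

theorem pfield_fst (hP₁ : PField X r₁ P₁) : PField (Tot X P₂) r₁ (fun z : E × H₂ => P₁ z.1) :=
  pfield_up (X' := Tot X P₂) (f := (Prod.fst : E × H₂ → E)) hP₁ (smap_fst' (X := X) (P := P₂))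

theorem csf_pu₁ (hP₁ : PField X r₁ P₁) (hτ₁ : CSF X (fun x => 1 - P₁ x) R τ₁')
    (hV : CV X P₂ P₁ R V) : CSF X P₂ R (pu₁ μ₁ P₁ τ₁' V) where
  smooth := sm_push μ₁ (X := Tot X P₂) (P := fun z : E × H₂ => P₁ z.1)
    (pfield_fst (P₂ := P₂) hP₁) (csf_fst (P₂ := P₂) hτ₁) hV.smooth hV.supp₁
  supp := fun z hz => push_eq_zero_pt μ₁ fun h => hV.supp₂ (z, h) hz
  closed := cl_push μ₁ (X := Tot X P₂) (P := fun z : E × H₂ => P₁ z.1)
    (pfield_fst (P₂ := P₂) hP₁) (csf_fst (P₂ := P₂) hτ₁) hV.smooth hV.supp₁ hV.closed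

theorem hom_pu₁ {j q : ℕ} (hτ' : Hom q τ₁') (hω : Hom (j + r₁) V)
    (hq : q + r₁ = finrank ℝ H₁) : Hom j (pu₁ μ₁ P₁ τ₁' V) :=
  hom_push μ₁ (P := fun z : E × H₂ => P₁ z.1)
    (Hom.pull (f := up (H := H₁) (Prod.fst : E × H₂ → E)) hτ') hω hq

theorem hom_pu₂ {j q₁ q₂ : ℕ} (hτ₁' : Hom q₁ τ₁') (hτ₂' : Hom q₂ τ₂') (hω : Hom (j + r₂ + r₁) V)
    (hq₁ : q₁ + r₁ = finrank ℝ H₁) (hq₂ : q₂ + r₂ = finrank ℝ H₂) :
    Hom j (pu₂ μ₁ μ₂ P₂ τ₂' P₁ τ₁' V) :=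
  hom_push μ₂ hτ₂' (hom_pu₁ μ₁ (P₁ := P₁) hτ₁' hω hq₁) hq₂

theorem sm_pu₂ (hP₁ : PField X r₁ P₁) (hP₂ : PField X r₂ P₂)
    (hτ₁ : CSF X (fun x => 1 - P₁ x) R τ₁') (hτ₂ : CSF X (fun x => 1 - P₂ x) R τ₂')
    (hV : CV X P₂ P₁ R V) : Sm X (pu₂ μ₁ μ₂ P₂ τ₂' P₁ τ₁' V) :=
  sm_push μ₂ hP₂ hτ₂ (csf_pu₁ μ₁ hP₁ hτ₁ hV).smooth (csf_pu₁ μ₁ hP₁ hτ₁ hV).supp

theorem cl_pu₂ (hP₁ : PField X r₁ P₁) (hP₂ : PField X r₂ P₂)
    (hτ₁ : CSF X (fun x => 1 - P₁ x) R τ₁') (hτ₂ : CSF X (fun x => 1 - P₂ x) R τ₂')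
    (hV : CV X P₂ P₁ R V) : Cl X (pu₂ μ₁ μ₂ P₂ τ₂' P₁ τ₁' V) :=
  cl_push μ₂ hP₂ hτ₂ (csf_pu₁ μ₁ hP₁ hτ₁ hV).smooth (csf_pu₁ μ₁ hP₁ hτ₁ hV).supp
    (csf_pu₁ μ₁ hP₁ hτ₁ hV).closed

/-- restriction of the first integral to the zero section of `P₂` -/
theorem pu₁_zs (hP₁ : PField X r₁ P₁) (hτ₁ : CSF X (fun x => 1 - P₁ x) R τ₁')
    (hV : CV X P₂ P₁ R V) {x : E} (hx : x ∈ X) :
    F.pull zs (pu₁ μ₁ P₁ τ₁' V) x = push μ₁ P₁ τ₁' (F.pull (up zs) V) x := by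
  have h1 := push_up μ₁ (X' := X) (pfield_up hP₁ (smap_fst' (X := X) (P := P₂)))
    (smap_zs (X := X) (P := P₂)) (csf_fst (P₂ := P₂) hτ₁) hV.smooth hV.supp₁ hx
  rw [pu₁, ← h1]
  refine push_congr_pt μ₁ (fun h => hP₁.idem x hx h) (fun h _ => ?_) (fun h _ => rfl)
  have e1 : F.pull (up zs) (F.pull (up (Prod.fst : E × H₂ → E)) τ₁') (x, h) =
      F.pull (fun z : E × H₁ => z) τ₁' (x, h) :=
    F.pull_comp (f := up (H := H₁) (zs (E := E) (H := H₂))) (g := up (H := H₁) (Prod.fst : E × H₂ → E))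
      (om := τ₁') (by unfold up zs; fun_prop) (by unfold up; fun_prop)
  rw [e1, F.pull_id]

end two

section main
universe u w
variable {E : Type u} {H₂ : Type w} {H₁ : Type*} [NormedAddCommGroup E] [NormedSpace ℝ E]
  [FiniteDimensional ℝ E]
  [NormedAddCommGroup H₁] [InnerProductSpace ℝ H₁] [FiniteDimensional ℝ H₁]
  [MeasurableSpace H₁] [BorelSpace H₁] (μ₁ : Measure H₁) [μ₁.IsAddHaarMeasure]
  [NormedAddCommGroup H₂] [InnerProductSpace ℝ H₂] [FiniteDimensional ℝ H₂]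
  [MeasurableSpace H₂] [BorelSpace H₂] (μ₂ : Measure H₂) [μ₂.IsAddHaarMeasure]
  {X : Set E} {P₁ : E → H₁ →L[ℝ] H₁} {P₂ : E → H₂ →L[ℝ] H₂} {r₁ r₂ d : ℕ} {R c₀ : ℝ}
  {τ₁' : E × H₁ → Ext (E × H₁)} {τ₂ τ₂' : E × H₂ → Ext (E × H₂)} {e₂ : E → Ext E}
  {V : (E × H₂) × H₁ → Ext ((E × H₂) × H₁)}

/-- **(TH)**: for a closed form `V` with compact vertical support on `P₂ ⊕ P₁`, the integral over
`P₁` of the restriction to `P₁` is `e(P₂)` times the integral over `P₂ ⊕ P₁`. -/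
theorem main (hX : Sub d X) (hP₁ : PField X r₁ P₁) (hP₂ : PField X r₂ P₂)
    (hτ₁ : CSF X (fun x => 1 - P₁ x) R τ₁') (hT : ThomPair μ₂ X P₂ r₂ R c₀ e₂ τ₂ τ₂')
    (hR : 0 ≤ R) (hV : CV X P₂ P₁ R V) :
    Coh X (c₀ • push μ₁ P₁ τ₁' (F.pull (up zs) V)) (pu₂ μ₁ μ₂ P₂ τ₂' P₁ τ₁' V * e₂) := by
  have h1 := thom_zs μ₂ hX hP₂ hT hR (csf_pu₁ μ₁ hP₁ hτ₁ hV)
  have h2 : Eqv X (F.pull zs (pu₁ μ₁ P₁ τ₁' V)) (push μ₁ P₁ τ₁' (F.pull (up zs) V)) :=
    Eqv.of_eq fun x hx => pu₁_zs μ₁ hP₁ hτ₁ hV hx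
  exact (Coh.of_eqv (h2.smul c₀).symm).trans h1

/-- the form used in the blueprint: `V` restricted to `P₁` differs from `v₀` by `d` of a form with
compact vertical support -/
theorem main' (hX : Sub d X) (hP₁ : PField X r₁ P₁) (hP₂ : PField X r₂ P₂)
    (hτ₁ : CSF X (fun x => 1 - P₁ x) R τ₁') (hev : ∀ z, F.inv (τ₁' z) = τ₁' z)
    (hT : ThomPair μ₂ X P₂ r₂ R c₀ e₂ τ₂ τ₂')
    (hR : 0 ≤ R) (hV : CV X P₂ P₁ R V) {v₀ L : E × H₁ → Ext (E × H₁)}
    (s₀ : Sm (Tot X P₁) v₀) (z₀ : Vt R v₀) (sL : Sm (Tot X P₁) L) (zL : Vt R L)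
    (h : Eqv (Tot X P₁) (v₀ - F.pull (up zs) V) (F.d L)) :
    Coh X (c₀ • push μ₁ P₁ τ₁' v₀) (pu₂ μ₁ μ₂ P₂ τ₂' P₁ τ₁' V * e₂) := by
  have hz : SMap (Tot X P₁) (TT X P₂ P₁) (up (zs (E := E) (H := H₂))) :=
    smap_up (P := fun z : E × H₂ => P₁ z.1) smap_zs
  have h1 := push_coh μ₁ hP₁ hτ₁ hev s₀ z₀ (hV.smooth.pull hz) (vt_up hV.supp₁) sL zL h
  exact (h1.smul c₀).trans (main μ₁ μ₂ hX hP₁ hP₂ hτ₁ hT hR hV)

end main

section nat
variable {E E' : Type*} {H₁ H₂ : Type*} [NormedAddCommGroup E] [NormedSpace ℝ E]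
  [FiniteDimensional ℝ E] [NormedAddCommGroup E'] [NormedSpace ℝ E'] [FiniteDimensional ℝ E']
  [NormedAddCommGroup H₁] [InnerProductSpace ℝ H₁] [FiniteDimensional ℝ H₁]
  [MeasurableSpace H₁] [BorelSpace H₁] (μ₁ : Measure H₁) [μ₁.IsAddHaarMeasure]
  [NormedAddCommGroup H₂] [InnerProductSpace ℝ H₂] [FiniteDimensional ℝ H₂]
  [MeasurableSpace H₂] [BorelSpace H₂] (μ₂ : Measure H₂) [μ₂.IsAddHaarMeasure]
  {X : Set E} {X' : Set E'} {f : E' → E}
  {P₁ : E → H₁ →L[ℝ] H₁} {P₂ : E → H₂ →L[ℝ] H₂} {r₁ r₂ d : ℕ} {R c₀ : ℝ}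
  {τ₁' : E × H₁ → Ext (E × H₁)} {τ₂' : E × H₂ → Ext (E × H₂)}
  {V : (E × H₂) × H₁ → Ext ((E × H₂) × H₁)}

theorem smap_up2 (hf : SMap X' X f) :
    SMap (TT X' (fun y => P₂ (f y)) (fun y => P₁ (f y))) (TT X P₂ P₁)
      (up (up f) : (E' × H₂) × H₁ → (E × H₂) × H₁) :=
  smap_up (P := fun z : E × H₂ => P₁ z.1) (smap_up (P := P₂) hf)

theorem cv_up (hf : SMap X' X f) (hV : CV X P₂ P₁ R V) :
    CV X' (fun y => P₂ (f y)) (fun y => P₁ (f y)) R (F.pull (up (up f)) V) :=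
  ⟨hV.smooth.pull (smap_up2 hf), fun z hz => pull_of_zero (hV.supp₁ (up (up f) z) hz),
    fun z hz => pull_of_zero (hV.supp₂ (up (up f) z) hz), hV.closed.pull (smap_up2 hf) hV.smooth⟩

theorem pu₁_up (hf : SMap X' X f) (hP₁ : PField X r₁ P₁)
    (hτ₁ : CSF X (fun x => 1 - P₁ x) R τ₁') (hV : CV X P₂ P₁ R V)
    {z : E' × H₂} (hz : z ∈ Tot X' (fun y => P₂ (f y))) :
    pu₁ μ₁ (fun y => P₁ (f y)) (F.pull (up f) τ₁') (F.pull (up (up f)) V) z =
      F.pull (up f) (pu₁ μ₁ P₁ τ₁' V) z := by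
  have h1 := push_up μ₁ (pfield_up hP₁ (smap_fst' (X := X) (P := P₂)))
    (smap_up (P := P₂) hf) (csf_fst (P₂ := P₂) hτ₁) hV.smooth hV.supp₁ hz
  rw [pu₁, pu₁, ← h1]
  have hx : z.1 ∈ X' := hz.1
  have hfd : DifferentiableAt ℝ f z.1 := hf.diff hx
  refine push_congr_pt μ₁ (fun h => hP₁.idem _ (hf.maps hx) h) (fun h _ => ?_) (fun h _ => rfl)
  have d1 : DifferentiableAt ℝ (up (H := H₁) (Prod.fst : E' × H₂ → E')) (z, h) := by
    unfold up; fun_prop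
  have d2 : DifferentiableAt ℝ (up (H := H₁) f) (up (H := H₁) (Prod.fst : E' × H₂ → E') (z, h)) := by
    have : DifferentiableAt ℝ (fun p : E' × H₁ => f p.1) (z.1, h) :=
      DifferentiableAt.comp (g := f) (f := fun p : E' × H₁ => p.1) (z.1, h) hfd differentiableAt_fst
    exact this.prodMk differentiableAt_snd
  have d3 : DifferentiableAt ℝ (up (H := H₁) (up (H := H₂) f)) (z, h) := by
    have a1 : DifferentiableAt ℝ (fun p : E' × H₂ => f p.1) z :=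
      DifferentiableAt.comp (g := f) (f := fun p : E' × H₂ => p.1) z hfd differentiableAt_fst
    have a2 : DifferentiableAt ℝ (up (H := H₂) f) z := a1.prodMk differentiableAt_snd
    have a3 : DifferentiableAt ℝ (fun p : (E' × H₂) × H₁ => up (H := H₂) f p.1) (z, h) :=
      DifferentiableAt.comp (g := up (H := H₂) f) (f := fun p : (E' × H₂) × H₁ => p.1) (z, h) a2
        differentiableAt_fst
    exact a3.prodMk differentiableAt_snd
  have e1 := F.pull_comp (f := up (H := H₁) (Prod.fst : E' × H₂ → E')) (g := up (H := H₁) f)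
    (om := τ₁') d1 d2
  have e2 := F.pull_comp (f := up (H := H₁) (up (H := H₂) f))
    (g := up (H := H₁) (Prod.fst : E × H₂ → E)) (om := τ₁') d3 (by unfold up; fun_prop)
  exact e1.trans e2.symm

/-- **naturality** of the double integral -/
theorem pu₂_up (hf : SMap X' X f) (hP₁ : PField X r₁ P₁) (hP₂ : PField X r₂ P₂)
    (hτ₁ : CSF X (fun x => 1 - P₁ x) R τ₁') (hτ₂ : CSF X (fun x => 1 - P₂ x) R τ₂')
    (hV : CV X P₂ P₁ R V) {y : E'} (hy : y ∈ X') :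
    pu₂ μ₁ μ₂ (fun y => P₂ (f y)) (F.pull (up f) τ₂') (fun y => P₁ (f y)) (F.pull (up f) τ₁')
      (F.pull (up (up f)) V) y = F.pull f (pu₂ μ₁ μ₂ P₂ τ₂' P₁ τ₁' V) y := by
  have h1 := csf_pu₁ μ₁ hP₁ hτ₁ hV
  rw [pu₂, pu₂, ← push_up μ₂ hP₂ hf hτ₂ h1.smooth h1.supp hy]
  refine push_congr_pt μ₂ (fun h => hP₂.idem _ (hf.maps hy) h) (fun h _ => rfl) (fun h hh => ?_)
  exact pu₁_up μ₁ hf hP₁ hτ₁ hV ⟨hy, hh⟩

end nat

section homotopy
universe u
variable {E : Type u} {H₁ H₂ : Type*} [NormedAddCommGroup E] [NormedSpace ℝ E]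
  [FiniteDimensional ℝ E]
  [NormedAddCommGroup H₁] [InnerProductSpace ℝ H₁] [FiniteDimensional ℝ H₁]
  [MeasurableSpace H₁] [BorelSpace H₁] (μ₁ : Measure H₁) [μ₁.IsAddHaarMeasure]
  [NormedAddCommGroup H₂] [InnerProductSpace ℝ H₂] [FiniteDimensional ℝ H₂]
  [MeasurableSpace H₂] [BorelSpace H₂] (μ₂ : Measure H₂) [μ₂.IsAddHaarMeasure]
  {X : Set E} {I : Set ℝ}
  {P₁ : E × ℝ → H₁ →L[ℝ] H₁} {P₂ : E × ℝ → H₂ →L[ℝ] H₂} {r₁ r₂ d : ℕ} {R c₀ : ℝ}
  {τ₁' : (E × ℝ) × H₁ → Ext ((E × ℝ) × H₁)} {τ₂' : (E × ℝ) × H₂ → Ext ((E × ℝ) × H₂)}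
  {V : ((E × ℝ) × H₂) × H₁ → Ext (((E × ℝ) × H₂) × H₁)}

theorem smap_at (I : Set ℝ) {t : ℝ} (ht : t ∈ I) :
    SMap X (X ×ˢ I) (fun x : E => ((x, t) : E × ℝ)) :=
  ⟨fun _ _ => contDiffAt_id.prodMk contDiffAt_const, fun _ hx => ⟨hx, ht⟩⟩

/-- **homotopy invariance** of the double integral; everything may depend on the parameter -/
theorem pu₂_homotopy (h01 : Icc (0 : ℝ) 1 ⊆ I) (hP₁ : PField (X ×ˢ I) r₁ P₁)
    (hP₂ : PField (X ×ˢ I) r₂ P₂)
    (hτ₁ : CSF (X ×ˢ I) (fun x => 1 - P₁ x) R τ₁') (hτ₂ : CSF (X ×ˢ I) (fun x => 1 - P₂ x) R τ₂')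
    (hV : CV (X ×ˢ I) P₂ P₁ R V) :
    Coh X
      (pu₂ μ₁ μ₂ (fun y => P₂ (y, 1)) (F.pull (up fun y => (y, (1 : ℝ))) τ₂')
        (fun y => P₁ (y, 1)) (F.pull (up fun y => (y, (1 : ℝ))) τ₁')
        (F.pull (up (up fun y => (y, (1 : ℝ)))) V))
      (pu₂ μ₁ μ₂ (fun y => P₂ (y, 0)) (F.pull (up fun y => (y, (0 : ℝ))) τ₂')
        (fun y => P₁ (y, 0)) (F.pull (up fun y => (y, (0 : ℝ))) τ₁')
        (F.pull (up (up fun y => (y, (0 : ℝ)))) V)) := by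
  have s := sm_pu₂ μ₁ μ₂ hP₁ hP₂ hτ₁ hτ₂ hV
  have c := cl_pu₂ μ₁ μ₂ hP₁ hP₂ hτ₁ hτ₂ hV
  have h := coh_homotopy (X := X) (Y := X ×ˢ I) (Fh := fun p : E × ℝ => p)
    (w := pu₂ μ₁ μ₂ P₂ τ₂' P₁ τ₁' V) (fun _ _ _ _ => contDiffAt_id)
    (fun _ hx _ ht => ⟨hx, h01 ht⟩) s c
  have e1 : Eqv X _ (F.pull (fun y : E => ((y, (1 : ℝ)) : E × ℝ)) (pu₂ μ₁ μ₂ P₂ τ₂' P₁ τ₁' V)) :=
    Eqv.of_eq fun y hy => pu₂_up μ₁ μ₂ (smap_at I (h01 ⟨zero_le_one, le_rfl⟩)) hP₁ hP₂ hτ₁ hτ₂ hV hy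
  have e0 : Eqv X _ (F.pull (fun y : E => ((y, (0 : ℝ)) : E × ℝ)) (pu₂ μ₁ μ₂ P₂ τ₂' P₁ τ₁' V)) :=
    Eqv.of_eq fun y hy => pu₂_up μ₁ μ₂ (smap_at I (h01 ⟨le_rfl, zero_le_one⟩)) hP₁ hP₂ hτ₁ hτ₂ hV hy
  exact (Coh.of_eqv e1).trans (h.trans (Coh.of_eqv e0.symm))

end homotopy

end Crest.Agent.R208.TP
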