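import Crest.Agent.R208.THD2
import Crest.Agent.R208.SN6
import Crest.Agent.R208.TP2

-- ▼ part R208/LC1
section

/-! Row 208, block LC (helper125), part LC1: the fibre integral `push` against a Thom form of the
complement, computed by Fubini in an adapted orthonormal frame. -/

set_option autoImplicit false
set_option linter.unusedSectionVars false
set_option linter.unusedSimpArgs false

open MeasureTheory Set Filter Topology Module Matrix
open scoped ContDiff
open Crest.Agent.R208.F Crest.Agent.R208.FI Crest.Agent.R208.CW Crest.Agent.R208.T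
open Crest.Agent.R208.TP

noncomputable section

namespace Crest.Agent.R208.LC

/-! ### iterated contraction -/
section alg
variable {G : Type*} [NormedAddCommGroup G] [NormedSpace ℝ G] [FiniteDimensional ℝ G]

theorem evA_iisF {n q : ℕ} (v : Fin n → G) (c : Ext G) (w : Fin q → G) :
    evA G q (iis (List.ofFn v) c) w = evA G (n + q) c (Fin.append v w) := by
  induction n generalizing c with
  | zero =>
    rw [List.ofFn_zero, iis_nil]
    have h0 : Fin.append v w = w ∘ Fin.cast (Nat.zero_add q) := Fin.append_left_nil _ _ rfl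
    rw [h0, evA_cast]
  | succ n ih =>
    rw [List.ofFn_succ, iis_cons, ih, ← evA_ii]
    have h1 : Fin.append v w = (Matrix.vecCons (v 0) (Fin.append (fun i => v i.succ) w)) ∘
        Fin.cast (by omega : n + 1 + q = n + q + 1) := by
      have : v = Fin.cons (v 0) (fun i => v i.succ) := by
        funext i; refine Fin.cases ?_ (fun i => ?_) i <;> simp
      conv_lhs => rw [this]
      rw [Fin.append_cons]
      rfl
    rw [h1, evA_cast]

theorem iis_comb {n : ℕ} (v w : Fin n → G) (M : Matrix (Fin n) (Fin n) ℝ)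
    (h : ∀ i, w i = ∑ j, M i j • v j) (c : Ext G) :
    iis (List.ofFn w) c = M.det • iis (List.ofFn v) c := by
  refine ext_evA fun q => ?_
  ext u
  rw [map_smul, AlternatingMap.smul_apply, evA_iisF, evA_iisF, smul_eq_mul]
  have h1 := evA_comb (n + q) c (Fin.append v u) (Fin.append w u)
    ((Matrix.fromBlocks M 0 0 (1 : Matrix (Fin q) (Fin q) ℝ)).submatrix finSumFinEquiv.symm
      finSumFinEquiv.symm) ?_
  · rw [h1, Matrix.det_submatrix_equiv_self, Matrix.det_fromBlocks_zero₂₁, Matrix.det_one, mul_one]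
  · intro i
    refine Fin.addCases (fun i => ?_) (fun i => ?_) i
    · rw [Fin.append_left, h i, Fin.sum_univ_add]
      simp
    · rw [Fin.append_right, Fin.sum_univ_add]
      simp [Matrix.one_apply]

theorem iis_smul_one {n : ℕ} (v : Fin n → G) (s : ℝ) (c : Ext G) :
    iis (List.ofFn fun i => s • v i) c = s ^ n • iis (List.ofFn v) c := by
  have h1 := iis_comb v (fun i => s • v i) (s • (1 : Matrix (Fin n) (Fin n) ℝ)) (fun i => by
    simp [Matrix.one_apply]) c
  rw [h1, Matrix.det_smul, Matrix.det_one, mul_one, Fintype.card_fin]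

end alg

/-! ### the constant `δ(H)` -/
section delta
variable (H : Type*) [NormedAddCommGroup H] [InnerProductSpace ℝ H] [FiniteDimensional ℝ H]

/-- the determinant of `Module.finBasis` in an orthonormal basis -/
def del : ℝ := |(stdOrthonormalBasis ℝ H).toBasis.det (Module.finBasis ℝ H)|

theorem del_pos : 0 < del H := by
  rw [del]
  exact abs_pos.2 ((stdOrthonormalBasis ℝ H).toBasis.isUnit_det (Module.finBasis ℝ H)).ne_zero

variable {H}

theorem abs_det_eq {m : ℕ} (hm : finrank ℝ H = m) (b : OrthonormalBasis (Fin m) ℝ H)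
    {M : Matrix (Fin m) (Fin m) ℝ}
    (hM : ∀ k, Module.finBasis ℝ H (Fin.cast hm.symm k) = ∑ l, M k l • b l) : |M.det| = del H := by
  subst hm
  have h1 : b.toBasis.toMatrix (Module.finBasis ℝ H) = M.transpose := by
    ext i j
    have h2 := hM j
    rw [Fin.cast_eq_self] at h2
    rw [Basis.toMatrix_apply, h2, _root_.map_sum]
    simp only [map_smul, Finsupp.coe_finsetSum, Finset.sum_apply, Finsupp.smul_apply]
    have h3 : ∀ l, (b.toBasis.repr (b l)) i = if l = i then 1 else 0 := by
      intro l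
      have := b.toBasis.repr_self_apply l i
      rwa [OrthonormalBasis.coe_toBasis] at this
    simp [h3, Matrix.transpose_apply]
  have h2 : b.toBasis.toMatrix (stdOrthonormalBasis ℝ H).toBasis *
      (stdOrthonormalBasis ℝ H).toBasis.toMatrix (Module.finBasis ℝ H) =
      b.toBasis.toMatrix (Module.finBasis ℝ H) := Basis.toMatrix_mul_toMatrix _ _ _
  have h3 := congrArg Matrix.det h2
  rw [Matrix.det_mul, h1, Matrix.det_transpose] at h3
  have h4 : |(b.toBasis.toMatrix (stdOrthonormalBasis ℝ H).toBasis).det| = 1 := by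
    have h5 := b.det_to_matrix_orthonormalBasis_real (stdOrthonormalBasis ℝ H)
    rw [Basis.det_apply] at h5
    rw [OrthonormalBasis.coe_toBasis]
    rcases h5 with h5 | h5 <;> rw [h5] <;> simp
  rw [← h3, abs_mul, h4, one_mul]
  rfl

end delta

/-! ### the contraction in an adapted frame -/
section contr
variable {E H G : Type*} [NormedAddCommGroup E] [NormedSpace ℝ E] [FiniteDimensional ℝ E]
  [NormedAddCommGroup H] [InnerProductSpace ℝ H] [FiniteDimensional ℝ H]
  [NormedAddCommGroup G] [NormedSpace ℝ G] [FiniteDimensional ℝ G]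

/-- an orthonormal basis `(f', f)` -/
structure Adp {q r : ℕ} (f' : Fin q → H) (f : Fin r → H) : Prop where
  on : Orthonormal ℝ (Fin.append f' f)
  sp : ⊤ ≤ Submodule.span ℝ (Set.range (Fin.append f' f))

variable {q r : ℕ} {f' : Fin q → H} {f : Fin r → H}

def Adp.basis (h : Adp f' f) : OrthonormalBasis (Fin (q + r)) ℝ H := OrthonormalBasis.mk h.on h.sp

theorem Adp.coe (h : Adp f' f) : (h.basis : Fin (q + r) → H) = Fin.append f' f :=
  OrthonormalBasis.coe_mk _ _

theorem Adp.finrank (h : Adp f' f) : finrank ℝ H = q + r := by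
  rw [Module.finrank_eq_card_basis h.basis.toBasis, Fintype.card_fin]

/-- the change of basis matrix -/
def Adp.mat (h : Adp f' f) : Matrix (Fin (q + r)) (Fin (q + r)) ℝ :=
  Matrix.of fun k l => h.basis.repr (Module.finBasis ℝ H (Fin.cast h.finrank.symm k)) l

theorem Adp.mat_spec (h : Adp f' f) (k : Fin (q + r)) :
    Module.finBasis ℝ H (Fin.cast h.finrank.symm k) = ∑ l, h.mat k l • h.basis l :=
  (h.basis.sum_repr _).symm

theorem Adp.abs_det (h : Adp f' f) : |h.mat.det| = del H := abs_det_eq h.finrank _ h.mat_spec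

theorem cH_eq (h : Adp f' f) (j : E →L[ℝ] G) (i : H →L[ℝ] G) (c : Ext G) :
    cH j i c = h.mat.det • pb (j : E →ₗ[ℝ] G)
      (iis (List.ofFn fun k => i (f k)) (iis (List.ofFn fun k => i (f' k)) c)) := by
  have e1 : vfr i = List.ofFn (fun k : Fin (q + r) => i (Module.finBasis ℝ H
      (Fin.cast h.finrank.symm k))) := by
    rw [vfr, List.map_ofFn]
    exact List.ofFn_congr h.finrank _
  have e2 := iis_comb (fun k => i (h.basis k))
    (fun k : Fin (q + r) => i (Module.finBasis ℝ H (Fin.cast h.finrank.symm k))) h.mat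
    (fun k => by
      rw [h.mat_spec k, _root_.map_sum]
      simp only [map_smul]) c
  have e3 : List.ofFn (fun k => i (h.basis k)) =
      List.ofFn (fun k => i (f' k)) ++ List.ofFn (fun k => i (f k)) := by
    rw [← List.ofFn_fin_append]
    congr 1
    funext k
    rw [h.coe]
    refine Fin.addCases (fun k => ?_) (fun k => ?_) k
    · rw [Fin.append_left, Fin.append_left]
    · rw [Fin.append_right, Fin.append_right]
  rw [cH_apply, e1, e2, e3, iis_append, map_smul]

/-- contraction with the vertical vectors `f`, restricted to the base -/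
def cF (E : Type*) [NormedAddCommGroup E] [NormedSpace ℝ E] [FiniteDimensional ℝ E]
    (f : Fin r → H) : Ext (E × H) →L[ℝ] Ext E :=
  (pbL (ContinuousLinearMap.inl ℝ E H)).comp
    (iisL (List.ofFn fun k => (ContinuousLinearMap.inr ℝ E H) (f k)))

theorem cF_apply (f : Fin r → H) (c : Ext (E × H)) : cF E f c =
    pb (ContinuousLinearMap.inl ℝ E H : E →ₗ[ℝ] E × H)
      (iis (List.ofFn fun k => (ContinuousLinearMap.inr ℝ E H) (f k)) c) := rfl

theorem evA_cF (f : Fin r → H) (c : Ext (E × H)) {p : ℕ} (w : Fin p → E) :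
    evA E p (cF E f c) w = evA (E × H) (r + p) c
      (Fin.append (fun k => ((0 : E), f k)) (fun k => (w k, (0 : H)))) := by
  rw [cF_apply, evA_pb, evA_iisF]
  rfl

/-- **the integrand** in an adapted frame -/
theorem cH_prod (h : Adp f' f) {Ξ : Ext H} {s : ℝ} {B : E × H →L[ℝ] E × H}
    (h1 : ∀ k, B ((0 : E), f' k) = 0) (h2 : ∀ k, B ((0 : E), f k) = s • ((0 : E), f k))
    (h3 : ∀ e : E, B (e, 0) = (e, 0)) (hΞ : IsDeg q Ξ) (w : Ext (E × H)) :
    cH (ContinuousLinearMap.inl ℝ E H) (ContinuousLinearMap.inr ℝ E H)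
      (pb (ContinuousLinearMap.snd ℝ E H : E × H →ₗ[ℝ] H) Ξ * pb (B : E × H →ₗ[ℝ] E × H) w) =
      (h.mat.det * evA H q Ξ f' * s ^ r) • cF E f w := by
  have e1 : iis (List.ofFn fun k => (ContinuousLinearMap.inr ℝ E H) (f' k))
      (pb (ContinuousLinearMap.snd ℝ E H : E × H →ₗ[ℝ] H) Ξ * pb (B : E × H →ₗ[ℝ] E × H) w) =
      evA H q Ξ f' • pb (B : E × H →ₗ[ℝ] E × H) w := by
    rw [iis_mul_horiz, iis_pb, List.map_ofFn]
    · have e2 : iis (List.ofFn (⇑(ContinuousLinearMap.snd ℝ E H : E × H →ₗ[ℝ] H) ∘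
          fun k => (ContinuousLinearMap.inr ℝ E H) (f' k))) Ξ =
          algebraMap ℝ (Ext H) (evA H q Ξ f') := by
        have e3 : (⇑(ContinuousLinearMap.snd ℝ E H : E × H →ₗ[ℝ] H) ∘
          fun k => (ContinuousLinearMap.inr ℝ E H) (f' k)) = f' := by funext k; rfl
        rw [e3, eq_algebraMap_of_isDeg (isDeg_iisF (q := 0) f' (by rwa [zero_add])) ![], evA_iis]
      rw [e2, AlgHom.commutes, ← Algebra.smul_def]
    · intro v hv
      rw [List.mem_ofFn] at hv
      obtain ⟨k, rfl⟩ := hv
      rw [ii_pb]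
      have : (B : E × H →ₗ[ℝ] E × H) ((ContinuousLinearMap.inr ℝ E H) (f' k)) = 0 := h1 k
      rw [this]
      simp
  have e4 : iis (List.ofFn fun k => (ContinuousLinearMap.inr ℝ E H) (f k))
      (pb (B : E × H →ₗ[ℝ] E × H) w) = s ^ r • pb (B : E × H →ₗ[ℝ] E × H)
        (iis (List.ofFn fun k => (ContinuousLinearMap.inr ℝ E H) (f k)) w) := by
    rw [iis_pb, List.map_ofFn]
    have : (⇑(B : E × H →ₗ[ℝ] E × H) ∘ fun k => (ContinuousLinearMap.inr ℝ E H) (f k)) =
        fun k => s • (ContinuousLinearMap.inr ℝ E H) (f k) := by funext k; exact h2 k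
    rw [this, iis_smul_one, map_smul]
  have e5 : (B : E × H →ₗ[ℝ] E × H) ∘ₗ (ContinuousLinearMap.inl ℝ E H : E →ₗ[ℝ] E × H) =
      (ContinuousLinearMap.inl ℝ E H : E →ₗ[ℝ] E × H) := by
    ext e
    · exact congrArg Prod.fst (h3 e)
    · exact congrArg Prod.snd (h3 e)
  rw [cH_eq h, e1, map_smul, e4, map_smul, map_smul, pb_comp, e5, cF_apply, smul_smul, smul_smul]

end contr

/-! ### Fubini in an adapted frame -/
section fub
variable {H : Type*} [NormedAddCommGroup H] [InnerProductSpace ℝ H] [FiniteDimensional ℝ H]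
  {q r : ℕ} {f' : Fin q → H} {f : Fin r → H}

/-- the linear map with columns `f` -/
def cmb (f : Fin r → H) : Eu r →L[ℝ] H :=
  LinearMap.toContinuousLinearMap
    ((Fintype.linearCombination ℝ f) ∘ₗ (EuclideanSpace.equiv (Fin r) ℝ).toLinearMap)

theorem cmb_apply (f : Fin r → H) (a : Eu r) : cmb f a = ∑ k, a k • f k := by
  simp [cmb, Fintype.linearCombination_apply]

theorem cmb_sb (f : Fin r → H) (k : Fin r) : cmb f (sb r k) = f k := by
  rw [cmb_apply]
  simp [EuclideanSpace.basisFun_apply]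

theorem norm_cmb (hf : Orthonormal ℝ f) (a : Eu r) : ‖cmb f a‖ = ‖a‖ := by
  have h1 : ‖cmb f a‖ ^ 2 = ‖a‖ ^ 2 := by
    rw [← real_inner_self_eq_norm_sq, cmb_apply, EuclideanSpace.norm_sq_eq, hf.inner_sum]
    simp [sq]
  exact (pow_left_inj₀ (norm_nonneg _) (norm_nonneg _) two_ne_zero).1 h1

theorem Adp.on' (h : Adp f' f) : Orthonormal ℝ f' := by
  have := h.on.comp (Fin.castAdd r) (Fin.castAdd_injective q r)
  convert this using 1
  funext k; simp

theorem Adp.on'' (h : Adp f' f) : Orthonormal ℝ f := by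
  have := h.on.comp (Fin.natAdd q) (Fin.natAdd_injective r q)
  convert this using 1
  funext k; simp

variable [MeasurableSpace H] [BorelSpace H]

theorem Adp.integral (h : Adp f' f) {Y : Type*} [NormedAddCommGroup Y] [NormedSpace ℝ Y]
    {g : H → Y} {φ : Eu q → ℝ} {Ψ : Eu r → Y}
    (hg : ∀ a b, g (cmb f' a + cmb f b) = φ a • Ψ b) :
    ∫ x, g x = (∫ a, φ a) • ∫ b, Ψ b := by
  have m1 : MeasurePreserving (h.basis.repr.symm : Eu (q + r) → H) := 
    LinearIsometryEquiv.measurePreserving _
  have m2 := measurePreserving_kap q r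
  have e1 : ∫ x, g x = ∫ u, g (h.basis.repr.symm u) :=
    (m1.integral_comp h.basis.repr.symm.toHomeomorph.measurableEmbedding g).symm
  have e2 : ∀ u : Eu (q + r), g (h.basis.repr.symm u) =
      (fun p : Eu q × Eu r => φ p.1 • Ψ p.2) (kap q r u) := by
    intro u
    have h1 : h.basis.repr.symm u = cmb f' (kap q r u).1 + cmb f (kap q r u).2 := by
      have h2 : (h.basis.repr.symm u : H) = ∑ k, u k • h.basis k := by
        have := h.basis.sum_repr_symm u
        exact this.symm
      rw [h2, h.coe, Fin.sum_univ_add, cmb_apply, cmb_apply]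
      simp
    rw [h1, hg]
  rw [e1]
  simp only [e2]
  rw [m2.integral_comp (kap q r).toHomeomorph.measurableEmbedding
    (fun p : Eu q × Eu r => φ p.1 • Ψ p.2), Measure.volume_eq_prod]
  exact integral_prod_smul φ Ψ

end fub

/-! ### frames of projection fields -/
section frames
variable {n ι : Type*} [Fintype n] [DecidableEq n] [Fintype ι] [DecidableEq ι]

/-- the columns of a frame -/
def col (g : Matrix n (ι × Fin 2) ℝ) (k : Fin (Fintype.card ι * 2)) : EuclideanSpace ℝ n :=
  WithLp.toLp 2 fun i => g i ((kFin ι).symm k)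

variable {g : Matrix n (ι × Fin 2) ℝ}

theorem inner_col (g : Matrix n (ι × Fin 2) ℝ) (k : Fin (Fintype.card ι * 2))
    (v : EuclideanSpace ℝ n) : inner ℝ (col g k) v = ∑ i, g i ((kFin ι).symm k) * v i := by
  rw [PiLp.inner_apply]
  refine Finset.sum_congr rfl fun i _ => ?_
  rw [RCLike.inner_apply, conj_trivial, mul_comm]
  rfl

theorem col_inner (hg : gᵀ * g = 1) (k l : Fin (Fintype.card ι * 2)) :
    inner ℝ (col g k) (col g l) = if k = l then (1 : ℝ) else 0 := by
  rw [inner_col]
  have h1 := congrFun (congrFun hg ((kFin ι).symm k)) ((kFin ι).symm l)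
  rw [Matrix.mul_apply, Matrix.one_apply] at h1
  have h2 : (∑ i, g i ((kFin ι).symm k) * col g l i) = ∑ j, gᵀ ((kFin ι).symm k) j *
      g j ((kFin ι).symm l) := rfl
  rw [h2, h1]
  simp

theorem evA_Xi_col (hg : gᵀ * g = 1) :
    evA (EuclideanSpace ℝ n) (Fintype.card ι * 2) (Xi g) (col g) = 1 := by
  rw [Xi, evA_iMulti]
  have : (Matrix.of fun i j => eta g ((kFin ι).symm j) (col g i)) =
      (1 : Matrix (Fin (Fintype.card ι * 2)) (Fin (Fintype.card ι * 2)) ℝ) := by
    ext i j
    rw [Matrix.of_apply, eta_apply, ← inner_col, col_inner hg, Matrix.one_apply]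
    simp [eq_comm]
  rw [this, Matrix.det_one]

theorem proj_col {A : EuclideanSpace ℝ n →L[ℝ] EuclideanSpace ℝ n}
    (hA : ∀ v i, A v i = ∑ j, (g * gᵀ) i j * v j) (v : EuclideanSpace ℝ n) :
    A v = ∑ k, inner ℝ (col g k) v • col g k := by
  ext i
  rw [hA, sum_mul_transpose, ← (kFin ι).symm.sum_comp]
  have e : (∑ k, inner ℝ (col g k) v • col g k : EuclideanSpace ℝ n) i =
      ∑ k, inner ℝ (col g k) v * g i ((kFin ι).symm k) := by
    have h1 := map_sum (EuclideanSpace.proj i : EuclideanSpace ℝ n →L[ℝ] ℝ)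
      (fun k => inner ℝ (col g k) v • col g k) Finset.univ
    simp only [map_smul] at h1
    exact h1
  rw [e]
  refine Finset.sum_congr rfl fun k _ => ?_
  rw [inner_col, mul_comm]

/-- **adapted frames** -/
theorem exists_adp {E : Type*} {r : ℕ} {x : E}
    {P : E → EuclideanSpace ℝ n →L[ℝ] EuclideanSpace ℝ n}
    (hr : finrank ℝ (LinearMap.range (P x : EuclideanSpace ℝ n →ₗ[ℝ] EuclideanSpace ℝ n)) = r)
    (hid : ∀ v, P x (P x v) = P x v) (hg : gᵀ * g = 1)
    (hP : ∀ v i, (1 - P x) v i = ∑ j, (g * gᵀ) i j * v j) :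
    ∃ f : Fin r → EuclideanSpace ℝ n, Adp (col g) f ∧ (∀ k, P x (f k) = f k) ∧
      (∀ k, P x (col g k) = 0) ∧
      ∀ v, P x v = v → ∃ a : Eu r, cmb f a = v := by
  have hp := proj_col hP
  have hc : ∀ k, P x (col g k) = 0 := by
    intro k
    have h1 := hp (col g k)
    simp only [col_inner hg, ite_smul, one_smul, zero_smul, Finset.sum_ite_eq',
      Finset.mem_univ, if_true] at h1
    have h2 : (1 - P x) (col g k) = col g k - P x (col g k) := rfl
    rw [h2] at h1
    simpa using h1
  let b := (stdOrthonormalBasis ℝ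
    (LinearMap.range (P x : EuclideanSpace ℝ n →ₗ[ℝ] EuclideanSpace ℝ n))).reindex (finCongr hr)
  let f : Fin r → EuclideanSpace ℝ n := fun k => (b k : EuclideanSpace ℝ n)
  have hf : ∀ k, P x (f k) = f k := by
    intro k
    obtain ⟨v, hv⟩ := (b k).2
    have : P x v = f k := hv
    rw [← this, hid]
  have hfo : ∀ k l, inner ℝ (f k) (f l) = if k = l then (1 : ℝ) else 0 := by
    intro k l
    exact orthonormal_iff_ite.1 b.orthonormal k l
  have hcf : ∀ k l, inner ℝ (col g k) (f l) = (0 : ℝ) := by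
    intro k l
    have h1 := hp (f l)
    have h2 : (1 - P x) (f l) = 0 := by
      have : (1 - P x) (f l) = f l - P x (f l) := rfl
      rw [this, hf, sub_self]
    rw [h2] at h1
    have h3 := congrArg (fun w => inner ℝ (col g k) w) h1
    simp only [inner_zero_right, inner_sum, inner_smul_right, col_inner hg, mul_ite, mul_one,
      mul_zero, Finset.sum_ite_eq, Finset.mem_univ, if_true] at h3
    exact h3.symm
  have hrep : ∀ v, P x v = ∑ k, b.repr ⟨P x v, ⟨v, rfl⟩⟩ k • f k := by
    intro v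
    have h1 := b.sum_repr ⟨P x v, ⟨v, rfl⟩⟩
    have h2 := congrArg (Submodule.subtype _) h1
    rw [_root_.map_sum] at h2
    exact h2.symm
  refine ⟨f, ⟨?_, ?_⟩, hf, hc, fun v hv => ?_⟩
  · rw [orthonormal_iff_ite]
    intro i j
    refine Fin.addCases (fun i => ?_) (fun i => ?_) i <;>
      refine Fin.addCases (fun j => ?_) (fun j => ?_) j
    · rw [Fin.append_left, Fin.append_left, col_inner hg]
      simp
    · rw [Fin.append_left, Fin.append_right, hcf, if_neg]
      simp [Fin.ext_iff]; omega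
    · rw [Fin.append_left, Fin.append_right, real_inner_comm, hcf, if_neg]
      simp [Fin.ext_iff]; omega
    · rw [Fin.append_right, Fin.append_right, hfo]
      simp
  · intro v _
    have h1 : v = (1 - P x) v + P x v := by
      have : (1 - P x) v = v - P x v := rfl
      rw [this]; abel
    rw [h1, hp v, hrep v]
    refine Submodule.add_mem _ (Submodule.sum_mem _ fun k _ => Submodule.smul_mem _ _
      (Submodule.subset_span ⟨Fin.castAdd r k, Fin.append_left _ _ _⟩))
      (Submodule.sum_mem _ fun k _ => Submodule.smul_mem _ _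
      (Submodule.subset_span ⟨Fin.natAdd _ k, Fin.append_right _ _ _⟩))
  · refine ⟨WithLp.toLp 2 fun k => b.repr ⟨P x v, ⟨v, rfl⟩⟩ k, ?_⟩
    rw [cmb_apply]
    exact (hrep v).symm.trans hv

end frames

end Crest.Agent.R208.LC
end
end

-- ▼ part R208/LC2

/-! Row 208, block LC (helper125), part LC2: the formula for `push` over constant fields, the
constants `c₀` of the Thom pairs. -/

set_option autoImplicit false
set_option linter.unusedSectionVars false
set_option linter.unusedSimpArgs false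

open MeasureTheory Set Filter Topology Module Matrix
open scoped ContDiff
open Crest.Agent.R208.F Crest.Agent.R208.FI Crest.Agent.R208.CW Crest.Agent.R208.T
open Crest.Agent.R208.TP Crest.Agent.R208.SN

noncomputable section

namespace Crest.Agent.R208.LC

section const
variable {n ι : Type*} [Fintype n] [DecidableEq n] [Fintype ι] [DecidableEq ι]
  {E E' : Type*} [NormedAddCommGroup E] [NormedSpace ℝ E] [FiniteDimensional ℝ E]
  [NormedAddCommGroup E'] [NormedSpace ℝ E'] [FiniteDimensional ℝ E']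
  {P : E → EuclideanSpace ℝ n →L[ℝ] EuclideanSpace ℝ n} {W' : E → (ι × Fin 2 → n) → ℝ} {x : E}
  {g : Matrix n (ι × Fin 2) ℝ} {r : ℕ} {f : Fin r → EuclideanSpace ℝ n}

/-- data at a point -/
structure Dat (P : E → EuclideanSpace ℝ n →L[ℝ] EuclideanSpace ℝ n) (W' : E → (ι × Fin 2 → n) → ℝ)
    (x : E) (g : Matrix n (ι × Fin 2) ℝ) (f : Fin r → EuclideanSpace ℝ n) : Prop where
  cd : ContDiffAt ℝ ∞ P x
  on : gᵀ * g = 1
  pg : ∀ v i, (1 - P x) v i = ∑ j, (g * gᵀ) i j * v j
  wg : ∀ I, W' x I = (g.submatrix I id).det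
  adp : Adp (col g) f
  pf : ∀ k, P x (f k) = f k
  pc : ∀ k, P x (col g k) = 0
  surj : ∀ v, P x v = v → ∃ a : Eu r, cmb f a = v

theorem exists_dat {X : Set E} (h' : OR X (fun x => 1 - P x) W') (hP : PField X r P) (hx : x ∈ X) :
    ∃ (g : Matrix n (ι × Fin 2) ℝ) (f : Fin r → EuclideanSpace ℝ n), Dat P W' x g f := by
  obtain ⟨g, h1, h2, h3⟩ := h'.fr x hx
  obtain ⟨f, h4, h5, h6, h7⟩ := exists_adp (hP.rank x hx) (hP.idem x hx) h1 h2
  exact ⟨g, f, hP.smooth x hx, h1, h2, h3, h4, h5, h6, h7⟩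

theorem Dat.P_f (h : Dat P W' x g f) (b : Eu r) : P x (cmb f b) = cmb f b := by
  rw [cmb_apply, _root_.map_sum]
  simp only [map_smul, h.pf]

theorem Dat.P_c (h : Dat P W' x g f) (a : Eu (Fintype.card ι * 2)) : P x (cmb (col g) a) = 0 := by
  rw [cmb_apply, _root_.map_sum]
  simp only [map_smul, h.pc, smul_zero, Finset.sum_const_zero]

theorem Dat.P_add (h : Dat P W' x g f) (a : Eu (Fintype.card ι * 2)) (b : Eu r) :
    P x (cmb (col g) a + cmb f b) = cmb f b := by
  rw [map_add, h.P_f, h.P_c, zero_add]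

/-- the constant family of affine maps -/
def cst (E' : Type*) (x : E) (z : E' × EuclideanSpace ℝ n) : E × EuclideanSpace ℝ n := (x, z.2)

theorem hasFDerivAt_gam_cst (c : E') (v : EuclideanSpace ℝ n) :
    HasFDerivAt (cst E' x ∘ (gam fun _ : E' => P x))
      (((ContinuousLinearMap.inr ℝ E (EuclideanSpace ℝ n)).comp (1 - P x)).comp
        (ContinuousLinearMap.snd ℝ E' (EuclideanSpace ℝ n))) (c, v) := by
  have h1 : HasFDerivAt (fun z : E' × EuclideanSpace ℝ n => z.2 - P x z.2)
      ((1 - P x).comp (ContinuousLinearMap.snd ℝ E' (EuclideanSpace ℝ n))) (c, v) :=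
    ((1 - P x).comp (ContinuousLinearMap.snd ℝ E' (EuclideanSpace ℝ n))).hasFDerivAt
  have h2 := (hasFDerivAt_const (x : E) (c, v)).prodMk h1
  refine h2.congr_fderiv ?_
  ext w <;> simp

/-- the first factor of the integrand -/
theorem pull_gam_thom [Nonempty ι] (h : Dat P W' x g f) (c : E') (v : EuclideanSpace ℝ n) :
    F.pull (gam fun _ : E' => P x) (F.pull (cst E' x) (thomF (fun x => 1 - P x) W')) (c, v) =
      GG ι (‖v - P x v‖ ^ 2) • pb (ContinuousLinearMap.snd ℝ E' (EuclideanSpace ℝ n) :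
        E' × EuclideanSpace ℝ n →ₗ[ℝ] EuclideanSpace ℝ n) (Xi g) := by
  have d1 : DifferentiableAt ℝ (gam fun _ : E' => P x) (c, v) := by
    unfold gam; fun_prop
  have d2 : DifferentiableAt ℝ (cst E' x) (gam (fun _ : E' => P x) (c, v)) := by
    unfold cst; fun_prop
  have e1 := F.pull_comp (f := gam fun _ : E' => P x) (g := cst E' x)
    (om := thomF (fun x => 1 - P x) W') d1 d2
  have e3 := pb_thomF (P := fun x => 1 - P x) (W := W') (contDiffAt_const.sub h.cd) h.on h.pg h.wg v
  have hv : (1 - P x) v = v - P x v := rfl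
  simp only [hv] at e3
  have hp : (cst E' x ∘ gam fun _ : E' => P x) (c, v) = (x, v - P x v) := rfl
  rw [e1, F.pull, (hasFDerivAt_gam_cst c v).fderiv, ContinuousLinearMap.toLinearMap_comp, ← pb_comp,
    hp, e3, map_smul]

theorem isDeg_Xi (g : Matrix n (ι × Fin 2) ℝ) : IsDeg (Fintype.card ι * 2) (Xi g) :=
  IsDeg.iMulti _

/-- **`push` over a constant field** -/
theorem push_const [Nonempty ι] (h : Dat P W' x g f)
    (om : E' × EuclideanSpace ℝ n → Ext (E' × EuclideanSpace ℝ n)) (c : E') :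
    push volume (fun _ : E' => P x) (F.pull (cst E' x) (thomF (fun x => 1 - P x) W')) om c =
      (kGG ι * (h.adp.mat.det * (-1) ^ r)) • ∫ b : Eu r, cF E' f (om (c, cmb f b)) := by
  set B : E' × EuclideanSpace ℝ n →L[ℝ] E' × EuclideanSpace ℝ n :=
    (ContinuousLinearMap.fst ℝ E' (EuclideanSpace ℝ n)).prod
      (-((P x).comp (ContinuousLinearMap.snd ℝ E' (EuclideanSpace ℝ n)))) with hB
  have hBa : ∀ z, B z = (z.1, -P x z.2) := fun z => rfl
  have e1 : ∀ v, cH (ContinuousLinearMap.inl ℝ E' (EuclideanSpace ℝ n))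
      (ContinuousLinearMap.inr ℝ E' (EuclideanSpace ℝ n))
      (thE' (fun _ : E' => P x) (F.pull (cst E' x) (thomF (fun x => 1 - P x) W')) om (c, v)) =
      GG ι (‖v - P x v‖ ^ 2) • (h.adp.mat.det * (-1) ^ r) • cF E' f (om (c, -P x v)) := by
    intro v
    have h1 : F.pull (nbet fun _ : E' => P x) om (c, v) =
        pb (B : E' × EuclideanSpace ℝ n →ₗ[ℝ] E' × EuclideanSpace ℝ n) (om (c, -P x v)) := by
      have h2 : HasFDerivAt (nbet fun _ : E' => P x) B (c, v) := B.hasFDerivAt
      rw [F.pull, h2.fderiv]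
      rfl
    rw [thE', Pi.mul_apply, pull_gam_thom h, h1, smul_mul_assoc, map_smul]
    rw [cH_prod h.adp (s := -1) (B := B) (fun k => by rw [hBa, h.pc]; simp)
      (fun k => by rw [hBa, h.pf]; simp) (fun e => by rw [hBa]; simp) (isDeg_Xi g),
      evA_Xi_col h.on, mul_one]
  rw [push, pI_eq]
  simp only [e1]
  rw [h.adp.integral (φ := fun a => GG ι (‖a‖ ^ 2))
    (Ψ := fun b => (h.adp.mat.det * (-1) ^ r) • cF E' f (om (c, -cmb f b)))
    (fun a b => by
      rw [h.P_add, add_sub_cancel_right, norm_cmb h.adp.on']),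
    integral_smul, smul_smul]
  congr 1
  have h3 := integral_neg_eq_self (fun b => cF E' f (om (c, cmb f b))) (volume : Measure (Eu r))
  simp only [map_neg] at h3
  exact h3

end const

/-! ### the constant of a Thom pair -/
section c0
variable {n ι ι' : Type*} [Fintype n] [DecidableEq n] [Fintype ι] [DecidableEq ι]
  [Fintype ι'] [DecidableEq ι'] {E : Type*} [NormedAddCommGroup E] [NormedSpace ℝ E]
  [FiniteDimensional ℝ E] {X : Set E} {x : E}
  {P : E → EuclideanSpace ℝ n →L[ℝ] EuclideanSpace ℝ n}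
  {W : E → (ι × Fin 2 → n) → ℝ} {W' : E → (ι' × Fin 2 → n) → ℝ}
  {f : Matrix n (ι × Fin 2) ℝ} {g : Matrix n (ι' × Fin 2) ℝ}

theorem adp_of_frames (hf : fᵀ * f = 1) (hg : gᵀ * g = 1) (h : g * gᵀ + f * fᵀ = 1) :
    Adp (col g) (col f) := by
  have h0 : gᵀ * f = 0 := by
    have h1 : gᵀ * (g * gᵀ + f * fᵀ) * f = gᵀ * f := by rw [h, Matrix.mul_one]
    have h2 : gᵀ * (g * gᵀ + f * fᵀ) * f = gᵀ * f + gᵀ * f := by
      have : gᵀ * (g * gᵀ + f * fᵀ) * f = (gᵀ * g) * (gᵀ * f) + (gᵀ * f) * (fᵀ * f) := by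
        simp only [Matrix.mul_add, Matrix.add_mul, Matrix.mul_assoc]
      rw [this, hf, hg, Matrix.one_mul, Matrix.mul_one]
    rw [h2] at h1
    simpa using h1
  have hcf : ∀ k l, inner ℝ (col g k) (col f l) = (0 : ℝ) := by
    intro k l
    rw [inner_col]
    have := congrFun (congrFun h0 ((kFin ι').symm k)) ((kFin ι).symm l)
    rw [Matrix.mul_apply] at this
    exact this
  refine ⟨?_, ?_⟩
  · rw [orthonormal_iff_ite]
    intro i j
    refine Fin.addCases (fun i => ?_) (fun i => ?_) i <;>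
      refine Fin.addCases (fun j => ?_) (fun j => ?_) j
    · rw [Fin.append_left, Fin.append_left, col_inner hg]
      simp
    · rw [Fin.append_left, Fin.append_right, hcf, if_neg]
      simp [Fin.ext_iff]; omega
    · rw [Fin.append_left, Fin.append_right, real_inner_comm, hcf, if_neg]
      simp [Fin.ext_iff]; omega
    · rw [Fin.append_right, Fin.append_right, col_inner hf]
      simp
  · intro v _
    have e1 : v = ∑ k, inner ℝ (col g k) v • col g k + ∑ k, inner ℝ (col f k) v • col f k := by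
      have a1 := proj_col (g := g) (A := (Matrix.toEuclideanLin (g * gᵀ)).toContinuousLinearMap)
        (fun v i => rfl) v
      have a2 := proj_col (g := f) (A := (Matrix.toEuclideanLin (f * fᵀ)).toContinuousLinearMap)
        (fun v i => rfl) v
      rw [← a1, ← a2]
      ext i
      have : v i = ((g * gᵀ + f * fᵀ) *ᵥ v) i := by rw [h, Matrix.one_mulVec]
      rw [this, Matrix.add_mulVec]
      rfl
    rw [e1]
    refine Submodule.add_mem _ (Submodule.sum_mem _ fun k _ => Submodule.smul_mem _ _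
      (Submodule.subset_span ⟨Fin.castAdd _ k, Fin.append_left _ _ _⟩))
      (Submodule.sum_mem _ fun k _ => Submodule.smul_mem _ _
      (Submodule.subset_span ⟨Fin.natAdd _ k, Fin.append_right _ _ _⟩))

theorem evA_Xi_mul (h : Adp (col g) (col f)) :
    evA (EuclideanSpace ℝ n) (finrank ℝ (EuclideanSpace ℝ n)) (Xi g * Xi f)
      (Module.finBasis ℝ (EuclideanSpace ℝ n)) = h.mat.det := by
  have hN := h.finrank
  rw [← evA_cast hN.symm]
  have e1 := evA_comb _ (Xi g * Xi f) h.basis
    ((Module.finBasis ℝ (EuclideanSpace ℝ n)) ∘ Fin.cast hN.symm) h.mat h.mat_spec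
  rw [e1, h.coe, Xi, Xi, ExteriorAlgebra.ιMulti_mul_ιMulti, evA_iMulti]
  have e2 : (Matrix.of fun i j => (Fin.append (fun k => eta g ((kFin ι').symm k))
      (fun k => eta f ((kFin ι).symm k)) j) (Fin.append (col g) (col f) i)) =
      (1 : Matrix (Fin (Fintype.card ι' * 2 + Fintype.card ι * 2))
        (Fin (Fintype.card ι' * 2 + Fintype.card ι * 2)) ℝ) := by
    have hon := orthonormal_iff_ite.1 h.on
    ext i j
    rw [Matrix.of_apply, Matrix.one_apply, ← hon i j]
    refine Fin.addCases (fun j => ?_) (fun j => ?_) j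
    · rw [Fin.append_left, Fin.append_left, real_inner_comm, inner_col, eta_apply]
    · rw [Fin.append_right, Fin.append_right, real_inner_comm, inner_col, eta_apply]
  rw [e2, Matrix.det_one, mul_one]

theorem frames_add (hPf : ∀ v i, P x v i = ∑ j, (f * fᵀ) i j * v j)
    (hPg : ∀ v i, (1 - P x) v i = ∑ j, (g * gᵀ) i j * v j) : g * gᵀ + f * fᵀ = 1 := by
  ext i j
  have e1 := hPf (EuclideanSpace.single j 1) i
  have e2 := hPg (EuclideanSpace.single j 1) i
  have e3 : (1 - P x) (EuclideanSpace.single j (1 : ℝ)) i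
      = (EuclideanSpace.single j (1 : ℝ) : EuclideanSpace ℝ n) i
        - P x (EuclideanSpace.single j 1) i := rfl
  rw [e3, e1] at e2
  simp only [PiLp.single_apply, mul_ite, mul_one, mul_zero, Finset.sum_ite_eq',
    Finset.mem_univ, if_true] at e2
  rw [Matrix.add_apply, Matrix.one_apply, ← e2]
  ring

/-- **the value of the constant** -/
theorem thom_unit [Nonempty ι] [Nonempty ι'] (h : OR X P W)
    (h' : OR X (fun x => 1 - P x) W') (hx : x ∈ X) : ∃ c : ℝ,
      |c| = del (EuclideanSpace ℝ n) * (kGG ι' * kGG ι) ∧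
      pI volume (F.pull (gam P) (thomF (fun x => 1 - P x) W') * F.pull (bet P) (thomF P W)) x
        = algebraMap ℝ (Ext E) c := by
  obtain ⟨f, hf, hPf, hWf⟩ := h.fr x hx
  obtain ⟨g, hg, hPg, hWg⟩ := h'.fr x hx
  have hadd := frames_add hPf hPg
  have hA := adp_of_frames hf hg hadd
  have hk : 0 ≤ kGG ι' * kGG ι := mul_nonneg
    (integral_nonneg fun a => GG_nonneg _ _) (integral_nonneg fun a => GG_nonneg _ _)
  refine ⟨hA.mat.det * (kGG ι' * kGG ι), by rw [abs_mul, hA.abs_det, abs_of_nonneg hk], ?_⟩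
  have hdeg : ∀ k, IsDeg (finrank ℝ (EuclideanSpace ℝ n))
      ((F.pull (gam P) (thomF (fun x => 1 - P x) W') * F.pull (bet P) (thomF P W)) (x, k)) := by
    intro k
    have e : finrank ℝ (EuclideanSpace ℝ n) = 2 * Fintype.card ι' + 2 * Fintype.card ι := by
      rw [hA.finrank]; ring
    rw [e]
    exact IsDeg.mul ((thomF_deg _).pb _) ((thomF_deg _).pb _)
  have hk : ∀ k, cH (ContinuousLinearMap.inl ℝ E (EuclideanSpace ℝ n))
        (ContinuousLinearMap.inr ℝ E (EuclideanSpace ℝ n))
        ((F.pull (gam P) (thomF (fun x => 1 - P x) W') * F.pull (bet P) (thomF P W)) (x, k))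
      = (GG ι' (‖k - P x k‖ ^ 2) * GG ι (‖P x k‖ ^ 2)) • algebraMap ℝ (Ext E) hA.mat.det := by
    intro k
    have hg' := pb_inr_pull h' hx hg hPg hWg k
    have hv : (1 - P x) k = k - P x k := rfl
    simp only [hv] at hg'
    rw [cH_of_isDeg (hdeg k), Pi.mul_apply, _root_.map_mul, gam_eq_bet,
      pb_inr_pull h hx hf hPf hWf, hg', smul_mul_smul_comm, map_smul,
      AlternatingMap.smul_apply, smul_eq_mul, evA_Xi_mul hA, Algebra.smul_def, ← _root_.map_mul]
  rw [pI_eq]
  simp only [hk]
  have hPc : ∀ k, P x (col g k) = 0 := by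
    intro k
    have h1 := proj_col hPg (col g k)
    simp only [col_inner hg, ite_smul, one_smul, zero_smul, Finset.sum_ite_eq',
      Finset.mem_univ, if_true] at h1
    have h2 : (1 - P x) (col g k) = col g k - P x (col g k) := rfl
    rw [h2] at h1
    simpa using h1
  have hPf' : ∀ k, P x (col f k) = col f k := by
    intro k
    have h1 := proj_col hPf (col f k)
    simp only [col_inner hf, ite_smul, one_smul, zero_smul, Finset.sum_ite_eq',
      Finset.mem_univ, if_true] at h1
    exact h1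
  have hPab : ∀ (a : Eu (Fintype.card ι' * 2)) (b : Eu (Fintype.card ι * 2)),
      P x (cmb (col g) a + cmb (col f) b) = cmb (col f) b := by
    intro a b
    rw [map_add, cmb_apply, cmb_apply, _root_.map_sum, _root_.map_sum]
    simp only [map_smul, hPc, hPf', smul_zero, Finset.sum_const_zero, zero_add]
  rw [hA.integral (φ := fun a => GG ι' (‖a‖ ^ 2))
    (Ψ := fun b => GG ι (‖b‖ ^ 2) • algebraMap ℝ (Ext E) hA.mat.det)
    (fun a b => by
      rw [hPab, add_sub_cancel_right, norm_cmb hA.on', norm_cmb hA.on'', mul_smul])]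
  rw [integral_smul_const, smul_smul, Algebra.smul_def, ← _root_.map_mul, mul_comm hA.mat.det]
  rfl

/-- **(C0)** -/
theorem thomPair_c0 [Nonempty ι] [Nonempty ι'] (h : OR X P W)
    (h' : OR X (fun x => 1 - P x) W') {r : ℕ} {R c₀ : ℝ} {e : E → Ext E}
    (hT : ThomPair volume X P r R c₀ e (thomF P W) (thomF (fun x => 1 - P x) W'))
    (hne : X.Nonempty) : |c₀| = del (EuclideanSpace ℝ n) * (kGG ι' * kGG ι) := by
  obtain ⟨x, hx⟩ := hne
  obtain ⟨c, hc, hc1⟩ := thom_unit h h' hx
  have h1 := eqv_iff.1 hT.unit x hx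
  rw [hc1, AlgHom.commutes, AlgHom.commutes] at h1
  have h2 := congrArg (fun a => evA (Tan X x) 0 a ![]) h1
  simp only [evA_zero_algebraMap] at h2
  rw [← h2, hc]

end c0

end Crest.Agent.R208.LC
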