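import Crest.Agent.R208.LC3
import Crest.Agent.R208.LC2

-- ▼ part R208/LC4
section

/-! Row 208, block LC (helper125), part LC4: `push` and `pu₂` are fibre operators. -/

set_option autoImplicit false
set_option linter.unusedSectionVars false
set_option linter.unusedSimpArgs false
set_option linter.unusedVariables false

open MeasureTheory Set Filter Topology Module Matrix
open scoped ContDiff
open Crest.Agent.R208.F Crest.Agent.R208.FI Crest.Agent.R208.CW Crest.Agent.R208.T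
open Crest.Agent.R208.TP Crest.Agent.R208.SN

noncomputable section

namespace Crest.Agent.R208.LC

theorem kGG_pos (ι : Type*) [Fintype ι] [Nonempty ι] : 0 < kGG ι := by
  obtain ⟨s, hs, hs'⟩ := exists_GG_pos (ι := ι)
  have hc : Continuous fun a : Eu (Fintype.card ι * 2) => GG ι (‖a‖ ^ 2) :=
    GG_continuous.comp (by fun_prop)
  have hcs : HasCompactSupport fun a : Eu (Fintype.card ι * 2) => GG ι (‖a‖ ^ 2) := by
    refine HasCompactSupport.intro (isCompact_closedBall (0 : Eu (Fintype.card ι * 2)) 1)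
      fun a ha => ?_
    have h1 : 1 < ‖a‖ := by simpa using ha
    exact GG_of_ge (by nlinarith)
  have hk : 0 < Fintype.card ι * 2 := by
    have : 0 < Fintype.card ι := Fintype.card_pos
    omega
  have : Nonempty (Fin (Fintype.card ι * 2)) := ⟨⟨0, hk⟩⟩
  refine hc.integral_pos_of_hasCompactSupport_nonneg_nonzero hcs (fun a => GG_nonneg ι _)
    (x := √s • EuclideanSpace.single (⟨0, hk⟩ : Fin (Fintype.card ι * 2)) (1 : ℝ)) ?_
  rw [norm_smul, PiLp.norm_single, norm_one, mul_one, Real.norm_eq_abs, sq_abs,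
    Real.sq_sqrt hs.le]
  exact hs'.ne'

/-- evaluation, as a continuous linear functional -/
def evL {G : Type*} [NormedAddCommGroup G] [NormedSpace ℝ G] [FiniteDimensional ℝ G] (q : ℕ)
    (v : Fin q → G) : Ext G →L[ℝ] ℝ :=
  LinearMap.toContinuousLinearMap
    { toFun := fun c => evA G q c v
      map_add' := fun a b => by simp
      map_smul' := fun r a => by simp }

theorem evL_apply {G : Type*} [NormedAddCommGroup G] [NormedSpace ℝ G] [FiniteDimensional ℝ G]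
    (q : ℕ) (v : Fin q → G) (c : Ext G) : evL q v c = evA G q c v := rfl

section formula
variable {n ι : Type*} [Fintype n] [DecidableEq n] [Fintype ι] [DecidableEq ι]
  {E F' : Type*} [NormedAddCommGroup E] [NormedSpace ℝ E] [FiniteDimensional ℝ E]
  [NormedAddCommGroup F'] [NormedSpace ℝ F'] [FiniteDimensional ℝ F']
  {P : E → EuclideanSpace ℝ n →L[ℝ] EuclideanSpace ℝ n} {W' : E → (ι × Fin 2 → n) → ℝ} {x : E}
  {g : Matrix n (ι × Fin 2) ℝ} {r s : ℕ} {f : Fin r → EuclideanSpace ℝ n}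
  {Y : Set F'} {Q : F' → EuclideanSpace ℝ n →L[ℝ] EuclideanSpace ℝ n}
  {τ β : F' × EuclideanSpace ℝ n → Ext (F' × EuclideanSpace ℝ n)} {R R' : ℝ}
  {A : Eu s →L[ℝ] F'} {y₀ : F'}

theorem hasFDerivAt_up_aff (z : Eu s × EuclideanSpace ℝ n) :
    HasFDerivAt (up (H := EuclideanSpace ℝ n) fun c : Eu s => y₀ + A c)
      (A.prodMap (ContinuousLinearMap.id ℝ (EuclideanSpace ℝ n))) z := by
  have h1 : HasFDerivAt (fun z : Eu s × EuclideanSpace ℝ n => y₀ + A z.1)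
      (A.comp (ContinuousLinearMap.fst ℝ (Eu s) (EuclideanSpace ℝ n))) z :=
    (A.comp (ContinuousLinearMap.fst ℝ (Eu s) (EuclideanSpace ℝ n))).hasFDerivAt.const_add y₀
  have h2 : HasFDerivAt (fun z : Eu s × EuclideanSpace ℝ n => z.2)
      (ContinuousLinearMap.snd ℝ (Eu s) (EuclideanSpace ℝ n)) z := hasFDerivAt_snd
  exact h1.prodMk h2

theorem pull_up_aff (z : Eu s × EuclideanSpace ℝ n) :
    F.pull (up (H := EuclideanSpace ℝ n) fun c : Eu s => y₀ + A c) β z =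
      pbL (A.prodMap (ContinuousLinearMap.id ℝ (EuclideanSpace ℝ n))) (β (y₀ + A z.1, z.2)) := by
  rw [F.pull, (hasFDerivAt_up_aff z).fderiv]
  rfl

/-- **the value of `push` on vectors along which the field is constant** -/
theorem push_formula [Nonempty ι] (h : Dat P W' x g f) (hQ : PField Y r Q)
    (hτ : CSF Y (fun y => 1 - Q y) R τ) (hj : ∀ c : Eu s, y₀ + A c ∈ Y)
    (hQj : ∀ c : Eu s, Q (y₀ + A c) = P x)
    (hτj : F.pull (up (H := EuclideanSpace ℝ n) fun c : Eu s => y₀ + A c) τ =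
      F.pull (cst (n := n) (E := E) (Eu s) x) (thomF (fun x => 1 - P x) W'))
    (sβ : Sm (Tot Y Q) β) (vβ : Vt R' β) (c : Eu s) :
    evA F' s (push volume Q τ β (y₀ + A c)) (fun k => A (sb s k)) =
      (kGG ι * (h.adp.mat.det * (-1) ^ r)) * ∫ b : Eu r,
        evA (F' × EuclideanSpace ℝ n) (r + s) (β (y₀ + A c, cmb f b))
          (Fin.append (fun k => ((0 : F'), f k)) (fun k => (A (sb s k), 0))) := by
  have hjs : SMap (univ : Set (Eu s)) Y (fun c => y₀ + A c) :=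
    ⟨fun c _ => (contDiff_const.add A.contDiff).contDiffAt, fun c _ => hj c⟩
  have e1 := push_up volume hQ hjs hτ sβ vβ (mem_univ c)
  rw [hτj] at e1
  have e2 : (fun y : Eu s => Q (y₀ + A y)) = fun _ => P x := funext hQj
  rw [e2, push_const h] at e1
  have e3 : evA (Eu s) s (F.pull (fun c : Eu s => y₀ + A c) (push volume Q τ β) c) (sb s) =
      evA F' s (push volume Q τ β (y₀ + A c)) (fun k => A (sb s k)) := by
    have h1 : HasFDerivAt (fun c : Eu s => y₀ + A c) A c := A.hasFDerivAt.const_add y₀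
    rw [F.pull, h1.fderiv, evA_pb]
    rfl
  rw [← e3, ← e1, map_smul, AlternatingMap.smul_apply, smul_eq_mul]
  congr 1
  have hint : Integrable (fun b : Eu r => cF (Eu s) f
      (F.pull (up (H := EuclideanSpace ℝ n) fun c : Eu s => y₀ + A c) β (c, cmb f b))) := by
    refine (ContinuousLinearMap.integrable_comp _ ?_)
    simp only [pull_up_aff]
    refine (ContinuousLinearMap.integrable_comp _ ?_)
    refine Continuous.integrable_of_hasCompactSupport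
      (continuous_iff_continuousAt.2 fun b => ?_)
      (HasCompactSupport.intro (isCompact_closedBall (0 : Eu r) R') fun b hb => ?_)
    · have h2 : (y₀ + A c, cmb f b) ∈ Tot Y Q := ⟨hj c, by
        change Q (y₀ + A c) (cmb f b) = cmb f b
        rw [hQj, h.P_f]⟩
      exact ContinuousAt.comp (g := β) (f := fun b => (y₀ + A c, cmb f b))
        (sβ _ h2).continuousAt (by fun_prop)
    · have h2 : R' < ‖b‖ := by simpa using hb
      refine vβ _ ?_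
      rw [norm_cmb h.adp.on'']
      exact h2
  have e4 := (evL s (sb s)).integral_comp_comm hint
  rw [evL_apply] at e4
  rw [← e4]
  refine integral_congr_ae (Eventually.of_forall fun b => ?_)
  simp only
  rw [evL_apply, evA_cF, pull_up_aff, pbL_apply, evA_pb]
  congr 1
  funext i
  refine Fin.addCases (fun i => ?_) (fun i => ?_) i
  · rw [Fin.append_left, Fin.append_left]; simp
  · rw [Fin.append_right, Fin.append_right]; simp

end formula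

theorem evA_append_nil {G : Type*} [NormedAddCommGroup G] [NormedSpace ℝ G]
    [FiniteDimensional ℝ G] {r : ℕ} (c : Ext G) (v : Fin r → G) (w : Fin 0 → G) :
    evA G (r + 0) c (Fin.append v w) = evA G r c v := by
  rw [Fin.append_right_nil v w rfl]
  rfl

/-- integrability along a fibre -/
theorem integrable_fib {M : Type*} [NormedAddCommGroup M] [NormedSpace ℝ M]
    [FiniteDimensional ℝ M] {r : ℕ} {T : Set M} {N : M → ℝ} {L : Eu r →L[ℝ] M} {z : M}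
    {β : M → Ext M} {R : ℝ} (hm : ∀ c, z + L c ∈ T) (hb : ∀ c, ‖c‖ ≤ 2 * N (z + L c))
    (sβ : Sm T β) (vβ : ∀ z, R < N z → β z = 0) : Integrable (fun c => β (z + L c)) := by
  refine Continuous.integrable_of_hasCompactSupport (continuous_iff_continuousAt.2 fun c => ?_)
    (HasCompactSupport.intro (isCompact_closedBall (0 : Eu r) (2 * R)) fun c hc => ?_)
  · exact ContinuousAt.comp (g := β) (f := fun c => z + L c) (sβ _ (hm c)).continuousAt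
      (contDiff_aff L z).continuous.continuousAt
  · have h2 : 2 * R < ‖c‖ := by simpa using hc
    have h3 := hb c
    exact vβ _ (by linarith)

/-! ### one field -/
section one
variable {n ι : Type*} [Fintype n] [DecidableEq n] [Fintype ι] [DecidableEq ι]
  {E : Type*} [NormedAddCommGroup E] [NormedSpace ℝ E] [FiniteDimensional ℝ E]
  {X : Set E} {P : E → EuclideanSpace ℝ n →L[ℝ] EuclideanSpace ℝ n}
  {W' : E → (ι × Fin 2 → n) → ℝ} {r d : ℕ}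

theorem exists_cut (H : Type*) [NormedAddCommGroup H] [InnerProductSpace ℝ H]
    [FiniteDimensional ℝ H] (a b : ℝ) (ha : 0 < a) (hab : a < b) : ∃ χ : H → ℝ,
    ContDiff ℝ ∞ χ ∧ (∀ h, 0 ≤ χ h) ∧ (∀ h, ‖h‖ ≤ a → χ h = 1) ∧ ∀ h, b ≤ ‖h‖ → χ h = 0 := by
  let F0 : ContDiffBump (0 : H) := ⟨a, b, ha, hab⟩
  refine ⟨F0, F0.contDiff, fun h => F0.nonneg, fun h hh => F0.one_of_mem_closedBall ?_,
    fun h hh => F0.zero_of_le_dist ?_⟩
  · simpa using hh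
  · simpa using hh

theorem zero_up_eq (x : E) : (up (H := EuclideanSpace ℝ n) fun c : Eu 0 =>
    x + (0 : Eu 0 →L[ℝ] E) c) = cst (n := n) (E := E) (Eu 0) x := by
  funext z
  simp [up, cst]


end one

end Crest.Agent.R208.LC
end
end

-- ▼ part R208/LC5
section

/-! Row 208, block LC (helper125), part LC5: `pu₂` is a fibre operator; **localisation** for one and
for two fields. -/

set_option autoImplicit false
set_option linter.unusedSectionVars false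
set_option linter.unusedSimpArgs false
set_option linter.unusedVariables false

open MeasureTheory Set Filter Topology Module Matrix
open scoped ContDiff
open Crest.Agent.R208.F Crest.Agent.R208.FI Crest.Agent.R208.CW Crest.Agent.R208.T
open Crest.Agent.R208.TP Crest.Agent.R208.SN

noncomputable section

namespace Crest.Agent.R208.LC

section kap
variable {r₁ r₂ : ℕ}

theorem kap_norm (c : Eu (r₁ + r₂)) : ‖c‖ ^ 2 = ‖(kap r₁ r₂ c).1‖ ^ 2 + ‖(kap r₁ r₂ c).2‖ ^ 2 := by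
  rw [EuclideanSpace.norm_sq_eq, EuclideanSpace.norm_sq_eq, EuclideanSpace.norm_sq_eq,
    Fin.sum_univ_add]
  simp

theorem kap_bdd (c : Eu (r₁ + r₂)) :
    ‖c‖ ≤ 2 * max ‖(kap r₁ r₂ c).2‖ ‖(kap r₁ r₂ c).1‖ := by
  have h1 := kap_norm c
  set m := max ‖(kap r₁ r₂ c).2‖ ‖(kap r₁ r₂ c).1‖ with hm
  have h2 : ‖(kap r₁ r₂ c).2‖ ≤ m := le_max_left _ _
  have h3 : ‖(kap r₁ r₂ c).1‖ ≤ m := le_max_right _ _
  have h4 : 0 ≤ m := (norm_nonneg _).trans h2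
  have h5 := norm_nonneg c
  have h6 := norm_nonneg (kap r₁ r₂ c).1
  have h7 := norm_nonneg (kap r₁ r₂ c).2
  nlinarith

end kap

section two
variable {E : Type*} [NormedAddCommGroup E] [NormedSpace ℝ E] [FiniteDimensional ℝ E]
  {n₁ n₂ ι₁ ι₂ : Type*} [Fintype n₁] [DecidableEq n₁] [Fintype n₂] [DecidableEq n₂]
  [Fintype ι₁] [DecidableEq ι₁] [Fintype ι₂] [DecidableEq ι₂]
  {X : Set E} {P₁ : E → EuclideanSpace ℝ n₁ →L[ℝ] EuclideanSpace ℝ n₁}
  {P₂ : E → EuclideanSpace ℝ n₂ →L[ℝ] EuclideanSpace ℝ n₂}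
  {W₁ : E → (ι₁ × Fin 2 → n₁) → ℝ} {W₂ : E → (ι₂ × Fin 2 → n₂) → ℝ} {r₁ r₂ d : ℕ} {x : E}

/-- the linear map onto the fibre of `P₂ ⊕ P₁` -/
def L2 (E : Type*) [NormedAddCommGroup E] [NormedSpace ℝ E]
    (f₁ : Fin r₁ → EuclideanSpace ℝ n₁) (f₂ : Fin r₂ → EuclideanSpace ℝ n₂) :
    Eu (r₁ + r₂) →L[ℝ] (E × EuclideanSpace ℝ n₂) × EuclideanSpace ℝ n₁ :=
  (((0 : Eu (r₁ + r₂) →L[ℝ] E).prod ((cmb f₂).comp
    ((ContinuousLinearMap.snd ℝ (Eu r₁) (Eu r₂)).comp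
      (kap r₁ r₂ : Eu (r₁ + r₂) →L[ℝ] Eu r₁ × Eu r₂))))).prod
    ((cmb f₁).comp ((ContinuousLinearMap.fst ℝ (Eu r₁) (Eu r₂)).comp
      (kap r₁ r₂ : Eu (r₁ + r₂) →L[ℝ] Eu r₁ × Eu r₂)))

theorem L2_apply (f₁ : Fin r₁ → EuclideanSpace ℝ n₁) (f₂ : Fin r₂ → EuclideanSpace ℝ n₂)
    (c : Eu (r₁ + r₂)) :
    L2 E f₁ f₂ c = ((0, cmb f₂ (kap r₁ r₂ c).2), cmb f₁ (kap r₁ r₂ c).1) := rfl

theorem add_L2 (x : E) (f₁ : Fin r₁ → EuclideanSpace ℝ n₁) (f₂ : Fin r₂ → EuclideanSpace ℝ n₂)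
    (c : Eu (r₁ + r₂)) :
    (((x, 0), 0) : (E × EuclideanSpace ℝ n₂) × EuclideanSpace ℝ n₁) + L2 E f₁ f₂ c =
      ((x, cmb f₂ (kap r₁ r₂ c).2), cmb f₁ (kap r₁ r₂ c).1) := by
  rw [L2_apply]
  simp

theorem L2_sb (f₁ : Fin r₁ → EuclideanSpace ℝ n₁) (f₂ : Fin r₂ → EuclideanSpace ℝ n₂) :
    (fun i => L2 E f₁ f₂ (sb (r₁ + r₂) i)) =
      Fin.append (fun k => (0, f₁ k)) (fun k => ((0, f₂ k), 0)) := by
  funext i
  refine Fin.addCases (fun i => ?_) (fun i => ?_) i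
  · rw [Fin.append_left, L2_apply, kap_castAdd]
    simp only [map_zero, cmb_sb]
    rfl
  · rw [Fin.append_right, L2_apply, kap_natAdd]
    simp only [map_zero, cmb_sb]

theorem up_up_eq (x : E) (A : Eu r₂ →L[ℝ] EuclideanSpace ℝ n₂) :
    (up (H := EuclideanSpace ℝ n₁) (Prod.fst : E × EuclideanSpace ℝ n₂ → E)) ∘
      (up (H := EuclideanSpace ℝ n₁) fun c : Eu r₂ => ((x, 0) : E × EuclideanSpace ℝ n₂) +
        ((ContinuousLinearMap.inr ℝ E (EuclideanSpace ℝ n₂)).comp A) c) =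
      cst (n := n₁) (E := E) (Eu r₂) x := by
  funext z
  simp [up, cst]

theorem pull_up_up (x : E) (A : Eu r₂ →L[ℝ] EuclideanSpace ℝ n₂)
    (τ : E × EuclideanSpace ℝ n₁ → Ext (E × EuclideanSpace ℝ n₁)) :
    F.pull (up (H := EuclideanSpace ℝ n₁) fun c : Eu r₂ => ((x, 0) : E × EuclideanSpace ℝ n₂) +
        ((ContinuousLinearMap.inr ℝ E (EuclideanSpace ℝ n₂)).comp A) c)
      (F.pull (up (H := EuclideanSpace ℝ n₁) (Prod.fst : E × EuclideanSpace ℝ n₂ → E)) τ) =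
      F.pull (cst (n := n₁) (E := E) (Eu r₂) x) τ := by
  funext z
  rw [F.pull_comp (f := up (H := EuclideanSpace ℝ n₁) fun c : Eu r₂ =>
      ((x, 0) : E × EuclideanSpace ℝ n₂) +
        ((ContinuousLinearMap.inr ℝ E (EuclideanSpace ℝ n₂)).comp A) c)
    (g := up (H := EuclideanSpace ℝ n₁) (Prod.fst : E × EuclideanSpace ℝ n₂ → E)) (om := τ)
    (hasFDerivAt_up_aff z).differentiableAt (by unfold up; fun_prop), up_up_eq]

theorem L2_mem (hx : x ∈ X) {g₁ : Matrix n₁ (ι₁ × Fin 2) ℝ} {f₁ : Fin r₁ → EuclideanSpace ℝ n₁}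
    {g₂ : Matrix n₂ (ι₂ × Fin 2) ℝ} {f₂ : Fin r₂ → EuclideanSpace ℝ n₂}
    (D₁ : Dat P₁ W₁ x g₁ f₁) (D₂ : Dat P₂ W₂ x g₂ f₂) (c : Eu (r₁ + r₂)) :
    (((x, 0), 0) : (E × EuclideanSpace ℝ n₂) × EuclideanSpace ℝ n₁) + L2 E f₁ f₂ c ∈
      TT X P₂ P₁ := by
  rw [add_L2]
  exact ⟨⟨hx, D₂.P_f _⟩, D₁.P_f _⟩

/-- the norm on the total space -/
def N2 (z : (E × EuclideanSpace ℝ n₂) × EuclideanSpace ℝ n₁) : ℝ := max ‖z.1.2‖ ‖z.2‖

theorem N2_add (x : E) {g₁ : Matrix n₁ (ι₁ × Fin 2) ℝ} {f₁ : Fin r₁ → EuclideanSpace ℝ n₁}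
    {g₂ : Matrix n₂ (ι₂ × Fin 2) ℝ} {f₂ : Fin r₂ → EuclideanSpace ℝ n₂}
    (h₁ : Orthonormal ℝ f₁) (h₂ : Orthonormal ℝ f₂) (c : Eu (r₁ + r₂)) :
    N2 ((((x, 0), 0) : (E × EuclideanSpace ℝ n₂) × EuclideanSpace ℝ n₁) + L2 E f₁ f₂ c) =
      max ‖(kap r₁ r₂ c).2‖ ‖(kap r₁ r₂ c).1‖ := by
  rw [add_L2, N2, norm_cmb h₂, norm_cmb h₁]

theorem integrable_top {M : Type*} [NormedAddCommGroup M] [NormedSpace ℝ M]
    [FiniteDimensional ℝ M] {r : ℕ} {T : Set M} {N : M → ℝ} {L : Eu r →L[ℝ] M} {z : M}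
    {β : M → Ext M} {R : ℝ} (hm : ∀ c, z + L c ∈ T) (hb : ∀ c, ‖c‖ ≤ 2 * N (z + L c))
    (sβ : Sm T β) (vβ : ∀ z, R < N z → β z = 0) :
    Integrable (fun c => top r (pb (L : Eu r →ₗ[ℝ] M) (β (z + L c)))) := by
  have h1 := integrable_fib hm hb sβ vβ
  exact (LinearMap.toContinuousLinearMap ((top r) ∘ₗ (pb (L : Eu r →ₗ[ℝ] M)).toLinearMap)
        ).integrable_comp h1

theorem L2_bdd {g₁ : Matrix n₁ (ι₁ × Fin 2) ℝ} {f₁ : Fin r₁ → EuclideanSpace ℝ n₁}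
    {g₂ : Matrix n₂ (ι₂ × Fin 2) ℝ} {f₂ : Fin r₂ → EuclideanSpace ℝ n₂}
    (D₁ : Dat P₁ W₁ x g₁ f₁) (D₂ : Dat P₂ W₂ x g₂ f₂) (c : Eu (r₁ + r₂)) :
    ‖c‖ ≤ 2 * N2 ((((x, 0), 0) : (E × EuclideanSpace ℝ n₂) × EuclideanSpace ℝ n₁) +
      L2 E f₁ f₂ c) := by
  rw [N2_add x (g₁ := g₁) (g₂ := g₂) D₁.adp.on'' D₂.adp.on'']
  exact kap_bdd c

set_option maxHeartbeats 600000 in
/-- the double integral at a point, as an iterated integral -/
theorem pu₂_formula [Nonempty ι₁] [Nonempty ι₂] (hX : Sub d X) (hP₁ : PField X r₁ P₁)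
    (hP₂ : PField X r₂ P₂) (h₁ : OR X (fun x => 1 - P₁ x) W₁) (h₂ : OR X (fun x => 1 - P₂ x) W₂)
    (hx : x ∈ X) {g₁ : Matrix n₁ (ι₁ × Fin 2) ℝ} {f₁ : Fin r₁ → EuclideanSpace ℝ n₁}
    {g₂ : Matrix n₂ (ι₂ × Fin 2) ℝ} {f₂ : Fin r₂ → EuclideanSpace ℝ n₂}
    (D₁ : Dat P₁ W₁ x g₁ f₁) (D₂ : Dat P₂ W₂ x g₂ f₂)
    {β : (E × EuclideanSpace ℝ n₂) × EuclideanSpace ℝ n₁ →
      Ext ((E × EuclideanSpace ℝ n₂) × EuclideanSpace ℝ n₁)} {R : ℝ}
    (sβ : Sm (TT X P₂ P₁) β) (vβ : ∀ z, R < N2 z → β z = 0)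
    (dβ : Hom (r₁ + r₂) β) :
    pu₂ volume volume P₂ (thomF (fun x => 1 - P₂ x) W₂) P₁ (thomF (fun x => 1 - P₁ x) W₁) β x =
      algebraMap ℝ (Ext E) (((kGG ι₂ * (D₂.adp.mat.det * (-1) ^ r₂)) *
        (kGG ι₁ * (D₁.adp.mat.det * (-1) ^ r₁))) * ∫ c : Eu (r₁ + r₂),
          top (r₁ + r₂) (pb (L2 E f₁ f₂ : Eu (r₁ + r₂) →ₗ[ℝ]
            (E × EuclideanSpace ℝ n₂) × EuclideanSpace ℝ n₁)
            (β (((x, 0), 0) + L2 E f₁ f₂ c)))) := by
  have v₁ : Vt R β := fun z hz => vβ z (lt_max_of_lt_right hz)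
  have τ₁ := csf_thomF hX h₁
  have τ₂ := csf_thomF hX h₂
  have s₁ : Sm (Tot X P₂) (pu₁ volume P₁ (thomF (fun x => 1 - P₁ x) W₁) β) :=
    sm_push volume (X := Tot X P₂) (pfield_fst (P₂ := P₂) hP₁) (csf_fst (P₂ := P₂) τ₁) sβ v₁
  have v₂ : Vt R (pu₁ volume P₁ (thomF (fun x => 1 - P₁ x) W₁) β) := fun z hz =>
    push_eq_zero_pt volume fun h => vβ (z, h) (lt_max_of_lt_left hz)
  have hq₁ : Fintype.card ι₁ * 2 + r₁ = finrank ℝ (EuclideanSpace ℝ n₁) := D₁.adp.finrank.symm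
  have hq₂ : Fintype.card ι₂ * 2 + r₂ = finrank ℝ (EuclideanSpace ℝ n₂) := D₂.adp.finrank.symm
  have deg : IsDeg 0 (pu₂ volume volume P₂ (thomF (fun x => 1 - P₂ x) W₂) P₁
      (thomF (fun x => 1 - P₁ x) W₁) β x) :=
    hom_pu₂ volume volume (j := 0) (q₁ := Fintype.card ι₁ * 2) (q₂ := Fintype.card ι₂ * 2)
      (fun z => by
        have := thomF_deg (P := fun x => 1 - P₁ x) (W := W₁) z
        rwa [mul_comm] at this)
      (fun z => by
        have := thomF_deg (P := fun x => 1 - P₂ x) (W := W₂) z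
        rwa [mul_comm] at this) (by rw [zero_add, add_comm]; exact dβ) hq₁ hq₂ x
  have e0 : ∀ w : Fin 0 → E, w = ![] := fun w => Subsingleton.elim _ _
  -- outer integral
  have e1 := push_formula D₂ hP₂ τ₂ (A := (0 : Eu 0 →L[ℝ] E)) (y₀ := x)
    (fun c => by simpa using hx) (fun c => by simp) (by rw [zero_up_eq]) s₁ v₂ 0
  rw [e0 (fun k => (0 : Eu 0 →L[ℝ] E) (sb 0 k))] at e1
  simp only [_root_.zero_apply, add_zero, evA_append_nil] at e1
  -- inner integral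
  have e2 := fun b₂ : Eu r₂ => push_formula (Y := Tot X P₂) (Q := fun z => P₁ z.1) D₁
    (pfield_fst (P₂ := P₂) hP₁) (csf_fst (P₂ := P₂) τ₁)
    (A := (ContinuousLinearMap.inr ℝ E (EuclideanSpace ℝ n₂)).comp (cmb f₂))
    (y₀ := ((x, 0) : E × EuclideanSpace ℝ n₂))
    (fun c => ⟨by simpa using hx, by
      have := D₂.P_f c
      simpa using this⟩) (fun c => by simp) (pull_up_up x (cmb f₂) _) sβ v₁ b₂
  have hy : ∀ b₂ : Eu r₂, ((x, 0) : E × EuclideanSpace ℝ n₂) +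
      ((ContinuousLinearMap.inr ℝ E (EuclideanSpace ℝ n₂)).comp (cmb f₂)) b₂ = (x, cmb f₂ b₂) := by
    intro b₂; ext <;> simp
  have hA : ∀ k, ((ContinuousLinearMap.inr ℝ E (EuclideanSpace ℝ n₂)).comp (cmb f₂)) (sb r₂ k) =
      (0, f₂ k) := fun k => Prod.ext rfl (cmb_sb f₂ k)
  simp only [hy, hA] at e2
  -- Fubini
  set Fc : Eu (r₁ + r₂) → ℝ := fun c => top (r₁ + r₂) (pb (L2 E f₁ f₂ : Eu (r₁ + r₂) →ₗ[ℝ]
            (E × EuclideanSpace ℝ n₂) × EuclideanSpace ℝ n₁)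
            (β (((x, 0), 0) + L2 E f₁ f₂ c))) with hFc
  have hFint : Integrable Fc := integrable_top (L2_mem hx D₁ D₂) (L2_bdd D₁ D₂) sβ vβ
  have hFe : ∀ (b₁ : Eu r₁) (b₂ : Eu r₂), Fc ((kap r₁ r₂).symm (b₁, b₂)) =
      evA ((E × EuclideanSpace ℝ n₂) × EuclideanSpace ℝ n₁) (r₁ + r₂)
        (β ((x, cmb f₂ b₂), cmb f₁ b₁))
        (Fin.append (fun k => (0, f₁ k)) (fun k => ((0, f₂ k), 0))) := by
    intro b₁ b₂
    rw [← L2_sb (E := E) f₁ f₂]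
    simp only [hFc, top_pb, add_L2, ContinuousLinearEquiv.apply_symm_apply,
      ContinuousLinearMap.coe_coe]
  have m := measurePreserving_kap r₁ r₂
  have hemb : MeasurableEmbedding (kap r₁ r₂ : Eu (r₁ + r₂) → Eu r₁ × Eu r₂) :=
    (kap r₁ r₂).toHomeomorph.measurableEmbedding
  have hF2 : Integrable (fun p : Eu r₁ × Eu r₂ => Fc ((kap r₁ r₂).symm p))
      ((volume : Measure (Eu r₁)).prod (volume : Measure (Eu r₂))) := by
    rw [← Measure.volume_eq_prod, ← m.integrable_comp_emb hemb]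
    exact hFint.congr (Eventually.of_forall fun c =>
      (congrArg Fc ((kap r₁ r₂).symm_apply_apply c)).symm)
  have e3 : ∫ c, Fc c = ∫ b₂ : Eu r₂, ∫ b₁ : Eu r₁, Fc ((kap r₁ r₂).symm (b₁, b₂)) := by
    rw [← integral_prod_symm _ hF2, ← Measure.volume_eq_prod,
      ← m.integral_comp hemb (fun p => Fc ((kap r₁ r₂).symm p))]
    exact integral_congr_ae (Eventually.of_forall fun c =>
      (congrArg Fc ((kap r₁ r₂).symm_apply_apply c)).symm)
  rw [eq_algebraMap_of_isDeg deg ![]]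
  congr 1
  rw [pu₂, e1, e3]
  have e4 : ∀ b₂ : Eu r₂, evA (E × EuclideanSpace ℝ n₂) r₂
      (pu₁ volume P₁ (thomF (fun x => 1 - P₁ x) W₁) β (x, cmb f₂ b₂)) (fun k => (0, f₂ k)) =
      (kGG ι₁ * (D₁.adp.mat.det * (-1) ^ r₁)) *
        ∫ b₁ : Eu r₁, Fc ((kap r₁ r₂).symm (b₁, b₂)) := by
    intro b₂
    rw [pu₁, e2 b₂]
    simp only [hFe]
  simp only [e4]
  rw [integral_const_mul]
  ring

end two

end Crest.Agent.R208.LC
end
end

-- ▼ part R208/LC6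

/-! Row 208, block LC (helper125), part LC6: `pu₂` is a fibre operator; **localisation** for one and
for two fields. -/

set_option autoImplicit false
set_option linter.unusedSectionVars false
set_option linter.unusedSimpArgs false
set_option linter.unusedVariables false

open MeasureTheory Set Filter Topology Module Matrix
open scoped ContDiff
open Crest.Agent.R208.F Crest.Agent.R208.FI Crest.Agent.R208.CW Crest.Agent.R208.T
open Crest.Agent.R208.TP Crest.Agent.R208.SN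

noncomputable section

namespace Crest.Agent.R208.LC

section two
variable {E : Type*} [NormedAddCommGroup E] [NormedSpace ℝ E] [FiniteDimensional ℝ E]
  {n₁ n₂ ι₁ ι₂ : Type*} [Fintype n₁] [DecidableEq n₁] [Fintype n₂] [DecidableEq n₂]
  [Fintype ι₁] [DecidableEq ι₁] [Fintype ι₂] [DecidableEq ι₂]
  {X : Set E} {P₁ : E → EuclideanSpace ℝ n₁ →L[ℝ] EuclideanSpace ℝ n₁}
  {P₂ : E → EuclideanSpace ℝ n₂ →L[ℝ] EuclideanSpace ℝ n₂}
  {W₁ : E → (ι₁ × Fin 2 → n₁) → ℝ} {W₂ : E → (ι₂ × Fin 2 → n₂) → ℝ} {r₁ r₂ d : ℕ} {x : E}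

theorem fib_pu₂ [Nonempty ι₁] [Nonempty ι₂] (hX : Sub d X) (hP₁ : PField X r₁ P₁)
    (hP₂ : PField X r₂ P₂) (h₁ : OR X (fun x => 1 - P₁ x) W₁) (h₂ : OR X (fun x => 1 - P₂ x) W₂)
    (hx : x ∈ X) {g₁ : Matrix n₁ (ι₁ × Fin 2) ℝ} {f₁ : Fin r₁ → EuclideanSpace ℝ n₁}
    {g₂ : Matrix n₂ (ι₂ × Fin 2) ℝ} {f₂ : Fin r₂ → EuclideanSpace ℝ n₂}
    (D₁ : Dat P₁ W₁ x g₁ f₁) (D₂ : Dat P₂ W₂ x g₂ f₂) :
    Fib (r₁ + r₂) ((kGG ι₂ * del (EuclideanSpace ℝ n₂)) * (kGG ι₁ * del (EuclideanSpace ℝ n₁)))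
      (TT X P₂ P₁) (fun z => z.1.1) N2
      (pu₂ volume volume P₂ (thomF (fun x => 1 - P₂ x) W₂) P₁ (thomF (fun x => 1 - P₁ x) W₁))
      x (L2 E f₁ f₂) ((x, 0), 0) ((kGG ι₂ * (D₂.adp.mat.det * (-1) ^ r₂)) *
        (kGG ι₁ * (D₁.adp.mat.det * (-1) ^ r₁))) where
  abs := by
    simp only [abs_mul, D₁.adp.abs_det, D₂.adp.abs_det, abs_of_pos (kGG_pos ι₁),
      abs_of_pos (kGG_pos ι₂), abs_pow, abs_neg, abs_one, one_pow, mul_one]
  inj := by
    refine (injective_iff_map_eq_zero _).2 fun v hv => ?_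
    rw [L2_apply] at hv
    have h1 : cmb f₁ (kap r₁ r₂ v).1 = 0 := congrArg Prod.snd hv
    have h2 : cmb f₂ (kap r₁ r₂ v).2 = 0 := congrArg (fun z => z.1.2) hv
    have h3 := norm_cmb D₁.adp.on'' (kap r₁ r₂ v).1
    have h4 := norm_cmb D₂.adp.on'' (kap r₁ r₂ v).2
    rw [h1, norm_zero] at h3
    rw [h2, norm_zero] at h4
    have h5 := kap_norm v
    rw [← h3, ← h4] at h5
    have h6 : ‖v‖ ^ 2 = 0 := by rw [h5]; ring
    exact norm_eq_zero.1 (pow_eq_zero_iff two_ne_zero |>.1 h6)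
  mem := L2_mem hx D₁ D₂
  base := fun c => by rw [add_L2]
  surj := by
    rintro ⟨⟨y, v₂⟩, v₁⟩ ⟨⟨hy, hv₂⟩, hv₁⟩ hyx
    change y = x at hyx
    change P₂ y v₂ = v₂ at hv₂
    change P₁ y v₁ = v₁ at hv₁
    subst hyx
    obtain ⟨a₁, ha₁⟩ := D₁.surj v₁ hv₁
    obtain ⟨a₂, ha₂⟩ := D₂.surj v₂ hv₂
    refine ⟨(kap r₁ r₂).symm (a₁, a₂), ?_⟩
    rw [add_L2, ContinuousLinearEquiv.apply_symm_apply, ha₁, ha₂]
  zero := by simp [N2]
  conv := fun ρ => by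
    have e : {c : Eu (r₁ + r₂) | N2 ((((x, 0), 0) :
        (E × EuclideanSpace ℝ n₂) × EuclideanSpace ℝ n₁) + L2 E f₁ f₂ c) < ρ} =
        (kap r₁ r₂ : Eu (r₁ + r₂) →L[ℝ] Eu r₁ × Eu r₂) ⁻¹'
          (Metric.ball (0 : Eu r₁) ρ ×ˢ Metric.ball (0 : Eu r₂) ρ) := by
      ext c
      rw [mem_ofPred_eq, N2_add x (g₁ := g₁) (g₂ := g₂) D₁.adp.on'' D₂.adp.on'', max_lt_iff,
        mem_preimage, mem_prod, mem_ball_zero_iff, mem_ball_zero_iff, and_comm]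
      rfl
    rw [e]
    exact ((convex_ball _ _).prod (convex_ball _ _)).linear_preimage
      ((kap r₁ r₂ : Eu (r₁ + r₂) →L[ℝ] Eu r₁ × Eu r₂) : Eu (r₁ + r₂) →ₗ[ℝ] Eu r₁ × Eu r₂)
  bdd := L2_bdd D₁ D₂
  val := fun β R sβ vβ dβ => pu₂_formula hX hP₁ hP₂ h₁ h₂ hx D₁ D₂ sβ vβ dβ

/-- `pu₂` is a fibre operator -/
theorem fo_pu₂ [Nonempty ι₁] [Nonempty ι₂] (hX : Sub d X) (hP₁ : PField X r₁ P₁)
    (hP₂ : PField X r₂ P₂) (h₁ : OR X (fun x => 1 - P₁ x) W₁) (h₂ : OR X (fun x => 1 - P₂ x) W₂) :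
    FO (r₁ + r₂) ((kGG ι₂ * del (EuclideanSpace ℝ n₂)) * (kGG ι₁ * del (EuclideanSpace ℝ n₁))) X
      (TT X P₂ P₁) (fun z => z.1.1) N2
      (pu₂ volume volume P₂ (thomF (fun x => 1 - P₂ x) W₂) P₁ (thomF (fun x => 1 - P₁ x) W₁)) := by
  have τ₁ := csf_thomF hX h₁
  have τ₂ := csf_thomF hX h₂
  have hs : ∀ {V : (E × EuclideanSpace ℝ n₂) × EuclideanSpace ℝ n₁ →
      Ext ((E × EuclideanSpace ℝ n₂) × EuclideanSpace ℝ n₁)} {R : ℝ}, Sm (TT X P₂ P₁) V →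
      (∀ z, R < N2 z → V z = 0) →
      Vt R V ∧ Sm (Tot X P₂) (pu₁ volume P₁ (thomF (fun x => 1 - P₁ x) W₁) V) ∧
        Vt R (pu₁ volume P₁ (thomF (fun x => 1 - P₁ x) W₁) V) := by
    intro V R sV vV
    have v₁ : Vt R V := fun z hz => vV z (lt_max_of_lt_right hz)
    exact ⟨v₁, sm_push volume (X := Tot X P₂) (pfield_fst (P₂ := P₂) hP₁)
      (csf_fst (P₂ := P₂) τ₁) sV v₁, fun z hz =>
      push_eq_zero_pt volume fun h => vV (z, h) (lt_max_of_lt_left hz)⟩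
  refine ⟨mul_pos (mul_pos (kGG_pos ι₂) (del_pos _)) (mul_pos (kGG_pos ι₁) (del_pos _)),
    ⟨fun z _ => contDiffAt_fst.fst, fun z hz => hz.1.1⟩, ?_, ?_, ?_, ?_, ?_, ?_⟩
  · exact (continuous_fst.snd.norm).max continuous_snd.norm
  · intro a b ha hab
    obtain ⟨χ₁, h1, h2, h3, h4⟩ := exists_cut (EuclideanSpace ℝ n₁) a b ha hab
    obtain ⟨χ₂, h5, h6, h7, h8⟩ := exists_cut (EuclideanSpace ℝ n₂) a b ha hab
    refine ⟨fun z => χ₂ z.1.2 * χ₁ z.2, (h5.comp contDiff_fst.snd).mul (h1.comp contDiff_snd),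
      fun z => mul_nonneg (h6 _) (h2 _), fun z hz => ?_, fun z hz => ?_⟩
    · change χ₂ z.1.2 * χ₁ z.2 = 1
      rw [h7 _ ((le_max_left _ _).trans hz), h3 _ ((le_max_right _ _).trans hz), one_mul]
    · change χ₂ z.1.2 * χ₁ z.2 = 0
      rcases le_max_iff.1 hz with h | h
      · rw [h8 _ h, zero_mul]
      · rw [h4 _ h, mul_zero]
  · intro V R sV vV
    obtain ⟨v₁, s₁, v₂⟩ := hs sV vV
    exact sm_push volume hP₂ τ₂ s₁ v₂
  · intro V V' R sV vV sV' vV' h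
    obtain ⟨v₁, s₁, v₂⟩ := hs sV vV
    obtain ⟨v₁', s₁', v₂'⟩ := hs sV' vV'
    exact push_congr volume hP₂ τ₂ s₁ v₂ s₁' v₂' (push_congr volume (X := Tot X P₂)
      (pfield_fst (P₂ := P₂) hP₁) (csf_fst (P₂ := P₂) τ₁) sV v₁ sV' v₁' h)
  · intro V R y sV vV x hx
    obtain ⟨v₁, s₁, v₂⟩ := hs sV vV
    have e1 : F.pull (fun z : (E × EuclideanSpace ℝ n₂) × EuclideanSpace ℝ n₁ => z.1.1) y =
        F.pull (Prod.fst : (E × EuclideanSpace ℝ n₂) × EuclideanSpace ℝ n₁ → _)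
          (F.pull (Prod.fst : E × EuclideanSpace ℝ n₂ → E) y) := funext fun z =>
      (F.pull_comp (f := (Prod.fst : (E × EuclideanSpace ℝ n₂) × EuclideanSpace ℝ n₁ → _))
        (g := (Prod.fst : E × EuclideanSpace ℝ n₂ → E)) (om := y) differentiableAt_fst
        differentiableAt_fst).symm
    rw [e1, pu₂, pu₂, ← push_mul_fst volume hP₂ τ₂ s₁ v₂ hx (β := y)]
    refine push_congr_pt volume (fun h => hP₂.idem x hx h) (fun _ _ => rfl) fun h hh => ?_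
    exact push_mul_fst volume (X := Tot X P₂) (P := fun z => P₁ z.1)
      (pfield_fst (P₂ := P₂) hP₁) (csf_fst (P₂ := P₂) τ₁) sV v₁
      (β := F.pull (Prod.fst : E × EuclideanSpace ℝ n₂ → E) y) ⟨hx, hh⟩
  · intro x hx
    obtain ⟨g₁, f₁, D₁⟩ := exists_dat h₁ hP₁ hx
    obtain ⟨g₂, f₂, D₂⟩ := exists_dat h₂ hP₂ hx
    exact ⟨_, _, _, fib_pu₂ hX hP₁ hP₂ h₁ h₂ hx D₁ D₂⟩

end two

/-! ### the end statements -/
section final
variable {E G : Type*} [NormedAddCommGroup E] [NormedSpace ℝ E] [FiniteDimensional ℝ E]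
  [NormedAddCommGroup G] [NormedSpace ℝ G] [FiniteDimensional ℝ G]
  {n ι n₁ n₂ ι₁ ι₂ : Type*} [Fintype n] [DecidableEq n] [Fintype ι] [DecidableEq ι]
  [Fintype n₁] [DecidableEq n₁] [Fintype n₂] [DecidableEq n₂]
  [Fintype ι₁] [DecidableEq ι₁] [Fintype ι₂] [DecidableEq ι₂]
  {X : Set E} {P : E → EuclideanSpace ℝ n →L[ℝ] EuclideanSpace ℝ n}
  {W' : E → (ι × Fin 2 → n) → ℝ}
  {P₁ : E → EuclideanSpace ℝ n₁ →L[ℝ] EuclideanSpace ℝ n₁}
  {P₂ : E → EuclideanSpace ℝ n₂ →L[ℝ] EuclideanSpace ℝ n₂}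
  {W₁ : E → (ι₁ × Fin 2 → n₁) → ℝ} {W₂ : E → (ι₂ × Fin 2 → n₂) → ℝ} {r r₁ r₂ d : ℕ}
  {K : Set G} {pr : G → E} {oV : G → Ext G} {oX : E → Ext E} {ρ : ℝ}



/-- **(C0)** for a projection field with orientations of `P` and of `1 - P` -/
theorem c0 [Nonempty ι] [Nonempty ι₁] {W : E → (ι₁ × Fin 2 → n) → ℝ} (h : OR X P W)
    (h' : OR X (fun x => 1 - P x) W') {r : ℕ} {R c₀ : ℝ} {e : E → Ext E}
    (hT : ThomPair volume X P r R c₀ e (thomF P W) (thomF (fun x => 1 - P x) W'))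
    (hne : X.Nonempty) : |c₀| = del (EuclideanSpace ℝ n) * (kGG ι * kGG ι₁) :=
  thomPair_c0 h h' hT hne

end final

/-! ### extension by zero -/
section ext
variable {E G M : Type*} [NormedAddCommGroup E] [NormedSpace ℝ E] [FiniteDimensional ℝ E]
  [NormedAddCommGroup G] [NormedSpace ℝ G] [FiniteDimensional ℝ G]
  [NormedAddCommGroup M] [NormedSpace ℝ M] [FiniteDimensional ℝ M]
  {r d m : ℕ} {k ρ : ℝ} {X : Set E} {T : Set M} {K : Set G} {pT : M → E} {N : M → ℝ}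
  {pu : (M → Ext M) → E → Ext E} {pr : G → E} {Ψ : M → G} {om : G → Ext G}


end ext

end Crest.Agent.R208.LC
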