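import Crest.Agent.R208.T2b

/-! Row 208, block SN (helper900): the spread number.  SN1: comparison of two compactly supported
top forms on `Eu k` (radial homotopy). -/

set_option autoImplicit false
set_option linter.unusedSectionVars false

open MeasureTheory Set Filter Topology Module
open scoped ContDiff
open Crest.Agent.R208.F Crest.Agent.R208.FI Crest.Agent.R208.T

noncomputable section

namespace Crest.Agent.R208.SN

section basic
variable {E F' : Type*} [NormedAddCommGroup E] [NormedSpace ℝ E] [FiniteDimensional ℝ E]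
  [NormedAddCommGroup F'] [NormedSpace ℝ F'] [FiniteDimensional ℝ F']

theorem Tan_univ (x : E) : Tan (univ : Set E) x = ⊤ := by
  refine eq_top_iff.2 fun v _ => ?_
  have h := mem_Tan_of_curve (X := (univ : Set E)) (γ := fun t : ℝ => x + t • v) (v := v) (t := 0)
    (by simpa using ((hasDerivAt_id (0 : ℝ)).smul_const v).const_add x)
    (Eventually.of_forall fun _ => mem_univ _)
  simpa using h



/-- cover lemma for `Eqv` -/
theorem Eqv.of_cover {X U U' : Set E} {a b : E → Ext E} (hU : IsOpen U) (hU' : IsOpen U')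
    (hc : ∀ x ∈ X, x ∈ U ∨ x ∈ U') (h : Eqv (X ∩ U) a b) (h' : Eqv (X ∩ U') a b) : Eqv X a b := by
  refine eqv_iff.2 fun x hx => ?_
  rcases hc x hx with h1 | h1
  · exact eqv_of_open hU h hx h1
  · exact eqv_of_open hU' h' hx h1

/-- cohomologous forms have the same integral -/
theorem J_of_coh {m : ℕ} {X : Set E} {o a b : E → Ext E} (hX : Clo m X) (ho : Ori m X o)
    (ha : Sm X a) (hb : Sm X b) (h : Coh X a b) : J m X o a = J m X o b := by
  obtain ⟨ξ, h1, h2⟩ := h
  have hc : ∀ {c : E → Ext E}, Sm X c → ContinuousOn c X := fun hc x hx =>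
    (hc x hx).continuousAt.continuousWithinAt
  have e1 : J m X o (F.d ξ) = 0 := J_d hX ho fun x hx => (h1 x hx).of_le (by simp)
  have e2 : J m X o (fun x => a x - b x) = J m X o (F.d ξ) := by
    refine J_congr hX fun x hx w hw => ?_
    have h3 := eqv_iff.1 h2 x hx
    have h4 := congrArg (fun c => evA _ m c (fun i => (⟨w i, hw i⟩ : Tan X x))) h3
    simp only [evA_pb] at h4
    exact h4
  rw [J_sub hX ho (hc ha) (hc hb), e1] at e2
  linarith

end basic

section comp
variable {k : ℕ}

/-- the cut off: `0` for `‖a‖ ≤ 1/2`, `1` for `‖a‖ ≥ 1` -/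
structure Cf (κ : Eu k → ℝ) : Prop where
  sm : ContDiff ℝ ∞ κ
  lo : ∀ a, ‖a‖ ≤ 1 / 2 → κ a = 0
  hi : ∀ a, 1 ≤ ‖a‖ → κ a = 1
  nn : ∀ a, 0 ≤ κ a
  le : ∀ a, κ a ≤ 1

/-- radial projection to the sphere of radius 4 -/
def mu (a : Eu k) : Eu k := (4 * ‖a‖⁻¹) • a



/-- the form `κ • μ^* θ` -/
def kf (κ : Eu k → ℝ) (θ : Eu k → Ext (Eu k)) (a : Eu k) : Ext (Eu k) := κ a • F.pull mu θ a



/-- the map `M` -/
def gM (κ : Eu k → ℝ) (a : Eu k) : ℝ := (1 - κ a) + κ a * (4 * ‖a‖⁻¹)


/-- the homotopy -/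
def hM (κ : Eu k → ℝ) (p : Eu k × ℝ) : Eu k :=
  ((1 - Real.smoothTransition p.2) + Real.smoothTransition p.2 * gM κ p.1) • p.1





theorem hasCompactSupport_of_norm {Y : Type*} [NormedAddCommGroup Y] {g : Eu k → Y} {R : ℝ}
    (h : ∀ a, R < ‖a‖ → g a = 0) : HasCompactSupport g := by
  refine HasCompactSupport.of_support_subset_isCompact (isCompact_closedBall (0 : Eu k) R) ?_
  intro a ha
  rw [mem_closedBall_zero_iff]
  by_contra hcon
  exact ha (h a (not_le.1 hcon))



theorem integrable_top {t : Eu k → Ext (Eu k)} (hc : Continuous t) {R : ℝ}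
    (h : ∀ a, R < ‖a‖ → t a = 0) : Integrable fun a => top k (t a) := by
  refine Continuous.integrable_of_hasCompactSupport (continuous_top.comp hc) ?_
  exact hasCompactSupport_of_norm (R := R) fun a ha => by
    show top k (t a) = 0
    rw [h a ha, map_zero]


end comp

end Crest.Agent.R208.SN
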