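import Crest.Agent.R208.TU5
import Crest.Agent.R208.AK11
import Crest.Agent.R208.EX10

-- ▼ part R208/TU6
section

/-!
Row 208, block TU (helper10), part TU6: **the instance of `LinK`**: the chain map of helper952
(antiperiodic part `j ν = (w₁, w₂) ↦ (a, -b, -a, b)`, periodic part `w ↦ (u, -u, u, -u)`, minus the
zeroth entry) is injective on the fibres of `P₂ ⊕ PN`.
-/

set_option autoImplicit false
set_option linter.unusedSectionVars false
set_option linter.unusedVariables false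

open Set Filter Topology MeasureTheory Module
open scoped ContDiff RealInnerProductSpace Interval
open Crest.GeometryTopology.Submanifold
open Crest.Agent.R241.DDefs
open Crest.Agent.R241.D2
open Crest.Agent.R241.D3c
open Crest.Agent.R208.NN (V0 qq Wt nuP)
open Crest.Agent.R208.FI (Tan Sub Clo PField Tot)
open Crest.Agent.R208.KG (OK N2 N3 N4 nest4 nest2 idx)
open Crest.Agent.R208.AK (HC PP PP_eq Lall LP LA uN zan mkZ cP)

noncomputable section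

namespace Crest.Agent.R208.TU

variable {n N k Kn : ℕ} {κ : ℝ} {S : Set (Euc N)} {G : Geo n N κ S} {z : Euc N × Euc N}
  {δ ε c : ℝ} {PN : Euc N × Euc N → Wt N Kn →L[ℝ] Wt N Kn}



variable {H₂ : Type*} [NormedAddCommGroup H₂] [InnerProductSpace ℝ H₂] [FiniteDimensional ℝ H₂]
  {P₂ : Euc N × Euc N → H₂ →L[ℝ] H₂} {j : H₂ →L[ℝ] Wt N Kn × Wt N Kn}





/-- the energy hypothesis of `gap_En` from 952's `HC` -/
theorem HC.en (hO : OK G 4 ε) (hc0 : 0 < c) (hc : HC G ε c) : ∀ κ' ∈ KG.Km G 4, ∀ i,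
    MS.En (KG.F G 4 ε κ' 0) ≤ 4 * Real.pi - c / 4 * ‖κ'.2 i - κ'.2 (idx 4 0)‖ ^ 2 := by
  intro κ' hκ' i
  have h1 := hc κ' hκ'
  have h2 := KG.norm_sub_le_jsq κ' i
  push_cast at h1 h2
  have h3 : c / 4 * ‖κ'.2 i - κ'.2 (idx 4 0)‖ ^ 2 ≤ c / 4 * (4 * KG.jsq κ') := by gcongr
  have h4 : (4 : ℝ) ^ 2 * Real.pi / 4 = 4 * Real.pi := by ring
  rw [h4] at h1
  linarith

end Crest.Agent.R208.TU
end
end

-- ▼ part R208/TU7
section

/-!
Row 208, block TU (helper10), part TU7: the rounded loops over `N4 h` as families of loops; the cut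
off function on `N4 h` (zero near the diagonal, one off the tube).
-/

set_option autoImplicit false
set_option linter.unusedSectionVars false
set_option linter.unusedVariables false

open Set Filter Topology MeasureTheory Module
open scoped ContDiff RealInnerProductSpace Interval
open Crest.GeometryTopology.Submanifold
open Crest.Agent.R241.DDefs
open Crest.Agent.R241.D2
open Crest.Agent.R241.D3c
open Crest.Agent.R208.NN (V0 qq Wt nuP)
open Crest.Agent.R208.FI (Tan Sub Clo PField Tot)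
open Crest.Agent.R208.KG (OK N2 N3 N4 nest4 nest2 idx)
open Crest.Agent.R208.AK (HC PP PP_eq Lall LP LA uN zan mkZ cP nrm norm_nrm nrm_self contDiffAt_nrm
  norm_sq_add add_ne_zero' kap V0_inner)

noncomputable section

namespace Crest.Agent.R208.TU

variable {n N k : ℕ} {κ : ℝ} {S : Set (Euc N)} {G : Geo n N κ S} {ε : ℝ}

/-! ### the loops -/

/-- the rounded loops over `N4 h` (period `2π`) -/
def FK (G : Geo n N κ S) (ε τ : ℝ) (z : (((Euc N × Euc N) × Euc N) × Euc N) × Euc N) (t : ℝ) :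
    Euc N := KG.F G 4 ε (nest4 z) τ t


theorem lf_N4 (hO : OK G 4 ε) (h : GT.Bla G k) {τ : ℝ} (hτ : τ ∈ Icc (0 : ℝ) 1) :
    EX.LF S (N4 h) (FK G ε τ) where
  smooth z hz t := by
    have h1 : ContDiffAt ℝ ∞ (fun q : ((((Euc N × Euc N) × Euc N) × Euc N) × Euc N) × ℝ =>
        (nest4 q.1, τ, q.2)) (z, t) :=
      (KG.contDiff_nest4.contDiffAt.comp (z, t) contDiffAt_fst).prodMk
        (contDiffAt_const.prodMk contDiffAt_snd)
    exact ContDiffAt.comp (g := fun q : (Euc N × (Fin 4 → Euc N)) × ℝ × ℝ =>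
      KG.F G 4 ε q.1 q.2.1 q.2.2) (z, t) (KG.F_smooth hO (KG.nest4_mem h hz) hτ t) h1
  per z _ t := KG.F_per t
  mem z hz t := KG.F_mem hO (KG.nest4_mem h hz) hτ t


lemma st_mem (τ : ℝ) : Real.smoothTransition τ ∈ Icc (0 : ℝ) 1 :=
  ⟨Real.smoothTransition.nonneg τ, Real.smoothTransition.le_one τ⟩

/-- the deformation to the flat family -/
theorem lf_N4_hom (hO : OK G 4 ε) (h : GT.Bla G k) :
    EX.LF S (N4 h ×ˢ (univ : Set ℝ)) (fun q => FK G ε (Real.smoothTransition q.2) q.1) where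
  smooth z hz t := by
    have h0 : ContDiffAt ℝ ∞ (fun q : (((((Euc N × Euc N) × Euc N) × Euc N) × Euc N) × ℝ) × ℝ =>
        Real.smoothTransition q.1.2) (z, t) :=
      ContDiffAt.comp (g := Real.smoothTransition) (z, t)
        Real.smoothTransition.contDiff.contDiffAt (by fun_prop)
    have h1 : ContDiffAt ℝ ∞ (fun q : (((((Euc N × Euc N) × Euc N) × Euc N) × Euc N) × ℝ) × ℝ =>
        (nest4 q.1.1, Real.smoothTransition q.1.2, q.2)) (z, t) :=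
      (ContDiffAt.comp (g := nest4) (z, t) KG.contDiff_nest4.contDiffAt (by fun_prop)).prodMk
        (h0.prodMk contDiffAt_snd)
    exact ContDiffAt.comp (g := fun q : (Euc N × (Fin 4 → Euc N)) × ℝ × ℝ =>
      KG.F G 4 ε q.1 q.2.1 q.2.2) (z, t)
      (KG.F_smooth hO (KG.nest4_mem h hz.1) (st_mem z.2) t) h1
  per z _ t := KG.F_per t
  mem z hz t := KG.F_mem hO (KG.nest4_mem h hz.1) (st_mem z.2) t


/-! ### the distance from the diagonal -/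

/-- `Σ ‖v_i - v_0‖²` -/
def ssq (z : (((Euc N × Euc N) × Euc N) × Euc N) × Euc N) : ℝ :=
  ∑ i, ‖(nest4 z).2 i - (nest4 z).2 0‖ ^ 2

theorem contDiff_ssq : ContDiff ℝ ∞
    (ssq : (((Euc N × Euc N) × Euc N) × Euc N) × Euc N → ℝ) := by
  unfold ssq
  refine ContDiff.sum fun i _ => ?_
  have h1 : ∀ i, ContDiff ℝ ∞
      (fun z : (((Euc N × Euc N) × Euc N) × Euc N) × Euc N => (nest4 z).2 i) := fun i =>
    contDiff_pi.1 (contDiff_snd.comp KG.contDiff_nest4) i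
  exact (contDiff_norm_sq ℝ).comp ((h1 i).sub (h1 0))


/-- `‖nrm (v + u) - v‖ ≤ ‖u‖` -/
lemma norm_nrm_sub_sq {v u : Euc N} (hv : ‖v‖ = 1) (hu : ⟪u, v⟫ = 0) :
    ‖nrm (v + u) - v‖ ^ 2 ≤ ‖u‖ ^ 2 := by
  have hne := add_ne_zero' hv hu
  have h1 := inner_eq hv (norm_nrm hne)
  rw [inner_nrm hv hu] at h1
  have h2 := norm_sq_add hv hu
  set q := ‖v + u‖ with hq
  have hq0 : 0 < q := norm_pos_iff.2 hne
  have h3 : ‖nrm (v + u) - v‖ ^ 2 = 2 - 2 * q⁻¹ := by linarith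
  have h4 : ‖u‖ ^ 2 = q ^ 2 - 1 := by linarith
  rw [h3, h4]
  have h5 : (q ^ 2 - 1) - (2 - 2 * q⁻¹) = (q - 1) ^ 2 * (q + 2) * q⁻¹ := by
    field_simp; ring
  have h6 : 0 ≤ (q - 1) ^ 2 * (q + 2) * q⁻¹ := by positivity
  linarith

variable {H₁ H₂ : Type*} [NormedAddCommGroup H₁] [InnerProductSpace ℝ H₁] [FiniteDimensional ℝ H₁]
  [NormedAddCommGroup H₂] [InnerProductSpace ℝ H₂] [FiniteDimensional ℝ H₂]
  {P₁ : Euc N × Euc N → H₁ →L[ℝ] H₁} {P₂ : Euc N × Euc N → H₂ →L[ℝ] H₂}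
  {h : GT.Bla G k} {Lz : Euc N × Euc N → (H₂ × H₁) →L[ℝ] (Fin 4 → Euc N)}
  {L2 : Euc N × Euc N → H₁ →L[ℝ] (Fin 2 → Euc N)} {r₁ r₂ : ℕ}

theorem LinK.ssq_le (hL : LinK h P₂ P₁ Lz) {x : ((Euc N × Euc N) × H₂) × H₁}
    (hx : x ∈ TP.TT (L.US G) P₂ P₁) :
    ssq (Psi Lz x) ≤ 4 * ‖Lz x.1.1 (x.1.2, x.2)‖ ^ 2 := by
  have hz := (mem_TT.1 hx).1
  have key : ∀ i, ‖(nest4 (Psi Lz x)).2 i - (nest4 (Psi Lz x)).2 0‖ ^ 2 ≤
      ‖Lz x.1.1 (x.1.2, x.2)‖ ^ 2 := by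
    intro i
    have e0 : (nest4 (Psi Lz x)).2 0 = x.1.1.2 := rfl
    have ei : (nest4 (Psi Lz x)).2 i = nrm (x.1.1.2 + Lz x.1.1 (x.1.2, x.2) i) := by
      rw [hL.nest4_Psi hx]; rfl
    rw [e0, ei]
    refine (norm_nrm_sub_sq hz.2 (V0_inner (hL.Li_mem hx i))).trans ?_
    exact pow_le_pow_left₀ (norm_nonneg _) (norm_le_pi_norm _ i) 2
  unfold ssq
  refine (Finset.sum_le_sum fun i _ => key i).trans ?_
  simp

theorem LinK.exists_opbound (hS : IsCompact S) (hL : LinK h P₂ P₁ Lz) :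
    ∃ M : ℝ, 0 < M ∧ ∀ z ∈ L.US G, ‖Lz z‖ ≤ M := by
  obtain ⟨M, hM⟩ := (LB.isCompact_US (G := G) hS).exists_bound_of_continuousOn
    (f := Lz) (fun x hx => (hL.smooth x hx).continuousAt.continuousWithinAt)
  exact ⟨max M 1, lt_max_of_lt_right one_pos, fun z hz => (hM z hz).trans (le_max_left _ _)⟩

/-- **the cut off** on `N4 h` -/
theorem LinK.exists_cut (hS : IsCompact S) (hL : LinK h P₂ P₁ Lz) (hP₂ : PField (L.US G) r₂ P₂)
    (hP₁ : PField (L.US G) r₁ P₁) (hr : r₁ + r₂ + 3 = 3 * k) {ρ : ℝ} (hρ : 0 < ρ) :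
    ∃ (c : (((Euc N × Euc N) × Euc N) × Euc N) × Euc N → ℝ) (ρ' b : ℝ), 0 < ρ' ∧ ρ' < ρ ∧ 0 < b ∧
      ContDiff ℝ ∞ c ∧ (∀ z, 0 ≤ c z) ∧ (∀ z, c z ≤ 1) ∧
      (∀ z ∈ N4 h, c z < 1 → ∃ x ∈ TP.TT (L.US G) P₂ P₁, ‖x.1.2‖ < ρ ∧ ‖x.2‖ < ρ ∧
        Psi Lz x = z) ∧
      (∀ x ∈ TP.TT (L.US G) P₂ P₁, ‖x.1.2‖ < ρ' → ‖x.2‖ < ρ' → c (Psi Lz x) = 0) ∧
      (∀ z, 0 < c z → ∃ i, b < ‖(nest4 z).2 i - (nest4 z).2 0‖ ^ 2) := by
  obtain ⟨c₁, hc₁, hgap⟩ := hL.gap_sum hS hP₂ hP₁ hr hρ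
  obtain ⟨M, hM, hMb⟩ := hL.exists_opbound hS
  set ρ' := min (ρ / 2) (Real.sqrt (c₁ / 16) / M) with hρ'
  have hs0 : 0 < Real.sqrt (c₁ / 16) := Real.sqrt_pos.2 (by positivity)
  have hρ'0 : 0 < ρ' := lt_min (by positivity) (by positivity)
  refine ⟨fun z => Real.smoothTransition (4 * ssq z / c₁ - 1), ρ', c₁ / 16, hρ'0,
    (min_le_left _ _).trans_lt (by linarith), by positivity, ?_, fun z => (st_mem _).1,
    fun z => (st_mem _).2, fun z hz hc => ?_, fun x hx h2 h1 => ?_, fun z hc => ?_⟩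
  · exact Real.smoothTransition.contDiff.comp
      (((contDiff_const.mul contDiff_ssq).div_const c₁).sub contDiff_const)
  · refine hgap z hz ?_
    by_contra hcon
    push Not at hcon
    have h1 : 1 ≤ 4 * ssq z / c₁ - 1 := by
      have : 2 ≤ 4 * ssq z / c₁ := by
        rw [le_div_iff₀ hc₁]
        change c₁ ≤ ssq z at hcon
        linarith
      linarith
    have h2 : Real.smoothTransition (4 * ssq z / c₁ - 1) < 1 := hc
    rw [Real.smoothTransition.one_of_one_le h1] at h2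
    exact lt_irrefl _ h2
  · have hz := (mem_TT.1 hx).1
    refine Real.smoothTransition.zero_of_nonpos ?_
    have e1 : ‖((x.1.2, x.2) : H₂ × H₁)‖ ≤ ρ' := by
      rw [Prod.norm_def]
      exact max_le h2.le h1.le
    have e2 : ‖Lz x.1.1 (x.1.2, x.2)‖ ≤ Real.sqrt (c₁ / 16) := by
      refine (ContinuousLinearMap.le_opNorm _ _).trans ?_
      calc ‖Lz x.1.1‖ * ‖((x.1.2, x.2) : H₂ × H₁)‖ ≤ M * (Real.sqrt (c₁ / 16) / M) := by
            refine mul_le_mul (hMb _ hz) (e1.trans (min_le_right _ _)) (norm_nonneg _) hM.le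
        _ = Real.sqrt (c₁ / 16) := by field_simp
    have e3 : ‖Lz x.1.1 (x.1.2, x.2)‖ ^ 2 ≤ c₁ / 16 := by
      have := pow_le_pow_left₀ (norm_nonneg _) e2 2
      rwa [Real.sq_sqrt (by positivity)] at this
    have e4 := hL.ssq_le hx
    have e5 : 4 * ssq (Psi Lz x) / c₁ ≤ 1 := by
      rw [div_le_one hc₁]
      linarith
    linarith
  · by_contra hcon
    push Not at hcon
    have h1 : ssq z ≤ c₁ / 4 := by
      unfold ssq
      refine (Finset.sum_le_sum fun i _ => hcon i).trans ?_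
      simp
      linarith
    have h2 : 4 * ssq z / c₁ - 1 ≤ 0 := by
      have : 4 * ssq z / c₁ ≤ 1 := by
        rw [div_le_one hc₁]
        linarith
      linarith
    have h3 : Real.smoothTransition (4 * ssq z / c₁ - 1) = 0 :=
      Real.smoothTransition.zero_of_nonpos h2
    have h4 : (0 : ℝ) < Real.smoothTransition (4 * ssq z / c₁ - 1) := hc
    rw [h3] at h4
    exact lt_irrefl _ h4

/-- **the cut off** on `N2 h` -/
theorem LinK2.exists_cut (hS : IsCompact S) (hL : LinK2 h P₁ L2)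
    (hP₁ : PField (L.US G) r₁ P₁) (hr : r₁ + 1 = k) {ρ : ℝ} (hρ : 0 < ρ) :
    ∃ (c : (Euc N × Euc N) × Euc N → ℝ) (ρ' b : ℝ), 0 < ρ' ∧ ρ' < ρ ∧ 0 < b ∧
      ContDiff ℝ ∞ c ∧ (∀ z, 0 ≤ c z) ∧ (∀ z, c z ≤ 1) ∧
      (∀ z ∈ N2 h, c z < 1 → ∃ x ∈ Tot (L.US G) P₁, ‖x.2‖ < ρ ∧ Psi2 L2 x = z) ∧
      (∀ x ∈ Tot (L.US G) P₁, ‖x.2‖ < ρ' → c (Psi2 L2 x) = 0) ∧
      (∀ z, 0 < c z → b < ‖z.2 - z.1.2‖ ^ 2) := by
  obtain ⟨c₁, hc₁, hgap⟩ := hL.gap hS hP₁ hr hρ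
  obtain ⟨M', hM'⟩ := (LB.isCompact_US (G := G) hS).exists_bound_of_continuousOn
    (f := L2) (fun x hx => (hL.smooth x hx).continuousAt.continuousWithinAt)
  set M := max M' 1 with hMd
  have hM : 0 < M := lt_max_of_lt_right one_pos
  have hMb : ∀ z ∈ L.US G, ‖L2 z‖ ≤ M := fun z hz => (hM' z hz).trans (le_max_left _ _)
  set ρ' := min (ρ / 2) (Real.sqrt (c₁ / 4) / M) with hρ'
  have hs0 : 0 < Real.sqrt (c₁ / 4) := Real.sqrt_pos.2 (by positivity)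
  have hρ'0 : 0 < ρ' := lt_min (by positivity) (by positivity)
  refine ⟨fun z => Real.smoothTransition (4 * ‖z.2 - z.1.2‖ ^ 2 / c₁ - 1), ρ', c₁ / 4, hρ'0,
    (min_le_left _ _).trans_lt (by linarith), by positivity, ?_, fun z => (st_mem _).1,
    fun z => (st_mem _).2, fun z hz hc => ?_, fun x hx h1 => ?_, fun z hc => ?_⟩
  · have h1 : ContDiff ℝ ∞ (fun z : (Euc N × Euc N) × Euc N => ‖z.2 - z.1.2‖ ^ 2) :=
      (contDiff_norm_sq ℝ).comp (by fun_prop)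
    exact Real.smoothTransition.contDiff.comp
      (((contDiff_const.mul h1).div_const c₁).sub contDiff_const)
  · refine hgap z hz ?_
    by_contra hcon
    push Not at hcon
    have h1 : 1 ≤ 4 * ‖z.2 - z.1.2‖ ^ 2 / c₁ - 1 := by
      have : 2 ≤ 4 * ‖z.2 - z.1.2‖ ^ 2 / c₁ := by
        rw [le_div_iff₀ hc₁]
        linarith
      linarith
    have h2 : Real.smoothTransition (4 * ‖z.2 - z.1.2‖ ^ 2 / c₁ - 1) < 1 := hc
    rw [Real.smoothTransition.one_of_one_le h1] at h2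
    exact lt_irrefl _ h2
  · have hz : x.1 ∈ L.US G := hx.1
    refine Real.smoothTransition.zero_of_nonpos ?_
    have e2 : ‖L2 x.1 x.2‖ ≤ Real.sqrt (c₁ / 4) := by
      refine (ContinuousLinearMap.le_opNorm _ _).trans ?_
      calc ‖L2 x.1‖ * ‖x.2‖ ≤ M * (Real.sqrt (c₁ / 4) / M) := by
            refine mul_le_mul (hMb _ hz) (h1.le.trans (min_le_right _ _)) (norm_nonneg _) hM.le
        _ = Real.sqrt (c₁ / 4) := by field_simp
    have e3 : ‖L2 x.1 x.2‖ ^ 2 ≤ c₁ / 4 := by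
      have := pow_le_pow_left₀ (norm_nonneg _) e2 2
      rwa [Real.sq_sqrt (by positivity)] at this
    have e4 : ‖(Psi2 L2 x).2 - (Psi2 L2 x).1.2‖ ^ 2 ≤ ‖L2 x.1 x.2‖ ^ 2 := by
      refine (norm_nrm_sub_sq hz.2 (V0_inner (hL.L_mem hx 1))).trans ?_
      exact pow_le_pow_left₀ (norm_nonneg _) (norm_le_pi_norm _ 1) 2
    have e5 : 4 * ‖(Psi2 L2 x).2 - (Psi2 L2 x).1.2‖ ^ 2 / c₁ ≤ 1 := by
      rw [div_le_one hc₁]
      linarith
    linarith
  · by_contra hcon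
    push Not at hcon
    have h2 : 4 * ‖z.2 - z.1.2‖ ^ 2 / c₁ - 1 ≤ 0 := by
      have : 4 * ‖z.2 - z.1.2‖ ^ 2 / c₁ ≤ 1 := by
        rw [div_le_one hc₁]
        linarith
      linarith
    have h3 : Real.smoothTransition (4 * ‖z.2 - z.1.2‖ ^ 2 / c₁ - 1) = 0 :=
      Real.smoothTransition.zero_of_nonpos h2
    have h4 : (0 : ℝ) < Real.smoothTransition (4 * ‖z.2 - z.1.2‖ ^ 2 / c₁ - 1) := hc
    rw [h3] at h4
    exact lt_irrefl _ h4

end Crest.Agent.R208.TU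
end
end

-- ▼ part R208/TU8

/-!
Row 208, block TU (helper10), part TU8: the relative form on `N4 h` and its pull back along the
tube, in the format of helper125's localisation; comparison with the flat family.
-/

set_option autoImplicit false
set_option linter.unusedSectionVars false
set_option linter.unusedVariables false

open Set Filter Topology MeasureTheory Module
open scoped ContDiff RealInnerProductSpace Interval
open Crest.GeometryTopology.Submanifold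
open Crest.Agent.R241.DDefs
open Crest.Agent.R241.D2
open Crest.Agent.R241.D3c
open Crest.Agent.R208.F Crest.Agent.R208.FI Crest.Agent.R208.CW Crest.Agent.R208.T
open Crest.Agent.R208.MS (En)
open Crest.Agent.R208.KG (OK N2 N3 N4 nest4 nest2 idx)
open Crest.Agent.R208.EX
open Crest.Agent.R208.VC (rsL rsL_apply)

noncomputable section

namespace Crest.Agent.R208.TU

/-! ### trimming -/

section trim
variable {E : Type} [NormedAddCommGroup E] [NormedSpace ℝ E] [FiniteDimensional ℝ E]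
  {X : Set E} {c : E → ℝ} {om : E → Ext E}

/-- make a form vanish literally where `c ≥ 15/16` -/
def trim (c : E → ℝ) (om : E → Ext E) (x : E) : Ext E :=
  (1 - Real.smoothTransition (16 * c x - 14)) • om x

theorem trim_zero {x : E} (hc : 15 / 16 ≤ c x) : trim c om x = 0 := by
  rw [trim, Real.smoothTransition.one_of_one_le (by linarith), sub_self, zero_smul]

theorem trim_eq {x : E} (hc : c x ≤ 7 / 8) : trim c om x = om x := by
  rw [trim, Real.smoothTransition.zero_of_nonpos (by linarith), sub_zero, one_smul]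

theorem trim_eqv (h : ∀ x ∈ X, 3 / 4 < c x → rsL X x (om x) = 0) : Eqv X (trim c om) om := by
  refine eqv_iff.2 fun x hx => ?_
  rcases le_or_gt (c x) (3 / 4) with h0 | h0
  · rw [trim_eq (by linarith)]
  · have h1 := h x hx h0
    rw [rsL_apply] at h1
    rw [trim, map_smul, h1, smul_zero]

theorem sm_trim (hc : ∀ x ∈ X, ContDiffAt ℝ ∞ c x) (hs : Sm X om) : Sm X (trim c om) := by
  intro x hx
  have h1 : ContDiffAt ℝ ∞ (fun x => 1 - Real.smoothTransition (16 * c x - 14)) x := by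
    refine contDiffAt_const.sub ?_
    exact ContDiffAt.comp (g := Real.smoothTransition) x
      Real.smoothTransition.contDiff.contDiffAt
      ((contDiffAt_const.mul (hc x hx)).sub contDiffAt_const)
  exact h1.smul (hs x hx)

end trim

/-! ### comparison of the forms of homotopic loops -/

section vs
variable {N m : ℕ} {E : Type} [NormedAddCommGroup E] [NormedSpace ℝ E] [FiniteDimensional ℝ E]
  {X : Set E} {D : ED N} {α : E → Ext E} {fh : E × ℝ → ℝ → Euc N}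

/-- homotopic families have cohomologous forms -/
theorem vs_homotopy (hD : D.OK) (hX : Sub m X) (hα : Sm X α) (hα1 : Hom 1 α)
    (hf : LF D.S (X ×ˢ (univ : Set ℝ)) fh) :
    Coh X (D.vs α fun y => fh (y, 1)) (D.vs α fun y => fh (y, 0)) := by
  have hg : ∀ t : ℝ, LF D.S X (fun y => fh (y, t)) := fun t =>
    hf.comp (g := fun y : E => ((y, t) : E × ℝ))
      (fun y _ => contDiffAt_id.prodMk contDiffAt_const) fun y hy => ⟨hy, mem_univ _⟩
  have hc0 : ∀ y ∈ X, ContDiffAt ℝ ∞ (fun _ : E => (0 : ℝ)) y := fun _ _ => contDiffAt_const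
  obtain ⟨Om0, h0⟩ := ED.exists_rel hD hX hα hα1 (hg 0) hc0 fun _ _ h => absurd h (lt_irrefl _)
  obtain ⟨Om1, h1⟩ := ED.exists_rel hD hX hα hα1 (hg 1) hc0 fun _ _ h => absurd h (lt_irrefl _)
  have h2 : Coh X Om1 Om0 := ED.IsRel.coh (I := univ) (ch := fun _ => 0) hD hX hα hα1 isOpen_univ
    (subset_univ _) hf (fun _ _ => contDiffAt_const) (fun _ _ h => absurd h (lt_irrefl _)) h0 h1
  exact (h1.coh_vs hc0).symm.trans (h2.trans (h0.coh_vs hc0))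

end vs

/-! ### the forms on `N4 h` and on the total space -/

variable {n N k d r : ℕ} {κ : ℝ} {S : Set (Euc N)} {G : Geo n N κ S} {ε : ℝ}
  {H₁ H₂ : Type} [NormedAddCommGroup H₁] [InnerProductSpace ℝ H₁] [FiniteDimensional ℝ H₁]
  [NormedAddCommGroup H₂] [InnerProductSpace ℝ H₂] [FiniteDimensional ℝ H₂]
  {P₁ : Euc N × Euc N → H₁ →L[ℝ] H₁} {P₂ : Euc N × Euc N → H₂ →L[ℝ] H₂}
  {h : GT.Bla G k} {Lz : Euc N × Euc N → (H₂ × H₁) →L[ℝ] (Fin 4 → Euc N)} {r₁ r₂ : ℕ}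

/-- base point on `N4` -/
def bN (z : (((Euc N × Euc N) × Euc N) × Euc N) × Euc N) : Euc N × Euc N := z.1.1.1

/-- base point on the total space -/
def bT (x : ((Euc N × Euc N) × H₂) × H₁) : Euc N × Euc N := x.1.1

theorem smap_bN : SMap (N4 h) (L.US G) bN :=
  ⟨fun z _ => (contDiffAt_fst.comp z (contDiffAt_fst.comp z contDiffAt_fst)),
    fun _ hz => hz.1.1.1.1.1.1⟩

theorem smap_bT : SMap (TP.TT (L.US G) P₂ P₁) (L.US G) bT :=
  ⟨fun x _ => contDiffAt_fst.comp x contDiffAt_fst, fun _ hx => (mem_TT.1 hx).1⟩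

/-- **the form of the rounded loops is cohomologous to the form of the flat loops** -/
theorem vs_flat {D : ED N} (hD : D.OK) (hDS : D.S = S) (hO : OK G 4 ε) (h : GT.Bla G k) {m : ℕ}
    (hX : Sub m (N4 h)) {α : _ → Ext ((((Euc N × Euc N) × Euc N) × Euc N) × Euc N)}
    (hα : Sm (N4 h) α) (hα1 : Hom 1 α) :
    Coh (N4 h) (D.vs α (FK G ε 1)) (D.vs α (FK G ε 0)) := by
  have hf : LF D.S (N4 h ×ˢ (univ : Set ℝ))
      (fun q => FK G ε (Real.smoothTransition q.2) q.1) := by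
    rw [hDS]; exact lf_N4_hom hO h
  have h1 := vs_homotopy hD hX hα hα1 hf
  simp only [Real.smoothTransition.zero, Real.smoothTransition.one] at h1
  exact h1

/-- the pair of forms of helper125's localisation -/
structure Pair (D : ED N) (h : GT.Bla G k) (P₂ : Euc N × Euc N → H₂ →L[ℝ] H₂)
    (P₁ : Euc N × Euc N → H₁ →L[ℝ] H₁) (Lz : Euc N × Euc N → (H₂ × H₁) →L[ℝ] (Fin 4 → Euc N))
    (ε : ℝ) (c : (((Euc N × Euc N) × Euc N) × Euc N) × Euc N → ℝ) (ρ ρ₁ : ℝ)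
    (α : Euc N × Euc N → Ext (Euc N × Euc N))
    (om : (((Euc N × Euc N) × Euc N) × Euc N) × Euc N →
      Ext ((((Euc N × Euc N) × Euc N) × Euc N) × Euc N))
    (V : ((Euc N × Euc N) × H₂) × H₁ → Ext (((Euc N × Euc N) × H₂) × H₁)) : Prop where
  rel : D.IsRel (N4 h) (F.pull bN α) (FK G ε 0) c om
  off : ∀ z ∈ N4 h, z ∉ Psi Lz '' {x | x ∈ TP.TT (L.US G) P₂ P₁ ∧ ‖x.1.2‖ < ρ ∧ ‖x.2‖ < ρ} →
    om z = 0
  relV : D.IsRel (TP.TT (L.US G) P₂ P₁) (F.pull bT α) (fun x => FK G ε 0 (Psi Lz x))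
    (fun x => c (Psi Lz x)) V
  eqV : ∀ x ∈ TP.TT (L.US G) P₂ P₁, V x = F.pull (Psi Lz) om x
  offV : ∀ x ∈ TP.TT (L.US G) P₂ P₁, ¬ (‖x.1.2‖ < ρ ∧ ‖x.2‖ < ρ) → V x = 0
  cv : TP.CV (L.US G) P₂ P₁ ρ₁ V
  flat : Coh (N4 h) om (D.vs (F.pull bN α) (FK G ε 1))

/-- cut off in the fibre directions -/
def bmp (ρ ρ₁ : ℝ) (x : ((Euc N × Euc N) × H₂) × H₁) : ℝ :=
  (1 - Real.smoothTransition ((‖x.1.2‖ ^ 2 - ρ ^ 2) / (ρ₁ ^ 2 - ρ ^ 2))) *
    (1 - Real.smoothTransition ((‖x.2‖ ^ 2 - ρ ^ 2) / (ρ₁ ^ 2 - ρ ^ 2)))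

theorem contDiff_bmp (ρ ρ₁ : ℝ) : ContDiff ℝ ∞
    (bmp ρ ρ₁ : ((Euc N × Euc N) × H₂) × H₁ → ℝ) := by
  have a1 : ContDiff ℝ ∞ (fun x : ((Euc N × Euc N) × H₂) × H₁ => ‖x.1.2‖ ^ 2) :=
    (contDiff_norm_sq ℝ).comp (contDiff_snd.comp contDiff_fst)
  have a2 : ContDiff ℝ ∞ (fun x : ((Euc N × Euc N) × H₂) × H₁ => ‖x.2‖ ^ 2) :=
    (contDiff_norm_sq ℝ).comp contDiff_snd
  unfold bmp
  exact (contDiff_const.sub (Real.smoothTransition.contDiff.comp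
    ((a1.sub contDiff_const).div_const _))).mul
    (contDiff_const.sub (Real.smoothTransition.contDiff.comp
    ((a2.sub contDiff_const).div_const _)))

variable {ρ ρ₁ : ℝ}

theorem bmp_one (hρ : 0 < ρ) (h1 : ρ < ρ₁) {x : ((Euc N × Euc N) × H₂) × H₁}
    (h2 : ‖x.1.2‖ ≤ ρ) (h3 : ‖x.2‖ ≤ ρ) : bmp ρ ρ₁ x = 1 := by
  have e : 0 < ρ₁ ^ 2 - ρ ^ 2 := by nlinarith
  have k : ∀ s : ℝ, 0 ≤ s → s ≤ ρ → (s ^ 2 - ρ ^ 2) / (ρ₁ ^ 2 - ρ ^ 2) ≤ 0 := by
    intro s hs hs'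
    refine div_nonpos_of_nonpos_of_nonneg ?_ e.le
    nlinarith
  rw [bmp, Real.smoothTransition.zero_of_nonpos (k _ (norm_nonneg _) h2),
    Real.smoothTransition.zero_of_nonpos (k _ (norm_nonneg _) h3)]
  norm_num

theorem bmp_zero (hρ : 0 < ρ) (h1 : ρ < ρ₁) {x : ((Euc N × Euc N) × H₂) × H₁}
    (h2 : ρ₁ ≤ ‖x.1.2‖ ∨ ρ₁ ≤ ‖x.2‖) : bmp ρ ρ₁ x = 0 := by
  have e : 0 < ρ₁ ^ 2 - ρ ^ 2 := by nlinarith
  have k : ∀ s : ℝ, ρ₁ ≤ s → 1 ≤ (s ^ 2 - ρ ^ 2) / (ρ₁ ^ 2 - ρ ^ 2) := by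
    intro s hs
    rw [le_div_iff₀ e]
    nlinarith
  rcases h2 with h2 | h2
  · rw [bmp, Real.smoothTransition.one_of_one_le (k _ h2), sub_self, zero_mul]
  · rw [bmp, Real.smoothTransition.one_of_one_le (k _ h2), sub_self, mul_zero]

/-- **the pair of forms** for a cut off function as in `exists_cut` -/
theorem LinK.exists_pair (hL : LinK h P₂ P₁ Lz) (hd : d + 1 = 2 * n) (hr : r + 1 = k)
    (hP₂ : PField (L.US G) r₂ P₂) (hP₁ : PField (L.US G) r₁ P₁) (hO : OK G 4 ε)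
    {D : ED N} (hD : D.OK) (hDS : D.S = S)
    {c : (((Euc N × Euc N) × Euc N) × Euc N) × Euc N → ℝ} (hρ : 0 < ρ) (hρ₁ : ρ < ρ₁)
    (hc : ContDiff ℝ ∞ c) (hc1 : ∀ z, c z ≤ 1)
    (hct : ∀ z ∈ N4 h, c z < 1 → ∃ x ∈ TP.TT (L.US G) P₂ P₁, ‖x.1.2‖ < ρ ∧ ‖x.2‖ < ρ ∧
      Psi Lz x = z)
    (hcE : ∀ z ∈ N4 h, 0 < c z → En (FK G ε 0 z) ≤ D.B)
    {α : Euc N × Euc N → Ext (Euc N × Euc N)} (hα : Sm (L.US G) α) (hα1 : Hom 1 α) :
    ∃ om V, Pair D h P₂ P₁ Lz ε c ρ ρ₁ α om V := by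
  have hX : Sub _ (N4 h) := (clo_N4 h hr hd).sub
  have hZ := sub_TT h hd hP₂ hP₁
  have hb : SMap (N4 h) (L.US G) bN := smap_bN
  have hbT : SMap (TP.TT (L.US G) P₂ P₁) (L.US G) bT := smap_bT
  have hαN := hα.pull hb
  have hαN1 : Hom 1 (F.pull bN α) := hα1.pull
  have hαT := hα.pull hbT
  have hαT1 : Hom 1 (F.pull (bT (H₁ := H₁) (H₂ := H₂)) α) := hα1.pull
  have h01 : (0 : ℝ) ∈ Icc (0 : ℝ) 1 := ⟨le_rfl, zero_le_one⟩
  have hf : LF D.S (N4 h) (FK G ε 0) := by rw [hDS]; exact lf_N4 hO h h01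
  have hcN : ∀ z ∈ N4 h, ContDiffAt ℝ ∞ c z := fun z _ => hc.contDiffAt
  obtain ⟨Om, hOm⟩ := ED.exists_rel hD hX hαN hαN1 hf hcN hcE
  set om := trim c Om with hom
  have e1 : Eqv (N4 h) om Om := trim_eqv fun z hz hcz =>
    ED.IsRel.zero hD hX hαN hαN1 hf hcN hOm hz hcz
  have s1 : Sm (N4 h) om := sm_trim hcN hOm.1
  have hom' : D.IsRel (N4 h) (F.pull bN α) (FK G ε 0) c om := hOm.of_eqv s1 e1
  have hPs := hL.smap_Psi
  -- on the total space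
  have hfT : LF D.S (TP.TT (L.US G) P₂ P₁) (fun x => FK G ε 0 (Psi Lz x)) :=
    hf.comp hPs.smooth hPs.maps
  have hcT : ∀ x ∈ TP.TT (L.US G) P₂ P₁, ContDiffAt ℝ ∞ (fun x => c (Psi Lz x)) x :=
    fun x hx => ContDiffAt.comp (g := c) x hc.contDiffAt (hPs.smooth x hx)
  obtain ⟨V₀, hV₀⟩ := ED.exists_rel hD hZ hαT hαT1 hfT hcT
    fun x hx h0 => hcE _ (hPs.maps hx) h0
  have e2 : Eqv (TP.TT (L.US G) P₂ P₁) (F.pull (Psi Lz) om) V₀ := by
    refine ED.IsRel.nat hD hX hαN hαN1 hf hcN hom' hZ hαT hαT1 hfT hcT hV₀ hPs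
      (fun _ _ _ => rfl) (fun _ _ => rfl) (Eqv.of_eq fun x hx => ?_)
    rw [F.pull_comp (hPs.diff hx) (hb.diff (hPs.maps hx))]
    rfl
  -- literal vanishing
  have off1 : ∀ z ∈ N4 h,
      z ∉ Psi Lz '' {x | x ∈ TP.TT (L.US G) P₂ P₁ ∧ ‖x.1.2‖ < ρ ∧ ‖x.2‖ < ρ} → om z = 0 := by
    intro z hz hzn
    refine trim_zero ?_
    by_contra hcon
    push Not at hcon
    obtain ⟨x, hx, h2, h3, h4⟩ := hct z hz (by linarith)
    exact hzn ⟨x, ⟨hx, h2, h3⟩, h4⟩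
  have off2 : ∀ x ∈ TP.TT (L.US G) P₂ P₁, ¬ (‖x.1.2‖ < ρ ∧ ‖x.2‖ < ρ) → om (Psi Lz x) = 0 := by
    intro x hx hxn
    refine off1 _ (hPs.maps hx) ?_
    rintro ⟨y, ⟨hy, h2, h3⟩, h4⟩
    have : y = x := hL.injOn hy hx h4
    exact hxn (this ▸ ⟨h2, h3⟩)
  set V : ((Euc N × Euc N) × H₂) × H₁ → Ext (((Euc N × Euc N) × H₂) × H₁) :=
    fun x => bmp ρ ρ₁ x • F.pull (Psi Lz) om x with hV
  have pz : ∀ x ∈ TP.TT (L.US G) P₂ P₁, ¬ (‖x.1.2‖ < ρ ∧ ‖x.2‖ < ρ) →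
      F.pull (Psi Lz) om x = 0 := by
    intro x hx hxn
    rw [F.pull, off2 x hx hxn, map_zero]
  have eV : ∀ x ∈ TP.TT (L.US G) P₂ P₁, V x = F.pull (Psi Lz) om x := by
    intro x hx
    by_cases hxn : ‖x.1.2‖ < ρ ∧ ‖x.2‖ < ρ
    · change bmp ρ ρ₁ x • _ = _
      rw [bmp_one hρ hρ₁ hxn.1.le hxn.2.le, one_smul]
    · change bmp ρ ρ₁ x • _ = _
      rw [pz x hx hxn, smul_zero]
  have sV : Sm (TP.TT (L.US G) P₂ P₁) V := fun x hx =>
    (contDiff_bmp ρ ρ₁).contDiffAt.smul (s1.pull hPs x hx)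
  have rV : D.IsRel (TP.TT (L.US G) P₂ P₁) (F.pull bT α) (fun x => FK G ε 0 (Psi Lz x))
      (fun x => c (Psi Lz x)) V := hV₀.of_eqv sV ((Eqv.of_eq eV).trans e2)
  refine ⟨om, V, hom', off1, rV, eV, fun x hx hxn => by rw [eV x hx, pz x hx hxn], ?_, ?_⟩
  · refine ⟨sV, fun z hz => ?_, fun z hz => ?_, ED.IsRel.cl hD hZ hαT hαT1 hfT hcT rV⟩
    · change bmp ρ ρ₁ z • _ = _
      rw [bmp_zero hρ hρ₁ (Or.inr hz.le), zero_smul]
    · change bmp ρ ρ₁ z • _ = _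
      rw [bmp_zero hρ hρ₁ (Or.inl hz.le), zero_smul]
  · exact (hom'.coh_vs hcN).trans (vs_flat hD hDS hO h hX hαN hαN1).symm

end Crest.Agent.R208.TU
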