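import Crest.Agent.R208.TP2
import Crest.Agent.R208.TX1
import Crest.Agent.R208.TP6
import Crest.Agent.R208.TU8

-- ▼ part R208/TPL1
section

/-! Row 208, block TP (helper382).  TPL1: the Thom lemma for Thom pairs of any parity, with control
of the support of the primitive in the base; two-level version. -/

set_option autoImplicit false
set_option linter.unusedSectionVars false
set_option linter.unusedVariables false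
set_option maxHeartbeats 1000000

open MeasureTheory Set Filter Topology Module
open scoped ContDiff
open Crest.Agent.R208.F Crest.Agent.R208.FI Crest.Agent.R208.CW Crest.Agent.R208.T

noncomputable section

namespace Crest.Agent.R208.TP

section alg
variable {E : Type*} [NormedAddCommGroup E] [NormedSpace ℝ E] [FiniteDimensional ℝ E]



end alg

section pair
universe u w
variable {E : Type u} {H : Type w} [NormedAddCommGroup E] [NormedSpace ℝ E] [FiniteDimensional ℝ E]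
  [NormedAddCommGroup H] [InnerProductSpace ℝ H] [FiniteDimensional ℝ H]
  {X : Set E} {P : E → H →L[ℝ] H} {r d D : ℕ} {R R' c₀ : ℝ} {e : E → Ext E}
  {τ τ' om : E × H → Ext (E × H)}

/-- Thom pairs of any parity -/
structure TPair [MeasurableSpace H] (μ : Measure H) (X : Set E) (P : E → H →L[ℝ] H) (r : ℕ)
    (R c₀ : ℝ) (τ τ' : E × H → Ext (E × H)) : Prop where
  csf : CSF X P R τ
  csf' : CSF X (fun x => 1 - P x) R τ'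
  deg : Hom r τ
  deg' : Hom (finrank ℝ H - r) τ'
  unit : Eqv X (pI μ (thE P τ' τ)) (fun _ => algebraMap ℝ (Ext E) c₀)
  ne : c₀ ≠ 0

theorem _root_.Crest.Agent.R208.T.ThomPair.pair [MeasurableSpace H] {μ : Measure H}
    (h : ThomPair μ X P r R c₀ e τ τ') : TPair μ X P r R c₀ τ τ' :=
  ⟨h.csf, h.csf', h.deg, h.deg', h.unit, h.ne⟩

theorem csf_mono (hR : R ≤ R') (h : CSF X P R om) : CSF X P R' om :=
  ⟨h.smooth, fun z hz => h.supp z (hR.trans_lt hz), h.closed⟩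

theorem TPair.mono [MeasurableSpace H] {μ : Measure H} (hR : R ≤ R')
    (h : TPair μ X P r R c₀ τ τ') : TPair μ X P r R' c₀ τ τ' :=
  ⟨csf_mono hR h.csf, csf_mono hR h.csf', h.deg, h.deg', h.unit, h.ne⟩

theorem ThomPair.mono [MeasurableSpace H] {μ : Measure H} (hR : R ≤ R')
    (h : ThomPair μ X P r R c₀ e τ τ') : ThomPair μ X P r R' c₀ e τ τ' :=
  ⟨csf_mono hR h.csf, csf_mono hR h.csf', h.even, h.deg, h.deg', h.unit, h.ne, h.zero⟩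



end pair

end Crest.Agent.R208.TP
end
end

-- ▼ part R208/TPL2
section

/-! Row 208, block TP (helper382).  TPL2: base change of Thom pairs; the Thom lemma for
`P₂ ⊕ P₁` (`thom₂`). -/

set_option autoImplicit false
set_option linter.unusedSectionVars false
set_option linter.unusedVariables false
set_option maxHeartbeats 1000000

open MeasureTheory Set Filter Topology Module
open scoped ContDiff
open Crest.Agent.R208.F Crest.Agent.R208.FI Crest.Agent.R208.CW Crest.Agent.R208.T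

noncomputable section

namespace Crest.Agent.R208.TP

section up
variable {E H E' : Type*} [NormedAddCommGroup E] [NormedSpace ℝ E] [FiniteDimensional ℝ E]
  [NormedAddCommGroup E'] [NormedSpace ℝ E'] [FiniteDimensional ℝ E']
  [NormedAddCommGroup H] [InnerProductSpace ℝ H] [FiniteDimensional ℝ H]
  [MeasurableSpace H] [BorelSpace H] {μ : Measure H} [μ.IsAddHaarMeasure]
  {X : Set E} {X' : Set E'} {P : E → H →L[ℝ] H} {r d : ℕ} {R c₀ : ℝ}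
  {τ τ' : E × H → Ext (E × H)} {f : E' → E}

/-- base change of Thom pairs -/
theorem TPair.up (hP : PField X r P) (hf : SMap X' X f) (h : TPair μ X P r R c₀ τ τ') :
    TPair μ X' (fun y => P (f y)) r R c₀ (F.pull (up f) τ) (F.pull (up f) τ') where
  csf := csf_up hf h.csf
  csf' := csf_up (P := fun x => 1 - P x) hf h.csf'
  deg := Hom.pull h.deg
  deg' := Hom.pull h.deg'
  ne := h.ne
  unit := by
    have hP' := pfield_up hP hf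
    have hu := smap_up' (H := H) hf
    have v1 : Vt (2 * R) (thE P τ' τ) := vt_eta h.csf'.supp h.csf.supp
    have s1 := sm_eta hP h.csf'.smooth h.csf.smooth
    refine (Eqv.of_eq (b := F.pull f (pI μ (thE P τ' τ))) fun y hy => ?_).trans
      ((h.unit.pull hf).trans (Eqv.of_eq fun y _ => by rw [F.pull, AlgHom.commutes]))
    rw [← show pI μ (F.pull (fun z : E' × H => ((f z.1, z.2) : E × H)) (thE P τ' τ)) y =
      F.pull f (pI μ (thE P τ' τ)) y from pI_pull μ (hf.diff hy) v1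
        (fun h => (s1 (f y, h) ⟨hf.maps hy, mem_univ _⟩).continuousAt), pI_eq, pI_eq]
    refine integral_congr_ae (Eventually.of_forall fun k => ?_)
    have hz : (y, k) ∈ X' ×ˢ (univ : Set H) := ⟨hy, mem_univ _⟩
    have e1 : F.pull (gam (fun y => P (f y))) (F.pull (TP.up f) τ') (y, k) =
        F.pull (TP.up f) (F.pull (gam P) τ') (y, k) := by
      have a1 := F.pull_comp (om := τ') ((smap_gam hP').diff hz)
        ((smap_up (P := fun x => 1 - P x) hf).diff ((smap_gam hP').maps hz))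
      have a2 := F.pull_comp (om := τ') (hu.diff hz) ((smap_gam hP).diff (hu.maps hz))
      exact a1.trans a2.symm
    have e2 : F.pull (bet (fun y => P (f y))) (F.pull (TP.up f) τ) (y, k) =
        F.pull (TP.up f) (F.pull (bet P) τ) (y, k) := by
      have a1 := F.pull_comp (om := τ) ((smap_bet hP').diff hz)
        ((smap_up (P := P) hf).diff ((smap_bet hP').maps hz))
      have a2 := F.pull_comp (om := τ) (hu.diff hz) ((smap_bet hP).diff (hu.maps hz))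
      exact a1.trans a2.symm
    change cH _ _ (F.pull (gam (fun y => P (f y))) (F.pull (TP.up f) τ') (y, k) *
      F.pull (bet (fun y => P (f y))) (F.pull (TP.up f) τ) (y, k)) =
      cH _ _ (F.pull (TP.up f) (thE P τ' τ) (y, k))
    rw [e1, e2, thE, pull_mul']
    rfl

end up

section two
universe u w w'
variable {E : Type u} {H₂ : Type w} {H₁ : Type w'} [NormedAddCommGroup E] [NormedSpace ℝ E]
  [FiniteDimensional ℝ E]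
  [NormedAddCommGroup H₁] [InnerProductSpace ℝ H₁] [FiniteDimensional ℝ H₁]
  [NormedAddCommGroup H₂] [InnerProductSpace ℝ H₂] [FiniteDimensional ℝ H₂]
  {X : Set E} {P₁ : E → H₁ →L[ℝ] H₁} {P₂ : E → H₂ →L[ℝ] H₂} {r₁ r₂ d j : ℕ} {R c₁ c₂ : ℝ}
  {τ₁ τ₁' : E × H₁ → Ext (E × H₁)} {τ₂ τ₂' : E × H₂ → Ext (E × H₂)}
  {V : (E × H₂) × H₁ → Ext ((E × H₂) × H₁)}









variable [MeasurableSpace H₁] [BorelSpace H₁] (μ₁ : Measure H₁) [μ₁.IsAddHaarMeasure]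
  [MeasurableSpace H₂] [BorelSpace H₂] (μ₂ : Measure H₂) [μ₂.IsAddHaarMeasure]


end two

end Crest.Agent.R208.TP
end
end

-- ▼ part R208/HO1
section

/-! Row 208, block HO (helper537), AK15 of helper952: homotopy invariance of the double vertical
integral for closed forms on `TT X P₂ P₁ × ℝ` which vanish outside the disks, seen through
isometric embeddings of the two fields. -/

set_option autoImplicit false
set_option linter.unusedSectionVars false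
set_option linter.unusedVariables false

open MeasureTheory Set Filter Topology Module
open scoped ContDiff RealInnerProductSpace
open Crest.Agent.R208.F Crest.Agent.R208.FI Crest.Agent.R208.CW Crest.Agent.R208.T
open Crest.Agent.R208.TP
open Crest.Agent.R208.CM (Triv Qd)

noncomputable section

namespace Crest.Agent.R208.HO

section congr
variable {E : Type*} {H₁ H₂ : Type*} [NormedAddCommGroup E] [NormedSpace ℝ E]
  [FiniteDimensional ℝ E]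
  [NormedAddCommGroup H₁] [InnerProductSpace ℝ H₁] [FiniteDimensional ℝ H₁]
  [MeasurableSpace H₁] [BorelSpace H₁] (μ₁ : Measure H₁) [μ₁.IsAddHaarMeasure]
  [NormedAddCommGroup H₂] [InnerProductSpace ℝ H₂] [FiniteDimensional ℝ H₂]
  [MeasurableSpace H₂] [BorelSpace H₂] (μ₂ : Measure H₂) [μ₂.IsAddHaarMeasure]
  {X : Set E} {P₁ : E → H₁ →L[ℝ] H₁} {P₂ : E → H₂ →L[ℝ] H₂} {r₁ r₂ d : ℕ} {R R' : ℝ}
  {τ₁' : E × H₁ → Ext (E × H₁)} {τ₂' : E × H₂ → Ext (E × H₂)}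
  {V V' : (E × H₂) × H₁ → Ext ((E × H₂) × H₁)}

theorem cv_mono (hR : R ≤ R') (h : CV X P₂ P₁ R V) : CV X P₂ P₁ R' V :=
  ⟨h.smooth, fun z hz => h.supp₁ z (hR.trans_lt hz), fun z hz => h.supp₂ z (hR.trans_lt hz),
    h.closed⟩

theorem pu₁_congr (hP₁ : PField X r₁ P₁) (hτ₁ : CSF X (fun x => 1 - P₁ x) R τ₁')
    (hV : CV X P₂ P₁ R V) (hV' : CV X P₂ P₁ R V') (h : Eqv (TT X P₂ P₁) V V') :
    Eqv (Tot X P₂) (pu₁ μ₁ P₁ τ₁' V) (pu₁ μ₁ P₁ τ₁' V') :=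
  push_congr μ₁ (X := Tot X P₂) (P := fun z : E × H₂ => P₁ z.1) (pfield_fst (P₂ := P₂) hP₁)
    (csf_fst (P₂ := P₂) hτ₁) hV.smooth hV.supp₁ hV'.smooth hV'.supp₁ h

/-- the double integral only depends on the restriction to the total space -/
theorem pu₂_congr (hP₁ : PField X r₁ P₁) (hP₂ : PField X r₂ P₂)
    (hτ₁ : CSF X (fun x => 1 - P₁ x) R τ₁') (hτ₂ : CSF X (fun x => 1 - P₂ x) R τ₂')
    (hV : CV X P₂ P₁ R V) (hV' : CV X P₂ P₁ R V') (h : Eqv (TT X P₂ P₁) V V') :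
    Eqv X (pu₂ μ₁ μ₂ P₂ τ₂' P₁ τ₁' V) (pu₂ μ₁ μ₂ P₂ τ₂' P₁ τ₁' V') :=
  push_congr μ₂ hP₂ hτ₂ (csf_pu₁ μ₁ hP₁ hτ₁ hV).smooth (csf_pu₁ μ₁ hP₁ hτ₁ hV).supp
    (csf_pu₁ μ₁ hP₁ hτ₁ hV').smooth (csf_pu₁ μ₁ hP₁ hτ₁ hV').supp
    (pu₁_congr μ₁ hP₁ hτ₁ hV hV' h)

end congr

/-! ### pairs of mutually inverse fibrewise linear maps -/

section pair
variable {E H V : Type*} [NormedAddCommGroup E] [NormedSpace ℝ E]
  [NormedAddCommGroup H] [InnerProductSpace ℝ H] [FiniteDimensional ℝ H]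
  [NormedAddCommGroup V] [InnerProductSpace ℝ V] [FiniteDimensional ℝ V]
  {X : Set E} {P : E → H →L[ℝ] H} {Q : E → V →L[ℝ] V} {T : E → H →L[ℝ] V} {B : E → V →L[ℝ] H}

/-- `T : P → Q` and `B : Q → P` are smooth, `T B = 1` on `Q` and `B` is isometric on `Q` -/
structure Pt (X : Set E) (P : E → H →L[ℝ] H) (Q : E → V →L[ℝ] V) (T : E → H →L[ℝ] V)
    (B : E → V →L[ℝ] H) : Prop where
  sT : ∀ x ∈ X, ContDiffAt ℝ ∞ T x
  sB : ∀ x ∈ X, ContDiffAt ℝ ∞ B x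
  mT : ∀ x ∈ X, ∀ w, P x w = w → Q x (T x w) = T x w
  mB : ∀ x ∈ X, ∀ v, Q x v = v → P x (B x v) = B x v
  TB : ∀ x ∈ X, ∀ v, Q x v = v → T x (B x v) = v
  nB : ∀ x ∈ X, ∀ v, Q x v = v → ‖B x v‖ = ‖v‖

/-- the pair given by an isometric embedding -/
theorem pt_of_iso (sT : ∀ x ∈ X, ContDiffAt ℝ ∞ T x) (iT : ∀ x ∈ X, ∀ w, ‖T x w‖ = ‖w‖)
    (hQ : ∀ x ∈ X, Q x = Qd T P x) :
    Pt X P Q T (fun x => ContinuousLinearMap.adjoint (T x)) := by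
  have hT : Triv X (fun _ x => x) (fun _ => ContinuousLinearMap.id ℝ H) T := ⟨sT, iT, fun _ _ _ _ => rfl⟩
  have key : ∀ x ∈ X, ∀ v, Q x v = v → T x (ContinuousLinearMap.adjoint (T x) v) = v ∧
      P x (ContinuousLinearMap.adjoint (T x) v) = ContinuousLinearMap.adjoint (T x) v :=
    fun x hx v hv => hT.mem_range hx (by rw [← hQ x hx]; exact hv)
  refine ⟨sT, fun x hx => ?_, fun x hx w hw => ?_, fun x hx v hv => (key x hx v hv).2,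
    fun x hx v hv => (key x hx v hv).1, fun x hx v hv => ?_⟩
  · exact (ContinuousLinearMap.adjoint (𝕜 := ℝ) (E := H)
      (F := V)).toContinuousLinearEquiv.contDiff.contDiffAt.comp x (sT x hx)
  · rw [hQ x hx, hT.Qd_T hx, hw]
  · rw [← iT x hx, (key x hx v hv).1]

end pair

section main
variable {E : Type*} [NormedAddCommGroup E] [NormedSpace ℝ E] [FiniteDimensional ℝ E]
  {H₁ V₁ : Type*} [NormedAddCommGroup H₁] [InnerProductSpace ℝ H₁] [FiniteDimensional ℝ H₁]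
  [NormedAddCommGroup V₁] [InnerProductSpace ℝ V₁] [FiniteDimensional ℝ V₁]
  {H₂ V₂ : Type*} [NormedAddCommGroup H₂] [InnerProductSpace ℝ H₂] [FiniteDimensional ℝ H₂]
  [NormedAddCommGroup V₂] [InnerProductSpace ℝ V₂] [FiniteDimensional ℝ V₂]
  {X : Set E} {P₁ : E → H₁ →L[ℝ] H₁} {P₂ : E → H₂ →L[ℝ] H₂}
  {Q₁ : E → V₁ →L[ℝ] V₁} {Q₂ : E → V₂ →L[ℝ] V₂}
  {T₁ : E → H₁ →L[ℝ] V₁} {T₂ : E → H₂ →L[ℝ] V₂} {B₁ : E → V₁ →L[ℝ] H₁} {B₂ : E → V₂ →L[ℝ] H₂}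
  {r₁ r₂ d : ℕ} {R : ℝ}

theorem pull_up_fst {V : Type*} [NormedAddCommGroup V] [NormedSpace ℝ V]
    [FiniteDimensional ℝ V] (t : ℝ) (τ : E × V → Ext (E × V)) :
    F.pull (up (H := V) (fun y : E => ((y, t) : E × ℝ)))
      (F.pull (up (H := V) (Prod.fst : E × ℝ → E)) τ) = τ := by
  funext z
  have h3 := F.pull_comp (f := up (H := V) (fun y : E => ((y, t) : E × ℝ)))
    (g := up (H := V) (Prod.fst : E × ℝ → E)) (om := τ) (x := z)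
    (by unfold up; fun_prop) (by unfold up; fun_prop)
  rw [h3]
  exact F.pull_id τ z

/-- `((x,ν),w) ↦ ((x,T₂ ν),T₁ w)` -/
def Ph2 (T₂ : E → H₂ →L[ℝ] V₂) (T₁ : E → H₁ →L[ℝ] V₁) (z : (E × H₂) × H₁) : (E × V₂) × V₁ :=
  ((z.1.1, T₂ z.1.1 z.1.2), T₁ z.1.1 z.2)

/-- the same with a parameter -/
def La (T₂ : E → H₂ →L[ℝ] V₂) (T₁ : E → H₁ →L[ℝ] V₁) (z : ((E × ℝ) × H₂) × H₁) :
    ((E × V₂) × V₁) × ℝ :=
  (((z.1.1.1, T₂ z.1.1.1 z.1.2), T₁ z.1.1.1 z.2), z.1.1.2)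

theorem smap_Ph2 (s₂ : ∀ x ∈ X, ContDiffAt ℝ ∞ T₂ x) (s₁ : ∀ x ∈ X, ContDiffAt ℝ ∞ T₁ x)
    (m₂ : ∀ x ∈ X, ∀ w, P₂ x w = w → Q₂ x (T₂ x w) = T₂ x w)
    (m₁ : ∀ x ∈ X, ∀ w, P₁ x w = w → Q₁ x (T₁ x w) = T₁ x w) :
    SMap (TT X P₂ P₁) (TT X Q₂ Q₁) (Ph2 T₂ T₁) := by
  refine ⟨fun z hz => ?_, fun z hz => ⟨⟨hz.1.1, m₂ _ hz.1.1 _ hz.1.2⟩, m₁ _ hz.1.1 _ hz.2⟩⟩
  have a2 : ContDiffAt ℝ ∞ (fun z : (E × H₂) × H₁ => T₂ z.1.1) z :=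
    ContDiffAt.comp (g := T₂) (f := fun z : (E × H₂) × H₁ => z.1.1) z (s₂ _ hz.1.1) (by fun_prop)
  have a1 : ContDiffAt ℝ ∞ (fun z : (E × H₂) × H₁ => T₁ z.1.1) z :=
    ContDiffAt.comp (g := T₁) (f := fun z : (E × H₂) × H₁ => z.1.1) z (s₁ _ hz.1.1) (by fun_prop)
  exact ((by fun_prop : ContDiffAt ℝ ∞ (fun z : (E × H₂) × H₁ => z.1.1) z).prodMk
    (a2.clm_apply (by fun_prop))).prodMk (a1.clm_apply (by fun_prop))

theorem smap_La (s₂ : ∀ x ∈ X, ContDiffAt ℝ ∞ T₂ x) (s₁ : ∀ x ∈ X, ContDiffAt ℝ ∞ T₁ x)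
    (m₂ : ∀ x ∈ X, ∀ w, P₂ x w = w → Q₂ x (T₂ x w) = T₂ x w)
    (m₁ : ∀ x ∈ X, ∀ w, P₁ x w = w → Q₁ x (T₁ x w) = T₁ x w) :
    SMap (TT (X ×ˢ (univ : Set ℝ)) (fun p => P₂ p.1) (fun p => P₁ p.1))
      (TT X Q₂ Q₁ ×ˢ (univ : Set ℝ)) (La T₂ T₁) := by
  refine ⟨fun z hz => ?_, fun z hz => ⟨⟨⟨hz.1.1.1, m₂ _ hz.1.1.1 _ hz.1.2⟩,
    m₁ _ hz.1.1.1 _ hz.2⟩, mem_univ _⟩⟩
  have hx : z.1.1.1 ∈ X := hz.1.1.1
  have a2 : ContDiffAt ℝ ∞ (fun z : ((E × ℝ) × H₂) × H₁ => T₂ z.1.1.1) z :=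
    ContDiffAt.comp (g := T₂) (f := fun z : ((E × ℝ) × H₂) × H₁ => z.1.1.1) z (s₂ _ hx)
      (by fun_prop)
  have a1 : ContDiffAt ℝ ∞ (fun z : ((E × ℝ) × H₂) × H₁ => T₁ z.1.1.1) z :=
    ContDiffAt.comp (g := T₁) (f := fun z : ((E × ℝ) × H₂) × H₁ => z.1.1.1) z (s₁ _ hx)
      (by fun_prop)
  exact (((by fun_prop : ContDiffAt ℝ ∞ (fun z : ((E × ℝ) × H₂) × H₁ => z.1.1.1) z).prodMk
    (a2.clm_apply (by fun_prop))).prodMk (a1.clm_apply (by fun_prop))).prodMk (by fun_prop)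

end main

section hom
universe u
variable {E : Type u} [NormedAddCommGroup E] [NormedSpace ℝ E] [FiniteDimensional ℝ E]
  {H₁ V₁ : Type*} [NormedAddCommGroup H₁] [InnerProductSpace ℝ H₁] [FiniteDimensional ℝ H₁]
  [NormedAddCommGroup V₁] [InnerProductSpace ℝ V₁] [FiniteDimensional ℝ V₁]
  [MeasurableSpace V₁] [BorelSpace V₁] (μ₁ : Measure V₁) [μ₁.IsAddHaarMeasure]
  {H₂ V₂ : Type*} [NormedAddCommGroup H₂] [InnerProductSpace ℝ H₂] [FiniteDimensional ℝ H₂]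
  [NormedAddCommGroup V₂] [InnerProductSpace ℝ V₂] [FiniteDimensional ℝ V₂]
  [MeasurableSpace V₂] [BorelSpace V₂] (μ₂ : Measure V₂) [μ₂.IsAddHaarMeasure]
  {X : Set E} {P₁ : E → H₁ →L[ℝ] H₁} {P₂ : E → H₂ →L[ℝ] H₂}
  {Q₁ : E → V₁ →L[ℝ] V₁} {Q₂ : E → V₂ →L[ℝ] V₂}
  {T₁ : E → H₁ →L[ℝ] V₁} {T₂ : E → H₂ →L[ℝ] V₂} {B₁ : E → V₁ →L[ℝ] H₁} {B₂ : E → V₂ →L[ℝ] H₂}
  {r₁ r₂ d : ℕ} {R R₀ R₁ R₂ : ℝ}
  {τ₁' : E × V₁ → Ext (E × V₁)} {τ₂' : E × V₂ → Ext (E × V₂)}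
  {Om : ((E × H₂) × H₁) × ℝ → Ext (((E × H₂) × H₁) × ℝ)}
  {V0 V1 : (E × V₂) × V₁ → Ext ((E × V₂) × V₁)}

/-- **AK15 (HOM)**: a closed form on `TT X P₂ P₁ × ℝ` which vanishes outside the `R`-disks gives
cohomologous double integrals at the times `0` and `1`. -/
theorem hom (hX : Sub d X) (h₁ : Pt X P₁ Q₁ T₁ B₁) (h₂ : Pt X P₂ Q₂ T₂ B₂)
    (hQ₁ : PField X r₁ Q₁) (hQ₂ : PField X r₂ Q₂)
    (hτ₁ : CSF X (fun x => 1 - Q₁ x) R₁ τ₁') (hτ₂ : CSF X (fun x => 1 - Q₂ x) R₂ τ₂')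
    (hR : 0 ≤ R) (sO : Sm (TT X P₂ P₁ ×ˢ (univ : Set ℝ)) Om)
    (cO : Cl (TT X P₂ P₁ ×ˢ (univ : Set ℝ)) Om)
    (zO : ∀ p ∈ TT X P₂ P₁ ×ˢ (univ : Set ℝ), (R < ‖p.1.2‖ ∨ R < ‖p.1.1.2‖) →
      pb (Tan (TT X P₂ P₁ ×ˢ (univ : Set ℝ)) p).subtype (Om p) = 0) (j : ℕ)
    (hV0 : CV X Q₂ Q₁ R₀ V0) (hV1 : CV X Q₂ Q₁ R₀ V1)
    (e0 : Eqv (TT X P₂ P₁) (F.pull (Ph2 T₂ T₁) V0)
      (T.dp j (F.pull (fun z : (E × H₂) × H₁ => (z, (0 : ℝ))) Om)))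
    (e1 : Eqv (TT X P₂ P₁) (F.pull (Ph2 T₂ T₁) V1)
      (T.dp j (F.pull (fun z : (E × H₂) × H₁ => (z, (1 : ℝ))) Om))) :
    Coh X (pu₂ μ₁ μ₂ Q₂ τ₂' Q₁ τ₁' V1) (pu₂ μ₁ μ₂ Q₂ τ₂' Q₁ τ₁' V0) := by
  -- the form with a parameter
  have sΛ : SMap (TT (X ×ˢ (univ : Set ℝ)) (fun p => Q₂ p.1) (fun p => Q₁ p.1))
      (TT X P₂ P₁ ×ˢ (univ : Set ℝ)) (La B₂ B₁) := smap_La h₂.sB h₁.sB h₂.mB h₁.mB
  have sfst : SMap (X ×ˢ (univ : Set ℝ)) X (Prod.fst : E × ℝ → E) :=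
    ⟨fun _ _ => contDiffAt_fst, fun _ hp => hp.1⟩
  have hXR : Sub (d + 1) (X ×ˢ (univ : Set ℝ)) := VC.sub_prod hX isOpen_univ
  have hQ₁' : PField (X ×ˢ (univ : Set ℝ)) r₁ (fun p : E × ℝ => Q₁ p.1) := pfield_up hQ₁ sfst
  have hQ₂' : PField (X ×ˢ (univ : Set ℝ)) r₂ (fun p : E × ℝ => Q₂ p.1) := pfield_up hQ₂ sfst
  have hTT := sub_TT hXR hQ₁' hQ₂'
  set W₀ := T.dp j (F.pull (La B₂ B₁) Om) with hW₀
  have sW₀ : Sm (TT (X ×ˢ (univ : Set ℝ)) (fun p => Q₂ p.1) (fun p => Q₁ p.1)) W₀ :=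
    (sO.pull sΛ).dp j
  have cW₀ : Cl (TT (X ×ˢ (univ : Set ℝ)) (fun p => Q₂ p.1) (fun p => Q₁ p.1)) W₀ :=
    Cl.dp j (sO.pull sΛ) (cO.pull sΛ sO)
  have zW₀ : ∀ z ∈ TT (X ×ˢ (univ : Set ℝ)) (fun p : E × ℝ => Q₂ p.1) (fun p => Q₁ p.1),
      (R < ‖z.2‖ ∨ R < ‖z.1.2‖) →
      pb (Tan (TT (X ×ˢ (univ : Set ℝ)) (fun p : E × ℝ => Q₂ p.1) (fun p => Q₁ p.1)) z).subtype
        (W₀ z) = 0 := by
    intro z hz hz2
    have n1 : ‖(La B₂ B₁ z).1.2‖ = ‖z.2‖ := h₁.nB _ hz.1.1.1 _ hz.2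
    have n2 : ‖(La B₂ B₁ z).1.1.2‖ = ‖z.1.2‖ := h₂.nB _ hz.1.1.1 _ hz.1.2
    have k1 := zO (La B₂ B₁ z) (sΛ.maps hz) (by rw [n1, n2]; exact hz2)
    have k2 : pb (Tan (TT (X ×ˢ (univ : Set ℝ)) (fun p : E × ℝ => Q₂ p.1)
        (fun p => Q₁ p.1)) z).subtype (F.pull (La B₂ B₁) Om z) = 0 :=
      pb_pull_eq_zero (sΛ.diff hz) sΛ.maps k1
    rw [hW₀, T.dp, ← dpl_pb, k2, map_zero]
  -- the cut off form
  set W := cut₂ R W₀ with hW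
  have eW : Eqv (TT (X ×ˢ (univ : Set ℝ)) (fun p => Q₂ p.1) (fun p => Q₁ p.1)) W W₀ :=
    eqv_cut₂ hR zW₀
  have sW : Sm (TT (X ×ˢ (univ : Set ℝ)) (fun p => Q₂ p.1) (fun p => Q₁ p.1)) W := fun z hz =>
    ((((contDiff_chi R).comp contDiff_snd).mul
      ((contDiff_chi R).comp (contDiff_snd.comp contDiff_fst))).contDiffAt).smul (sW₀ z hz)
  have hCV : CV (X ×ˢ (univ : Set ℝ)) (fun p : E × ℝ => Q₂ p.1) (fun p => Q₁ p.1) (R + 1) W :=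
    ⟨sW, fun z hz => by rw [hW, cut₂, chi_zero hR hz.le, zero_mul, zero_smul],
      fun z hz => by rw [hW, cut₂, chi_zero hR hz.le, mul_zero, zero_smul],
      Cl.of_eqv hTT sW sW₀ eW cW₀⟩
  -- common radius
  set M := max (max (R + 1) R₀) (max R₁ R₂) with hM
  have m1 : R + 1 ≤ M := (le_max_left _ _).trans (le_max_left _ _)
  have m2 : R₀ ≤ M := (le_max_right _ _).trans (le_max_left _ _)
  have m3 : R₁ ≤ M := (le_max_left _ _).trans (le_max_right _ _)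
  have m4 : R₂ ≤ M := (le_max_right _ _).trans (le_max_right _ _)
  have hCV' := cv_mono m1 hCV
  have t1 : CSF (X ×ˢ (univ : Set ℝ)) (fun p : E × ℝ => (1 : V₁ →L[ℝ] V₁) - Q₁ p.1) M
      (F.pull (up (H := V₁) (Prod.fst : E × ℝ → E)) τ₁') :=
    csf_up (P := fun x => 1 - Q₁ x) sfst (csf_mono m3 hτ₁)
  have t2 : CSF (X ×ˢ (univ : Set ℝ)) (fun p : E × ℝ => (1 : V₂ →L[ℝ] V₂) - Q₂ p.1) M
      (F.pull (up (H := V₂) (Prod.fst : E × ℝ → E)) τ₂') :=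
    csf_up (P := fun x => 1 - Q₂ x) sfst (csf_mono m4 hτ₂)
  have hh := pu₂_homotopy μ₁ μ₂ (X := X) (I := univ) (subset_univ _) hQ₁' hQ₂' t1 t2 hCV'
  -- the pulled back auxiliary forms
  have key : ∀ (t : ℝ) (Vt' : (E × V₂) × V₁ → Ext ((E × V₂) × V₁)), CV X Q₂ Q₁ R₀ Vt' →
      Eqv (TT X P₂ P₁) (F.pull (Ph2 T₂ T₁) Vt')
        (T.dp j (F.pull (fun z : (E × H₂) × H₁ => (z, t)) Om)) →
      Eqv X (pu₂ μ₁ μ₂ Q₂ τ₂' Q₁ τ₁' Vt') (pu₂ μ₁ μ₂ (fun y => Q₂ ((y, t) : E × ℝ).1)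
        (F.pull (up fun y => (y, t)) (F.pull (up (H := V₂) (Prod.fst : E × ℝ → E)) τ₂'))
        (fun y => Q₁ ((y, t) : E × ℝ).1)
        (F.pull (up fun y => (y, t)) (F.pull (up (H := V₁) (Prod.fst : E × ℝ → E)) τ₁'))
        (F.pull (up (up fun y => (y, t))) W)) := by
    intro t Vt' hVt' et
    rw [pull_up_fst, pull_up_fst]
    have sat : SMap X (X ×ˢ (univ : Set ℝ)) (fun x : E => ((x, t) : E × ℝ)) :=
      smap_at univ (mem_univ t)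
    have hcv : CV X Q₂ Q₁ M (F.pull (up (up fun y => ((y, t) : E × ℝ))) W) :=
      cv_up (P₁ := fun p : E × ℝ => Q₁ p.1) (P₂ := fun p : E × ℝ => Q₂ p.1) sat hCV'
    refine pu₂_congr μ₁ μ₂ hQ₁ hQ₂ (csf_mono m3 hτ₁) (csf_mono m4 hτ₂) (cv_mono m2 hVt') hcv ?_
    -- comparison on the total space
    have sΨ : SMap (TT X Q₂ Q₁) (TT X P₂ P₁) (Ph2 B₂ B₁) := smap_Ph2 h₂.sB h₁.sB h₂.mB h₁.mB
    have sΦ : SMap (TT X P₂ P₁) (TT X Q₂ Q₁) (Ph2 T₂ T₁) := smap_Ph2 h₂.sT h₁.sT h₂.mT h₁.mT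
    have sup : SMap (TT X Q₂ Q₁) (TT (X ×ˢ (univ : Set ℝ)) (fun p => Q₂ p.1) (fun p => Q₁ p.1))
        (up (up fun y => ((y, t) : E × ℝ))) :=
      smap_up2 (P₁ := fun p : E × ℝ => Q₁ p.1) (P₂ := fun p : E × ℝ => Q₂ p.1) sat
    have sι : SMap (TT X P₂ P₁) (TT X P₂ P₁ ×ˢ (univ : Set ℝ))
        (fun z : (E × H₂) × H₁ => (z, t)) :=
      ⟨fun _ _ => contDiffAt_id.prodMk contDiffAt_const, fun _ hz => ⟨hz, mem_univ _⟩⟩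
    have a1 : Eqv (TT X Q₂ Q₁) (F.pull (Ph2 B₂ B₁) (F.pull (Ph2 T₂ T₁) Vt')) Vt' := by
      refine (eqv_pull_pull sΨ sΦ (SMap.id _) (fun z hz => ?_) Vt').trans
        (Eqv.of_eq fun z _ => F.pull_id Vt' z)
      exact Prod.ext (Prod.ext rfl (h₂.TB _ hz.1.1 _ hz.1.2)) (h₁.TB _ hz.1.1 _ hz.2)
    have a2 := et.pull sΨ
    have a3 : Eqv (TT X Q₂ Q₁) (F.pull (Ph2 B₂ B₁)
        (T.dp j (F.pull (fun z : (E × H₂) × H₁ => (z, t)) Om)))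
        (F.pull (up (up fun y => ((y, t) : E × ℝ))) W₀) := by
      rw [hW₀, ← dp_pull, ← dp_pull]
      exact ((eqv_pull_pull sΨ sι (sι.comp sΨ) (fun z hz => rfl) Om).trans
        (eqv_pull_pull sup sΛ (sι.comp sΨ) (fun z hz => rfl) Om).symm).dp j
    exact a1.symm.trans (a2.trans (a3.trans (eW.symm.pull sup)))
  exact (Coh.of_eqv (key 1 V1 hV1 e1)).trans (hh.trans (Coh.of_eqv (key 0 V0 hV0 e0).symm))

end hom

end Crest.Agent.R208.HO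
end
end

-- ▼ part R208/HO2
section

/-! Row 208, block HO (helper537), part HO2: AK15 in the form asked for by helper952. -/

set_option autoImplicit false
set_option linter.unusedSectionVars false
set_option linter.unusedVariables false

open MeasureTheory Set Filter Topology Module
open scoped ContDiff RealInnerProductSpace
open Crest.Agent.R208.F Crest.Agent.R208.FI Crest.Agent.R208.CW Crest.Agent.R208.T
open Crest.Agent.R208.TP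
open Crest.Agent.R208.CM (Triv Qd)

noncomputable section

namespace Crest.Agent.R208.HO

universe u
variable {E : Type u} [NormedAddCommGroup E] [NormedSpace ℝ E] [FiniteDimensional ℝ E]
  {H₁ V₁ : Type*} [NormedAddCommGroup H₁] [InnerProductSpace ℝ H₁] [FiniteDimensional ℝ H₁]
  [NormedAddCommGroup V₁] [InnerProductSpace ℝ V₁] [FiniteDimensional ℝ V₁]
  [MeasurableSpace V₁] [BorelSpace V₁] (μ₁ : Measure V₁) [μ₁.IsAddHaarMeasure]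
  {H₂ V₂ : Type*} [NormedAddCommGroup H₂] [InnerProductSpace ℝ H₂] [FiniteDimensional ℝ H₂]
  [NormedAddCommGroup V₂] [InnerProductSpace ℝ V₂] [FiniteDimensional ℝ V₂]
  [MeasurableSpace V₂] [BorelSpace V₂] (μ₂ : Measure V₂) [μ₂.IsAddHaarMeasure]
  {X : Set E} {P₁ : E → H₁ →L[ℝ] H₁} {P₂ : E → H₂ →L[ℝ] H₂}
  {Q₁ : E → V₁ →L[ℝ] V₁} {Q₂ : E → V₂ →L[ℝ] V₂}
  {T₁ : E → H₁ →L[ℝ] V₁} {T₂ : E → H₂ →L[ℝ] V₂}
  {r₁ r₂ d : ℕ} {R R₀ R₁ R₂ : ℝ}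
  {τ₁' : E × V₁ → Ext (E × V₁)} {τ₂' : E × V₂ → Ext (E × V₂)}
  {Om : ((E × H₂) × H₁) × ℝ → Ext (((E × H₂) × H₁) × ℝ)}
  {V0 V1 : (E × V₂) × V₁ → Ext ((E × V₂) × V₁)}

/-- **AK15**, with smooth fields of isometries `T_i` and `Q_i = T_i P_i T_i^*` -/
theorem hom_iso (hX : Sub d X)
    (s₁ : ∀ x ∈ X, ContDiffAt ℝ ∞ T₁ x) (i₁ : ∀ x ∈ X, ∀ w, ‖T₁ x w‖ = ‖w‖)
    (s₂ : ∀ x ∈ X, ContDiffAt ℝ ∞ T₂ x) (i₂ : ∀ x ∈ X, ∀ w, ‖T₂ x w‖ = ‖w‖)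
    (q₁ : ∀ x ∈ X, Q₁ x = Qd T₁ P₁ x) (q₂ : ∀ x ∈ X, Q₂ x = Qd T₂ P₂ x)
    (hQ₁ : PField X r₁ Q₁) (hQ₂ : PField X r₂ Q₂)
    (hτ₁ : CSF X (fun x => 1 - Q₁ x) R₁ τ₁') (hτ₂ : CSF X (fun x => 1 - Q₂ x) R₂ τ₂')
    (hR : 0 ≤ R) (sO : Sm (TT X P₂ P₁ ×ˢ (univ : Set ℝ)) Om)
    (cO : Cl (TT X P₂ P₁ ×ˢ (univ : Set ℝ)) Om)
    (zO : ∀ p ∈ TT X P₂ P₁ ×ˢ (univ : Set ℝ), (R < ‖p.1.2‖ ∨ R < ‖p.1.1.2‖) →
      pb (Tan (TT X P₂ P₁ ×ˢ (univ : Set ℝ)) p).subtype (Om p) = 0) (j : ℕ)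
    (hV0 : CV X Q₂ Q₁ R₀ V0) (hV1 : CV X Q₂ Q₁ R₀ V1)
    (e0 : Eqv (TT X P₂ P₁) (F.pull (fun z : (E × H₂) × H₁ => ((z.1.1, T₂ z.1.1 z.1.2),
        T₁ z.1.1 z.2)) V0) (T.dp j (F.pull (fun z : (E × H₂) × H₁ => (z, (0 : ℝ))) Om)))
    (e1 : Eqv (TT X P₂ P₁) (F.pull (fun z : (E × H₂) × H₁ => ((z.1.1, T₂ z.1.1 z.1.2),
        T₁ z.1.1 z.2)) V1) (T.dp j (F.pull (fun z : (E × H₂) × H₁ => (z, (1 : ℝ))) Om))) :
    Coh X (pu₂ μ₁ μ₂ Q₂ τ₂' Q₁ τ₁' V1) (pu₂ μ₁ μ₂ Q₂ τ₂' Q₁ τ₁' V0) :=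
  hom μ₁ μ₂ hX (pt_of_iso s₁ i₁ q₁) (pt_of_iso s₂ i₂ q₂) hQ₁ hQ₂ hτ₁ hτ₂ hR sO cO zO j hV0 hV1
    e0 e1

/-- existence of a form of type `CV` in the target fields for a closed form on `TT X P₂ P₁`
which vanishes outside the disks -/
theorem exists_CV_iso (hX : Sub d X)
    (s₁ : ∀ x ∈ X, ContDiffAt ℝ ∞ T₁ x) (i₁ : ∀ x ∈ X, ∀ w, ‖T₁ x w‖ = ‖w‖)
    (s₂ : ∀ x ∈ X, ContDiffAt ℝ ∞ T₂ x) (i₂ : ∀ x ∈ X, ∀ w, ‖T₂ x w‖ = ‖w‖)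
    (q₁ : ∀ x ∈ X, Q₁ x = Qd T₁ P₁ x) (q₂ : ∀ x ∈ X, Q₂ x = Qd T₂ P₂ x)
    (hQ₁ : PField X r₁ Q₁) (hQ₂ : PField X r₂ Q₂) (hR : 0 ≤ R)
    {V : (E × H₂) × H₁ → Ext ((E × H₂) × H₁)} (sV : Sm (TT X P₂ P₁) V) (cV : Cl (TT X P₂ P₁) V)
    (zV : ∀ z ∈ TT X P₂ P₁, (R < ‖z.2‖ ∨ R < ‖z.1.2‖) →
      pb (Tan (TT X P₂ P₁) z).subtype (V z) = 0) (hP₁ : PField X r₁ P₁) (hP₂ : PField X r₂ P₂) :
    ∃ V' : (E × V₂) × V₁ → Ext ((E × V₂) × V₁), CV X Q₂ Q₁ (R + 1) V' ∧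
      Eqv (TT X P₂ P₁) (F.pull (fun z : (E × H₂) × H₁ => ((z.1.1, T₂ z.1.1 z.1.2),
        T₁ z.1.1 z.2)) V') V := by
  have h₁ := pt_of_iso s₁ i₁ q₁
  have h₂ := pt_of_iso s₂ i₂ q₂
  set B₁ : E → V₁ →L[ℝ] H₁ := fun x => ContinuousLinearMap.adjoint (T₁ x) with hB₁
  set B₂ : E → V₂ →L[ℝ] H₂ := fun x => ContinuousLinearMap.adjoint (T₂ x) with hB₂
  have sΨ : SMap (TT X Q₂ Q₁) (TT X P₂ P₁) (Ph2 B₂ B₁) := smap_Ph2 h₂.sB h₁.sB h₂.mB h₁.mB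
  have sΦ : SMap (TT X P₂ P₁) (TT X Q₂ Q₁) (Ph2 T₂ T₁) := smap_Ph2 h₂.sT h₁.sT h₂.mT h₁.mT
  have hS : Sub (d + r₂ + r₁) (TT X Q₂ Q₁) := sub_TT hX hQ₁ hQ₂
  set W₀ := F.pull (Ph2 B₂ B₁) V with hW₀
  have sW₀ : Sm (TT X Q₂ Q₁) W₀ := sV.pull sΨ
  have cW₀ : Cl (TT X Q₂ Q₁) W₀ := cV.pull sΨ sV
  have zW₀ : ∀ z ∈ TT X Q₂ Q₁, (R < ‖z.2‖ ∨ R < ‖z.1.2‖) →
      pb (Tan (TT X Q₂ Q₁) z).subtype (W₀ z) = 0 := by
    intro z hz hz2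
    have n1 : ‖(Ph2 B₂ B₁ z).2‖ = ‖z.2‖ := h₁.nB _ hz.1.1 _ hz.2
    have n2 : ‖(Ph2 B₂ B₁ z).1.2‖ = ‖z.1.2‖ := h₂.nB _ hz.1.1 _ hz.1.2
    exact pb_pull_eq_zero (sΨ.diff hz) sΨ.maps
      (zV (Ph2 B₂ B₁ z) (sΨ.maps hz) (by rw [n1, n2]; exact hz2))
  have eW := eqv_cut₂ hR zW₀
  have sW : Sm (TT X Q₂ Q₁) (cut₂ R W₀) := fun z hz =>
    ((((contDiff_chi R).comp contDiff_snd).mul
      ((contDiff_chi R).comp (contDiff_snd.comp contDiff_fst))).contDiffAt).smul (sW₀ z hz)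
  refine ⟨cut₂ R W₀, ⟨sW, fun z hz => by rw [cut₂, chi_zero hR hz.le, zero_mul, zero_smul],
    fun z hz => by rw [cut₂, chi_zero hR hz.le, mul_zero, zero_smul],
    Cl.of_eqv hS sW sW₀ eW cW₀⟩, ?_⟩
  have a1 : Eqv (TT X P₂ P₁) (F.pull (Ph2 T₂ T₁) W₀) V := by
    refine (eqv_pull_pull sΦ sΨ (SMap.id _) (fun z hz => ?_) V).trans
      (Eqv.of_eq fun z _ => F.pull_id V z)
    have hT₁ : Triv X (fun _ x => x) (fun _ => ContinuousLinearMap.id ℝ H₁) T₁ :=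
      ⟨s₁, i₁, fun _ _ _ _ => rfl⟩
    have hT₂ : Triv X (fun _ x => x) (fun _ => ContinuousLinearMap.id ℝ H₂) T₂ :=
      ⟨s₂, i₂, fun _ _ _ _ => rfl⟩
    exact Prod.ext (Prod.ext rfl (hT₂.adj hz.1.1 _)) (hT₁.adj hz.1.1 _)
  exact (eW.pull sΦ).trans a1

end Crest.Agent.R208.HO
end
end

-- ▼ part R208/TU9

/-!
Row 208, block TU (helper10), part TU9: the cut off with the energy bound, in the order of the
constants of helper952: `ρ` given, then `c`, `ρ'`, `δ'`, then every `D` with `4π - δ' ≤ D.B`.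
-/

set_option autoImplicit false
set_option linter.unusedSectionVars false
set_option linter.unusedVariables false

open Set Filter Topology MeasureTheory Module
open scoped ContDiff RealInnerProductSpace Interval
open Crest.GeometryTopology.Submanifold
open Crest.Agent.R241.DDefs
open Crest.Agent.R241.D2
open Crest.Agent.R241.D3c
open Crest.Agent.R208.F Crest.Agent.R208.FI Crest.Agent.R208.CW Crest.Agent.R208.T
open Crest.Agent.R208.MS (En)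
open Crest.Agent.R208.KG (OK N2 N3 N4 nest4 nest2 idx)
open Crest.Agent.R208.EX
open Crest.Agent.R208.AK (HC)

noncomputable section

namespace Crest.Agent.R208.TU

variable {n N k d r : ℕ} {κ : ℝ} {S : Set (Euc N)} {G : Geo n N κ S} {ε : ℝ}
  {H₁ H₂ : Type} [NormedAddCommGroup H₁] [InnerProductSpace ℝ H₁] [FiniteDimensional ℝ H₁]
  [NormedAddCommGroup H₂] [InnerProductSpace ℝ H₂] [FiniteDimensional ℝ H₂]
  {P₁ : Euc N × Euc N → H₁ →L[ℝ] H₁} {P₂ : Euc N × Euc N → H₂ →L[ℝ] H₂}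
  {h : GT.Bla G k} {Lz : Euc N × Euc N → (H₂ × H₁) →L[ℝ] (Fin 4 → Euc N)} {r₁ r₂ : ℕ}

/-- properties of the cut off function -/
structure Cut (h : GT.Bla G k) (P₂ : Euc N × Euc N → H₂ →L[ℝ] H₂)
    (P₁ : Euc N × Euc N → H₁ →L[ℝ] H₁) (Lz : Euc N × Euc N → (H₂ × H₁) →L[ℝ] (Fin 4 → Euc N))
    (ε : ℝ) (c : (((Euc N × Euc N) × Euc N) × Euc N) × Euc N → ℝ) (ρ ρ' δ' : ℝ) : Prop where
  smooth : ContDiff ℝ ∞ c
  nonneg : ∀ z, 0 ≤ c z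
  le_one : ∀ z, c z ≤ 1
  tube : ∀ z ∈ N4 h, c z < 1 → ∃ x ∈ TP.TT (L.US G) P₂ P₁, ‖x.1.2‖ < ρ ∧ ‖x.2‖ < ρ ∧ Psi Lz x = z
  zero : ∀ x ∈ TP.TT (L.US G) P₂ P₁, ‖x.1.2‖ < ρ' → ‖x.2‖ < ρ' → c (Psi Lz x) = 0
  en : ∀ z ∈ N4 h, 0 < c z → En (FK G ε 0 z) ≤ 4 * Real.pi - δ'

/-- on the total space the cut off equals one outside the disc bundle -/
theorem Cut.one {c : (((Euc N × Euc N) × Euc N) × Euc N) × Euc N → ℝ} {ρ ρ' δ' : ℝ}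
    (hc : Cut h P₂ P₁ Lz ε c ρ ρ' δ') (hL : LinK h P₂ P₁ Lz)
    {x : ((Euc N × Euc N) × H₂) × H₁} (hx : x ∈ TP.TT (L.US G) P₂ P₁)
    (hxn : ¬ (‖x.1.2‖ < ρ ∧ ‖x.2‖ < ρ)) : c (Psi Lz x) = 1 := by
  by_contra hcon
  have h1 : c (Psi Lz x) < 1 := lt_of_le_of_ne (hc.le_one _) hcon
  obtain ⟨y, hy, h2, h3, h4⟩ := hc.tube _ (hL.Psi_mem hx) h1
  have : y = x := hL.injOn hy hx h4
  exact hxn (this ▸ ⟨h2, h3⟩)

theorem LinK.exists_Cut (hS : IsCompact S) (hO : OK G 4 ε) {c₀ : ℝ} (hc0 : 0 < c₀)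
    (hHC : HC G ε c₀) (hL : LinK h P₂ P₁ Lz) (hP₂ : PField (L.US G) r₂ P₂)
    (hP₁ : PField (L.US G) r₁ P₁) (hr : r₁ + r₂ + 3 = 3 * k) {ρ : ℝ} (hρ : 0 < ρ) :
    ∃ (c : (((Euc N × Euc N) × Euc N) × Euc N) × Euc N → ℝ) (ρ' δ' : ℝ), 0 < ρ' ∧ ρ' < ρ ∧
      0 < δ' ∧ Cut h P₂ P₁ Lz ε c ρ ρ' δ' := by
  obtain ⟨c, ρ', b, h1, h2, h3, h4, h5, h6, h7, h8, h9⟩ := hL.exists_cut hS hP₂ hP₁ hr hρ
  refine ⟨c, ρ', c₀ / 4 * b, h1, h2, by positivity, h4, h5, h6, h7, h8, fun z hz hcz => ?_⟩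
  obtain ⟨i, hi⟩ := h9 z hcz
  have h10 := HC.en hO hc0 hHC (nest4 z) (KG.nest4_mem h hz) i
  have h11 : c₀ / 4 * b ≤ c₀ / 4 * ‖(nest4 z).2 i - (nest4 z).2 (idx 4 0)‖ ^ 2 := by
    have : b ≤ ‖(nest4 z).2 i - (nest4 z).2 (idx 4 0)‖ ^ 2 := hi.le
    gcongr
  change En (KG.F G 4 ε (nest4 z) 0) ≤ _
  linarith

/-- **the pair of forms**, all constants in order -/
theorem Cut.exists_pair {c : (((Euc N × Euc N) × Euc N) × Euc N) × Euc N → ℝ} {ρ ρ' δ' : ℝ}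
    (hc : Cut h P₂ P₁ Lz ε c ρ ρ' δ') (hL : LinK h P₂ P₁ Lz) (hd : d + 1 = 2 * n)
    (hr : r + 1 = k) (hP₂ : PField (L.US G) r₂ P₂) (hP₁ : PField (L.US G) r₁ P₁)
    (hO : OK G 4 ε) {D : ED N} (hD : D.OK) (hDS : D.S = S) (hDB : 4 * Real.pi - δ' ≤ D.B)
    (hρ : 0 < ρ) {ρ₁ : ℝ} (hρ₁ : ρ < ρ₁) {α : Euc N × Euc N → Ext (Euc N × Euc N)}
    (hα : Sm (L.US G) α) (hα1 : Hom 1 α) : ∃ om V, Pair D h P₂ P₁ Lz ε c ρ ρ₁ α om V :=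
  hL.exists_pair hd hr hP₂ hP₁ hO hD hDS hρ hρ₁ hc.smooth hc.le_one hc.tube
    (fun z hz h0 => (hc.en z hz h0).trans hDB) hα hα1

end Crest.Agent.R208.TU
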