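import Crest.Agent.R208.LC3
import Crest.Agent.R208.TU9_Mg
import Crest.Agent.R208.CM5
import Crest.Agent.R208.SN1
import Crest.Agent.R208.FU4
import Crest.Agent.R208.LC6

-- ▼ part R208/AK17
section

/-!
R208, block AK (helper952), part 17: the tube `Psi` in the fields `Q₂ ⊕ Q₁` (pushes of `P₂`, `P₁`) is
a tube in the sense of helper125's `LC`; `N4 h → US G` is an oriented submersion in his sense.
-/

set_option autoImplicit false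
set_option linter.unusedSectionVars false
set_option linter.unusedVariables false

open Set Filter Topology MeasureTheory Module
open scoped ContDiff RealInnerProductSpace
open Crest.GeometryTopology.Submanifold
open Crest.Agent.R241.DDefs
open Crest.Agent.R241.D2
open Crest.Agent.R208.F Crest.Agent.R208.FI Crest.Agent.R208.CW Crest.Agent.R208.T
open Crest.Agent.R208.FV (PVB phi)
open Crest.Agent.R208.SB (OPr)
open Crest.Agent.R208.KG (N4)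
open Crest.Agent.R208.TP (TT CV pu₂)
open Crest.Agent.R208.HO (Pt Ph2 smap_Ph2)

noncomputable section

namespace Crest.Agent.R208.AK

section tub
variable {n N k d r r₁ r₂ : ℕ} {κ : ℝ} {S : Set (Euc N)} {G : Geo n N κ S}
  {H₁ V₁ : Type*} [NormedAddCommGroup H₁] [InnerProductSpace ℝ H₁] [FiniteDimensional ℝ H₁]
  [NormedAddCommGroup V₁] [InnerProductSpace ℝ V₁] [FiniteDimensional ℝ V₁]
  {H₂ V₂ : Type*} [NormedAddCommGroup H₂] [InnerProductSpace ℝ H₂] [FiniteDimensional ℝ H₂]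
  [NormedAddCommGroup V₂] [InnerProductSpace ℝ V₂] [FiniteDimensional ℝ V₂]
  {P₁ : Euc N × Euc N → H₁ →L[ℝ] H₁} {P₂ : Euc N × Euc N → H₂ →L[ℝ] H₂}
  {Q₁ : Euc N × Euc N → V₁ →L[ℝ] V₁} {Q₂ : Euc N × Euc N → V₂ →L[ℝ] V₂}
  {T₁ : Euc N × Euc N → H₁ →L[ℝ] V₁} {T₂ : Euc N × Euc N → H₂ →L[ℝ] V₂}
  {B₁ : Euc N × Euc N → V₁ →L[ℝ] H₁} {B₂ : Euc N × Euc N → V₂ →L[ℝ] H₂}
  {h : GT.Bla G k} {Lz : Euc N × Euc N → (H₂ × H₁) →L[ℝ] (Fin 4 → Euc N)}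

/-- the tube in the fields `Q₂ ⊕ Q₁` -/
def PsiQ (Lz : Euc N × Euc N → (H₂ × H₁) →L[ℝ] (Fin 4 → Euc N))
    (B₂ : Euc N × Euc N → V₂ →L[ℝ] H₂) (B₁ : Euc N × Euc N → V₁ →L[ℝ] H₁)
    (z : ((Euc N × Euc N) × V₂) × V₁) : (((Euc N × Euc N) × Euc N) × Euc N) × Euc N :=
  TU.Psi Lz (Ph2 B₂ B₁ z)

variable (hL : TU.LinK h P₂ P₁ Lz) (h₁ : Pt (L.US G) P₁ Q₁ T₁ B₁) (h₂ : Pt (L.US G) P₂ Q₂ T₂ B₂)

include h₁ h₂ in
theorem smap_B : SMap (TT (L.US G) Q₂ Q₁) (TT (L.US G) P₂ P₁) (Ph2 B₂ B₁) :=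
  smap_Ph2 h₂.sB h₁.sB h₂.mB h₁.mB

include h₁ h₂ in
theorem smap_T : SMap (TT (L.US G) P₂ P₁) (TT (L.US G) Q₂ Q₁) (Ph2 T₂ T₁) :=
  smap_Ph2 h₂.sT h₁.sT h₂.mT h₁.mT

include h₁ h₂ in
theorem Ph2_TB {z : ((Euc N × Euc N) × V₂) × V₁} (hz : z ∈ TT (L.US G) Q₂ Q₁) :
    Ph2 T₂ T₁ (Ph2 B₂ B₁ z) = z :=
  Prod.ext (Prod.ext rfl (h₂.TB _ hz.1.1 _ hz.1.2)) (h₁.TB _ hz.1.1 _ hz.2)

include hL h₁ h₂ in
theorem smap_PsiQ : SMap (TT (L.US G) Q₂ Q₁) (N4 h) (PsiQ Lz B₂ B₁) :=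
  hL.smap_Psi.comp (smap_B h₁ h₂)

include hL h₁ h₂ in
/-- **the tube in the sense of helper125**, for any size function -/
theorem tub_PsiQ (hP₂ : PField (L.US G) r₂ P₂) (hP₁ : PField (L.US G) r₁ P₁)
    (Nf : ((Euc N × Euc N) × V₂) × V₁ → ℝ) {ρ : ℝ} (hρ : 0 < ρ) :
    LC.Tub (TT (L.US G) Q₂ Q₁) (fun z => z.1.1) Nf (N4 h) (fun z => z.1.1.1) (PsiQ Lz B₂ B₁) ρ where
  pos := hρ
  smooth z hz _ := (smap_PsiQ hL h₁ h₂).smooth z hz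
  maps z hz _ := (smap_PsiQ hL h₁ h₂).maps hz
  pr z hz _ := rfl
  inj z hz z' hz' _ _ he := by
    have h3 := hL.injOn ((smap_B h₁ h₂).maps hz) ((smap_B h₁ h₂).maps hz') he
    rw [← Ph2_TB h₁ h₂ hz, h3, Ph2_TB h₁ h₂ hz']
  imm z hz _ v hv h0 := by
    have sB := smap_B h₁ h₂
    have sT := smap_T h₁ h₂
    have dB : DifferentiableAt ℝ (Ph2 B₂ B₁) z := sB.diff hz
    have dT : DifferentiableAt ℝ (Ph2 T₂ T₁) (Ph2 B₂ B₁ z) := sT.diff (sB.maps hz)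
    have dP : DifferentiableAt ℝ (TU.Psi Lz) (Ph2 B₂ B₁ z) := hL.smap_Psi.diff (sB.maps hz)
    have e1 : fderiv ℝ (PsiQ Lz B₂ B₁) z v =
        fderiv ℝ (TU.Psi Lz) (Ph2 B₂ B₁ z) (fderiv ℝ (Ph2 B₂ B₁) z v) := by
      have : PsiQ Lz B₂ B₁ = TU.Psi Lz ∘ Ph2 B₂ B₁ := rfl
      rw [this, fderiv_comp z dP dB]
      rfl
    rw [e1] at h0
    have h3 : fderiv ℝ (Ph2 B₂ B₁) z v = 0 := hL.fderiv_inj hP₂ hP₁ (sB.maps hz)
      (fderiv_mapsTo_Tan dB (fun y hy => sB.maps hy) hv) h0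
    have h4 : fderiv ℝ (Ph2 T₂ T₁ ∘ Ph2 B₂ B₁) z v = fderiv ℝ (fun y => y) z v :=
      TU.fderiv_eq_on (X := TT (L.US G) Q₂ Q₁) (dT.comp z dB) differentiableAt_id
        (fun y hy => Ph2_TB h₁ h₂ hy) hv
    rw [fderiv_comp z dT dB, ContinuousLinearMap.comp_apply, h3, map_zero] at h4
    have h5 : fderiv ℝ (fun y : ((Euc N × Euc N) × V₂) × V₁ => y) z v = v := by
      rw [show (fun y : ((Euc N × Euc N) × V₂) × V₁ => y) = id from rfl, fderiv_id]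
      rfl
    rw [h5] at h4
    exact h4.symm

end tub

section os
variable {n N k d r : ℕ} {κ : ℝ} {S : Set (Euc N)} {G : Geo n N κ S} {h : GT.Bla G k}
  {oP : Euc N × Euc N → Ext (Euc N)} {oX : Euc N × Euc N → Ext (Euc N × Euc N)}

/-- **`N4 h → US G` in the sense of helper125** -/
theorem os_N4 (hr : r + 1 = k) (hd : d + 1 = 2 * n)
    (ho : OPr (L.US G) k (fun z => PVB h (phi G z)) oP) (hoX : Ori d (L.US G) oX)
    (hsX : Sm (L.US G) oX) (hdX : Hom d oX) :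
    LC.OS (r + (r + r)) d (N4 h) (L.US G) (fun z => z.1.1.1) (TU.v4 oP) oX where
  subm := (TU.osubm_N4_US hr hd ho hoX hdX).subm
  sV := fun z hz => TU.contDiffAt_v4 ho hz
  hV := TU.hom_v4 hr ho
  sX := hsX
  hX := hdX
  ori := (TU.osubm_N4_US hr hd ho hoX hdX).tot

end os

end Crest.Agent.R208.AK
end
end

-- ▼ part R208/AK18
section

/-!
R208, block AK (helper952), part 18: the localisation formula of helper125 applied to helper10's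
pair of forms on `N4 h`: the integral of the vertical integral over `US G` is the integral of the
form of the flat loops over `N4 h`.
-/

set_option autoImplicit false
set_option linter.unusedSectionVars false
set_option linter.unusedVariables false

open Set Filter Topology MeasureTheory Module
open scoped ContDiff RealInnerProductSpace
open Crest.GeometryTopology.Submanifold
open Crest.Agent.R241.DDefs
open Crest.Agent.R241.D2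
open Crest.Agent.R208.F Crest.Agent.R208.FI Crest.Agent.R208.CW Crest.Agent.R208.T
open Crest.Agent.R208.FV (PVB phi)
open Crest.Agent.R208.SB (OPr)
open Crest.Agent.R208.KG (OK N4)
open Crest.Agent.R208.TP (TT CV pu₂)
open Crest.Agent.R208.HO (Pt Ph2 smap_Ph2)
open Crest.Agent.R208.EX (ED LF)

noncomputable section

namespace Crest.Agent.R208.AK

section gen
variable {E : Type*} [NormedAddCommGroup E] [NormedSpace ℝ E] [FiniteDimensional ℝ E]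
  {d : ℕ} {X : Set E} {o om : E → Ext E}

theorem J_dp_right (hX : Clo d X) : J d X o (T.dp d om) = J d X o om :=
  CM.J_congr_dens hX (fun _ _ => rfl) (fun x _ => by
    show evA E d (dpl d (om x)) _ = _
    rw [CM.evA_dpl_same])

end gen

/-- the form of a family of loops is smooth -/
theorem sm_vs {N m : ℕ} {E : Type} [NormedAddCommGroup E] [NormedSpace ℝ E] [FiniteDimensional ℝ E]
    {X : Set E} {D : ED N} {α : E → Ext E} {f : E → ℝ → Euc N} (hD : D.OK) (hX : Sub m X)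
    (hα : Sm X α) (hα1 : Hom 1 α) (hf : LF D.S X f) : Sm X (D.vs α f) := by
  have hA := EX.act_rot X
  have hdat := hD.dat hf.fam
  have hcn := EX.cn_th hα hα1
  have hb := hcn.bas hA (EX.sub_prodC hX)
  exact (VC.sm_vv (p := D.p) (q := D.q) (r := D.r) (s := D.s) hA hb hdat).pull (EX.smap_sl _)

section loc
variable {n N k d r b j mK : ℕ} {κ : ℝ} {S : Set (Euc N)} {G : Geo n N κ S}
  {H₁ H₂ : Type} [NormedAddCommGroup H₁] [InnerProductSpace ℝ H₁] [FiniteDimensional ℝ H₁]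
  [NormedAddCommGroup H₂] [InnerProductSpace ℝ H₂] [FiniteDimensional ℝ H₂]
  {V₁ V₂ : Type*} [NormedAddCommGroup V₁] [InnerProductSpace ℝ V₁] [FiniteDimensional ℝ V₁]
  [NormedAddCommGroup V₂] [InnerProductSpace ℝ V₂] [FiniteDimensional ℝ V₂]
  {P₁ : Euc N × Euc N → H₁ →L[ℝ] H₁} {P₂ : Euc N × Euc N → H₂ →L[ℝ] H₂}
  {Q₁ : Euc N × Euc N → V₁ →L[ℝ] V₁} {Q₂ : Euc N × Euc N → V₂ →L[ℝ] V₂}
  {T₁ : Euc N × Euc N → H₁ →L[ℝ] V₁} {T₂ : Euc N × Euc N → H₂ →L[ℝ] V₂}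
  {B₁ : Euc N × Euc N → V₁ →L[ℝ] H₁} {B₂ : Euc N × Euc N → V₂ →L[ℝ] H₂}
  {h : GT.Bla G k} {Lz : Euc N × Euc N → (H₂ × H₁) →L[ℝ] (Fin 4 → Euc N)}
  {oP : Euc N × Euc N → Ext (Euc N)} {oX : Euc N × Euc N → Ext (Euc N × Euc N)}
  {ε ρ ρ₁ R kk : ℝ} {D : ED N} {c : (((Euc N × Euc N) × Euc N) × Euc N) × Euc N → ℝ}
  {α : Euc N × Euc N → Ext (Euc N × Euc N)}
  {om : (((Euc N × Euc N) × Euc N) × Euc N) × Euc N →
    Ext ((((Euc N × Euc N) × Euc N) × Euc N) × Euc N)}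
  {V : ((Euc N × Euc N) × H₂) × H₁ → Ext (((Euc N × Euc N) × H₂) × H₁)}
  {V₀ : ((Euc N × Euc N) × V₂) × V₁ → Ext (((Euc N × Euc N) × V₂) × V₁)}
  {pu : (((Euc N × Euc N) × V₂) × V₁ → Ext (((Euc N × Euc N) × V₂) × V₁)) →
    Euc N × Euc N → Ext (Euc N × Euc N)}

/-- **LOCALISATION for helper10's pair of forms** -/
theorem loc_pair (hL : TU.LinK h P₂ P₁ Lz) (h₁ : Pt (L.US G) P₁ Q₁ T₁ B₁)
    (h₂ : Pt (L.US G) P₂ Q₂ T₂ B₂) {r₁ r₂ : ℕ}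
    (hP₂ : PField (L.US G) r₂ P₂) (hP₁ : PField (L.US G) r₁ P₁)
    (iB₁ : ∀ x ∈ L.US G, ∀ w, P₁ x w = w → B₁ x (T₁ x w) = w ∧ ‖T₁ x w‖ = ‖w‖)
    (iB₂ : ∀ x ∈ L.US G, ∀ w, P₂ x w = w → B₂ x (T₂ x w) = w ∧ ‖T₂ x w‖ = ‖w‖)
    (hFO : LC.FO (r + (r + r)) kk (L.US G) (TT (L.US G) Q₂ Q₁) (fun z => z.1.1)
      (fun z => max ‖z.1.2‖ ‖z.2‖) pu)
    (hr : r + 1 = k) (hd : d + 1 = 2 * n) (hUc : IsPreconnected (L.US G))
    (ho : OPr (L.US G) k (fun z => PVB h (phi G z)) oP) (hoX : Ori d (L.US G) oX)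
    (hsX : Sm (L.US G) oX) (hdX : Hom d oX) (hO : OK G 4 ε) (hD : D.OK) (hDS : D.S = S)
    (hα : Sm (L.US G) α) (hα1 : Hom 1 α) (hP : TU.Pair D h P₂ P₁ Lz ε c ρ ρ₁ α om V)
    (hV₀ : CV (L.US G) Q₂ Q₁ R V₀)
    (e₀ : Eqv (TT (L.US G) P₂ P₁) (F.pull (Ph2 T₂ T₁) V₀) (T.dp j V)) :
    ∃ s : ℝ, (s = 1 ∨ s = -1) ∧ ∀ y : Euc N × Euc N → Ext (Euc N × Euc N), Sm (L.US G) y →
      Cl (L.US G) y → Hom b y → j + b = r + (r + r) + d →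
      J d (L.US G) oX (pu V₀ * y) = s * kk * J (r + (r + r) + d) (N4 h)
        (fun z => TU.v4 oP z * F.pull (fun z => z.1.1.1) oX z)
        (D.vs (F.pull TU.bN α) (TU.FK G ε 1) * F.pull (fun z => z.1.1.1) y) := by
  have hS := os_N4 hr hd ho hoX hsX hdX
  set ρ' := max (max R ρ) 0 with hρ'
  have hρ'0 : 0 ≤ ρ' := le_max_right _ _
  have hT := tub_PsiQ hL h₁ h₂ hP₂ hP₁
    (fun z : ((Euc N × Euc N) × V₂) × V₁ => max ‖z.1.2‖ ‖z.2‖) (ρ := ρ' + 1) (by linarith)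
  obtain ⟨s, hs, hloc⟩ := LC.loc hFO hT hS hUc
  refine ⟨s, hs, fun y sy cy hy hjb => ?_⟩
  have sB := smap_B (G := G) h₁ h₂
  have sT := smap_T (G := G) h₁ h₂
  have hbN : SMap (N4 h) (L.US G) TU.bN := TU.smap_bN
  have hK : Clo (r + (r + r) + d) (N4 h) := hS.subm.cloZ
  have sOm : Sm (N4 h) om := hP.rel.1
  have vV₀ : ∀ z : ((Euc N × Euc N) × V₂) × V₁, ρ' < max ‖z.1.2‖ ‖z.2‖ → V₀ z = 0 := by
    intro z hz
    rcases lt_max_iff.1 hz with h1 | h1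
    · exact hV₀.supp₂ z (lt_of_le_of_lt ((le_max_left R ρ).trans (le_max_left _ _)) h1)
    · exact hV₀.supp₁ z (lt_of_le_of_lt ((le_max_left R ρ).trans (le_max_left _ _)) h1)
  -- the form on the tube
  have e1 : Eqv (TT (L.US G) Q₂ Q₁) (F.pull (PsiQ Lz B₂ B₁) (T.dp j om)) V₀ := by
    have a1 : Eqv (TT (L.US G) Q₂ Q₁) (F.pull (Ph2 B₂ B₁) (F.pull (Ph2 T₂ T₁) V₀)) V₀ := by
      refine (eqv_pull_pull sB sT (SMap.id _) (fun z hz => ?_) V₀).trans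
        (Eqv.of_eq fun z _ => F.pull_id V₀ z)
      exact Ph2_TB h₁ h₂ hz
    have a2 : Eqv (TT (L.US G) Q₂ Q₁) (F.pull (Ph2 B₂ B₁) (F.pull (Ph2 T₂ T₁) V₀))
        (T.dp j (F.pull (Ph2 B₂ B₁) V)) := by
      rw [dp_pull]; exact e₀.pull sB
    have a3 : Eqv (TT (L.US G) Q₂ Q₁) (F.pull (Ph2 B₂ B₁) V)
        (F.pull (PsiQ Lz B₂ B₁) om) := by
      refine ((Eqv.of_eq (X := TT (L.US G) P₂ P₁) (fun x hx => hP.eqV x hx)).pull sB).trans ?_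
      exact eqv_pull_pull sB hL.smap_Psi (smap_PsiQ hL h₁ h₂) (fun z hz => rfl) om
    rw [← dp_pull]
    exact (a3.dp j).symm.trans (a2.symm.trans a1)
  -- vanishing off the tube
  have e2 : ∀ w ∈ N4 h, (¬ ∃ z ∈ TT (L.US G) Q₂ Q₁, max ‖z.1.2‖ ‖z.2‖ ≤ ρ' ∧
      PsiQ Lz B₂ B₁ z = w) → pb (Tan (N4 h) w).subtype (T.dp j om w) = 0 := by
    intro w hw hne
    have h3 : om w = 0 := by
      refine hP.off w hw ?_
      rintro ⟨x, ⟨hx, hx2, hx1⟩, rfl⟩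
      have i2 := iB₂ _ hx.1.1 _ hx.1.2
      have i1 := iB₁ _ hx.1.1 _ hx.2
      refine hne ⟨Ph2 T₂ T₁ x, sT.maps hx, ?_, ?_⟩
      · have n2 : ‖(Ph2 T₂ T₁ x).1.2‖ = ‖x.1.2‖ := i2.2
        have n1 : ‖(Ph2 T₂ T₁ x).2‖ = ‖x.2‖ := i1.2
        rw [n2, n1]
        exact (max_le hx2.le hx1.le).trans ((le_max_right R ρ).trans (le_max_left _ _))
      · have : Ph2 B₂ B₁ (Ph2 T₂ T₁ x) = x := Prod.ext (Prod.ext rfl i2.1) i1.1
        rw [PsiQ, this]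
    rw [T.dp, h3, map_zero, map_zero]
  have h1 := hloc V₀ (T.dp j om) y j b ρ' (by linarith) hV₀.smooth vV₀ (sOm.dp j)
    (T.hom_dp j om) sy hy hjb (Eqv.mono_tan inter_subset_left e1) e2
  rw [h1]
  congr 1
  -- drop the degree
  have h2 : T.dp j om * F.pull (fun z => z.1.1.1) y = T.dp (r + (r + r) + d)
      (om * F.pull (fun z => z.1.1.1) y) := by
    rw [← hjb]
    exact (T.dp_mul_hom hy.pull j).symm
  rw [h2, J_dp_right hK]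
  -- Stokes
  have h3 := Coh.mul_right (sy.pull hbN) (cy.pull hbN sy) hP.flat
  have h01 : (1 : ℝ) ∈ Icc (0 : ℝ) 1 := ⟨zero_le_one, le_rfl⟩
  have s2 : Sm (N4 h) (D.vs (F.pull TU.bN α) (TU.FK G ε 1)) :=
    sm_vs hD hK.sub (hα.pull hbN) hα1.pull (by rw [hDS]; exact TU.lf_N4 hO h h01)
  exact SN.J_of_coh hK hS.ori (sOm.mul (sy.pull hbN)) (s2.mul (sy.pull hbN)) h3

end loc

end Crest.Agent.R208.AK
end
end

-- ▼ part R208/AK19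

/-!
R208, block AK (helper952), part 19: **the core of (A2)**: the integral over `US G` of the vertical
integral of the level two form is, up to sign and helper125's constant, the integral over `N4 h` of
the form of the flat loops.
-/

set_option autoImplicit false
set_option linter.unusedSectionVars false
set_option linter.unusedVariables false
set_option maxHeartbeats 1600000

open Set Filter Topology MeasureTheory Module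
open scoped ContDiff RealInnerProductSpace
open Crest.GeometryTopology.Submanifold
open Crest.Agent.R241.DDefs
open Crest.Agent.R241.D2
open Crest.Agent.R208.F Crest.Agent.R208.FI Crest.Agent.R208.CW Crest.Agent.R208.T
open Crest.Agent.R208.FV (PVB phi)
open Crest.Agent.R208.SB (OPr)
open Crest.Agent.R208.KG (OK N4)
open Crest.Agent.R208.MS (En)
open Crest.Agent.R208.TP (TT CV pu₂)
open Crest.Agent.R208.CM (Triv Qd)
open Crest.Agent.R208.HO (Pt Ph2 smap_Ph2)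
open Crest.Agent.R208.EX (ED LF)
open Crest.Agent.R208.SN (kGG)

noncomputable section

namespace Crest.Agent.R208.AK

section core
variable {n N k d r j : ℕ} {κ : ℝ} {S : Set (Euc N)} {G : Geo n N κ S}
  {H₁ H₂ : Type} [NormedAddCommGroup H₁] [InnerProductSpace ℝ H₁] [FiniteDimensional ℝ H₁]
  [NormedAddCommGroup H₂] [InnerProductSpace ℝ H₂] [FiniteDimensional ℝ H₂]
  {n₁ n₂ ι₁ ι₂ : Type} [Fintype n₁] [DecidableEq n₁] [Fintype n₂] [DecidableEq n₂]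
  [Fintype ι₁] [DecidableEq ι₁] [Fintype ι₂] [DecidableEq ι₂] [Nonempty ι₁] [Nonempty ι₂]
  {P₁ : Euc N × Euc N → H₁ →L[ℝ] H₁} {P₂ : Euc N × Euc N → H₂ →L[ℝ] H₂}
  {Q₁ : Euc N × Euc N → EuclideanSpace ℝ n₁ →L[ℝ] EuclideanSpace ℝ n₁}
  {Q₂ : Euc N × Euc N → EuclideanSpace ℝ n₂ →L[ℝ] EuclideanSpace ℝ n₂}
  {T₁ : Euc N × Euc N → H₁ →L[ℝ] EuclideanSpace ℝ n₁}
  {T₂ : Euc N × Euc N → H₂ →L[ℝ] EuclideanSpace ℝ n₂}
  {W₁ : Euc N × Euc N → (ι₁ × Fin 2 → n₁) → ℝ} {W₂ : Euc N × Euc N → (ι₂ × Fin 2 → n₂) → ℝ}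
  {R R₀ R₁ R₂ rJ : ℝ} {D : ED N} {h : GT.Bla G k}
  {Lz : Euc N × Euc N → (H₂ × H₁) →L[ℝ] (Fin 4 → Euc N)} {εg : ℝ}
  {cK : (((Euc N × Euc N) × Euc N) × Euc N) × Euc N → ℝ} {ρ ρ' δ' : ℝ}
  {α : Euc N × Euc N → Ext (Euc N × Euc N)}
  {V : ((Euc N × Euc N) × H₂) × H₁ → Ext (((Euc N × Euc N) × H₂) × H₁)}
  {fJ : (((Euc N × Euc N) × H₂) × H₁) × ℝ → ℝ → Euc N}
  {fo : ((Euc N × Euc N) × H₂) × H₁ → ℝ → Euc N}
  {c : ((Euc N × Euc N) × H₂) × H₁ → ℝ}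
  {W : ((Euc N × Euc N) × EuclideanSpace ℝ n₂) × EuclideanSpace ℝ n₁ →
    Ext (((Euc N × Euc N) × EuclideanSpace ℝ n₂) × EuclideanSpace ℝ n₁)}
  {oP : Euc N × Euc N → Ext (Euc N)} {oX : Euc N × Euc N → Ext (Euc N × Euc N)}

/-- **the core of (A2)** -/
theorem a2_core (hr : r + 1 = k) (hd : d + 1 = 2 * n) (hUc : IsPreconnected (L.US G))
    (hoP : OPr (L.US G) k (fun z => PVB h (phi G z)) oP) (hoX : Ori d (L.US G) oX)
    (hsX : Sm (L.US G) oX) (hdX : Hom d oX)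
    (I : FU.Iso (L.US G) r (r + r) P₁ P₂ Q₁ Q₂ T₁ T₂ R₁ R₂ (thomF (fun x => 1 - Q₁ x) W₁)
      (thomF (fun x => 1 - Q₂ x) W₂))
    (or₁ : OR (L.US G) (fun x => 1 - Q₁ x) W₁) (or₂ : OR (L.US G) (fun x => 1 - Q₂ x) W₂)
    (hD : D.OK) (hS : D.S = S) (hO : OK G 4 εg) (hL : TU.LinK h P₂ P₁ Lz)
    (hC : TU.Cut h P₂ P₁ Lz εg cK ρ ρ' δ') (hρ : 0 < ρ) (hDB : 4 * Real.pi - δ' ≤ D.B)
    (hα : Sm (L.US G) α) (hα1 : Hom 1 α) (hρr : ρ < rJ)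
    (hf : LF S ((TT (L.US G) P₂ P₁ ∩ FU.Ud N H₂ H₁ rJ) ×ˢ (univ : Set ℝ)) fJ)
    (hf0 : ∀ x ∈ TT (L.US G) P₂ P₁ ∩ FU.Ud N H₂ H₁ rJ, ∀ t,
      fJ (x, 0) t = TU.FK G εg 0 (TU.Psi Lz x) t)
    (hf1 : ∀ x ∈ TT (L.US G) P₂ P₁ ∩ FU.Ud N H₂ H₁ rJ, ∀ t, fJ (x, 1) t = fo x t)
    (hfE : ∀ x ∈ TT (L.US G) P₂ P₁ ∩ FU.Ud N H₂ H₁ rJ, ∀ τ, ¬ (‖x.1.2‖ < ρ' ∧ ‖x.2‖ < ρ') →
      En (fJ (x, τ)) ≤ D.B)
    (ho : LF S (TT (L.US G) P₂ P₁) fo)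
    (hoE : ∀ x ∈ TT (L.US G) P₂ P₁, ¬ (‖x.1.2‖ < ρ' ∧ ‖x.2‖ < ρ') → En (fo x) ≤ D.B)
    (hR : 0 < R) (hc : ∀ x ∈ TT (L.US G) P₂ P₁, ContDiffAt ℝ ∞ c x)
    (hcE : ∀ x ∈ TT (L.US G) P₂ P₁, 0 < c x → En (fo x) ≤ D.B)
    (hcR : ∀ x ∈ TT (L.US G) P₂ P₁, (R < ‖x.2‖ ∨ R < ‖x.1.2‖) → 3 / 4 < c x)
    (hV : D.IsRel (TT (L.US G) P₂ P₁) (F.pull TU.bT α) fo c V)
    (hW : CV (L.US G) Q₂ Q₁ R₀ W)
    (eW : Eqv (TT (L.US G) P₂ P₁) (F.pull (Ph2 T₂ T₁) W) (T.dp j V)) :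
    ∀ (y : Euc N × Euc N → Ext (Euc N × Euc N)) (b : ℕ), Sm (L.US G) y →
      Cl (L.US G) y → Hom b y → j + b = r + (r + r) + d →
      |J d (L.US G) oX (pu₂ volume volume Q₂ (thomF (fun x => 1 - Q₂ x) W₂) Q₁
        (thomF (fun x => 1 - Q₁ x) W₁) W * y)| =
      ((kGG ι₂ * LC.del (EuclideanSpace ℝ n₂)) * (kGG ι₁ * LC.del (EuclideanSpace ℝ n₁))) *
        |J (r + (r + r) + d) (N4 h) (fun z => TU.v4 oP z * F.pull (fun z => z.1.1.1) oX z)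
          (D.vs (F.pull TU.bN α) (TU.FK G εg 1) * F.pull (fun z => z.1.1.1) y)| := by
  intro y b sy cy hy hjb
  have hX : Clo d (L.US G) := SB.clo_US h hd
  have h₁ := HO.pt_of_iso I.s₁ I.i₁ I.q₁
  have h₂ := HO.pt_of_iso I.s₂ I.i₂ I.q₂
  have hT₁ : Triv (L.US G) (fun _ x => x) (fun _ => ContinuousLinearMap.id ℝ H₁) T₁ :=
    ⟨I.s₁, I.i₁, fun _ _ _ _ => rfl⟩
  have hT₂ : Triv (L.US G) (fun _ x => x) (fun _ => ContinuousLinearMap.id ℝ H₂) T₂ :=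
    ⟨I.s₂, I.i₂, fun _ _ _ _ => rfl⟩
  obtain ⟨om, V₀, hP⟩ := hC.exists_pair hL hd hr I.hP₂ I.hP₁ hO hD hS hDB hρ (ρ₁ := ρ + 1)
    (by linarith) hα hα1
  -- the form in the fields `Q`
  obtain ⟨W0, hW0, eW0⟩ := HO.exists_CV_iso hX.sub I.s₁ I.i₁ I.s₂ I.i₂ I.q₁ I.q₂ I.hQ₁ I.hQ₂
    hρ.le (V := T.dp j V₀) (hP.cv.smooth.dp j) (Cl.dp j hP.cv.smooth hP.cv.closed)
    (fun z hz h0 => by
      rw [T.dp, hP.offV z hz (fun h1 => by
        rcases h0 with h0 | h0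
        · exact absurd h1.2 (not_lt.2 h0.le)
        · exact absurd h1.1 (not_lt.2 h0.le)), map_zero, map_zero]) I.hP₁ I.hP₂
  have hcoh := FU.main (volume : Measure (EuclideanSpace ℝ n₁))
    (volume : Measure (EuclideanSpace ℝ n₂)) hd I hD hS hO hL hC hρ hDB hα hα1 hP hρr hf hf0 hf1
    hfE ho hoE hR hc hcE hcR hV j hW hW0 eW eW0
  have hFO := LC.fo_pu₂ hX.sub I.hQ₁ I.hQ₂ or₁ or₂
  obtain ⟨s, hs, hloc⟩ := loc_pair (b := b) (j := j) hL h₁ h₂ I.hP₂ I.hP₁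
    (fun x hx w _ => ⟨hT₁.adj hx w, I.i₁ x hx w⟩) (fun x hx w _ => ⟨hT₂.adj hx w, I.i₂ x hx w⟩)
    hFO hr hd hUc hoP hoX hsX hdX hO hD hS hα hα1 hP hW0 eW0
  have s1 := hFO.sm hW.smooth (R := R₀) (fun z hz => by
    rcases lt_max_iff.1 hz with h1 | h1
    · exact hW.supp₂ z h1
    · exact hW.supp₁ z h1)
  have s2 := hFO.sm hW0.smooth (R := ρ + 1) (fun z hz => by
    rcases lt_max_iff.1 hz with h1 | h1
    · exact hW0.supp₂ z h1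
    · exact hW0.supp₁ z h1)
  have e1 := SN.J_of_coh hX hoX (s1.mul sy) (s2.mul sy) (Coh.mul_right sy cy hcoh)
  rw [e1, hloc y sy cy hy hjb, abs_mul, abs_mul]
  have hk : 0 < (kGG ι₂ * LC.del (EuclideanSpace ℝ n₂)) *
      (kGG ι₁ * LC.del (EuclideanSpace ℝ n₁)) := hFO.kpos
  rw [abs_of_pos hk]
  rcases hs with rfl | rfl <;> simp

end core

end Crest.Agent.R208.AK
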