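import Crest.Agent.R208.AK2
import Crest.Agent.R208.MS1b

-- ▼ part R208/AK3
section

/-!
R208, block AK (helper952), part 3: two families of loops whose linearisations are joined by a
path of negative fields are homotopic below the level.
-/

set_option autoImplicit false
set_option linter.unusedSectionVars false

open Set Filter Topology MeasureTheory
open scoped ContDiff RealInnerProductSpace Interval
open Crest.GeometryTopology.Submanifold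
open Crest.Agent.R241.DDefs
open Crest.Agent.R241.D2
open Crest.Agent.R208.SV (ixd ix)

noncomputable section

namespace Crest.Agent.R208.AK

variable {n N : ℕ} {κ : ℝ} {S : Set (Euc N)} {G : Geo n N κ S}
  {E V : Type*} [NormedAddCommGroup E] [NormedSpace ℝ E]
  [NormedAddCommGroup V] [NormedSpace ℝ V]

lemma LFam.mono {K : Set E} {P : E → V →L[ℝ] V} {T : ℝ} {g : E → Euc N × Euc N}
    {F : (E × V) × ℝ → Euc N} {r r' : ℝ} (h : LFam G K P T g F r) (hr' : 0 < r')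
    (hrr' : r' ≤ r) : LFam G K P T g F r' where
  rpos := hr'
  smooth x hx ζ hP hζ t := h.smooth x hx ζ hP (hζ.trans_le hrr') t
  mem x hx ζ hP hζ t := h.mem x hx ζ hP (hζ.trans_le hrr') t
  per x hx ζ hP hζ t := h.per x hx ζ hP (hζ.trans_le hrr') t
  zero := h.zero

lemma LFam.zero_mem {K : Set E} {P : E → V →L[ℝ] V} {T : ℝ} {g : E → Euc N × Euc N}
    {F : (E × V) × ℝ → Euc N} {r : ℝ} (h : LFam G K P T g F r) {x : E} (hx : x ∈ K) (t : ℝ) :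
    ContDiffAt ℝ ∞ F ((x, 0), t) :=
  h.smooth x hx 0 (map_zero _) (by simpa using h.rpos) t

/-- smooth path of linear families of fields along the geodesics `g x`, `x ∈ K`, `τ ∈ [0,1]` -/
structure LPath (G : Geo n N κ S) (K : Set E) (P : E → V →L[ℝ] V) (T : ℝ)
    (g : E → Euc N × Euc N) (A : ((E × ℝ) × V) × ℝ → Euc N) (δ : ℝ) : Prop where
  smooth : ∀ x ∈ K, ∀ τ ∈ Icc (0:ℝ) 1, ∀ ζ : V, P x ζ = ζ → ∀ t,
    ContDiffAt ℝ ∞ A (((x, τ), ζ), t)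
  hom : ∀ x ∈ K, ∀ τ ∈ Icc (0:ℝ) 1, ∀ ζ : V, P x ζ = ζ → ∀ s t : ℝ,
    A (((x, τ), s • ζ), t) = s • A (((x, τ), ζ), t)
  tan : ∀ x ∈ K, ∀ τ ∈ Icc (0:ℝ) 1, ∀ ζ : V, P x ζ = ζ → ∀ t,
    A (((x, τ), ζ), t) ∈ G.T (fl G (g x, t)).1
  per : ∀ x ∈ K, ∀ τ ∈ Icc (0:ℝ) 1, ∀ ζ : V, P x ζ = ζ → ∀ t,
    A (((x, τ), ζ), t + T) = A (((x, τ), ζ), t)
  pos : 0 < δ
  neg : ∀ x ∈ K, ∀ τ ∈ Icc (0:ℝ) 1, ∀ ζ : V, P x ζ = ζ →
    ix G (g x) 0 T (fun t => A (((x, τ), ζ), t)) (deriv fun t => A (((x, τ), ζ), t))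
      (fun t => A (((x, τ), ζ), t)) (deriv fun t => A (((x, τ), ζ), t)) ≤ -δ * ‖ζ‖ ^ 2

section join

variable (F0 F1 : (E × V) × ℝ → Euc N) (A : ((E × ℝ) × V) × ℝ → Euc N)

/-- the interpolation in `ℝ^N` -/
def jn (p : ((E × ℝ) × V) × ℝ) : Euc N :=
  F0 ((p.1.1.1, 0), p.2) + A p +
    (1 - p.1.1.2) • (F0 ((p.1.1.1, p.1.2), p.2) - F0 ((p.1.1.1, 0), p.2) -
      A (((p.1.1.1, 0), p.1.2), p.2)) +
    p.1.1.2 • (F1 ((p.1.1.1, p.1.2), p.2) - F0 ((p.1.1.1, 0), p.2) -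
      A (((p.1.1.1, 1), p.1.2), p.2))

variable {F0 F1 A} {K : Set E} {P : E → V →L[ℝ] V} {T : ℝ} {g : E → Euc N × Euc N} {r δ : ℝ}

lemma contDiffAt_jn (h0 : LFam G K P T g F0 r) (h1 : LFam G K P T g F1 r)
    (hA : LPath G K P T g A δ) {x : E} (hx : x ∈ K) {τ : ℝ} (hτ : τ ∈ Icc (0:ℝ) 1) {ζ : V}
    (hζP : P x ζ = ζ) (hζ : ‖ζ‖ < r) (t : ℝ) :
    ContDiffAt ℝ ∞ (jn F0 F1 A) (((x, τ), ζ), t) := by
  have c1 : ContDiffAt ℝ ∞ (fun p : ((E × ℝ) × V) × ℝ => F0 ((p.1.1.1, 0), p.2))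
      (((x, τ), ζ), t) :=
    ContDiffAt.comp (g := F0) (f := fun p : ((E × ℝ) × V) × ℝ => ((p.1.1.1, 0), p.2))
      (((x, τ), ζ), t) (h0.zero_mem hx t) (by fun_prop)
  have c2 : ContDiffAt ℝ ∞ (fun p : ((E × ℝ) × V) × ℝ => F0 ((p.1.1.1, p.1.2), p.2))
      (((x, τ), ζ), t) :=
    ContDiffAt.comp (g := F0) (f := fun p : ((E × ℝ) × V) × ℝ => ((p.1.1.1, p.1.2), p.2))
      (((x, τ), ζ), t) (h0.smooth x hx ζ hζP hζ t) (by fun_prop)
  have c3 : ContDiffAt ℝ ∞ (fun p : ((E × ℝ) × V) × ℝ => F1 ((p.1.1.1, p.1.2), p.2))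
      (((x, τ), ζ), t) :=
    ContDiffAt.comp (g := F1) (f := fun p : ((E × ℝ) × V) × ℝ => ((p.1.1.1, p.1.2), p.2))
      (((x, τ), ζ), t) (h1.smooth x hx ζ hζP hζ t) (by fun_prop)
  have c4 : ContDiffAt ℝ ∞ (fun p : ((E × ℝ) × V) × ℝ => A (((p.1.1.1, 0), p.1.2), p.2))
      (((x, τ), ζ), t) :=
    ContDiffAt.comp (g := A) (f := fun p : ((E × ℝ) × V) × ℝ => (((p.1.1.1, 0), p.1.2), p.2))
      (((x, τ), ζ), t) (hA.smooth x hx 0 ⟨le_rfl, zero_le_one⟩ ζ hζP t) (by fun_prop)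
  have c5 : ContDiffAt ℝ ∞ (fun p : ((E × ℝ) × V) × ℝ => A (((p.1.1.1, 1), p.1.2), p.2))
      (((x, τ), ζ), t) :=
    ContDiffAt.comp (g := A) (f := fun p : ((E × ℝ) × V) × ℝ => (((p.1.1.1, 1), p.1.2), p.2))
      (((x, τ), ζ), t) (hA.smooth x hx 1 ⟨zero_le_one, le_rfl⟩ ζ hζP t) (by fun_prop)
  have c6 := hA.smooth x hx τ hτ ζ hζP t
  have d1 : ContDiffAt ℝ ∞ (fun p : ((E × ℝ) × V) × ℝ => (1 - p.1.1.2 : ℝ))
      (((x, τ), ζ), t) := by fun_prop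
  have d2 : ContDiffAt ℝ ∞ (fun p : ((E × ℝ) × V) × ℝ => p.1.1.2)
      (((x, τ), ζ), t) := by fun_prop
  exact ((c1.add c6).add (d1.smul ((c2.sub c1).sub c4))).add (d2.smul ((c3.sub c1).sub c5))

lemma jn_per (h0 : LFam G K P T g F0 r) (h1 : LFam G K P T g F1 r)
    (hA : LPath G K P T g A δ) {x : E} (hx : x ∈ K) {τ : ℝ} (hτ : τ ∈ Icc (0:ℝ) 1) {ζ : V}
    (hζP : P x ζ = ζ) (hζ : ‖ζ‖ < r) (t : ℝ) :
    jn F0 F1 A (((x, τ), ζ), t + T) = jn F0 F1 A (((x, τ), ζ), t) := by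
  simp only [jn]
  rw [h0.per x hx 0 (map_zero _) (by simpa using h0.rpos), h0.per x hx ζ hζP hζ,
    h1.per x hx ζ hζP hζ, hA.per x hx τ hτ ζ hζP, hA.per x hx 0 ⟨le_rfl, zero_le_one⟩ ζ hζP,
    hA.per x hx 1 ⟨zero_le_one, le_rfl⟩ ζ hζP]

lemma jn_zero (h0 : LFam G K P T g F0 r) (h1 : LFam G K P T g F1 r)
    (hA : LPath G K P T g A δ) {x : E} (hx : x ∈ K) {τ : ℝ} (hτ : τ ∈ Icc (0:ℝ) 1) (t : ℝ) :
    jn F0 F1 A (((x, τ), 0), t) = (fl G (g x, t)).1 := by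
  have hz : ∀ τ ∈ Icc (0:ℝ) 1, A (((x, τ), 0), t) = 0 := fun τ hτ => by
    have := hA.hom x hx τ hτ 0 (map_zero _) 0 t
    simpa using this
  simp only [jn]
  rw [hz τ hτ, hz 0 ⟨le_rfl, zero_le_one⟩, hz 1 ⟨zero_le_one, le_rfl⟩, h0.zero x hx,
    h1.zero x hx]
  simp

lemma jn_left (ζ : V) (x : E) (t : ℝ) :
    jn F0 F1 A (((x, 0), ζ), t) = F0 ((x, ζ), t) := by
  simp only [jn]
  simp

lemma jn_right (ζ : V) (x : E) (t : ℝ) :
    jn F0 F1 A (((x, 1), ζ), t) = F1 ((x, ζ), t) := by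
  simp only [jn]
  simp

/-- derivative of the interpolation along rays -/
lemma hasDerivAt_jn (h0 : LFam G K P T g F0 r) (h1 : LFam G K P T g F1 r)
    (hA : LPath G K P T g A δ)
    (e0 : ∀ x ∈ K, ∀ ζ : V, P x ζ = ζ → ∀ t, A (((x, 0), ζ), t) = lA F0 x ζ t)
    (e1 : ∀ x ∈ K, ∀ ζ : V, P x ζ = ζ → ∀ t, A (((x, 1), ζ), t) = lA F1 x ζ t)
    {x : E} (hx : x ∈ K) {τ : ℝ} (hτ : τ ∈ Icc (0:ℝ) 1) {ζ : V}
    (hζP : P x ζ = ζ) (t : ℝ) :
    HasDerivAt (fun s : ℝ => jn F0 F1 A (((x, τ), s • ζ), t)) (A (((x, τ), ζ), t)) 0 := by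
  have k0 : HasDerivAt (fun s : ℝ => F0 ((x, s • ζ), t)) (lA F0 x ζ t) 0 := by
    have h2 : HasFDerivAt F0 (fderiv ℝ F0 ((x, 0), t)) ((x, (0:ℝ) • ζ), t) := by
      rw [zero_smul]
      exact ((h0.zero_mem hx t).differentiableAt (by simp)).hasFDerivAt
    exact h2.comp_hasDerivAt (0:ℝ) (hasDerivAt_ray (t := t) (x := x) (ζ := ζ) 0)
  have k1 : HasDerivAt (fun s : ℝ => F1 ((x, s • ζ), t)) (lA F1 x ζ t) 0 := by
    have h2 : HasFDerivAt F1 (fderiv ℝ F1 ((x, 0), t)) ((x, (0:ℝ) • ζ), t) := by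
      rw [zero_smul]
      exact ((h1.zero_mem hx t).differentiableAt (by simp)).hasFDerivAt
    exact h2.comp_hasDerivAt (0:ℝ) (hasDerivAt_ray (t := t) (x := x) (ζ := ζ) 0)
  have kA : ∀ τ ∈ Icc (0:ℝ) 1, HasDerivAt (fun s : ℝ => A (((x, τ), s • ζ), t))
      (A (((x, τ), ζ), t)) 0 := fun τ hτ => by
    have h2 : (fun s : ℝ => A (((x, τ), s • ζ), t)) = fun s : ℝ => s • A (((x, τ), ζ), t) :=
      funext fun s => hA.hom x hx τ hτ ζ hζP s t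
    rw [h2]
    simpa using (hasDerivAt_id (0:ℝ)).smul_const (A (((x, τ), ζ), t))
  have k2 := ((kA τ hτ).const_add (F0 ((x, 0), t))).fun_add
    ((((k0.sub_const (F0 ((x, 0), t))).fun_sub (kA 0 ⟨le_rfl, zero_le_one⟩)).const_smul
      (1 - τ)))
  have k3 := k2.fun_add
    ((((k1.sub_const (F0 ((x, 0), t))).fun_sub (kA 1 ⟨zero_le_one, le_rfl⟩)).const_smul τ))
  rw [e0 x hx ζ hζP, e1 x hx ζ hζP, sub_self, sub_self, smul_zero, smul_zero, add_zero,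
    add_zero] at k3
  exact k3

/-- **join of two families** -/
theorem join {D : ℝ} (hB : Bl n N κ S G D) (hK : IsCompact K) (hT : 0 < T)
    (hg : ∀ x ∈ K, g x ∈ TS G)
    (h0 : LFam G K P T g F0 r) (h1 : LFam G K P T g F1 r) (hA : LPath G K P T g A δ)
    (e0 : ∀ x ∈ K, ∀ ζ : V, P x ζ = ζ → ∀ t, A (((x, 0), ζ), t) = lA F0 x ζ t)
    (e1 : ∀ x ∈ K, ∀ ζ : V, P x ζ = ζ → ∀ t, A (((x, 1), ζ), t) = lA F1 x ζ t) :
    ∃ (H : ((E × ℝ) × V) × ℝ → Euc N) (r' : ℝ), 0 < r' ∧ r' ≤ r ∧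
      LFam G (K ×ˢ Icc (0:ℝ) 1) (fun p => P p.1) T (fun p => g p.1) H r' ∧
      (∀ x ∈ K, ∀ ζ : V, P x ζ = ζ → ‖ζ‖ < r' → ∀ t, H (((x, 0), ζ), t) = F0 ((x, ζ), t)) ∧
      (∀ x ∈ K, ∀ ζ : V, P x ζ = ζ → ‖ζ‖ < r' → ∀ t, H (((x, 1), ζ), t) = F1 ((x, ζ), t)) ∧
      (∀ x ∈ K, ∀ τ ∈ Icc (0:ℝ) 1, ∀ ζ : V, P x ζ = ζ → ‖ζ‖ < r' →
        EnT T (fun t => H (((x, τ), ζ), t)) ≤
          (1 / 2) * (∫ t in (0:ℝ)..T, ‖(fl G (g x, t)).2‖ ^ 2) - (δ / 4) * ‖ζ‖ ^ 2) := by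
  obtain ⟨R, O, hO, hSO, hR, hRS, hRid⟩ :=
    Crest.Agent.R208.E.exists_retract (FI.clo_of_isSubmanifold hB.sub hB.cpt)
  -- a uniform radius on which `jn` stays in `O`
  obtain ⟨r1, hr1, hr1O⟩ : ∃ r1 > 0, ∀ x ∈ K, ∀ τ ∈ Icc (0:ℝ) 1, ∀ ζ : V, ‖ζ‖ < r1 →
      ∀ t ∈ Icc (0:ℝ) T, jn F0 F1 A (((x, τ), ζ), t) ∈ O := by
    set Q : Set (((E × ℝ) × V) × ℝ) :=
      (fun p : (E × ℝ) × ℝ => ((p.1, (0 : V)), p.2)) '' ((K ×ˢ Icc (0:ℝ) 1) ×ˢ Icc 0 T) with hQ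
    have hQc : IsCompact Q := ((hK.prod isCompact_Icc).prod isCompact_Icc).image (by fun_prop)
    have hUQ : (jn F0 F1 A) ⁻¹' O ∈ 𝓝ˢ Q := by
      rw [mem_nhdsSet_iff_forall]
      rintro _ ⟨⟨⟨x, τ⟩, t⟩, ⟨⟨hx, hτ⟩, ht⟩, rfl⟩
      have c1 := (contDiffAt_jn h0 h1 hA hx hτ (map_zero (P x)) (by simpa using h0.rpos)
        t).continuousAt
      refine c1.preimage_mem_nhds (hO.mem_nhds (hSO ?_))
      have h2 := jn_zero h0 h1 hA hx hτ t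
      simp only at h2 ⊢
      rw [h2]
      exact (fl_mem G (hg x hx) t).1
    obtain ⟨O', hO', hQO', hO'U⟩ := mem_nhdsSet_iff_exists.1 hUQ
    obtain ⟨ε, hε, hεO⟩ := hQc.exists_thickening_subset_open hO' hQO'
    refine ⟨ε, hε, fun x hx τ hτ ζ hζ t ht => hO'U (hεO ?_)⟩
    rw [Metric.mem_thickening_iff]
    refine ⟨(((x, τ), 0), t), ⟨((x, τ), t), ⟨⟨hx, hτ⟩, ht⟩, rfl⟩, ?_⟩
    rw [dist_eq_norm]
    have : ((((x, τ), ζ), t) : ((E × ℝ) × V) × ℝ) - (((x, τ), 0), t) = ((0, ζ), 0) := by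
      ext <;> simp
    rw [this, norm_vec]
    exact hζ
  set r2 := min r1 r with hr2
  have hr2p : 0 < r2 := lt_min hr1 h0.rpos
  have hO2 : ∀ x ∈ K, ∀ τ ∈ Icc (0:ℝ) 1, ∀ ζ : V, P x ζ = ζ → ‖ζ‖ < r2 → ∀ t,
      jn F0 F1 A (((x, τ), ζ), t) ∈ O := by
    intro x hx τ hτ ζ hζP hζ t
    have hper : Function.Periodic (fun t => jn F0 F1 A (((x, τ), ζ), t)) T := fun t =>
      jn_per h0 h1 hA hx hτ hζP (hζ.trans_le (min_le_right _ _)) t
    obtain ⟨y, hy, hty⟩ := hper.exists_mem_Ico₀ hT t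
    rw [hty]
    exact hr1O x hx τ hτ ζ (hζ.trans_le (min_le_left _ _)) y ⟨hy.1, hy.2.le⟩
  set H : ((E × ℝ) × V) × ℝ → Euc N := fun p => R (jn F0 F1 A p) with hH
  have hLF : LFam G (K ×ˢ Icc (0:ℝ) 1) (fun p => P p.1) T (fun p => g p.1) H r2 := by
    refine ⟨hr2p, ?_, ?_, ?_, ?_⟩
    · rintro ⟨x, τ⟩ ⟨hx, hτ⟩ ζ hζP hζ t
      have c1 := contDiffAt_jn h0 h1 hA hx hτ hζP (hζ.trans_le (min_le_right _ _)) t
      exact ContDiffAt.comp (((x, τ), ζ), t)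
        (hR.contDiffAt (hO.mem_nhds (hO2 x hx τ hτ ζ hζP hζ t))) c1
    · rintro ⟨x, τ⟩ ⟨hx, hτ⟩ ζ hζP hζ t
      exact hRS (hO2 x hx τ hτ ζ hζP hζ t)
    · rintro ⟨x, τ⟩ ⟨hx, hτ⟩ ζ hζP hζ t
      simp only [hH]
      rw [jn_per h0 h1 hA hx hτ hζP (hζ.trans_le (min_le_right _ _)) t]
    · rintro ⟨x, τ⟩ ⟨hx, hτ⟩ t
      simp only [hH]
      rw [jn_zero h0 h1 hA hx hτ t]
      exact hRid _ (fl_mem G (hg x hx) t).1
  -- linearisation
  have hlin : ∀ x ∈ K, ∀ τ ∈ Icc (0:ℝ) 1, ∀ ζ : V, P x ζ = ζ → ∀ t,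
      lA H (x, τ) ζ t = A (((x, τ), ζ), t) := by
    intro x hx τ hτ ζ hζP t
    have hxS : (fl G (g x, t)).1 ∈ S := (fl_mem G (hg x hx) t).1
    have k1 := hasDerivAt_jn h0 h1 hA e0 e1 hx hτ hζP t
    have k2 : HasDerivAt (fun s : ℝ => H (((x, τ), s • ζ), t))
        (fderiv ℝ R (fl G (g x, t)).1 (A (((x, τ), ζ), t))) 0 := by
      have h2 : HasFDerivAt R (fderiv ℝ R (fl G (g x, t)).1)
          (jn F0 F1 A (((x, τ), (0:ℝ) • ζ), t)) := by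
        rw [zero_smul, jn_zero h0 h1 hA hx hτ t]
        exact ((hR.contDiffAt (hO.mem_nhds (hSO hxS))).differentiableAt (by simp)).hasFDerivAt
      exact h2.comp_hasDerivAt (0:ℝ) k1
    have k3 : HasDerivAt (fun s : ℝ => H (((x, τ), s • ζ), t)) (lA H (x, τ) ζ t) 0 := by
      have h2 : HasFDerivAt H (fderiv ℝ H (((x, τ), 0), t)) (((x, τ), (0:ℝ) • ζ), t) := by
        rw [zero_smul]
        exact ((hLF.zero_mem (x := (x, τ)) ⟨hx, hτ⟩ t).differentiableAt (by simp)).hasFDerivAt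
      exact h2.comp_hasDerivAt (0:ℝ) (hasDerivAt_ray (t := t) (x := (x, τ)) (ζ := ζ) 0)
    rw [k3.unique k2]
    exact (MS.retract_fderiv (G := G) hO hSO hR hRS hRid hxS).2 _ (hA.tan x hx τ hτ ζ hζP t)
  have hneg : ∀ p ∈ K ×ˢ Icc (0:ℝ) 1, ∀ ζ : V, P p.1 ζ = ζ →
      ix G (g p.1) 0 T (lA H p ζ) (lA' H p ζ) (lA H p ζ) (lA' H p ζ) ≤ -δ * ‖ζ‖ ^ 2 := by
    rintro ⟨x, τ⟩ ⟨hx, hτ⟩ ζ hζP
    have h2 : lA H (x, τ) ζ = fun t => A (((x, τ), ζ), t) :=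
      funext fun t => hlin x hx τ hτ ζ hζP t
    have h3 : lA' H (x, τ) ζ = deriv fun t => A (((x, τ), ζ), t) := by
      funext t
      have h4 := hasDerivAt_lA ((hLF.zero_mem (x := (x, τ)) ⟨hx, hτ⟩ t).of_le three_le) ζ
      rw [h2] at h4
      exact h4.deriv.symm
    rw [h2, h3]
    exact hA.neg x hx τ hτ ζ hζP
  obtain ⟨r', hr', hr'r, hen⟩ := energy_le (hK.prod isCompact_Icc) hT.le
    (g := fun p : E × ℝ => g p.1) (fun p hp => hg p.1 hp.1) hLF hA.pos hneg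
  refine ⟨H, r', hr', hr'r.trans (min_le_right _ _), hLF.mono hr' hr'r, ?_, ?_, ?_⟩
  · intro x hx ζ hζP hζ t
    simp only [hH]
    rw [jn_left]
    exact hRid _ (h0.mem x hx ζ hζP (hζ.trans_le (hr'r.trans (min_le_right _ _))) t)
  · intro x hx ζ hζP hζ t
    simp only [hH]
    rw [jn_right]
    exact hRid _ (h1.mem x hx ζ hζP (hζ.trans_le (hr'r.trans (min_le_right _ _))) t)
  · intro x hx τ hτ ζ hζP hζ
    exact hen (x, τ) ⟨hx, hτ⟩ ζ hζP hζ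

end join

end Crest.Agent.R208.AK
end
end

-- ▼ part R208/AK4

/-!
R208, block AK (helper952), part 4: calculus of paths of negative linear families of fields:
concatenation, straight lines, sum of a periodic and an antiperiodic path.
-/

set_option autoImplicit false
set_option linter.unusedSectionVars false

open Set Filter Topology MeasureTheory
open scoped ContDiff RealInnerProductSpace Interval Real
open Crest.GeometryTopology.Submanifold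
open Crest.Agent.R241.DDefs
open Crest.Agent.R241.D2
open Crest.Agent.R208.SV (ixd ix Fld)

noncomputable section

namespace Crest.Agent.R208.AK

variable {n N : ℕ} {κ : ℝ} {S : Set (Euc N)} {G : Geo n N κ S}
  {E V : Type*} [NormedAddCommGroup E] [NormedSpace ℝ E]
  [NormedAddCommGroup V] [NormedSpace ℝ V]

/-- smooth path of linear families of fields along the geodesics `g x`, with
`A (t + T) = σ A t` -/
structure SPath (G : Geo n N κ S) (K : Set E) (P : E → V →L[ℝ] V) (T σ : ℝ)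
    (g : E → Euc N × Euc N) (A : ((E × ℝ) × V) × ℝ → Euc N) (δ : ℝ) : Prop where
  smooth : ∀ x ∈ K, ∀ τ ∈ Icc (0:ℝ) 1, ∀ ζ : V, P x ζ = ζ → ∀ t,
    ContDiffAt ℝ ∞ A (((x, τ), ζ), t)
  hom : ∀ x ∈ K, ∀ τ ∈ Icc (0:ℝ) 1, ∀ ζ : V, P x ζ = ζ → ∀ s t : ℝ,
    A (((x, τ), s • ζ), t) = s • A (((x, τ), ζ), t)
  tan : ∀ x ∈ K, ∀ τ ∈ Icc (0:ℝ) 1, ∀ ζ : V, P x ζ = ζ → ∀ t,
    A (((x, τ), ζ), t) ∈ G.T (fl G (g x, t)).1
  per : ∀ x ∈ K, ∀ τ ∈ Icc (0:ℝ) 1, ∀ ζ : V, P x ζ = ζ → ∀ t,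
    A (((x, τ), ζ), t + T) = σ • A (((x, τ), ζ), t)
  neg : ∀ x ∈ K, ∀ τ ∈ Icc (0:ℝ) 1, ∀ ζ : V, P x ζ = ζ →
    ix G (g x) 0 T (fun t => A (((x, τ), ζ), t)) (deriv fun t => A (((x, τ), ζ), t))
      (fun t => A (((x, τ), ζ), t)) (deriv fun t => A (((x, τ), ζ), t)) ≤ -δ * ‖ζ‖ ^ 2

/-- a single linear family of fields -/
structure LMap (G : Geo n N κ S) (K : Set E) (P : E → V →L[ℝ] V) (T σ : ℝ)
    (g : E → Euc N × Euc N) (B : (E × V) × ℝ → Euc N) : Prop where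
  smooth : ∀ x ∈ K, ∀ ζ : V, P x ζ = ζ → ∀ t, ContDiffAt ℝ ∞ B ((x, ζ), t)
  hom : ∀ x ∈ K, ∀ ζ : V, P x ζ = ζ → ∀ s t : ℝ, B ((x, s • ζ), t) = s • B ((x, ζ), t)
  tan : ∀ x ∈ K, ∀ ζ : V, P x ζ = ζ → ∀ t, B ((x, ζ), t) ∈ G.T (fl G (g x, t)).1
  per : ∀ x ∈ K, ∀ ζ : V, P x ζ = ζ → ∀ t, B ((x, ζ), t + T) = σ • B ((x, ζ), t)

lemma contDiff_time {A : (E × V) × ℝ → Euc N} {x : E} {ζ : V}
    (h : ∀ t, ContDiffAt ℝ ∞ A ((x, ζ), t)) : ContDiff ℝ ∞ fun t => A ((x, ζ), t) := by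
  rw [contDiff_iff_contDiffAt]
  intro t
  exact ContDiffAt.comp (g := A) (f := fun t : ℝ => ((x, ζ), t)) t (h t) (by fun_prop)

lemma fld_of_contDiff {q : Euc N × Euc N} {a b : ℝ} {A : ℝ → Euc N} (h : ContDiff ℝ ∞ A)
    (hm : ∀ t, A t ∈ G.T (fl G (q, t)).1) : Fld G q a b A (deriv A) where
  der t _ := ((h.differentiable (by simp)) t).hasDerivAt.hasDerivWithinAt
  cont := (h.continuous_deriv (by simp)).continuousOn
  mem t _ := hm t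

section

variable {K : Set E} {P : E → V →L[ℝ] V} {T σ : ℝ} {g : E → Euc N × Euc N}

lemma LMap.cd {B : (E × V) × ℝ → Euc N} (h : LMap G K P T σ g B) {x : E} (hx : x ∈ K)
    {ζ : V} (hζ : P x ζ = ζ) : ContDiff ℝ ∞ fun t => B ((x, ζ), t) :=
  contDiff_time (h.smooth x hx ζ hζ)

lemma LMap.fld {B : (E × V) × ℝ → Euc N} (h : LMap G K P T σ g B) {x : E} (hx : x ∈ K)
    {ζ : V} (hζ : P x ζ = ζ) (a b : ℝ) :
    Fld G (g x) a b (fun t => B ((x, ζ), t)) (deriv fun t => B ((x, ζ), t)) :=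
  fld_of_contDiff (h.cd hx hζ) (h.tan x hx ζ hζ)

variable {A A' : ((E × ℝ) × V) × ℝ → Euc N} {δ δ' : ℝ}

lemma SPath.cd (h : SPath G K P T σ g A δ) {x : E} (hx : x ∈ K) {τ : ℝ}
    (hτ : τ ∈ Icc (0:ℝ) 1) {ζ : V} (hζ : P x ζ = ζ) :
    ContDiff ℝ ∞ fun t => A (((x, τ), ζ), t) :=
  contDiff_time (A := A) (x := (x, τ)) (h.smooth x hx τ hτ ζ hζ)

lemma SPath.fld (h : SPath G K P T σ g A δ) {x : E} (hx : x ∈ K) {τ : ℝ}
    (hτ : τ ∈ Icc (0:ℝ) 1) {ζ : V} (hζ : P x ζ = ζ) (a b : ℝ) :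
    Fld G (g x) a b (fun t => A (((x, τ), ζ), t)) (deriv fun t => A (((x, τ), ζ), t)) :=
  fld_of_contDiff (h.cd hx hτ hζ) (h.tan x hx τ hτ ζ hζ)

lemma SPath.mono (h : SPath G K P T σ g A δ) (hδ : δ' ≤ δ) : SPath G K P T σ g A δ' where
  smooth := h.smooth
  hom := h.hom
  tan := h.tan
  per := h.per
  neg x hx τ hτ ζ hζ := (h.neg x hx τ hτ ζ hζ).trans (by
    have : 0 ≤ ‖ζ‖ ^ 2 := by positivity
    nlinarith)

lemma SPath.toLPath (h : SPath G K P T 1 g A δ) (hδ : 0 < δ) : LPath G K P T g A δ where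
  smooth := h.smooth
  hom := h.hom
  tan := h.tan
  per x hx τ hτ ζ hζ t := by rw [h.per x hx τ hτ ζ hζ t, one_smul]
  pos := hδ
  neg := h.neg

/-- the path run backwards -/
lemma SPath.symm (h : SPath G K P T σ g A δ) :
    SPath G K P T σ g (fun p => A (((p.1.1.1, 1 - p.1.1.2), p.1.2), p.2)) δ := by
  have hm : ∀ τ ∈ Icc (0:ℝ) 1, 1 - τ ∈ Icc (0:ℝ) 1 := fun τ hτ => by
    constructor <;> linarith [hτ.1, hτ.2]
  refine ⟨fun x hx τ hτ ζ hζ t => ?_, fun x hx τ hτ ζ hζ s t => ?_, fun x hx τ hτ ζ hζ t => ?_,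
    fun x hx τ hτ ζ hζ t => ?_, fun x hx τ hτ ζ hζ => ?_⟩
  · exact ContDiffAt.comp (g := A)
      (f := fun p : ((E × ℝ) × V) × ℝ => (((p.1.1.1, 1 - p.1.1.2), p.1.2), p.2))
      (((x, τ), ζ), t) (h.smooth x hx (1 - τ) (hm τ hτ) ζ hζ t) (by fun_prop)
  · exact h.hom x hx (1 - τ) (hm τ hτ) ζ hζ s t
  · exact h.tan x hx (1 - τ) (hm τ hτ) ζ hζ t
  · exact h.per x hx (1 - τ) (hm τ hτ) ζ hζ t
  · exact h.neg x hx (1 - τ) (hm τ hτ) ζ hζ

/-- concatenation -/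
def cat (A A' : ((E × ℝ) × V) × ℝ → Euc N) (p : ((E × ℝ) × V) × ℝ) : Euc N :=
  A (((p.1.1.1, Real.smoothTransition (2 * p.1.1.2)), p.1.2), p.2) +
    (A' (((p.1.1.1, Real.smoothTransition (2 * p.1.1.2 - 1)), p.1.2), p.2) -
      A' (((p.1.1.1, 0), p.1.2), p.2))

lemma cat_left {x : E} {τ : ℝ} {ζ : V} {t : ℝ} (hτ : τ ≤ 1 / 2) :
    cat A A' (((x, τ), ζ), t) = A (((x, Real.smoothTransition (2 * τ)), ζ), t) := by
  simp only [cat]
  rw [Real.smoothTransition.zero_of_nonpos (x := 2 * τ - 1) (by linarith), sub_self, add_zero]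

lemma cat_right {x : E} {τ : ℝ} {ζ : V} {t : ℝ} (hτ : 1 / 2 ≤ τ)
    (h : A (((x, 1), ζ), t) = A' (((x, 0), ζ), t)) :
    cat A A' (((x, τ), ζ), t) = A' (((x, Real.smoothTransition (2 * τ - 1)), ζ), t) := by
  simp only [cat]
  rw [Real.smoothTransition.one_of_one_le (x := 2 * τ) (by linarith), h]
  abel

lemma cat_zero {x : E} {ζ : V} {t : ℝ} :
    cat A A' (((x, 0), ζ), t) = A (((x, 0), ζ), t) := by
  rw [cat_left (by norm_num), mul_zero, Real.smoothTransition.zero_of_nonpos le_rfl]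

lemma cat_one {x : E} {ζ : V} {t : ℝ} (h : A (((x, 1), ζ), t) = A' (((x, 0), ζ), t)) :
    cat A A' (((x, 1), ζ), t) = A' (((x, 1), ζ), t) := by
  rw [cat_right (by norm_num) h, Real.smoothTransition.one_of_one_le (by norm_num)]

lemma st_mem (s : ℝ) : Real.smoothTransition s ∈ Icc (0:ℝ) 1 :=
  ⟨Real.smoothTransition.nonneg s, Real.smoothTransition.le_one s⟩

theorem SPath.trans (h : SPath G K P T σ g A δ) (h' : SPath G K P T σ g A' δ)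
    (he : ∀ x ∈ K, ∀ ζ : V, P x ζ = ζ → ∀ t, A (((x, 1), ζ), t) = A' (((x, 0), ζ), t)) :
    SPath G K P T σ g (cat A A') δ := by
  have h01 : (0:ℝ) ∈ Icc (0:ℝ) 1 := ⟨le_rfl, zero_le_one⟩
  -- value of the concatenation
  have key : ∀ x ∈ K, ∀ τ ∈ Icc (0:ℝ) 1,
      (∀ ζ : V, P x ζ = ζ → ∀ t, cat A A' (((x, τ), ζ), t) =
        A (((x, Real.smoothTransition (2 * τ)), ζ), t)) ∨
      (∀ ζ : V, P x ζ = ζ → ∀ t, cat A A' (((x, τ), ζ), t) =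
        A' (((x, Real.smoothTransition (2 * τ - 1)), ζ), t)) := by
    intro x hx τ hτ
    rcases le_total τ (1 / 2) with hle | hle
    · exact Or.inl fun ζ _ t => cat_left hle
    · exact Or.inr fun ζ hζ t => cat_right hle (he x hx ζ hζ t)
  have hP : ∀ x, ∀ ζ : V, P x ζ = ζ → ∀ s : ℝ, P x (s • ζ) = s • ζ := fun x ζ hζ s => by
    rw [map_smul, hζ]
  refine ⟨fun x hx τ hτ ζ hζ t => ?_, fun x hx τ hτ ζ hζ s t => ?_, fun x hx τ hτ ζ hζ t => ?_,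
    fun x hx τ hτ ζ hζ t => ?_, fun x hx τ hτ ζ hζ => ?_⟩
  · have c1 : ContDiffAt ℝ ∞ (fun p : ((E × ℝ) × V) × ℝ =>
        A (((p.1.1.1, Real.smoothTransition (2 * p.1.1.2)), p.1.2), p.2)) (((x, τ), ζ), t) := by
      refine ContDiffAt.comp (g := A) (f := fun p : ((E × ℝ) × V) × ℝ =>
        (((p.1.1.1, Real.smoothTransition (2 * p.1.1.2)), p.1.2), p.2))
        (((x, τ), ζ), t) (h.smooth x hx _ (st_mem _) ζ hζ t) ?_
      have : ContDiff ℝ ∞ fun p : ((E × ℝ) × V) × ℝ => Real.smoothTransition (2 * p.1.1.2) :=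
        Real.smoothTransition.contDiff.comp (by fun_prop)
      exact (((by fun_prop : ContDiffAt ℝ ∞ (fun p : ((E × ℝ) × V) × ℝ => p.1.1.1) _).prodMk
        this.contDiffAt).prodMk (by fun_prop)).prodMk (by fun_prop)
    have c2 : ContDiffAt ℝ ∞ (fun p : ((E × ℝ) × V) × ℝ =>
        A' (((p.1.1.1, Real.smoothTransition (2 * p.1.1.2 - 1)), p.1.2), p.2))
        (((x, τ), ζ), t) := by
      refine ContDiffAt.comp (g := A') (f := fun p : ((E × ℝ) × V) × ℝ =>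
        (((p.1.1.1, Real.smoothTransition (2 * p.1.1.2 - 1)), p.1.2), p.2))
        (((x, τ), ζ), t) (h'.smooth x hx _ (st_mem _) ζ hζ t) ?_
      have : ContDiff ℝ ∞ fun p : ((E × ℝ) × V) × ℝ =>
          Real.smoothTransition (2 * p.1.1.2 - 1) :=
        Real.smoothTransition.contDiff.comp (by fun_prop)
      exact (((by fun_prop : ContDiffAt ℝ ∞ (fun p : ((E × ℝ) × V) × ℝ => p.1.1.1) _).prodMk
        this.contDiffAt).prodMk (by fun_prop)).prodMk (by fun_prop)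
    have c3 : ContDiffAt ℝ ∞ (fun p : ((E × ℝ) × V) × ℝ =>
        A' (((p.1.1.1, 0), p.1.2), p.2)) (((x, τ), ζ), t) :=
      ContDiffAt.comp (g := A') (f := fun p : ((E × ℝ) × V) × ℝ =>
        (((p.1.1.1, 0), p.1.2), p.2))
        (((x, τ), ζ), t) (h'.smooth x hx _ h01 ζ hζ t) (by fun_prop)
    exact c1.add (c2.sub c3)
  · rcases key x hx τ hτ with k | k
    · rw [k _ (hP x ζ hζ s), k ζ hζ, h.hom x hx _ (st_mem _) ζ hζ]
    · rw [k _ (hP x ζ hζ s), k ζ hζ, h'.hom x hx _ (st_mem _) ζ hζ]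
  · rcases key x hx τ hτ with k | k
    · rw [k ζ hζ]; exact h.tan x hx _ (st_mem _) ζ hζ t
    · rw [k ζ hζ]; exact h'.tan x hx _ (st_mem _) ζ hζ t
  · rcases key x hx τ hτ with k | k
    · rw [k ζ hζ, k ζ hζ]; exact h.per x hx _ (st_mem _) ζ hζ t
    · rw [k ζ hζ, k ζ hζ]; exact h'.per x hx _ (st_mem _) ζ hζ t
  · rcases key x hx τ hτ with k | k
    · rw [funext (k ζ hζ)]; exact h.neg x hx _ (st_mem _) ζ hζ
    · rw [funext (k ζ hζ)]; exact h'.neg x hx _ (st_mem _) ζ hζ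

/-- straight line between two linear families -/
def lin (B B' : (E × V) × ℝ → Euc N) (p : ((E × ℝ) × V) × ℝ) : Euc N :=
  (1 - p.1.1.2) • B ((p.1.1.1, p.1.2), p.2) + p.1.1.2 • B' ((p.1.1.1, p.1.2), p.2)

lemma lin_zero {B B' : (E × V) × ℝ → Euc N} {x : E} {ζ : V} {t : ℝ} :
    lin B B' (((x, 0), ζ), t) = B ((x, ζ), t) := by simp [lin]

lemma lin_one {B B' : (E × V) × ℝ → Euc N} {x : E} {ζ : V} {t : ℝ} :
    lin B B' (((x, 1), ζ), t) = B' ((x, ζ), t) := by simp [lin]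

/-- quadratic expansion of the index form on a straight line -/
lemma ix_line {q : Euc N × Euc N} (hq : q ∈ TS G) {a b : ℝ} (hab : a ≤ b) {A B : ℝ → Euc N}
    (hA : ContDiff ℝ ∞ A) (hB : ContDiff ℝ ∞ B) (hAm : ∀ t, A t ∈ G.T (fl G (q, t)).1)
    (hBm : ∀ t, B t ∈ G.T (fl G (q, t)).1) (s r : ℝ) :
    ix G q a b (fun t => s • A t + r • B t) (deriv fun t => s • A t + r • B t)
      (fun t => s • A t + r • B t) (deriv fun t => s • A t + r • B t) =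
    s ^ 2 * ix G q a b A (deriv A) A (deriv A) + 2 * (s * r) * ix G q a b B (deriv B) A (deriv A) +
      r ^ 2 * ix G q a b B (deriv B) B (deriv B) := by
  have fA : Fld G q a b (s • A) (s • deriv A) := (fld_of_contDiff hA hAm).smul s
  have fB : Fld G q a b (r • B) (r • deriv B) := (fld_of_contDiff hB hBm).smul r
  have e1 : (fun t => s • A t + r • B t) = s • A + r • B := rfl
  have e2 : deriv (s • A + r • B) = s • deriv A + r • deriv B := by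
    funext t
    have dA := (hA.differentiable (by simp)) t
    have dB := (hB.differentiable (by simp)) t
    have := ((dA.hasDerivAt.const_smul s).add (dB.hasDerivAt.const_smul r)).deriv
    exact this
  rw [e1, e2, SV.ix_add_self hab hq fA fB, SV.ix_smul_left, SV.ix_smul_left, SV.ix_smul_left,
    SV.ix_smul_right, SV.ix_smul_right, SV.ix_smul_right]
  ring

theorem SPath.line {B B' : (E × V) × ℝ → Euc N} (hg : ∀ x ∈ K, g x ∈ TS G) (hT : 0 ≤ T)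
    (hB : LMap G K P T σ g B) (hB' : LMap G K P T σ g B') (hδ : 0 ≤ δ)
    (h0 : ∀ x ∈ K, ∀ ζ : V, P x ζ = ζ →
      ix G (g x) 0 T (fun t => B ((x, ζ), t)) (deriv fun t => B ((x, ζ), t))
        (fun t => B ((x, ζ), t)) (deriv fun t => B ((x, ζ), t)) ≤ -δ * ‖ζ‖ ^ 2)
    (h1 : ∀ x ∈ K, ∀ ζ : V, P x ζ = ζ →
      ix G (g x) 0 T (fun t => B' ((x, ζ), t)) (deriv fun t => B' ((x, ζ), t))
        (fun t => B' ((x, ζ), t)) (deriv fun t => B' ((x, ζ), t)) ≤ -δ * ‖ζ‖ ^ 2)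
    (h2 : ∀ x ∈ K, ∀ ζ : V, P x ζ = ζ →
      ix G (g x) 0 T (fun t => B' ((x, ζ), t)) (deriv fun t => B' ((x, ζ), t))
        (fun t => B ((x, ζ), t)) (deriv fun t => B ((x, ζ), t)) ≤ 0) :
    SPath G K P T σ g (lin B B') (δ / 2) := by
  refine ⟨fun x hx τ hτ ζ hζ t => ?_, fun x hx τ hτ ζ hζ s t => ?_, fun x hx τ hτ ζ hζ t => ?_,
    fun x hx τ hτ ζ hζ t => ?_, fun x hx τ hτ ζ hζ => ?_⟩
  · have c1 : ContDiffAt ℝ ∞ (fun p : ((E × ℝ) × V) × ℝ => B ((p.1.1.1, p.1.2), p.2))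
        (((x, τ), ζ), t) :=
      ContDiffAt.comp (g := B) (f := fun p : ((E × ℝ) × V) × ℝ => ((p.1.1.1, p.1.2), p.2))
        (((x, τ), ζ), t) (hB.smooth x hx ζ hζ t) (by fun_prop)
    have c2 : ContDiffAt ℝ ∞ (fun p : ((E × ℝ) × V) × ℝ => B' ((p.1.1.1, p.1.2), p.2))
        (((x, τ), ζ), t) :=
      ContDiffAt.comp (g := B') (f := fun p : ((E × ℝ) × V) × ℝ => ((p.1.1.1, p.1.2), p.2))
        (((x, τ), ζ), t) (hB'.smooth x hx ζ hζ t) (by fun_prop)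
    have d1 : ContDiffAt ℝ ∞ (fun p : ((E × ℝ) × V) × ℝ => (1 - p.1.1.2 : ℝ))
        (((x, τ), ζ), t) := by fun_prop
    have d2 : ContDiffAt ℝ ∞ (fun p : ((E × ℝ) × V) × ℝ => p.1.1.2)
        (((x, τ), ζ), t) := by fun_prop
    exact (d1.smul c1).add (d2.smul c2)
  · simp only [lin]
    rw [hB.hom x hx ζ hζ, hB'.hom x hx ζ hζ, smul_add, smul_comm s, smul_comm s]
  · exact (G.T _).add_mem ((G.T _).smul_mem _ (hB.tan x hx ζ hζ t))
      ((G.T _).smul_mem _ (hB'.tan x hx ζ hζ t))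
  · simp only [lin]
    rw [hB.per x hx ζ hζ, hB'.per x hx ζ hζ, smul_add, smul_comm σ, smul_comm σ]
  · have h3 := ix_line (hg x hx) hT (hB.cd hx hζ) (hB'.cd hx hζ) (hB.tan x hx ζ hζ)
      (hB'.tan x hx ζ hζ) (1 - τ) τ
    simp only [lin]
    rw [h3]
    have k0 := h0 x hx ζ hζ
    have k1 := h1 x hx ζ hζ
    have k2 := h2 x hx ζ hζ
    have hζ2 : 0 ≤ ‖ζ‖ ^ 2 := by positivity
    have ht0 := hτ.1
    have ht1 : 0 ≤ 1 - τ := by linarith [hτ.2]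
    have m0 : (1 - τ) ^ 2 * ix G (g x) 0 T (fun t => B ((x, ζ), t)) (deriv fun t => B ((x, ζ), t))
        (fun t => B ((x, ζ), t)) (deriv fun t => B ((x, ζ), t)) ≤
        (1 - τ) ^ 2 * (-δ * ‖ζ‖ ^ 2) := by gcongr
    have m1 : τ ^ 2 * ix G (g x) 0 T (fun t => B' ((x, ζ), t)) (deriv fun t => B' ((x, ζ), t))
        (fun t => B' ((x, ζ), t)) (deriv fun t => B' ((x, ζ), t)) ≤
        τ ^ 2 * (-δ * ‖ζ‖ ^ 2) := by gcongr
    have m2 : 2 * ((1 - τ) * τ) * ix G (g x) 0 T (fun t => B' ((x, ζ), t))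
        (deriv fun t => B' ((x, ζ), t))
        (fun t => B ((x, ζ), t)) (deriv fun t => B ((x, ζ), t)) ≤ 0 := by
      have : 0 ≤ 2 * ((1 - τ) * τ) := by positivity
      exact mul_nonpos_of_nonneg_of_nonpos this k2
    have m3 : (1 - τ) ^ 2 * (-δ * ‖ζ‖ ^ 2) + τ ^ 2 * (-δ * ‖ζ‖ ^ 2) ≤ -(δ / 2) * ‖ζ‖ ^ 2 := by
      have h4 : (1:ℝ) / 2 ≤ (1 - τ) ^ 2 + τ ^ 2 := by nlinarith [sq_nonneg (2 * τ - 1)]
      have h5 : 0 ≤ δ * ‖ζ‖ ^ 2 := mul_nonneg hδ hζ2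
      nlinarith
    linarith

end

/-! ### periodic plus antiperiodic -/

lemma fl_add_two_pi {q : Euc N × Euc N} (hq : q ∈ TS G) (h1 : fl G (q, 2 * π) = q) (t : ℝ) :
    fl G (q, t + 2 * π) = fl G (q, t) := by
  rw [add_comm, fl_add' G hq, h1]

lemma deriv_shift {A : ℝ → Euc N} {σ T : ℝ} (h : ∀ t, A (t + T) = σ • A t) (t : ℝ)
    (hA : Differentiable ℝ A) : deriv A (t + T) = σ • deriv A t := by
  have h1 : HasDerivAt (fun t => A (t + T)) (deriv A (t + T)) t :=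
    (hA (t + T)).hasDerivAt.comp_add_const t T
  have h2 : (fun t => A (t + T)) = σ • A := funext h
  rw [h2] at h1
  exact h1.unique ((hA t).hasDerivAt.const_smul σ)

/-- index form on the doubled interval -/
lemma ix_double {q : Euc N × Euc N} (hq : q ∈ TS G) (h1 : fl G (q, 2 * π) = q)
    {A B : ℝ → Euc N} (hA : ContDiff ℝ ∞ A) (hB : ContDiff ℝ ∞ B)
    (hAm : ∀ t, A t ∈ G.T (fl G (q, t)).1) (hBm : ∀ t, B t ∈ G.T (fl G (q, t)).1)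
    (hAp : ∀ t, A (t + 2 * π) = (1:ℝ) • A t) (hBp : ∀ t, B (t + 2 * π) = (-1:ℝ) • B t) :
    ix G q 0 (4 * π) (fun t => B t + A t) (deriv fun t => B t + A t)
      (fun t => B t + A t) (deriv fun t => B t + A t) =
    2 * ix G q 0 (2 * π) B (deriv B) B (deriv B) +
      2 * ix G q 0 (2 * π) A (deriv A) A (deriv A) := by
  have hpi := Real.pi_pos
  have dA := hA.differentiable (by simp)
  have dB := hB.differentiable (by simp)
  have cA' : Continuous (deriv A) := hA.continuous_deriv (by simp)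
  have cB' : Continuous (deriv B) := hB.continuous_deriv (by simp)
  have e1 : (fun t => B t + A t) = B + A := rfl
  have e2 : deriv (B + A) = deriv B + deriv A := by
    funext t
    exact ((dB t).hasDerivAt.add (dA t).hasDerivAt).deriv
  rw [e1, e2]
  have cix : ∀ {X X' Y Y' : ℝ → Euc N}, Continuous X → Continuous X' → Continuous Y →
      Continuous Y' → Continuous (ixd G q X X' Y Y') := by
    intro X X' Y Y' a b c d
    rw [← continuousOn_univ]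
    exact SV.contOn_ixd hq a.continuousOn b.continuousOn c.continuousOn d.continuousOn
  have cS := cix (hB.continuous.add hA.continuous) (cB'.add cA')
    (hB.continuous.add hA.continuous) (cB'.add cA')
  have cD := cix (hB.continuous.sub hA.continuous) (cB'.sub cA')
    (hB.continuous.sub hA.continuous) (cB'.sub cA')
  have cA := cix hA.continuous cA' hA.continuous cA'
  have cB := cix hB.continuous cB' hB.continuous cB'
  have hshift : ∀ t, ixd G q (B + A) (deriv B + deriv A) (B + A) (deriv B + deriv A)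
      (t + 2 * π) = ixd G q (B - A) (deriv B - deriv A) (B - A) (deriv B - deriv A) t := by
    intro t
    unfold SV.ixd
    rw [fl_add_two_pi hq h1]
    have a1 : (B + A) (t + 2 * π) = -((B - A) t) := by
      simp only [Pi.add_apply, Pi.sub_apply]
      rw [hAp, hBp]
      simp only [one_smul, neg_smul]
      abel
    have a2 : (deriv B + deriv A) (t + 2 * π) = -((deriv B - deriv A) t) := by
      simp only [Pi.add_apply, Pi.sub_apply]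
      rw [deriv_shift hAp t dA, deriv_shift hBp t dB]
      simp only [one_smul, neg_smul]
      abel
    rw [a1, a2]
    simp only [II, map_neg, neg_apply, inner_neg_left, inner_neg_right, neg_neg]
  have hint : ∀ {f : ℝ → ℝ} {a b : ℝ}, Continuous f → IntervalIntegrable f volume a b :=
    fun hf => hf.intervalIntegrable _ _
  unfold SV.ix
  rw [← intervalIntegral.integral_add_adjacent_intervals (b := 2 * π) (hint cS) (hint cS)]
  have h3 : ∫ t in (2 * π)..(4 * π),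
      ixd G q (B + A) (deriv B + deriv A) (B + A) (deriv B + deriv A) t =
      ∫ t in (0:ℝ)..(2 * π), ixd G q (B - A) (deriv B - deriv A) (B - A)
        (deriv B - deriv A) t := by
    have h4 := intervalIntegral.integral_comp_add_right (a := 0) (b := 2 * π)
      (fun t => ixd G q (B + A) (deriv B + deriv A) (B + A) (deriv B + deriv A) t) (2 * π)
    rw [zero_add, show 2 * π + 2 * π = 4 * π by ring] at h4
    rw [← h4]
    exact intervalIntegral.integral_congr fun t _ => hshift t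
  rw [h3, ← intervalIntegral.integral_add (hint cS) (hint cD),
    ← intervalIntegral.integral_const_mul, ← intervalIntegral.integral_const_mul,
    ← intervalIntegral.integral_add (hint (cB.const_mul 2)) (hint (cA.const_mul 2))]
  refine intervalIntegral.integral_congr fun t _ => ?_
  change ixd G q (B + A) (deriv B + deriv A) (B + A) (deriv B + deriv A) t +
    ixd G q (B - A) (deriv B - deriv A) (B - A) (deriv B - deriv A) t =
    2 * ixd G q B (deriv B) B (deriv B) t + 2 * ixd G q A (deriv A) A (deriv A) t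
  rw [SV.ixd_add_left, SV.ixd_add_right, SV.ixd_add_right, SV.ixd_sub_left, SV.ixd_sub_right,
    SV.ixd_sub_right]
  ring

variable {H₁ H₂ : Type*} [NormedAddCommGroup H₁] [NormedSpace ℝ H₁]
  [NormedAddCommGroup H₂] [NormedSpace ℝ H₂]

/-- sum of an antiperiodic path over `P₂` and a periodic path over `P₁` -/
def sumP (A₂ : ((E × ℝ) × H₂) × ℝ → Euc N) (A₁ : ((E × ℝ) × H₁) × ℝ → Euc N)
    (p : ((E × ℝ) × (H₂ × H₁)) × ℝ) : Euc N :=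
  A₂ ((p.1.1, p.1.2.1), p.2) + A₁ ((p.1.1, p.1.2.2), p.2)

/-- the field `P₂ ⊕ P₁` -/
def PP (P₂ : E → H₂ →L[ℝ] H₂) (P₁ : E → H₁ →L[ℝ] H₁) (x : E) : H₂ × H₁ →L[ℝ] H₂ × H₁ :=
  (P₂ x).prodMap (P₁ x)

lemma PP_eq {P₂ : E → H₂ →L[ℝ] H₂} {P₁ : E → H₁ →L[ℝ] H₁} {x : E} {ζ : H₂ × H₁} :
    PP P₂ P₁ x ζ = ζ ↔ P₂ x ζ.1 = ζ.1 ∧ P₁ x ζ.2 = ζ.2 := by
  simp [PP, Prod.ext_iff]

theorem SPath.sum {K : Set E} {P₂ : E → H₂ →L[ℝ] H₂} {P₁ : E → H₁ →L[ℝ] H₁}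
    {g : E → Euc N × Euc N} {A₂ : ((E × ℝ) × H₂) × ℝ → Euc N}
    {A₁ : ((E × ℝ) × H₁) × ℝ → Euc N} {δ : ℝ} (hg : ∀ x ∈ K, g x ∈ TS G)
    (hg1 : ∀ x ∈ K, fl G (g x, 2 * π) = g x) (hδ : 0 < δ)
    (h₂ : SPath G K P₂ (2 * π) (-1) g A₂ δ) (h₁ : SPath G K P₁ (2 * π) 1 g A₁ δ) :
    LPath G K (PP P₂ P₁) (4 * π) g (sumP A₂ A₁) δ := by
  refine ⟨fun x hx τ hτ ζ hζ t => ?_, fun x hx τ hτ ζ hζ s t => ?_, fun x hx τ hτ ζ hζ t => ?_,
    fun x hx τ hτ ζ hζ t => ?_, hδ, fun x hx τ hτ ζ hζ => ?_⟩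
  · rw [PP_eq] at hζ
    have c1 : ContDiffAt ℝ ∞ (fun p : ((E × ℝ) × (H₂ × H₁)) × ℝ => A₂ ((p.1.1, p.1.2.1), p.2))
        (((x, τ), ζ), t) :=
      ContDiffAt.comp (g := A₂) (f := fun p : ((E × ℝ) × (H₂ × H₁)) × ℝ =>
        ((p.1.1, p.1.2.1), p.2)) (((x, τ), ζ), t) (h₂.smooth x hx τ hτ ζ.1 hζ.1 t) (by fun_prop)
    have c2 : ContDiffAt ℝ ∞ (fun p : ((E × ℝ) × (H₂ × H₁)) × ℝ => A₁ ((p.1.1, p.1.2.2), p.2))
        (((x, τ), ζ), t) :=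
      ContDiffAt.comp (g := A₁) (f := fun p : ((E × ℝ) × (H₂ × H₁)) × ℝ =>
        ((p.1.1, p.1.2.2), p.2)) (((x, τ), ζ), t) (h₁.smooth x hx τ hτ ζ.2 hζ.2 t) (by fun_prop)
    exact c1.add c2
  · rw [PP_eq] at hζ
    simp only [sumP, Prod.smul_fst, Prod.smul_snd]
    rw [h₂.hom x hx τ hτ _ hζ.1, h₁.hom x hx τ hτ _ hζ.2, smul_add]
  · rw [PP_eq] at hζ
    exact (G.T _).add_mem (h₂.tan x hx τ hτ _ hζ.1 t) (h₁.tan x hx τ hτ _ hζ.2 t)
  · rw [PP_eq] at hζ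
    simp only [sumP]
    have e : t + 4 * π = (t + 2 * π) + 2 * π := by ring
    rw [e, h₂.per x hx τ hτ _ hζ.1, h₂.per x hx τ hτ _ hζ.1, h₁.per x hx τ hτ _ hζ.2,
      h₁.per x hx τ hτ _ hζ.2]
    simp
  · rw [PP_eq] at hζ
    have h3 := ix_double (hg x hx) (hg1 x hx) (h₁.cd hx hτ hζ.2) (h₂.cd hx hτ hζ.1)
      (h₁.tan x hx τ hτ _ hζ.2) (h₂.tan x hx τ hτ _ hζ.1) (h₁.per x hx τ hτ _ hζ.2)
      (h₂.per x hx τ hτ _ hζ.1)
    simp only [sumP]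
    rw [h3]
    have k1 := h₁.neg x hx τ hτ _ hζ.2
    have k2 := h₂.neg x hx τ hτ _ hζ.1
    have h4 : ‖ζ‖ ^ 2 ≤ ‖ζ.1‖ ^ 2 + ‖ζ.2‖ ^ 2 := by
      rw [Prod.norm_def]
      rcases le_total ‖ζ.1‖ ‖ζ.2‖ with h | h
      · rw [max_eq_right h]; nlinarith [sq_nonneg ‖ζ.1‖]
      · rw [max_eq_left h]; nlinarith [sq_nonneg ‖ζ.2‖]
    have h5 : 0 ≤ ‖ζ.1‖ ^ 2 := by positivity
    have h6 : 0 ≤ ‖ζ.2‖ ^ 2 := by positivity
    nlinarith

end Crest.Agent.R208.AK
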