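import Crest.Agent.R208.CW0b
import Crest.Agent.R208.FI2a
import Crest.Agent.R208.FI1e

/-! Row 208, block CW (helper586).  CW0c: restriction of forms to a submanifold and the
commutative ring `H X` of even complex de Rham classes of `X`. -/

set_option autoImplicit false
set_option linter.unusedSectionVars false
set_option linter.unusedSimpArgs false
set_option linter.unusedVariables false

open scoped BigOperators ContDiff Topology
open Module Set

noncomputable section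

namespace Crest.Agent.R208.CW

open Crest.Agent.R208.F Crest.Agent.R208.FI

theorem two_le : (2 : WithTop ℕ∞) ≤ ∞ := WithTop.coe_le_coe.2 le_top

section lin
variable {E F G : Type*} [AddCommGroup E] [Module ℝ E] [AddCommGroup F] [Module ℝ F]
  [AddCommGroup G] [Module ℝ G]

theorem pbC_comp (A : E →ₗ[ℝ] F) (B : F →ₗ[ℝ] G) (c : CF G) :
    pbC A (pbC B c) = pbC (B ∘ₗ A) c := Cx.ext (pb_comp A B _) (pb_comp A B _)

theorem pbC_id (c : CF E) : pbC (LinearMap.id) c = c := Cx.ext (pb_id _) (pb_id _)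

end lin

section rs
variable {E F : Type*} [NormedAddCommGroup E] [NormedSpace ℝ E] [FiniteDimensional ℝ E]
  [NormedAddCommGroup F] [NormedSpace ℝ F] [FiniteDimensional ℝ F]
  {d : ℕ} {X : Set E} {Y : Set F} {om η : E → CF E} {x : E}

/-- restriction to the tangent space of `X` at `x` -/
def rs (X : Set E) (x : E) : CF E →+* CF (Tan X x) := pbC (Tan X x).subtype

@[simp] theorem rs_invC (c : CF E) : rs X x (invC c) = invC (rs X x c) := pbC_invC _ c
@[simp] theorem rs_csmul (z : ℂ) (c : CF E) : rs X x (z • c) = z • rs X x c := pbC_smul _ z c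
@[simp] theorem rs_algebraMap (z : ℂ) :
    rs X x (algebraMap ℂ (CF E) z) = algebraMap ℂ (CF (Tan X x)) z := pbC_algebraMap _ z

theorem rs_chart {f : Eu d → E} {V : Set (Eu d)} (hf : Chart d X f V) {u : Eu d} (hu : u ∈ V)
    (c : CF E) : rs X (f u) c = 0 ↔ pbC ((fderiv ℝ f u : Eu d →L[ℝ] E) : Eu d →ₗ[ℝ] E) c = 0 := by
  have hr := range_fderiv_eq_Tan hf hu
  have hmem : ∀ v : Eu d, fderiv ℝ f u v ∈ Tan X (f u) := fun v => hf.fderiv_mem hu v
  let A : Eu d →ₗ[ℝ] Tan X (f u) :=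
    ((fderiv ℝ f u : Eu d →L[ℝ] E) : Eu d →ₗ[ℝ] E).codRestrict _ hmem
  have hA : ((fderiv ℝ f u : Eu d →L[ℝ] E) : Eu d →ₗ[ℝ] E) = (Tan X (f u)).subtype ∘ₗ A := by
    ext v; rfl
  have hs : Function.Surjective A := by
    rintro ⟨y, hy⟩
    rw [← hr] at hy
    obtain ⟨v, hv⟩ := hy
    exact ⟨v, Subtype.ext hv⟩
  obtain ⟨B, hB⟩ := A.exists_rightInverse_of_surjective (LinearMap.range_eq_top.2 hs)
  rw [hA, ← pbC_comp]
  constructor
  · intro h
    rw [show pbC (Tan X (f u)).subtype c = rs X (f u) c from rfl, h, map_zero]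
  · intro h
    have h2 := congrArg (pbC B) h
    rw [pbC_comp, hB, pbC_id, map_zero] at h2
    exact h2

theorem rs_sub_eq {c c' : CF E} : rs X x c = rs X x c' ↔ rs X x (c - c') = 0 := by
  rw [map_sub, sub_eq_zero]

/-- forms vanishing on `X` have differential vanishing on `X` -/
theorem rs_dC_zero (hX : Sub d X) (hx : x ∈ X) (hom : CD 1 om x)
    (h : ∀ᶠ y in 𝓝 x, y ∈ X → rs X y (om y) = 0) : rs X x (dC om x) = 0 := by
  obtain ⟨f, V, hf, u, hu, rfl⟩ := hX x hx
  rw [rs_chart hf hu]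
  have h2 : ContDiffAt ℝ 2 f u := (hf.contDiffAt hu).of_le two_le
  have h3 : pbC ((fderiv ℝ f u : Eu d →L[ℝ] E) : Eu d →ₗ[ℝ] E) (dC om (f u)) = pullC f (dC om) u :=
    rfl
  rw [h3, ← dC_pullC h2 hom]
  have h4 : pullC f om =ᶠ[𝓝 u] fun _ => 0 := by
    filter_upwards [h2.continuousAt.eventually h, hf.isOpen.mem_nhds hu] with w hw hwV
    exact (rs_chart hf hwV _).1 (hw (hf.mem hwV))
  rw [dC_congr h4, dC_const]

theorem rs_dC_congr (hX : Sub d X) (hx : x ∈ X) (hom : CD 1 om x) (hη : CD 1 η x)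
    (h : ∀ᶠ y in 𝓝 x, y ∈ X → rs X y (om y) = rs X y (η y)) :
    rs X x (dC om x) = rs X x (dC η x) := by
  rw [rs_sub_eq, ← dC_sub hom hη]
  exact rs_dC_zero hX hx (hom.sub hη) (h.mono fun y hy hyX => rs_sub_eq.1 (hy hyX))

/-- restriction of a pull back -/
theorem rs_pbC {f : E → F} (hf : DifferentiableAt ℝ f x) (hXY : MapsTo f X Y) {c : CF F}
    (h : rs Y (f x) c = 0) : rs X x (pbC ((fderiv ℝ f x : E →L[ℝ] F) : E →ₗ[ℝ] F) c) = 0 := by
  have hmem : ∀ v : Tan X x, fderiv ℝ f x v ∈ Tan Y (f x) := fun v =>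
    fderiv_mapsTo_Tan hf (fun z hz => hXY hz) v.2
  let A : Tan X x →ₗ[ℝ] Tan Y (f x) :=
    (((fderiv ℝ f x : E →L[ℝ] F) : E →ₗ[ℝ] F) ∘ₗ (Tan X x).subtype).codRestrict _ hmem
  have hA : ((fderiv ℝ f x : E →L[ℝ] F) : E →ₗ[ℝ] F) ∘ₗ (Tan X x).subtype
      = (Tan Y (f x)).subtype ∘ₗ A := by
    ext v; rfl
  rw [rs, pbC_comp, hA, ← pbC_comp]
  rw [show pbC (Tan Y (f x)).subtype c = rs Y (f x) c from rfl, h, map_zero]

theorem rs_pbC_congr {f : E → F} (hf : DifferentiableAt ℝ f x) (hXY : MapsTo f X Y) {c c' : CF F}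
    (h : rs Y (f x) c = rs Y (f x) c') :
    rs X x (pbC ((fderiv ℝ f x : E →L[ℝ] F) : E →ₗ[ℝ] F) c)
      = rs X x (pbC ((fderiv ℝ f x : E →L[ℝ] F) : E →ₗ[ℝ] F) c') := by
  rw [rs_sub_eq, ← map_sub]
  exact rs_pbC hf hXY (rs_sub_eq.1 h)

/-! ### the ring -/

/-- form smooth at the points of `X` -/
def Smo (X : Set E) (om : E → CF E) : Prop := ∀ x ∈ X, CD ∞ om x

theorem Smo.cd1 (h : Smo X om) (hx : x ∈ X) : CD 1 om x := (h x hx).of_le (by exact_mod_cast le_top)
theorem Smo.dC (h : Smo X om) : Smo X (dC om) := fun x hx => (h x hx).dC (by simp)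
theorem Smo.add (h : Smo X om) (h' : Smo X η) : Smo X (om + η) := fun x hx => (h x hx).add (h' x hx)
theorem Smo.sub (h : Smo X om) (h' : Smo X η) : Smo X (om - η) := fun x hx => (h x hx).sub (h' x hx)
theorem Smo.neg (h : Smo X om) : Smo X (-om) := fun x hx => (h x hx).neg
theorem Smo.mul (h : Smo X om) (h' : Smo X η) : Smo X (om * η) := fun x hx => (h x hx).mul (h' x hx)
theorem Smo.csmul (z : ℂ) (h : Smo X om) : Smo X (z • om) := fun x hx => (h x hx).csmul z
theorem Smo.const (c : CF E) : Smo X fun _ => c := fun _ _ => CD.const c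
theorem Smo.pullC {f : E → F} {om : F → CF F} (hf : ∀ x ∈ X, ContDiffAt ℝ ∞ f x)
    (hXY : MapsTo f X Y) (h : Smo Y om) : Smo X (pullC f om) :=
  fun x hx => (h _ (hXY hx)).pullC (hf x hx) (by simp)

/-- closed even forms on `X` -/
def Z (X : Set E) : Subalgebra ℂ (E → CF E) where
  carrier := {om | (∀ x, invC (om x) = om x) ∧ Smo X om ∧ ∀ x ∈ X, rs X x (dC om x) = 0}
  mul_mem' := by
    rintro a b ⟨ha, ha2, ha3⟩ ⟨hb, hb2, hb3⟩
    refine ⟨fun x => by simp only [Pi.mul_apply, map_mul, ha, hb], ha2.mul hb2, fun x hx => ?_⟩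
    have : dC (a * b) x = dC a x * b x + invC (a x) * dC b x := dC_mul (ha2.cd1 hx) (hb2.cd1 hx)
    rw [this, map_add, map_mul, map_mul, ha3 x hx, hb3 x hx, zero_mul, mul_zero, add_zero]
  add_mem' := by
    rintro a b ⟨ha, ha2, ha3⟩ ⟨hb, hb2, hb3⟩
    refine ⟨fun x => by simp only [Pi.add_apply, map_add, ha, hb], ha2.add hb2, fun x hx => ?_⟩
    have : dC (a + b) x = dC a x + dC b x := dC_add (ha2.cd1 hx) (hb2.cd1 hx)
    rw [this, map_add, ha3 x hx, hb3 x hx, add_zero]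
  algebraMap_mem' := fun z =>
    ⟨fun x => invC_algebraMap z, Smo.const _, fun x hx => by
      have : dC (algebraMap ℂ (E → CF E) z) x = 0 := dC_const _ _
      rw [this, map_zero]⟩

theorem mem_Z : om ∈ Z X ↔ (∀ x, invC (om x) = om x) ∧ Smo X om ∧ ∀ x ∈ X, rs X x (dC om x) = 0 :=
  Iff.rfl

instance instCommRingZ : CommRing (Z X) :=
  { (inferInstance : Ring (Z X)) with
    mul_comm := fun a b => Subtype.ext (funext fun x => even_commC (a.2.1 x) (b.1 x)) }

/-- exact forms -/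
def B (X : Set E) : Ideal (Z X) where
  carrier := {om | ∃ ξ : E → CF E, Smo X ξ ∧ ∀ x ∈ X, rs X x (om.1 x) = rs X x (dC ξ x)}
  add_mem' := by
    rintro a b ⟨ξ, h1, h2⟩ ⟨ζ, h3, h4⟩
    refine ⟨ξ + ζ, h1.add h3, fun x hx => ?_⟩
    have : dC (ξ + ζ) x = dC ξ x + dC ζ x := dC_add (h1.cd1 hx) (h3.cd1 hx)
    rw [this, map_add, ← h2 x hx, ← h4 x hx, ← map_add]; rfl
  zero_mem' := ⟨fun _ => 0, Smo.const _, fun x hx => by rw [dC_const]; rfl⟩
  smul_mem' := by
    rintro c a ⟨ξ, h1, h2⟩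
    refine ⟨c.1 * ξ, c.2.2.1.mul h1, fun x hx => ?_⟩
    have : dC (c.1 * ξ) x = dC c.1 x * ξ x + invC (c.1 x) * dC ξ x :=
      dC_mul (c.2.2.1.cd1 hx) (h1.cd1 hx)
    rw [this, map_add, map_mul, map_mul, c.2.2.2 x hx, zero_mul, zero_add, c.2.1 x, ← h2 x hx,
      ← map_mul]
    rfl

/-- even complex de Rham classes of `X` -/
def H (X : Set E) : Type _ := Z X ⧸ B X

instance : CommRing (H X) := inferInstanceAs (CommRing (Z X ⧸ B X))
instance : Algebra ℂ (H X) := inferInstanceAs (Algebra ℂ (Z X ⧸ B X))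

/-- the projection -/
def H.mk (X : Set E) : Z X →ₐ[ℂ] H X := Ideal.Quotient.mkₐ ℂ (B X)

/-- class of a closed even form -/
def cls (om : E → CF E) (h : om ∈ Z X) : H X := H.mk X ⟨om, h⟩

theorem H.mk_surj : Function.Surjective (H.mk X) := Ideal.Quotient.mkₐ_surjective ℂ (B X)

theorem H.exists_rep (a : H X) : ∃ om h, cls (X := X) om h = a := by
  obtain ⟨⟨om, h⟩, rfl⟩ := H.mk_surj a
  exact ⟨om, h, rfl⟩

theorem H.mk_eq_iff {a b : Z X} : H.mk X a = H.mk X b ↔
    ∃ ξ : E → CF E, Smo X ξ ∧ ∀ x ∈ X, rs X x (a.1 x) = rs X x (b.1 x + dC ξ x) := by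
  have h1 : H.mk X a = H.mk X b ↔ a - b ∈ B X := Ideal.Quotient.eq
  rw [h1]
  refine exists_congr fun ξ => and_congr_right fun _ => forall₂_congr fun x _ => ?_
  change rs X x (a.1 x - b.1 x) = _ ↔ _
  rw [map_sub, map_add, sub_eq_iff_eq_add, add_comm]

theorem cls_eq_iff {om η : E → CF E} {h : om ∈ Z X} {h' : η ∈ Z X} : cls om h = cls η h' ↔
    ∃ ξ : E → CF E, Smo X ξ ∧ ∀ x ∈ X, rs X x (om x) = rs X x (η x + dC ξ x) := H.mk_eq_iff

theorem cls_congr {om η : E → CF E} {h : om ∈ Z X} {h' : η ∈ Z X}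
    (he : ∀ x ∈ X, rs X x (om x) = rs X x (η x)) : cls om h = cls η h' :=
  cls_eq_iff.2 ⟨fun _ => 0, Smo.const _, fun x hx => by rw [dC_const, add_zero, he x hx]⟩

theorem cls_eq_zero_iff {om : E → CF E} {h : om ∈ Z X} : cls om h = 0 ↔
    ∃ ξ : E → CF E, Smo X ξ ∧ ∀ x ∈ X, rs X x (om x) = rs X x (dC ξ x) := by
  have h0 : (0 : H X) = cls (0 : E → CF E) (Z X).zero_mem := (map_zero (H.mk X)).symm
  rw [h0, cls_eq_iff]
  refine exists_congr fun ξ => and_congr_right fun _ => forall₂_congr fun x _ => ?_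
  change _ = rs X x (0 + dC ξ x) ↔ _
  rw [zero_add]

theorem cls_add {om η : E → CF E} (h : om ∈ Z X) (h' : η ∈ Z X) :
    cls (om + η) ((Z X).add_mem h h') = cls om h + cls η h' := (map_add (H.mk X) ⟨om, h⟩ ⟨η, h'⟩)
theorem cls_mul {om η : E → CF E} (h : om ∈ Z X) (h' : η ∈ Z X) :
    cls (om * η) ((Z X).mul_mem h h') = cls om h * cls η h' := (map_mul (H.mk X) ⟨om, h⟩ ⟨η, h'⟩)
theorem cls_smul {om : E → CF E} (z : ℂ) (h : om ∈ Z X) :
    cls (z • om) ((Z X).smul_mem h z) = z • cls om h := (map_smul (H.mk X) z ⟨om, h⟩)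

/-- a form which agrees on `X` with a closed even form is closed -/
theorem mem_Z_of (hX : Sub d X) (he : ∀ x, invC (om x) = om x) (hs : Smo X om) (hη : η ∈ Z X)
    (h : ∀ x ∈ X, rs X x (om x) = rs X x (η x)) : om ∈ Z X :=
  ⟨he, hs, fun x hx => by
    rw [rs_dC_congr hX hx (hs.cd1 hx) (hη.2.1.cd1 hx) (Filter.Eventually.of_forall h)]
    exact hη.2.2 x hx⟩

/-! ### functoriality -/

/-- smooth maps from `X` to `Y` -/
structure SMap (X : Set E) (Y : Set F) (f : E → F) : Prop where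
  smooth : ∀ x ∈ X, ContDiffAt ℝ ∞ f x
  maps : MapsTo f X Y

theorem SMap.diff {f : E → F} (hf : SMap X Y f) (hx : x ∈ X) : DifferentiableAt ℝ f x :=
  (hf.smooth x hx).differentiableAt (by simp)

theorem SMap.c2 {f : E → F} (hf : SMap X Y f) (hx : x ∈ X) : ContDiffAt ℝ 2 f x :=
  (hf.smooth x hx).of_le two_le

theorem SMap.id (X : Set E) : SMap X X (fun x => x) := ⟨fun _ _ => contDiffAt_id, fun _ h => h⟩

theorem SMap.comp {G : Type*} [NormedAddCommGroup G] [NormedSpace ℝ G] [FiniteDimensional ℝ G]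
    {W : Set G} {f : E → F} {g : F → G} (hg : SMap Y W g) (hf : SMap X Y f) :
    SMap X W (fun x => g (f x)) :=
  ⟨fun x hx => (hg.smooth _ (hf.maps hx)).comp x (hf.smooth x hx), fun _ hx => hg.maps (hf.maps hx)⟩

theorem SMap.mono {X' : Set E} {f : E → F} (hf : SMap X Y f) (h : X' ⊆ X) : SMap X' Y f :=
  ⟨fun x hx => hf.smooth x (h hx), fun _ hx => hf.maps (h hx)⟩

theorem dC_pullC_rs {f : E → F} (hf : SMap X Y f) {om : F → CF F} (h : Smo Y om) (hx : x ∈ X) :
    dC (pullC f om) x = pullC f (dC om) x := dC_pullC (hf.c2 hx) (h.cd1 (hf.maps hx))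

theorem pullC_mem_Z {f : E → F} (hf : SMap X Y f) {om : F → CF F} (h : om ∈ Z Y) :
    pullC f om ∈ Z X := by
  refine ⟨fun x => ?_, Smo.pullC hf.smooth hf.maps h.2.1, fun x hx => ?_⟩
  · rw [pullC, ← pbC_invC, h.1]
  · rw [dC_pullC_rs hf h.2.1 hx]
    exact rs_pbC (hf.diff hx) hf.maps (h.2.2 _ (hf.maps hx))

/-- pull-back of closed forms -/
def Z.map {f : E → F} (hf : SMap X Y f) : Z Y →ₐ[ℂ] Z X where
  toFun om := ⟨pullC f om.1, pullC_mem_Z hf om.2⟩
  map_one' := Subtype.ext (funext fun x => map_one (pbC _))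
  map_mul' a b := Subtype.ext (funext fun x => map_mul (pbC _) _ _)
  map_zero' := Subtype.ext (funext fun x => map_zero (pbC _))
  map_add' a b := Subtype.ext (funext fun x => map_add (pbC _) _ _)
  commutes' z := Subtype.ext (funext fun x => pbC_algebraMap _ z)

theorem Z.map_B {f : E → F} (hf : SMap X Y f) {a : Z Y} (ha : a ∈ B Y) : Z.map hf a ∈ B X := by
  obtain ⟨ξ, h1, h2⟩ := ha
  refine ⟨pullC f ξ, Smo.pullC hf.smooth hf.maps h1, fun x hx => ?_⟩
  rw [dC_pullC_rs hf h1 hx]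
  exact rs_pbC_congr (hf.diff hx) hf.maps (h2 _ (hf.maps hx))

/-- pull-back of classes -/
def H.map {f : E → F} (hf : SMap X Y f) : H Y →ₐ[ℂ] H X :=
  Ideal.Quotient.liftₐ (B Y) ((H.mk X).comp (Z.map hf)) fun a ha => by
    have : H.mk X (Z.map hf a) = 0 := Ideal.Quotient.eq_zero_iff_mem.2 (Z.map_B hf ha)
    exact this

theorem H.map_mk {f : E → F} (hf : SMap X Y f) (a : Z Y) :
    H.map hf (H.mk Y a) = H.mk X (Z.map hf a) := rfl

theorem H.map_cls {f : E → F} (hf : SMap X Y f) {om : F → CF F} (h : om ∈ Z Y) :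
    H.map hf (cls om h) = cls (pullC f om) (pullC_mem_Z hf h) := rfl

theorem H.map_id (a : H X) : H.map (SMap.id X) a = a := by
  obtain ⟨om, h, rfl⟩ := H.exists_rep a
  rw [H.map_cls]
  refine cls_congr fun x _ => ?_
  congr 1
  exact Cx.ext (pull_id (fun y => (om y).re) x) (pull_id (fun y => (om y).im) x)

theorem H.map_map {G : Type*} [NormedAddCommGroup G] [NormedSpace ℝ G] [FiniteDimensional ℝ G]
    {W : Set G} {f : E → F} {g : F → G} (hg : SMap Y W g) (hf : SMap X Y f) (a : H W) :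
    H.map hf (H.map hg a) = H.map (hg.comp hf) a := by
  obtain ⟨om, h, rfl⟩ := H.exists_rep a
  rw [H.map_cls, H.map_cls, H.map_cls]
  refine cls_congr fun x hx => ?_
  congr 1
  exact Cx.ext (pull_comp (om := fun y => (om y).re) (hf.diff hx) (hg.diff (hf.maps hx)))
    (pull_comp (om := fun y => (om y).im) (hf.diff hx) (hg.diff (hf.maps hx)))

/-- maps which agree near `X` -/
theorem H.map_congr {f g : E → F} (hf : SMap X Y f) (hg : SMap X Y g)
    (h : ∀ x ∈ X, f =ᶠ[𝓝 x] g) (a : H Y) : H.map hf a = H.map hg a := by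
  obtain ⟨om, ho, rfl⟩ := H.exists_rep a
  rw [H.map_cls, H.map_cls]
  refine cls_congr fun x hx => ?_
  congr 1
  rw [pullC, pullC, (h x hx).fderiv_eq, (h x hx).eq_of_nhds]

/-- maps which agree on `X` -/
theorem H.map_congr' (hX : Sub d X) {f g : E → F} (hf : SMap X Y f) (hg : SMap X Y g)
    (h : ∀ x ∈ X, f x = g x) (a : H Y) : H.map hf a = H.map hg a := by
  obtain ⟨om, ho, rfl⟩ := H.exists_rep a
  rw [H.map_cls, H.map_cls]
  refine cls_congr fun x hx => ?_
  rw [pullC, pullC, rs, pbC_comp, pbC_comp, h x hx]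
  congr 2
  refine LinearMap.ext fun v => ?_
  have key : ∀ w ∈ Tan X x, fderiv ℝ f x w = fderiv ℝ g x w := by
    intro w hw
    refine Submodule.span_induction (p := fun w _ => fderiv ℝ f x w = fderiv ℝ g x w) ?_ ?_ ?_ ?_ hw
    · rintro w ⟨γ, rfl, hγ, hS⟩
      have h1 := (hf.diff hx).hasFDerivAt.comp_hasDerivAt 0 hγ
      have h2 := (hg.diff hx).hasFDerivAt.comp_hasDerivAt 0 hγ
      have h3 : (f ∘ γ) =ᶠ[𝓝 0] (g ∘ γ) := hS.mono fun t ht => h _ ht
      exact (h1.congr_of_eventuallyEq h3.symm).unique h2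
    · simp
    · intro a b _ _ ha hb; simp only [map_add, ha, hb]
    · intro r a _ ha; simp only [map_smul, ha]
  exact key v v.2

end rs

/-! ### integration -/

section integ
variable {E : Type*} [NormedAddCommGroup E] [NormedSpace ℝ E] [FiniteDimensional ℝ E]
  {n : ℕ} {X : Set E} {o : E → Ext E}

/-- complex valued integral -/
def JC (n : ℕ) (X : Set E) (o : E → Ext E) (om : E → CF E) : ℂ :=
  ⟨J n X o fun x => (om x).re, J n X o fun x => (om x).im⟩

theorem evA_rs {x : E} {c c' : CF E} (h : rs X x c = rs X x c') (w : Fin n → E)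
    (hw : ∀ i, w i ∈ Tan X x) :
    evA E n c.re w = evA E n c'.re w ∧ evA E n c.im w = evA E n c'.im w := by
  have h1 : pb (Tan X x).subtype c.re = pb (Tan X x).subtype c'.re := congrArg Cx.re h
  have h2 : pb (Tan X x).subtype c.im = pb (Tan X x).subtype c'.im := congrArg Cx.im h
  have key : ∀ e : Ext E, evA E n e w = evA (Tan X x) n (pb (Tan X x).subtype e) fun i => ⟨w i, hw i⟩ :=
    fun e => by rw [evA_pb]; rfl
  exact ⟨by rw [key, key c'.re, h1], by rw [key, key c'.im, h2]⟩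

theorem JC_congr (hX : Clo n X) {om η : E → CF E} (h : ∀ x ∈ X, rs X x (om x) = rs X x (η x)) :
    JC n X o om = JC n X o η :=
  Complex.ext (J_congr hX fun x hx w hw => (evA_rs (h x hx) w hw).1)
    (J_congr hX fun x hx w hw => (evA_rs (h x hx) w hw).2)

theorem Smo.cont_re {om : E → CF E} (h : Smo X om) : ContinuousOn (fun x => (om x).re) X :=
  fun x hx => (h x hx).re.continuousAt.continuousWithinAt
theorem Smo.cont_im {om : E → CF E} (h : Smo X om) : ContinuousOn (fun x => (om x).im) X :=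
  fun x hx => (h x hx).im.continuousAt.continuousWithinAt

theorem JC_add (hX : Clo n X) (ho : Ori n X o) {om η : E → CF E} (h : Smo X om) (h' : Smo X η) :
    JC n X o (om + η) = JC n X o om + JC n X o η :=
  Complex.ext (J_add hX ho h.cont_re h'.cont_re) (J_add hX ho h.cont_im h'.cont_im)

theorem JC_csmul (hX : Clo n X) (ho : Ori n X o) {om : E → CF E} (z : ℂ) (h : Smo X om) :
    JC n X o (z • om) = z * JC n X o om := by
  have c1 : ContinuousOn (fun x => z.re • (om x).re) X :=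
    ContinuousOn.fun_const_smul h.cont_re _
  have c2 : ContinuousOn (fun x => z.im • (om x).im) X :=
    ContinuousOn.fun_const_smul h.cont_im _
  have c3 : ContinuousOn (fun x => z.re • (om x).im) X :=
    ContinuousOn.fun_const_smul h.cont_im _
  have c4 : ContinuousOn (fun x => z.im • (om x).re) X :=
    ContinuousOn.fun_const_smul h.cont_re _
  refine Complex.ext ?_ ?_
  · rw [Complex.mul_re]
    have := J_sub hX ho c1 c2
    rw [J_smul, J_smul] at this
    exact this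
  · rw [Complex.mul_im]
    have := J_add hX ho c3 c4
    rw [J_smul, J_smul] at this
    exact this

theorem JC_dC (hX : Clo n X) (ho : Ori n X o) {om : E → CF E} (h : Smo X om) :
    JC n X o (dC om) = 0 :=
  Complex.ext (J_d hX ho fun x hx => (h x hx).re.of_le (by exact_mod_cast le_top))
    (J_d hX ho fun x hx => (h x hx).im.of_le (by exact_mod_cast le_top))

theorem JC_eq_of_cls (hX : Clo n X) (ho : Ori n X o) {a b : Z X} (h : H.mk X a = H.mk X b) :
    JC n X o a.1 = JC n X o b.1 := by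
  obtain ⟨ξ, h1, h2⟩ := H.mk_eq_iff.1 h
  rw [JC_congr (η := b.1 + dC ξ) hX h2, JC_add hX ho b.2.2.1 h1.dC, JC_dC hX ho h1, add_zero]

/-- integration of classes -/
def integ (hX : Clo n X) (ho : Ori n X o) : H X →ₗ[ℂ] ℂ where
  toFun a := JC n X o (Function.surjInv (H.mk_surj (X := X)) a).1
  map_add' a b := by
    rw [← JC_add hX ho (Function.surjInv (H.mk_surj (X := X)) a).2.2.1
      (Function.surjInv (H.mk_surj (X := X)) b).2.2.1]
    refine JC_eq_of_cls (b := Function.surjInv (H.mk_surj (X := X)) a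
      + Function.surjInv (H.mk_surj (X := X)) b) hX ho ?_
    rw [map_add]
    simp only [Function.surjInv_eq]
  map_smul' z a := by
    rw [RingHom.id_apply, smul_eq_mul,
      ← JC_csmul hX ho z (Function.surjInv (H.mk_surj (X := X)) a).2.2.1]
    refine JC_eq_of_cls (b := z • Function.surjInv (H.mk_surj (X := X)) a) hX ho ?_
    rw [map_smul]
    simp only [Function.surjInv_eq]

theorem integ_mk (hX : Clo n X) (ho : Ori n X o) (a : Z X) :
    integ hX ho (H.mk X a) = JC n X o a.1 :=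
  JC_eq_of_cls hX ho (Function.surjInv_eq _ _)

theorem integ_cls (hX : Clo n X) (ho : Ori n X o) {om : E → CF E} (h : om ∈ Z X) :
    integ hX ho (cls om h) = JC n X o om := integ_mk hX ho _

end integ

end Crest.Agent.R208.CW
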