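import Crest.Agent.R208.FH10
import Mathlib.Analysis.Calculus.ContDiff.Convolution
import Crest.Agent.R208.CW0c

-- ▼ part R208/T0
section

/-! Row 208, block T (helper316).  T0: integration of forms along a fixed vector space factor
`H` (compact support in `H`): `prH : (E × H → Ext (E × H)) → (E → Ext E)`. -/

set_option autoImplicit false
set_option linter.unusedSectionVars false

open MeasureTheory Set Filter Topology Module
open scoped ContDiff Convolution
open Crest.Agent.R208.F Crest.Agent.R208.FI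

noncomputable section

namespace Crest.Agent.R208.T

/-! ### parametric integrals -/
section param

variable {E H : Type*} [NormedAddCommGroup E] [NormedSpace ℝ E] [FiniteDimensional ℝ E]
  [NormedAddCommGroup H] [NormedSpace ℝ H] [FiniteDimensional ℝ H]
  [MeasurableSpace H] [BorelSpace H] (μ : Measure H) [μ.IsAddHaarMeasure]
  {Y : Type*} [NormedAddCommGroup Y] [NormedSpace ℝ Y] [CompleteSpace Y]

/-- parametric integral over `H` -/
def PI (g : E × H → Y) (x : E) : Y := ∫ h, g (x, h) ∂μ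

/-- supported in the ball of radius `R` in the `H` direction, near the slice over `x` -/
def VS (x : E) (R : ℝ) (g : E × H → Y) : Prop := ∀ᶠ y in 𝓝 x, ∀ h, R < ‖h‖ → g (y, h) = 0

theorem VS.self {x : E} {R : ℝ} {g : E × H → Y} (hs : VS x R g) (h : H) (hh : R < ‖h‖) :
    g (x, h) = 0 := (hs.self_of_nhds : _) h hh

theorem VS.eventuallyEq {x : E} {R : ℝ} {g : E × H → Y} (hs : VS x R g) {h : H} (hh : R < ‖h‖) :
    g =ᶠ[𝓝 (x, h)] fun _ => 0 := by
  have ho : IsOpen {h : H | R < ‖h‖} := isOpen_lt continuous_const continuous_norm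
  rw [nhds_prod_eq]
  filter_upwards [prod_mem_prod hs (ho.mem_nhds hh)] with q hq
  exact hq.1 q.2 hq.2

theorem VS.eventually {x : E} {R : ℝ} {g : E × H → Y} (hs : VS x R g) :
    ∀ᶠ y in 𝓝 x, VS y R g := eventually_eventually_nhds.2 hs

theorem exists_open_slice {n : ℕ} {R : ℝ} {g : E × H → Y} {x : E} (hs : VS x R g)
    (hg : ∀ h, ContDiffAt ℝ n g (x, h)) :
    ∃ s : Set E, IsOpen s ∧ x ∈ s ∧ ContDiffOn ℝ n g (s ×ˢ (univ : Set H)) ∧
      ∀ y ∈ s, ∀ h, R < ‖h‖ → g (y, h) = 0 := by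
  set U : Set (E × H) := {p | ContDiffAt ℝ n g p} with hU
  have hUo : IsOpen U := by
    rw [isOpen_iff_mem_nhds]
    intro p hp
    exact ContDiffAt.eventually hp (by simp)
  have hK : IsCompact (Metric.closedBall (0 : H) (R + 1)) := isCompact_closedBall _ _
  obtain ⟨V, W, hV, hW, hxV, hKW, hVW⟩ := generalized_tube_lemma (isCompact_singleton (x := x)) hK
    hUo (by rintro ⟨y, h⟩ ⟨rfl, _⟩; exact hg h)
  obtain ⟨V', hV's, hV', hxV'⟩ := eventually_nhds_iff.1 hs
  refine ⟨V ∩ V', hV.inter hV', ⟨hxV rfl, hxV'⟩, ?_, fun y hy => hV's y hy.2⟩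
  rintro ⟨y, h⟩ ⟨hy, _⟩
  refine ContDiffAt.contDiffWithinAt ?_
  by_cases hh : ‖h‖ ≤ R + 1
  · exact hVW ⟨hy.1, hKW (by simpa using hh)⟩
  · have hys : VS y R g := by
      filter_upwards [hV'.mem_nhds hy.2] with z hz using hV's z hz
    exact contDiffAt_const.congr_of_eventuallyEq
      (hys.eventuallyEq (h := h) (by push Not at hh; linarith))

theorem PI_eq_conv (g : E × H → Y) (x : E) :
    PI μ g x = ((fun _ : H => (1 : ℝ)) ⋆[ContinuousLinearMap.lsmul ℝ ℝ, μ] fun h => g (x, h)) 0 := by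
  rw [convolution_def, PI]
  simp only [zero_sub, ContinuousLinearMap.lsmul_apply, one_smul]
  exact (integral_neg_eq_self (fun h => g (x, h)) μ).symm

theorem contDiffOn_PI {n : ℕ} {R : ℝ} {g : E × H → Y} {s : Set E} (ho : IsOpen s)
    (hs : ∀ y ∈ s, ∀ h, R < ‖h‖ → g (y, h) = 0)
    (hg : ContDiffOn ℝ n g (s ×ˢ (univ : Set H))) : ContDiffOn ℝ n (PI μ g) s := by
  have h1 := contDiffOn_convolution_right_with_param (μ := μ) (n := (n : ℕ∞))
    (f := fun _ : H => (1 : ℝ)) (ContinuousLinearMap.lsmul ℝ ℝ)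
    (g := fun (x : E) (h : H) => g (x, h)) (s := s) (k := Metric.closedBall (0 : H) R) ho
    (isCompact_closedBall _ _)
    (fun p x hp hx => hs p hp x (by simpa using hx)) (locallyIntegrable_const _) hg
  have h2 : ContDiffOn ℝ n (fun x : E => ((x, 0) : E × H)) s := by fun_prop
  have h3 := h1.comp h2 (fun x hx => ⟨hx, mem_univ _⟩)
  refine h3.congr fun x hx => ?_
  exact PI_eq_conv μ g x

theorem contDiffAt_PI {R : ℝ} {g : E × H → Y} {x : E} (hs : VS x R g)
    (hg : ∀ h, ContDiffAt ℝ ∞ g (x, h)) : ContDiffAt ℝ ∞ (PI μ g) x := by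
  rw [contDiffAt_infty]
  intro n
  obtain ⟨s, ho, hx, h, h0⟩ := exists_open_slice (n := n) hs (fun h => contDiffAt_infty.1 (hg h) n)
  exact (contDiffOn_PI μ ho h0 h).contDiffAt (ho.mem_nhds hx)

theorem contDiffAt_PI_nat {n : ℕ} {R : ℝ} {g : E × H → Y} {x : E} (hs : VS x R g)
    (hg : ∀ h, ContDiffAt ℝ n g (x, h)) : ContDiffAt ℝ n (PI μ g) x := by
  obtain ⟨s, ho, hx, h, h0⟩ := exists_open_slice (n := n) hs hg
  exact (contDiffOn_PI μ ho h0 h).contDiffAt (ho.mem_nhds hx)

theorem VS.fderiv_eq {R : ℝ} {g : E × H → Y} {x : E} (hs : VS x R g) {h : H} (hh : R < ‖h‖) :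
    fderiv ℝ g (x, h) = 0 := by
  rw [(hs.eventuallyEq hh).fderiv_eq]
  simp

theorem hasFDerivAt_PI {R : ℝ} {g : E × H → Y} {x : E} (hs : VS x R g)
    (hg : ∀ h, ContDiffAt ℝ 1 g (x, h)) :
    HasFDerivAt (PI μ g) (PI μ (fun p => (fderiv ℝ g p).comp (ContinuousLinearMap.inl ℝ E H)) x) x := by
  obtain ⟨s, ho, hx, hC, h0⟩ := exists_open_slice (n := 1) hs (by simpa using hg)
  have hC1 : ContDiffOn ℝ 1 g (s ×ˢ (univ : Set H)) := by simpa using hC
  have hopen : IsOpen (s ×ˢ (univ : Set H)) := ho.prod isOpen_univ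
  have hg' : ContinuousOn (fun p => (fderiv ℝ g p).comp (ContinuousLinearMap.inl ℝ E H))
      (s ×ˢ (univ : Set H)) :=
    (hC1.continuousOn_fderiv_of_isOpen hopen (by norm_num)).clm_comp continuousOn_const
  obtain ⟨C, hC, hCs, hCx⟩ := exists_compact_subset ho hx
  set K := Metric.closedBall (0 : H) R with hK
  have hKc : IsCompact K := isCompact_closedBall _ _
  obtain ⟨M, hM⟩ := (hC.prod hKc).exists_bound_of_continuousOn
    (hg'.mono (prod_mono hCx (subset_univ K)))
  have hCn : C ∈ 𝓝 x := mem_interior_iff_mem_nhds.1 hCs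
  have hz : ∀ y ∈ s, Continuous fun h => g (y, h) := fun y hy =>
    hC1.continuousOn.comp_continuous (by fun_prop) (fun h => ⟨hy, mem_univ _⟩)
  have hzc : ∀ y ∈ s, HasCompactSupport fun h => g (y, h) := fun y hy =>
    HasCompactSupport.intro hKc fun h hh => h0 y hy h (by simpa [hK] using hh)
  refine hasFDerivAt_integral_of_dominated_of_fderiv_le (s := C)
    (bound := K.indicator fun _ => M) (F := fun y h => g (y, h))
    (F' := fun y h => (fderiv ℝ g (y, h)).comp (ContinuousLinearMap.inl ℝ E H)) hCn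
    ?_ ?_ ?_ ?_ ?_ ?_
  · filter_upwards [hCn] with y hy using (hz y (hCx hy)).aestronglyMeasurable
  · exact (hz x hx).integrable_of_hasCompactSupport (hzc x hx)
  · exact (hg'.comp_continuous (by fun_prop) (fun h => ⟨hx, mem_univ _⟩)).aestronglyMeasurable
  · refine Eventually.of_forall fun h y hy => ?_
    by_cases hh : h ∈ K
    · rw [indicator_of_mem hh]
      exact hM (y, h) ⟨hy, hh⟩
    · rw [indicator_of_notMem hh]
      have hys : VS y R g := by
        filter_upwards [ho.mem_nhds (hCx hy)] with z hz using h0 z hz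
      have := hys.fderiv_eq (h := h) (by simpa [hK] using hh)
      simp [this]
  · exact (integrable_indicator_iff hKc.measurableSet).2
      (integrableOn_const (hKc.measure_lt_top.ne))
  · refine Eventually.of_forall fun h y hy => ?_
    have h1 : HasFDerivAt g (fderiv ℝ g (y, h)) (y, h) :=
      ((hC1.contDiffAt (hopen.mem_nhds ⟨hCx hy, mem_univ _⟩)).differentiableAt
        (by norm_num)).hasFDerivAt
    have h2 : HasFDerivAt (fun y : E => (y, h)) (ContinuousLinearMap.inl ℝ E H) y :=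
      (hasFDerivAt_id y).prodMk (hasFDerivAt_const h y)
    exact h1.comp y h2

theorem integrable_slice {R : ℝ} {g : E × H → Y} {x : E} (hs : VS x R g)
    (hg : ∀ h, ContinuousAt g (x, h)) : Integrable (fun h => g (x, h)) μ := by
  have h1 : Continuous fun h => g (x, h) := continuous_iff_continuousAt.2 fun h =>
    (hg h).comp (f := fun h => ((x, h) : E × H)) (by fun_prop)
  refine h1.integrable_of_hasCompactSupport ?_
  exact HasCompactSupport.intro (isCompact_closedBall (0 : H) R)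
    fun h hh => hs.self h (by simpa using hh)

/-- the integral of a vertical derivative vanishes -/
theorem PI_fderiv_vertical {R : ℝ} {g : E × H → Y} {x : E} (hs : VS x R g)
    (hg : ∀ h, ContDiffAt ℝ 1 g (x, h)) (v : H) :
    ∫ h, fderiv ℝ g (x, h) (0, v) ∂μ = 0 := by
  have h1 : ContDiff ℝ 1 fun h => g (x, h) := contDiff_iff_contDiffAt.2 fun h =>
    (hg h).comp (f := fun h => ((x, h) : E × H)) h (by fun_prop)
  have h2 : HasCompactSupport fun h => g (x, h) :=
    HasCompactSupport.intro (isCompact_closedBall (0 : H) R)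
      fun h hh => hs.self h (by simpa using hh)
  rw [← integral_fderiv_apply_eq_zero μ h1 h2 v]
  congr 1
  funext h
  have h3 : HasFDerivAt (fun h : H => (x, h)) (ContinuousLinearMap.inr ℝ E H) h :=
    (hasFDerivAt_const x h).prodMk (hasFDerivAt_id h)
  have h4 := (((hg h).differentiableAt (by norm_num)).hasFDerivAt).comp h h3
  rw [show (fun h => g (x, h)) = g ∘ (fun h => (x, h)) from rfl, h4.fderiv]
  simp

end param

/-! ### iterated contraction -/
section contr
universe u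
variable {G : Type u} [NormedAddCommGroup G] [NormedSpace ℝ G] [FiniteDimensional ℝ G]

/-- iterated contraction, the first vector first -/
def iis : List G → Ext G →ₗ[ℝ] Ext G
  | [] => LinearMap.id
  | v :: vs => iis vs ∘ₗ ii v

@[simp] theorem iis_nil (c : Ext G) : iis [] c = c := rfl
@[simp] theorem iis_cons (v : G) (vs : List G) (c : Ext G) : iis (v :: vs) c = iis vs (ii v c) := rfl

theorem iis_append (vs ws : List G) (c : Ext G) : iis (vs ++ ws) c = iis ws (iis vs c) := by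
  induction vs generalizing c with
  | nil => rfl
  | cons v vs ih => simp [ih]

/-- continuous version -/
def iisL (vs : List G) : Ext G →L[ℝ] Ext G := LinearMap.toContinuousLinearMap (iis vs)

@[simp] theorem iisL_apply (vs : List G) (c : Ext G) : iisL vs c = iis vs c := rfl

/-- the remainder in the Cartan formula -/
def remL : List G → (G →L[ℝ] Ext G) →ₗ[ℝ] Ext G
  | [] => 0
  | v :: vs =>
    { toFun := fun T => iis vs (T v) - remL vs ((iiL v).comp T)
      map_add' := fun S T => by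
        simp only [_root_.add_apply, map_add, ContinuousLinearMap.comp_add]; abel
      map_smul' := fun r T => by
        simp only [_root_.smul_apply, map_smul, ContinuousLinearMap.comp_smul,
          RingHom.id_apply, smul_sub] }

theorem remL_cons (v : G) (vs : List G) (T : G →L[ℝ] Ext G) :
    remL (v :: vs) T = iis vs (T v) - remL vs ((iiL v).comp T) := rfl

theorem remL_eq_zero (vs : List G) (T : G →L[ℝ] Ext G) (h : ∀ v ∈ vs, T v = 0) :
    remL vs T = 0 := by
  induction vs generalizing T with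
  | nil => rfl
  | cons v vs ih =>
    rw [remL_cons, h v (by simp), map_zero, ih, sub_zero]
    intro w hw
    simp [h w (by simp [hw])]

/-- iterated Cartan formula -/
theorem iis_d (vs : List G) {Om : G → Ext G} {x : G} (h : DifferentiableAt ℝ Om x) :
    iis vs (F.d Om x) = (-1 : ℝ) ^ vs.length • F.d (fun y => iis vs (Om y)) x
      + remL vs (fderiv ℝ Om x) := by
  induction vs generalizing Om with
  | nil => simp [remL]
  | cons v vs ih =>
    have h1 : HasFDerivAt (fun y => ii v (Om y)) ((iiL v).comp (fderiv ℝ Om x)) x :=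
      (iiL v).hasFDerivAt.comp x h.hasFDerivAt
    rw [iis_cons, cartan v h, map_sub, ih h1.differentiableAt, remL_cons, h1.fderiv,
      List.length_cons, pow_succ]
    simp only [iis_cons, mul_neg, mul_one, neg_smul]
    abel

theorem ii_mul_horiz {v : G} {a b : Ext G} (hb : ii v b = 0) : ii v (a * b) = ii v a * b := by
  rw [ii_mul, hb, mul_zero, add_zero]

theorem iis_mul_horiz (vs : List G) {a b : Ext G} (hb : ∀ v ∈ vs, ii v b = 0) :
    iis vs (a * b) = iis vs a * b := by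
  induction vs generalizing a with
  | nil => rfl
  | cons v vs ih =>
    rw [iis_cons, ii_mul_horiz (hb v (by simp)), ih (fun w hw => hb w (by simp [hw])), iis_cons]

theorem iis_pb {G' : Type*} [NormedAddCommGroup G'] [NormedSpace ℝ G'] [FiniteDimensional ℝ G']
    (A : G →ₗ[ℝ] G') (vs : List G) (c : Ext G') : iis vs (pb A c) = pb A (iis (vs.map A) c) := by
  induction vs generalizing c with
  | nil => rfl
  | cons v vs ih => rw [iis_cons, ii_pb, ih, List.map_cons, iis_cons]

end contr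

/-! ### integration along `H` -/
section prH
variable {E H G : Type*} [NormedAddCommGroup E] [NormedSpace ℝ E] [FiniteDimensional ℝ E]
  [NormedAddCommGroup H] [NormedSpace ℝ H] [FiniteDimensional ℝ H]
  [NormedAddCommGroup G] [NormedSpace ℝ G] [FiniteDimensional ℝ G]

/-- `(x,h) ↦ j x + i h` -/
def jih (j : E →L[ℝ] G) (i : H →L[ℝ] G) : E × H →L[ℝ] G := j.coprod i

@[simp] theorem jih_apply (j : E →L[ℝ] G) (i : H →L[ℝ] G) (x : E) (h : H) :
    jih j i (x, h) = j x + i h := rfl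

/-- the vertical frame -/
def vfr (i : H →L[ℝ] G) : List G := (List.ofFn (Module.finBasis ℝ H)).map i

theorem length_vfr (i : H →L[ℝ] G) : (vfr i).length = finrank ℝ H := by simp [vfr]

theorem mem_vfr {i : H →L[ℝ] G} {v : G} (hv : v ∈ vfr i) : ∃ h, v = i h := by
  rw [vfr, List.mem_map] at hv
  obtain ⟨h, _, rfl⟩ := hv
  exact ⟨h, rfl⟩

/-- contraction with the vertical frame, restricted to the base directions -/
def cH (j : E →L[ℝ] G) (i : H →L[ℝ] G) : Ext G →L[ℝ] Ext E := (pbL j).comp (iisL (vfr i))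

theorem cH_apply (j : E →L[ℝ] G) (i : H →L[ℝ] G) (c : Ext G) :
    cH j i c = pb (j : E →ₗ[ℝ] G) (iis (vfr i) c) := rfl

variable {j : E →L[ℝ] G} {i : H →L[ℝ] G} {q : G →L[ℝ] E} {r : G →L[ℝ] H}

theorem ii_base (hqi : ∀ h, q (i h) = 0) (h : H) (β : Ext E) :
    ii (i h) (pb (q : G →ₗ[ℝ] E) β) = 0 := by
  rw [ii_pb]
  simp [hqi]

theorem cH_mul_base (hqi : ∀ h, q (i h) = 0) (hqj : ∀ x, q (j x) = x) (a : Ext G) (β : Ext E) :
    cH j i (a * pb (q : G →ₗ[ℝ] E) β) = cH j i a * β := by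
  rw [cH_apply, iis_mul_horiz, map_mul, pb_comp, cH_apply]
  · congr 1
    have : (q : G →ₗ[ℝ] E) ∘ₗ (j : E →ₗ[ℝ] G) = LinearMap.id := by ext x; exact hqj x
    rw [this, pb_id]
  · intro v hv
    obtain ⟨h, rfl⟩ := mem_vfr hv
    exact ii_base hqi h β

variable [MeasurableSpace H] [BorelSpace H] (μ : Measure H) [μ.IsAddHaarMeasure]

/-- the integrand of the fibre integral -/
def gH (j : E →L[ℝ] G) (i : H →L[ℝ] G) (η : G → Ext G) (p : E × H) : Ext E :=
  cH j i (η (jih j i p))

/-- **fibre integral along `H`** -/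
def prH (j : E →L[ℝ] G) (i : H →L[ℝ] G) (η : G → Ext G) (x : E) : Ext E := PI μ (gH j i η) x

theorem prH_eq (η : G → Ext G) (x : E) : prH μ j i η x = ∫ h, cH j i (η (j x + i h)) ∂μ := rfl

variable {η : G → Ext G} {R : ℝ} {x : E}

/-- support condition in the `H`-direction, near the slice over `x` -/
def VG (j : E →L[ℝ] G) (i : H →L[ℝ] G) (x : E) (R : ℝ) (η : G → Ext G) : Prop :=
  ∀ᶠ y in 𝓝 x, ∀ h, R < ‖h‖ → η (j y + i h) = 0

theorem VG.gH (hs : VG j i x R η) : VS x R (gH j i η) := by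
  filter_upwards [hs] with y hy h hh
  show cH j i (η (j y + i h)) = 0
  rw [hy h hh, map_zero]

theorem VG.comp (hs : VG j i x R η) : VS x R (fun p => η (jih j i p)) := hs

theorem VG.mul_right (hs : VG j i x R η) (β : G → Ext G) : VG j i x R (fun g => η g * β g) := by
  filter_upwards [hs] with y hy h hh
  rw [hy h hh, zero_mul]

theorem VG.mul_left (hs : VG j i x R η) (β : G → Ext G) : VG j i x R (fun g => β g * η g) := by
  filter_upwards [hs] with y hy h hh
  rw [hy h hh, mul_zero]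

theorem VG.eventually (hs : VG j i x R η) : ∀ᶠ y in 𝓝 x, VG j i y R η :=
  eventually_eventually_nhds.2 hs

theorem contDiffAt_gH {n : WithTop ℕ∞} {h : H} (hη : ContDiffAt ℝ n η (j x + i h)) :
    ContDiffAt ℝ n (gH j i η) (x, h) :=
  (cH j i).contDiff.contDiffAt.comp _
    (ContDiffAt.comp (x, h) (f := jih j i) hη (jih j i).contDiff.contDiffAt)

theorem contDiffAt_prH (hs : VG j i x R η) (hη : ∀ h, ContDiffAt ℝ ∞ η (j x + i h)) :
    ContDiffAt ℝ ∞ (prH μ j i η) x :=
  contDiffAt_PI μ hs.gH fun h => contDiffAt_gH (hη h)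

theorem contDiffAt_prH_nat {n : ℕ} (hs : VG j i x R η)
    (hη : ∀ h, ContDiffAt ℝ n η (j x + i h)) : ContDiffAt ℝ n (prH μ j i η) x :=
  contDiffAt_PI_nat μ hs.gH fun h => contDiffAt_gH (hη h)

/-- pointwise identity behind `d prH = ± prH d` -/
theorem cH_d {h : H} (hη : ContDiffAt ℝ 1 η (j x + i h)) :
    cH j i (F.d η (j x + i h)) = (-1 : ℝ) ^ finrank ℝ H •
        wd E ((fderiv ℝ (gH j i η) (x, h)).comp (ContinuousLinearMap.inl ℝ E H))
      + pbL j (remL (vfr i) (fderiv ℝ η (j x + i h))) := by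
  have hd : DifferentiableAt ℝ η (j x + i h) := hη.differentiableAt (by norm_num)
  have hΘ : DifferentiableAt ℝ (fun p => iis (vfr i) (η p)) (j x + i h) :=
    (iisL (vfr i)).differentiableAt.comp _ hd
  have hf : ∀ y, HasFDerivAt (fun y : E => j y + i h) j y := fun y => j.hasFDerivAt.add_const (i h)
  have hf2 : ContDiffAt ℝ 2 (fun y : E => j y + i h) x := by
    have : ContDiff ℝ 2 (fun y : E => j y + i h) := j.contDiff.add contDiff_const
    exact this.contDiffAt
  have e2 : pull (fun y : E => j y + i h) (fun p => iis (vfr i) (η p)) =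
      fun y => gH j i η (y, h) := by
    funext y
    rw [pull, (hf y).fderiv]
    rfl
  have e3 : HasFDerivAt (gH j i η) (fderiv ℝ (gH j i η) (x, h)) (x, h) :=
    ((contDiffAt_gH hη).differentiableAt (by norm_num)).hasFDerivAt
  have hj : HasFDerivAt (fun y : E => (y, h)) (ContinuousLinearMap.inl ℝ E H) x :=
    (hasFDerivAt_id x).prodMk (hasFDerivAt_const h x)
  have e1 : wd E ((fderiv ℝ (gH j i η) (x, h)).comp (ContinuousLinearMap.inl ℝ E H)) =
      pbL j (F.d (fun p => iis (vfr i) (η p)) (j x + i h)) := by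
    have h6 : wd E ((fderiv ℝ (gH j i η) (x, h)).comp (ContinuousLinearMap.inl ℝ E H)) =
        F.d (pull (fun y : E => j y + i h) (fun p => iis (vfr i) (η p))) x := by
      have e5 : HasFDerivAt (fun y => gH j i η (y, h))
          ((fderiv ℝ (gH j i η) (x, h)).comp (ContinuousLinearMap.inl ℝ E H)) x :=
        HasFDerivAt.comp (g := gH j i η) x e3 hj
      rw [e2, d_of_hasFDerivAt e5]
    rw [h6, d_pull hf2 hΘ, pull, (hf x).fderiv, pbL_apply]
  have e4 : cH j i (F.d η (j x + i h)) = pbL j (iis (vfr i) (F.d η (j x + i h))) := rfl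
  rw [e4, iis_d _ hd, map_add, map_smul, length_vfr, e1]

theorem hasFDerivAt_prH (hs : VG j i x R η)
    (hη : ∀ h, ContDiffAt ℝ 1 η (j x + i h)) :
    HasFDerivAt (prH μ j i η)
      (∫ h, (fderiv ℝ (gH j i η) (x, h)).comp (ContinuousLinearMap.inl ℝ E H) ∂μ) x :=
  hasFDerivAt_PI μ hs.gH fun h => contDiffAt_gH (hη h)

/-- **`d` commutes with the fibre integral** (`j ⊕ i` onto) -/
theorem prH_d (hji : Function.Surjective (jih j i)) (hs : VG j i x R η)
    (hη : ∀ h, ContDiffAt ℝ 1 η (j x + i h)) :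
    prH μ j i (F.d η) x = (-1 : ℝ) ^ finrank ℝ H • F.d (prH μ j i η) x := by
  have hc : ∀ h, ContDiffAt ℝ 1 (gH j i η) (x, h) := fun h => contDiffAt_gH (hη h)
  have h1 := hasFDerivAt_prH μ hs hη
  have hcp : ∀ h, ContDiffAt ℝ 1 (fun p => η (jih j i p)) (x, h) := fun h =>
    ContDiffAt.comp (x, h) (f := jih j i) (hη h) (jih j i).contDiff.contDiffAt
  have h3 : ∀ h, HasFDerivAt (fun p => η (jih j i p))
      ((fderiv ℝ η (j x + i h)).comp (jih j i)) (x, h) := fun h =>
    HasFDerivAt.comp (g := η) (x, h) (((hη h).differentiableAt (by norm_num)).hasFDerivAt)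
      (jih j i).hasFDerivAt
  have hTc : Continuous fun h => fderiv ℝ η (j x + i h) := by
    refine continuous_iff_continuousAt.2 fun h => ?_
    exact ContinuousAt.comp (g := fderiv ℝ η) (f := fun h => j x + i h)
      (((hη h).fderiv_right (m := 0) (by norm_num)).continuousAt) (by fun_prop)
  have hTs : HasCompactSupport fun h => fderiv ℝ η (j x + i h) :=
    HasCompactSupport.intro (isCompact_closedBall (0 : H) R) fun h hh => by
      have h4 := hs.comp.fderiv_eq (h := h) (by simpa using hh)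
      rw [(h3 h).fderiv] at h4
      refine ContinuousLinearMap.ext fun w => ?_
      obtain ⟨p, rfl⟩ := hji w
      exact congrArg (fun L => L p) h4
  have iT : Integrable (fun h => fderiv ℝ η (j x + i h)) μ := hTc.integrable_of_hasCompactSupport hTs
  have hfd2 : ∀ h, ContinuousAt (fun p => (fderiv ℝ (gH j i η) p).comp
      (ContinuousLinearMap.inl ℝ E H)) (x, h) := fun h =>
    (((hc h).fderiv_right (m := 0) (by norm_num)).continuousAt).clm_comp continuousAt_const
  have hs2 : VS x R (fun p => (fderiv ℝ (gH j i η) p).comp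
      (ContinuousLinearMap.inl ℝ E H)) := by
    filter_upwards [hs.gH.eventually] with y hy h hh
    rw [hy.fderiv_eq hh, ContinuousLinearMap.zero_comp]
  have iG := integrable_slice μ hs2 hfd2
  set Φ : (G →L[ℝ] Ext G) →L[ℝ] Ext E :=
    (pbL j).comp (LinearMap.toContinuousLinearMap (remL (vfr i))) with hΦ
  have hrem : ∫ h, Φ (fderiv ℝ η (j x + i h)) ∂μ = 0 := by
    rw [ContinuousLinearMap.integral_comp_comm _ iT]
    show pbL j (remL (vfr i) _) = 0
    rw [remL_eq_zero, map_zero]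
    intro v hv
    obtain ⟨b, rfl⟩ := mem_vfr hv
    rw [ContinuousLinearMap.integral_apply iT]
    rw [← PI_fderiv_vertical μ hs.comp hcp b]
    congr 1
    funext h
    rw [(h3 h).fderiv]
    simp
  have e0 : ∀ h, cH j i (F.d η (j x + i h)) = (-1 : ℝ) ^ finrank ℝ H •
        wd E ((fderiv ℝ (gH j i η) (x, h)).comp (ContinuousLinearMap.inl ℝ E H))
      + Φ (fderiv ℝ η (j x + i h)) := fun h => cH_d (hη h)
  rw [prH_eq]
  simp only [e0]
  rw [integral_add, hrem, add_zero, integral_smul, ContinuousLinearMap.integral_comp_comm _ iG,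
    d_of_hasFDerivAt h1]
  · exact ((wd E).integrable_comp iG).smul ((-1 : ℝ) ^ finrank ℝ H)
  · exact Φ.integrable_comp iT

/-! ### projection formula, naturality, restriction -/

theorem integrable_cH (hs : VG j i x R η) (hη : ∀ h, ContinuousAt η (j x + i h)) :
    Integrable (fun h => cH j i (η (j x + i h))) μ := by
  have hcont : ∀ h, ContinuousAt (gH j i η) (x, h) := fun h =>
    (cH j i).continuous.continuousAt.comp
      (ContinuousAt.comp (g := η) (f := jih j i) (hη h) (jih j i).continuous.continuousAt)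
  exact integrable_slice μ hs.gH hcont

theorem prH_mul_base (hqi : ∀ h, q (i h) = 0) (hqj : ∀ x, q (j x) = x)
    (hs : VG j i x R η) (hη : ∀ h, ContinuousAt η (j x + i h)) (β : E → Ext E) :
    prH μ j i (fun g => η g * pull q β g) x = prH μ j i η x * β x := by
  have i1 := integrable_cH μ hs hη
  rw [prH_eq, prH_eq]
  have e : ∀ h, cH j i (η (j x + i h) * pull q β (j x + i h)) =
      cH j i (η (j x + i h)) * β x := by
    intro h
    rw [pull, q.fderiv, cH_mul_base hqi hqj]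
    congr 2
    rw [map_add, hqj, hqi, add_zero]
  simp only [e]
  exact ((mulL E).flip (β x)).integral_comp_comm i1

theorem prH_congr {η' : G → Ext G} (h : ∀ h, η (j x + i h) = η' (j x + i h)) :
    prH μ j i η x = prH μ j i η' x := by
  rw [prH_eq, prH_eq]; simp only [h]

theorem prH_sub {η' : G → Ext G} (hs : VG j i x R η) (hη : ∀ h, ContinuousAt η (j x + i h))
    (hs' : VG j i x R η') (hη' : ∀ h, ContinuousAt η' (j x + i h)) :
    prH μ j i (fun g => η g - η' g) x = prH μ j i η x - prH μ j i η' x := by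
  rw [prH_eq, prH_eq, prH_eq]
  simp only [map_sub]
  exact integral_sub (integrable_cH μ hs hη) (integrable_cH μ hs' hη')

/-- restriction to tangent spaces -/
theorem pb_iis_eq_zero {K : Submodule ℝ G} {vs : List G} (hv : ∀ v ∈ vs, v ∈ K) {c : Ext G}
    (hc : pb K.subtype c = 0) : pb K.subtype (iis vs c) = 0 := by
  induction vs generalizing c with
  | nil => exact hc
  | cons v vs ih =>
    rw [iis_cons]
    refine ih (fun w hw => hv w (by simp [hw])) ?_
    have : v = K.subtype ⟨v, hv v (by simp)⟩ := rfl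
    rw [this, ← ii_pb, hc, map_zero]

theorem resZero_prH {X : Set E} {Y : Set G} (hj : ∀ x ∈ X, ∀ h, ∀ w ∈ Tan X x, j w ∈ Tan Y (j x + i h))
    (hi : ∀ x ∈ X, ∀ h w, i w ∈ Tan Y (j x + i h)) (hm : ∀ x ∈ X, ∀ h, j x + i h ∈ Y)
    (hη : ResZero Y η) (hs : ∀ x ∈ X, VG j i x R η)
    (hηc : ∀ x ∈ X, ∀ h, ContinuousAt η (j x + i h)) : ResZero X (prH μ j i η) := by
  intro x hx
  rw [prH_eq]
  have i1 := integrable_cH μ (hs x hx) (hηc x hx)
  have := (LinearMap.toContinuousLinearMap (pb (Tan X x).subtype).toLinearMap).integral_comp_comm i1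
  have e : ∀ h, pb (Tan X x).subtype (cH j i (η (j x + i h))) = 0 := by
    intro h
    set K := Tan Y (j x + i h) with hK
    have h1 : pb K.subtype (iis (vfr i) (η (j x + i h))) = 0 := by
      refine pb_iis_eq_zero ?_ (hη _ (hm x hx h))
      intro v hv
      obtain ⟨b, rfl⟩ := mem_vfr hv
      exact hi x hx h b
    let j' : Tan X x →ₗ[ℝ] K :=
      ((j : E →ₗ[ℝ] G) ∘ₗ (Tan X x).subtype).codRestrict K fun w => hj x hx h w w.2
    have h2 : (j : E →ₗ[ℝ] G) ∘ₗ (Tan X x).subtype = K.subtype ∘ₗ j' := rfl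
    rw [cH_apply, pb_comp, h2, ← pb_comp, h1, map_zero]
  show (LinearMap.toContinuousLinearMap (pb (Tan X x).subtype).toLinearMap) _ = 0
  rw [← this]
  simp only [LinearMap.coe_toContinuousLinearMap', AlgHom.toLinearMap_apply, e, integral_zero]

end prH

end Crest.Agent.R208.T
end
end

-- ▼ part R208/T0b

/-! Row 208, block T (helper316).  T0b: calculus of real forms on a submanifold up to restriction
(`Eqv`) and up to exact forms (`Coh`). -/

set_option autoImplicit false
set_option linter.unusedSectionVars false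

open Set Filter Topology Module
open scoped ContDiff
open Crest.Agent.R208.F Crest.Agent.R208.FI Crest.Agent.R208.CW

noncomputable section

namespace Crest.Agent.R208.T

universe u
variable {E F' G : Type*} [NormedAddCommGroup E] [NormedSpace ℝ E] [FiniteDimensional ℝ E]
  [NormedAddCommGroup F'] [NormedSpace ℝ F'] [FiniteDimensional ℝ F']
  [NormedAddCommGroup G] [NormedSpace ℝ G] [FiniteDimensional ℝ G]
  {m : ℕ} {X : Set E} {Y : Set F'} {a b c a' b' : E → Ext E} {x : E}

/-- forms which agree on `X` -/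
def Eqv (X : Set E) (a b : E → Ext E) : Prop := ResZero X (a - b)

/-- smooth at the points of `X` -/
def Sm (X : Set E) (a : E → Ext E) : Prop := ∀ x ∈ X, ContDiffAt ℝ ∞ a x

/-- closed on `X` -/
def Cl (X : Set E) (a : E → Ext E) : Prop := ResZero X (F.d a)

/-- cohomologous on `X` -/
def Coh (X : Set E) (a b : E → Ext E) : Prop := ∃ ξ : E → Ext E, Sm X ξ ∧ Eqv X (a - b) (F.d ξ)

theorem pbT (X : Set E) (x : E) (a b : E → Ext E) :
    pb (Tan X x).subtype ((a - b) x) = pb (Tan X x).subtype (a x) - pb (Tan X x).subtype (b x) :=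
  map_sub _ _ _

theorem eqv_iff : Eqv X a b ↔ ∀ x ∈ X, pb (Tan X x).subtype (a x) = pb (Tan X x).subtype (b x) := by
  refine forall₂_congr fun x _ => ?_
  rw [pbT, sub_eq_zero]

theorem Eqv.of_eq (h : ∀ x ∈ X, a x = b x) : Eqv X a b := eqv_iff.2 fun x hx => by rw [h x hx]
theorem Eqv.refl (a : E → Ext E) : Eqv X a a := Eqv.of_eq fun _ _ => rfl
theorem Eqv.symm (h : Eqv X a b) : Eqv X b a := eqv_iff.2 fun x hx => (eqv_iff.1 h x hx).symm
theorem Eqv.trans (h : Eqv X a b) (h' : Eqv X b c) : Eqv X a c :=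
  eqv_iff.2 fun x hx => (eqv_iff.1 h x hx).trans (eqv_iff.1 h' x hx)
theorem Eqv.add (h : Eqv X a b) (h' : Eqv X a' b') : Eqv X (a + a') (b + b') :=
  eqv_iff.2 fun x hx => by
    rw [Pi.add_apply, Pi.add_apply, map_add, map_add, eqv_iff.1 h x hx, eqv_iff.1 h' x hx]
theorem Eqv.sub (h : Eqv X a b) (h' : Eqv X a' b') : Eqv X (a - a') (b - b') :=
  eqv_iff.2 fun x hx => by
    rw [pbT, pbT, eqv_iff.1 h x hx, eqv_iff.1 h' x hx]
theorem Eqv.neg (h : Eqv X a b) : Eqv X (-a) (-b) :=
  eqv_iff.2 fun x hx => by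
    rw [Pi.neg_apply, Pi.neg_apply, map_neg, map_neg, eqv_iff.1 h x hx]
theorem Eqv.mul (h : Eqv X a b) (h' : Eqv X a' b') : Eqv X (a * a') (b * b') :=
  eqv_iff.2 fun x hx => by
    rw [Pi.mul_apply, Pi.mul_apply, map_mul, map_mul, eqv_iff.1 h x hx, eqv_iff.1 h' x hx]
theorem Eqv.smul (r : ℝ) (h : Eqv X a b) : Eqv X (r • a) (r • b) :=
  eqv_iff.2 fun x hx => by
    rw [Pi.smul_apply, Pi.smul_apply, map_smul, map_smul, eqv_iff.1 h x hx]
theorem Eqv.mono_tan {X' : Set E} (hs : X' ⊆ X) (h : Eqv X a b) : Eqv X' a b := by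
  refine eqv_iff.2 fun x hx => ?_
  have h1 := eqv_iff.1 h x (hs hx)
  have h2 : Tan X' x ≤ Tan X x := Tan_mono_of_subset hs x
  have h3 : (Tan X' x).subtype = (Tan X x).subtype ∘ₗ Submodule.inclusion h2 := rfl
  rw [h3, ← pb_comp, ← pb_comp, h1]

theorem resZero_iff : ResZero X a ↔ Eqv X a 0 := by
  rw [Eqv, sub_zero]

theorem ResZero.mono {X' : Set E} (hs : X' ⊆ X) (h : ResZero X a) : ResZero X' a :=
  resZero_iff.2 ((resZero_iff.1 h).mono_tan hs)

theorem pb_pull_eq_zero {f : E → F'} (hf : DifferentiableAt ℝ f x) (hXY : MapsTo f X Y)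
    {c : Ext F'} (h : pb (Tan Y (f x)).subtype c = 0) :
    pb (Tan X x).subtype (pb ((fderiv ℝ f x : E →L[ℝ] F') : E →ₗ[ℝ] F') c) = 0 := by
  have hmem : ∀ v : Tan X x, fderiv ℝ f x v ∈ Tan Y (f x) := fun v =>
    fderiv_mapsTo_Tan hf (fun z hz => hXY hz) v.2
  let A : Tan X x →ₗ[ℝ] Tan Y (f x) :=
    (((fderiv ℝ f x : E →L[ℝ] F') : E →ₗ[ℝ] F') ∘ₗ (Tan X x).subtype).codRestrict _ hmem
  have hA : ((fderiv ℝ f x : E →L[ℝ] F') : E →ₗ[ℝ] F') ∘ₗ (Tan X x).subtype
      = (Tan Y (f x)).subtype ∘ₗ A := by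
    ext v; rfl
  rw [pb_comp, hA, ← pb_comp, h, map_zero]

theorem ResZero.pull {f : E → F'} {w : F' → Ext F'} (hf : SMap X Y f) (h : ResZero Y w) :
    ResZero X (F.pull f w) := fun _ hx =>
  pb_pull_eq_zero (hf.diff hx) hf.maps (h _ (hf.maps hx))

theorem pull_sub' (f : E → F') (w w' : F' → Ext F') : F.pull f (w - w') = F.pull f w - F.pull f w' :=
  funext fun x => F.pull_sub f w w' x
theorem pull_add' (f : E → F') (w w' : F' → Ext F') : F.pull f (w + w') = F.pull f w + F.pull f w' :=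
  funext fun x => F.pull_add f w w' x
theorem pull_mul' (f : E → F') (w w' : F' → Ext F') : F.pull f (w * w') = F.pull f w * F.pull f w' :=
  funext fun x => F.pull_mul f w w' x
theorem pull_smul' (f : E → F') (r : ℝ) (w : F' → Ext F') : F.pull f (r • w) = r • F.pull f w :=
  funext fun x => map_smul (pb _) r (w (f x))
theorem pull_neg' (f : E → F') (w : F' → Ext F') : F.pull f (-w) = -F.pull f w :=
  funext fun x => map_neg (pb _) (w (f x))
theorem pull_zero' (f : E → F') : F.pull f (0 : F' → Ext F') = 0 :=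
  funext fun x => map_zero (pb _)

theorem Eqv.pull {f : E → F'} {w w' : F' → Ext F'} (hf : SMap X Y f) (h : Eqv Y w w') :
    Eqv X (F.pull f w) (F.pull f w') := by
  rw [Eqv, ← pull_sub']
  exact ResZero.pull hf h

/-- maps which agree on `X` -/
theorem Eqv.pull_congr {f g : E → F'} {w : F' → Ext F'} (hf : DifferentiableAt ℝ f x)
    (hg : DifferentiableAt ℝ g x) (hx : x ∈ X) (h : ∀ y ∈ X, f y = g y) :
    pb (Tan X x).subtype (F.pull f w x) = pb (Tan X x).subtype (F.pull g w x) := by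
  rw [F.pull, F.pull, pb_comp, pb_comp, h x hx]
  congr 2
  refine LinearMap.ext fun v => ?_
  have key : ∀ w ∈ Tan X x, fderiv ℝ f x w = fderiv ℝ g x w := by
    intro w hw
    refine Submodule.span_induction (p := fun w _ => fderiv ℝ f x w = fderiv ℝ g x w) ?_ ?_ ?_ ?_ hw
    · rintro w ⟨γ, rfl, hγ, hS⟩
      have h1 := hf.hasFDerivAt.comp_hasDerivAt 0 hγ
      have h2 := hg.hasFDerivAt.comp_hasDerivAt 0 hγ
      have h3 : (f ∘ γ) =ᶠ[𝓝 0] (g ∘ γ) := hS.mono fun t ht => h _ ht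
      exact (h1.congr_of_eventuallyEq h3.symm).unique h2
    · simp
    · intro a b _ _ ha hb; simp only [map_add, ha, hb]
    · intro r a _ ha; simp only [map_smul, ha]
  exact key v v.2

theorem eqv_pull_of_eq {f g : E → F'} (w : F' → Ext F') (hf : ∀ x ∈ X, DifferentiableAt ℝ f x)
    (hg : ∀ x ∈ X, DifferentiableAt ℝ g x) (h : ∀ y ∈ X, f y = g y) :
    Eqv X (F.pull f w) (F.pull g w) :=
  eqv_iff.2 fun x hx => Eqv.pull_congr (hf x hx) (hg x hx) hx h

/-! ### differentials -/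

theorem res_chart {f : Eu m → E} {V : Set (Eu m)} (hf : Chart m X f V) {u : Eu m} (hu : u ∈ V)
    (c : Ext E) : pb (Tan X (f u)).subtype c = 0 ↔
      pb ((fderiv ℝ f u : Eu m →L[ℝ] E) : Eu m →ₗ[ℝ] E) c = 0 := by
  have hr := range_fderiv_eq_Tan hf hu
  have hmem : ∀ v : Eu m, fderiv ℝ f u v ∈ Tan X (f u) := fun v => hf.fderiv_mem hu v
  let A : Eu m →ₗ[ℝ] Tan X (f u) :=
    ((fderiv ℝ f u : Eu m →L[ℝ] E) : Eu m →ₗ[ℝ] E).codRestrict _ hmem
  have hA : ((fderiv ℝ f u : Eu m →L[ℝ] E) : Eu m →ₗ[ℝ] E) = (Tan X (f u)).subtype ∘ₗ A := by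
    ext v; rfl
  have hs : Function.Surjective A := by
    rintro ⟨y, hy⟩
    rw [← hr] at hy
    obtain ⟨v, hv⟩ := hy
    exact ⟨v, Subtype.ext hv⟩
  obtain ⟨B, hB⟩ := A.exists_rightInverse_of_surjective (LinearMap.range_eq_top.2 hs)
  rw [hA, ← pb_comp]
  constructor
  · intro h
    rw [h, map_zero]
  · intro h
    have h2 := congrArg (pb B) h
    rw [pb_comp, hB, pb_id, map_zero] at h2
    exact h2

/-- forms vanishing on `X` have differential vanishing on `X` -/
theorem resZero_d (hX : Sub m X) (ha : Sm X a) (h : ResZero X a) : ResZero X (F.d a) := by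
  intro x hx
  obtain ⟨f, V, hf, u, hu, rfl⟩ := hX x hx
  rw [res_chart hf hu]
  have h2 : ContDiffAt ℝ 2 f u := (hf.contDiffAt hu).of_le two_le
  have h3 : pb ((fderiv ℝ f u : Eu m →L[ℝ] E) : Eu m →ₗ[ℝ] E) (F.d a (f u)) = F.pull f (F.d a) u :=
    rfl
  rw [h3, ← d_pull h2 ((ha _ hx).differentiableAt (by simp))]
  have h4 : F.pull f a =ᶠ[𝓝 u] fun _ => 0 := by
    filter_upwards [hf.isOpen.mem_nhds hu] with w hwV
    exact (res_chart hf hwV _).1 (h _ (hf.mem hwV))
  rw [F.d_congr h4, F.d_const]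

theorem Sm.diff (ha : Sm X a) (hx : x ∈ X) : DifferentiableAt ℝ a x :=
  (ha x hx).differentiableAt (by simp)
theorem Sm.add (ha : Sm X a) (hb : Sm X b) : Sm X (a + b) := fun x hx => (ha x hx).add (hb x hx)
theorem Sm.sub (ha : Sm X a) (hb : Sm X b) : Sm X (a - b) := fun x hx => (ha x hx).sub (hb x hx)
theorem Sm.neg (ha : Sm X a) : Sm X (-a) := fun x hx => (ha x hx).neg
theorem Sm.mul (ha : Sm X a) (hb : Sm X b) : Sm X (a * b) := fun x hx =>
  F.contDiffAt_mul (ha x hx) (hb x hx)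
theorem Sm.smul (r : ℝ) (ha : Sm X a) : Sm X (r • a) := fun x hx =>
  contDiffAt_const.smul (ha x hx)
theorem Sm.zero : Sm X (0 : E → Ext E) := fun _ _ => contDiffAt_const
theorem Sm.d (ha : Sm X a) : Sm X (F.d a) := fun x hx => contDiffAt_d (ha x hx) (by simp)
theorem Sm.inv (ha : Sm X a) : Sm X (fun x => F.inv (a x)) := fun x hx =>
  (invL (E := E)).contDiff.contDiffAt.comp x (ha x hx)
theorem Sm.mono {X' : Set E} (hs : X' ⊆ X) (ha : Sm X a) : Sm X' a := fun x hx => ha x (hs hx)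
theorem Sm.pull {f : E → F'} {w : F' → Ext F'} (hf : SMap X Y f) (h : Sm Y w) :
    Sm X (F.pull f w) := fun x hx => contDiffAt_pull (hf.smooth x hx) (by simp) (h _ (hf.maps hx))

theorem Eqv.d (hX : Sub m X) (ha : Sm X a) (hb : Sm X b) (h : Eqv X a b) :
    Eqv X (F.d a) (F.d b) := by
  have h1 := resZero_d hX (ha.sub hb) h
  refine eqv_iff.2 fun x hx => ?_
  have h2 := h1 x hx
  have h3 : F.d (a - b) x = F.d a x - F.d b x := F.d_sub (ha.diff hx) (hb.diff hx)
  rw [h3, map_sub, sub_eq_zero] at h2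
  exact h2

theorem d_add_eqv (ha : Sm X a) (hb : Sm X b) : Eqv X (F.d (a + b)) (F.d a + F.d b) :=
  Eqv.of_eq fun _ hx => F.d_add (ha.diff hx) (hb.diff hx)
theorem d_sub_eqv (ha : Sm X a) (hb : Sm X b) : Eqv X (F.d (a - b)) (F.d a - F.d b) :=
  Eqv.of_eq fun _ hx => F.d_sub (ha.diff hx) (hb.diff hx)
theorem d_neg' (a : E → Ext E) : F.d (-a) = - F.d a := funext fun _ => F.d_neg
theorem d_zero' : F.d (0 : E → Ext E) = 0 := funext fun x => F.d_const _ x
theorem d_smul_eqv (r : ℝ) (ha : Sm X a) : Eqv X (F.d (r • a)) (r • F.d a) :=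
  Eqv.of_eq fun _ hx => F.d_const_smul r (ha.diff hx)
theorem d_mul_eqv (ha : Sm X a) (hb : Sm X b) :
    Eqv X (F.d (a * b)) (F.d a * b + (fun x => F.inv (a x)) * F.d b) :=
  Eqv.of_eq fun _ hx => F.d_mul (ha.diff hx) (hb.diff hx)
theorem d_pull_eqv {f : E → F'} {w : F' → Ext F'} (hf : SMap X Y f) (h : Sm Y w) :
    Eqv X (F.d (F.pull f w)) (F.pull f (F.d w)) :=
  Eqv.of_eq fun _ hx => d_pull (hf.c2 hx) (h.diff (hf.maps hx))
theorem d_d' (ha : Sm X a) : Cl X (F.d a) := fun x hx => by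
  rw [F.d_d ((ha x hx).of_le two_le), map_zero]

theorem Cl.add (ha : Sm X a) (hb : Sm X b) (h : Cl X a) (h' : Cl X b) : Cl X (a + b) := by
  rw [Cl, resZero_iff] at *
  have := (d_add_eqv ha hb).trans (h.add h')
  rwa [add_zero] at this
theorem Cl.sub (ha : Sm X a) (hb : Sm X b) (h : Cl X a) (h' : Cl X b) : Cl X (a - b) := by
  rw [Cl, resZero_iff] at *
  have := (d_sub_eqv ha hb).trans (h.sub h')
  rwa [sub_zero] at this
theorem Cl.smul (r : ℝ) (ha : Sm X a) (h : Cl X a) : Cl X (r • a) := by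
  rw [Cl, resZero_iff] at *
  have := (d_smul_eqv r ha).trans (h.smul r)
  rwa [smul_zero] at this
theorem Cl.mul (ha : Sm X a) (hb : Sm X b) (h : Cl X a) (h' : Cl X b) : Cl X (a * b) := by
  rw [Cl, resZero_iff] at *
  have := (d_mul_eqv ha hb).trans ((h.mul (Eqv.refl b)).add
    ((Eqv.refl (fun x => F.inv (a x))).mul h'))
  rwa [zero_mul, mul_zero, add_zero] at this
theorem Cl.pull {f : E → F'} {w : F' → Ext F'} (hf : SMap X Y f) (hs : Sm Y w) (h : Cl Y w) :
    Cl X (F.pull f w) := by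
  rw [Cl, resZero_iff]
  refine (d_pull_eqv hf hs).trans ?_
  have := Eqv.pull hf (resZero_iff.1 h)
  rwa [pull_zero'] at this
theorem Cl.of_eqv (hX : Sub m X) (ha : Sm X a) (hb : Sm X b) (h : Eqv X a b) (h' : Cl X b) :
    Cl X a := by
  rw [Cl, resZero_iff] at *
  exact (h.d hX ha hb).trans h'
theorem Cl.mono {X' : Set E} (hs : X' ⊆ X) (h : Cl X a) : Cl X' a := ResZero.mono hs h
theorem Cl.const (c : Ext E) : Cl X (fun _ => c) := fun x _ => by rw [F.d_const, map_zero]

/-! ### cohomologous forms -/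

theorem Coh.of_eqv (h : Eqv X a b) : Coh X a b :=
  ⟨0, Sm.zero, by rw [d_zero', Eqv, sub_zero]; exact h⟩
theorem Coh.refl (a : E → Ext E) : Coh X a a := Coh.of_eqv (Eqv.refl a)
theorem Coh.symm (h : Coh X a b) : Coh X b a := by
  obtain ⟨ξ, h1, h2⟩ := h
  refine ⟨-ξ, h1.neg, ?_⟩
  have := h2.neg
  rwa [neg_sub, ← d_neg'] at this
theorem Coh.trans (h : Coh X a b) (h' : Coh X b c) : Coh X a c := by
  obtain ⟨ξ, h1, h2⟩ := h
  obtain ⟨ζ, h3, h4⟩ := h'
  refine ⟨ξ + ζ, h1.add h3, ?_⟩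
  have := (h2.add h4).trans (d_add_eqv h1 h3).symm
  rwa [sub_add_sub_cancel] at this
theorem Coh.add (h : Coh X a b) (h' : Coh X a' b') : Coh X (a + a') (b + b') := by
  obtain ⟨ξ, h1, h2⟩ := h
  obtain ⟨ζ, h3, h4⟩ := h'
  refine ⟨ξ + ζ, h1.add h3, ?_⟩
  have := (h2.add h4).trans (d_add_eqv h1 h3).symm
  rwa [← add_sub_add_comm] at this
theorem Coh.smul (r : ℝ) (h : Coh X a b) : Coh X (r • a) (r • b) := by
  obtain ⟨ξ, h1, h2⟩ := h
  refine ⟨r • ξ, h1.smul r, ?_⟩
  have := (h2.smul r).trans (d_smul_eqv r h1).symm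
  rwa [smul_sub] at this
theorem Coh.neg (h : Coh X a b) : Coh X (-a) (-b) := by
  have := h.smul (-1); simpa using this
theorem Coh.sub (h : Coh X a b) (h' : Coh X a' b') : Coh X (a - a') (b - b') := by
  rw [sub_eq_add_neg, sub_eq_add_neg]; exact h.add h'.neg
theorem Coh.mul_right (hc : Sm X c) (hcc : Cl X c) (h : Coh X a b) : Coh X (a * c) (b * c) := by
  obtain ⟨ξ, h1, h2⟩ := h
  refine ⟨ξ * c, h1.mul hc, ?_⟩
  rw [← sub_mul]
  refine (h2.mul (Eqv.refl c)).trans ((d_mul_eqv h1 hc).trans ?_).symm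
  have := (Eqv.refl (X := X) (F.d ξ * c)).add ((Eqv.refl (fun x => F.inv (ξ x))).mul
    (resZero_iff.1 hcc))
  rwa [mul_zero, add_zero] at this
theorem Coh.pull {f : E → F'} {w w' : F' → Ext F'} (hf : SMap X Y f) (h : Coh Y w w') :
    Coh X (F.pull f w) (F.pull f w') := by
  obtain ⟨ξ, h1, h2⟩ := h
  refine ⟨F.pull f ξ, h1.pull hf, ?_⟩
  rw [← pull_sub']
  exact (h2.pull hf).trans (d_pull_eqv hf h1).symm
theorem Coh.mono {X' : Set E} (hs : X' ⊆ X) (h : Coh X a b) : Coh X' a b := by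
  obtain ⟨ξ, h1, h2⟩ := h
  exact ⟨ξ, h1.mono hs, h2.mono_tan hs⟩
theorem Coh.cl (hX : Sub m X) (ha : Sm X a) (hb : Sm X b) (h : Coh X a b) (h' : Cl X b) :
    Cl X a := by
  obtain ⟨ξ, h1, h2⟩ := h
  have h3 : Cl X (a - b) := Cl.of_eqv hX (ha.sub hb) h1.d h2 (d_d' h1)
  have := Cl.add (ha.sub hb) hb h3 h'
  rwa [sub_add_cancel] at this

/-- homotopic maps -/
theorem coh_homotopy {E : Type u} [NormedAddCommGroup E] [NormedSpace ℝ E] [FiniteDimensional ℝ E]
    {X : Set E} {Fh : E × ℝ → F'} {w : F' → Ext F'}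
    (hF : ∀ x ∈ X, ∀ t ∈ Icc (0 : ℝ) 1, ContDiffAt ℝ ∞ Fh (x, t))
    (hm : ∀ x ∈ X, ∀ t ∈ Icc (0 : ℝ) 1, Fh (x, t) ∈ Y) (hw : Sm Y w) (hc : Cl Y w) :
    Coh X (F.pull (fun y => Fh (y, 1)) w) (F.pull (fun y => Fh (y, 0)) w) :=
  ⟨Hop Fh w, fun x hx => contDiffAt_Hop (hF x hx) fun t ht => hw _ (hm x hx t ht),
    resZero_Hop (fun x hx t ht => (hF x hx t ht).of_le two_le) hm
      (fun y hy => (hw y hy).of_le (by exact_mod_cast le_top)) hc⟩

/-- even forms are central -/
theorem even_mul_comm {a : Ext E} (h : F.inv a = a) (b : Ext E) : a * b = b * a := even_comm h b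

end Crest.Agent.R208.T
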