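import Crest.Agent.R208.GP1b
import Crest.Agent.R208.FV2
import Crest.Agent.R208.GT1
import Crest.Agent.R208.T0b
import Crest.Agent.R208.GP3c

-- ▼ part R208/GP2a
section

/-! Row 208, block GP (helper198), part GP2a: the cut locus `C_p` is a closed manifold of dimension
`n - k` with tangent spaces `TC G p q`. -/

set_option autoImplicit false
set_option linter.unusedSectionVars false

open MeasureTheory Measure Set Filter Topology Module Metric
open scoped ContDiff RealInnerProductSpace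
open Crest.GeometryTopology.Submanifold
open Crest.Agent.R241.DDefs
open Crest.Agent.R241.D2
open Crest.Agent.R208.F Crest.Agent.R208.FI
open Crest.Agent.R208.FV (Vl phi PV)

noncomputable section

namespace Crest.Agent.R208.GP

variable {n N k : ℕ} {κ : ℝ} {S : Set (Euc N)} {G : Geo n N κ S} {p q : Euc N}

theorem mem_FF_of_Cut (hp : p ∈ S) (hq : q ∈ Cut S p) : (p, q) ∈ FV.FF G := ⟨hp, hq.1, hq.2⟩

theorem mem_FF_of_Cut' (hp : p ∈ S) (hq : q ∈ Cut S p) : (q, p) ∈ FV.FF G :=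
  ⟨hq.1, hp, by rw [intrinsicDist_comm]; exact hq.2⟩


/-- `Tan F → T_p S` is surjective. -/
theorem exists_Tan_FF (hB : Bl n N κ S G Real.pi) (hT : I.Typ G k) (hS : Sub n S)
    {z : Euc N × Euc N} (hz : z ∈ FV.FF G) {a : Euc N} (ha : a ∈ G.T z.1) :
    ∃ b, (a, b) ∈ Tan (FV.FF G) z := by
  have hz' := hz
  rw [FV.FF_eq_image hB hT] at hz'
  obtain ⟨q, hq, rfl⟩ := hz'
  have h1 := LB.hl_mem hS hq (u := a) ha
  have h2 := FV.fderiv_mem_Tan_of_mapsTo (X := L.US G) (Y := FV.FF G)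
    (fun x hx => FV.phi_mem hB hx) ((FV.contDiffAt_phi hq.1).differentiableAt (by simp)) h1
  rw [FV.fderiv_phi hq.1] at h2
  exact ⟨_, h2⟩

/-- `{z ∈ F | z.1 = p}` -/
def FP (G : Geo n N κ S) (p : Euc N) : Set (Euc N × Euc N) := {z | z ∈ FV.FF G ∧ z.1 - p = 0}

theorem sub_FP (hB : Bl n N κ S G Real.pi) (hT : I.Typ G k) (hS : Sub n S) (hp : p ∈ S) :
    Sub (n - k) (FP G p) := by
  obtain ⟨f, W, O, ℓ, h1, h2⟩ := hS.exists_loc hp
  have hd : (2 * n - k) + k = 2 * n := by have := hT.le; omega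
  set X : Set (Euc N × Euc N) := FV.FF G ∩ {z | z.1 ∈ O} with hX
  have hXs : Sub (2 * n - k) X :=
    (FV.sub_FF hB hT hS hd).inter_open (h1.oO.preimage continuous_fst)
  set g : Euc N × Euc N → Eu n := fun z => ℓ z.1 - ℓ p with hg
  have hgC : ∀ x ∈ X, ContDiffAt ℝ ∞ g x := fun x hx =>
    ((h1.lC' (hx.2 : x.1 ∈ O)).comp x contDiffAt_fst).sub contDiffAt_const
  have hset : {x ∈ X | g x = 0} = FP G p := by
    ext z
    constructor
    · rintro ⟨⟨hz, hzO⟩, hz0⟩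
      refine ⟨hz, sub_eq_zero.2 ?_⟩
      have h3 : ℓ z.1 = ℓ p := sub_eq_zero.1 hz0
      rw [← h1.right_inv hz.1 hzO, ← h1.right_inv hp h2, h3]
    · rintro ⟨hz, hz0⟩
      have h3 : z.1 = p := sub_eq_zero.1 hz0
      refine ⟨⟨hz, ?_⟩, ?_⟩
      · show z.1 ∈ O
        rw [h3]; exact h2
      · rw [hg]; simp only; rw [h3, sub_self]
  have h3 := hXs.level hgC (fun x hx hgx y => by
    have hx1 : x.1 = p := by
      have : x ∈ {x ∈ X | g x = 0} := ⟨hx, hgx⟩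
      rw [hset] at this
      exact sub_eq_zero.1 this.2
    -- the tangent vector of `S` with image `y`
    set a : Euc N := fderiv ℝ f (ℓ p) y with ha
    have hW : ℓ p ∈ W := h1.maps p h2
    have haT : a ∈ G.T x.1 := by
      rw [hx1, ← LB.Tan_S hS hp]
      have h4 := h1.range_eq_Tan hW
      rw [h1.right_inv hp h2] at h4
      rw [← h4]
      exact ⟨y, rfl⟩
    obtain ⟨b, hb⟩ := exists_Tan_FF hB hT hS hx.1 haT
    refine ⟨(a, b), ?_, ?_⟩
    · refine Tan_open (X := FV.FF G) (X' := X) ?_ hb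
      filter_upwards [(h1.oO.preimage continuous_fst).mem_nhds hx.2] with y hy hyF using
        ⟨hyF, hy⟩
    · have h5 : HasFDerivAt ℓ (fderiv ℝ ℓ x.1) x.1 :=
        ((h1.lC' hx.2).differentiableAt (by simp)).hasFDerivAt
      have h6 : HasFDerivAt g ((fderiv ℝ ℓ x.1) ∘L (ContinuousLinearMap.fst ℝ (Euc N) (Euc N))) x :=
        (h5.comp x hasFDerivAt_fst).sub_const _
      rw [h6.fderiv]
      change fderiv ℝ ℓ x.1 a = y
      have h7 : HasFDerivAt f (fderiv ℝ f (ℓ p)) (ℓ p) :=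
        ((h1.fC' hW).differentiableAt (by simp)).hasFDerivAt
      have h8 : HasFDerivAt (fun u => ℓ (f u)) ((fderiv ℝ ℓ x.1) ∘L (fderiv ℝ f (ℓ p))) (ℓ p) := by
        have h9 : HasFDerivAt ℓ (fderiv ℝ ℓ x.1) (f (ℓ p)) := by
          rw [h1.right_inv hp h2]; rw [hx1] at h5 ⊢; exact h5
        exact h9.comp (ℓ p) h7
      have h9 : HasFDerivAt (fun u => ℓ (f u)) (ContinuousLinearMap.id ℝ (Eu n)) (ℓ p) := by
        refine (hasFDerivAt_id (ℓ p)).congr_of_eventuallyEq ?_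
        filter_upwards [h1.oW.mem_nhds hW] with u hu using h1.inv u hu
      have h10 := h8.unique h9
      exact congrArg (fun L => L y) h10)
  rw [hset] at h3
  have h4 : 2 * n - k - finrank ℝ (Eu n) = n - k := by
    rw [finrank_euclideanSpace_fin]; omega
  rwa [h4] at h3

theorem sub_Cut (hB : Bl n N κ S G Real.pi) (hT : I.Typ G k) (hS : Sub n S) (hp : p ∈ S) :
    Sub (n - k) (Cut S p) := by
  refine Sub.of_loc' fun q hq => ?_
  have hx : ((p, q) : Euc N × Euc N) ∈ FP G p :=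
    ⟨mem_FF_of_Cut hp hq, sub_self p⟩
  obtain ⟨f, W, O, ℓ, h1, h2⟩ := (sub_FP hB hT hS hp).exists_loc hx
  obtain ⟨U', O', ℓ', h3, h4, -, -⟩ := FV.Loc.image h1 (g := Prod.snd) (Y := Cut S p)
    (fun x _ => contDiffAt_snd) hx h2
    (by
      intro v hv h0
      have h5 : v ∈ Tan (FV.FF G) (p, q) ⊓ LinearMap.ker
          (fderiv ℝ (fun z : Euc N × Euc N => z.1 - p) (p, q) : Euc N × Euc N →ₗ[ℝ] Euc N) :=
        FV.Tan_le_ker (X := FV.FF G) (g := fun z : Euc N × Euc N => z.1 - p)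
          (differentiableAt_fst.sub_const p) hv
      have h6 : fderiv ℝ (fun z : Euc N × Euc N => z.1 - p) (p, q) =
          ContinuousLinearMap.fst ℝ (Euc N) (Euc N) := (hasFDerivAt_fst.sub_const p).fderiv
      have h7 := h5.2
      rw [h6] at h7
      have h8 : v.1 = 0 := h7
      rw [fderiv_snd] at h0
      exact Prod.ext h8 h0)
    (by
      rintro x ⟨hx, hx1⟩
      have hx1' : x.1 = p := sub_eq_zero.1 hx1
      exact ⟨hx.2.1, by rw [← hx1']; exact hx.2.2⟩)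
    (by
      intro O' hO' hqO
      have h5 : Continuous (fun y : Euc N => ((p, y) : Euc N × Euc N)) := by fun_prop
      filter_upwards [nhdsWithin_le_nhds ((hO'.preimage h5).mem_nhds hqO),
        self_mem_nhdsWithin] with y hy hyC
      exact ⟨(p, y), ⟨⟨mem_FF_of_Cut hp hyC, sub_self p⟩, hy⟩, rfl⟩)
  exact ⟨_, _, _, _, h3, h4⟩

/-- **`C_p` is a closed manifold of dimension `n - k`.** -/
theorem clo_Cut (hB : Bl n N κ S G Real.pi) (hT : I.Typ G k) (hS : Sub n S) (hp : p ∈ S) :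
    Clo (n - k) (Cut S p) := (sub_Cut hB hT hS hp).clo (isClosed_Cut hB hp)

/-- **tangent space of `C_p`** -/
theorem Tan_Cut (hB : Bl n N κ S G Real.pi) (hT : I.Typ G k) (hS : Sub n S) (hp : p ∈ S)
    (hq : q ∈ Cut S p) : Tan (Cut S p) q = GT.TC G p q := by
  have hz : (p, q) ∈ GT.FF S := ⟨hp, hq.1, hq.2⟩
  have hb : GT.Bla G k := ⟨hB, hT⟩
  refine (Submodule.eq_of_le_of_finrank_eq ?_ ?_).symm
  · intro y hy
    -- a unit vector of `V_pq`
    obtain ⟨v1, hv1V, hv1n⟩ : ∃ v ∈ GT.Vs G p q, ‖v‖ = 1 := by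
      obtain ⟨v, hv, hv0⟩ : ∃ v ∈ GT.Vs G p q, v ≠ 0 := by
        refine (Submodule.ne_bot_iff _).1 fun h => ?_
        have h1 := hb.finrank_Vs hz
        rw [h, finrank_bot] at h1
        have := hT.one_le
        omega
      exact ⟨(‖v‖⁻¹ : ℝ) • v, Submodule.smul_mem _ _ hv, GT.unit_of hv0⟩
    have hv1T : v1 ∈ G.T p := hb.Vs_le hz hv1V
    obtain ⟨a, ha, hay⟩ := hb.fderiv_surj hz hv1V hv1n hy
    have haT : a ∈ G.T p := ha.1
    have hva : ⟪v1, a⟫ = 0 := GT.inner_TC hv1V ha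
    by_cases ha0 : a = 0
    · rw [← hay, ha0, map_zero]; exact Submodule.zero_mem _
    have hna : ‖a‖ ≠ 0 := norm_ne_zero_iff.2 ha0
    obtain ⟨a1, ha1⟩ : ∃ a1 : Euc N, a1 = (‖a‖⁻¹ : ℝ) • a := ⟨_, rfl⟩
    have ha1n : ‖a1‖ = 1 := by rw [ha1]; exact GT.unit_of ha0
    have ha1T : a1 ∈ G.T p := by rw [ha1]; exact (G.T p).smul_mem _ haT
    have hva1 : ⟪v1, a1⟫ = 0 := by rw [ha1, inner_smul_right, hva, mul_zero]
    set c : ℝ → Euc N := fun t => Real.cos t • v1 + Real.sin t • a1 with hc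
    have hcT : ∀ t, c t ∈ G.T p := fun t =>
      (G.T p).add_mem ((G.T p).smul_mem _ hv1T) ((G.T p).smul_mem _ ha1T)
    have hcn : ∀ t, ‖c t‖ = 1 := by
      intro t
      have h1 : ‖c t‖ ^ 2 = 1 := by
        rw [hc]; simp only
        rw [norm_add_sq_real, inner_smul_left, inner_smul_right, hva1, norm_smul, norm_smul, hv1n,
          ha1n, mul_one, mul_one, Real.norm_eq_abs, Real.norm_eq_abs, sq_abs, sq_abs]
        simp [Real.cos_sq_add_sin_sq]
      exact (pow_eq_one_iff_of_nonneg (norm_nonneg _) two_ne_zero).1 h1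
    have hcd : HasDerivAt c a1 0 := by
      have h1 : HasDerivAt (fun t : ℝ => Real.cos t • v1) ((-Real.sin 0) • v1) 0 :=
        (Real.hasDerivAt_cos 0).smul_const v1
      have h2 : HasDerivAt (fun t : ℝ => Real.sin t • a1) ((Real.cos 0) • a1) 0 :=
        (Real.hasDerivAt_sin 0).smul_const a1
      have h3 := h1.add h2
      rw [Real.sin_zero, Real.cos_zero, neg_zero, zero_smul, zero_add, one_smul] at h3
      exact h3
    have hc0 : c 0 = v1 := by rw [hc]; simp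
    have hcC : ∀ t, Exp G p (Real.pi • c t) ∈ Cut S p := fun t => by
      have h1 := hb.mem_FF hp (hcT t) (hcn t)
      exact ⟨h1.2.1, h1.2.2⟩
    have hd : HasDerivAt (fun t => Exp G p (Real.pi • c t))
        (fderiv ℝ (Exp G p) (Real.pi • v1) (Real.pi • a1)) 0 := by
      have h1 : HasFDerivAt (Exp G p) (fderiv ℝ (Exp G p) (Real.pi • v1)) (Real.pi • c 0) := by
        rw [hc0]
        exact ((R241.D3c.contDiffAt_Exp' G hp ((G.T p).smul_mem _ hv1T)).differentiableAt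
          (by simp)).hasFDerivAt
      exact h1.comp_hasDerivAt 0 (hcd.const_smul Real.pi)
    have h1 := mem_Tan_of_curve (X := Cut S p) hd (Eventually.of_forall hcC)
    simp only [hc0] at h1
    rw [hb.Exp_pi hz hv1V hv1n] at h1
    rw [map_smul, ha1, map_smul, hay, smul_smul] at h1
    have h2 := (Tan (Cut S p) q).smul_mem (Real.pi * ‖a‖⁻¹)⁻¹ h1
    rwa [smul_smul, inv_mul_cancel₀ (mul_ne_zero Real.pi_ne_zero (inv_ne_zero hna)), one_smul] at h2
  · rw [(sub_Cut hB hT hS hp).finrank_Tan hq]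
    have := hb.finrank_TC hz
    omega

/-! ### the normal bundle -/

/-- the projection field `q ↦ P_{V_qp}` -/
def PC (hB : Bl n N κ S G Real.pi) (hT : I.Typ G k) (hS : Sub n S) (p q : Euc N) :
    Euc N →L[ℝ] Euc N := PV hB hT hS (q, p)

theorem pfield_PC (hB : Bl n N κ S G Real.pi) (hT : I.Typ G k) (hS : Sub n S) (hp : p ∈ S) :
    PField (Cut S p) k (PC hB hT hS p) where
  smooth := fun q _ => (FV.contDiff_PV hB hT hS).contDiffAt.comp q
    (contDiffAt_id.prodMk contDiffAt_const)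
  idem := fun _ hq v => (FV.pfield_PV hB hT hS).idem _ (mem_FF_of_Cut' hp hq) v
  rank := fun _ hq => (FV.pfield_PV hB hT hS).rank _ (mem_FF_of_Cut' hp hq)

theorem PC_eq_self (hB : Bl n N κ S G Real.pi) (hT : I.Typ G k) (hS : Sub n S) (hp : p ∈ S)
    (hq : q ∈ Cut S p) {v : Euc N} : PC hB hT hS p q v = v ↔ v ∈ GT.Vs G q p :=
  FV.PV_eq_self hB hT hS (mem_FF_of_Cut' hp hq)

theorem mem_Tot_PC (hB : Bl n N κ S G Real.pi) (hT : I.Typ G k) (hS : Sub n S) (hp : p ∈ S)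
    {z : Euc N × Euc N} : z ∈ Tot (Cut S p) (PC hB hT hS p) ↔ z.1 ∈ Cut S p ∧ z.2 ∈ GT.Vs G z.1 p :=
  ⟨fun h => ⟨h.1, (PC_eq_self hB hT hS hp h.1).1 h.2⟩,
    fun h => ⟨h.1, (PC_eq_self hB hT hS hp h.1).2 h.2⟩⟩

theorem sub_Tot_PC (hB : Bl n N κ S G Real.pi) (hT : I.Typ G k) (hS : Sub n S) (hp : p ∈ S) :
    Sub n (Tot (Cut S p) (PC hB hT hS p)) := by
  have h1 := (pfield_PC hB hT hS hp).sub_tot (sub_Cut hB hT hS hp)
  rwa [Nat.sub_add_cancel hT.le] at h1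

end Crest.Agent.R208.GP
end
end

-- ▼ part R208/GP2b
section

/-! Row 208, block GP (helper198), part GP2b: the tube `{(q,v) | q ∈ C_p, v ∈ V_qp, |v| < π} → S ∖ {p}`
and its globally smooth inverse. -/

set_option autoImplicit false
set_option linter.unusedSectionVars false

open MeasureTheory Measure Set Filter Topology Module Metric
open scoped ContDiff RealInnerProductSpace
open Crest.GeometryTopology.Submanifold
open Crest.Agent.R241.DDefs
open Crest.Agent.R241.D2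
open Crest.Agent.R208.F Crest.Agent.R208.FI
open Crest.Agent.R208.FV (Vl phi PV)

noncomputable section

namespace Crest.Agent.R208.GP

section ext
open scoped Manifold
variable {E F : Type*} [NormedAddCommGroup E] [InnerProductSpace ℝ E] [FiniteDimensional ℝ E]
  [NormedAddCommGroup F] [NormedSpace ℝ F]

/-- **extension lemma for `S ∖ {p}`**: local ambient extensions glue. -/
theorem exists_extension_punct {S : Set E} (hS : IsClosed S) (p : E) {f : E → F}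
    (h : ∀ x ∈ S, x ≠ p → ∃ (U : Set E) (g : E → F), IsOpen U ∧ x ∈ U ∧
      (∀ y ∈ S ∩ U, y ≠ p → ContDiffAt ℝ ∞ g y) ∧ ∀ y ∈ S ∩ U, y ≠ p → g y = f y) :
    ∃ f' : E → F, (∀ x ∈ S, x ≠ p → ContDiffAt ℝ ∞ f' x) ∧ ∀ x ∈ S, x ≠ p → f' x = f x := by
  classical
  set s : Set (E × ℝ) := {z | z.1 ∈ S ∧ z.2 * ‖z.1 - p‖ ^ 2 = 1} with hs
  have hsc : IsClosed s := (hS.preimage continuous_fst).inter
    (isClosed_eq (by fun_prop) continuous_const)
  have hsp : ∀ z ∈ s, z.1 ≠ p := by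
    rintro z ⟨-, hz⟩ h0
    rw [h0, sub_self, norm_zero] at hz
    simp at hz
  choose! U g hU hxU hg hgf using h
  obtain ⟨ρ, hρ⟩ := SmoothPartitionOfUnity.exists_isSubordinate (I := 𝓘(ℝ, E × ℝ)) (M := E × ℝ) hsc
    (fun i : s => (U i.1.1) ×ˢ (univ : Set ℝ))
    (fun i => (hU _ i.2.1 (hsp _ i.2)).prod isOpen_univ)
    (fun z hz => mem_iUnion.2 ⟨⟨z, hz⟩, hxU _ hz.1 (hsp _ hz), mem_univ _⟩)
  set Φ : E × ℝ → F := fun z => ∑ᶠ i, ρ i z • g (i : s).1.1 z.1 with hΦ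
  have h1 : ∀ z ∈ s, ContDiffAt ℝ ∞ Φ z := by
    intro z hz
    refine ρ.contDiffAt_finsum (n := (⊤ : ℕ∞)) (g := fun i z => g (i : s).1.1 z.1) fun i hi => ?_
    have h2 := hρ i hi
    exact (hg _ i.2.1 (hsp _ i.2) z.1 ⟨hz.1, h2.1⟩ (hsp _ hz)).comp z contDiffAt_fst
  have h2 : ∀ z ∈ s, Φ z = f z.1 := by
    intro z hz
    have h3 := ρ.finsum_smul_mem_convex (g := fun i z => g (i : s).1.1 z.1) (t := {f z.1}) hz
      (fun i hi => ?_) (convex_singleton _)
    · exact h3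
    · have h4 := hρ i (subset_tsupport _ hi)
      exact hgf _ i.2.1 (hsp _ i.2) z.1 ⟨hz.1, h4.1⟩ (hsp _ hz)
  have h3 : ∀ x ∈ S, x ≠ p → ((x, (‖x - p‖ ^ 2)⁻¹) : E × ℝ) ∈ s := by
    intro x hx hxp
    have h4 : ‖x - p‖ ^ 2 ≠ 0 := pow_ne_zero 2 (norm_ne_zero_iff.2 (sub_ne_zero.2 hxp))
    exact ⟨hx, inv_mul_cancel₀ h4⟩
  refine ⟨fun x => Φ (x, (‖x - p‖ ^ 2)⁻¹), fun x hx hxp => ?_, fun x hx hxp => h2 _ (h3 x hx hxp)⟩
  have h4 : ‖x - p‖ ^ 2 ≠ 0 := pow_ne_zero 2 (norm_ne_zero_iff.2 (sub_ne_zero.2 hxp))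
  have h5 : ContDiffAt ℝ ∞ (fun x : E => ((x, (‖x - p‖ ^ 2)⁻¹) : E × ℝ)) x := by
    refine contDiffAt_id.prodMk (ContDiffAt.inv ?_ h4)
    exact ((contDiff_norm_sq ℝ).contDiffAt.comp x (contDiffAt_id.sub contDiffAt_const))
  exact ContDiffAt.comp (g := Φ) x (h1 _ (h3 x hx hxp)) h5

end ext

variable {n N k : ℕ} {κ : ℝ} {S : Set (Euc N)} {G : Geo n N κ S} {p q x v : Euc N}

/-- reversed geodesics -/
theorem Exp_rev (hp : p ∈ S) (hv : v ∈ G.T p) (s : ℝ) :
    Exp G (Exp G p (Real.pi • v)) (s • GT.ar G p v) = Exp G p ((Real.pi - s) • v) := by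
  have hz : (p, v) ∈ TS G := ⟨hp, hv⟩
  have hz' := fl_mem G hz Real.pi
  have h1 := (fl_rev G (complete G hz' (-s))).2
  rw [neg_neg, ← fl_add' G hz] at h1
  have h2 : rev (fl G ((p, v), Real.pi)) = (Exp G p (Real.pi • v), GT.ar G p v) := by
    rw [Exp_smul G hp hv]; rfl
  rw [h2] at h1
  have h3 : (Exp G p (Real.pi • v), GT.ar G p v) ∈ TS G := by
    rw [← h2]; exact rev_mem G hz'
  rw [Exp_smul G h3.1 h3.2, h1, Exp_smul G hp hv, ← sub_eq_add_neg]
  rfl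

/-- **the tube is onto** `S ∖ {p}` -/
theorem exists_tube (hB : Bl n N κ S G Real.pi) (hT : I.Typ G k) (hp : p ∈ S) (hx : x ∈ S)
    (hxp : x ≠ p) : ∃ q v, q ∈ Cut S p ∧ v ∈ GT.Vs G q p ∧
      ‖v‖ = Real.pi - intrinsicDist S p x ∧ Exp G q v = x := by
  have hb : GT.Bla G k := ⟨hB, hT⟩
  obtain ⟨w, hw, h1, h2⟩ := hB.exists_Exp hp hx
  have hw0 : w ≠ 0 := by
    rintro rfl
    rw [Exp_zero G hp] at h2
    exact hxp h2.symm
  set w1 : Euc N := (‖w‖⁻¹ : ℝ) • w with hw1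
  have hw1T : w1 ∈ G.T p := (G.T p).smul_mem _ hw
  have hw1n : ‖w1‖ = 1 := GT.unit_of hw0
  have hF := hb.mem_FF hp hw1T hw1n
  have hV : w1 ∈ GT.Vs G p (Exp G p (Real.pi • w1)) := GT.mem_Vs hw1T hw1n
  obtain ⟨h3, h4, -⟩ := hb.ar_spec hF hV hw1n
  refine ⟨Exp G p (Real.pi • w1), (Real.pi - ‖w‖) • GT.ar G p w1, ⟨hF.2.1, hF.2.2⟩,
    Submodule.smul_mem _ _ h3, ?_, ?_⟩
  · rw [norm_smul, h4, mul_one, Real.norm_of_nonneg (by
      rw [h1]; linarith [hB.dist_le p hp x hx]), h1]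
  · rw [Exp_rev hp hw1T, sub_sub_cancel, hw1, GT.smul_unit hw0, h2]

/-- distance along the tube, polar form -/
theorem tube_polar (hB : Bl n N κ S G Real.pi) (hT : I.Typ G k) (hp : p ∈ S) (hq : q ∈ Cut S p)
    (hv : v ∈ GT.Vs G q p) (hv0 : v ≠ 0) :
    ∃ w ∈ G.T p, ‖w‖ = 1 ∧ q = Exp G p (Real.pi • w) ∧ v = ‖v‖ • GT.ar G p w ∧
      Exp G q v = Exp G p ((Real.pi - ‖v‖) • w) := by
  have hb : GT.Bla G k := ⟨hB, hT⟩
  have hz : (q, p) ∈ GT.FF S := ⟨hq.1, hp, by rw [intrinsicDist_comm]; exact hq.2⟩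
  have h1 : (‖v‖⁻¹ : ℝ) • v ∈ GT.Vs G q p := Submodule.smul_mem _ _ hv
  have h2 := GT.unit_of hv0
  obtain ⟨h3, h4, h5⟩ := hb.ar_spec hz h1 h2
  have hz' := GT.FF_symm' hz
  have h6 := hb.Vs_le hz' h3
  have h7 := hb.Exp_pi hz' h3 h4
  refine ⟨_, h6, h4, h7.symm, ?_, ?_⟩
  · rw [h5, GT.smul_unit hv0]
  · have h8 := Exp_rev hp h6 ‖v‖
    rw [h7, h5, GT.smul_unit hv0] at h8
    exact h8

theorem tube_dist (hB : Bl n N κ S G Real.pi) (hT : I.Typ G k) (hp : p ∈ S) (hq : q ∈ Cut S p)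
    (hv : v ∈ GT.Vs G q p) (hvπ : ‖v‖ ≤ Real.pi) :
    intrinsicDist S p (Exp G q v) = Real.pi - ‖v‖ := by
  by_cases hv0 : v = 0
  · rw [hv0, Exp_zero G hq.1, norm_zero, sub_zero]; exact hq.2
  · obtain ⟨w, hw, hw1, -, -, h5⟩ := tube_polar hB hT hp hq hv hv0
    have h6 : ‖(Real.pi - ‖v‖) • w‖ = Real.pi - ‖v‖ := by
      rw [norm_smul, hw1, mul_one, Real.norm_of_nonneg (by linarith)]
    rw [h5, hB.dist_Exp hp ((G.T p).smul_mem _ hw) (by rw [h6]; linarith [norm_nonneg v]), h6]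

/-- **the tube is injective** -/
theorem tube_inj (hB : Bl n N κ S G Real.pi) (hT : I.Typ G k) (hp : p ∈ S) {q' v' : Euc N}
    (hq : q ∈ Cut S p) (hv : v ∈ GT.Vs G q p) (hvπ : ‖v‖ < Real.pi) (hq' : q' ∈ Cut S p)
    (hv' : v' ∈ GT.Vs G q' p) (hvπ' : ‖v'‖ < Real.pi) (h : Exp G q v = Exp G q' v') :
    q = q' ∧ v = v' := by
  have h1 := tube_dist hB hT hp hq hv hvπ.le
  have h2 := tube_dist hB hT hp hq' hv' hvπ'.le
  rw [h, h2] at h1
  have h3 : ‖v‖ = ‖v'‖ := by linarith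
  by_cases hv0 : v = 0
  · have hv0' : v' = 0 := by rw [hv0, norm_zero] at h3; exact norm_eq_zero.1 h3.symm
    rw [hv0, hv0', Exp_zero G hq.1, Exp_zero G hq'.1] at h
    exact ⟨h, by rw [hv0, hv0']⟩
  · have hn : 0 < ‖v‖ := norm_pos_iff.2 hv0
    have hv0' : v' ≠ 0 := by rw [← norm_pos_iff, ← h3]; exact hn
    obtain ⟨w, hw, hw1, e1, e2, e3⟩ := tube_polar hB hT hp hq hv hv0
    obtain ⟨w', hw', hw1', e1', e2', e3'⟩ := tube_polar hB hT hp hq' hv' hv0'
    rw [e3, e3', ← h3] at h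
    have h4 : ∀ w : Euc N, ‖w‖ = 1 → ‖(Real.pi - ‖v‖) • w‖ = Real.pi - ‖v‖ := fun w hw => by
      rw [norm_smul, hw, mul_one, Real.norm_of_nonneg (by linarith)]
    have h5 := hB.Exp_inj hp ((G.T p).smul_mem _ hw) ((G.T p).smul_mem _ hw')
      (by rw [h4 w hw1]; linarith) (by rw [h4 w' hw1']; linarith) h
    have h6 : w = w' := smul_right_injective _ (by linarith : (Real.pi - ‖v‖) ≠ 0) h5
    exact ⟨by rw [e1, e1', h6], by rw [e2, e2', h6, h3]⟩

end Crest.Agent.R208.GP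
end
end

-- ▼ part R208/GP2c
section

/-! Row 208, block GP (helper198), part GP2c: the globally smooth inverse of the tube. -/

set_option autoImplicit false
set_option linter.unusedSectionVars false

open MeasureTheory Measure Set Filter Topology Module Metric
open scoped ContDiff RealInnerProductSpace
open Crest.GeometryTopology.Submanifold
open Crest.Agent.R241.DDefs
open Crest.Agent.R241.D2
open Crest.Agent.R208.F Crest.Agent.R208.FI
open Crest.Agent.R208.FV (Vl phi PV)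

noncomputable section

namespace Crest.Agent.R208.GP

variable {n N k : ℕ} {κ : ℝ} {S : Set (Euc N)} {G : Geo n N κ S} {p q x v : Euc N}

/-- the total space of the open disc bundle of radius `π` of the normal bundle of `C_p` -/
def DB (G : Geo n N κ S) (p : Euc N) : Set (Euc N × Euc N) :=
  {z | z.1 ∈ Cut S p ∧ z.2 ∈ GT.Vs G z.1 p ∧ ‖z.2‖ < Real.pi}

/-- `(q,v) ↦ Exp_q v` -/
def Psi (G : Geo n N κ S) (z : Euc N × Euc N) : Euc N := Exp G z.1 z.2

theorem DB_eq (hB : Bl n N κ S G Real.pi) (hT : I.Typ G k) (hS : Sub n S) (hp : p ∈ S) :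
    DB G p = Tot (Cut S p) (PC hB hT hS p) ∩ {z | ‖z.2‖ < Real.pi} := by
  ext z
  constructor
  · rintro ⟨h1, h2, h3⟩
    exact ⟨(mem_Tot_PC hB hT hS hp).2 ⟨h1, h2⟩, h3⟩
  · rintro ⟨h1, h2⟩
    obtain ⟨h3, h4⟩ := (mem_Tot_PC hB hT hS hp).1 h1
    exact ⟨h3, h4, h2⟩

theorem sub_DB (hB : Bl n N κ S G Real.pi) (hT : I.Typ G k) (hS : Sub n S) (hp : p ∈ S) :
    Sub n (DB G p) := by
  rw [DB_eq hB hT hS hp]
  exact (sub_Tot_PC hB hT hS hp).inter_open
    (isOpen_lt (continuous_norm.comp continuous_snd) continuous_const)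

theorem DB_TS (hB : Bl n N κ S G Real.pi) (hT : I.Typ G k) (hp : p ∈ S) {z : Euc N × Euc N}
    (hz : z ∈ DB G p) : z ∈ TS G := by
  have hb : GT.Bla G k := ⟨hB, hT⟩
  have hzF : (z.1, p) ∈ GT.FF S := ⟨hz.1.1, hp, by rw [intrinsicDist_comm]; exact hz.1.2⟩
  exact ⟨hz.1.1, hb.Vs_le hzF hz.2.1⟩

theorem contDiffAt_Psi {z : Euc N × Euc N} (hz : z ∈ TS G) : ContDiffAt ℝ ∞ (Psi G) z :=
  contDiffAt_Exp G hz.1 hz.2

theorem Psi_mem {z : Euc N × Euc N} (hz : z ∈ TS G) : Psi G z ∈ S := Exp_mem G hz.1 hz.2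

/-- immersivity along the zero section -/
theorem Psi_inj (hB : Bl n N κ S G Real.pi) (hT : I.Typ G k) (hS : Sub n S) (hp : p ∈ S)
    (hq : q ∈ Cut S p) {ξ : Euc N × Euc N} (hξ : ξ ∈ Tan (DB G p) (q, 0))
    (h0 : fderiv ℝ (Psi G) (q, 0) ξ = 0) : ξ = 0 := by
  obtain ⟨a, b⟩ := ξ
  have hz0 : ((q, 0) : Euc N × Euc N) ∈ TS G := ⟨hq.1, (G.T q).zero_mem⟩
  have h1 : (a, b) ∈ Tan (Tot (Cut S p) (PC hB hT hS p)) (q, 0) := by
    refine Tan_mono_of_subset ?_ _ hξ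
    rw [DB_eq hB hT hS hp]
    exact inter_subset_left
  obtain ⟨h2, h3⟩ := (pfield_PC hB hT hS hp).deriv_mem hq h1
  rw [map_zero] at h3
  have h4 : b ∈ GT.Vs G q p := (PC_eq_self hB hT hS hp hq).1 (sub_eq_zero.1 h3).symm
  have hb : GT.Bla G k := ⟨hB, hT⟩
  have hzF : (q, p) ∈ GT.FF S := ⟨hq.1, hp, by rw [intrinsicDist_comm]; exact hq.2⟩
  have h5 : b ∈ G.T q := hb.Vs_le hzF h4
  have h6 : a ∈ GT.TC G p q := by rw [← Tan_Cut hB hT hS hp hq]; exact h2
  have h7 : a ∈ Tan S q := Tan_mono_of_subset (fun y hy => hy.1) _ h2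
  have hd : HasFDerivAt (Psi G) (fderiv ℝ (Psi G) (q, 0)) (q, 0) :=
    ((contDiffAt_Psi hz0).differentiableAt (by simp)).hasFDerivAt
  have h8 : fderiv ℝ (Psi G) (q, 0) (0, b) = b := by
    have h9 := FV.fderiv_Exp_snd (G := G) hq.1 (G.T q).zero_mem b
    rw [R241.D3c.fderiv_Exp_zero G hq.1 h5] at h9
    exact h9
  have h9 : fderiv ℝ (Psi G) (q, 0) (a, 0) = a := by
    have h10 : HasFDerivAt (fun y : Euc N => ((y, 0) : Euc N × Euc N))
        (ContinuousLinearMap.inl ℝ (Euc N) (Euc N)) q :=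
      (hasFDerivAt_id q).prodMk (hasFDerivAt_const 0 q)
    have h11 : HasFDerivAt (fun y : Euc N => Psi G (y, 0))
        ((fderiv ℝ (Psi G) (q, 0)) ∘L (ContinuousLinearMap.inl ℝ (Euc N) (Euc N))) q :=
      HasFDerivAt.comp (g := Psi G) q hd h10
    have h12 := fderiv_eq_of_id (X := S) h11.differentiableAt
      (Eventually.of_forall fun y hy => Exp_zero G hy) h7
    rw [h11.fderiv] at h12
    exact h12
  have h10 : a + b = 0 := by
    rw [← h0, show ((a, b) : Euc N × Euc N) = (a, 0) + (0, b) by simp, map_add, h9, h8]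
  have h11 : ⟪b, a⟫ = 0 := GT.inner_TC h4 h6
  have h12 : b = -a := (neg_eq_of_add_eq_zero_right h10).symm
  rw [h12, inner_neg_left, neg_eq_zero] at h11
  have h13 : a = 0 := inner_self_eq_zero.1 h11
  rw [h12, h13, neg_zero]
  rfl

/-- openness at the zero section -/
theorem Psi_open (hB : Bl n N κ S G Real.pi) (hT : I.Typ G k) (hp : p ∈ S)
    (hq : q ∈ Cut S p) (O' : Set (Euc N × Euc N)) (hO' : IsOpen O') (hqO : (q, 0) ∈ O') :
    ∀ᶠ y in 𝓝[S] q, ∃ z ∈ DB G p ∩ O', Psi G z = y := by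
  obtain ⟨ε, hε, hεO⟩ := Metric.isOpen_iff.1 hO' _ hqO
  have hqp : q ≠ p := by
    rintro rfl
    have := hq.2
    rw [intrinsicDist_self hp] at this
    exact Real.pi_ne_zero this.symm
  have h1 := (continuousOn_dist_left hB hp) q hq.1
  rw [ContinuousWithinAt, hq.2] at h1
  set δ := min (ε / 2) (Real.pi / 2) with hδ
  have hδ0 : 0 < δ := lt_min (by linarith) (by linarith [Real.pi_pos])
  have h2 : ∀ᶠ y in 𝓝[S] q, Real.pi - δ < intrinsicDist S p y :=
    h1.eventually (lt_mem_nhds (by linarith))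
  have h3 : ∀ᶠ y in 𝓝[S] q, dist y q < ε / 2 :=
    nhdsWithin_le_nhds (Metric.ball_mem_nhds q (by linarith))
  have h4 : ∀ᶠ y in 𝓝[S] q, y ≠ p := nhdsWithin_le_nhds (isOpen_ne.mem_nhds hqp)
  filter_upwards [h2, h3, h4, self_mem_nhdsWithin] with y hy2 hy3 hy4 hyS
  obtain ⟨q', v, e1, e2, e3, e4⟩ := exists_tube hB hT hp hyS hy4
  have hv : ‖v‖ < δ := by rw [e3]; linarith
  have hvπ : ‖v‖ < Real.pi := by
    have := min_le_right (ε / 2) (Real.pi / 2)
    have := Real.pi_pos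
    linarith
  have hz : (q', v) ∈ DB G p := ⟨e1, e2, hvπ⟩
  have hzT := DB_TS hB hT hp hz
  refine ⟨(q', v), ⟨hz, hεO ?_⟩, e4⟩
  have h5 : ‖y - q'‖ ≤ ‖v‖ := by
    have h6 := chord_le_intrinsicDist (hB.joined e1.1 hyS)
    have h7 := hB.dist_Exp e1.1 hzT.2 hvπ.le
    simp only at h7
    rw [e4] at h7
    rwa [h7] at h6
  have h6 := min_le_left (ε / 2) (Real.pi / 2)
  rw [Metric.mem_ball, Prod.dist_eq, max_lt_iff]
  refine ⟨?_, ?_⟩
  · simp only
    calc dist q' q ≤ dist q' y + dist y q := dist_triangle _ _ _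
      _ < ε := by
        rw [dist_comm q' y, dist_eq_norm y q']
        linarith
  · simp only
    rw [dist_zero_right]
    linarith

/-- **The tube has a globally smooth inverse on `S ∖ {p}`.** -/
theorem exists_tube_inv (hB : Bl n N κ S G Real.pi) (hT : I.Typ G k) (hS : Sub n S) (hp : p ∈ S) :
    ∃ σ : Euc N → Euc N × Euc N, (∀ x ∈ S, x ≠ p → ContDiffAt ℝ ∞ σ x) ∧
      (∀ x ∈ S, x ≠ p → σ x ∈ DB G p ∧ Psi G (σ x) = x ∧
        ‖(σ x).2‖ = Real.pi - intrinsicDist S p x) ∧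
      ∀ z ∈ DB G p, σ (Psi G z) = z := by
  classical
  have hex : ∀ x : Euc N, x ∈ S → x ≠ p → ∃ z : Euc N × Euc N, z ∈ DB G p ∧ Psi G z = x ∧
      ‖z.2‖ = Real.pi - intrinsicDist S p x := by
    intro x hx hxp
    obtain ⟨q, v, h1, h2, h3, h4⟩ := exists_tube hB hT hp hx hxp
    refine ⟨(q, v), ⟨h1, h2, ?_⟩, h4, h3⟩
    simp only
    have h5 : 0 < intrinsicDist S p x := by
      have h6 := chord_le_intrinsicDist (hB.joined hp hx)
      have h7 : 0 < ‖x - p‖ := norm_pos_iff.2 (sub_ne_zero.2 hxp)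
      linarith
    linarith
  choose! σ0 h1 h2 h3 using hex
  have huniq : ∀ z ∈ DB G p, ∀ z' ∈ DB G p, Psi G z = Psi G z' → z = z' := by
    intro z hz z' hz' h
    obtain ⟨e1, e2⟩ := tube_inj hB hT hp hz.1 hz.2.1 hz.2.2 hz'.1 hz'.2.1 hz'.2.2 h
    exact Prod.ext e1 e2
  have hPp : ∀ z ∈ DB G p, Psi G z ≠ p := by
    intro z hz h
    have h4 := tube_dist hB hT hp hz.1 hz.2.1 hz.2.2.le
    change intrinsicDist S p (Psi G z) = _ at h4
    rw [h, intrinsicDist_self hp] at h4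
    linarith [hz.2.2]
  obtain ⟨σ, h4, h5⟩ := exists_extension_punct hB.cpt.isClosed p (f := σ0) (by
    intro x hx hxp
    obtain ⟨hd1, hd2, hd3⟩ := And.intro (h1 x hx hxp) (And.intro (h2 x hx hxp) (h3 x hx hxp))
    by_cases hxC : x ∈ Cut S p
    · -- near the cut locus
      have hz0 : ((x, 0) : Euc N × Euc N) ∈ DB G p :=
        ⟨hxC, Submodule.zero_mem _, by simp only; rw [norm_zero]; exact Real.pi_pos⟩
      have hΨ0 : Psi G (x, 0) = x := Exp_zero G hx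
      obtain ⟨f, W, O, ℓ, l1, l2⟩ := (sub_DB hB hT hS hp).exists_loc hz0
      obtain ⟨σ', O', a1, a2, a3, a4, a5, a6, -⟩ := FV.exists_section l1 (g := Psi G) (Y := S)
        (fun z hz => contDiffAt_Psi (DB_TS hB hT hp hz)) hz0 l2
        (fun v hv h0 => Psi_inj hB hT hS hp hxC hv h0)
        (fun z hz => Psi_mem (DB_TS hB hT hp hz))
        (fun O' hO' hqO => by rw [hΨ0]; exact Psi_open hB hT hp hxC O' hO' hqO)
      rw [hΨ0] at a2 a4
      refine ⟨O', σ', a1, a2, fun y hy _ => a3.contDiffAt (a1.mem_nhds hy.2), fun y hy hyp => ?_⟩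
      refine huniq _ (a5 y hy.2) _ (h1 y hy.1 hyp) ?_
      rw [a6 y hy, h2 y hy.1 hyp]
    · -- off the cut locus
      have hdx : intrinsicDist S p x < Real.pi :=
        lt_of_le_of_ne (hB.dist_le p hp x hx) fun h => hxC ⟨hx, h⟩
      obtain ⟨r, hr1, hr2⟩ := exists_between hdx
      obtain ⟨L, hL1, hL2⟩ := exists_log hB hp hr2
      have hcont := (continuousOn_dist_left hB hp) x hx
      have h6 : ∀ᶠ y in 𝓝[S] x, intrinsicDist S p y < r := hcont.eventually (gt_mem_nhds hr1)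
      rw [eventually_nhdsWithin_iff] at h6
      obtain ⟨U, hU, hUo, hxU⟩ := _root_.eventually_nhds_iff.1 h6
      refine ⟨U, fun y => (Exp G p (Real.pi • ((‖L y‖⁻¹ : ℝ) • L y)),
        -((Real.pi - ‖L y‖) * Real.pi⁻¹) • Vel G p (Real.pi • ((‖L y‖⁻¹ : ℝ) • L y))), hUo, hxU,
        ?_, ?_⟩
      · rintro y ⟨hyS, hyU⟩ hyp
        have hyr : intrinsicDist S p y ≤ r := (hU y hyU hyS).le
        obtain ⟨c1, c2, c3⟩ := hL2 y hyS hyr
        have hL0 : L y ≠ 0 := by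
          intro h
          rw [h, Exp_zero G hp] at c3
          exact hyp c3.symm
        have hLc := hL1 y hyS hyr
        have hn : ContDiffAt ℝ ∞ (fun y => ‖L y‖) y := hLc.norm ℝ hL0
        have hw : ContDiffAt ℝ ∞ (fun y => Real.pi • ((‖L y‖⁻¹ : ℝ) • L y)) y :=
          ContDiffAt.smul (f := fun _ => Real.pi) contDiffAt_const
            (ContDiffAt.smul (f := fun y => ‖L y‖⁻¹) (hn.inv (norm_ne_zero_iff.2 hL0)) hLc)
        have hwT : Real.pi • ((‖L y‖⁻¹ : ℝ) • L y) ∈ G.T p :=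
          (G.T p).smul_mem _ ((G.T p).smul_mem _ c1)
        refine ContDiffAt.prodMk (contDiffAt_Exp_comp hp hw hwT) ?_
        refine ContDiffAt.smul ((contDiffAt_const.sub hn).mul contDiffAt_const).neg ?_
        exact ContDiffAt.comp (g := Vel G p) y (R241.D3c.contDiffAt_Vel' G hp hwT) hw
      · rintro y ⟨hyS, hyU⟩ hyp
        have hyr : intrinsicDist S p y < r := hU y hyU hyS
        obtain ⟨c1, c2, c3⟩ := hL2 y hyS hyr.le
        have hL0 : L y ≠ 0 := by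
          intro h
          rw [h, Exp_zero G hp] at c3
          exact hyp c3.symm
        have hb : GT.Bla G k := ⟨hB, hT⟩
        set w1 : Euc N := (‖L y‖⁻¹ : ℝ) • L y with hw1
        have hw1T : w1 ∈ G.T p := (G.T p).smul_mem _ c1
        have hw1n : ‖w1‖ = 1 := GT.unit_of hL0
        have hF := hb.mem_FF hp hw1T hw1n
        have hV : w1 ∈ GT.Vs G p (Exp G p (Real.pi • w1)) := GT.mem_Vs hw1T hw1n
        obtain ⟨g3, g4, -⟩ := hb.ar_spec hF hV hw1n
        have hv : -((Real.pi - ‖L y‖) * Real.pi⁻¹) • Vel G p (Real.pi • w1) =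
            (Real.pi - ‖L y‖) • GT.ar G p w1 := by
          have e1 := GT.smul_ar (G := G) hp hw1T
          rw [neg_smul, ← smul_neg, ← e1, smul_smul, mul_assoc,
            inv_mul_cancel₀ Real.pi_ne_zero, mul_one]
        refine huniq _ ?_ _ (h1 y hyS hyp) ?_
        · refine ⟨⟨hF.2.1, hF.2.2⟩, ?_, ?_⟩
          · simp only
            rw [hv]
            exact Submodule.smul_mem _ _ g3
          · simp only
            rw [hv, norm_smul, g4, mul_one, Real.norm_of_nonneg (by rw [c2]; linarith)]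
            have : 0 < ‖L y‖ := norm_pos_iff.2 hL0
            linarith
        · rw [h2 y hyS hyp]
          change Exp G (Exp G p (Real.pi • w1))
            (-((Real.pi - ‖L y‖) * Real.pi⁻¹) • Vel G p (Real.pi • w1)) = y
          rw [hv, Exp_rev hp hw1T, sub_sub_cancel, hw1, GT.smul_unit hL0, c3])
  refine ⟨σ, h4, fun x hx hxp => ?_, fun z hz => ?_⟩
  · rw [h5 x hx hxp]
    exact ⟨h1 x hx hxp, h2 x hx hxp, h3 x hx hxp⟩
  · have h6 := Psi_mem (DB_TS hB hT hp hz)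
    have h7 := hPp z hz
    rw [h5 _ h6 h7]
    exact huniq _ (h1 _ h6 h7) _ hz (h2 _ h6 h7)

end Crest.Agent.R208.GP
end
end

-- ▼ part R208/GP2d

/-! Row 208, block GP (helper198), part GP2d: the tube diffeomorphism of `S ∖ {p}` with the open disc
bundle of radius `π` over `C_p`, in the format of block T; orientation of `P_p` over `C_p`. -/

set_option autoImplicit false
set_option linter.unusedSectionVars false

open MeasureTheory Measure Set Filter Topology Module Metric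
open scoped ContDiff RealInnerProductSpace
open Crest.GeometryTopology.Submanifold
open Crest.Agent.R241.DDefs
open Crest.Agent.R241.D2
open Crest.Agent.R208.F Crest.Agent.R208.FI
open Crest.Agent.R208.FV (Vl phi PV)
open Crest.Agent.R208.CW (SMap)

noncomputable section

namespace Crest.Agent.R208.GP

variable {n N k : ℕ} {κ : ℝ} {S : Set (Euc N)} {G : Geo n N κ S} {p q x v : Euc N}

theorem ne_of_Cut (hB : Bl n N κ S G Real.pi) (hp : p ∈ S) (hq : q ∈ Cut S p) : q ≠ p := by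
  rintro rfl
  have := hq.2
  rw [intrinsicDist_self hp] at this
  exact Real.pi_ne_zero this.symm


/-- **THE TUBE** (316's format). -/
theorem exists_Gt (hB : Bl n N κ S G Real.pi) (hT : I.Typ G k) (hS : Sub n S) (hp : p ∈ S) :
    ∃ Gt : Euc N → Euc N × Euc N,
      SMap (Tot (Cut S p) (PC hB hT hS p) ∩ {z | ‖z.2‖ < Real.pi}) (S \ {p}) (Psi G) ∧
      SMap (S \ {p}) (Tot (Cut S p) (PC hB hT hS p) ∩ {z | ‖z.2‖ < Real.pi}) Gt ∧
      (∀ x ∈ S \ {p}, Psi G (Gt x) = x) ∧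
      (∀ z ∈ Tot (Cut S p) (PC hB hT hS p) ∩ {z | ‖z.2‖ < Real.pi}, Gt (Psi G z) = z) ∧
      (∀ q ∈ Cut S p, Gt q = (q, 0)) ∧
      (∀ x ∈ S \ {p}, ‖(Gt x).2‖ = Real.pi - intrinsicDist S p x) := by
  obtain ⟨σ, h1, h2, h3⟩ := exists_tube_inv hB hT hS hp
  rw [← DB_eq hB hT hS hp]
  refine ⟨σ, ⟨fun z hz => contDiffAt_Psi (DB_TS hB hT hp hz), fun z hz =>
    ⟨Psi_mem (DB_TS hB hT hp hz), ?_⟩⟩, ⟨fun x hx => h1 x hx.1 hx.2, fun x hx =>
    (h2 x hx.1 hx.2).1⟩, fun x hx => (h2 x hx.1 hx.2).2.1, h3, fun q hq => ?_,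
    fun x hx => (h2 x hx.1 hx.2).2.2⟩
  · intro h
    have h4 := tube_dist hB hT hp hz.1 hz.2.1 hz.2.2.le
    change intrinsicDist S p (Psi G z) = _ at h4
    rw [h, intrinsicDist_self hp] at h4
    linarith [hz.2.2]
  · have hz0 : ((q, 0) : Euc N × Euc N) ∈ DB G p :=
      ⟨hq, Submodule.zero_mem _, by simp only; rw [norm_zero]; exact Real.pi_pos⟩
    have h4 := h3 _ hz0
    have h5 : Psi G (q, 0) = q := Exp_zero G hq.1
    rwa [h5] at h4

/-- the tube map is a bijection with `d(p, Ψ(q,v)) = π - |v|`. -/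
theorem dist_Psi (hB : Bl n N κ S G Real.pi) (hT : I.Typ G k) (hS : Sub n S) (hp : p ∈ S)
    {z : Euc N × Euc N} (hz : z ∈ Tot (Cut S p) (PC hB hT hS p)) (hzπ : ‖z.2‖ ≤ Real.pi) :
    intrinsicDist S p (Psi G z) = Real.pi - ‖z.2‖ := by
  obtain ⟨h1, h2⟩ := (mem_Tot_PC hB hT hS hp).1 hz
  exact tube_dist hB hT hp h1 h2 hzπ

/-- orientation of a pulled back field. -/
theorem OR.comp {E E' : Type*} [NormedAddCommGroup E] [NormedSpace ℝ E] [NormedAddCommGroup E']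
    [NormedSpace ℝ E'] {m ι : Type*} [Fintype m] [DecidableEq m] [Fintype ι]
    [DecidableEq ι] {X : Set E} {X' : Set E'}
    {P : E → EuclideanSpace ℝ m →L[ℝ] EuclideanSpace ℝ m} {W : E → (ι × Fin 2 → m) → ℝ}
    (h : T.OR X P W) {f : E' → E} (hf : ∀ x ∈ X', ContDiffAt ℝ ∞ f x) (hm : MapsTo f X' X) :
    T.OR X' (fun x => P (f x)) (fun x => W (f x)) where
  sP := fun x hx => (h.sP _ (hm hx)).comp x (hf x hx)
  sW := fun x hx I => (h.sW _ (hm hx) I).comp x (hf x hx)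
  fr := fun x hx => h.fr _ (hm hx)


end Crest.Agent.R208.GP
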