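import Crest.Agent.R208.T2d
import Crest.Agent.R208.CW6b
import Crest.Agent.R208.NB9
import Crest.Agent.R208.GP2d

-- ▼ part R208/NO1
section

/-! Row 208, block NO (helper537), part NO1: an orientation of a projection field is transported
along a (not necessarily isometric) smooth isomorphism of projection fields. -/

set_option autoImplicit false
set_option linter.unusedSectionVars false
set_option linter.unusedVariables false

open MeasureTheory Set Filter Topology Module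
open scoped ContDiff Matrix RealInnerProductSpace
open Crest.Agent.R208.F Crest.Agent.R208.FI Crest.Agent.R208.CW Crest.Agent.R208.T

noncomputable section

namespace Crest.Agent.R208.NO

section alg
variable {κ m n : Type} [Fintype κ] [DecidableEq κ] [Fintype m] [DecidableEq m] [Fintype n]
  [DecidableEq n]


theorem det_ne {f : Matrix n κ ℝ} {g : Matrix m κ ℝ} {B : Matrix n m ℝ} (hf : f * fᵀ * B = B)
    (hinj : ∀ v : κ → ℝ, B.mulVec (g.mulVec v) = 0 → v = 0) : (fᵀ * B * g).det ≠ 0 := by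
  intro h0
  obtain ⟨v, hv, hv0⟩ := Matrix.exists_mulVec_eq_zero_iff.2 h0
  refine hv (hinj v ?_)
  rw [Matrix.mulVec_mulVec]
  have h1 : B * g = f * (fᵀ * B * g) := by
    rw [← Matrix.mul_assoc, ← Matrix.mul_assoc, hf]
  rw [h1, ← Matrix.mulVec_mulVec, hv0, Matrix.mulVec_zero]


end alg

section tensor
variable {m n ι : Type} [Fintype m] [DecidableEq m] [Fintype n] [DecidableEq n]
  [Fintype ι] [DecidableEq ι]





end tensor

/-! ### frames of projections -/

section frame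
variable {m κ : Type} [Fintype m] [DecidableEq m] [Fintype κ] [DecidableEq κ]


end frame

/-! ### the theorem -/

section field
variable {m n ι E : Type} [Fintype m] [DecidableEq m] [Fintype n] [DecidableEq n]
  [Fintype ι] [DecidableEq ι] [NormedAddCommGroup E] [NormedSpace ℝ E] {X : Set E}
  {P : E → EuclideanSpace ℝ n →L[ℝ] EuclideanSpace ℝ n} {W : E → (ι × Fin 2 → n) → ℝ}
  {Q : E → EuclideanSpace ℝ m →L[ℝ] EuclideanSpace ℝ m}
  {A : E → EuclideanSpace ℝ m →L[ℝ] EuclideanSpace ℝ n}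

/-- matrix of an operator -/
def mB (A : EuclideanSpace ℝ m →L[ℝ] EuclideanSpace ℝ n) : Matrix n m ℝ :=
  Matrix.of fun i j => A (EuclideanSpace.single j 1) i

theorem mB_mulVec (A : EuclideanSpace ℝ m →L[ℝ] EuclideanSpace ℝ n) (v : EuclideanSpace ℝ m)
    (i : n) : A v i = ∑ j, mB A i j * v j := by
  have h1 : v = ∑ j, v j • (EuclideanSpace.single j (1 : ℝ)) := by
    ext k
    simp [Finset.sum_apply, Pi.single_apply]
  conv_lhs => rw [h1]
  rw [map_sum]
  simp only [map_smul, WithLp.ofLp_sum, WithLp.ofLp_smul, Finset.sum_apply, Pi.smul_apply,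
    smul_eq_mul]
  exact Finset.sum_congr rfl fun j _ => mul_comm _ _

theorem mB_comp {l : Type} [Fintype l] [DecidableEq l]
    (A : EuclideanSpace ℝ m →L[ℝ] EuclideanSpace ℝ n)
    (C : EuclideanSpace ℝ l →L[ℝ] EuclideanSpace ℝ m) : mB (A.comp C) = mB A * mB C := by
  ext i j
  rw [Matrix.mul_apply]
  exact mB_mulVec A _ i


theorem mB_of_frame {Q : EuclideanSpace ℝ m →L[ℝ] EuclideanSpace ℝ m} {M : Matrix m m ℝ}
    (h : ∀ v i, Q v i = ∑ j, M i j * v j) : mB Q = M := by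
  ext i j
  change Q (EuclideanSpace.single j 1) i = _
  rw [h]
  simp

/-- the hypotheses on the isomorphism -/
structure IsoF (X : Set E) (P : E → EuclideanSpace ℝ n →L[ℝ] EuclideanSpace ℝ n)
    (Q : E → EuclideanSpace ℝ m →L[ℝ] EuclideanSpace ℝ m)
    (A : E → EuclideanSpace ℝ m →L[ℝ] EuclideanSpace ℝ n) (r : ℕ) : Prop where
  sQ : ∀ x ∈ X, ContDiffAt ℝ ∞ Q x
  sA : ∀ x ∈ X, ContDiffAt ℝ ∞ A x
  idem : ∀ x ∈ X, ∀ v, Q x (Q x v) = Q x v
  sym : ∀ x ∈ X, ∀ v w, ⟪Q x v, w⟫ = ⟪v, Q x w⟫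
  maps : ∀ x ∈ X, ∀ w, P x (A x (Q x w)) = A x (Q x w)
  inj : ∀ x ∈ X, ∀ w, Q x w = w → A x w = 0 → w = 0
  rank : ∀ x ∈ X, finrank ℝ
    (LinearMap.range (Q x : EuclideanSpace ℝ m →ₗ[ℝ] EuclideanSpace ℝ m)) = r


theorem IsoF.key (h : OR X P W) (hA : IsoF X P Q A (2 * Fintype.card ι)) {x : E} (hx : x ∈ X)
    {f : Matrix n (ι × Fin 2) ℝ} (hf1 : fᵀ * f = 1)
    (hf2 : ∀ v i, P x v i = ∑ j, (f * fᵀ) i j * v j) {g : Matrix m (ι × Fin 2) ℝ}
    (hg1 : gᵀ * g = 1) (hg2 : ∀ v i, Q x v i = ∑ j, (g * gᵀ) i j * v j) :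
    mB ((A x).comp (Q x)) * (g * gᵀ) = mB ((A x).comp (Q x)) ∧
      (fᵀ * mB ((A x).comp (Q x)) * g).det ≠ 0 := by
  have hQ : mB (Q x) = g * gᵀ := mB_of_frame hg2
  have hP : mB (P x) = f * fᵀ := mB_of_frame hf2
  have h1 : mB ((A x).comp (Q x)) * (g * gᵀ) = mB ((A x).comp (Q x)) := by
    rw [← hQ, ← mB_comp]
    congr 1
    ext1 v
    change A x (Q x (Q x v)) = A x (Q x v)
    rw [hA.idem x hx]
  refine ⟨h1, det_ne ?_ ?_⟩
  · rw [← hP, ← mB_comp]
    congr 1
    ext1 v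
    exact hA.maps x hx v
  · intro v hv
    set u : EuclideanSpace ℝ m := WithLp.toLp 2 (g.mulVec v) with hu
    have h2 : Q x u = u := by
      ext i
      rw [hg2]
      change ((g * gᵀ).mulVec (g.mulVec v)) i = g.mulVec v i
      rw [Matrix.mulVec_mulVec, Matrix.mul_assoc, hg1, Matrix.mul_one]
    have h3 : A x u = 0 := by
      ext i
      have h4 := congrFun hv i
      have h5 := mB_mulVec ((A x).comp (Q x)) u i
      change A x (Q x u) i = _ at h5
      rw [h2] at h5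
      rw [h5]
      exact h4
    have h4 : g.mulVec v = 0 := congrArg WithLp.ofLp (hA.inj x hx u h2 h3)
    have h5 : (gᵀ * g).mulVec v = 0 := by rw [← Matrix.mulVec_mulVec, h4, Matrix.mulVec_zero]
    rwa [hg1, Matrix.one_mulVec] at h5




end field

end Crest.Agent.R208.NO
end
end

-- ▼ part R208/NO2

/-! Row 208, block NO (helper537), part NO2: `N ⊕ ℝ` is oriented over `US G`. -/

set_option autoImplicit false
set_option linter.unusedSectionVars false
set_option linter.unusedVariables false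

open MeasureTheory Set Filter Topology Module
open scoped ContDiff Matrix RealInnerProductSpace
open Crest.GeometryTopology.Submanifold
open Crest.Agent.R241.DDefs
open Crest.Agent.R241.D2
open Crest.Agent.R208.NN
open Crest.Agent.R208.NB
open Crest.Agent.R208.GT (bas LM)
open Crest.Agent.R208.FI (Sub)
open Crest.Agent.R208.T

noncomputable section

namespace Crest.Agent.R208.NO

/-! ### `H ⊕ ℝ` -/
section dsum
variable {n : Type} [Fintype n] [DecidableEq n]

/-- restriction to the first summand -/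
def pL (n : Type) [Fintype n] : EuclideanSpace ℝ (n ⊕ Unit) →L[ℝ] EuclideanSpace ℝ n :=
  LinearMap.toContinuousLinearMap
    { toFun := fun w => WithLp.toLp 2 fun i => w (Sum.inl i)
      map_add' := fun _ _ => rfl
      map_smul' := fun _ _ => rfl }

/-- the last coordinate -/
def pU (n : Type) [Fintype n] : EuclideanSpace ℝ (n ⊕ Unit) →L[ℝ] ℝ :=
  LinearMap.toContinuousLinearMap
    { toFun := fun w => w (Sum.inr ())
      map_add' := fun _ _ => rfl
      map_smul' := fun _ _ => rfl }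

/-- inclusion of the first summand -/
def iL (n : Type) [Fintype n] : EuclideanSpace ℝ n →L[ℝ] EuclideanSpace ℝ (n ⊕ Unit) :=
  LinearMap.toContinuousLinearMap
    { toFun := fun w => WithLp.toLp 2 (Sum.elim w fun _ => 0)
      map_add' := fun _ _ => by
        ext i; rcases i with i | i
        · rfl
        · change (0 : ℝ) = 0 + 0; simp
      map_smul' := fun _ _ => by
        ext i; rcases i with i | i
        · rfl
        · change (0 : ℝ) = _ * 0; simp }

/-- inclusion of the last coordinate -/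
def iU (n : Type) [Fintype n] : ℝ →L[ℝ] EuclideanSpace ℝ (n ⊕ Unit) :=
  LinearMap.toContinuousLinearMap
    { toFun := fun c => WithLp.toLp 2 (Sum.elim (fun _ => 0) fun _ => c)
      map_add' := fun _ _ => by
        ext i; rcases i with i | i
        · change (0 : ℝ) = 0 + 0; simp
        · rfl
      map_smul' := fun _ _ => by
        ext i; rcases i with i | i
        · change (0 : ℝ) = _ * 0; simp
        · rfl }

@[simp] theorem pL_apply (w : EuclideanSpace ℝ (n ⊕ Unit)) (i : n) : pL n w i = w (Sum.inl i) := rfl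
@[simp] theorem pU_apply (w : EuclideanSpace ℝ (n ⊕ Unit)) : pU n w = w (Sum.inr ()) := rfl
@[simp] theorem iL_inl (w : EuclideanSpace ℝ n) (i : n) : iL n w (Sum.inl i) = w i := rfl
@[simp] theorem iL_inr (w : EuclideanSpace ℝ n) (u : Unit) : iL n w (Sum.inr u) = 0 := rfl
@[simp] theorem iU_inl (c : ℝ) (i : n) : iU n c (Sum.inl i) = 0 := rfl
@[simp] theorem iU_inr (c : ℝ) (u : Unit) : iU n c (Sum.inr u) = c := rfl

@[simp] theorem pL_iL (w : EuclideanSpace ℝ n) : pL n (iL n w) = w := by ext i; rfl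
@[simp] theorem pU_iL (w : EuclideanSpace ℝ n) : pU n (iL n w) = 0 := rfl
@[simp] theorem pL_iU (c : ℝ) : pL n (iU n c) = 0 := by ext i; rfl
@[simp] theorem pU_iU (c : ℝ) : pU n (iU n c) = c := rfl

theorem dec (w : EuclideanSpace ℝ (n ⊕ Unit)) : iL n (pL n w) + iU n (pU n w) = w := by
  ext i; rcases i with i | i <;> simp

theorem ext_pp {w w' : EuclideanSpace ℝ (n ⊕ Unit)} (h1 : pL n w = pL n w')
    (h2 : pU n w = pU n w') : w = w' := by rw [← dec w, h1, h2, dec]

/-- `P ⊕ 1` -/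
def dsum (P : EuclideanSpace ℝ n →L[ℝ] EuclideanSpace ℝ n) :
    EuclideanSpace ℝ (n ⊕ Unit) →L[ℝ] EuclideanSpace ℝ (n ⊕ Unit) :=
  (iL n).comp (P.comp (pL n)) + (iU n).comp (pU n)

theorem dsum_apply (P : EuclideanSpace ℝ n →L[ℝ] EuclideanSpace ℝ n)
    (w : EuclideanSpace ℝ (n ⊕ Unit)) : dsum P w = iL n (P (pL n w)) + iU n (pU n w) := rfl

@[simp] theorem dsum_inl (P : EuclideanSpace ℝ n →L[ℝ] EuclideanSpace ℝ n)
    (w : EuclideanSpace ℝ (n ⊕ Unit)) (i : n) : dsum P w (Sum.inl i) = P (pL n w) i := by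
  rw [dsum_apply]; simp

@[simp] theorem dsum_inr (P : EuclideanSpace ℝ n →L[ℝ] EuclideanSpace ℝ n)
    (w : EuclideanSpace ℝ (n ⊕ Unit)) (u : Unit) : dsum P w (Sum.inr u) = w (Sum.inr u) := by
  rw [dsum_apply]; simp

@[simp] theorem pL_dsum (P : EuclideanSpace ℝ n →L[ℝ] EuclideanSpace ℝ n)
    (w : EuclideanSpace ℝ (n ⊕ Unit)) : pL n (dsum P w) = P (pL n w) := by
  rw [dsum_apply, map_add, pL_iL, pL_iU, add_zero]

@[simp] theorem pU_dsum (P : EuclideanSpace ℝ n →L[ℝ] EuclideanSpace ℝ n)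
    (w : EuclideanSpace ℝ (n ⊕ Unit)) : pU n (dsum P w) = pU n w := by
  rw [dsum_apply, map_add, pU_iL, pU_iU, zero_add]

theorem dsum_idem {P : EuclideanSpace ℝ n →L[ℝ] EuclideanSpace ℝ n} (h : ∀ v, P (P v) = P v)
    (w : EuclideanSpace ℝ (n ⊕ Unit)) : dsum P (dsum P w) = dsum P w :=
  ext_pp (by simp [h]) (by simp)

theorem inner_dec (w w' : EuclideanSpace ℝ (n ⊕ Unit)) :
    ⟪w, w'⟫ = ⟪pL n w, pL n w'⟫ + pU n w * pU n w' := by
  simp only [PiLp.inner_apply, Fintype.sum_sum_type, RCLike.inner_apply, conj_trivial,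
    Finset.univ_unique, Finset.sum_singleton, pL_apply, pU_apply]
  rw [mul_comm (w' (Sum.inr _))]

theorem dsum_sym {P : EuclideanSpace ℝ n →L[ℝ] EuclideanSpace ℝ n}
    (h : ∀ v w, ⟪P v, w⟫ = ⟪v, P w⟫) (w w' : EuclideanSpace ℝ (n ⊕ Unit)) :
    ⟪dsum P w, w'⟫ = ⟪w, dsum P w'⟫ := by
  rw [inner_dec, inner_dec, pL_dsum, pL_dsum, pU_dsum, pU_dsum, h]

theorem dsum_eq_self {P : EuclideanSpace ℝ n →L[ℝ] EuclideanSpace ℝ n}
    {w : EuclideanSpace ℝ (n ⊕ Unit)} : dsum P w = w ↔ P (pL n w) = pL n w := by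
  constructor
  · intro h; rw [← pL_dsum, h]
  · intro h; exact ext_pp (by rw [pL_dsum, h]) (by rw [pU_dsum])

theorem contDiffAt_dsum {E : Type} [NormedAddCommGroup E] [NormedSpace ℝ E]
    {P : E → EuclideanSpace ℝ n →L[ℝ] EuclideanSpace ℝ n} {x : E} (h : ContDiffAt ℝ ∞ P x) :
    ContDiffAt ℝ ∞ (fun y => dsum (P y)) x :=
  (contDiffAt_const.clm_comp (h.clm_comp contDiffAt_const)).add contDiffAt_const

theorem finrank_dsum {P : EuclideanSpace ℝ n →L[ℝ] EuclideanSpace ℝ n}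
    (h : ∀ v, P (P v) = P v) :
    finrank ℝ (LinearMap.range (dsum P : EuclideanSpace ℝ (n ⊕ Unit) →ₗ[ℝ]
      EuclideanSpace ℝ (n ⊕ Unit))) =
    finrank ℝ (LinearMap.range (P : EuclideanSpace ℝ n →ₗ[ℝ] EuclideanSpace ℝ n)) + 1 := by
  set R := LinearMap.range (P : EuclideanSpace ℝ n →ₗ[ℝ] EuclideanSpace ℝ n) with hR
  set R' := LinearMap.range (dsum P : EuclideanSpace ℝ (n ⊕ Unit) →ₗ[ℝ]
      EuclideanSpace ℝ (n ⊕ Unit)) with hR'
  have hmR : ∀ v ∈ R, P v = v := by rintro _ ⟨w, rfl⟩; exact h w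
  have hmR' : ∀ v ∈ R', dsum P v = v := by rintro _ ⟨w, rfl⟩; exact dsum_idem h w
  let f : (R × ℝ) →ₗ[ℝ] R' := LinearMap.codRestrict R'
    (((iL n : EuclideanSpace ℝ n →ₗ[ℝ] _).comp (R.subtype.comp (LinearMap.fst ℝ R ℝ))) +
      (iU n : ℝ →ₗ[ℝ] _).comp (LinearMap.snd ℝ R ℝ)) (fun x => by
        refine ⟨iL n x.1 + iU n x.2, ?_⟩
        change dsum P (iL n x.1 + iU n x.2) = iL n x.1 + iU n x.2
        rw [dsum_eq_self, map_add, pL_iL, pL_iU, add_zero]
        exact hmR _ x.1.2)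
  let g : R' →ₗ[ℝ] (R × ℝ) := LinearMap.prod
    (LinearMap.codRestrict R ((pL n : EuclideanSpace ℝ (n ⊕ Unit) →ₗ[ℝ] _).comp R'.subtype)
      (fun x => ⟨pL n x, dsum_eq_self.1 (hmR' _ x.2)⟩))
    ((pU n : EuclideanSpace ℝ (n ⊕ Unit) →ₗ[ℝ] ℝ).comp R'.subtype)
  have hf : Function.Injective f := by
    rw [injective_iff_map_eq_zero]
    rintro ⟨u, c⟩ h0
    have h1 : iL n (u : EuclideanSpace ℝ n) + iU n c = 0 := congrArg Subtype.val h0
    have h2 : (u : EuclideanSpace ℝ n) = 0 := by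
      have := congrArg (pL n) h1
      rwa [map_add, pL_iL, pL_iU, add_zero, map_zero] at this
    have h3 : c = 0 := by
      have := congrArg (pU n) h1
      rwa [map_add, pU_iL, pU_iU, zero_add, map_zero] at this
    rw [h3, Prod.mk_eq_zero]
    exact ⟨Subtype.ext h2, rfl⟩
  have hg : Function.Injective g := by
    rw [injective_iff_map_eq_zero]
    rintro ⟨w, hw⟩ h0
    have h1 : pL n w = 0 := congrArg (fun x : R × ℝ => (x.1 : EuclideanSpace ℝ n)) h0
    have h2 : pU n w = 0 := congrArg (fun x : R × ℝ => x.2) h0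
    refine Subtype.ext ?_
    exact ext_pp (by rw [h1]; simp) (by rw [h2]; simp)
  have e1 := LinearMap.finrank_le_finrank_of_injective hf
  have e2 := LinearMap.finrank_le_finrank_of_injective hg
  rw [Module.finrank_prod, finrank_self] at e1 e2
  omega

end dsum

/-! ### the smooth operator `l0 ∘ PN` -/

section lO
variable {n N k K r : ℕ} {κ : ℝ} {S : Set (Euc N)} {G : Geo n N κ S} {z : Euc N × Euc N}
  {ν : Fin K → ℝ} {δ : ℝ} {PN : Euc N × Euc N → Wt N K →L[ℝ] Wt N K}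

/-- smooth operator, equal to `l0 ∘ PN` on `US G` -/
def lO (h : GT.Bla G k) (ν : Fin K → ℝ) (PN : Euc N × Euc N → Wt N K →L[ℝ] Wt N K)
    (z : Euc N × Euc N) : Wt N K →L[ℝ] Euc N :=
  ∑ i, ∑ j, lM h ν PN (EuclideanSpace.basisFun ((Fin K × Fin 2) × Fin N) ℝ).toBasis z i j •
    (EuclideanSpace.proj j : Wt N K →L[ℝ] ℝ).smulRight (EuclideanSpace.single i (1 : ℝ) : Euc N)







end lO

end Crest.Agent.R208.NO
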