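import Crest.Agent.R208.UP1
import Crest.Agent.R208.SB3
import Crest.Agent.R208.NO2
import Crest.Agent.R208.CM6b

/-! Row 208, block UP (helper566).  UP2: unit orientation forms and oriented fields descend to the
quotient of a free circle action; the instance `N` over `B = Quo (US G) g`. -/

set_option autoImplicit false
set_option linter.unusedSectionVars false

open Set Filter Topology Module
open scoped ContDiff RealInnerProductSpace
open Crest.Agent.R208.F Crest.Agent.R208.FI Crest.Agent.R208.T Crest.Agent.R208.SB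
open Crest.Agent.R208.CM (Cir Rep Triv Emb Quo Qd MM jj)

noncomputable section

namespace Crest.Agent.R208.UP

section desc
variable {E : Type} [NormedAddCommGroup E] [NormedSpace ℝ E] [FiniteDimensional ℝ E]
  {H V : Type*} [NormedAddCommGroup H] [InnerProductSpace ℝ H] [FiniteDimensional ℝ H]
  [NormedAddCommGroup V] [InnerProductSpace ℝ V] [FiniteDimensional ℝ V]
  {X : Set E} {φ : ℝ → E → E} {R : ℝ → H →L[ℝ] H} {T : E → H →L[ℝ] V} {P : E → H →L[ℝ] H}
  {o : E → Ext H} {r d m : ℕ} {g : E → Fin m → ℂ}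

/-- the form transported by the trivialisation -/
def od (T : E → H →L[ℝ] V) (o : E → Ext H) (x : E) : Ext V :=
  pb ((ContinuousLinearMap.adjoint (T x) : V →L[ℝ] H) : V →ₗ[ℝ] H) (o x)

theorem pfield_Qd (hT : Triv X φ R T) (hP : PField X r P) : PField X r (Qd T P) :=
  ⟨fun x hx => hT.contDiffAt_Qd hx (hP.smooth x hx), fun x hx v => hT.Qd_idem hx (hP.idem x hx) v,
    fun x hx => by rw [hT.finrank_Qd hx, hP.rank x hx]⟩

theorem syOn_Qd (hs : SyOn X P) : SyOn X (Qd T P) := fun x hx v w => Triv.Qd_symm (hs x hx) v w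

theorem upr_Qd (hT : Triv X φ R T) (h : UPr X r P o) : UPr X r (Qd T P) (od T o) := by
  refine ⟨fun x hx => ?_, fun x => (h.deg x).pb _, fun x hx => ?_, fun x hx e he hQe => ?_⟩
  · have ha : ContDiffAt ℝ ∞ (fun y => ContinuousLinearMap.adjoint (T y)) x :=
      (ContinuousLinearMap.adjoint (𝕜 := ℝ) (E := H)
        (F := V)).toContinuousLinearEquiv.contDiff.contDiffAt.comp x (hT.smooth x hx)
    exact contDiffAt_pb ha (h.sm x hx)
  · have e1 : ((ContinuousLinearMap.adjoint (T x) : V →L[ℝ] H) : V →ₗ[ℝ] H) ∘ₗ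
        (Qd T P x : V →ₗ[ℝ] V) = (P x : H →ₗ[ℝ] H) ∘ₗ
          ((ContinuousLinearMap.adjoint (T x) : V →L[ℝ] H) : V →ₗ[ℝ] H) := by
      ext v
      change ContinuousLinearMap.adjoint (T x) (T x (P x (ContinuousLinearMap.adjoint (T x) v))) =
        P x (ContinuousLinearMap.adjoint (T x) v)
      rw [hT.adj hx]
    rw [od, pb_comp, e1, ← pb_comp, h.fix x hx]
  · rw [od, evA_pb]
    refine h.unit x hx _ ?_ fun i => (hT.mem_range hx (hQe i)).2
    rw [orthonormal_iff_ite] at he ⊢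
    intro i j
    rw [← he i j]
    change ⟪ContinuousLinearMap.adjoint (T x) (e i), ContinuousLinearMap.adjoint (T x) (e j)⟫ = _
    rw [← hT.inner hx, (hT.mem_range hx (hQe i)).1, (hT.mem_range hx (hQe j)).1]

/-- **invariance** by connectedness -/
theorem od_inv (h : Cir X φ) (hR : Rep R) (hT : Triv X φ R T) (hP : PField X r P)
    (hs : SyOn X P) (he : ∀ x ∈ X, ∀ t w, P (φ t x) (R t w) = R t (P x w)) (ho : UPr X r P o)
    {x : E} (hx : x ∈ X) (t : ℝ) : od T o (φ t x) = od T o x := by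
  have hu := upr_Qd hT ho
  have hPf := pfield_Qd (P := P) (r := r) hT hP
  have hpm : ∀ s, od T o (φ s x) = od T o x ∨ od T o (φ s x) = -od T o x := by
    intro s
    have h1 := hu.un (h.maps s hx)
    rw [hT.Qd_inv hR hx s (he x hx s)] at h1
    exact (hu.un hx).unique h1 (hPf.idem x hx) (syOn_Qd hs x hx) (hPf.rank x hx)
  have hne : od T o x ≠ 0 := (hu.un hx).ne_zero (hPf.idem x hx) (hPf.rank x hx)
  obtain ⟨J, hJ⟩ : ∃ J, (extBasis V).coord J (od T o x) ≠ 0 := by
    by_contra hc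
    push Not at hc
    exact hne ((extBasis V).forall_coord_eq_zero_iff.1 hc)
  set l : Ext V →L[ℝ] ℝ := LinearMap.toContinuousLinearMap ((extBasis V).coord J) with hl
  have hJ' : l (od T o x) ≠ 0 := hJ
  have hcont : Continuous fun s => l (od T o (φ s x)) := by
    rw [continuous_iff_continuousAt]
    intro s
    have h1 : ContinuousAt (od T o) (φ s x) := (hu.sm _ (h.maps s hx)).continuousAt
    exact l.continuous.continuousAt.comp
      (ContinuousAt.comp (g := od T o) (f := fun s => φ s x) h1 (h.smooth_left s hx).continuousAt)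
  rcases hpm t with h1 | h1
  · exact h1
  · exfalso
    set c := l (od T o x) with hc
    have h0 : l (od T o (φ 0 x)) = c := by rw [h.zero x hx]
    have ht : l (od T o (φ t x)) = -c := by rw [h1, map_neg]
    have h2 : (0 : ℝ) ∈ (fun s => l (od T o (φ s x))) '' (uIcc 0 t) := by
      refine intermediate_value_uIcc hcont.continuousOn ?_
      rw [h0, ht, mem_uIcc]
      rcases le_total c 0 with h | h
      · left; exact ⟨h, by linarith⟩
      · right; exact ⟨by linarith, h⟩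
    obtain ⟨s, -, hs0⟩ := h2
    rcases hpm s with h3 | h3
    · have : l (od T o (φ s x)) = c := by rw [h3]
      exact hJ' (this.symm.trans hs0)
    · have : l (od T o (φ s x)) = -c := by rw [h3, map_neg]
      have h4 : -c = 0 := this.symm.trans hs0
      exact hJ' (neg_eq_zero.1 h4)

/-- **descent of a unit orientation form** to `Quo X g` -/
theorem UPr.desc (hg : Emb X φ g) (h : Cir X φ) (hX : Clo (d + 1) X) (hR : Rep R)
    (hT : Triv X φ R T) (hP : PField X r P) (hs : SyOn X P)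
    (he : ∀ x ∈ X, ∀ t w, P (φ t x) (R t w) = R t (P x w)) (ho : UPr X r P o)
    {P' : MM m → V →L[ℝ] V} (hP' : ∀ x ∈ X, P' (jj g x) = Qd T P x) :
    ∃ o' : MM m → Ext V, ContDiff ℝ ∞ o' ∧ UPr (Quo X g) r P' o' ∧
      ∀ x ∈ X, o' (jj g x) = od T o x := by
  have hu := upr_Qd hT ho
  obtain ⟨o₁, h1, h2⟩ := hg.exists_desc h hX (f := od T o) hu.sm
    (fun x hx t => od_inv h hR hT hP hs he ho hx t)
  set D : Ext V →L[ℝ] Ext V := LinearMap.toContinuousLinearMap (dpl r) with hD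
  have h3 : ∀ x ∈ X, D (o₁ (jj g x)) = od T o x := fun x hx => by
    rw [h2 x hx]
    exact dpl_of_isDeg (hu.deg x)
  refine ⟨fun y => D (o₁ y), D.contDiff.comp h1, ⟨fun y _ => (D.contDiff.comp h1).contDiffAt,
    fun y => isDeg_dpl _ _, ?_, ?_⟩, h3⟩
  · rintro _ ⟨x, hx, rfl⟩
    rw [h3 x hx, hP' x hx]
    exact hu.fix x hx
  · rintro _ ⟨x, hx, rfl⟩ e he' hPe
    rw [h3 x hx]
    rw [hP' x hx] at hPe
    exact hu.unit x hx e he' hPe

/-- **descent of an oriented field** (any rank): the field and its unit orientation form -/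
theorem exists_desc_opr (hg : Emb X φ g) (h : Cir X φ) (hX : Clo (d + 1) X) (hR : Rep R)
    (hT : Triv X φ R T) (hP : PField X r P) (hs : SyOn X P)
    (he : ∀ x ∈ X, ∀ t w, P (φ t x) (R t w) = R t (P x w)) {oP : E → Ext H} (ho : OPr X r P oP) :
    ∃ (P' : MM m → V →L[ℝ] V) (o' : MM m → Ext V), ContDiff ℝ ∞ P' ∧ ContDiff ℝ ∞ o' ∧
      PField (Quo X g) r P' ∧ SyOn (Quo X g) P' ∧ UPr (Quo X g) r P' o' ∧
      OPr (Quo X g) r P' o' ∧ (∀ x ∈ X, P' (jj g x) = Qd T P x) ∧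
      ∀ x ∈ X, o' (jj g x) = od T (nrm r P oP) x := by
  obtain ⟨P', h1, h2, h3, h4⟩ := hg.desc_PField h hX hR hT hP hs he
  obtain ⟨o', h5, h6, h7⟩ := UPr.desc hg h hX hR hT hP hs he (UPr.of_opr ho hP hs) h4
  exact ⟨P', o', h1, h5, h2, h3, h6, h6.opr h2, h4, h7⟩

end desc

/-! ### the negative bundle over `B` -/

section neg
open Crest.GeometryTopology.Submanifold
open Crest.Agent.R241.DDefs
open Crest.Agent.R241.D2
open Crest.Agent.R208.L (US)
open Crest.Agent.R208.NN (Wt Rt nuP)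
open Crest.Agent.R208.NB (NegB)

variable {n N k K r m : ℕ} {κ : ℝ} {S : Set (Euc N)} {G : Geo n N κ S} {ν : Fin K → ℝ} {δ : ℝ}
  {PN : Euc N × Euc N → Wt N K →L[ℝ] Wt N K} {g : Euc N × Euc N → Fin m → ℂ}

theorem syOn_N (H : NegB G r ν δ PN) : SyOn (US G) PN := fun z _ => H.sy z

theorem pfield_N (H : NegB G r ν δ PN) : PField (US G) r PN :=
  ⟨H.smooth, fun z _ w => H.idem z w, H.rank⟩

theorem equi_N (H : NegB G r ν δ PN) : ∀ z ∈ US G, ∀ t w,
    PN (CM.gf G t z) (Rt ν t w) = Rt ν t (PN z w) := fun z hz t w => H.equi z hz t w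

/-- **(IN2)**: `N` and its orientation over `B = Quo (US G) g` -/
theorem exists_N_B (h : GT.Bla G k) (hk : 2 ≤ k) (hkn : k < n) (hper : HS.Per G)
    (H : NegB G (k - 1) (nuP K) δ PN) (hg : Emb (US G) (CM.gf G) g) :
    ∃ (p : ℕ) (T : Euc N × Euc N → Wt N K →L[ℝ] EuclideanSpace ℝ (Fin p))
      (P' : MM m → EuclideanSpace ℝ (Fin p) →L[ℝ] EuclideanSpace ℝ (Fin p))
      (oN : Euc N × Euc N → Ext (Wt N K)) (o' : MM m → Ext (EuclideanSpace ℝ (Fin p))),
      Triv (US G) (CM.gf G) (fun s => Rt (nuP K) s) T ∧ ContDiff ℝ ∞ P' ∧ ContDiff ℝ ∞ o' ∧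
      UPr (US G) (k - 1) PN oN ∧ OPr (US G) (k - 1) PN oN ∧
      PField (Quo (US G) g) (k - 1) P' ∧ SyOn (Quo (US G) g) P' ∧
      UPr (Quo (US G) g) (k - 1) P' o' ∧ OPr (Quo (US G) g) (k - 1) P' o' ∧
      (∀ z ∈ US G, P' (jj g z) = Qd T PN z) ∧ ∀ z ∈ US G, o' (jj g z) = od T oN z := by
  obtain ⟨oP, hoP⟩ := exists_opr_N h hk hkn H
  obtain ⟨p, T, t1, t2, t3⟩ := CM.exists_T hg (NB.rep_per N K)
  have hT : Triv (US G) (CM.gf G) (fun s => Rt (nuP K) s) T := ⟨t1, t2, t3⟩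
  obtain ⟨d, hd⟩ : ∃ d, 2 * (n - 1) = d := ⟨_, rfl⟩
  obtain ⟨P', o', a1, a2, a3, a4, a5, a6, a7, a8⟩ := exists_desc_opr hg (CM.cir_US h.bl hper)
    (CM.clo_US' h.bl) (NB.rep_per N K) hT (pfield_N H) (syOn_N H) (equi_N H) hoP
  exact ⟨p, T, P', _, o', hT, a1, a2, UPr.of_opr hoP (pfield_N H) (syOn_N H),
    (UPr.of_opr hoP (pfield_N H) (syOn_N H)).opr (pfield_N H), a3, a4, a5, a6, a7, a8⟩


end neg

end Crest.Agent.R208.UP
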