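import Crest.Agent.R208.NB9
import Crest.Agent.R208.SB1

/-! Row 208, block RR, piece [RRk] (helper336): the Krein lemma in the form needed for the centres:
`n ∈ N_z ↦ w(n) = l0 n ∈ V_pq ⊖ v` is smooth, injective with a uniform bound, and
`⟪w', n(0)⟫ + ⟪lf w', n(π)⟫ = ⟪w', w(n)⟫`. -/

set_option autoImplicit false
set_option linter.unusedSectionVars false
set_option linter.unusedVariables false

open MeasureTheory Set Filter Topology Module
open scoped ContDiff RealInnerProductSpace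
open Crest.GeometryTopology.Submanifold
open Crest.Agent.R241.DDefs
open Crest.Agent.R241.D2
open Crest.Agent.R208.NN
open Crest.Agent.R208.GT (bas LM)
open Crest.Agent.R208.FI (Sub)

noncomputable section

namespace Crest.Agent.R208.RK

open Crest.Agent.R208.NB

variable {n N k K r dU : ℕ} {κ : ℝ} {S : Set (Euc N)} {G : Geo n N κ S} {z : Euc N × Euc N}
  {ν : Fin K → ℝ} {δ : ℝ} {PN : Euc N × Euc N → Wt N K →L[ℝ] Wt N K}

theorem contDiffAt_clm {D E F : Type*} [NormedAddCommGroup D] [NormedSpace ℝ D]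
    [NormedAddCommGroup E] [NormedSpace ℝ E] [FiniteDimensional ℝ E]
    [NormedAddCommGroup F] [NormedSpace ℝ F] {m : WithTop ℕ∞} {f : D → E →L[ℝ] F} {x : D}
    (h : ∀ y, ContDiffAt ℝ m (fun x => f x y) x) : ContDiffAt ℝ m f x := by
  let d := finrank ℝ E
  have hd : d = finrank ℝ (Fin d → ℝ) := (finrank_fin_fun ℝ).symm
  let e₁ := ContinuousLinearEquiv.ofFinrankEq hd
  let e₂ := (e₁.arrowCongr (1 : F ≃L[ℝ] F)).trans (ContinuousLinearEquiv.piRing (Fin d))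
  rw [← Function.id_comp f, ← e₂.symm_comp_self]
  exact e₂.symm.contDiff.contDiffAt.comp x (contDiffAt_pi.mpr fun i => h _)

/-- the standard basis of `Wt N K` -/
def bw (N K : ℕ) : Basis ((Fin K × Fin 2) × Fin N) ℝ (Wt N K) :=
  (EuclideanSpace.basisFun ((Fin K × Fin 2) × Fin N) ℝ).toBasis

/-- globally defined version of `l0 G z ν ∘ PN z`, smooth at `US G` -/
def wL (h : GT.Bla G k) (ν : Fin K → ℝ) (PN : Euc N × Euc N → Wt N K →L[ℝ] Wt N K)
    (z : Euc N × Euc N) : Wt N K →L[ℝ] Euc N :=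
  LinearMap.toContinuousLinearMap (Matrix.toLin (bw N K) (bas N) (lM h ν PN (bw N K) z))

theorem wL_eq (h : GT.Bla G k) (hkn : k < n) (hz : z ∈ L.US G) (ν : Fin K → ℝ) :
    wL h ν PN z = (l0 G z ν).comp (PN z) := by
  unfold wL
  rw [lM_eq h hkn hz (bw N K)]
  ext1 w
  change Matrix.toLin (bw N K) (bas N) (LinearMap.toMatrix (bw N K) (bas N)
    (((l0 G z ν).comp (PN z) : Wt N K →L[ℝ] Euc N) : Wt N K →ₗ[ℝ] Euc N)) w = _
  rw [Matrix.toLin_toMatrix]
  rfl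

theorem wL_apply (h : GT.Bla G k) (hkn : k < n) (hz : z ∈ L.US G) {w : Wt N K}
    (hw : PN z w = w) : wL h ν PN z w = l0 G z ν w := by
  rw [wL_eq h hkn hz ν]
  change l0 G z ν (PN z w) = _
  rw [hw]

theorem contDiffAt_wL (h : GT.Bla G k) (hkn : k < n) (H : NegB G r ν δ PN) (hz : z ∈ L.US G) :
    ContDiffAt ℝ ∞ (wL h ν PN) z := by
  refine contDiffAt_clm fun w => ?_
  have h1 : ∀ y, wL h ν PN y w = ∑ i, ((lM h ν PN (bw N K) y).mulVec ((bw N K).repr w)) i • bas N i := by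
    intro y
    change Matrix.toLin (bw N K) (bas N) (lM h ν PN (bw N K) y) w = _
    rw [Matrix.toLin_apply]
  rw [show (fun y => wL h ν PN y w) = fun y =>
    ∑ i, ((lM h ν PN (bw N K) y).mulVec ((bw N K).repr w)) i • bas N i from funext h1]
  refine ContDiffAt.sum fun i _ => ?_
  have h2 : ContDiffAt ℝ ∞ (fun y => ∑ j, lM h ν PN (bw N K) y i j * (bw N K).repr w j) z :=
    ContDiffAt.sum fun j _ => (smooth_lM h hkn H hz (bw N K) i j).mul contDiffAt_const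
  exact h2.smul (contDiffAt_const (c := bas N i))

theorem contDiffAt_wL' (h : GT.Bla G k) (hkn : k < n) (H : NegB G r ν δ PN) (hz : z ∈ L.US G)
    (w : Wt N K) :
    ContDiffAt ℝ ∞ (fun p : (Euc N × Euc N) × Wt N K => wL h ν PN p.1 p.2) (z, w) :=
  ((contDiffAt_wL h hkn H hz).comp (z, w) contDiffAt_fst).clm_apply contDiffAt_snd

/-- **uniform lower bound** -/
theorem lower (h : GT.Bla G k) (hkn : k < n) (H : NegB G (k - 1) (nuP K) δ PN) :
    ∃ κm : ℝ, 0 < κm ∧ ∀ z ∈ L.US G, ∀ w, PN z w = w → κm * ‖w‖ ≤ ‖l0 G z (nuP K) w‖ := by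
  have hcU : IsCompact (L.US G) := by
    have hT : IsCompact (S ×ˢ Metric.closedBall (0 : Euc N) 1) :=
      h.bl.cpt.prod (isCompact_closedBall _ _)
    refine hT.of_isClosed_subset ?_ ?_
    · have h2 := isClosed_TS G
      have h3 : IsClosed {z : Euc N × Euc N | ‖z.2‖ = 1} :=
        isClosed_eq continuous_snd.norm continuous_const
      have e : L.US G = TS G ∩ {z | ‖z.2‖ = 1} := rfl
      rw [e]
      exact h2.inter h3
    · intro z hz
      exact ⟨hz.1.1, by simpa using hz.2.le⟩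
  have hcK := SB.isCompact_Sph hcU H.pfield
  set Kc := T.Sph (L.US G) PN with hKc
  rcases Kc.eq_empty_or_nonempty with he | hne
  · refine ⟨1, one_pos, fun z hz w hw => ?_⟩
    have hw0 : w = 0 := by
      by_contra h0
      have hn : 0 < ‖w‖ := norm_pos_iff.2 h0
      have h1 : ((z, (‖w‖⁻¹ : ℝ) • w) : (Euc N × Euc N) × Wt N K) ∈ Kc := by
        refine ⟨⟨hz, ?_⟩, ?_⟩
        · change PN z ((‖w‖⁻¹ : ℝ) • w) = (‖w‖⁻¹ : ℝ) • w
          rw [map_smul, hw]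
        · change ‖(‖w‖⁻¹ : ℝ) • w‖ = 1
          rw [norm_smul, norm_inv, norm_norm, inv_mul_cancel₀ hn.ne']
      rw [he] at h1
      exact h1
    rw [hw0, map_zero, norm_zero, norm_zero, mul_zero]
  · have hcont : ContinuousOn (fun p : (Euc N × Euc N) × Wt N K => ‖wL h (nuP K) PN p.1 p.2‖) Kc := by
      rintro ⟨z, w⟩ hp
      exact (contDiffAt_wL' h hkn H hp.1.1 w).continuousAt.norm.continuousWithinAt
    obtain ⟨⟨z0, w0⟩, hp0, hmin⟩ := hcK.exists_isMinOn hne hcont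
    have hw0 : PN z0 w0 = w0 := hp0.1.2
    have hw1 : ‖w0‖ = 1 := hp0.2
    refine ⟨‖wL h (nuP K) PN z0 w0‖, ?_, ?_⟩
    · rw [norm_pos_iff, wL_apply h hkn hp0.1.1 hw0]
      intro h0
      have := H.l0_inj h hp0.1.1 hw0 h0
      rw [this, norm_zero] at hw1
      exact zero_ne_one hw1
    · intro z hz w hw
      rcases eq_or_ne w 0 with rfl | hne'
      · rw [map_zero, norm_zero, norm_zero, mul_zero]
      · have hn : 0 < ‖w‖ := norm_pos_iff.2 hne'
        have hmem : ((z, (‖w‖⁻¹ : ℝ) • w) : (Euc N × Euc N) × Wt N K) ∈ Kc := by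
          refine ⟨⟨hz, ?_⟩, ?_⟩
          · change PN z ((‖w‖⁻¹ : ℝ) • w) = (‖w‖⁻¹ : ℝ) • w
            rw [map_smul, hw]
          · change ‖(‖w‖⁻¹ : ℝ) • w‖ = 1
            rw [norm_smul, norm_inv, norm_norm, inv_mul_cancel₀ hn.ne']
        have h1 := hmin hmem
        change ‖wL h (nuP K) PN z0 w0‖ ≤ ‖wL h (nuP K) PN z ((‖w‖⁻¹ : ℝ) • w)‖ at h1
        rw [map_smul, norm_smul, norm_inv, norm_norm, wL_apply h hkn hz hw] at h1
        rw [← le_div_iff₀ hn, div_eq_inv_mul]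
        exact h1

section dir

variable (h : GT.Bla G k) (H : NegB G (k - 1) (nuP K) δ PN)

include h in
/-- the pairing -/
theorem pairing (hz : z ∈ L.US G) (w : Wt N K) {u : Euc N} (hu : u ∈ GT.Vs G z.1 (qq G z))
    (huv : ⟪u, z.2⟫ = 0) : ⟪u, fd G z (nuP K) w 0⟫ +
      ⟪GT.lf G z.1 (qq G z) u, fd G z (nuP K) w Real.pi⟫ = ⟪u, l0 G z (nuP K) w⟫ :=
  (inner_l0 h hz (nuP K) w (mem_V0.2 ⟨hu, huv⟩)).symm

theorem l0_mem_Vs (w : Wt N K) : l0 G z (nuP K) w ∈ GT.Vs G z.1 (qq G z) :=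
  (mem_V0.1 (l0_mem (nuP K) w)).1

theorem inner_l0_v (w : Wt N K) : ⟪z.2, l0 G z (nuP K) w⟫ = 0 := by
  rw [real_inner_comm]
  exact (mem_V0.1 (l0_mem (nuP K) w)).2


/-- the unit direction -/
def dir (h : GT.Bla G k) (PN : Euc N × Euc N → Wt N K →L[ℝ] Wt N K)
    (p : (Euc N × Euc N) × Wt N K) : Euc N :=
  (‖wL h (nuP K) PN p.1 p.2‖⁻¹ : ℝ) • wL h (nuP K) PN p.1 p.2

include H in
theorem wL_ne (hkn : k < n) (hz : z ∈ L.US G) {w : Wt N K} (hw : PN z w = w) (hw0 : w ≠ 0) :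
    wL h (nuP K) PN z w ≠ 0 := by
  rw [wL_apply h hkn hz hw]
  exact fun h0 => hw0 (H.l0_inj h hz hw h0)

include H in
theorem contDiffAt_dir (hkn : k < n) (hz : z ∈ L.US G) {w : Wt N K} (hw : PN z w = w)
    (hw0 : w ≠ 0) : ContDiffAt ℝ ∞ (dir h PN) (z, w) := by
  have h1 := contDiffAt_wL' h hkn H hz w
  have h2 := wL_ne h H hkn hz hw hw0
  exact ((h1.norm ℝ h2).inv (norm_ne_zero_iff.2 h2)).smul h1

theorem dir_eq (hkn : k < n) (hz : z ∈ L.US G) {w : Wt N K} (hw : PN z w = w) :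
    dir h PN (z, w) = (‖l0 G z (nuP K) w‖⁻¹ : ℝ) • l0 G z (nuP K) w := by
  unfold dir
  change (‖wL h (nuP K) PN z w‖⁻¹ : ℝ) • wL h (nuP K) PN z w = _
  rw [wL_apply h hkn hz hw]

theorem dir_smul {c : ℝ} (hc : 0 < c) (z : Euc N × Euc N) (w : Wt N K) :
    dir h PN (z, c • w) = dir h PN (z, w) := by
  unfold dir
  change (‖wL h (nuP K) PN z (c • w)‖⁻¹ : ℝ) • wL h (nuP K) PN z (c • w) =
    (‖wL h (nuP K) PN z w‖⁻¹ : ℝ) • wL h (nuP K) PN z w
  rw [map_smul, norm_smul, Real.norm_of_nonneg hc.le, smul_smul, mul_inv, mul_comm c⁻¹,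
    mul_assoc, inv_mul_cancel₀ hc.ne', mul_one]

include H in
theorem norm_dir (hkn : k < n) (hz : z ∈ L.US G) {w : Wt N K} (hw : PN z w = w) (hw0 : w ≠ 0) :
    ‖dir h PN (z, w)‖ = 1 := by
  have h2 : ‖wL h (nuP K) PN z w‖ ≠ 0 := norm_ne_zero_iff.2 (wL_ne h H hkn hz hw hw0)
  unfold dir
  change ‖(‖wL h (nuP K) PN z w‖⁻¹ : ℝ) • wL h (nuP K) PN z w‖ = 1
  rw [norm_smul, norm_inv, norm_norm, inv_mul_cancel₀ h2]

theorem dir_mem (hkn : k < n) (hz : z ∈ L.US G) {w : Wt N K} (hw : PN z w = w) :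
    dir h PN (z, w) ∈ GT.Vs G z.1 (qq G z) := by
  rw [dir_eq h hkn hz hw]
  exact Submodule.smul_mem _ _ (l0_mem_Vs w)

theorem inner_dir_v (hkn : k < n) (hz : z ∈ L.US G) {w : Wt N K} (hw : PN z w = w) :
    ⟪z.2, dir h PN (z, w)⟫ = 0 := by
  rw [dir_eq h hkn hz hw, inner_smul_right, inner_l0_v, mul_zero]

include H in
/-- **the pairing with the unit direction** -/
theorem pairing_dir (hkn : k < n) (hz : z ∈ L.US G) {w : Wt N K} (hw : PN z w = w)
    (hw0 : w ≠ 0) : ⟪dir h PN (z, w), fd G z (nuP K) w 0⟫ +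
      ⟪GT.lf G z.1 (qq G z) (dir h PN (z, w)), fd G z (nuP K) w Real.pi⟫ =
        ‖l0 G z (nuP K) w‖ := by
  have h2 : ‖l0 G z (nuP K) w‖ ≠ 0 := by
    have := wL_ne h H hkn hz hw hw0
    rw [wL_apply h hkn hz hw] at this
    exact norm_ne_zero_iff.2 this
  rw [pairing h hz w (dir_mem h hkn hz hw)
    (by rw [real_inner_comm]; exact inner_dir_v h hkn hz hw), dir_eq h hkn hz hw,
    real_inner_smul_left, real_inner_self_eq_norm_sq, pow_two, ← mul_assoc, inv_mul_cancel₀ h2,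
    one_mul]

include H in
/-- **[RRk]**: the hypothesis of the centre theorem, uniformly -/
theorem pairing_ar {κm : ℝ}
    (hκ : ∀ z ∈ L.US G, ∀ w, PN z w = w → κm * ‖w‖ ≤ ‖l0 G z (nuP K) w‖)
    (hkn : k < n) (hz : z ∈ L.US G) {w : Wt N K} (hw : PN z w = w) (hw0 : w ≠ 0) :
    κm * ‖w‖ ≤ ⟪dir h PN (z, w), fd G z (nuP K) w 0⟫ +
      ⟪GT.ar G z.1 (dir h PN (z, w)), fd G z (nuP K) w Real.pi⟫ := by
  have h1 := pairing_dir h H hkn hz hw hw0
  have h2 := h.lf_unit (q := qq G z) (mem_FF h hz) (dir_mem h hkn hz hw)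
    (norm_dir h H hkn hz hw hw0)
  rw [h2] at h1
  rw [h1]
  exact hκ z hz w hw

end dir

end Crest.Agent.R208.RK
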