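import Crest.Agent.R208.IB1
import Crest.Agent.R208.RK1
import Crest.Agent.R208.CM0

-- ▼ part R208/NP1
section

/-! Row 208, block NP (helper537), part NP1: smooth inverse of a smooth family of isomorphisms
between the ranges of two fields of projections. -/

set_option autoImplicit false
set_option linter.unusedSectionVars false
set_option linter.unusedVariables false

open Set Filter Topology Module
open scoped ContDiff RealInnerProductSpace

noncomputable section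

namespace Crest.Agent.R208.NP

variable {E V W : Type*} [NormedAddCommGroup E] [NormedSpace ℝ E]
  [NormedAddCommGroup V] [InnerProductSpace ℝ V] [FiniteDimensional ℝ V]
  [NormedAddCommGroup W] [InnerProductSpace ℝ W] [FiniteDimensional ℝ W]

/-- `L^* L + (1-P)^* (1-P)` -/
def gr (L : V →L[ℝ] W) (P : V →L[ℝ] V) : V →L[ℝ] V :=
  (IB.adjL V W L).comp L + (IB.adjL V V (1 - P)).comp (1 - P)

/-- the inverse of `L : range P → range Q` -/
def invO (L : V →L[ℝ] W) (P : V →L[ℝ] V) (Q : W →L[ℝ] W) : W →L[ℝ] V :=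
  P.comp ((Ring.inverse (gr L P)).comp ((IB.adjL V W L).comp Q))

/-- `L` restricts to an isomorphism `range P → range Q` -/
structure IsoR (L : V →L[ℝ] W) (P : V →L[ℝ] V) (Q : W →L[ℝ] W) : Prop where
  pp : ∀ v, P (P v) = P v
  qq : ∀ w, Q (Q w) = Q w
  lp : ∀ v, L (P v) = L v
  ql : ∀ v, Q (L v) = L v
  inj : ∀ v, P v = v → L v = 0 → v = 0
  surj : ∀ w, Q w = w → ∃ v, P v = v ∧ L v = w

/-- injectivity and equality of ranks are enough -/
theorem IsoR.of {L : V →L[ℝ] W} {P : V →L[ℝ] V} {Q : W →L[ℝ] W} (pp : ∀ v, P (P v) = P v)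
    (qq : ∀ w, Q (Q w) = Q w) (lp : ∀ v, L (P v) = L v) (ql : ∀ v, Q (L v) = L v)
    (inj : ∀ v, P v = v → L v = 0 → v = 0)
    (hr : finrank ℝ (LinearMap.range (P : V →ₗ[ℝ] V)) =
      finrank ℝ (LinearMap.range (Q : W →ₗ[ℝ] W))) : IsoR L P Q where
  pp := pp
  qq := qq
  lp := lp
  ql := ql
  inj := inj
  surj := by
    set R := LinearMap.range (P : V →ₗ[ℝ] V) with hR
    set R' := LinearMap.range (Q : W →ₗ[ℝ] W) with hR'
    have hmR : ∀ v ∈ R, P v = v := by rintro _ ⟨w, rfl⟩; exact pp w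
    let f : R →ₗ[ℝ] R' := LinearMap.codRestrict R' ((L : V →ₗ[ℝ] W).comp R.subtype)
      (fun v => ⟨L v, ql v⟩)
    have hinj : Function.Injective f := by
      rw [injective_iff_map_eq_zero]
      rintro ⟨v, hv⟩ h0
      have h1 : L v = 0 := congrArg Subtype.val h0
      exact Subtype.ext (inj v (hmR v hv) h1)
    intro w hw
    obtain ⟨v, hv⟩ := (LinearMap.injective_iff_surjective_of_finrank_eq_finrank hr).1 hinj
      ⟨w, w, hw⟩
    exact ⟨v, hmR _ v.2, congrArg Subtype.val hv⟩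

variable {L : V →L[ℝ] W} {P : V →L[ℝ] V} {Q : W →L[ℝ] W}

theorem inner_gr (v : V) : ⟪gr L P v, v⟫ = ‖L v‖ ^ 2 + ‖v - P v‖ ^ 2 := by
  have h1 : gr L P v = ContinuousLinearMap.adjoint L (L v) +
    ContinuousLinearMap.adjoint (1 - P) ((1 - P) v) := rfl
  rw [h1, inner_add_left, ContinuousLinearMap.adjoint_inner_left,
    ContinuousLinearMap.adjoint_inner_left, real_inner_self_eq_norm_sq,
    real_inner_self_eq_norm_sq]
  rfl

theorem IsoR.isUnit (h : IsoR L P Q) : IsUnit (gr L P) := by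
  refine IB.isUnit_of_injective ?_
  rw [injective_iff_map_eq_zero]
  intro v hv
  have h1 := inner_gr (L := L) (P := P) v
  rw [hv, inner_zero_left] at h1
  have h2 : ‖L v‖ ^ 2 = 0 := by nlinarith [sq_nonneg ‖L v‖, sq_nonneg ‖v - P v‖]
  have h3 : ‖v - P v‖ ^ 2 = 0 := by nlinarith [sq_nonneg ‖L v‖, sq_nonneg ‖v - P v‖]
  have h4 : L v = 0 := norm_eq_zero.1 (pow_eq_zero_iff two_ne_zero |>.1 h2)
  have h5 : v - P v = 0 := norm_eq_zero.1 (pow_eq_zero_iff two_ne_zero |>.1 h3)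
  exact h.inj v (sub_eq_zero.1 h5).symm h4

theorem ring_inv_apply {T : V →L[ℝ] V} (h : IsUnit T) (v : V) : Ring.inverse T (T v) = v := by
  have h2 := ContinuousLinearMap.ext_iff.1 (Ring.inverse_mul_cancel _ h) v
  exact h2

theorem gr_apply (v : V) (hv : P v = v) : gr L P v = (IB.adjL V W L) (L v) := by
  have h2 : (1 - P) v = 0 := by
    change v - P v = 0
    rw [hv, sub_self]
  have h3 : gr L P v = (IB.adjL V W L) (L v) + (IB.adjL V V (1 - P)) ((1 - P) v) := rfl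
  rw [h3, h2, map_zero, add_zero]

theorem invO_apply (w : W) :
    invO L P Q w = P (Ring.inverse (gr L P) ((IB.adjL V W L) (Q w))) := rfl

theorem IsoR.inv_apply (h : IsoR L P Q) {v : V} (hv : P v = v) : invO L P Q (L v) = v := by
  rw [invO_apply, h.ql, ← gr_apply v hv, ring_inv_apply h.isUnit, hv]

theorem IsoR.p_inv (h : IsoR L P Q) (w : W) : P (invO L P Q w) = invO L P Q w := by
  rw [invO_apply, h.pp]

theorem IsoR.inv_q (h : IsoR L P Q) (w : W) : invO L P Q (Q w) = invO L P Q w := by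
  rw [invO_apply, invO_apply, h.qq]

/-- `L ∘ M = Q` -/
theorem IsoR.l_inv (h : IsoR L P Q) (w : W) : L (invO L P Q w) = Q w := by
  obtain ⟨v, hv, hvw⟩ := h.surj (Q w) (h.qq w)
  rw [← h.inv_q, ← hvw, h.inv_apply hv]


/-- smoothness -/
theorem contDiffAt_invO {L : E → V →L[ℝ] W} {P : E → V →L[ℝ] V} {Q : E → W →L[ℝ] W} {x : E}
    (hL : ContDiffAt ℝ ∞ L x) (hP : ContDiffAt ℝ ∞ P x) (hQ : ContDiffAt ℝ ∞ Q x)
    (h : IsoR (L x) (P x) (Q x)) : ContDiffAt ℝ ∞ (fun y => invO (L y) (P y) (Q y)) x := by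
  have h1 : ContDiffAt ℝ ∞ (fun y => IB.adjL V W (L y)) x :=
    (IB.adjL V W).contDiff.contDiffAt.comp x hL
  have h2 : ContDiffAt ℝ ∞ (fun y => IB.adjL V V (1 - P y)) x :=
    (IB.adjL V V).contDiff.contDiffAt.comp x (contDiffAt_const.sub hP)
  have h3 : ContDiffAt ℝ ∞ (fun y => gr (L y) (P y)) x :=
    (h1.clm_comp hL).add (h2.clm_comp (contDiffAt_const.sub hP))
  obtain ⟨u, hu⟩ := h.isUnit
  have h4 : ContDiffAt ℝ ∞ Ring.inverse (gr (L x) (P x)) := by
    rw [← hu]; exact contDiffAt_ringInverse ℝ u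
  have h5 : ContDiffAt ℝ ∞ (fun y => Ring.inverse (gr (L y) (P y))) x :=
    ContDiffAt.comp x (g := Ring.inverse) h4 h3
  exact hP.clm_comp (h5.clm_comp (h1.clm_comp hQ))

end Crest.Agent.R208.NP
end
end

-- ▼ part R208/FM1

/-! Row 208, block RR (helper566): the F action.  Over `Z = Sph (US G) PN` the unit vector `n`
determines the unit direction `w = dir (z, n) ∈ V_pq ⊖ v`; the circle rotates the oriented plane
`(v, w)`.  `phiF t ((p, v), n) = ((p, cos t v + sin t w), n_t)`, `n_t` the unit vector of the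
negative bundle over the new point with direction `- sin t v + cos t w`. -/

set_option autoImplicit false
set_option linter.unusedSectionVars false
set_option linter.unusedVariables false

open MeasureTheory Set Filter Topology Module
open scoped ContDiff RealInnerProductSpace
open Crest.GeometryTopology.Submanifold
open Crest.Agent.R241.DDefs
open Crest.Agent.R241.D2
open Crest.Agent.R208.NN
open Crest.Agent.R208.GT (bas LM)
open Crest.Agent.R208.FI (Sub)

noncomputable section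

namespace Crest.Agent.R208.FM

open Crest.Agent.R208.NB Crest.Agent.R208.RK

variable {n N k K r dU : ℕ} {κ : ℝ} {S : Set (Euc N)} {G : Geo n N κ S} {z : Euc N × Euc N}
  {δ : ℝ} {PN : Euc N × Euc N → Wt N K →L[ℝ] Wt N K}
  {p : (Euc N × Euc N) × Wt N K} {t : ℝ}

/-! ### definitions -/

/-- the rotated base point -/
def rz (h : GT.Bla G k) (PN : Euc N × Euc N → Wt N K →L[ℝ] Wt N K) (t : ℝ)
    (p : (Euc N × Euc N) × Wt N K) : Euc N × Euc N :=
  (p.1.1, Real.cos t • p.1.2 + Real.sin t • dir h PN p)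

/-- the rotated direction -/
def rw' (h : GT.Bla G k) (PN : Euc N × Euc N → Wt N K →L[ℝ] Wt N K) (t : ℝ)
    (p : (Euc N × Euc N) × Wt N K) : Euc N :=
  (-Real.sin t) • p.1.2 + Real.cos t • dir h PN p

/-- the inverse of `l0 : range PN z → V_pq ⊖ v` -/
def iO (h : GT.Bla G k) (PN : Euc N × Euc N → Wt N K →L[ℝ] Wt N K) (z : Euc N × Euc N) :
    Euc N →L[ℝ] Wt N K :=
  NP.invO (wL h (nuP K) PN z) (PN z) (V0s h z)

/-- vector of the negative bundle over the new point, not normalised -/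
def yt (h : GT.Bla G k) (PN : Euc N × Euc N → Wt N K →L[ℝ] Wt N K) (t : ℝ)
    (p : (Euc N × Euc N) × Wt N K) : Wt N K :=
  iO h PN (rz h PN t p) (rw' h PN t p)

/-- **the F action** -/
def phiF (h : GT.Bla G k) (PN : Euc N × Euc N → Wt N K →L[ℝ] Wt N K) (t : ℝ)
    (p : (Euc N × Euc N) × Wt N K) : (Euc N × Euc N) × Wt N K :=
  (rz h PN t p, (‖yt h PN t p‖⁻¹ : ℝ) • yt h PN t p)

theorem phiF_fst (h : GT.Bla G k) (PN : Euc N × Euc N → Wt N K →L[ℝ] Wt N K) (t : ℝ)
    (p : (Euc N × Euc N) × Wt N K) :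
    (phiF h PN t p).1 = (p.1.1, Real.cos t • p.1.2 + Real.sin t • dir h PN p) := rfl

section main

variable (h : GT.Bla G k) (H : NegB G (k - 1) (nuP K) δ PN)

include H in
theorem isoR (hkn : k < n) (hz : z ∈ L.US G) :
    NP.IsoR (wL h (nuP K) PN z) (PN z) (V0s h z) where
  pp := H.idem z
  qq := V0s_idem h hz
  lp := fun v => by
    rw [wL_eq h hkn hz]
    change l0 G z (nuP K) (PN z (PN z v)) = l0 G z (nuP K) (PN z v)
    rw [H.idem]
  ql := fun v => by
    rw [wL_eq h hkn hz]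
    exact (V0s_eq_self h hz _).2 (l0_mem (nuP K) (PN z v))
  inj := fun v hv h0 => by
    rw [wL_apply h hkn hz hv] at h0
    exact H.l0_inj h hz hv h0
  surj := fun x hx => by
    obtain ⟨w, hw, hwx⟩ := H.l0_bij h hz ((V0s_eq_self h hz x).1 hx)
    exact ⟨w, hw, by rw [wL_apply h hkn hz hw, hwx]⟩

include H in
theorem contDiffAt_iO (hkn : k < n) (hz : z ∈ L.US G) : ContDiffAt ℝ ∞ (iO h PN) z :=
  NP.contDiffAt_invO (contDiffAt_wL h hkn H hz) (H.smooth z hz) (contDiffAt_V0s h hz.1)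
    (isoR h H hkn hz)

/-- directions of the points of the sphere bundle -/
theorem ne_zero_of (hp : p ∈ T.Sph (L.US G) PN) : p.2 ≠ 0 := fun h0 => by
  have := hp.2
  rw [h0, norm_zero] at this
  exact zero_ne_one this

include H in
theorem norm_dir' (hkn : k < n) (hp : p ∈ T.Sph (L.US G) PN) : ‖dir h PN p‖ = 1 :=
  norm_dir h H hkn hp.1.1 hp.1.2 (ne_zero_of hp)

include H in
theorem norm_comb (hkn : k < n) (hp : p ∈ T.Sph (L.US G) PN) (a b : ℝ) :
    ‖a • p.1.2 + b • dir h PN p‖ ^ 2 = a ^ 2 + b ^ 2 := by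
  have h1 : ‖dir h PN p‖ = 1 := norm_dir' h H hkn hp
  have h2 : ‖p.1.2‖ = 1 := hp.1.1.2
  have h3 : ⟪p.1.2, dir h PN p⟫ = 0 := inner_dir_v h hkn hp.1.1 hp.1.2
  rw [norm_add_sq_real, norm_smul, norm_smul, real_inner_smul_left, real_inner_smul_right, h1, h2,
    h3, mul_one, mul_one, Real.norm_eq_abs, Real.norm_eq_abs, sq_abs, sq_abs]
  ring

include H in
theorem inner_comb (hkn : k < n) (hp : p ∈ T.Sph (L.US G) PN) (a b c d : ℝ) :
    ⟪a • p.1.2 + b • dir h PN p, c • p.1.2 + d • dir h PN p⟫ = a * c + b * d := by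
  have h1 : ⟪dir h PN p, dir h PN p⟫ = (1 : ℝ) := by
    rw [real_inner_self_eq_norm_sq, norm_dir' h H hkn hp]; norm_num
  have h2 : ⟪p.1.2, p.1.2⟫ = (1 : ℝ) := by
    rw [real_inner_self_eq_norm_sq, hp.1.1.2]; norm_num
  have h3 : ⟪p.1.2, dir h PN p⟫ = 0 := inner_dir_v h hkn hp.1.1 hp.1.2
  have h4 : ⟪dir h PN p, p.1.2⟫ = 0 := by rw [real_inner_comm]; exact h3
  simp only [inner_add_left, inner_add_right, real_inner_smul_left, real_inner_smul_right, h1, h2,
    h3, h4]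
  ring

theorem comb_mem (hkn : k < n) (hp : p ∈ T.Sph (L.US G) PN) (a b : ℝ) :
    a • p.1.2 + b • dir h PN p ∈ GT.Vs G p.1.1 (qq G p.1) :=
  Submodule.add_mem _ (Submodule.smul_mem _ _ (mem_Vs hp.1.1))
    (Submodule.smul_mem _ _ (dir_mem h hkn hp.1.1 hp.1.2))

include H in
theorem norm_rz (hkn : k < n) (hp : p ∈ T.Sph (L.US G) PN) (t : ℝ) :
    ‖Real.cos t • p.1.2 + Real.sin t • dir h PN p‖ = 1 := by
  have h1 := norm_comb h H hkn hp (Real.cos t) (Real.sin t)
  rw [Real.cos_sq_add_sin_sq] at h1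
  have h2 : 0 ≤ ‖Real.cos t • p.1.2 + Real.sin t • dir h PN p‖ := norm_nonneg _
  nlinarith

include H in
theorem norm_rw (hkn : k < n) (hp : p ∈ T.Sph (L.US G) PN) (t : ℝ) : ‖rw' h PN t p‖ = 1 := by
  have h1 := norm_comb h H hkn hp (-Real.sin t) (Real.cos t)
  have h3 : (-Real.sin t) ^ 2 + Real.cos t ^ 2 = 1 := by
    rw [neg_sq, Real.sin_sq_add_cos_sq]
  rw [h3] at h1
  have h2 : 0 ≤ ‖rw' h PN t p‖ := norm_nonneg _
  change ‖rw' h PN t p‖ ^ 2 = 1 at h1
  nlinarith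

include H in
theorem rz_mem (hkn : k < n) (hp : p ∈ T.Sph (L.US G) PN) (t : ℝ) :
    rz h PN t p ∈ L.US G ∧ qq G (rz h PN t p) = qq G p.1 := by
  have hF := mem_FF h hp.1.1
  have h1 := comb_mem h hkn hp (Real.cos t) (Real.sin t)
  have h2 := norm_rz h H hkn hp t
  have h3 : rz h PN t p ∈ L.US G := ⟨⟨hp.1.1.1.1, h.Vs_le (q := qq G p.1) hF h1⟩, h2⟩
  refine ⟨h3, ?_⟩
  change (fl G (rz h PN t p, Real.pi)).1 = _
  rw [phi_pi h3]
  exact h.Exp_pi (q := qq G p.1) hF h1 h2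

include H in
theorem rw_mem (hkn : k < n) (hp : p ∈ T.Sph (L.US G) PN) (t : ℝ) :
    rw' h PN t p ∈ V0 G (rz h PN t p) := by
  rw [mem_V0, (rz_mem h H hkn hp t).2]
  refine ⟨comb_mem h hkn hp _ _, ?_⟩
  change ⟪(-Real.sin t) • p.1.2 + Real.cos t • dir h PN p,
    Real.cos t • p.1.2 + Real.sin t • dir h PN p⟫ = 0
  rw [inner_comb h H hkn hp]
  ring

include H in
theorem yt_spec (hkn : k < n) (hp : p ∈ T.Sph (L.US G) PN) (t : ℝ) :
    PN (rz h PN t p) (yt h PN t p) = yt h PN t p ∧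
      wL h (nuP K) PN (rz h PN t p) (yt h PN t p) = rw' h PN t p ∧ yt h PN t p ≠ 0 := by
  have hz := (rz_mem h H hkn hp t).1
  have hi := isoR h H hkn hz
  have h1 : wL h (nuP K) PN (rz h PN t p) (yt h PN t p) = rw' h PN t p := by
    have := hi.l_inv (rw' h PN t p)
    rw [(V0s_eq_self h hz _).2 (rw_mem h H hkn hp t)] at this
    exact this
  refine ⟨hi.p_inv _, h1, fun h0 => ?_⟩
  rw [h0, map_zero] at h1
  have := norm_rw h H hkn hp t
  rw [← h1, norm_zero] at this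
  exact zero_ne_one this

include H in
theorem phiF_mem (hkn : k < n) (hp : p ∈ T.Sph (L.US G) PN) (t : ℝ) :
    phiF h PN t p ∈ T.Sph (L.US G) PN := by
  obtain ⟨h1, h2, h3⟩ := yt_spec h H hkn hp t
  refine ⟨⟨(rz_mem h H hkn hp t).1, ?_⟩, ?_⟩
  · change PN (rz h PN t p) ((‖yt h PN t p‖⁻¹ : ℝ) • yt h PN t p) = _
    rw [map_smul, h1]
    rfl
  · change ‖(‖yt h PN t p‖⁻¹ : ℝ) • yt h PN t p‖ = 1
    rw [norm_smul, norm_inv, norm_norm, inv_mul_cancel₀ (norm_ne_zero_iff.2 h3)]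

include H in
/-- **the new direction** -/
theorem dir_phiF (hkn : k < n) (hp : p ∈ T.Sph (L.US G) PN) (t : ℝ) :
    dir h PN (phiF h PN t p) = (-Real.sin t) • p.1.2 + Real.cos t • dir h PN p := by
  obtain ⟨h1, h2, h3⟩ := yt_spec h H hkn hp t
  have h4 : (0 : ℝ) < ‖yt h PN t p‖⁻¹ := inv_pos.2 (norm_pos_iff.2 h3)
  change dir h PN (rz h PN t p, (‖yt h PN t p‖⁻¹ : ℝ) • yt h PN t p) = _
  rw [dir_smul h h4]
  change (‖wL h (nuP K) PN (rz h PN t p) (yt h PN t p)‖⁻¹ : ℝ) •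
    wL h (nuP K) PN (rz h PN t p) (yt h PN t p) = _
  rw [h2, norm_rw h H hkn hp t, inv_one, one_smul]
  rfl

include H in
/-- a point of the sphere bundle is determined by the base point and the direction -/
theorem ext_dir (hkn : k < n) {p p' : (Euc N × Euc N) × Wt N K} (hp : p ∈ T.Sph (L.US G) PN)
    (hp' : p' ∈ T.Sph (L.US G) PN) (h1 : p.1 = p'.1) (h2 : dir h PN p = dir h PN p') :
    p = p' := by
  obtain ⟨z, x⟩ := p
  obtain ⟨z', x'⟩ := p'
  obtain rfl : z = z' := h1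
  have hz : z ∈ L.US G := hp.1.1
  have hx : PN z x = x := hp.1.2
  have hx' : PN z x' = x' := hp'.1.2
  have n1 : ‖x‖ = 1 := hp.2
  have n1' : ‖x'‖ = 1 := hp'.2
  have w1 : wL h (nuP K) PN z x ≠ 0 := wL_ne h H hkn hz hx (ne_zero_of hp)
  have w1' : wL h (nuP K) PN z x' ≠ 0 := wL_ne h H hkn hz hx' (ne_zero_of hp')
  set a := ‖wL h (nuP K) PN z x‖⁻¹ with ha
  set a' := ‖wL h (nuP K) PN z x'‖⁻¹ with ha'
  have a0 : 0 < a := inv_pos.2 (norm_pos_iff.2 w1)
  have a0' : 0 < a' := inv_pos.2 (norm_pos_iff.2 w1')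
  have e1 : a • wL h (nuP K) PN z x = a' • wL h (nuP K) PN z x' := h2
  have e2 : a • x - a' • x' = 0 := by
    refine (isoR h H hkn hz).inj _ (by rw [map_sub, map_smul, map_smul, hx, hx']) ?_
    rw [map_sub, map_smul, map_smul, e1, sub_self]
  have e3 : a • x = a' • x' := sub_eq_zero.1 e2
  have e4 : a = a' := by
    have := congrArg norm e3
    rwa [norm_smul, norm_smul, n1, n1', mul_one, mul_one, Real.norm_of_nonneg a0.le,
      Real.norm_of_nonneg a0'.le] at this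
  rw [← e4] at e3
  have e5 : x = x' := smul_right_injective _ a0.ne' e3
  rw [e5]

/-! ### smoothness -/

include H in
theorem contDiffAt_rz (hkn : k < n) (hp : p ∈ T.Sph (L.US G) PN) (t : ℝ) :
    ContDiffAt ℝ ∞ (fun q : ℝ × ((Euc N × Euc N) × Wt N K) => rz h PN q.1 q.2) (t, p) := by
  have hd : ContDiffAt ℝ ∞ (dir h PN) p := contDiffAt_dir h H hkn hp.1.1 hp.1.2 (ne_zero_of hp)
  have hd' : ContDiffAt ℝ ∞ (fun q : ℝ × ((Euc N × Euc N) × Wt N K) => dir h PN q.2) (t, p) :=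
    ContDiffAt.comp (t, p) (g := dir h PN) hd contDiffAt_snd
  have hc : ContDiffAt ℝ ∞ (fun q : ℝ × ((Euc N × Euc N) × Wt N K) => Real.cos q.1) (t, p) :=
    (Real.contDiff_cos.comp contDiff_fst).contDiffAt
  have hs : ContDiffAt ℝ ∞ (fun q : ℝ × ((Euc N × Euc N) × Wt N K) => Real.sin q.1) (t, p) :=
    (Real.contDiff_sin.comp contDiff_fst).contDiffAt
  have h1 : ContDiffAt ℝ ∞ (fun q : ℝ × ((Euc N × Euc N) × Wt N K) => q.2.1.1) (t, p) :=
    (contDiff_fst.comp (contDiff_fst.comp contDiff_snd)).contDiffAt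
  have h2 : ContDiffAt ℝ ∞ (fun q : ℝ × ((Euc N × Euc N) × Wt N K) => q.2.1.2) (t, p) :=
    (contDiff_snd.comp (contDiff_fst.comp contDiff_snd)).contDiffAt
  exact h1.prodMk ((hc.smul h2).add (hs.smul hd'))

include H in
theorem contDiffAt_rw (hkn : k < n) (hp : p ∈ T.Sph (L.US G) PN) (t : ℝ) :
    ContDiffAt ℝ ∞ (fun q : ℝ × ((Euc N × Euc N) × Wt N K) => rw' h PN q.1 q.2) (t, p) := by
  have hd : ContDiffAt ℝ ∞ (dir h PN) p := contDiffAt_dir h H hkn hp.1.1 hp.1.2 (ne_zero_of hp)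
  have hd' : ContDiffAt ℝ ∞ (fun q : ℝ × ((Euc N × Euc N) × Wt N K) => dir h PN q.2) (t, p) :=
    ContDiffAt.comp (t, p) (g := dir h PN) hd contDiffAt_snd
  have hc : ContDiffAt ℝ ∞ (fun q : ℝ × ((Euc N × Euc N) × Wt N K) => Real.cos q.1) (t, p) :=
    (Real.contDiff_cos.comp contDiff_fst).contDiffAt
  have hs : ContDiffAt ℝ ∞ (fun q : ℝ × ((Euc N × Euc N) × Wt N K) => Real.sin q.1) (t, p) :=
    (Real.contDiff_sin.comp contDiff_fst).contDiffAt
  have h2 : ContDiffAt ℝ ∞ (fun q : ℝ × ((Euc N × Euc N) × Wt N K) => q.2.1.2) (t, p) :=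
    (contDiff_snd.comp (contDiff_fst.comp contDiff_snd)).contDiffAt
  exact (hs.neg.smul h2).add (hc.smul hd')

include H in
theorem contDiffAt_yt (hkn : k < n) (hp : p ∈ T.Sph (L.US G) PN) (t : ℝ) :
    ContDiffAt ℝ ∞ (fun q : ℝ × ((Euc N × Euc N) × Wt N K) => yt h PN q.1 q.2) (t, p) := by
  have hi : ContDiffAt ℝ ∞ (iO h PN) (rz h PN t p) :=
    contDiffAt_iO h H hkn (rz_mem h H hkn hp t).1
  have h1 : ContDiffAt ℝ ∞ (fun q : ℝ × ((Euc N × Euc N) × Wt N K) => iO h PN (rz h PN q.1 q.2))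
      (t, p) :=
    ContDiffAt.comp (t, p) (g := iO h PN) hi (contDiffAt_rz h H hkn hp t)
  exact h1.clm_apply (contDiffAt_rw h H hkn hp t)

include H in
theorem contDiffAt_phiF (hkn : k < n) (hp : p ∈ T.Sph (L.US G) PN) (t : ℝ) :
    ContDiffAt ℝ ∞ (fun q : ℝ × ((Euc N × Euc N) × Wt N K) => phiF h PN q.1 q.2) (t, p) := by
  have h1 := contDiffAt_yt h H hkn hp t
  have h2 : yt h PN t p ≠ 0 := (yt_spec h H hkn hp t).2.2
  have h3 : ContDiffAt ℝ ∞ (fun q : ℝ × ((Euc N × Euc N) × Wt N K) => ‖yt h PN q.1 q.2‖) (t, p) :=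
    h1.norm ℝ h2
  have h4 : ContDiffAt ℝ ∞ (fun q : ℝ × ((Euc N × Euc N) × Wt N K) => ‖yt h PN q.1 q.2‖⁻¹) (t, p) :=
    h3.inv (norm_ne_zero_iff.2 h2)
  exact (contDiffAt_rz h H hkn hp t).prodMk (h4.smul h1)

/-! ### the action -/

include H in
/-- **the F action is a free circle action on `Sph (US G) PN`** -/
theorem cir_phiF (hkn : k < n) : CM.Cir (T.Sph (L.US G) PN) (phiF h PN) where
  smooth := fun t x hx => contDiffAt_phiF h H hkn hx t
  maps := fun t x hx => phiF_mem h H hkn hx t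
  zero := fun x hx => by
    refine ext_dir h H hkn (phiF_mem h H hkn hx 0) hx ?_ ?_
    · rw [phiF_fst, Real.cos_zero, Real.sin_zero, one_smul, zero_smul, add_zero]
    · rw [dir_phiF h H hkn hx, Real.cos_zero, Real.sin_zero, one_smul, neg_zero, zero_smul,
        zero_add]
  add := fun s t x hx => by
    have hy := phiF_mem h H hkn hx t
    refine ext_dir h H hkn (phiF_mem h H hkn hx (s + t)) (phiF_mem h H hkn hy s) ?_ ?_
    · rw [phiF_fst, phiF_fst, dir_phiF h H hkn hx t]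
      refine Prod.ext rfl ?_
      change Real.cos (s + t) • x.1.2 + Real.sin (s + t) • dir h PN x =
        Real.cos s • (Real.cos t • x.1.2 + Real.sin t • dir h PN x) +
          Real.sin s • ((-Real.sin t) • x.1.2 + Real.cos t • dir h PN x)
      rw [Real.cos_add, Real.sin_add]
      module
    · rw [dir_phiF h H hkn hx, dir_phiF h H hkn hy, dir_phiF h H hkn hx t]
      change (-Real.sin (s + t)) • x.1.2 + Real.cos (s + t) • dir h PN x =
        (-Real.sin s) • (Real.cos t • x.1.2 + Real.sin t • dir h PN x) +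
          Real.cos s • ((-Real.sin t) • x.1.2 + Real.cos t • dir h PN x)
      rw [Real.cos_add, Real.sin_add]
      module
  per := fun x hx => by
    refine ext_dir h H hkn (phiF_mem h H hkn hx _) hx ?_ ?_
    · rw [phiF_fst, Real.cos_two_pi, Real.sin_two_pi, one_smul, zero_smul, add_zero]
    · rw [dir_phiF h H hkn hx, Real.cos_two_pi, Real.sin_two_pi, one_smul, neg_zero, zero_smul,
        zero_add]
  free := fun t x hx h0 => by
    have h1 : Real.cos t • x.1.2 + Real.sin t • dir h PN x = x.1.2 :=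
      congrArg (fun p : (Euc N × Euc N) × Wt N K => p.1.2) h0
    have h2 := inner_comb h H hkn hx (Real.cos t) (Real.sin t) 1 0
    rw [h1, one_smul, zero_smul, add_zero, real_inner_self_eq_norm_sq, hx.1.1.2, one_pow,
      mul_one, mul_zero, add_zero] at h2
    obtain ⟨m, hm⟩ := (Real.cos_eq_one_iff t).1 h2.symm
    exact ⟨m, by rw [← hm]; ring⟩


end main

end Crest.Agent.R208.FM
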