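import Crest.Agent.R208.GT1
import Crest.Agent.R208.MS1
import Crest.Agent.R208.CG4

-- ▼ part R208/RE1
section

/-!
Row 208, block RR, piece [RRe] (helper99), part 1: first variation + centres.

`p, q` at distance `π`, `v ⟂ w` unit vectors of `V_pq`, `γ t = fl (p, v) t`, and a deformation
`Y ε t = γ t + ε n t + O(ε²)` of the closed geodesic with
`0 < ⟪w, n 0⟫ + ⟪ar p w, n π⟫`.  Then for small `ε > 0` every point of the curve
`τ ↦ Exp_p ((1 - τ) a + τ (π/2) w)` (`a = ε n 0 + O(ε²)`) has distance `< π` from every `Y ε t`.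
-/

set_option autoImplicit false

open Set Filter Topology Metric
open scoped ContDiff RealInnerProductSpace
open Crest.GeometryTopology.Submanifold
open Crest.Agent.R241.DDefs
open Crest.Agent.R241.D2
open Crest.Agent.R208.GT

noncomputable section

namespace Crest.Agent.R208.RE

variable {n N k : ℕ} {κ : ℝ} {S : Set (Euc N)} {G : Geo n N κ S} {p q v w : Euc N}

/-- distance of a point of the ray `w` and a point of the ray `v` (both from `p` to `q`) -/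
theorem dist_rays_lt (h : Bla G k) (hz : (p, q) ∈ FF S) (hv : v ∈ Vs G p q) (hv1 : ‖v‖ = 1)
    (hw : w ∈ Vs G p q) (hw1 : ‖w‖ = 1) (hvw : ⟪v, w⟫ = 0) {ρ t : ℝ} (hρ0 : 0 ≤ ρ)
    (hρ : ρ < Real.pi) (ht0 : 0 ≤ t) (ht : t ≤ Real.pi) (hne : ρ ≠ 0 ∨ t ≠ Real.pi) :
    intrinsicDist S (Exp G p (ρ • w)) (Exp G p (t • v)) < Real.pi := by
  have hpS := hz.1
  have hqS : q ∈ S := hz.2.1
  have hvT := h.Vs_le hz hv
  have hwT := h.Vs_le hz hw
  have hvq := h.Exp_pi hz hv hv1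
  have hwq := h.Exp_pi hz hw hw1
  have hx : Exp G p (ρ • w) ∈ S := Exp_mem G hpS ((G.T p).smul_mem _ hwT)
  have hy : Exp G p (t • v) ∈ S := Exp_mem G hpS ((G.T p).smul_mem _ hvT)
  have d1 : intrinsicDist S p (Exp G p (ρ • w)) = ρ := by
    have := h.bl.dist_ray hpS hwT hw1 (s := 0) (t := ρ) hρ0 (by linarith)
    rwa [zero_smul, Exp_zero G hpS, sub_zero] at this
  have d2 : intrinsicDist S p (Exp G p (t • v)) = t := by
    have := h.bl.dist_ray hpS hvT hv1 (s := 0) (t := t) ht0 (by linarith)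
    rwa [zero_smul, Exp_zero G hpS, sub_zero] at this
  have d3 : intrinsicDist S (Exp G p (ρ • w)) q = Real.pi - ρ := by
    have := h.bl.dist_ray hpS hwT hw1 (s := ρ) (t := Real.pi) hρ.le (by linarith)
    rwa [hwq] at this
  have d4 : intrinsicDist S (Exp G p (t • v)) q = Real.pi - t := by
    have := h.bl.dist_ray hpS hvT hv1 (s := t) (t := Real.pi) ht (by linarith)
    rwa [hvq] at this
  have t1 := I.tri h.bl hx hpS hy
  rw [intrinsicDist_comm S (Exp G p (ρ • w)) p, d1, d2] at t1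
  have t2 := I.tri h.bl hx hqS hy
  rw [intrinsicDist_comm S q (Exp G p (t • v)), d3, d4] at t2
  rcases lt_trichotomy (ρ + t) Real.pi with hlt | heq | hgt
  · exact t1.trans_lt hlt
  · by_contra hcon
    rw [not_lt] at hcon
    have hρpos : 0 < ρ := by
      rcases hne with h1 | h1
      · exact lt_of_le_of_ne hρ0 (Ne.symm h1)
      · rcases lt_or_eq_of_le ht with h2 | h2
        · linarith
        · exact absurd h2 h1
    have htpos : 0 < t := by linarith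
    have := h.bl.no_corner hpS hwT hvT hw1 hv1 hρpos htpos hρ.le ht (by rw [heq]; exact hcon)
    rw [this, inner_neg_left, real_inner_self_eq_norm_sq, hw1] at hvw
    norm_num at hvw
  · exact t2.trans_lt (by linarith)

end Crest.Agent.R208.RE
end
end

-- ▼ part R208/RE2
section

/-!
Row 208, block RR, piece [RRe] (helper99), part 2: the far region and the two first order bounds.
-/

set_option autoImplicit false

open Set Filter Topology Metric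
open scoped ContDiff RealInnerProductSpace
open Crest.GeometryTopology.Submanifold
open Crest.Agent.R241.DDefs
open Crest.Agent.R241.D2
open Crest.Agent.R208.GT

noncomputable section

namespace Crest.Agent.R208.RE

variable {n N k : ℕ} {κ : ℝ} {S : Set (Euc N)} {G : Geo n N κ S} {p q v w : Euc N}

lemma sq2 (a b : ℝ) : (a + b) ^ 2 ≤ 2 * (a ^ 2 + b ^ 2) := by nlinarith [sq_nonneg (a - b)]

lemma sq3 (a b c : ℝ) : (a + b + c) ^ 2 ≤ 3 * (a ^ 2 + b ^ 2 + c ^ 2) := by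
  nlinarith [sq_nonneg (a - b), sq_nonneg (a - c), sq_nonneg (b - c)]

lemma continuous_ray (hp : p ∈ S) (hv : v ∈ G.T p) : Continuous fun t : ℝ => Exp G p (t • v) := by
  rw [continuous_iff_continuousAt]
  intro t
  have h1 : ContinuousAt (Exp G p) (t • v) :=
    (R241.D3c.contDiffAt_Exp' G hp ((G.T p).smul_mem _ hv)).continuousAt
  exact h1.comp (f := fun t : ℝ => t • v) (continuous_id.smul continuous_const).continuousAt

/-- beyond the antipode the closed geodesic is the ray `-v` -/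
lemma Exp_back (h : Bla G k) (hp : p ∈ S) (hv : v ∈ G.T p) (hv1 : ‖v‖ = 1) (t : ℝ) :
    Exp G p (t • v) = Exp G p ((2 * Real.pi - t) • (-v)) := by
  have hz : ((p, v) : Euc N × Euc N) ∈ TS G := ⟨hp, hv⟩
  have h1 : Exp G p (t • v) = Exp G p ((t - 2 * Real.pi) • v) := by
    rw [Exp_smul G hp hv, Exp_smul G hp hv]
    have h2 : fl G ((p, v), t) = fl G (fl G ((p, v), 2 * Real.pi), t - 2 * Real.pi) := by
      rw [← fl_add' G hz]; congr 2; ring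
    rw [h2, h.ty.per (p, v) hz hv1]
  rw [h1]
  congr 1
  rw [smul_neg, ← neg_smul]
  congr 1
  ring

/-- the far region -/
theorem far (h : Bla G k) (hz : (p, q) ∈ FF S) (hv : v ∈ Vs G p q) (hv1 : ‖v‖ = 1)
    (hw : w ∈ Vs G p q) (hw1 : ‖w‖ = 1) (hvw : ⟪v, w⟫ = 0) {r : ℝ} (hr : 0 < r) :
    ∃ δ : ℝ, 0 < δ ∧ ∀ ρ ∈ Icc (0 : ℝ) (Real.pi / 2), ∀ t ∈ Icc (0 : ℝ) (2 * Real.pi),
      (r ≤ ρ ∨ r ≤ |t - Real.pi|) →
      intrinsicDist S (Exp G p (ρ • w)) (Exp G p (t • v)) ≤ Real.pi - δ := by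
  have hvT := h.Vs_le hz hv
  have hwT := h.Vs_le hz hw
  have hpi := Real.pi_pos
  set K : Set (ℝ × ℝ) := (Icc (0 : ℝ) (Real.pi / 2) ×ˢ Icc (0 : ℝ) (2 * Real.pi)) ∩
    {z | r ≤ z.1 ∨ r ≤ |z.2 - Real.pi|} with hK
  have hKc : IsCompact K := by
    refine (isCompact_Icc.prod isCompact_Icc).inter_right ?_
    have h1 : IsClosed {z : ℝ × ℝ | r ≤ z.1} := isClosed_le continuous_const continuous_fst
    have h2 : IsClosed {z : ℝ × ℝ | r ≤ |z.2 - Real.pi|} :=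
      isClosed_le continuous_const (continuous_snd.sub continuous_const).abs
    exact h1.union h2
  have hcont : ContinuousOn (fun z : ℝ × ℝ =>
      intrinsicDist S (Exp G p (z.1 • w)) (Exp G p (z.2 • v))) K := by
    have h1 := continuousOn_intrinsicDist h.bl.sub h.bl.cpt h.bl.conn
    refine h1.comp (f := fun z : ℝ × ℝ => (Exp G p (z.1 • w), Exp G p (z.2 • v))) ?_ ?_
    · exact (((continuous_ray hz.1 hwT).comp continuous_fst).prodMk
        ((continuous_ray hz.1 hvT).comp continuous_snd)).continuousOn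
    · intro z _
      exact ⟨Exp_mem G hz.1 ((G.T p).smul_mem _ hwT), Exp_mem G hz.1 ((G.T p).smul_mem _ hvT)⟩
  have hlt : ∀ z ∈ K, intrinsicDist S (Exp G p (z.1 • w)) (Exp G p (z.2 • v)) < Real.pi := by
    rintro ⟨ρ, t⟩ ⟨⟨⟨h1, h2⟩, ⟨h3, h4⟩⟩, h5⟩
    simp only [mem_ofPred_eq] at h1 h2 h3 h4 h5 ⊢
    rcases le_total t Real.pi with ht | ht
    · refine dist_rays_lt h hz hv hv1 hw hw1 hvw h1 (by linarith) h3 ht ?_
      rcases h5 with h5 | h5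
      · exact Or.inl (by linarith)
      · refine Or.inr fun h6 => ?_
        rw [h6, sub_self, abs_zero] at h5
        linarith
    · rw [Exp_back h hz.1 hvT hv1]
      refine dist_rays_lt h hz ((Vs G p q).neg_mem hv) (by rw [norm_neg, hv1]) hw hw1
        (by rw [inner_neg_left, hvw, neg_zero]) h1 (by linarith) (by linarith) (by linarith) ?_
      rcases h5 with h5 | h5
      · exact Or.inl (by linarith)
      · refine Or.inr fun h6 => ?_
        have : t - Real.pi = 0 := by linarith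
        rw [this, abs_zero] at h5
        linarith
  rcases K.eq_empty_or_nonempty with he | hne
  · refine ⟨1, one_pos, fun ρ hρ t ht hc => ?_⟩
    have : ((ρ, t) : ℝ × ℝ) ∈ K := ⟨⟨hρ, ht⟩, hc⟩
    rw [he] at this
    exact this.elim
  · obtain ⟨z0, hz0, hmax⟩ := hKc.exists_isMaxOn hne hcont
    refine ⟨Real.pi - intrinsicDist S (Exp G p (z0.1 • w)) (Exp G p (z0.2 • v)), ?_,
      fun ρ hρ t ht hc => ?_⟩
    · have := hlt z0 hz0
      linarith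
    · have h1 : ((ρ, t) : ℝ × ℝ) ∈ K := ⟨⟨hρ, ht⟩, hc⟩
      have h2 := hmax h1
      simp only [mem_ofPred_eq] at h2
      linarith

/-- arrival velocity in terms of `ar` -/
lemma snd_fl : (fl G ((p, v), Real.pi)).2 = -ar G p v := by rw [ar, neg_neg]

lemma ar_neg (h : Bla G k) (hz : (p, q) ∈ FF S) (hv : v ∈ Vs G p q) (hv1 : ‖v‖ = 1) :
    ar G p (-v) = -ar G p v := by
  rw [← h.lf_unit hz hv hv1, ← h.lf_unit hz ((Vs G p q).neg_mem hv) (by rw [norm_neg, hv1]),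
    map_neg]

set_option maxHeartbeats 1000000 in
/-- the two first order bounds, with a uniform constant -/
theorem bounds_unif (h : Bla G k) {C : ℝ} (hC : 0 ≤ C) :
    ∃ M : ℝ, 0 < M ∧ ∀ p q v w : Euc N, (p, q) ∈ FF S → v ∈ Vs G p q → ‖v‖ = 1 →
      w ∈ Vs G p q → ‖w‖ = 1 → ⟪v, w⟫ = 0 → ∀ n0 nπ : Euc N, ‖n0‖ ≤ C → ‖nπ‖ ≤ C →
      ∀ ε ∈ Icc (0 : ℝ) 1, ∀ a ∈ G.T p, ‖a - ε • n0‖ ≤ C * ε ^ 2 →
      ∀ τ ∈ Icc (0 : ℝ) 1, ∀ t ∈ Icc (0 : ℝ) (2 * Real.pi), ∀ nt y : Euc N, y ∈ S →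
      ‖nt - nπ‖ ≤ C * |t - Real.pi| → ‖y - Exp G p (t • v) - ε • nt‖ ≤ C * ε ^ 2 →
      intrinsicDist S (Exp G p ((1 - τ) • a + (τ * (Real.pi / 2)) • w)) y ≤
        Real.pi - ε * (⟪w, n0⟫ + ⟪ar G p w, nπ⟫) - τ * (Real.pi / 2) +
          M * (ε ^ 2 + (τ * (Real.pi / 2)) ^ 2 + (t - Real.pi) ^ 2) ∧
      intrinsicDist S (Exp G p ((1 - τ) • a + (τ * (Real.pi / 2)) • w)) y ≤
        Real.pi - |t - Real.pi| + M * ε +
          M * (ε ^ 2 + (τ * (Real.pi / 2)) ^ 2 + (t - Real.pi) ^ 2) := by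
  have hpi := Real.pi_pos
  have hpi3 := Real.pi_gt_three
  have hpi4 := Real.pi_lt_d2
  obtain ⟨K, hK, hfv⟩ := I.first_variation h.bl (I.hr_of_bl h.bl)
  obtain ⟨K1, hK1, hII⟩ := MS.exists_II_bound (G := G) h.bl.cpt
  have hK1' : 0 ≤ K1 := zero_le_one.trans hK1
  have hrem := fun (x : Euc N) (hx : x ∈ S) (u : Euc N) (hu : u ∈ G.T x) =>
    MS.norm_Exp_sub hII hK1' hx hu
  -- the constants
  set B : ℝ := 2 * C + 2 with hB
  set c1 : ℝ := (2 + 2 * K1 ^ 2 * B ^ 2) * (8 * C ^ 2 + 2) with hc1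
  set B2 : ℝ := 2 * C + K1 with hB2
  set c2 : ℝ := 3 * (1 + C ^ 2 + 11 * B2 ^ 2) with hc2
  set c0 : ℝ := K1 * (8 * C ^ 2 + 2) with hc0
  have hc0p : 0 ≤ c0 := by positivity
  have hc1p : 0 ≤ c1 := by positivity
  have hc2p : 0 ≤ c2 := by positivity
  have hB2p : 0 ≤ B2 := by positivity
  clear_value B c1 B2 c2 c0
  refine ⟨K * (c1 + c2) + c0 + B2 + 3 * C + 1, by positivity, ?_⟩
  intro p q v w hz hv hv1 hw hw1 hvw n0 nπ hn0 hnπ ε hε a ha haε τ hτ t ht nt y hy hnt hyt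
  have hpS := hz.1
  have hvT := h.Vs_le hz hv
  have hwT := h.Vs_le hz hw
  obtain ⟨hε0, hε1⟩ := hε
  obtain ⟨hτ0, hτ1⟩ := hτ
  obtain ⟨ht0, ht2⟩ := ht
  set ρ : ℝ := τ * (Real.pi / 2) with hρ
  set σ : ℝ := t - Real.pi with hσ
  have hρ0 : 0 ≤ ρ := by positivity
  clear_value ρ σ
  have hτρ : τ ≤ ρ := by
    rw [hρ]
    exact le_mul_of_one_le_right hτ0 (by linarith)
  have hρ2 : ρ ≤ 2 := by
    rw [hρ]
    calc τ * (Real.pi / 2) ≤ 1 * (Real.pi / 2) := by gcongr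
      _ ≤ 2 := by linarith
  have hσpi : |σ| ≤ Real.pi := by rw [abs_le]; constructor <;> linarith
  have hσ2 : σ ^ 2 ≤ 10 := by
    have h1 : σ ^ 2 ≤ Real.pi ^ 2 := by rw [← sq_abs]; gcongr
    nlinarith
  have hεε : ε ^ 2 ≤ ε := by nlinarith
  have haC : ‖a‖ ≤ 2 * C * ε := by
    calc ‖a‖ = ‖(a - ε • n0) + ε • n0‖ := by congr 1; abel
      _ ≤ C * ε ^ 2 + ε * C := by
          refine (norm_add_le _ _).trans (add_le_add haε ?_)
          rw [norm_smul, Real.norm_of_nonneg hε0]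
          gcongr
      _ ≤ 2 * C * ε := by
          have : C * ε ^ 2 ≤ C * ε := by gcongr
          linarith
  set A : Euc N := (1 - τ) • a + ρ • w with hA
  have hAT : A ∈ G.T p := (G.T p).add_mem ((G.T p).smul_mem _ ha) ((G.T p).smul_mem _ hwT)
  have hAn : ‖A‖ ≤ 2 * C * ε + ρ := by
    refine (norm_add_le _ _).trans (add_le_add ?_ ?_)
    · rw [norm_smul, Real.norm_of_nonneg (by linarith)]
      calc (1 - τ) * ‖a‖ ≤ 1 * ‖a‖ := by gcongr; linarith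
        _ ≤ 2 * C * ε := by rw [one_mul]; exact haC
    · rw [norm_smul, hw1, mul_one, Real.norm_of_nonneg hρ0]
  have hAB : ‖A‖ ≤ B := by
    rw [hB]
    have : C * ε ≤ C := mul_le_of_le_one_right hC hε1
    linarith
  have hA2 : ‖A‖ ^ 2 ≤ (8 * C ^ 2 + 2) * (ε ^ 2 + ρ ^ 2) := by
    have h1 : ‖A‖ ^ 2 ≤ (2 * C * ε + ρ) ^ 2 := by gcongr
    have h2 : (2 * C * ε + ρ) ^ 2 ≤ 8 * C ^ 2 * ε ^ 2 + 2 * ρ ^ 2 := by
      have := sq_nonneg (2 * C * ε - ρ)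
      linarith [this, (by ring : (2 * C * ε + ρ) ^ 2 + (2 * C * ε - ρ) ^ 2 =
        8 * C ^ 2 * ε ^ 2 + 2 * ρ ^ 2)]
    have h3 : 0 ≤ 8 * C ^ 2 * ρ ^ 2 + 2 * ε ^ 2 := by positivity
    linarith [(by ring : (8 * C ^ 2 + 2) * (ε ^ 2 + ρ ^ 2) =
      (8 * C ^ 2 * ε ^ 2 + 2 * ρ ^ 2) + (8 * C ^ 2 * ρ ^ 2 + 2 * ε ^ 2))]
  have hxS : Exp G p A ∈ S := Exp_mem G hpS hAT
  set e1 : Euc N := Exp G p A - p - A with he1
  have he1n : ‖e1‖ ≤ c0 * (ε ^ 2 + ρ ^ 2) := by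
    have h1 := hrem p hpS A hAT
    calc ‖e1‖ ≤ K1 * ‖A‖ ^ 2 := h1
      _ ≤ K1 * ((8 * C ^ 2 + 2) * (ε ^ 2 + ρ ^ 2)) := by gcongr
      _ = c0 * (ε ^ 2 + ρ ^ 2) := by rw [hc0]; ring
  have hxp : Exp G p A - p = A + e1 := by rw [he1]; abel
  have hxp2 : ‖Exp G p A - p‖ ^ 2 ≤ c1 * (ε ^ 2 + ρ ^ 2) := by
    rw [hxp]
    have h1 : ‖e1‖ ≤ K1 * ‖A‖ ^ 2 := hrem p hpS A hAT
    have h2 : ‖e1‖ ≤ K1 * B * ‖A‖ := by
      calc ‖e1‖ ≤ K1 * ‖A‖ ^ 2 := h1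
        _ = K1 * ‖A‖ * ‖A‖ := by ring
        _ ≤ K1 * B * ‖A‖ := by gcongr
    have h3 : ‖A + e1‖ ≤ ‖A‖ + K1 * B * ‖A‖ := (norm_add_le _ _).trans (by gcongr)
    have hBp : 0 ≤ B := (norm_nonneg _).trans hAB
    have h4 : ‖A + e1‖ ^ 2 ≤ (‖A‖ + K1 * B * ‖A‖) ^ 2 := by gcongr
    calc ‖A + e1‖ ^ 2 ≤ (‖A‖ + K1 * B * ‖A‖) ^ 2 := h4
      _ ≤ (2 + 2 * K1 ^ 2 * B ^ 2) * ‖A‖ ^ 2 := by
          have := sq2 ‖A‖ (K1 * B * ‖A‖)
          linarith [(by ring : (2 + 2 * K1 ^ 2 * B ^ 2) * ‖A‖ ^ 2 =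
            2 * (‖A‖ ^ 2 + (K1 * B * ‖A‖) ^ 2))]
      _ ≤ (2 + 2 * K1 ^ 2 * B ^ 2) * ((8 * C ^ 2 + 2) * (ε ^ 2 + ρ ^ 2)) := by gcongr
      _ = c1 * (ε ^ 2 + ρ ^ 2) := by rw [hc1]; ring
  -- the second point
  set V' : Euc N := (fl G ((p, v), Real.pi)).2 with hV'
  have hzv : ((p, v) : Euc N × Euc N) ∈ TS G := ⟨hpS, hvT⟩
  have hzw : ((p, w) : Euc N × Euc N) ∈ TS G := ⟨hpS, hwT⟩
  have hqv : (fl G ((p, v), Real.pi)).1 = q := by
    rw [← Exp_smul G hpS hvT]; exact h.Exp_pi hz hv hv1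
  have hqw : (fl G ((p, w), Real.pi)).1 = q := by
    rw [← Exp_smul G hpS hwT]; exact h.Exp_pi hz hw hw1
  have hV'T : V' ∈ G.T q := by
    have := (fl_mem G hzv Real.pi).2
    rwa [hqv] at this
  have hV'1 : ‖V'‖ = 1 := by rw [hV', norm_fl G hzv]; exact hv1
  have hγ : ‖Exp G p (t • v) - q - σ • V'‖ ≤ K1 * σ ^ 2 := by
    have h1 := hrem q hz.2.1 (σ • V') ((G.T q).smul_mem _ hV'T)
    have h2 : Exp G q (σ • V') = Exp G p (t • v) := by
      rw [Exp_smul G hz.2.1 hV'T, Exp_smul G hpS hvT]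
      have h3 : fl G ((p, v), t) = fl G (fl G ((p, v), Real.pi), σ) := by
        rw [← fl_add' G hzv, hσ]; congr 2; ring
      have h4 : fl G ((p, v), Real.pi) = (q, V') := Prod.ext hqv rfl
      rw [h3, h4]
    rw [h2, norm_smul, hV'1, mul_one, Real.norm_eq_abs, sq_abs] at h1
    exact h1
  set e2 : Euc N := y - q - σ • V' - ε • nπ with he2
  have he2n : ‖e2‖ ≤ B2 * (ε ^ 2 + σ ^ 2) := by
    have h1 : e2 = (y - Exp G p (t • v) - ε • nt) + (Exp G p (t • v) - q - σ • V') +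
        ε • (nt - nπ) := by rw [he2, smul_sub]; abel
    have h2 : ‖ε • (nt - nπ)‖ ≤ ε * (C * |σ|) := by
      rw [norm_smul, Real.norm_of_nonneg hε0]
      gcongr
    have h3 : ‖e2‖ ≤ C * ε ^ 2 + K1 * σ ^ 2 + ε * (C * |σ|) := by
      rw [h1]
      exact (norm_add_le _ _).trans (add_le_add ((norm_add_le _ _).trans (add_le_add hyt hγ)) h2)
    have h4 : ε * |σ| ≤ (ε ^ 2 + σ ^ 2) / 2 := by
      have := sq_nonneg (ε - |σ|)
      rw [← sq_abs σ]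
      linarith [(by ring : (ε - |σ|) ^ 2 = ε ^ 2 + |σ| ^ 2 - 2 * (ε * |σ|))]
    have h5 : ε * (C * |σ|) ≤ C * ((ε ^ 2 + σ ^ 2) / 2) := by
      calc ε * (C * |σ|) = C * (ε * |σ|) := by ring
        _ ≤ _ := by gcongr
    have h6 : 0 ≤ C * ε ^ 2 / 2 + K1 * ε ^ 2 + 3 * (C * σ ^ 2) / 2 := by positivity
    have h7 : B2 * (ε ^ 2 + σ ^ 2) = C * ε ^ 2 + K1 * σ ^ 2 + C * ((ε ^ 2 + σ ^ 2) / 2) +
        (C * ε ^ 2 / 2 + K1 * ε ^ 2 + 3 * (C * σ ^ 2) / 2) := by rw [hB2]; ring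
    rw [h7]
    linarith
  have hyq : y - q = σ • V' + ε • nπ + e2 := by rw [he2]; abel
  have hyq2 : ‖y - q‖ ^ 2 ≤ c2 * (ε ^ 2 + σ ^ 2) := by
    have h1 : ‖y - q‖ ≤ |σ| + ε * C + ‖e2‖ := by
      rw [hyq]
      refine (norm_add_le _ _).trans (add_le_add ((norm_add_le _ _).trans (add_le_add ?_ ?_)) le_rfl)
      · rw [norm_smul, hV'1, mul_one, Real.norm_eq_abs]
      · rw [norm_smul, Real.norm_of_nonneg hε0]; gcongr
    have h2 : ‖y - q‖ ^ 2 ≤ (|σ| + ε * C + ‖e2‖) ^ 2 := by gcongr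
    have h3 : (|σ| + ε * C + ‖e2‖) ^ 2 ≤ 3 * (|σ| ^ 2 + (ε * C) ^ 2 + ‖e2‖ ^ 2) :=
      sq3 _ _ _
    have h4 : ‖e2‖ ^ 2 ≤ 11 * B2 ^ 2 * (ε ^ 2 + σ ^ 2) := by
      have h5 : ‖e2‖ ^ 2 ≤ (B2 * (ε ^ 2 + σ ^ 2)) ^ 2 := by gcongr
      have h6 : ε ^ 2 + σ ^ 2 ≤ 11 := by linarith
      have h7 : (ε ^ 2 + σ ^ 2) ^ 2 ≤ 11 * (ε ^ 2 + σ ^ 2) := by
        rw [pow_two (ε ^ 2 + σ ^ 2)]
        exact mul_le_mul_of_nonneg_right h6 (by positivity)
      calc ‖e2‖ ^ 2 ≤ (B2 * (ε ^ 2 + σ ^ 2)) ^ 2 := h5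
        _ = B2 ^ 2 * (ε ^ 2 + σ ^ 2) ^ 2 := by ring
        _ ≤ B2 ^ 2 * (11 * (ε ^ 2 + σ ^ 2)) := by gcongr
        _ = 11 * B2 ^ 2 * (ε ^ 2 + σ ^ 2) := by ring
    rw [sq_abs] at h3
    have h8 : 0 ≤ C ^ 2 * σ ^ 2 + ε ^ 2 := by positivity
    have h9 : c2 * (ε ^ 2 + σ ^ 2) = 3 * (σ ^ 2 + (ε * C) ^ 2 + 11 * B2 ^ 2 * (ε ^ 2 + σ ^ 2)) +
        3 * (C ^ 2 * σ ^ 2 + ε ^ 2) := by rw [hc2]; ring
    rw [h9]
    linarith
  set E : ℝ := ε ^ 2 + ρ ^ 2 + σ ^ 2 with hE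
  have hE1 : ε ^ 2 + ρ ^ 2 ≤ E := by rw [hE]; linarith [sq_nonneg σ]
  have hE2 : ε ^ 2 + σ ^ 2 ≤ E := by rw [hE]; linarith [sq_nonneg ρ]
  have hE0 : 0 ≤ E := by positivity
  clear_value E
  have hKE : K * (‖Exp G p A - p‖ ^ 2 + ‖y - q‖ ^ 2) ≤ K * (c1 + c2) * E := by
    have h1 : ‖Exp G p A - p‖ ^ 2 ≤ c1 * E := hxp2.trans (by gcongr)
    have h2 : ‖y - q‖ ^ 2 ≤ c2 * E := hyq2.trans (by gcongr)
    calc K * (‖Exp G p A - p‖ ^ 2 + ‖y - q‖ ^ 2) ≤ K * (c1 * E + c2 * E) := by gcongr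
      _ = K * (c1 + c2) * E := by ring
  have he1E : ‖e1‖ ≤ c0 * E := he1n.trans (by gcongr)
  have he2E : ‖e2‖ ≤ B2 * E := he2n.trans (by gcongr)
  have hwA : ⟪w, A⟫ = (1 - τ) * ⟪w, a⟫ + ρ := by
    rw [hA, inner_add_right, inner_smul_right, inner_smul_right, real_inner_self_eq_norm_sq, hw1]
    ring
  have hvA : ⟪v, A⟫ = (1 - τ) * ⟪v, a⟫ := by
    rw [hA, inner_add_right, inner_smul_right, inner_smul_right, hvw]
    ring
  constructor
  · -- first bound: the ray `w`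
    have h1 := hfv (p, w) hzw hw1 Real.pi (by linarith) le_rfl (Exp G p A) hxS y hy
    rw [hqw] at h1
    simp only at h1
    set W' : Euc N := (fl G ((p, w), Real.pi)).2 with hW'
    have hW'1 : ‖W'‖ = 1 := by rw [hW', norm_fl G hzw]; exact hw1
    have hWV : ⟪W', V'⟫ = 0 := by
      rw [hW', hV', snd_fl, snd_fl, inner_neg_neg, h.inner_ar hz hw hw1 hv hv1,
        real_inner_comm, hvw]
    have hWn : ⟪W', nπ⟫ = -⟪ar G p w, nπ⟫ := by rw [hW', snd_fl, inner_neg_left]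
    have h2 : ⟪w, Exp G p A - p⟫ = (1 - τ) * ⟪w, a⟫ + ρ + ⟪w, e1⟫ := by
      rw [hxp, inner_add_right, hwA]
    have h3 : ⟪W', y - q⟫ = ε * ⟪W', nπ⟫ + ⟪W', e2⟫ := by
      rw [hyq, inner_add_right, inner_add_right, inner_smul_right, inner_smul_right, hWV]
      ring
    have h4 : -‖e1‖ ≤ ⟪w, e1⟫ := by
      have := neg_le_of_abs_le (abs_real_inner_le_norm w e1)
      rwa [hw1, one_mul] at this
    have h5 : ⟪W', e2⟫ ≤ ‖e2‖ := by
      have := real_inner_le_norm W' e2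
      rwa [hW'1, one_mul] at this
    have h6 : ε * ⟪w, n0⟫ - C * ε ^ 2 ≤ ⟪w, a⟫ := by
      have h7 : ⟪w, a⟫ = ⟪w, a - ε • n0⟫ + ε * ⟪w, n0⟫ := by
        rw [inner_sub_right, inner_smul_right]; ring
      have h8 := neg_le_of_abs_le (abs_real_inner_le_norm w (a - ε • n0))
      rw [hw1, one_mul] at h8
      linarith
    have h7 : |⟪w, n0⟫| ≤ C := by
      have := abs_real_inner_le_norm w n0
      rw [hw1, one_mul] at this
      exact this.trans hn0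
    have h8 : ε * ⟪w, n0⟫ - C * E - C * E ≤ (1 - τ) * ⟪w, a⟫ := by
      have h9 : (1 - τ) * (ε * ⟪w, n0⟫ - C * ε ^ 2) ≤ (1 - τ) * ⟪w, a⟫ := by
        gcongr
      have h10 : τ * (ε * ⟪w, n0⟫) ≤ C * E := by
        have h11 : ⟪w, n0⟫ ≤ C := (le_abs_self _).trans h7
        calc τ * (ε * ⟪w, n0⟫) ≤ τ * (ε * C) := by gcongr
          _ ≤ ρ * (ε * C) := by gcongr
          _ = C * (ρ * ε) := by ring
          _ ≤ C * E := by
              have h13 : ρ * ε ≤ E := by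
                rw [hE]
                have := sq_nonneg (ρ - ε)
                have := sq_nonneg σ
                have := sq_nonneg ρ
                have := sq_nonneg ε
                linarith [(by ring : (ρ - ε) ^ 2 = ρ ^ 2 + ε ^ 2 - 2 * (ρ * ε))]
              gcongr
      have h12 : (1 - τ) * (C * ε ^ 2) ≤ C * E := by
        have h13 : ε ^ 2 ≤ E := by rw [hE]; linarith [sq_nonneg ρ, sq_nonneg σ]
        calc (1 - τ) * (C * ε ^ 2) ≤ 1 * (C * ε ^ 2) := by gcongr; linarith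
          _ ≤ C * E := by rw [one_mul]; gcongr
      linarith [(by ring : (1 - τ) * (ε * ⟪w, n0⟫ - C * ε ^ 2) =
        ε * ⟪w, n0⟫ - τ * (ε * ⟪w, n0⟫) - (1 - τ) * (C * ε ^ 2))]
    rw [h2, h3, hWn] at h1
    have hME : (K * (c1 + c2) + c0 + B2 + 3 * C + 1) * E =
        K * (c1 + c2) * E + c0 * E + B2 * E + 3 * (C * E) + E := by ring
    have hCE : 0 ≤ C * E := mul_nonneg hC hE0
    rw [hME]
    linarith
  · -- second bound: the rays `± v`
    have hn1 : |⟪V', nπ⟫| ≤ C := by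
      have := abs_real_inner_le_norm V' nπ
      rw [hV'1, one_mul] at this
      exact this.trans hnπ
    have hn2 : |⟪V', e2⟫| ≤ ‖e2‖ := by
      have := abs_real_inner_le_norm V' e2
      rwa [hV'1, one_mul] at this
    have hn3 : |⟪v, e1⟫| ≤ ‖e1‖ := by
      have := abs_real_inner_le_norm v e1
      rwa [hv1, one_mul] at this
    have hn4 : |⟪v, A⟫| ≤ 2 * C * ε := by
      rw [hvA, abs_mul, abs_of_nonneg (by linarith : (0 : ℝ) ≤ 1 - τ)]
      have h1 := abs_real_inner_le_norm v a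
      rw [hv1, one_mul] at h1
      calc (1 - τ) * |⟪v, a⟫| ≤ 1 * |⟪v, a⟫| := by gcongr; linarith
        _ ≤ 2 * C * ε := by rw [one_mul]; exact h1.trans haC
    have h2 : ⟪v, Exp G p A - p⟫ = ⟪v, A⟫ + ⟪v, e1⟫ := by rw [hxp, inner_add_right]
    have h3 : ⟪V', y - q⟫ = σ + ε * ⟪V', nπ⟫ + ⟪V', e2⟫ := by
      rw [hyq, inner_add_right, inner_add_right, inner_smul_right, inner_smul_right,
        real_inner_self_eq_norm_sq, hV'1]
      ring
    have h4 : |ε * ⟪V', nπ⟫| ≤ ε * C := by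
      rw [abs_mul, abs_of_nonneg hε0]; gcongr
    have hME : (K * (c1 + c2) + c0 + B2 + 3 * C + 1) * ε +
        (K * (c1 + c2) + c0 + B2 + 3 * C + 1) * E =
        (K * (c1 + c2) + c0 + B2 + 1) * ε + 3 * (C * ε) +
        (K * (c1 + c2) * E + c0 * E + B2 * E + 3 * (C * E) + E) := by ring
    have hCE : 0 ≤ C * E := mul_nonneg hC hE0
    have hpe : 0 ≤ (K * (c1 + c2) + c0 + B2 + 1) * ε := by positivity
    rw [abs_le] at hn2 hn3 hn4 h4
    rw [add_assoc, hME]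
    rcases le_total 0 σ with hs | hs
    · have hvn1 : ‖-v‖ = 1 := by rw [norm_neg, hv1]
      have hz' : ((p, -v) : Euc N × Euc N) ∈ TS G := ⟨hpS, (G.T p).neg_mem hvT⟩
      have h1 := hfv (p, -v) hz' hvn1 Real.pi (by linarith) le_rfl (Exp G p A) hxS y hy
      have hq' : (fl G ((p, -v), Real.pi)).1 = q := by
        rw [← Exp_smul G hpS ((G.T p).neg_mem hvT)]
        exact h.Exp_pi hz ((Vs G p q).neg_mem hv) hvn1
      have hV'' : (fl G ((p, -v), Real.pi)).2 = -V' := by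
        rw [snd_fl, ar_neg h hz hv hv1, hV', snd_fl]
      rw [hq', hV''] at h1
      simp only [inner_neg_left] at h1
      rw [h2, h3] at h1
      rw [abs_of_nonneg hs]
      linarith
    · have h1 := hfv (p, v) hzv hv1 Real.pi (by linarith) le_rfl (Exp G p A) hxS y hy
      rw [hqv] at h1
      simp only at h1
      rw [h2, h3] at h1
      rw [abs_of_nonpos hs]
      linarith


end Crest.Agent.R208.RE
end
end

-- ▼ part R208/RE3
section

/-!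
Row 208, block RR, piece [RRe] (helper99), part 3: the centre theorem.
-/

set_option autoImplicit false

open Set Filter Topology Metric
open scoped ContDiff RealInnerProductSpace
open Crest.GeometryTopology.Submanifold
open Crest.Agent.R241.DDefs
open Crest.Agent.R241.D2
open Crest.Agent.R208.GT

noncomputable section

namespace Crest.Agent.R208.RE

variable {n N k : ℕ} {κ : ℝ} {S : Set (Euc N)} {G : Geo n N κ S} {p q v w : Euc N}

lemma num_near {P lam M r ε ρ σ d : ℝ} (hlam : 0 < lam) (hM : 0 < M) (hε : 0 < ε) (hρ : 0 ≤ ρ)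
    (hεr : ε ≤ r) (hρr : ρ ≤ r) (hσr : |σ| ≤ r) (hr1 : r ≤ 1) (hr2 : M * r ≤ lam / 4)
    (hr3 : r * (M * (2 * M / lam) + M * ((2 * M / lam) ^ 2 + 1)) < 1)
    (h1 : d ≤ P - lam * (ε + ρ) + M * (ε ^ 2 + ρ ^ 2 + σ ^ 2))
    (h2 : d ≤ P - |σ| + M * ε + M * (ε ^ 2 + ρ ^ 2 + σ ^ 2)) : d < P := by
  by_cases hc : M * σ ^ 2 ≤ lam / 2 * (ε + ρ)
  · have h3 : M * ε ^ 2 ≤ lam / 4 * ε := by
      calc M * ε ^ 2 = M * ε * ε := by ring
        _ ≤ M * r * ε := by gcongr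
        _ ≤ lam / 4 * ε := by gcongr
    have h4 : M * ρ ^ 2 ≤ lam / 4 * ρ := by
      calc M * ρ ^ 2 = M * ρ * ρ := by ring
        _ ≤ M * r * ρ := by gcongr
        _ ≤ lam / 4 * ρ := by gcongr
    have h5 : 0 < lam * ε := by positivity
    have h6 : 0 ≤ lam * ρ := by positivity
    nlinarith
  · rw [not_le] at hc
    set L : ℝ := 2 * M / lam with hL
    have hLpos : 0 < L := by positivity
    have h3 : ε + ρ < L * σ ^ 2 := by
      rw [hL, div_mul_eq_mul_div, lt_div_iff₀ hlam]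
      linarith
    have hσ0 : 0 < |σ| := by
      rw [abs_pos]
      rintro rfl
      have : ε + ρ < 0 := by simpa using h3
      linarith
    have hσσ : σ ^ 2 = |σ| * |σ| := by rw [← pow_two, sq_abs]
    have h4 : σ ^ 2 ≤ r * |σ| := by
      rw [hσσ]; gcongr
    have hσ1 : σ ^ 2 ≤ 1 := by
      rw [hσσ]
      calc |σ| * |σ| ≤ 1 * 1 := by gcongr <;> linarith
        _ = 1 := one_mul 1
    have h5 : ε ^ 2 + ρ ^ 2 ≤ L ^ 2 * σ ^ 2 := by
      have h6 : ε ^ 2 + ρ ^ 2 ≤ (ε + ρ) ^ 2 := by nlinarith [mul_nonneg hε.le hρ]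
      have h7 : (ε + ρ) ^ 2 ≤ (L * σ ^ 2) ^ 2 := by gcongr
      have h8 : (L * σ ^ 2) ^ 2 ≤ L ^ 2 * σ ^ 2 := by
        calc (L * σ ^ 2) ^ 2 = L ^ 2 * (σ ^ 2 * σ ^ 2) := by ring
          _ ≤ L ^ 2 * (1 * σ ^ 2) := by gcongr
          _ = L ^ 2 * σ ^ 2 := by ring
      linarith
    have h6 : M * ε ≤ M * (L * σ ^ 2) := by
      gcongr
      linarith
    have h7 : M * (ε ^ 2 + ρ ^ 2 + σ ^ 2) ≤ M * (L ^ 2 * σ ^ 2 + σ ^ 2) := by gcongr
    have h8 : (M * L + M * (L ^ 2 + 1)) * σ ^ 2 ≤ (M * L + M * (L ^ 2 + 1)) * (r * |σ|) := by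
      gcongr
    have h9 : r * (M * L + M * (L ^ 2 + 1)) * |σ| < 1 * |σ| := by gcongr
    have h10 : M * (L * σ ^ 2) + M * (L ^ 2 * σ ^ 2 + σ ^ 2) =
        (M * L + M * (L ^ 2 + 1)) * σ ^ 2 := by ring
    have h11 : (M * L + M * (L ^ 2 + 1)) * (r * |σ|) =
        r * (M * L + M * (L ^ 2 + 1)) * |σ| := by ring
    linarith



end Crest.Agent.R208.RE
end
end

-- ▼ part R208/RE5
section

/-!
Row 208, block RR, piece [RRe] (helper99), part 5: the UNIFORM centre theorem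
(one `ε0` for all `(p, q, v, w)` and all fields with given constants).
-/

set_option autoImplicit false

open Set Filter Topology Metric
open scoped ContDiff RealInnerProductSpace
open Crest.GeometryTopology.Submanifold
open Crest.Agent.R241.DDefs
open Crest.Agent.R241.D2
open Crest.Agent.R208.GT

noncomputable section

namespace Crest.Agent.R208.RE

variable {n N k : ℕ} {κ : ℝ} {S : Set (Euc N)} {G : Geo n N κ S} {p q v w : Euc N}

/-- the space of `(p, v, w)`, `v ⟂ w` unit vectors of one `V_pq` -/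
def V2 (G : Geo n N κ S) : Set (Euc N × Euc N × Euc N) :=
  {z | (z.1, z.2.1) ∈ TS G ∧ (z.1, z.2.2) ∈ TS G ∧ ‖z.2.1‖ = 1 ∧ ‖z.2.2‖ = 1 ∧
    ⟪z.2.1, z.2.2⟫ = 0 ∧ Exp G z.1 (Real.pi • z.2.1) = Exp G z.1 (Real.pi • z.2.2)}

lemma V2_spec (h : Bla G k) {z : Euc N × Euc N × Euc N} (hz : z ∈ V2 G) :
    ∃ q, (z.1, q) ∈ FF S ∧ z.2.1 ∈ Vs G z.1 q ∧ z.2.2 ∈ Vs G z.1 q ∧ ‖z.2.1‖ = 1 ∧
      ‖z.2.2‖ = 1 ∧ ⟪z.2.1, z.2.2⟫ = 0 ∧ q = Exp G z.1 (Real.pi • z.2.1) := by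
  obtain ⟨h1, h2, h3, h4, h5, h6⟩ := hz
  refine ⟨Exp G z.1 (Real.pi • z.2.1), h.mem_FF h1.1 h1.2 h3, mem_Vs h1.2 h3, ?_, h3, h4, h5, rfl⟩
  rw [h6]
  exact mem_Vs h2.2 h4

lemma mem_V2 (h : Bla G k) (hz : (p, q) ∈ FF S) (hv : v ∈ Vs G p q) (hv1 : ‖v‖ = 1)
    (hw : w ∈ Vs G p q) (hw1 : ‖w‖ = 1) (hvw : ⟪v, w⟫ = 0) : (p, v, w) ∈ V2 G :=
  ⟨⟨hz.1, h.Vs_le hz hv⟩, ⟨hz.1, h.Vs_le hz hw⟩, hv1, hw1, hvw,
    (h.Exp_pi hz hv hv1).trans (h.Exp_pi hz hw hw1).symm⟩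

/-- joint continuity of `Exp` on `TS` -/
lemma continuousOn_Exp : ContinuousOn (fun z : Euc N × Euc N => Exp G z.1 z.2) (TS G) :=
  fun _ hz => (contDiffAt_Exp G hz.1 hz.2).continuousAt.continuousWithinAt

lemma isCompact_V2 (h : Bla G k) : IsCompact (V2 G) := by
  have hTS : IsClosed (TS G) := isClosed_TS G
  set K1 : Set (Euc N × Euc N × Euc N) := {z | (z.1, z.2.1) ∈ TS G ∧ (z.1, z.2.2) ∈ TS G ∧
    ‖z.2.1‖ = 1 ∧ ‖z.2.2‖ = 1 ∧ ⟪z.2.1, z.2.2⟫ = 0} with hK1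
  have hcl : IsClosed K1 := by
    refine (hTS.preimage (f := fun z : Euc N × Euc N × Euc N => (z.1, z.2.1)) (by fun_prop)).inter
      ((hTS.preimage (f := fun z : Euc N × Euc N × Euc N => (z.1, z.2.2)) (by fun_prop)).inter
      ((isClosed_eq (f := fun z : Euc N × Euc N × Euc N => ‖z.2.1‖) (by fun_prop)
        continuous_const).inter ((isClosed_eq (f := fun z : Euc N × Euc N × Euc N => ‖z.2.2‖)
        (by fun_prop) continuous_const).inter (isClosed_eq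
        (f := fun z : Euc N × Euc N × Euc N => (⟪z.2.1, z.2.2⟫ : ℝ)) (by fun_prop)
        continuous_const))))
  have hK1c : IsCompact K1 := by
    refine (h.bl.cpt.prod ((isCompact_closedBall (0 : Euc N) 1).prod
      (isCompact_closedBall (0 : Euc N) 1))).of_isClosed_subset hcl ?_
    rintro z ⟨h1, h2, h3, h4, h5⟩
    exact ⟨h1.1, by simp [h3], by simp [h4]⟩
  have hc1 : ContinuousOn (fun z : Euc N × Euc N × Euc N =>
      Exp G z.1 (Real.pi • z.2.1) - Exp G z.1 (Real.pi • z.2.2)) K1 := by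
    refine ContinuousOn.sub ?_ ?_
    · exact continuousOn_Exp.comp (f := fun z : Euc N × Euc N × Euc N => (z.1, Real.pi • z.2.1))
        (by fun_prop) fun z hz => ⟨hz.1.1, (G.T _).smul_mem _ hz.1.2⟩
    · exact continuousOn_Exp.comp (f := fun z : Euc N × Euc N × Euc N => (z.1, Real.pi • z.2.2))
        (by fun_prop) fun z hz => ⟨hz.2.1.1, (G.T _).smul_mem _ hz.2.1.2⟩
  have h2 := hc1.preimage_isClosed_of_isClosed hcl (isClosed_singleton (x := (0 : Euc N)))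
  have h3 : V2 G = K1 ∩ (fun z : Euc N × Euc N × Euc N =>
      Exp G z.1 (Real.pi • z.2.1) - Exp G z.1 (Real.pi • z.2.2)) ⁻¹' {0} := by
    ext z
    simp only [V2, K1, mem_inter_iff, mem_preimage, mem_singleton_iff, sub_eq_zero,
      mem_ofPred_eq, and_assoc]
  rw [h3]
  exact hK1c.of_isClosed_subset h2 inter_subset_left

/-- the far region, uniform version -/
theorem far_unif (h : Bla G k) {r : ℝ} (hr : 0 < r) :
    ∃ δ : ℝ, 0 < δ ∧ ∀ p v w : Euc N, (p, v, w) ∈ V2 G →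
      ∀ ρ ∈ Icc (0 : ℝ) (Real.pi / 2), ∀ t ∈ Icc (0 : ℝ) (2 * Real.pi),
      (r ≤ ρ ∨ r ≤ |t - Real.pi|) →
      intrinsicDist S (Exp G p (ρ • w)) (Exp G p (t • v)) ≤ Real.pi - δ := by
  have hpi := Real.pi_pos
  set K : Set ((Euc N × Euc N × Euc N) × (ℝ × ℝ)) := V2 G ×ˢ
    ((Icc (0 : ℝ) (Real.pi / 2) ×ˢ Icc (0 : ℝ) (2 * Real.pi)) ∩
    {z | r ≤ z.1 ∨ r ≤ |z.2 - Real.pi|}) with hK
  have hKc : IsCompact K := by
    refine (isCompact_V2 h).prod ((isCompact_Icc.prod isCompact_Icc).inter_right ?_)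
    have h1 : IsClosed {z : ℝ × ℝ | r ≤ z.1} := isClosed_le continuous_const continuous_fst
    have h2 : IsClosed {z : ℝ × ℝ | r ≤ |z.2 - Real.pi|} :=
      isClosed_le continuous_const (continuous_snd.sub continuous_const).abs
    exact h1.union h2
  have hcont : ContinuousOn (fun z : (Euc N × Euc N × Euc N) × (ℝ × ℝ) =>
      intrinsicDist S (Exp G z.1.1 (z.2.1 • z.1.2.2)) (Exp G z.1.1 (z.2.2 • z.1.2.1))) K := by
    have h1 := continuousOn_intrinsicDist h.bl.sub h.bl.cpt h.bl.conn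
    refine h1.comp (f := fun z : (Euc N × Euc N × Euc N) × (ℝ × ℝ) =>
      (Exp G z.1.1 (z.2.1 • z.1.2.2), Exp G z.1.1 (z.2.2 • z.1.2.1))) ?_ ?_
    · refine ContinuousOn.prodMk ?_ ?_
      · exact continuousOn_Exp.comp
          (f := fun z : (Euc N × Euc N × Euc N) × (ℝ × ℝ) => (z.1.1, z.2.1 • z.1.2.2))
          (by fun_prop) fun z hz => ⟨hz.1.2.1.1, (G.T _).smul_mem _ hz.1.2.1.2⟩
      · exact continuousOn_Exp.comp
          (f := fun z : (Euc N × Euc N × Euc N) × (ℝ × ℝ) => (z.1.1, z.2.2 • z.1.2.1))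
          (by fun_prop) fun z hz => ⟨hz.1.1.1, (G.T _).smul_mem _ hz.1.1.2⟩
    · intro z hz
      exact ⟨Exp_mem G hz.1.1.1 ((G.T _).smul_mem _ hz.1.2.1.2),
        Exp_mem G hz.1.1.1 ((G.T _).smul_mem _ hz.1.1.2)⟩
  have hlt : ∀ z ∈ K, intrinsicDist S (Exp G z.1.1 (z.2.1 • z.1.2.2))
      (Exp G z.1.1 (z.2.2 • z.1.2.1)) < Real.pi := by
    rintro ⟨⟨p, v, w⟩, ρ, t⟩ ⟨hz, ⟨⟨h1, h2⟩, ⟨h3, h4⟩⟩, h5⟩
    obtain ⟨q, hpq, hv, hw, hv1, hw1, hvw, -⟩ := V2_spec h hz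
    simp only [mem_ofPred_eq] at h1 h2 h3 h4 h5 hpq hv hw hv1 hw1 hvw ⊢
    have hvT := h.Vs_le hpq hv
    rcases le_total t Real.pi with ht | ht
    · refine dist_rays_lt h hpq hv hv1 hw hw1 hvw h1 (by linarith) h3 ht ?_
      rcases h5 with h5 | h5
      · exact Or.inl (by linarith)
      · refine Or.inr fun h6 => ?_
        rw [h6, sub_self, abs_zero] at h5
        linarith
    · rw [Exp_back h hpq.1 hvT hv1]
      refine dist_rays_lt h hpq ((Vs G p q).neg_mem hv) (by rw [norm_neg, hv1]) hw hw1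
        (by rw [inner_neg_left, hvw, neg_zero]) h1 (by linarith) (by linarith) (by linarith) ?_
      rcases h5 with h5 | h5
      · exact Or.inl (by linarith)
      · refine Or.inr fun h6 => ?_
        have : t - Real.pi = 0 := by linarith
        rw [this, abs_zero] at h5
        linarith
  rcases K.eq_empty_or_nonempty with he | hne
  · refine ⟨1, one_pos, fun p v w hz ρ hρ t ht hc => ?_⟩
    have : (((p, v, w), (ρ, t)) : (Euc N × Euc N × Euc N) × (ℝ × ℝ)) ∈ K := ⟨hz, ⟨hρ, ht⟩, hc⟩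
    rw [he] at this
    exact this.elim
  · obtain ⟨z0, hz0, hmax⟩ := hKc.exists_isMaxOn hne hcont
    refine ⟨Real.pi - intrinsicDist S (Exp G z0.1.1 (z0.2.1 • z0.1.2.2))
      (Exp G z0.1.1 (z0.2.2 • z0.1.2.1)), ?_, fun p v w hz ρ hρ t ht hc => ?_⟩
    · have := hlt z0 hz0
      linarith
    · have h1 : (((p, v, w), (ρ, t)) : (Euc N × Euc N × Euc N) × (ℝ × ℝ)) ∈ K :=
        ⟨hz, ⟨hρ, ht⟩, hc⟩
      have h2 := hmax h1
      simp only [mem_ofPred_eq] at h2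
      linarith

/-- small tangent perturbations move `Exp` by a small amount, uniformly -/
lemma exp_close_unif (h : Bla G k) (R : ℝ) {η : ℝ} (hη : 0 < η) :
    ∃ θ : ℝ, 0 < θ ∧ ∀ p ∈ S, ∀ x ∈ G.T p, ∀ y ∈ G.T p, ‖x‖ ≤ R → ‖y‖ ≤ R → ‖x - y‖ ≤ θ →
      ‖Exp G p x - Exp G p y‖ < η := by
  set K : Set (Euc N × Euc N) := TS G ∩ S ×ˢ closedBall 0 R with hK
  have hKc : IsCompact K :=
    (h.bl.cpt.prod (isCompact_closedBall (0 : Euc N) R)).inter_left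
      (isClosed_TS G)
  have hu := hKc.uniformContinuousOn_of_continuous
    (continuousOn_Exp.mono (inter_subset_left : K ⊆ TS G))
  rw [Metric.uniformContinuousOn_iff] at hu
  obtain ⟨θ, hθ, hu⟩ := hu η hη
  refine ⟨θ / 2, by positivity, fun p hp x hx y hy hxR hyR hxy => ?_⟩
  have h1 := hu (p, x) ⟨⟨hp, hx⟩, hp, by rwa [mem_closedBall_zero_iff]⟩
    (p, y) ⟨⟨hp, hy⟩, hp, by rwa [mem_closedBall_zero_iff]⟩
    (by rw [Prod.dist_eq, dist_self, dist_eq_norm]; exact max_lt hθ (by linarith))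
  rwa [dist_eq_norm] at h1

/-- **the uniform centre theorem** -/
theorem centre_unif (h : Bla G k) {C κm : ℝ} (hC : 0 ≤ C) (hκm : 0 < κm) :
    ∃ ε0 : ℝ, 0 < ε0 ∧ ε0 ≤ 1 ∧ ∀ p q v w : Euc N, (p, q) ∈ FF S → v ∈ Vs G p q → ‖v‖ = 1 →
      w ∈ Vs G p q → ‖w‖ = 1 → ⟪v, w⟫ = 0 → ∀ nf : ℝ → Euc N,
      (∀ t ∈ Icc (0 : ℝ) (2 * Real.pi), ‖nf t‖ ≤ C) →
      (∀ t ∈ Icc (0 : ℝ) (2 * Real.pi), ‖nf t - nf Real.pi‖ ≤ C * |t - Real.pi|) →
      κm ≤ ⟪w, nf 0⟫ + ⟪ar G p w, nf Real.pi⟫ →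
      ∀ ε : ℝ, 0 < ε → ε ≤ ε0 → ∀ y : ℝ → Euc N, (∀ t ∈ Icc (0 : ℝ) (2 * Real.pi), y t ∈ S) →
      (∀ t ∈ Icc (0 : ℝ) (2 * Real.pi), ‖y t - Exp G p (t • v) - ε • nf t‖ ≤ C * ε ^ 2) →
      ∀ a ∈ G.T p, ‖a - ε • nf 0‖ ≤ C * ε ^ 2 →
      ∀ τ ∈ Icc (0 : ℝ) 1, ∀ t ∈ Icc (0 : ℝ) (2 * Real.pi),
      intrinsicDist S (Exp G p ((1 - τ) • a + (τ * (Real.pi / 2)) • w)) (y t) < Real.pi := by
  have hpi := Real.pi_pos
  have hpi3 := Real.pi_gt_three
  obtain ⟨M, hM, hb⟩ := bounds_unif h hC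
  obtain ⟨lam, hlam, hlam1, hlam2⟩ : ∃ lam : ℝ, 0 < lam ∧ lam ≤ κm ∧ lam ≤ 1 :=
    ⟨min κm 1, lt_min hκm one_pos, min_le_left _ _, min_le_right _ _⟩
  obtain ⟨r, hr, hr1, hr2, hr3⟩ : ∃ r : ℝ, 0 < r ∧ r ≤ 1 ∧ M * r ≤ lam / 4 ∧
      r * (M * (2 * M / lam) + M * ((2 * M / lam) ^ 2 + 1)) < 1 := by
    set M2 : ℝ := M * (2 * M / lam) + M * ((2 * M / lam) ^ 2 + 1) with hM2
    have hM2p : 0 < M2 := by positivity
    refine ⟨min 1 (min (lam / 4 / M) (1 / (M2 + 1))), by positivity, min_le_left _ _, ?_, ?_⟩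
    · calc M * min 1 (min (lam / 4 / M) (1 / (M2 + 1))) ≤ M * (lam / 4 / M) := by
            gcongr
            exact (min_le_right _ _).trans (min_le_left _ _)
        _ = lam / 4 := by field_simp
    · calc min 1 (min (lam / 4 / M) (1 / (M2 + 1))) * M2 ≤ 1 / (M2 + 1) * M2 := by
            gcongr
            exact (min_le_right _ _).trans (min_le_right _ _)
        _ < 1 := by
            rw [one_div, inv_mul_lt_iff₀ (by positivity)]
            linarith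
  obtain ⟨δ, hδ, hfar⟩ := far_unif h hr
  obtain ⟨η, hη, hnear⟩ := I.exists_near h.bl (ε := δ / 3) (by positivity)
  obtain ⟨θ, hθ, hexp⟩ := exp_close_unif h (2 * C + 2) hη
  obtain ⟨ε0, hε0, hε01, hε0r, hε0θ, hε0η⟩ : ∃ ε0 : ℝ, 0 < ε0 ∧ ε0 ≤ 1 ∧ ε0 ≤ r ∧
      2 * C * ε0 ≤ θ ∧ 2 * C * ε0 < η := by
    refine ⟨min 1 (min r (min (θ / (2 * C + 1)) (η / (2 * C + 1)))), by positivity,
      min_le_left _ _, (min_le_right _ _).trans (min_le_left _ _), ?_, ?_⟩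
    · calc 2 * C * min 1 (min r (min (θ / (2 * C + 1)) (η / (2 * C + 1))))
          ≤ (2 * C + 1) * (θ / (2 * C + 1)) := by
            have h1 : min 1 (min r (min (θ / (2 * C + 1)) (η / (2 * C + 1)))) ≤
              θ / (2 * C + 1) :=
              (min_le_right _ _).trans ((min_le_right _ _).trans (min_le_left _ _))
            gcongr
            linarith
        _ = θ := by field_simp
    · have h1 : min 1 (min r (min (θ / (2 * C + 1)) (η / (2 * C + 1)))) ≤ η / (2 * C + 1) :=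
        (min_le_right _ _).trans ((min_le_right _ _).trans (min_le_right _ _))
      calc 2 * C * min 1 (min r (min (θ / (2 * C + 1)) (η / (2 * C + 1))))
          ≤ 2 * C * (η / (2 * C + 1)) := by gcongr
        _ < η := by
            rw [← mul_div_assoc, div_lt_iff₀ (by positivity)]
            nlinarith
  refine ⟨ε0, hε0, hε01, fun p q v w hz hv hv1 hw hw1 hvw nf hn hnL hκ ε hε hεε0 y hyS' hY
    a ha haε τ hτ t ht => ?_⟩
  have hpS := hz.1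
  have hvT := h.Vs_le hz hv
  have hwT := h.Vs_le hz hw
  have hn0 := hn 0 ⟨le_rfl, by linarith⟩
  have hnπ := hn Real.pi ⟨by linarith, by linarith⟩
  have hεI : ε ∈ Icc (0 : ℝ) 1 := ⟨hε.le, hεε0.trans hε01⟩
  have hyS := hyS' t ht
  obtain ⟨hb1, hb2⟩ := hb p q v w hz hv hv1 hw hw1 hvw (nf 0) (nf Real.pi) hn0 hnπ ε hεI a ha haε
    τ hτ t ht (nf t) (y t) hyS (hnL t ht) (hY t ht)
  obtain ⟨ρ, hρdef⟩ : ∃ ρ : ℝ, ρ = τ * (Real.pi / 2) := ⟨_, rfl⟩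
  rw [← hρdef] at hb1 hb2 ⊢
  have hρ0 : 0 ≤ ρ := by rw [hρdef]; exact mul_nonneg hτ.1 (by positivity)
  have hρ1 : ρ ≤ Real.pi / 2 := by
    rw [hρdef]
    calc τ * (Real.pi / 2) ≤ 1 * (Real.pi / 2) := by gcongr; exact hτ.2
      _ = Real.pi / 2 := one_mul _
  by_cases hcase : r ≤ ρ ∨ r ≤ |t - Real.pi|
  · -- far region
    have h1 := hfar p v w (mem_V2 h hz hv hv1 hw hw1 hvw) ρ ⟨hρ0, hρ1⟩ t ht hcase
    have hεC : C * ε ^ 2 ≤ C * ε := by
      have : ε ^ 2 ≤ ε := by nlinarith [hεI.2]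
      gcongr
    have haC : ‖a‖ ≤ 2 * C * ε := by
      calc ‖a‖ = ‖(a - ε • nf 0) + ε • nf 0‖ := by congr 1; abel
        _ ≤ C * ε ^ 2 + ε * C := by
            refine (norm_add_le _ _).trans (add_le_add haε ?_)
            rw [norm_smul, Real.norm_of_nonneg hε.le]
            gcongr
        _ ≤ 2 * C * ε := by linarith
    have hCε0 : 2 * C * ε ≤ 2 * C * ε0 := by gcongr
    have hCε1 : 2 * C * ε ≤ 2 * C := by
      calc 2 * C * ε ≤ 2 * C * 1 := by gcongr; exact hεI.2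
        _ = 2 * C := mul_one _
    have hAT : (1 - τ) • a + ρ • w ∈ G.T p :=
      (G.T p).add_mem ((G.T p).smul_mem _ ha) ((G.T p).smul_mem _ hwT)
    have hn1 : ‖(1 - τ) • a‖ ≤ 2 * C * ε := by
      rw [norm_smul, Real.norm_of_nonneg (by linarith [hτ.2])]
      calc (1 - τ) * ‖a‖ ≤ 1 * ‖a‖ := by gcongr; linarith [hτ.1]
        _ ≤ 2 * C * ε := by rw [one_mul]; exact haC
    have hn2 : ‖ρ • w‖ = ρ := by rw [norm_smul, hw1, mul_one, Real.norm_of_nonneg hρ0]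
    have hpi4 := Real.pi_lt_d2
    have h2 : ‖Exp G p ((1 - τ) • a + ρ • w) - Exp G p (ρ • w)‖ < η := by
      refine hexp p hpS _ hAT _ ((G.T p).smul_mem _ hwT) ?_ ?_ ?_
      · refine (norm_add_le _ _).trans ?_
        rw [hn2]
        linarith
      · rw [hn2]; linarith
      · rw [add_sub_cancel_right]
        linarith
    have hxS : Exp G p ((1 - τ) • a + ρ • w) ∈ S := Exp_mem G hpS hAT
    have hx0 : Exp G p (ρ • w) ∈ S := Exp_mem G hpS ((G.T p).smul_mem _ hwT)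
    have hy0 : Exp G p (t • v) ∈ S := Exp_mem G hpS ((G.T p).smul_mem _ hvT)
    have h3 := hnear _ hxS _ hx0 h2
    have h4 : ‖Exp G p (t • v) - y t‖ < η := by
      have h5 := hY t ht
      have h6 : Exp G p (t • v) - y t = -((y t - Exp G p (t • v) - ε • nf t) + ε • nf t) := by
        abel
      rw [h6, norm_neg]
      refine (norm_add_le _ _).trans_lt ?_
      have h7 : ‖ε • nf t‖ ≤ ε * C := by
        rw [norm_smul, Real.norm_of_nonneg hε.le]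
        gcongr
        exact hn t ht
      linarith
    have h5 := hnear _ hy0 _ hyS h4
    have h6 := I.tri h.bl hxS hx0 hyS
    have h7 := I.tri h.bl hx0 hy0 hyS
    linarith
  · rw [not_or, not_le, not_le] at hcase
    refine num_near hlam hM hε hρ0 (hεε0.trans hε0r) hcase.1.le hcase.2.le hr1 hr2 hr3
      (hb1.trans ?_) hb2
    have h1 : lam * ε ≤ ε * (⟪w, nf 0⟫ + ⟪ar G p w, nf Real.pi⟫) := by
      rw [mul_comm]
      gcongr
      exact hlam1.trans hκ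
    have h2 : lam * ρ ≤ ρ := by
      calc lam * ρ ≤ 1 * ρ := by gcongr
        _ = ρ := one_mul _
    linarith

end Crest.Agent.R208.RE
end
end

-- ▼ part R208/CG5

/-! Row 208, block RR, piece (CG) (helper99), part CG5: comparison of the discs of two equivariant
families with the disc of the rotation (abstract form). -/

set_option autoImplicit false
set_option linter.unusedSectionVars false
set_option linter.unusedVariables false

open MeasureTheory Set Filter Topology Module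
open scoped ContDiff
open Crest.Agent.R208.F Crest.Agent.R208.FI Crest.Agent.R208.CW Crest.Agent.R208.T
open Crest.Agent.R208.RR

noncomputable section

namespace Crest.Agent.R208.CG

universe u
variable {E : Type u} [NormedAddCommGroup E] [NormedSpace ℝ E] [FiniteDimensional ℝ E]
  {H : Type u} [NormedAddCommGroup H] [NormedSpace ℝ H] [FiniteDimensional ℝ H]
  {Z : Set E} {S : Set H} {U : Set (H × H)} {x : E} {ξ : H → Ext H}
  {Gm : (H × H) × ℝ → H}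

theorem K_pull_congr {ζ : H × H → Ext (H × H)} (sη : Sm U ζ) {g g' : E × ℝ → H × H}
    (hg : SMap (Cyl Z) U g) (hg' : SMap (Cyl Z) U g') (h : ∀ y ∈ Cyl Z, g y = g' y) :
    Eqv Z (K (E := E) (F.pull g ζ)) (K (E := E) (F.pull g' ζ)) :=
  K_eqv (E := E) (sη.pull hg) (sη.pull hg')
    (eqv_pull_of_eq ζ (fun y hy => hg.diff hy) (fun y hy => hg'.diff hy) h)

/-- splitting of the fibre integral at `1/2` -/
theorem K_split {w : E × ℝ → Ext (E × ℝ)} (hw : Sm (Cyl Z) w) :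
    Eqv Z (K (E := E) w) (K (E := E) (F.pull (fx (fun y : E => y) fun t => lam t / 2) w) +
      K (E := E) (F.pull (fx (fun y : E => y) fun t => 1 / 2 + lam t / 2) w)) :=
  Eqv.of_eq fun x hx => by
    have h1 : ContDiff ℝ ∞ fun t : ℝ => lam t / 2 := contDiff_lam.div_const 2
    have h2 : ContDiff ℝ ∞ fun t : ℝ => 1 / 2 + lam t / 2 := contDiff_const.add h1
    rw [Pi.add_apply, K_repar h1 hw hx, K_repar h2 hw hx, lam_zero, lam_one, K_eq_Kab,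
      ← Kab_add hw hx 0 (1 / 2) 1]
    norm_num

theorem K_split' {w : E × ℝ → Ext (E × ℝ)} (hw : Sm (Cyl Z) w) :
    Eqv Z (K (E := E) w) (K (E := E) (F.pull (fx (fun y : E => y) fun t => lam t / 2) w) -
      K (E := E) (F.pull (fx (fun y : E => y) fun t => 1 - lam t / 2) w)) :=
  Eqv.of_eq fun x hx => by
    have h1 : ContDiff ℝ ∞ fun t : ℝ => lam t / 2 := contDiff_lam.div_const 2
    have h2 : ContDiff ℝ ∞ fun t : ℝ => 1 - lam t / 2 := contDiff_const.sub h1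
    rw [Pi.sub_apply, K_repar h1 hw hx, K_repar h2 hw hx, lam_zero, lam_one, K_eq_Kab,
      ← Kab_add hw hx 0 (1 / 2) 1, Kab_symm (1 - 0 / 2) (1 - 1 / 2)]
    norm_num

theorem contDiff_mu1 : ContDiff ℝ ∞ fun t : ℝ => lam t / 2 := contDiff_lam.div_const 2
theorem contDiff_mu2 : ContDiff ℝ ∞ fun t : ℝ => 1 / 2 + lam t / 2 :=
  contDiff_const.add contDiff_mu1
theorem contDiff_mu3 : ContDiff ℝ ∞ fun t : ℝ => 1 - lam t / 2 :=
  contDiff_const.sub contDiff_mu1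

/-- half of the disc of the rotation -/
theorem F_half (hC : Con S U Gm) (hξ : Sm S ξ) (hcl : Cl S ξ) {φ : ℝ → E → E}
    (hφ : CM.Cir Z φ) {A : E × ℝ → H} {c0 : E → H} (hA : SMap (Cyl Z) S A) (hc : SMap Z S c0)
    {mu : ℝ → ℝ} (hmu : ContDiff ℝ ∞ mu)
    (h0 : ∀ x ∈ Z, ∀ t, A (φ t x, 0) = A (x, 0)) (h1 : ∀ x ∈ Z, ∀ t, A (φ t x, 1) = A (x, 1))
    (hU : ∀ x ∈ Z, ∀ t : ℝ, ∀ s ∈ Icc (0 : ℝ) 1, (c0 x, A (φ (2 * Real.pi * mu t) x, s)) ∈ U) :
    Coh Z (K (E := E) (F.pull (fx (fun y : E => y) mu) (F.pull (Fl φ) (K (E := E) (F.pull A ξ)))))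
      (Xb Gm ξ c0 (fun y => A (φ (2 * Real.pi * mu 0) y.1, y.2)) -
        Xb Gm ξ c0 (fun y => A (φ (2 * Real.pi * mu 1) y.1, y.2))) := by
  have hFl := smap_Fl hφ
  have hr : SMap (Cyl Z) (Cyl Z) (fx (fun y : E => y) mu) := smap_repar hmu
  have hf : SMap (Cyl Z) Z (fun y : E × ℝ => Fl φ (fx (fun y : E => y) mu y)) :=
    smap_comp hFl hr
  have hc' : SMap (Cyl Z) S (fun y : E × ℝ => c0 y.1) := smap_comp hc smap_fst
  have hU' : ∀ x ∈ Z, ∀ t : ℝ, ∀ s ∈ Icc (0 : ℝ) 1,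
      ((fun y : E × ℝ => c0 y.1) (x, s), A (Fl φ (fx (fun y : E => y) mu (x, t)), s)) ∈ U :=
    fun x hx t s hs => hU x hx t s hs
  have g1 := disc_main (c := fun y : E × ℝ => c0 y.1) hC hξ hcl hf hA hc' hU'
  have sA : Sm (Cyl Z) (F.pull A ξ) := hξ.pull hA
  have g2 : Eqv Z (K (E := E) (F.pull (fx (fun y : E => y) mu)
      (F.pull (Fl φ) (K (E := E) (F.pull A ξ)))))
      (K (E := E) (F.pull (fun y : E × ℝ => Fl φ (fx (fun y : E => y) mu y))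
        (K (E := E) (F.pull A ξ)))) :=
    K_eqv (E := E) (((Sm.K sA).pull hFl).pull hr) ((Sm.K sA).pull hf) (pull_pull hFl hr)
  refine (Coh.of_eqv g2).trans (g1.trans (Coh.of_eqv ?_))
  have e1 := fs_zero (c := fun y : E × ℝ => c0 y.1) hC hξ hf hA hc' hU' 1 (fun x hx t => by
    rw [lam_one]
    simp only [Fl, fx]
    rw [h1 x hx, h1 x hx])
  have e0 := fs_zero (c := fun y : E × ℝ => c0 y.1) hC hξ hf hA hc' hU' 0 (fun x hx t => by
    rw [lam_zero]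
    simp only [Fl, fx]
    rw [h0 x hx, h0 x hx])
  have e2 := (e1.sub e0).sub (Eqv.refl (X := Z)
    (ft Gm ξ (Dm (fun y : E × ℝ => c0 y.1) A
      (fun y : E × ℝ => Fl φ (fx (fun y : E => y) mu y))) 1 -
    ft Gm ξ (Dm (fun y : E × ℝ => c0 y.1) A
      (fun y : E × ℝ => Fl φ (fx (fun y : E => y) mu y))) 0))
  refine e2.trans (Eqv.of_eq fun x _ => ?_)
  simp only [Pi.sub_apply, Pi.zero_apply, sub_zero, zero_sub, neg_sub]
  rfl

/-- **the disc of the rotation** -/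
theorem F_part (hC : Con S U Gm) (hξ : Sm S ξ) (hcl : Cl S ξ) {φ : ℝ → E → E}
    (hφ : CM.Cir Z φ) {A : E × ℝ → H} {c0 c1 : E → H} (hA : SMap (Cyl Z) S A)
    (hc0 : SMap Z S c0) (hc1 : SMap Z S c1)
    (h0 : ∀ x ∈ Z, ∀ t, A (φ t x, 0) = A (x, 0)) (h1 : ∀ x ∈ Z, ∀ t, A (φ t x, 1) = A (x, 1))
    (hU0 : ∀ x ∈ Z, ∀ t ∈ Icc (0 : ℝ) Real.pi, ∀ s ∈ Icc (0 : ℝ) 1, (c0 x, A (φ t x, s)) ∈ U)
    (hU1 : ∀ x ∈ Z, ∀ t ∈ Icc Real.pi (2 * Real.pi), ∀ s ∈ Icc (0 : ℝ) 1,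
      (c1 x, A (φ t x, s)) ∈ U) :
    Coh Z (Wp φ (K (E := E) (F.pull A ξ)))
      ((Xb Gm ξ c0 A - Xb Gm ξ c0 (fun y => A (φ Real.pi y.1, y.2))) -
        (Xb Gm ξ c1 A - Xb Gm ξ c1 (fun y => A (φ Real.pi y.1, y.2)))) := by
  have hpi := Real.pi_pos
  have hFl := smap_Fl hφ
  have sA : Sm (Cyl Z) (F.pull A ξ) := hξ.pull hA
  have sη : Sm U (eta Gm ξ) := hC.sm_eta hξ
  have sw : Sm (Cyl Z) (F.pull (Fl φ) (K (E := E) (F.pull A ξ))) := (Sm.K sA).pull hFl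
  have g1 := F_half (mu := fun t => lam t / 2) hC hξ hcl hφ hA hc0 contDiff_mu1 h0 h1
    (fun x hx t s hs => hU0 x hx _ (by
      have := lam_mem t
      constructor
      · have := this.1; positivity
      · calc 2 * Real.pi * (lam t / 2) = Real.pi * lam t := by ring
          _ ≤ Real.pi * 1 := by gcongr; exact this.2
          _ = Real.pi := mul_one _) s hs)
  have g2 := F_half (mu := fun t => 1 / 2 + lam t / 2) hC hξ hcl hφ hA hc1 contDiff_mu2 h0 h1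
    (fun x hx t s hs => hU1 x hx _ (by
      have := lam_mem t
      constructor
      · have := mul_nonneg hpi.le this.1
        linarith [(by ring : 2 * Real.pi * (1 / 2 + lam t / 2) = Real.pi + Real.pi * lam t)]
      · have := mul_le_mul_of_nonneg_left this.2 hpi.le
        linarith [(by ring : 2 * Real.pi * (1 / 2 + lam t / 2) = Real.pi + Real.pi * lam t)]) s hs)
  have g3 := (Coh.of_eqv (K_split sw)).trans (g1.add g2)
  have hx0 : ∀ {c : E → H}, SMap Z S c → (∀ x ∈ Z, ∀ s ∈ Icc (0 : ℝ) 1, (c x, A (x, s)) ∈ U) →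
      ∀ t0 : ℝ, (∀ x ∈ Z, φ t0 x = x) →
      Eqv Z (Xb Gm ξ c (fun y => A (φ t0 y.1, y.2))) (Xb Gm ξ c A) := by
    intro c hc hm t0 ht0
    have b1 : Bd Z S U c A := ⟨hc, hA, hm⟩
    have hφt : SMap Z Z (φ t0) := ⟨fun x hx => hφ.smooth_right t0 hx, hφ.maps t0⟩
    have b2 : Bd Z S U c (fun y => A (φ t0 y.1, y.2)) :=
      ⟨hc, smap_comp hA (smap_fx hφt contDiff_id), fun x hx s hs => by
        change (c x, A (φ t0 x, s)) ∈ U
        rw [ht0 x hx]; exact hm x hx s hs⟩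
    refine K_pull_congr sη (b2.smap contDiff_lam lam_mem) (b1.smap contDiff_lam lam_mem)
      fun y hy => ?_
    change (c y.1, A (φ t0 y.1, lam y.2)) = (c y.1, A (y.1, lam y.2))
    rw [ht0 _ (mem_Cyl.1 hy)]
  have k0 : (2 * Real.pi * (lam 0 / 2)) = 0 := by rw [lam_zero]; ring
  have k1 : (2 * Real.pi * (lam 1 / 2)) = Real.pi := by rw [lam_one]; ring
  have k2 : (2 * Real.pi * (1 / 2 + lam 0 / 2)) = Real.pi := by rw [lam_zero]; ring
  have k3 : (2 * Real.pi * (1 / 2 + lam 1 / 2)) = 2 * Real.pi := by rw [lam_one]; ring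
  simp only [k0, k1, k2, k3] at g3
  refine Coh.trans g3 (Coh.of_eqv ?_)
  have m0 : ∀ x ∈ Z, ∀ s ∈ Icc (0 : ℝ) 1, (c0 x, A (x, s)) ∈ U := fun x hx s hs => by
    have := hU0 x hx 0 ⟨le_rfl, hpi.le⟩ s hs
    rwa [hφ.zero x hx] at this
  have m1 : ∀ x ∈ Z, ∀ s ∈ Icc (0 : ℝ) 1, (c1 x, A (x, s)) ∈ U := fun x hx s hs => by
    have := hU1 x hx (2 * Real.pi) ⟨by linarith, le_rfl⟩ s hs
    rwa [hφ.per x hx] at this
  have q0 := hx0 hc0 m0 0 (fun x hx => hφ.zero x hx)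
  have q1 := hx0 hc1 m1 (2 * Real.pi) (fun x hx => hφ.per x hx)
  have q2 := (q0.sub (Eqv.refl (X := Z) (Xb Gm ξ c0 (fun y => A (φ Real.pi y.1, y.2))))).add
    ((Eqv.refl (X := Z) (Xb Gm ξ c1 (fun y => A (φ Real.pi y.1, y.2)))).sub q1)
  refine q2.trans (Eqv.of_eq fun x _ => ?_)
  simp only [Pi.add_apply, Pi.sub_apply]
  abel

/-- the disc of an equivariant family in terms of the boundary terms of the rotation -/
theorem A_bd (hC : Con S U Gm) (hξ : Sm S ξ) (hcl : Cl S ξ) {φ φ' : ℝ → E → E}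
    (hφ : CM.Cir Z φ) (hφ' : CM.Cir Z φ') {A c A' : E × ℝ → H} (hA : SMap (Cyl Z) S A)
    (hc : SMap (Cyl Z) S c) (hA' : SMap (Cyl Z) S A')
    (hinv : ∀ x ∈ Z, ∀ t, A (φ t x, 1) = A (x, 1))
    (hU : ∀ x ∈ Z, ∀ t : ℝ, ∀ s ∈ Icc (0 : ℝ) 1, (c (x, s), A (φ t x, s)) ∈ U)
    (hp : ∀ x ∈ Z, ∀ s ∈ Icc (0 : ℝ) 1, A (φ (Real.pi * s) x, 0) = A' (x, s))
    (hm : ∀ x ∈ Z, ∀ s ∈ Icc (0 : ℝ) 1,
      A (φ (2 * Real.pi - Real.pi * s) x, 0) = A' (φ' Real.pi x, s)) :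
    Coh Z (Wp φ (K (E := E) (F.pull A ξ)))
      (-(Xb Gm ξ (fun x => c (x, 0)) A' -
        Xb Gm ξ (fun x => c (x, 0)) (fun y => A' (φ' Real.pi y.1, y.2)))) := by
  have sη : Sm U (eta Gm ξ) := hC.sm_eta hξ
  have hFl := smap_Fl hφ
  refine (A_part hC hξ hcl hφ hA hc hinv hU).trans (Coh.neg (Coh.of_eqv ?_))
  have hA1 : SMap Z S (fun x : E => A (x, 0)) := smap_comp hA (smap_sl 0)
  have hA0 : SMap (Cyl Z) S (fun y : E × ℝ => A (Fl φ y, 0)) :=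
    smap_comp (g := fun x : E => A (x, 0)) (f := Fl φ) hA1 hFl
  have hc0 : SMap Z S (fun x => c (x, 0)) := smap_comp hc (smap_sl 0)
  have hg : SMap (Cyl Z) U (fun y : E × ℝ => (c (y.1, 0), A (Fl φ y, 0))) :=
    ⟨fun y hy => ((smap_comp hc0 smap_fst).smooth y hy).prodMk (hA0.smooth y hy),
      fun y hy => hU _ (mem_Cyl.1 hy) _ 0 ⟨le_rfl, zero_le_one⟩⟩
  refine (K_split' (sη.pull hg)).trans (Eqv.sub ?_ ?_)
  · have r1 : SMap (Cyl Z) (Cyl Z) (fx (fun y : E => y) fun t => lam t / 2) :=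
      smap_repar contDiff_mu1
    have b : Bd Z S U (fun x => c (x, 0)) A' := ⟨hc0, hA', fun x hx s hs => by
      rw [← hp x hx s hs]; exact hU x hx _ 0 ⟨le_rfl, zero_le_one⟩⟩
    have e1 : Eqv Z (K (E := E) (F.pull (fx (fun y : E => y) fun t => lam t / 2)
        (F.pull (fun y : E × ℝ => (c (y.1, 0), A (Fl φ y, 0))) (eta Gm ξ))))
        (K (E := E) (F.pull (fun y : E × ℝ => (fun y : E × ℝ => (c (y.1, 0), A (Fl φ y, 0)))
          (fx (fun y : E => y) (fun t => lam t / 2) y)) (eta Gm ξ))) :=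
      K_eqv (E := E) ((sη.pull hg).pull r1) (sη.pull (smap_comp hg r1)) (pull_pull hg r1)
    refine e1.trans (K_pull_congr sη (smap_comp hg r1) (b.smap contDiff_lam lam_mem)
      fun y hy => ?_)
    have h2 := hp y.1 (mem_Cyl.1 hy) (lam y.2) (lam_mem _)
    simp only [fx, Fl]
    rw [← h2]
    congr 4
    ring
  · have r1 : SMap (Cyl Z) (Cyl Z) (fx (fun y : E => y) fun t => 1 - lam t / 2) :=
      smap_repar contDiff_mu3
    have hφt : SMap Z Z (φ' Real.pi) := ⟨fun x hx => hφ'.smooth_right _ hx, hφ'.maps _⟩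
    have b : Bd Z S U (fun x => c (x, 0)) (fun y => A' (φ' Real.pi y.1, y.2)) :=
      ⟨hc0, smap_comp hA' (smap_fx hφt contDiff_id), fun x hx s hs => by
        change (c (x, 0), A' (φ' Real.pi x, s)) ∈ U
        rw [← hm x hx s hs]; exact hU x hx _ 0 ⟨le_rfl, zero_le_one⟩⟩
    have e1 : Eqv Z (K (E := E) (F.pull (fx (fun y : E => y) fun t => 1 - lam t / 2)
        (F.pull (fun y : E × ℝ => (c (y.1, 0), A (Fl φ y, 0))) (eta Gm ξ))))
        (K (E := E) (F.pull (fun y : E × ℝ => (fun y : E × ℝ => (c (y.1, 0), A (Fl φ y, 0)))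
          (fx (fun y : E => y) (fun t => 1 - lam t / 2) y)) (eta Gm ξ))) :=
      K_eqv (E := E) ((sη.pull hg).pull r1) (sη.pull (smap_comp hg r1)) (pull_pull hg r1)
    refine e1.trans (K_pull_congr sη (smap_comp hg r1) (b.smap contDiff_lam lam_mem)
      fun y hy => ?_)
    have h2 := hm y.1 (mem_Cyl.1 hy) (lam y.2) (lam_mem _)
    simp only [fx, Fl]
    rw [← h2]
    congr 4
    ring

/-- **the comparison theorem, abstract form** -/
theorem compare (hC : Con S U Gm) (hξ : Sm S ξ) (hcl : Cl S ξ) {φ φ' : ℝ → E → E}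
    (hφ : CM.Cir Z φ) (hφ' : CM.Cir Z φ') {A B cA cB A' : E × ℝ → H} (hA : SMap (Cyl Z) S A)
    (hB : SMap (Cyl Z) S B) (hcA : SMap (Cyl Z) S cA) (hcB : SMap (Cyl Z) S cB)
    (hA' : SMap (Cyl Z) S A')
    (iA : ∀ x ∈ Z, ∀ t, A (φ t x, 1) = A (x, 1)) (iB : ∀ x ∈ Z, ∀ t, B (φ t x, 1) = B (x, 1))
    (UA : ∀ x ∈ Z, ∀ t : ℝ, ∀ s ∈ Icc (0 : ℝ) 1, (cA (x, s), A (φ t x, s)) ∈ U)
    (UB : ∀ x ∈ Z, ∀ t : ℝ, ∀ s ∈ Icc (0 : ℝ) 1, (cB (x, s), B (φ t x, s)) ∈ U)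
    (hAB : ∀ x ∈ Z, A (x, 0) = B (x, 0))
    (hp : ∀ x ∈ Z, ∀ s ∈ Icc (0 : ℝ) 1, A (φ (Real.pi * s) x, 0) = A' (x, s))
    (hm : ∀ x ∈ Z, ∀ s ∈ Icc (0 : ℝ) 1,
      A (φ (2 * Real.pi - Real.pi * s) x, 0) = A' (φ' Real.pi x, s))
    (h0 : ∀ x ∈ Z, ∀ t, A' (φ' t x, 0) = A' (x, 0))
    (h1 : ∀ x ∈ Z, ∀ t, A' (φ' t x, 1) = A' (x, 1))
    (hU0 : ∀ x ∈ Z, ∀ t ∈ Icc (0 : ℝ) Real.pi, ∀ s ∈ Icc (0 : ℝ) 1,
      (cA (x, 0), A' (φ' t x, s)) ∈ U)
    (hU1 : ∀ x ∈ Z, ∀ t ∈ Icc Real.pi (2 * Real.pi), ∀ s ∈ Icc (0 : ℝ) 1,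
      (cB (x, 0), A' (φ' t x, s)) ∈ U) :
    Coh Z (Wp φ (K (E := E) (F.pull A ξ)) - Wp φ (K (E := E) (F.pull B ξ)))
      (-(Wp φ' (K (E := E) (F.pull A' ξ)))) := by
  have a1 := A_bd hC hξ hcl hφ hφ' hA hcA hA' iA UA hp hm
  have a2 := A_bd hC hξ hcl hφ hφ' hB hcB hA' iB UB
    (fun x hx s hs => by rw [← hAB _ (hφ.maps _ hx)]; exact hp x hx s hs)
    (fun x hx s hs => by rw [← hAB _ (hφ.maps _ hx)]; exact hm x hx s hs)
  have a3 := F_part (c0 := fun x => cA (x, 0)) (c1 := fun x => cB (x, 0)) hC hξ hcl hφ' hA'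
    (smap_comp hcA (smap_sl 0)) (smap_comp hcB (smap_sl 0)) h0 h1 hU0 hU1
  refine (a1.sub a2).trans (Coh.trans (Coh.of_eqv (Eqv.of_eq fun x _ => ?_)) a3.neg.symm)
  simp only [Pi.sub_apply, Pi.neg_apply]
  abel

end Crest.Agent.R208.CG
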