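import Crest.Agent.R208.CG5_Mg
import Crest.Agent.R208.RK1
import Crest.Agent.R208.CG6_Mg
import Crest.Agent.R208.RS1

-- ▼ part R208/KC1
section

/-! Row 208, block RR, piece (KC) (helper613), part KC1: the estimates on the contraction `Af` near
`s = 0` and the inequality of the centres, uniformly on `Sph (US G) PN`. -/

set_option autoImplicit false
set_option linter.unusedSectionVars false
set_option linter.unusedVariables false

open Set Filter Topology MeasureTheory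
open scoped ContDiff RealInnerProductSpace Real
open Crest.GeometryTopology.Submanifold
open Crest.Agent.R241.DDefs Crest.Agent.R241.D Crest.Agent.R241.D2

noncomputable section

namespace Crest.Agent.R208.KC

open Crest.Agent.R208.SV Crest.Agent.R208.MS Crest.Agent.R208.NN Crest.Agent.R208.FL
open Crest.Agent.R208.NB

variable {n N K k : ℕ} {κ : ℝ} {S : Set (Euc N)} {G : Geo n N κ S} {lg : Euc N → Euc N → Euc N}
  {ρ : Euc N → Euc N} {r C r' Kr B w δ : ℝ} {PN : Euc N × Euc N → Wt N K →L[ℝ] Wt N K}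
  {ε E₀ η : ℝ} {J : ℕ}

/-- second order estimate of the retraction -/
theorem rho2 (hR : Retr S ρ r' Kr) (hP : ∀ x ∈ S, fderiv ℝ ρ x = G.P x) {x b : Euc N} (hx : x ∈ S)
    (hb : b ∈ G.T x) (hb' : ‖b‖ < r') : ‖ρ (x + b) - x - b‖ ≤ 2 * Kr * ‖b‖ ^ 2 := by
  have e : x + b - x = b := by abel
  have h1 := hR.taylor x hx (x + b) (by rwa [e])
  have h2 := hR.lip x hx (x + b) (by rwa [e])
  rw [e] at h1 h2
  have h3 : fderiv ℝ ρ x b = b := by rw [hP x hx]; exact (P_eq_self G hx).1 hb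
  have h4 : ‖fderiv ℝ ρ (x + b) b - b‖ ≤ Kr * ‖b‖ ^ 2 := by
    calc ‖fderiv ℝ ρ (x + b) b - b‖ = ‖(fderiv ℝ ρ (x + b) - fderiv ℝ ρ x) b‖ := by
          rw [_root_.sub_apply, h3]
      _ ≤ ‖fderiv ℝ ρ (x + b) - fderiv ℝ ρ x‖ * ‖b‖ := ContinuousLinearMap.le_opNorm _ _
      _ ≤ Kr * ‖b‖ * ‖b‖ := by gcongr
      _ = Kr * ‖b‖ ^ 2 := by ring
  calc ‖ρ (x + b) - x - b‖ = ‖(ρ (x + b) - x - fderiv ℝ ρ (x + b) b) +
        (fderiv ℝ ρ (x + b) b - b)‖ := by congr 1; abel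
    _ ≤ Kr * ‖b‖ ^ 2 + Kr * ‖b‖ ^ 2 := (norm_add_le _ _).trans (add_le_add h1 h4)
    _ = 2 * Kr * ‖b‖ ^ 2 := by ring

/-- every point of the orbit is a point of `[0, 2π]` -/
theorem exists_mod_Af (h : D1 G k K lg ρ r C r' Kr B w δ PN ε J E₀ η)
    {q : (Euc N × Euc N) × Wt N K} (hq : q ∈ FI.Tot (L.US G) PN) (s t : ℝ) :
    ∃ t' ∈ Icc (0 : ℝ) (2 * π), Af G lg ρ w J ε (Ph G K t q, s) =
      Af G lg ρ w J ε (Ph G K t' q, s) := by
  have hl := loop_oc h.cir h.fam (FL.sc_mem (s := s) hq)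
  have hp : Function.Periodic (oc (Ph G K) (f1 G lg ρ w J ε) (FL.sc s q)) (2 * π) := hl.per
  obtain ⟨t', ht', he⟩ := hp.exists_mem_Ico₀ (by positivity) t
  refine ⟨t', ⟨ht'.1, ht'.2.le⟩, ?_⟩
  change f1 G lg ρ w J ε (FL.sc s (Ph G K t q)) = f1 G lg ρ w J ε (FL.sc s (Ph G K t' q))
  rw [← Ph_sc, ← Ph_sc]
  exact he

/-- the geodesic as `Exp` -/
theorem ga_eq {z : Euc N × Euc N} (hz : z ∈ L.US G) (t : ℝ) :
    (fl G (z, t)).1 = Exp G z.1 (t • z.2) := (Exp_smul G hz.1.1 hz.1.2 t).symm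

/-- the constants -/
structure Bd (G : Geo n N κ S) (k K : ℕ) (ρ : Euc N → Euc N) (sg : Euc N → Euc N → Euc N)
    (PN : Euc N × Euc N → Wt N K →L[ℝ] Wt N K) (h : GT.Bla G k) (e0 : ℝ) : Prop where
  pos : 0 < e0
  lt : ∀ q ∈ T.Sph (L.US G) PN, ∀ e, 0 < e → e ≤ e0 →
    intrinsicDist S q.1.1 (ρ (q.1.1 + e • fd G q.1 (nuP K) q.2 0)) < π
  cen : ∀ q ∈ T.Sph (L.US G) PN, ∀ e, 0 < e → e ≤ e0 → ∀ τ ∈ Icc (0 : ℝ) 1,
    ∀ t ∈ Icc (0 : ℝ) (2 * π), intrinsicDist S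
      (Exp G q.1.1 ((1 - τ) • sg q.1.1 (ρ (q.1.1 + e • fd G q.1 (nuP K) q.2 0)) +
        (τ * (π / 2)) • RK.dir h PN q))
      (ρ ((fl G (q.1, t)).1 + e • fd G q.1 (nuP K) q.2 t)) < π

set_option maxHeartbeats 1000000 in
theorem exists_Bd (h : GT.Bla G k) (hkn : k < n) (H : NegB G (k - 1) (nuP K) δ PN)
    (hR : Retr S ρ r' Kr) (hP : ∀ x ∈ S, fderiv ℝ ρ x = G.P x)
    {sg : Euc N → Euc N → Euc N} (hsg : ∀ x ∈ S, ∀ y ∈ S, sg x y ∈ G.T x ∧
      ‖sg x y‖ = intrinsicDist S x y ∧ Exp G x (sg x y) = y) :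
    ∃ e0, Bd G k K ρ sg PN h e0 := by
  have hpi := Real.pi_pos
  have hKr : 0 ≤ Kr := zero_le_one.trans hR.one_le
  have hr' := hR.r_pos
  obtain ⟨κm, hκm, hlow⟩ := RK.lower h hkn H
  obtain ⟨C1, hC1, hfd⟩ := exists_bound_fd h.bl.cpt G (nuP K)
  obtain ⟨K1, hK1, hII⟩ := MS.exists_II_bound (G := G) h.bl.cpt
  have hK1' : 0 ≤ K1 := zero_le_one.trans hK1
  obtain ⟨δ1, hδ1, hδb⟩ := uniform_joinedLen h.bl.sub h.bl.cpt zero_lt_one
  obtain ⟨D, hD⟩ : ∃ D, D = C1 + 2 * Kr * C1 ^ 2 := ⟨_, rfl⟩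
  have hD0 : 0 ≤ D := by rw [hD]; positivity
  obtain ⟨Cc, hCc⟩ : ∃ Cc, Cc = C1 + 2 * Kr * C1 ^ 2 + K1 * (2 * D) ^ 2 := ⟨_, rfl⟩
  have hCc0 : 0 ≤ Cc := by rw [hCc]; positivity
  have hCc1 : C1 ≤ Cc := by
    have : 0 ≤ 2 * Kr * C1 ^ 2 + K1 * (2 * D) ^ 2 := by positivity
    rw [hCc]; linarith
  have hCc2 : 2 * Kr * C1 ^ 2 ≤ Cc := by
    have : 0 ≤ C1 + K1 * (2 * D) ^ 2 := by positivity
    rw [hCc]; linarith
  have hCc3 : 2 * Kr * C1 ^ 2 + K1 * (2 * D) ^ 2 ≤ Cc := by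
    rw [hCc]; linarith
  obtain ⟨ε0, hε0, hε01, hcen⟩ := RE.centre_unif h hCc0 hκm
  obtain ⟨e0, he0, he0ε, he0r, he0δ, he0π⟩ : ∃ e0 : ℝ, 0 < e0 ∧ e0 ≤ ε0 ∧ e0 * C1 < r' ∧
      D * e0 < δ1 ∧ 2 * D * e0 < π := by
    refine ⟨min ε0 (min (r' / (C1 + 1)) (min (δ1 / (D + 1)) (1 / (D + 1)))), by positivity,
      min_le_left _ _, ?_, ?_, ?_⟩
    · have h1 : min ε0 (min (r' / (C1 + 1)) (min (δ1 / (D + 1)) (1 / (D + 1)))) ≤ r' / (C1 + 1) :=
        (min_le_right _ _).trans (min_le_left _ _)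
      calc _ ≤ r' / (C1 + 1) * C1 := by gcongr
        _ < r' := by rw [div_mul_eq_mul_div, div_lt_iff₀ (by positivity)]; nlinarith
    · have h1 : min ε0 (min (r' / (C1 + 1)) (min (δ1 / (D + 1)) (1 / (D + 1)))) ≤ δ1 / (D + 1) :=
        (min_le_right _ _).trans ((min_le_right _ _).trans (min_le_left _ _))
      calc _ ≤ D * (δ1 / (D + 1)) := by gcongr
        _ < δ1 := by rw [← mul_div_assoc, div_lt_iff₀ (by positivity)]; nlinarith
    · have h1 : min ε0 (min (r' / (C1 + 1)) (min (δ1 / (D + 1)) (1 / (D + 1)))) ≤ 1 / (D + 1) :=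
        (min_le_right _ _).trans ((min_le_right _ _).trans (min_le_right _ _))
      calc _ ≤ 2 * D * (1 / (D + 1)) := by gcongr
        _ ≤ 2 := by rw [mul_one_div, div_le_iff₀ (by positivity)]; nlinarith
        _ < π := by linarith [Real.pi_gt_three]
  -- common part
  have key : ∀ q ∈ T.Sph (L.US G) PN, ∀ e, 0 < e → e ≤ e0 → ∀ t : ℝ,
      ‖fd G q.1 (nuP K) q.2 t‖ ≤ C1 ∧ ‖e • fd G q.1 (nuP K) q.2 t‖ < r' ∧
      (fl G (q.1, t)).1 ∈ S ∧ ρ ((fl G (q.1, t)).1 + e • fd G q.1 (nuP K) q.2 t) ∈ S ∧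
      ‖ρ ((fl G (q.1, t)).1 + e • fd G q.1 (nuP K) q.2 t) - (fl G (q.1, t)).1 -
        e • fd G q.1 (nuP K) q.2 t‖ ≤ 2 * Kr * C1 ^ 2 * e ^ 2 := by
    intro q hq e he hee t
    have hq1 : ‖q.2‖ = 1 := hq.2
    have h1 := (hfd q.1 hq.1.1 q.2 t).1
    rw [hq1, mul_one] at h1
    have h2 : ‖e • fd G q.1 (nuP K) q.2 t‖ ≤ e * C1 := by
      rw [norm_smul, Real.norm_of_nonneg he.le]; gcongr
    have h3 : e * C1 ≤ e0 * C1 := by gcongr
    have h4 : ‖e • fd G q.1 (nuP K) q.2 t‖ < r' := (h2.trans h3).trans_lt he0r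
    have h5 : (fl G (q.1, t)).1 ∈ S := (fl_mem G hq.1.1.1 t).1
    refine ⟨h1, h4, h5, hR.mem _ h5 _ (by rwa [add_sub_cancel_left]), ?_⟩
    have h6 := rho2 hR hP h5 ((G.T _).smul_mem e (fd_mem hq.1.1.1 (nuP K) q.2 t)) h4
    refine h6.trans ?_
    calc 2 * Kr * ‖e • fd G q.1 (nuP K) q.2 t‖ ^ 2 ≤ 2 * Kr * (e * C1) ^ 2 := by gcongr
      _ = 2 * Kr * C1 ^ 2 * e ^ 2 := by ring
  -- the starting point
  have start : ∀ q ∈ T.Sph (L.US G) PN, ∀ e, 0 < e → e ≤ e0 →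
      intrinsicDist S q.1.1 (ρ (q.1.1 + e • fd G q.1 (nuP K) q.2 0)) ≤ 2 * D * e := by
    intro q hq e he hee
    obtain ⟨k1, k2, k3, k4, k5⟩ := key q hq e he hee 0
    have h0 : (fl G (q.1, 0)).1 = q.1.1 := by rw [fl_zero G]
    rw [h0] at k3 k4 k5
    have he1 : e ≤ 1 := hee.trans (he0ε.trans hε01)
    have h1 : ‖ρ (q.1.1 + e • fd G q.1 (nuP K) q.2 0) - q.1.1‖ ≤ D * e := by
      calc ‖ρ (q.1.1 + e • fd G q.1 (nuP K) q.2 0) - q.1.1‖ =
            ‖(ρ (q.1.1 + e • fd G q.1 (nuP K) q.2 0) - q.1.1 - e • fd G q.1 (nuP K) q.2 0) +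
              e • fd G q.1 (nuP K) q.2 0‖ := by congr 1; abel
        _ ≤ 2 * Kr * C1 ^ 2 * e ^ 2 + e * C1 := by
            refine (norm_add_le _ _).trans (add_le_add k5 ?_)
            rw [norm_smul, Real.norm_of_nonneg he.le]; gcongr
        _ ≤ 2 * Kr * C1 ^ 2 * e + e * C1 := by
            have h2 : e ^ 2 ≤ e := by nlinarith
            gcongr
        _ = D * e := by rw [hD]; ring
    have h2 : D * e ≤ D * e0 := by gcongr
    obtain ⟨ℓ, l1, l2⟩ := hδb q.1.1 k3 _ k4 (by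
      rw [dist_comm, dist_eq_norm]; exact (h1.trans h2).trans_lt he0δ)
    refine (intrinsicDist_le l1).trans (l2.trans ?_)
    linarith
  refine ⟨e0, he0, fun q hq e he hee => ?_, fun q hq e he hee τ hτ t ht => ?_⟩
  · have h1 := start q hq e he hee
    have h2 : 2 * D * e ≤ 2 * D * e0 := by gcongr
    linarith
  · have hz := hq.1.1
    have hF := NN.mem_FF h hz
    have hq2 : q.2 ≠ 0 := by
      intro h0
      have := hq.2
      rw [h0, norm_zero] at this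
      exact zero_ne_one this
    have hdm : RK.dir h PN q ∈ GT.Vs G q.1.1 (qq G q.1) := RK.dir_mem h hkn hz hq.1.2
    have hdn : ‖RK.dir h PN q‖ = 1 := RK.norm_dir h H hkn hz hq.1.2 hq2
    have hdv : ⟪q.1.2, RK.dir h PN q⟫ = 0 := RK.inner_dir_v h hkn hz hq.1.2
    have hpr := RK.pairing_ar h H hlow hkn hz hq.1.2 hq2
    rw [hq.2, mul_one] at hpr
    obtain ⟨k1, k2, k3, k4, k5⟩ := key q hq e he hee 0
    have h0 : (fl G (q.1, 0)).1 = q.1.1 := by rw [fl_zero G]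
    rw [h0] at k3 k4 k5
    obtain ⟨s1, s2, s3⟩ := hsg q.1.1 k3 _ k4
    refine hcen q.1.1 (qq G q.1) q.1.2 (RK.dir h PN q) hF (NN.mem_Vs hz) hz.2 hdm hdn hdv
      (fd G q.1 (nuP K) q.2) (fun t _ => ((key q hq e he hee t).1).trans hCc1) (fun t ht => ?_)
      hpr e he (hee.trans he0ε) (fun t => ρ ((fl G (q.1, t)).1 + e • fd G q.1 (nuP K) q.2 t))
      (fun t _ => (key q hq e he hee t).2.2.2.1) (fun t _ => ?_) _ s1 ?_ τ hτ t ht
    · -- Lipschitz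
      have h1 : ‖fd G q.1 (nuP K) q.2 t - fd G q.1 (nuP K) q.2 π‖ ≤ C1 * ‖t - π‖ := by
        refine Convex.norm_image_sub_le_of_norm_hasDerivWithin_le (s := univ)
          (f := fd G q.1 (nuP K) q.2) (f' := fd' G q.1 (nuP K) q.2)
          (fun x _ => (hasDerivAt_fd hz.1 (nuP K) q.2 x).hasDerivWithinAt) (fun x _ => ?_)
          convex_univ (mem_univ _) (mem_univ _)
        have h2 := (hfd q.1 hz q.2 x).2.1
        rwa [hq.2, mul_one] at h2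
      refine h1.trans ?_
      rw [Real.norm_eq_abs]
      gcongr
    · rw [← ga_eq hz t]
      refine (key q hq e he hee t).2.2.2.2.trans ?_
      gcongr
    · have h1 := start q hq e he hee
      rw [← s2] at h1
      have h2 := MS.norm_Exp_sub hII hK1' k3 s1
      rw [s3] at h2
      have h3 : ‖sg q.1.1 (ρ (q.1.1 + e • fd G q.1 (nuP K) q.2 0))‖ ^ 2 ≤ (2 * D * e) ^ 2 := by
        gcongr
      calc ‖sg q.1.1 (ρ (q.1.1 + e • fd G q.1 (nuP K) q.2 0)) - e • fd G q.1 (nuP K) q.2 0‖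
          = ‖(ρ (q.1.1 + e • fd G q.1 (nuP K) q.2 0) - q.1.1 - e • fd G q.1 (nuP K) q.2 0) -
            (ρ (q.1.1 + e • fd G q.1 (nuP K) q.2 0) - q.1.1 -
              sg q.1.1 (ρ (q.1.1 + e • fd G q.1 (nuP K) q.2 0)))‖ := by congr 1; abel
        _ ≤ 2 * Kr * C1 ^ 2 * e ^ 2 + K1 * (2 * D * e) ^ 2 := by
            refine (norm_sub_le _ _).trans (add_le_add k5 (h2.trans ?_))
            gcongr
        _ = (2 * Kr * C1 ^ 2 + K1 * (2 * D) ^ 2) * e ^ 2 := by ring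
        _ ≤ Cc * e ^ 2 := by gcongr

end Crest.Agent.R208.KC
end
end

-- ▼ part R208/KC2

/-! Row 208, block RR, piece (KC) (helper613), part KC2: **the centre path for the contraction `Af`**. -/

set_option autoImplicit false
set_option linter.unusedSectionVars false
set_option linter.unusedVariables false

open Set Filter Topology MeasureTheory
open scoped ContDiff RealInnerProductSpace Real
open Crest.GeometryTopology.Submanifold
open Crest.Agent.R241.DDefs Crest.Agent.R241.D Crest.Agent.R241.D2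

noncomputable section

namespace Crest.Agent.R208.KC

open Crest.Agent.R208.SV Crest.Agent.R208.MS Crest.Agent.R208.NN Crest.Agent.R208.FL
open Crest.Agent.R208.NB

/-! ### cut-offs -/

/-- `1` for `s ≤ a/4`, `0` for `s ≥ a/2` -/
def tc (a s : ℝ) : ℝ := 1 - Real.smoothTransition ((s - a / 4) / (a / 4))

/-- `0` for `s ≤ a/2`, `1` for `s ≥ 3a/4` -/
def xc (a s : ℝ) : ℝ := Real.smoothTransition ((s - a / 2) / (a / 4))

theorem contDiff_tc (a : ℝ) : ContDiff ℝ ∞ (tc a) :=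
  contDiff_const.sub (Real.smoothTransition.contDiff.comp
    ((contDiff_id.sub contDiff_const).div_const _))

theorem contDiff_xc (a : ℝ) : ContDiff ℝ ∞ (xc a) :=
  Real.smoothTransition.contDiff.comp ((contDiff_id.sub contDiff_const).div_const _)

theorem tc_one {a s : ℝ} (ha : 0 < a) (hs : s ≤ a / 4) : tc a s = 1 := by
  rw [tc, Real.smoothTransition.zero_of_nonpos, sub_zero]
  exact div_nonpos_of_nonpos_of_nonneg (by linarith) (by positivity)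

theorem tc_zero {a s : ℝ} (ha : 0 < a) (hs : a / 2 ≤ s) : tc a s = 0 := by
  rw [tc, Real.smoothTransition.one_of_one_le, sub_self]
  rw [one_le_div (by positivity)]
  linarith

theorem tc_mem (a s : ℝ) : tc a s ∈ Icc (0 : ℝ) 1 := by
  have h1 := Real.smoothTransition.nonneg ((s - a / 4) / (a / 4))
  have h2 := Real.smoothTransition.le_one ((s - a / 4) / (a / 4))
  unfold tc
  exact ⟨by linarith, by linarith⟩

theorem xc_zero {a s : ℝ} (ha : 0 < a) (hs : s ≤ a / 2) : xc a s = 0 := by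
  rw [xc, Real.smoothTransition.zero_of_nonpos]
  exact div_nonpos_of_nonpos_of_nonneg (by linarith) (by positivity)

theorem xc_one {a s : ℝ} (ha : 0 < a) (hs : 3 * a / 4 ≤ s) : xc a s = 1 := by
  rw [xc, Real.smoothTransition.one_of_one_le]
  rw [one_le_div (by positivity)]
  linarith

variable {n N K k : ℕ} {κ : ℝ} {S : Set (Euc N)} {G : Geo n N κ S} {lg : Euc N → Euc N → Euc N}
  {ρ : Euc N → Euc N} {r C r' Kr B w δ : ℝ} {PN : Euc N × Euc N → Wt N K →L[ℝ] Wt N K}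
  {ε E₀ η : ℝ} {J : ℕ} {sg : Euc N → Euc N → Euc N}

/-- the centre for small `s` -/
def cE (G : Geo n N κ S) (hb : GT.Bla G k) (PN : Euc N × Euc N → Wt N K →L[ℝ] Wt N K)
    (sg lg : Euc N → Euc N → Euc N) (ρ : Euc N → Euc N) (w : ℝ) (J : ℕ) (ε a : ℝ)
    (x : ((Euc N × Euc N) × Wt N K) × ℝ) : Euc N :=
  Exp G x.1.1.1 ((1 - tc a x.2) • sg x.1.1.1 (Af G lg ρ w J ε x) +
    (tc a x.2 * (π / 2)) • RK.dir hb PN x.1)

/-- **the centre path** -/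
def cA (G : Geo n N κ S) (hb : GT.Bla G k) (PN : Euc N × Euc N → Wt N K →L[ℝ] Wt N K)
    (sg lg : Euc N → Euc N → Euc N) (ρ : Euc N → Euc N) (w : ℝ) (J : ℕ) (ε a : ℝ)
    (x : ((Euc N × Euc N) × Wt N K) × ℝ) : Euc N :=
  ρ ((1 - xc a x.2) • cE G hb PN sg lg ρ w J ε a x + xc a x.2 • Af G lg ρ w J ε x)

/-- what is needed of `a` -/
structure Sm0 (G : Geo n N κ S) (hb : GT.Bla G k) (PN : Euc N × Euc N → Wt N K →L[ℝ] Wt N K)
    (sg : Euc N → Euc N → Euc N) (ρ : Euc N → Euc N) (ε a : ℝ) : Prop where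
  bd : ∃ e0, Bd G k K ρ sg PN hb e0 ∧ ∀ s ≤ a, ε * gs s ≤ e0 ∧ gs s ≤ 1
  pos : 0 < a
  mem : ∀ x ∈ S, ∀ y ∈ S, sg x y ∈ G.T x ∧ ‖sg x y‖ = intrinsicDist S x y ∧ Exp G x (sg x y) = y
  sm : ∀ x ∈ S, ∀ y ∈ S, intrinsicDist S x y < π →
      ContDiffAt ℝ ∞ (fun q : Euc N × Euc N => sg q.1 q.2) (x, y)

section
variable {a : ℝ} {q : (Euc N × Euc N) × Wt N K}

theorem tot_of_sph (hq : q ∈ T.Sph (L.US G) PN) : q ∈ FI.Tot (L.US G) PN := hq.1

theorem ne_of_sph (hq : q ∈ T.Sph (L.US G) PN) : q.2 ≠ 0 := by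
  intro h0
  have h1 : ‖q.2‖ = 1 := hq.2
  rw [h0, norm_zero] at h1
  exact zero_ne_one h1

theorem Ph_zero (q : (Euc N × Euc N) × Wt N K) (hq : q ∈ FI.Tot (L.US G) PN) :
    Ph G K 0 q = q := by
  refine Prod.ext ?_ ?_
  · change fl G (q.1, 0) = q.1
    exact fl_zero G _
  · exact Rt_zero _ _

/-- the value of `Af` for small `s` -/
theorem Af_start (h : D1 G k K lg ρ r C r' Kr B w δ PN ε J E₀ η) (hq : q ∈ T.Sph (L.US G) PN)
    {s : ℝ} (hs : gs s ≤ 1) : Af G lg ρ w J ε (q, s) =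
      ρ (q.1.1 + (ε * gs s) • NN.fd G q.1 (nuP K) q.2 0) := by
  have h1 := h.Af_near (tot_of_sph hq) hq.2 hs 0
  rw [Ph_zero q hq.1, fl_zero G] at h1
  exact h1

theorem dist_Af_start (h : D1 G k K lg ρ r C r' Kr B w δ PN ε J E₀ η)
    (ha : Sm0 G h.bla PN sg ρ ε a) (hq : q ∈ T.Sph (L.US G) PN) {s : ℝ} (hs : s ≤ a) :
    intrinsicDist S q.1.1 (Af G lg ρ w J ε (q, s)) < π := by
  obtain ⟨e0, hB, he⟩ := ha.bd
  rcases le_or_gt s 0 with h0 | h0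
  · rw [h.Af_zero (tot_of_sph hq) h0]
    have h1 := (ha.mem q.1.1 hq.1.1.1.1 q.1.1 hq.1.1.1.1).2.1
    have h2 : intrinsicDist S q.1.1 q.1.1 = 0 := by
      have h3 := h.bla.bl.dist_ray hq.1.1.1.1 hq.1.1.1.2 hq.1.1.2 (s := 0) (t := 0) le_rfl
        (by rw [sub_zero]; exact Real.pi_pos.le)
      rwa [zero_smul, Exp_zero G hq.1.1.1.1, sub_zero] at h3
    rw [h2]
    exact Real.pi_pos
  · rw [Af_start h hq (he s hs).2]
    exact hB.lt q hq _ (mul_pos h.eps_pos (gs_pos h0)) (he s hs).1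

theorem contDiffAt_cE (h : D1 G k K lg ρ r C r' Kr B w δ PN ε J E₀ η) (hkn : k < n)
    (ha : Sm0 G h.bla PN sg ρ ε a) (hq : q ∈ T.Sph (L.US G) PN) {s : ℝ} (hs : s ≤ a) :
    ContDiffAt ℝ ∞ (cE G h.bla PN sg lg ρ w J ε a) (q, s) := by
  have hp : q.1.1 ∈ S := hq.1.1.1.1
  have hA := h.Af_mem (tot_of_sph hq) s
  obtain ⟨m1, m2, m3⟩ := ha.mem _ hp _ hA
  have hdm : RK.dir h.bla PN q ∈ G.T q.1.1 :=
    h.bla.Vs_le (NN.mem_FF h.bla hq.1.1) (RK.dir_mem h.bla hkn hq.1.1 hq.1.2)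
  have h1 : ContDiffAt ℝ ∞ (fun x : ((Euc N × Euc N) × Wt N K) × ℝ => x.1.1.1) (q, s) := by
    fun_prop
  have h2 := h.contDiffAt_Af (tot_of_sph hq) s
  have h3 : ContDiffAt ℝ ∞ (fun x : ((Euc N × Euc N) × Wt N K) × ℝ =>
      sg x.1.1.1 (Af G lg ρ w J ε x)) (q, s) :=
    ContDiffAt.comp (q, s) (g := fun q : Euc N × Euc N => sg q.1 q.2)
      (f := fun x : ((Euc N × Euc N) × Wt N K) × ℝ => (x.1.1.1, Af G lg ρ w J ε x))
      (ha.sm _ hp _ hA (dist_Af_start h ha hq hs)) (h1.prodMk h2)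
  have h4 : ContDiffAt ℝ ∞ (fun x : ((Euc N × Euc N) × Wt N K) × ℝ => RK.dir h.bla PN x.1)
      (q, s) :=
    ContDiffAt.comp (q, s) (g := RK.dir h.bla PN) (f := Prod.fst)
      (RK.contDiffAt_dir h.bla h.neg hkn hq.1.1 hq.1.2 (ne_of_sph hq)) contDiffAt_fst
  have h5 : ContDiffAt ℝ ∞ (fun x : ((Euc N × Euc N) × Wt N K) × ℝ => tc a x.2) (q, s) :=
    ((contDiff_tc a).comp contDiff_snd).contDiffAt
  have h6 : ContDiffAt ℝ ∞ (fun x : ((Euc N × Euc N) × Wt N K) × ℝ =>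
      (1 - tc a x.2) • sg x.1.1.1 (Af G lg ρ w J ε x) +
        (tc a x.2 * (π / 2)) • RK.dir h.bla PN x.1) (q, s) :=
    ((contDiffAt_const.sub h5).smul h3).add ((h5.mul contDiffAt_const).smul h4)
  exact ContDiffAt.comp (q, s) (g := fun y : Euc N × Euc N => Exp G y.1 y.2)
    (f := fun x : ((Euc N × Euc N) × Wt N K) × ℝ => (x.1.1.1,
      (1 - tc a x.2) • sg x.1.1.1 (Af G lg ρ w J ε x) +
        (tc a x.2 * (π / 2)) • RK.dir h.bla PN x.1))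
    (contDiffAt_Exp G hp ((G.T _).add_mem ((G.T _).smul_mem _ m1) ((G.T _).smul_mem _ hdm)))
    (h1.prodMk h6)

theorem cE_mem (h : D1 G k K lg ρ r C r' Kr B w δ PN ε J E₀ η) (hkn : k < n)
    (ha : Sm0 G h.bla PN sg ρ ε a) (hq : q ∈ T.Sph (L.US G) PN) (s : ℝ) :
    cE G h.bla PN sg lg ρ w J ε a (q, s) ∈ S := by
  have hp : q.1.1 ∈ S := hq.1.1.1.1
  have hA := h.Af_mem (tot_of_sph hq) s
  obtain ⟨m1, m2, m3⟩ := ha.mem _ hp _ hA
  have hdm : RK.dir h.bla PN q ∈ G.T q.1.1 :=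
    h.bla.Vs_le (NN.mem_FF h.bla hq.1.1) (RK.dir_mem h.bla hkn hq.1.1 hq.1.2)
  exact Exp_mem G hp ((G.T _).add_mem ((G.T _).smul_mem _ m1) ((G.T _).smul_mem _ hdm))

/-- `cA = cE` for `s ≤ a/2` -/
theorem cA_eq_cE (h : D1 G k K lg ρ r C r' Kr B w δ PN ε J E₀ η) (hkn : k < n)
    (ha : Sm0 G h.bla PN sg ρ ε a) (hq : q ∈ T.Sph (L.US G) PN) {s : ℝ} (hs : s ≤ a / 2) :
    cA G h.bla PN sg lg ρ w J ε a (q, s) = cE G h.bla PN sg lg ρ w J ε a (q, s) := by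
  unfold cA
  rw [xc_zero ha.pos hs, sub_zero, one_smul, zero_smul, add_zero,
    h.rt.eq _ (cE_mem h hkn ha hq s)]

theorem cE_eq_Af (h : D1 G k K lg ρ r C r' Kr B w δ PN ε J E₀ η)
    (ha : Sm0 G h.bla PN sg ρ ε a) (hq : q ∈ T.Sph (L.US G) PN) {s : ℝ} (hs : a / 2 ≤ s) :
    cE G h.bla PN sg lg ρ w J ε a (q, s) = Af G lg ρ w J ε (q, s) := by
  unfold cE
  rw [tc_zero ha.pos hs, sub_zero, one_smul, zero_mul, zero_smul, add_zero]
  exact (ha.mem _ hq.1.1.1.1 _ (h.Af_mem (tot_of_sph hq) s)).2.2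

/-- `cA = Af` for `s ≥ a/2` -/
theorem cA_eq_Af (h : D1 G k K lg ρ r C r' Kr B w δ PN ε J E₀ η)
    (ha : Sm0 G h.bla PN sg ρ ε a) (hq : q ∈ T.Sph (L.US G) PN) {s : ℝ} (hs : a / 2 ≤ s) :
    cA G h.bla PN sg lg ρ w J ε a (q, s) = Af G lg ρ w J ε (q, s) := by
  unfold cA
  change ρ ((1 - xc a s) • cE G h.bla PN sg lg ρ w J ε a (q, s) +
    xc a s • Af G lg ρ w J ε (q, s)) = _
  rw [cE_eq_Af h ha hq hs, ← add_smul, sub_add_cancel, one_smul,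
    h.rt.eq _ (h.Af_mem (tot_of_sph hq) s)]

theorem cA_mem (h : D1 G k K lg ρ r C r' Kr B w δ PN ε J E₀ η) (hkn : k < n)
    (ha : Sm0 G h.bla PN sg ρ ε a) (hq : q ∈ T.Sph (L.US G) PN) (s : ℝ) :
    cA G h.bla PN sg lg ρ w J ε a (q, s) ∈ S := by
  rcases le_total s (a / 2) with hs | hs
  · rw [cA_eq_cE h hkn ha hq hs]; exact cE_mem h hkn ha hq s
  · rw [cA_eq_Af h ha hq hs]; exact h.Af_mem (tot_of_sph hq) s

theorem contDiffAt_cA (h : D1 G k K lg ρ r C r' Kr B w δ PN ε J E₀ η) (hkn : k < n)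
    (ha : Sm0 G h.bla PN sg ρ ε a) (hq : q ∈ T.Sph (L.US G) PN) (s : ℝ) :
    ContDiffAt ℝ ∞ (cA G h.bla PN sg lg ρ w J ε a) (q, s) := by
  have hapos := ha.pos
  have hA := h.contDiffAt_Af (tot_of_sph hq) s
  have hAm := h.Af_mem (tot_of_sph hq) s
  have hρ : ∀ y ∈ S, ContDiffAt ℝ ∞ ρ y := fun y hy =>
    h.rt.smooth y hy y (by rw [sub_self, norm_zero]; exact h.rt.r_pos)
  have hx : ContDiffAt ℝ ∞ (fun x : ((Euc N × Euc N) × Wt N K) × ℝ => xc a x.2) (q, s) :=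
    ((contDiff_xc a).comp contDiff_snd).contDiffAt
  rcases lt_or_ge s a with hs | hs
  · have hE := contDiffAt_cE h hkn ha hq hs.le
    have h1 : ContDiffAt ℝ ∞ (fun x : ((Euc N × Euc N) × Wt N K) × ℝ =>
        (1 - xc a x.2) • cE G h.bla PN sg lg ρ w J ε a x + xc a x.2 • Af G lg ρ w J ε x) (q, s) :=
      ((contDiffAt_const.sub hx).smul hE).add (hx.smul hA)
    have h2 : (1 - xc a s) • cE G h.bla PN sg lg ρ w J ε a (q, s) +
        xc a s • Af G lg ρ w J ε (q, s) ∈ S := by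
      rcases le_total s (a / 2) with hs' | hs'
      · rw [xc_zero hapos hs', sub_zero, one_smul, zero_smul, add_zero]
        exact cE_mem h hkn ha hq s
      · rw [cE_eq_Af h ha hq hs', ← add_smul, sub_add_cancel, one_smul]
        exact hAm
    exact ContDiffAt.comp (q, s) (g := ρ) (f := fun x : ((Euc N × Euc N) × Wt N K) × ℝ =>
        (1 - xc a x.2) • cE G h.bla PN sg lg ρ w J ε a x + xc a x.2 • Af G lg ρ w J ε x)
        (hρ _ h2) h1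
  · have h1 : cA G h.bla PN sg lg ρ w J ε a =ᶠ[𝓝 (q, s)] fun x => ρ (Af G lg ρ w J ε x) := by
      have h2 : ∀ᶠ x : ((Euc N × Euc N) × Wt N K) × ℝ in 𝓝 (q, s), 3 * a / 4 < x.2 :=
        continuousAt_snd.eventually (lt_mem_nhds (by linarith))
      filter_upwards [h2] with x hx
      unfold cA
      rw [xc_one hapos hx.le, sub_self, zero_smul, zero_add, one_smul]
    refine ContDiffAt.congr_of_eventuallyEq ?_ h1
    exact ContDiffAt.comp (q, s) (g := ρ) (f := Af G lg ρ w J ε) (hρ _ hAm) hA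

/-- the value at `s ≤ 0` -/
theorem cA_zero (h : D1 G k K lg ρ r C r' Kr B w δ PN ε J E₀ η) (hkn : k < n)
    (ha : Sm0 G h.bla PN sg ρ ε a) (hq : q ∈ T.Sph (L.US G) PN) {s : ℝ} (hs : s ≤ 0) :
    cA G h.bla PN sg lg ρ w J ε a (q, s) = Exp G q.1.1 ((π / 2) • RK.dir h.bla PN q) := by
  have hapos := ha.pos
  rw [cA_eq_cE h hkn ha hq (by linarith)]
  unfold cE
  rw [tc_one hapos (by linarith), sub_self, zero_smul, zero_add, one_mul]

/-- **the centre has distance `< π` to the loop** -/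
theorem dist_cA (h : D1 G k K lg ρ r C r' Kr B w δ PN ε J E₀ η) (hkn : k < n)
    (ha : Sm0 G h.bla PN sg ρ ε a) (hq : q ∈ T.Sph (L.US G) PN) {s : ℝ} (hs : 0 ≤ s) (t : ℝ) :
    intrinsicDist S (cA G h.bla PN sg lg ρ w J ε a (q, s)) (Af G lg ρ w J ε (Ph G K t q, s)) <
      π := by
  have hapos := ha.pos
  have hz := hq.1.1
  have hpi := Real.pi_pos
  obtain ⟨e0, hB, he⟩ := ha.bd
  obtain ⟨t', ht', het⟩ := exists_mod_Af h (tot_of_sph hq) s t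
  rw [het]
  rcases hs.eq_or_lt with rfl | hs0
  · -- `s = 0`
    rw [cA_zero h hkn ha hq le_rfl, h.Af_near (tot_of_sph hq) hq.2 (by rw [gs_zero le_rfl]; norm_num),
      gs_zero le_rfl, mul_zero, zero_smul, add_zero, h.rt.eq _ (fl_mem G hz.1 t').1, ga_eq hz t']
    obtain ⟨d, hd, hfar⟩ := RE.far_unif h.bla (r := π / 2) (by positivity)
    have h1 := hfar q.1.1 q.1.2 (RK.dir h.bla PN q) (RE.mem_V2 h.bla (NN.mem_FF h.bla hz)
      (NN.mem_Vs hz) hz.2 (RK.dir_mem h.bla hkn hz hq.1.2)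
      (RK.norm_dir h.bla h.neg hkn hz hq.1.2 (ne_of_sph hq)) (RK.inner_dir_v h.bla hkn hz hq.1.2))
      (π / 2) ⟨by positivity, le_rfl⟩ t' ht' (Or.inl le_rfl)
    linarith
  · rcases le_total s (a / 2) with hsa | hsa
    · obtain ⟨he1, he2⟩ := he s (by linarith)
      rw [cA_eq_cE h hkn ha hq hsa, h.Af_near (tot_of_sph hq) hq.2 he2 t']
      unfold cE
      rw [Af_start h hq he2]
      exact hB.cen q hq _ (mul_pos h.eps_pos (gs_pos hs0)) he1 _ (tc_mem a s) t' ht'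
    · rw [cA_eq_Af h ha hq hsa]
      have h1 := h.dist_Af_lt (tot_of_sph hq) (ne_of_sph hq) hs0 0 t'
      rwa [Ph_zero q hq.1] at h1

end

/-- the data exist -/
theorem exists_Sm0 (h : D1 G k K lg ρ r C r' Kr B w δ PN ε J E₀ η) (hkn : k < n) :
    ∃ sg a, Sm0 G h.bla PN sg ρ ε a := by
  obtain ⟨sg, h1, h2, -, -⟩ := RS.exists_sg h.bla.bl
  obtain ⟨e0, hB⟩ := exists_Bd h.bla hkn h.neg h.rt h.der h1
  have hε := h.eps_pos
  have he0 := hB.pos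
  have hc : ContinuousAt gs 0 := contDiff_gs.continuous.continuousAt
  rw [Metric.continuousAt_iff] at hc
  obtain ⟨a, ha, hg⟩ := hc (min 1 (e0 / ε)) (by positivity)
  refine ⟨sg, a / 2, ⟨e0, hB, fun s hs => ?_⟩, by positivity, h1, h2⟩
  have key : gs s ≤ min 1 (e0 / ε) := by
    rcases le_or_gt s 0 with h0 | h0
    · rw [gs_zero h0]; positivity
    · have h3 := hg (x := s) (by rw [Real.dist_eq, sub_zero, abs_of_pos h0]; linarith)
      rw [gs_zero le_rfl, Real.dist_eq, sub_zero, abs_of_nonneg (gs_nonneg s)] at h3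
      exact h3.le
  refine ⟨?_, key.trans (min_le_left _ _)⟩
  have h3 := key.trans (min_le_right _ _)
  rw [le_div_iff₀ hε] at h3
  linarith

/-- **(KC)**: the centre path for `Af` -/
theorem exists_centre (h : D1 G k K lg ρ r C r' Kr B w δ PN ε J E₀ η) (hkn : k < n) :
    ∃ cA : ((Euc N × Euc N) × Wt N K) × ℝ → Euc N, ∀ q ∈ T.Sph (L.US G) PN,
      (∀ s, ContDiffAt ℝ ∞ cA (q, s) ∧ cA (q, s) ∈ S) ∧
      (∀ s ≤ 0, cA (q, s) = Exp G q.1.1 ((π / 2) • RK.dir h.bla PN q)) ∧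
      ∀ s, 0 ≤ s → ∀ t, intrinsicDist S (cA (q, s)) (Af G lg ρ w J ε (Ph G K t q, s)) < π := by
  obtain ⟨sg, a, ha⟩ := exists_Sm0 h hkn
  exact ⟨cA G h.bla PN sg lg ρ w J ε a, fun q hq =>
    ⟨fun s => ⟨contDiffAt_cA h hkn ha hq s, cA_mem h hkn ha hq s⟩,
      fun s hs => cA_zero h hkn ha hq hs, fun s hs t => dist_cA h hkn ha hq hs t⟩⟩

/-! ### the reversed family -/

/-- `(z, n) ↦ (z, -n)` -/
def flp (q : (Euc N × Euc N) × Wt N K) : (Euc N × Euc N) × Wt N K := (q.1, -q.2)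

theorem contDiff_flp {m : WithTop ℕ∞} :
    ContDiff ℝ m (flp : (Euc N × Euc N) × Wt N K → (Euc N × Euc N) × Wt N K) :=
  contDiff_fst.prodMk contDiff_snd.neg

theorem flp_mem {q : (Euc N × Euc N) × Wt N K} (hq : q ∈ T.Sph (L.US G) PN) :
    flp q ∈ T.Sph (L.US G) PN := by
  refine ⟨⟨hq.1.1, ?_⟩, ?_⟩
  · change PN q.1 (-q.2) = -q.2
    rw [map_neg, hq.1.2]
  · change ‖-q.2‖ = 1
    rw [norm_neg]; exact hq.2

theorem flp_flp (q : (Euc N × Euc N) × Wt N K) : flp (flp q) = q := by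
  unfold flp; rw [neg_neg]

theorem Ph_flp (t : ℝ) (q : (Euc N × Euc N) × Wt N K) :
    Ph G K t (flp q) = flp (Ph G K t q) := by
  refine Prod.ext rfl ?_
  change Rt (nuP K) t (-q.2) = -Rt (nuP K) t q.2
  rw [map_neg]

theorem dir_flp (hb : GT.Bla G k) (q : (Euc N × Euc N) × Wt N K) :
    RK.dir hb PN (flp q) = -RK.dir hb PN q := by
  unfold RK.dir flp
  change (‖RK.wL hb (nuP K) PN q.1 (-q.2)‖⁻¹ : ℝ) • RK.wL hb (nuP K) PN q.1 (-q.2) = _
  rw [map_neg, norm_neg, smul_neg]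

/-- **(KC)** for both families `A (q, s) = Af (q, s)`, `B (q, s) = Af (flp q, s)`: the hypotheses on
the centre paths of 99's `CG.main` -/
theorem exists_centres (h : D1 G k K lg ρ r C r' Kr B w δ PN ε J E₀ η) (hkn : k < n) :
    ∃ cA cB : ((Euc N × Euc N) × Wt N K) × ℝ → Euc N, ∀ q ∈ T.Sph (L.US G) PN,
      (∀ s, ContDiffAt ℝ ∞ cA (q, s) ∧ cA (q, s) ∈ S) ∧
      (∀ s, ContDiffAt ℝ ∞ cB (q, s) ∧ cB (q, s) ∈ S) ∧
      (∀ s ≤ 0, cA (q, s) = Exp G q.1.1 ((π / 2) • RK.dir h.bla PN q)) ∧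
      (∀ s ≤ 0, cB (q, s) = Exp G q.1.1 (-((π / 2) • RK.dir h.bla PN q))) ∧
      (∀ s, 0 ≤ s → ∀ t, intrinsicDist S (cA (q, s)) (Af G lg ρ w J ε (Ph G K t q, s)) < π) ∧
      ∀ s, 0 ≤ s → ∀ t,
        intrinsicDist S (cB (q, s)) (Af G lg ρ w J ε (flp (Ph G K t q), s)) < π := by
  obtain ⟨c, hc⟩ := exists_centre h hkn
  refine ⟨c, fun x => c (flp x.1, x.2), fun q hq => ?_⟩
  obtain ⟨h1, h2, h3⟩ := hc q hq
  obtain ⟨g1, g2, g3⟩ := hc (flp q) (flp_mem hq)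
  refine ⟨h1, fun s => ⟨?_, (g1 s).2⟩, h2, fun s hs => ?_, h3, fun s hs t => ?_⟩
  · exact ContDiffAt.comp (q, s) (g := c)
      (f := fun x : ((Euc N × Euc N) × Wt N K) × ℝ => (flp x.1, x.2)) (g1 s).1
      ((contDiff_flp.comp contDiff_fst).prodMk contDiff_snd).contDiffAt
  · change c (flp q, s) = _
    rw [g2 s hs, dir_flp, smul_neg]
    rfl
  · change intrinsicDist S (c (flp q, s)) _ < π
    rw [← Ph_flp]
    exact g3 s hs t

end Crest.Agent.R208.KC
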