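import Crest.Agent.R208.CG6_Mg
import Crest.Agent.R208.FM1
import Crest.Agent.R208.RRc365B
import Crest.Agent.R208.KC2

/-! Row 208, block RR, piece (CG) (helper99), part CG7: the instance of `CG.main` on the unit
sphere bundle of the negative bundle, for helper613's family `Af`. -/

set_option autoImplicit false
set_option linter.unusedSectionVars false
set_option linter.unusedVariables false

open MeasureTheory Set Filter Topology Module
open scoped ContDiff RealInnerProductSpace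
open Crest.GeometryTopology.Submanifold
open Crest.Agent.R241.DDefs
open Crest.Agent.R241.D2
open Crest.Agent.R208.GT
open Crest.Agent.R208.F Crest.Agent.R208.FI Crest.Agent.R208.CW Crest.Agent.R208.T
open Crest.Agent.R208.RR Crest.Agent.R208.FL Crest.Agent.R208.NN Crest.Agent.R208.NB
open Crest.Agent.R208.RK
open Crest.Agent.R208.KC (flp flp_mem flp_flp Ph_flp dir_flp contDiff_flp)

noncomputable section

namespace Crest.Agent.R208.CG

variable {n N K k : ℕ} {κ : ℝ} {S : Set (Euc N)} {G : Geo n N κ S} {lg : Euc N → Euc N → Euc N}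
  {ρ : Euc N → Euc N} {r C r' Kr B w δ : ℝ} {PN : Euc N × Euc N → Wt N K →L[ℝ] Wt N K}
  {ε E₀ η : ℝ} {J : ℕ}

theorem smap_flp : SMap (T.Sph (L.US G) PN) (T.Sph (L.US G) PN) (flp (N := N) (K := K)) :=
  ⟨fun _ _ => contDiff_flp.contDiffAt, fun _ hq => flp_mem hq⟩

theorem cir_Sph (h : D0 G k K lg ρ r C r' Kr B w δ PN) :
    CM.Cir (T.Sph (L.US G) PN) (Ph G K) := by
  refine h.cir.mono (fun q hq => hq.1) fun t q hq => ⟨h.cir.maps t hq.1, ?_⟩
  change ‖Rt (nuP K) t q.2‖ = 1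
  rw [norm_Rt]
  exact hq.2

theorem smap_fst_Sph : SMap (T.Sph (L.US G) PN) (L.US G)
    (Prod.fst : (Euc N × Euc N) × Wt N K → Euc N × Euc N) :=
  ⟨fun _ _ => contDiffAt_fst, fun _ hq => hq.1.1⟩

theorem smap_Af (h : D1 G k K lg ρ r C r' Kr B w δ PN ε J E₀ η) :
    SMap (Cyl (T.Sph (L.US G) PN)) S (Af G lg ρ w J ε) :=
  ⟨fun y hy => h.contDiffAt_Af (mem_Cyl.1 hy).1 y.2, fun y hy => h.Af_mem (mem_Cyl.1 hy).1 y.2⟩

theorem smap_EE : SMap (Cyl (L.US G)) S (RRC.EE G) :=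
  ⟨fun y hy => RRC.contDiffAt_EE (mem_Cyl.1 hy).1 y.2, fun y hy => RRC.EE_mem (mem_Cyl.1 hy).1 y.2⟩

/-- the rotation family comes from the base -/
theorem K_EE {ξ : Euc N → Ext (Euc N)} (hξ : Sm S ξ) :
    Eqv (T.Sph (L.US G) PN) (RR.K (F.pull (fun y : ((Euc N × Euc N) × Wt N K) × ℝ =>
        Exp G y.1.1.1 ((Real.pi * y.2) • y.1.1.2)) ξ))
      (F.pull (Prod.fst : (Euc N × Euc N) × Wt N K → Euc N × Euc N)
        (RR.K (F.pull (RRC.EE G) ξ))) := by
  have sf : SMap (Cyl (T.Sph (L.US G) PN)) (Cyl (L.US G))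
      (fx (E := (Euc N × Euc N) × Wt N K) (E' := Euc N × Euc N) (fun y => y.1) fun s => s) :=
    smap_fx smap_fst_Sph contDiff_id
  have sE : Sm (Cyl (L.US G)) (F.pull (RRC.EE G) ξ) := hξ.pull smap_EE
  have sc1 : SMap (Cyl (T.Sph (L.US G) PN)) S (fun y : ((Euc N × Euc N) × Wt N K) × ℝ =>
      Exp G y.1.1.1 ((Real.pi * y.2) • y.1.1.2)) :=
    smap_comp (g := RRC.EE G) (f := fx (E := (Euc N × Euc N) × Wt N K) (E' := Euc N × Euc N)
      (fun y => y.1) fun s => s) smap_EE sf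
  have h1 : Eqv (T.Sph (L.US G) PN)
      (RR.K (E := (Euc N × Euc N) × Wt N K) (F.pull (fx (E := (Euc N × Euc N) × Wt N K)
        (E' := Euc N × Euc N) (fun y => y.1) fun s => s) (F.pull (RRC.EE G) ξ)))
      (RR.K (F.pull (fun y : ((Euc N × Euc N) × Wt N K) × ℝ =>
        Exp G y.1.1.1 ((Real.pi * y.2) • y.1.1.2)) ξ)) :=
    K_eqv (E := (Euc N × Euc N) × Wt N K) (sE.pull sf) (hξ.pull sc1)
      (pull_pull smap_EE sf)
  refine h1.symm.trans (Eqv.of_eq fun q hq => ?_)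
  exact (pull_K (E := (Euc N × Euc N) × Wt N K) (E' := Euc N × Euc N)
    (f := fun y : (Euc N × Euc N) × Wt N K => y.1) differentiableAt_fst sE hq.1.1).symm

/-- **(CG7)** the comparison on the sphere bundle of the negative bundle -/
theorem inst (h : D1 G k K lg ρ r C r' Kr B w δ PN ε J E₀ η) (hkn : k < n)
    {ξ : Euc N → Ext (Euc N)} (hξ : Sm S ξ) (hcl : Cl S ξ) :
    Coh (T.Sph (L.US G) PN)
      (Wp (Ph G K) (RR.K (F.pull (Af (K := K) G lg ρ w J ε) ξ)) -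
        Wp (Ph G K) (RR.K (F.pull (fun y : ((Euc N × Euc N) × Wt N K) × ℝ =>
          Af G lg ρ w J ε (flp y.1, y.2)) ξ)))
      (-(Wp (FM.phiF h.bla PN) (F.pull (Prod.fst : (Euc N × Euc N) × Wt N K → Euc N × Euc N)
        (RR.K (F.pull (RRC.EE G) ξ))))) := by
  obtain ⟨cA, cB, hc⟩ := KC.exists_centres h hkn
  have hφ : CM.Cir (T.Sph (L.US G) PN) (Ph G K) := cir_Sph h.toD0
  have hφ' : CM.Cir (T.Sph (L.US G) PN) (FM.phiF h.bla PN) := FM.cir_phiF h.bla h.neg hkn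
  have hA := smap_Af h
  have hfx : SMap (Cyl (T.Sph (L.US G) PN)) (Cyl (T.Sph (L.US G) PN))
      (fx (flp (N := N) (K := K)) fun s => s) := smap_fx smap_flp contDiff_id
  have hB : SMap (Cyl (T.Sph (L.US G) PN)) S (fun y : ((Euc N × Euc N) × Wt N K) × ℝ =>
      Af G lg ρ w J ε (flp y.1, y.2)) := smap_comp hA hfx
  have hcA : SMap (Cyl (T.Sph (L.US G) PN)) S cA :=
    ⟨fun y hy => ((hc _ (mem_Cyl.1 hy)).1 y.2).1, fun y hy => ((hc _ (mem_Cyl.1 hy)).1 y.2).2⟩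
  have hcB : SMap (Cyl (T.Sph (L.US G) PN)) S cB :=
    ⟨fun y hy => ((hc _ (mem_Cyl.1 hy)).2.1 y.2).1, fun y hy => ((hc _ (mem_Cyl.1 hy)).2.1 y.2).2⟩
  have hq : ∀ q ∈ T.Sph (L.US G) PN, Exp G q.1.1 (Real.pi • q.1.2) = qq G q.1 := fun q hq =>
    Exp_smul G hq.1.1.1.1 hq.1.1.1.2 _
  have main := CG.main (Z := T.Sph (L.US G) PN)
    (P := (Prod.fst : (Euc N × Euc N) × Wt N K → Euc N × Euc N)) (w := dir h.bla PN)
    (A := Af G lg ρ w J ε) (B := fun y => Af G lg ρ w J ε (flp y.1, y.2)) (cA := cA)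
    (cB := cB) (φ := Ph G K) (φ' := FM.phiF h.bla PN) (ξ := ξ)
    h.bla smap_fst_Sph hφ hφ' (fun x hx t => rfl) (fun x hx t => FM.phiF_fst h.bla PN t x)
    (fun x hx => by rw [hq x hx]; exact dir_mem h.bla hkn hx.1.1 hx.1.2)
    (fun x hx => FM.norm_dir' h.bla h.neg hkn hx)
    (fun x hx => inner_dir_v h.bla hkn hx.1.1 hx.1.2) hξ hcl hA hB hcA hcB
    (fun x hx => h.Af_zero hx.1 le_rfl)
    (fun x hx => h.Af_zero (flp_mem hx).1 le_rfl)
    (fun x hx t => h.Af_end hx.1 hx.2 (by norm_num) t)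
    (fun x hx t => by
      change Af G lg ρ w J ε (flp (Ph G K t x), 1) = Af G lg ρ w J ε (flp x, 1)
      rw [← Ph_flp]
      exact h.Af_end (flp_mem hx).1 (flp_mem hx).2 (by norm_num) t)
    (fun x hx => (hc x hx).2.2.1 0 le_rfl) (fun x hx => (hc x hx).2.2.2.1 0 le_rfl)
    (fun x hx t s hs => (hc x hx).2.2.2.2.1 s hs.1 t)
    (fun x hx t s hs => (hc x hx).2.2.2.2.2 s hs.1 t)
  refine main.trans (Coh.of_eqv (Eqv.neg ?_))
  have s1 : Sm (T.Sph (L.US G) PN) (RR.K (F.pull (fun y : ((Euc N × Euc N) × Wt N K) × ℝ =>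
      Exp G y.1.1.1 ((Real.pi * y.2) • y.1.1.2)) ξ)) := by
    have sf : SMap (Cyl (T.Sph (L.US G) PN)) (Cyl (L.US G))
        (fx (E := (Euc N × Euc N) × Wt N K) (E' := Euc N × Euc N) (fun y => y.1) fun s => s) :=
      smap_fx smap_fst_Sph contDiff_id
    have sc1 : SMap (Cyl (T.Sph (L.US G) PN)) S (fun y : ((Euc N × Euc N) × Wt N K) × ℝ =>
        Exp G y.1.1.1 ((Real.pi * y.2) • y.1.1.2)) :=
      smap_comp (g := RRC.EE G) (f := fx (E := (Euc N × Euc N) × Wt N K) (E' := Euc N × Euc N)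
        (fun y => y.1) fun s => s) smap_EE sf
    exact Sm.K (hξ.pull sc1)
  have s2 : Sm (T.Sph (L.US G) PN) (F.pull
      (Prod.fst : (Euc N × Euc N) × Wt N K → Euc N × Euc N) (RR.K (F.pull (RRC.EE G) ξ))) :=
    (Sm.K (hξ.pull smap_EE)).pull smap_fst_Sph
  have hFl := smap_Fl hφ'
  exact K_eqv (E := (Euc N × Euc N) × Wt N K) (s1.pull hFl) (s2.pull hFl)
    (Eqv.pull hFl (K_EE hξ))

end Crest.Agent.R208.CG
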