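import Crest.Agent.R208.GQ2
import Crest.Agent.R208.THD1
import Crest.Agent.R208.TX1b
import Crest.Agent.R208.GQ1b

-- ▼ part R208/GQ2b
section

/-! Row 208, block GQ (helper989), part GQ2b: integration over the line `ℝ v`: a lift with a compactly
supported primitive comes from a form with a compactly supported primitive. -/

set_option autoImplicit false
set_option linter.unusedSectionVars false
set_option linter.unusedVariables false

open MeasureTheory Set Filter Topology Module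
open scoped ContDiff RealInnerProductSpace
open Crest.Agent.R208.F Crest.Agent.R208.FI Crest.Agent.R208.CW Crest.Agent.R208.T

noncomputable section

namespace Crest.Agent.R208.GQ

universe u w

section line
variable {G : Type u} [NormedAddCommGroup G] [NormedSpace ℝ G] [FiniteDimensional ℝ G]

theorem evA_io_one {n : ℕ} (hn : n = 1) (b : Fin n → ℝ) (hb : ∀ i, b i ≠ 0) :
    evA ℝ n (io (LinearMap.id : Module.Dual ℝ ℝ)) b ≠ 0 := by
  subst hn
  rw [evA_io]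
  simpa using hb 0

/-- value of the covolume form of the line -/
def cL : ℝ := evA ℝ (finrank ℝ ℝ) (io (LinearMap.id : Module.Dual ℝ ℝ)) (Module.finBasis ℝ ℝ)

theorem cL_ne : cL ≠ 0 := evA_io_one (Module.finrank_self ℝ) _ fun i =>
  (Module.finBasis ℝ ℝ).ne_zero i

/-- total mass -/
def mL : ℝ := ∫ s : ℝ, Real.smoothTransition (1 - s ^ 2)

theorem mL_pos : 0 < mL := by
  have hc : Continuous (fun s : ℝ => Real.smoothTransition (1 - s ^ 2)) :=
    Real.smoothTransition.continuous.comp (by fun_prop)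
  have hs : HasCompactSupport (fun s : ℝ => Real.smoothTransition (1 - s ^ 2)) := by
    refine HasCompactSupport.intro (isCompact_Icc (a := (-1 : ℝ)) (b := 1)) fun s hs => ?_
    refine Real.smoothTransition.zero_of_nonpos ?_
    rw [mem_Icc, not_and_or, not_le, not_le] at hs
    rcases hs with h | h <;> nlinarith
  refine hc.integral_pos_of_hasCompactSupport_nonneg_nonzero hs
    (fun s => Real.smoothTransition.nonneg _) (x := 0) ?_
  rw [Real.smoothTransition.one_of_one_le (by norm_num)]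
  exact one_ne_zero

theorem pull_snd_th0 (z : G × ℝ) : F.pull (Prod.snd : G × ℝ → ℝ) th0 z =
    Real.smoothTransition (1 - z.2 ^ 2) • io (LinearMap.snd ℝ G ℝ) := by
  rw [F.pull, fderiv_snd, th0, map_smul, pb_io]
  rfl

theorem isDeg_snd (z : G × ℝ) : IsDeg 1 (F.pull (Prod.snd : G × ℝ → ℝ) th0 z) := (hom_th0 _).pb _

theorem pI_snd_th0 (y : G) : pI volume (F.pull (Prod.snd : G × ℝ → ℝ) th0) y =
    algebraMap ℝ (Ext G) (mL * cL) := by
  rw [pI_eq]
  have h1 : ∀ s : ℝ, cH (ContinuousLinearMap.inl ℝ G ℝ) (ContinuousLinearMap.inr ℝ G ℝ)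
      (F.pull (Prod.snd : G × ℝ → ℝ) th0 (y, s)) =
      Real.smoothTransition (1 - s ^ 2) • algebraMap ℝ (Ext G) cL := by
    intro s
    have hd : IsDeg (finrank ℝ ℝ) (F.pull (Prod.snd : G × ℝ → ℝ) th0 (y, s)) := by
      rw [Module.finrank_self]; exact isDeg_snd _
    rw [cH_of_isDeg hd, pull_snd_th0, map_smul, pb_io]
    have h2 : (LinearMap.snd ℝ G ℝ) ∘ₗ ((ContinuousLinearMap.inr ℝ G ℝ : ℝ →L[ℝ] G × ℝ) :
        ℝ →ₗ[ℝ] G × ℝ) = LinearMap.id := by ext; simp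
    rw [h2, map_smul, AlternatingMap.smul_apply, smul_eq_mul, map_mul, Algebra.smul_def]
    rfl
  simp only [h1]
  rw [integral_smul_const, ← mL, map_mul, Algebra.smul_def]

/-- commuting a form of degree `p` past the one-form of the line -/
theorem mul_snd_th0 {p : ℕ} {β : G → Ext G} (hβ : Hom p β) (z : G × ℝ) :
    F.pull (Prod.fst : G × ℝ → G) β z * F.pull (Prod.snd : G × ℝ → ℝ) th0 z =
      (-1 : ℝ) ^ p • (F.pull (Prod.snd : G × ℝ → ℝ) th0 z * F.pull (Prod.fst : G × ℝ → G) β z) := by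
  have h1 : F.inv (F.pull (Prod.fst : G × ℝ → G) β z) =
      (-1 : ℝ) ^ p • F.pull (Prod.fst : G × ℝ → G) β z := inv_isDeg ((hβ _).pb _)
  have h2 : (-1 : ℝ) ^ p * (-1) ^ p = 1 := by rw [← mul_pow]; simp
  rw [pull_snd_th0, smul_mul_assoc, io_mul, h1, mul_smul_comm, smul_mul_assoc,
    smul_comm ((-1 : ℝ) ^ p), smul_smul, smul_smul, mul_assoc, h2, mul_one]

end line

variable {E : Type u} {H : Type w} [NormedAddCommGroup E] [NormedSpace ℝ E] [FiniteDimensional ℝ E]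
  [NormedAddCommGroup H] [InnerProductSpace ℝ H] [FiniteDimensional ℝ H]
  {X : Set E} {Q P : E → H →L[ℝ] H} {v : E → H} {r d : ℕ} {R c₀ : ℝ} {e : E → Ext E}
  {τ τ' om : E × H → Ext (E × H)}

theorem OddS.pull_lift (h : OddS X Q r v) (l : E × H → Ext (E × H)) :
    Eqv (Tot X (Pm Q v) ×ˢ (univ : Set ℝ)) (F.pull (jm v) (lift Q v l))
      (F.pull Prod.fst l * F.pull Prod.snd th0) := by
  have hj := h.smap_jm
  rw [lift, pull_mul']
  have hf : SMap (Tot X (Pm Q v) ×ˢ (univ : Set ℝ)) (Tot X (Pm Q v))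
      (Prod.fst : (E × H) × ℝ → E × H) := ⟨fun _ _ => contDiffAt_fst, fun _ hz => hz.1⟩
  have hs : SMap (Tot X (Pm Q v) ×ˢ (univ : Set ℝ)) (univ : Set ℝ)
      (Prod.snd : (E × H) × ℝ → ℝ) := ⟨fun _ _ => contDiffAt_snd, fun _ _ => mem_univ _⟩
  refine (eqv_pull_pull hj h.smap_bm hf (fun z hz => ?_) l).mul
    (eqv_pull_pull hj h.smap_sg hs (fun z hz => ?_) th0)
  · exact Prod.ext rfl (h.Pm_add hz.1.1 hz.1.2 z.2).1
  · exact (h.Pm_add hz.1.1 hz.1.2 z.2).2.1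

set_option maxHeartbeats 1000000 in
/-- **descent of primitives** from `Tot X Q` to `Tot X (Q - v vᵀ)` -/
theorem OddS.descend (h : OddS X Q r v) (hX : Sub d X) {l : E × H → Ext (E × H)} {p : ℕ}
    (hl : Sm (Tot X (Pm Q v)) l) (dl : Hom p l) {M : E × H → Ext (E × H)}
    (hM : Sm (Tot X Q) M) (hR : 0 ≤ R) (vM : ∀ z, R < ‖z.2‖ → M z = 0)
    (he : Eqv (Tot X Q) (lift Q v l) (F.d M)) :
    ∃ L : E × H → Ext (E × H), Sm (Tot X (Pm Q v)) L ∧ (∀ z, R + 1 < ‖z.2‖ → L z = 0) ∧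
      Eqv (Tot X (Pm Q v)) l (F.d L) := by
  set Y := Tot X (Pm Q v) with hY
  have hj := h.smap_jm
  have hYs : Sub (d + (r - 1)) Y := h.pfield.sub_tot hX
  have hYR : Sub (d + (r - 1) + 1) (Y ×ˢ (univ : Set ℝ)) := by
    have := hYs.prod (sub_open (Module.finrank_self ℝ) (isOpen_univ (X := ℝ)))
    exact this
  have hf : SMap (Y ×ˢ (univ : Set ℝ)) Y (Prod.fst : (E × H) × ℝ → E × H) :=
    ⟨fun _ _ => contDiffAt_fst, fun _ hz => hz.1⟩
  have hs : SMap (Y ×ˢ (univ : Set ℝ)) (univ : Set ℝ)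
      (Prod.snd : (E × H) × ℝ → ℝ) := ⟨fun _ _ => contDiffAt_snd, fun _ _ => mem_univ _⟩
  set M1 := F.pull (jm v) M with hM1
  have sM1 : Sm (Y ×ˢ (univ : Set ℝ)) M1 := hM.pull hj
  have hfar : ∀ z ∈ Y ×ˢ (univ : Set ℝ), (R < ‖z.1.2‖ ∨ R < ‖z.2‖) → M1 z = 0 := by
    intro z hz hh
    refine pull_of_zero (vM _ ?_)
    have h1 := h.norm_add hz.1.1 hz.1.2 z.2
    change R < ‖z.1.2 + z.2 • v z.1.1‖
    by_contra h2
    push Not at h2
    have h3 : ‖z.1.2 + z.2 • v z.1.1‖ ^ 2 ≤ R ^ 2 := by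
      nlinarith [norm_nonneg (z.1.2 + z.2 • v z.1.1)]
    rcases hh with hh | hh
    · nlinarith [norm_nonneg z.1.2, sq_nonneg z.2]
    · rw [Real.norm_eq_abs] at hh
      have h4 : z.2 ^ 2 = |z.2| ^ 2 := (sq_abs _).symm
      nlinarith [norm_nonneg z.1.2, abs_nonneg z.2, sq_nonneg ‖z.1.2‖]
  set M2 := cutH R M1 with hM2
  have sM2 : Sm (Y ×ˢ (univ : Set ℝ)) M2 := sM1.cutH
  have vM2 : Vt (R + 1) M2 := Vt.cutH hR
  have e2 : Eqv (Y ×ˢ (univ : Set ℝ)) M2 M1 := eqv_cutH hR fun z hz hh => hfar z hz (Or.inr hh)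
  set A := F.pull (Prod.fst : (E × H) × ℝ → E × H) l * F.pull (Prod.snd : (E × H) × ℝ → ℝ) th0
    with hA
  have sA : Sm (Y ×ˢ (univ : Set ℝ)) A := (hl.pull hf).mul ((sm_th0 _).pull hs)
  have eA : Eqv (Y ×ˢ (univ : Set ℝ)) A (F.d M2) := by
    refine (h.pull_lift l).symm.trans ((Eqv.pull hj he).trans ?_)
    exact (d_pull_eqv hj hM).symm.trans ((e2.d hYR sM2 sM1).symm)
  have hsnd0 : ∀ z : (E × H) × ℝ, 1 < ‖z.2‖ → F.pull (Prod.snd : (E × H) × ℝ → ℝ) th0 z = 0 :=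
    fun z hz => pull_of_zero (th0_zero (le_of_lt hz))
  set B := F.pull (Prod.snd : (E × H) × ℝ → ℝ) th0 * F.pull (Prod.fst : (E × H) × ℝ → E × H) l
    with hB
  have sB : Sm (Y ×ˢ (univ : Set ℝ)) B := ((sm_th0 _).pull hs).mul (hl.pull hf)
  have vB : Vt (R + 1) B := fun z hz => by
    rw [hB, Pi.mul_apply, hsnd0 z (by linarith), zero_mul]
  have eAB : A = (-1 : ℝ) ^ p • B := funext fun z => mul_snd_th0 dl z
  have e3 : Eqv (Y ×ˢ (univ : Set ℝ)) ((-1 : ℝ) ^ p • B) (F.d M2) := eAB ▸ eA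
  have e4 := eqv_pI volume (vB.smul _) (sB.smul _) vM2.d sM2.d e3
  have e5 : ∀ y ∈ Y, pI volume B y = (mL * cL) • l y := fun y hy => by
    have hv : Vt 1 (F.pull (Prod.snd : (E × H) × ℝ → ℝ) th0) := hsnd0
    rw [hB, pI_mul_fst volume (X := Y) hv ((sm_th0 _).pull hs) hy l, pI_snd_th0, Algebra.smul_def]
  have e6 : Eqv Y (pI volume ((-1 : ℝ) ^ p • B)) (((-1 : ℝ) ^ p * (mL * cL)) • l) :=
    Eqv.of_eq fun y hy => by
      rw [Pi.smul_apply, mul_smul, ← e5 y hy, pI_eq, pI_eq, ← integral_smul]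
      refine integral_congr_ae (Eventually.of_forall fun z => ?_)
      change cH _ _ ((-1 : ℝ) ^ p • B (y, z)) = _
      rw [map_smul]
  have e7 : Eqv Y (pI volume (F.d M2)) ((-1 : ℝ) ^ finrank ℝ ℝ • F.d (pI volume M2)) :=
    Eqv.of_eq fun y hy => d_pI volume vM2 sM2 hy
  have sL0 : Sm Y (pI volume M2) := sm_pI volume vM2 sM2
  have l0 : ∀ z ∈ Y, R < ‖z.2‖ → pI volume M2 z = 0 := by
    intro z hz hh
    rw [pI_eq]
    have h2 : ∀ s : ℝ, M2 (z, s) = 0 := fun s => by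
      have h3 : M1 (z, s) = 0 := hfar (z, s) ⟨hz, mem_univ _⟩ (Or.inl hh)
      exact (congrArg (fun c => chi R s • c) h3).trans (smul_zero _)
    refine (integral_congr_ae (g := fun _ : ℝ => (0 : Ext (E × H)))
      (Eventually.of_forall fun s => ?_)).trans (integral_zero _ _)
    exact (congrArg _ (h2 s)).trans (map_zero _)
  set t : ℝ := ((-1 : ℝ) ^ p * (mL * cL))⁻¹ * (-1 : ℝ) ^ finrank ℝ ℝ with ht
  have hne : (-1 : ℝ) ^ p * (mL * cL) ≠ 0 :=
    mul_ne_zero (pow_ne_zero _ (by norm_num)) (mul_ne_zero mL_pos.ne' cL_ne)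
  have sC : Sm Y (cutH R (pI volume M2)) := sL0.cutH
  refine ⟨t • cutH R (pI volume M2), sC.smul _, fun z hz => ?_, ?_⟩
  · have h0 : cutH R (pI volume M2) z = 0 := by
      rw [cutH, chi_zero hR (le_of_lt hz), zero_smul]
    rw [Pi.smul_apply, h0, smul_zero]
  have e8 : Eqv Y (((-1 : ℝ) ^ p * (mL * cL)) • l) ((-1 : ℝ) ^ finrank ℝ ℝ • F.d (pI volume M2)) :=
    e6.symm.trans (e4.trans e7)
  have e9 := e8.smul ((-1 : ℝ) ^ p * (mL * cL))⁻¹
  rw [smul_smul, inv_mul_cancel₀ hne, one_smul, smul_smul, ← ht] at e9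
  have e10 : Eqv Y (cutH R (pI volume M2)) (pI volume M2) := eqv_cutH hR l0
  refine e9.trans ?_
  exact ((e10.d hYs sC sL0).symm.smul t).trans (d_smul_eqv t sC).symm

end Crest.Agent.R208.GQ
end
end

-- ▼ part R208/GQ2c
section

/-! Row 208, block GQ (helper989), part GQ2c: fibre integral for sphere bundles of odd rank
`P = Q - v vᵀ`, Leray–Hirsch. -/

set_option autoImplicit false
set_option linter.unusedSectionVars false
set_option linter.unusedVariables false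

open MeasureTheory Set Filter Topology Module
open scoped ContDiff RealInnerProductSpace
open Crest.Agent.R208.F Crest.Agent.R208.FI Crest.Agent.R208.CW Crest.Agent.R208.T

noncomputable section

namespace Crest.Agent.R208.GQ

universe u w

variable {E : Type u} {H : Type w} [NormedAddCommGroup E] [NormedSpace ℝ E] [FiniteDimensional ℝ E]
  [NormedAddCommGroup H] [InnerProductSpace ℝ H] [FiniteDimensional ℝ H]
  {X : Set E} {Q P : E → H →L[ℝ] H} {v : E → H} {r d j : ℕ} {R c₀ : ℝ} {e : E → Ext E}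
  {τ τ' om b b' : E × H → Ext (E × H)}

/-- compactly supported representative of `P^* d(rx b) ∧ ρ ds` -/
def om2 (Q : E → H →L[ℝ] H) (v : E → H) (b : E × H → Ext (E × H)) : E × H → Ext (E × H) :=
  cutH 3 (lift Q v (cutH 1 (F.d (rx b))))

theorem OddS.far3 (h : OddS X Q r v) {l : E × H → Ext (E × H)} (hl : ∀ z, 2 < ‖z.2‖ → l z = 0) :
    Eqv (Tot X Q ∩ {z | 3 < ‖z.2‖}) (lift Q v l) 0 := by
  have h1 : Eqv (Tot X (Pm Q v) ∩ {z | (2 : ℝ) < ‖z.2‖}) l 0 :=
    Eqv.of_eq fun z hz => hl z hz.2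
  have h2 := h.lift_far h1 (by norm_num)
  norm_num at h2
  exact h2

theorem OddS.om2_spec [MeasurableSpace H] [BorelSpace H] (h : OddS X Q r v) (hX : Sub d X) (hb : Sm (Sph X (Pm Q v)) b)
    (hc : Cl (Sph X (Pm Q v)) b) :
    CSF X Q (max R 4) (om2 Q v b) ∧ Eqv (Tot X Q) (om2 Q v b) (lift Q v (F.d (rx b))) := by
  obtain ⟨h1, h2⟩ := fi_csf (R := 0) hX h.pfield hb hc
  set l := cutH 1 (F.d (rx b)) with hl
  have hv : ∀ z, 2 < ‖z.2‖ → l z = 0 := fun z hz => by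
    rw [hl, cutH, chi_zero zero_le_one (by linarith), zero_smul]
  have f3 := h.far3 hv
  have s1 := h.sm_lift h1.smooth
  have c1 := h.cl_lift h1.smooth h1.closed
  refine ⟨(csf_cutH hX h.pf (by norm_num) s1 c1 f3).mono (by norm_num), ?_⟩
  exact (eqv_cutH' (by norm_num) f3).trans (h.eqv_lift h2)

theorem hom_lift {l : E × H → Ext (E × H)} (hl : Hom j l) : Hom (j + 1) (lift Q v l) :=
  Hom.mul (Hom.pull hl) hom_thf

theorem hom_om2 (hd : Hom j b) : Hom (j + 2) (om2 Q v b) :=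
  Hom.cutH (hom_lift (Hom.cutH (Hom.d hd.rx)))

theorem mul_thf {p : ℕ} {c : Ext (E × H)} (hc : IsDeg p c) (z : E × H) :
    c * thf v z = (-1 : ℝ) ^ p • (thf v z * c) := by
  have h1 : F.inv c = (-1 : ℝ) ^ p • c := inv_isDeg hc
  have h2 : (-1 : ℝ) ^ p * (-1) ^ p = 1 := by rw [← mul_pow]; simp
  rw [thf, F.pull, th0, map_smul, pb_io, smul_mul_assoc, io_mul, h1, mul_smul_comm, smul_mul_assoc,
    smul_comm ((-1 : ℝ) ^ p), smul_smul, smul_smul, mul_assoc, h2, mul_one]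

/-- `lift (l * π^*β) = (-1)^p lift l * π^*β` -/
theorem OddS.lift_mul_fst (h : OddS X Q r v) (l : E × H → Ext (E × H)) {β : E → Ext E} {p : ℕ}
    (hβ : Hom p β) :
    Eqv (Tot X Q) (lift Q v (l * F.pull Prod.fst β))
      ((-1 : ℝ) ^ p • (lift Q v l * F.pull Prod.fst β)) := by
  refine Eqv.of_eq fun z hz => ?_
  have h2 : F.pull (bet (Pm Q v)) (F.pull (Prod.fst : E × H → E) β) z =
      F.pull (fun z => (bet (Pm Q v) z).1) β z :=
    F.pull_comp (h.smap_bm.diff hz) differentiableAt_fst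
  have h3 : (fun z : E × H => (bet (Pm Q v) z).1) = Prod.fst := rfl
  rw [h3] at h2
  have h5 : F.pull (Prod.fst : E × H → E) β z * thf v z =
      (-1 : ℝ) ^ p • (thf v z * F.pull (Prod.fst : E × H → E) β z) := mul_thf ((hβ _).pb _) z
  rw [lift, Pi.mul_apply, pull_mul', Pi.mul_apply, h2, mul_assoc, h5, Pi.smul_apply, Pi.mul_apply,
    lift, Pi.mul_apply, mul_smul_comm, mul_assoc]

theorem d_mul_closed {G : Type*} [NormedAddCommGroup G] [NormedSpace ℝ G] [FiniteDimensional ℝ G]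
    {Y : Set G} {f g : G → Ext G} (hf : Sm Y f) (hg : Sm Y g) (h0 : Eqv Y (F.d g) 0) :
    Eqv Y (F.d (f * g)) (F.d f * g) := by
  refine (d_mul_eqv hf hg).trans ?_
  have a7 := (Eqv.refl (F.d f * g)).add ((Eqv.refl (fun x => F.inv (f x))).mul h0)
  rwa [mul_zero, add_zero] at a7

variable [MeasurableSpace H] [BorelSpace H] (μ : Measure H) [μ.IsAddHaarMeasure]

/-- fibre integral of a closed form on the sphere bundle of `Q - v vᵀ` -/
def fo (Q : E → H →L[ℝ] H) (v : E → H) (τ' b : E × H → Ext (E × H)) : E → Ext E :=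
  pT μ Q τ' (om2 Q v b)

theorem hom_fo {i : ℕ} (hr : r ≤ finrank ℝ H) (hd' : ∀ z, IsDeg (finrank ℝ H - r) (τ' z))
    (hj : j + 2 = i + r) (hd : Hom j b) : Hom i (fo μ Q v τ' b) :=
  hom_pT μ hr hd' (hj ▸ hom_om2 hd)

theorem fo_eq_zero (hr : r ≤ finrank ℝ H) (hd' : ∀ z, IsDeg (finrank ℝ H - r) (τ' z))
    (hj : j + 2 < r) (hd : Hom j b) : fo μ Q v τ' b = 0 :=
  pT_eq_zero μ hr hd' (hom_om2 hd) hj

section props
variable (h : OddS X Q r v) (hX : Sub d X) (hT : ThomPair μ X Q r R c₀ e τ τ')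
include h hX hT

theorem OddS.sm_cl_fo (hb : Sm (Sph X (Pm Q v)) b) (hc : Cl (Sph X (Pm Q v)) b) :
    Sm X (fo μ Q v τ' b) ∧ Cl X (fo μ Q v τ' b) := by
  have hR0 : 0 ≤ max R 4 := le_trans (by norm_num) (le_max_right R 4)
  have h := thom μ hX h.pf (hT.mono (le_max_left R 4)) hR0 (h.om2_spec (R := R) hX hb hc).1
  exact ⟨h.1, h.2.1⟩


theorem OddS.fo_sub (hb : Sm (Sph X (Pm Q v)) b) (hc : Cl (Sph X (Pm Q v)) b)
    (hb' : Sm (Sph X (Pm Q v)) b') (hc' : Cl (Sph X (Pm Q v)) b') :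
    Eqv X (fo μ Q v τ' (b - b')) (fo μ Q v τ' b - fo μ Q v τ' b') := by
  have h1 := h.om2_spec (R := R) hX hb hc
  have h1' := h.om2_spec (R := R) hX hb' hc'
  have h2 := h.om2_spec (R := R) hX (hb.sub hb') (Cl.sub hb hb' hc hc')
  have hT' := (hT.mono (le_max_left R 4)).csf'
  refine (pT_eqv μ h.pf hT' h2.1.smooth h2.1.supp (h1.1.smooth.sub h1'.1.smooth)
    (Vt.sub (h1.1.supp : Vt _ _) h1'.1.supp) ?_).trans
    (pT_sub μ h.pf hT' h1.1.smooth h1.1.supp h1'.1.smooth h1'.1.supp)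
  refine h2.2.trans (Eqv.trans ?_ (h1.2.symm.sub h1'.2.symm))
  rw [← lift_sub, rx_sub]
  exact h.eqv_lift (d_sub_eqv hb.rx hb'.rx)

/-- projection formula -/
theorem OddS.fo_mul (hb : Sm (Sph X (Pm Q v)) b) (hc : Cl (Sph X (Pm Q v)) b)
    {β : E → Ext E} (sβ : Sm X β) (cβ : Cl X β) {p : ℕ} (dβ : Hom p β) :
    Eqv X (fo μ Q v τ' (b * F.pull Prod.fst β)) ((-1 : ℝ) ^ p • (fo μ Q v τ' b * β)) := by
  have h1 := h.om2_spec (R := R) hX hb hc
  have sβ1 : Sm (Sph X (Pm Q v)) (F.pull Prod.fst β) := sβ.pull smap_fstS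
  have cβ1 : Cl (Sph X (Pm Q v)) (F.pull Prod.fst β) := cβ.pull smap_fstS sβ
  have sβ2 : Sm (Tot X (Pm Q v)) (F.pull Prod.fst β) := sβ.pull smap_fst'
  have cβ2 : Cl (Tot X (Pm Q v)) (F.pull Prod.fst β) := cβ.pull smap_fst' sβ
  have sβ3 : Sm (Tot X Q) (F.pull Prod.fst β) := sβ.pull smap_fst'
  have h2 := h.om2_spec (R := R) hX (hb.mul sβ1) (Cl.mul hb sβ1 hc cβ1)
  have hT' := (hT.mono (le_max_left R 4)).csf'
  have e1 : Eqv (Tot X (Pm Q v)) (F.d (rx b * F.pull (Prod.fst : E × H → E) β))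
      (F.d (rx b) * F.pull (Prod.fst : E × H → E) β) := by
    have a4 : Eqv (Tot X (Pm Q v)) (F.d (F.pull (Prod.fst : E × H → E) β)) 0 := resZero_iff.1 cβ2
    exact d_mul_closed hb.rx sβ2 a4
  have e2 : Eqv (Tot X Q) (om2 Q v (b * F.pull Prod.fst β))
      ((-1 : ℝ) ^ p • (om2 Q v b * F.pull Prod.fst β)) := by
    refine h2.2.trans ?_
    rw [rx_mul_fst]
    refine (h.eqv_lift e1).trans ((h.lift_mul_fst _ dβ).trans ?_)
    have e3 : Eqv (Tot X Q) (lift Q v (F.d (rx b)) * F.pull (Prod.fst : E × H → E) β)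
        (om2 Q v b * F.pull (Prod.fst : E × H → E) β) := h1.2.symm.mul (Eqv.refl _)
    exact e3.smul _
  have s3 : Sm (Tot X Q) (om2 Q v b * F.pull Prod.fst β) := h1.1.smooth.mul sβ3
  have v3 : Vt (max R 4) (om2 Q v b * F.pull (Prod.fst : E × H → E) β) :=
    Vt.mul_right (h1.1.supp : Vt _ _) _
  have e4 := pT_eqv μ h.pf hT' h2.1.smooth h2.1.supp (s3.smul _) (v3.smul _) e2
  rw [pT_smul] at e4
  have e5 := pT_mul μ h.pf hT' h1.1.smooth h1.1.supp β
  exact e4.trans (e5.smul _)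

set_option maxHeartbeats 1000000 in
/-- exact forms have exact fibre integral -/
theorem OddS.fo_exact (hb : Sm (Sph X (Pm Q v)) b) (hc : Cl (Sph X (Pm Q v)) b)
    (h0 : Coh (Sph X (Pm Q v)) b 0) : Coh X (fo μ Q v τ' b) 0 := by
  obtain ⟨ν, sν, eν⟩ := h0
  rw [sub_zero] at eν
  have hP := h.pfield
  have hsub : Sub (d + (r - 1)) (Tot X (Pm Q v)) := hP.sub_tot hX
  have hsubQ : Sub (d + r) (Tot X Q) := h.pf.sub_tot hX
  obtain ⟨h1, h2⟩ := h.om2_spec (R := R) hX hb hc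
  have hT' := hT.mono (le_max_left R 4)
  set L' := rx b - F.d (rx ν) with hL'
  have sL' : Sm (Tot X (Pm Q v)) L' := hb.rx.sub sν.rx.d
  have l0 : Eqv (Tot X (Pm Q v) ∩ {z | 1 < ‖z.2‖}) L' 0 := by
    have a1 : Eqv (Tot X (Pm Q v) ∩ {z | 1 < ‖z.2‖}) (rx b) (F.pull rh b) :=
      Eqv.of_eq fun z hz => (rx_near_out b hz.2).eq_of_nhds
    have a3 := a1.trans ((Eqv.pull smap_rh' eν).trans (d_rx sν).symm)
    have := a3.sub (Eqv.refl (F.d (rx ν)))
    rwa [sub_self] at this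
  have sL1 : Sm (Tot X (Pm Q v)) (cutH 1 L') := sL'.cutH
  have eL1 : Eqv (Tot X (Pm Q v)) (cutH 1 L') L' := eqv_cutH' zero_le_one l0
  have vL1 : ∀ z, 2 < ‖z.2‖ → cutH 1 L' z = 0 := fun z hz => by
    rw [cutH, chi_zero zero_le_one (by linarith), zero_smul]
  have f3 := h.far3 vL1
  have sM := h.sm_lift sL1
  have eM : Eqv (Tot X Q) (cutH 3 (lift Q v (cutH 1 L'))) (lift Q v (cutH 1 L')) :=
    eqv_cutH' (by norm_num) f3
  have vM : Vt (max R 4) (cutH 3 (lift Q v (cutH 1 L'))) := by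
    have : Vt (3 + 1) (cutH 3 (lift Q v (cutH 1 L'))) := Vt.cutH (by norm_num)
    refine this.mono ?_
    norm_num
  refine pT_exact μ h.pf hX hT'.csf' hT.deg' sM.cutH vM h1.smooth h1.supp ?_
  refine h2.trans (Eqv.symm ((eM.d hsubQ sM.cutH sM).trans ((h.d_lift sL1).trans ?_)))
  refine h.eqv_lift ((eL1.d hsub sL1 sL').trans ((d_sub_eqv hb.rx sν.rx.d).trans ?_))
  have a5 : Eqv (Tot X (Pm Q v)) (F.d (F.d (rx ν))) 0 := resZero_iff.1 (d_d' sν.rx)
  have := (Eqv.refl (F.d (rx b))).sub a5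
  rwa [sub_zero] at this

set_option maxHeartbeats 1000000 in
/-- a closed form on the sphere bundle with exact fibre integral comes from the base. -/
theorem OddS.sph_of_fo (hb : Sm (Sph X (Pm Q v)) b) (hc : Cl (Sph X (Pm Q v)) b) (hd : Hom j b)
    (h0 : Coh X (fo μ Q v τ' b) 0) :
    ∃ c : E → Ext E, Sm X c ∧ Cl X c ∧ Hom j c ∧ Coh (Sph X (Pm Q v)) b (F.pull Prod.fst c) := by
  obtain ⟨lam, slam, elam⟩ := h0
  rw [sub_zero] at elam
  obtain ⟨hom2, he⟩ := h.om2_spec (R := R) hX hb hc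
  set om := om2 Q v b with hom
  set R' := max R 4 with hR'
  have hR0 : 0 ≤ R' := le_trans (by norm_num) (le_max_right R 4)
  have hT' := hT.mono (le_max_left R 4)
  obtain ⟨-, -, L0, sL0, vL0, eL0⟩ := thom μ hX h.pf hT' hR0 hom2
  set L := L0 + F.pull (Prod.fst : E × H → E) lam * τ with hL
  have sl1 : Sm (Tot X Q) (F.pull (Prod.fst : E × H → E) lam) := slam.pull smap_fst'
  have sL : Sm (Tot X Q) L := sL0.add (sl1.mul hT.csf.smooth)
  have vL : ∀ z, 2 * R' + 1 < ‖z.2‖ → L z = 0 := fun z hz => by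
    rw [hL, Pi.add_apply, vL0 z hz, Pi.mul_apply, hT'.csf.supp z (by linarith), mul_zero, add_zero]
  have eL2 : Eqv (Tot X Q) (c₀ • om) (F.d L) := by
    have a1 := d_add_eqv sL0 (sl1.mul hT.csf.smooth)
    have a2 := d_mul_eqv sl1 hT.csf.smooth
    have a3 : Eqv (Tot X Q) (F.d τ) 0 := resZero_iff.1 hT.csf.closed
    have a4 : Eqv (Tot X Q) (F.d (F.pull (Prod.fst : E × H → E) lam))
        (F.pull Prod.fst (fo μ Q v τ' b)) :=
      (d_pull_eqv smap_fst' slam).trans (elam.symm.pull smap_fst')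
    have a5 := (a4.mul (Eqv.refl τ)).add
      ((Eqv.refl (fun x => F.inv (F.pull (Prod.fst : E × H → E) lam x))).mul a3)
    rw [mul_zero, add_zero] at a5
    have a6 := a1.trans (eL0.symm.add (a2.trans a5))
    have a7 : c₀ • om - F.pull Prod.fst (pI μ (thE' Q τ' om)) * τ +
        F.pull Prod.fst (fo μ Q v τ' b) * τ = c₀ • om := sub_add_cancel _ _
    rw [a7] at a6
    exact a6.symm
  -- the lift of `c₀ d (rx b)` is exact with compact support
  set l := c₀ • cutH 1 (F.d (rx b)) with hl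
  obtain ⟨g1, g2⟩ := fi_csf (R := 0) hX h.pfield hb hc
  have sl : Sm (Tot X (Pm Q v)) l := g1.smooth.smul _
  have dl : Hom (j + 1) l := fun z => (Hom.cutH (Hom.d hd.rx) z).smul _
  have e1 : Eqv (Tot X Q) (lift Q v l) (F.d L) := by
    rw [hl, lift_smul]
    have a1 : Eqv (Tot X Q) (lift Q v (cutH 1 (F.d (rx b)))) om :=
      (h.eqv_lift g2).trans he.symm
    exact (a1.smul c₀).trans eL2
  have hR2 : 0 ≤ 2 * R' + 1 := by linarith
  obtain ⟨L1, sL1, vL1, eL1⟩ := h.descend hX sl dl sL hR2 vL e1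
  have e2 : Eqv (Tot X (Pm Q v)) (F.d (rx b)) (F.d (c₀⁻¹ • L1)) := by
    have a1 := (eL1.smul c₀⁻¹)
    rw [hl, smul_smul, inv_mul_cancel₀ hT.ne, one_smul] at a1
    exact g2.symm.trans (a1.trans (d_smul_eqv c₀⁻¹ sL1).symm)
  obtain ⟨c, sc, cc, ec⟩ := base_of_prim hX hb (sL1.smul c₀⁻¹)
    (fun z hz => by rw [Pi.smul_apply, vL1 z hz, smul_zero]) e2
  have k6 := ec.dp j
  rw [hd.dp_eq, dp_pull] at k6
  exact ⟨dp j c, sc.dp j, Cl.dp j sc cc, hom_dp _ _, k6⟩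

end props

end Crest.Agent.R208.GQ
end
end

-- ▼ part R208/GQ2d

/-! Row 208, block GQ (helper989), part GQ2d: **Leray–Hirsch** for sphere bundles of odd rank
`P = Q - v vᵀ`, `Q` oriented of even rank, `v` a unit section of `Q`. -/

set_option autoImplicit false
set_option linter.unusedSectionVars false
set_option linter.unusedVariables false

open MeasureTheory Set Filter Topology Module
open scoped ContDiff RealInnerProductSpace Matrix
open Crest.Agent.R208.F Crest.Agent.R208.FI Crest.Agent.R208.CW Crest.Agent.R208.T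

noncomputable section

namespace Crest.Agent.R208.GQ

universe u w

section gen
variable {E : Type u} {H : Type w} [NormedAddCommGroup E] [NormedSpace ℝ E] [FiniteDimensional ℝ E]
  [NormedAddCommGroup H] [InnerProductSpace ℝ H] [FiniteDimensional ℝ H]
  {X : Set E} {Q P : E → H →L[ℝ] H} {v : E → H} {r d j q : ℕ} {R c₀ : ℝ} {e : E → Ext E}
  {τ τ' om b b' ε : E × H → Ext (E × H)}

/-- **Leray–Hirsch** for the sphere bundle of `P` with fibre class `ε` of degree `q`. -/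
structure LH (X : Set E) (P : E → H →L[ℝ] H) (q : ℕ) (ε : E × H → Ext (E × H)) : Prop where
  sm : Sm (Sph X P) ε
  cl : Cl (Sph X P) ε
  deg : Hom q ε
  low : ∀ {j : ℕ} {b : E × H → Ext (E × H)}, j < q → Sm (Sph X P) b → Cl (Sph X P) b → Hom j b →
    ∃ a : E → Ext E, Sm X a ∧ Cl X a ∧ Hom j a ∧ Coh (Sph X P) b (F.pull Prod.fst a)
  split : ∀ {i : ℕ} {b : E × H → Ext (E × H)}, Sm (Sph X P) b → Cl (Sph X P) b → Hom (i + q) b →
    ∃ a c : E → Ext E, Sm X a ∧ Cl X a ∧ Hom (i + q) a ∧ Sm X c ∧ Cl X c ∧ Hom i c ∧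
      Coh (Sph X P) b (F.pull Prod.fst a + ε * F.pull Prod.fst c)
  inj : ∀ {i : ℕ} {a : E → Ext E}, Sm X a → Cl X a → Hom i a →
    Coh (Sph X P) (ε * F.pull Prod.fst a) 0 → Coh X a 0

/-- `π^*` is injective -/
theorem LH.inj' (h : LH X P q ε) {i : ℕ} {a : E → Ext E} (sa : Sm X a) (ca : Cl X a) (da : Hom i a)
    (h0 : Coh (Sph X P) (F.pull Prod.fst a) 0) : Coh X a 0 := by
  refine h.inj sa ca da ?_
  have h1 := h0.mul_left h.sm h.cl
  rwa [mul_zero] at h1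

variable [MeasurableSpace H] [BorelSpace H] (μ : Measure H) [μ.IsAddHaarMeasure]

theorem OddS.fo_eps (h : OddS X Q r v) (hX : Sub d X) (hXc : IsPreconnected X)
    (hT : ThomPair μ X Q r R c₀ e τ τ') (hrN : r ≤ finrank ℝ H) (hq : q + 2 = r)
    (sε : Sm (Sph X (Pm Q v)) ε) (cε : Cl (Sph X (Pm Q v)) ε) (dε : Hom q ε)
    (hε : ¬ ∃ a : E → Ext E, Sm X a ∧ Cl X a ∧ Hom q a ∧
      Coh (Sph X (Pm Q v)) ε (F.pull Prod.fst a)) :
    ∃ κ : ℝ, κ ≠ 0 ∧ ∀ x ∈ X, fo μ Q v τ' ε x = algebraMap ℝ (Ext E) κ := by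
  obtain ⟨s1, c1⟩ := h.sm_cl_fo μ hX hT sε cε
  have d1 : Hom 0 (fo μ Q v τ' ε) := hom_fo μ hrN hT.deg' (by omega) dε
  obtain ⟨κ, hκ⟩ := const_of_closed hX hXc s1 c1 d1
  refine ⟨κ, fun h0 => hε ?_, hκ⟩
  refine h.sph_of_fo μ hX hT sε cε dε (Coh.of_eqv (Eqv.of_eq fun x hx => ?_))
  rw [hκ x hx, h0, map_zero]; rfl

set_option maxHeartbeats 1000000 in
theorem OddS.lh_pair (h : OddS X Q r v) (hX : Sub d X) (hXc : IsPreconnected X)
    (hT : ThomPair μ X Q r R c₀ e τ τ') (hrN : r ≤ finrank ℝ H) (hq : q + 2 = r)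
    (sε : Sm (Sph X (Pm Q v)) ε) (cε : Cl (Sph X (Pm Q v)) ε) (dε : Hom q ε)
    (hε : ¬ ∃ a : E → Ext E, Sm X a ∧ Cl X a ∧ Hom q a ∧
      Coh (Sph X (Pm Q v)) ε (F.pull Prod.fst a)) : LH X (Pm Q v) q ε := by
  obtain ⟨κ, k0, hκ⟩ := h.fo_eps μ hX hXc hT hrN hq sε cε dε hε
  have key : ∀ {i : ℕ} {c : E → Ext E}, Sm X c → Cl X c → Hom i c →
      Eqv X (fo μ Q v τ' (ε * F.pull Prod.fst c)) (((-1 : ℝ) ^ i * κ) • c) := by
    intro i c sc cc dc
    refine (h.fo_mul μ hX hT sε cε sc cc dc).trans (Eqv.of_eq fun x hx => ?_)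
    rw [Pi.smul_apply, Pi.mul_apply, hκ x hx, Pi.smul_apply, mul_smul, Algebra.smul_def κ]
  refine ⟨sε, cε, dε, fun {j b} hj sb cb db => ?_, fun {i b} sb cb db => ?_,
    fun {i a} sa ca da h0 => ?_⟩
  · refine h.sph_of_fo μ hX hT sb cb db ?_
    rw [fo_eq_zero μ hrN hT.deg' (by omega) db]
    exact Coh.refl 0
  · set c₁ := fo μ Q v τ' b with hc₁
    obtain ⟨s1, k1⟩ := h.sm_cl_fo μ hX hT sb cb
    have d1 : Hom i c₁ := hom_fo μ hrN hT.deg' (by omega) db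
    set t : ℝ := ((-1 : ℝ) ^ i * κ)⁻¹ with ht
    have hne : (-1 : ℝ) ^ i * κ ≠ 0 := mul_ne_zero (pow_ne_zero _ (by norm_num)) k0
    set c := t • c₁ with hc
    have sc : Sm X c := s1.smul t
    have cc : Cl X c := Cl.smul t s1 k1
    have dc : Hom i c := d1.smul t
    have spc : Sm (Sph X (Pm Q v)) (F.pull Prod.fst c) := sc.pull smap_fstS
    have cpc : Cl (Sph X (Pm Q v)) (F.pull Prod.fst c) := cc.pull smap_fstS sc
    have se : Sm (Sph X (Pm Q v)) (ε * F.pull Prod.fst c) := sε.mul spc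
    have ce : Cl (Sph X (Pm Q v)) (ε * F.pull Prod.fst c) := Cl.mul sε spc cε cpc
    have de : Hom (i + q) (ε * F.pull Prod.fst c) := by
      rw [add_comm]; exact dε.mul dc.pull
    have h1 : Coh X (fo μ Q v τ' (b - ε * F.pull Prod.fst c)) 0 := by
      refine Coh.of_eqv ((h.fo_sub μ hX hT sb cb se ce).trans ?_)
      have h2 := (Eqv.refl (X := X) c₁).sub (key sc cc dc)
      rwa [hc, smul_smul, mul_inv_cancel₀ hne, one_smul, sub_self, ← hc] at h2
    obtain ⟨a, sa, ca, da, ea⟩ := h.sph_of_fo μ hX hT (sb.sub se) (Cl.sub sb se cb ce)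
      (Hom.sub db de) h1
    refine ⟨a, c, sa, ca, da, sc, cc, dc, ?_⟩
    have h3 := ea.add (Coh.refl (ε * F.pull (Prod.fst : E × H → E) c))
    rwa [sub_add_cancel] at h3
  · have spc : Sm (Sph X (Pm Q v)) (F.pull Prod.fst a) := sa.pull smap_fstS
    have cpc : Cl (Sph X (Pm Q v)) (F.pull Prod.fst a) := ca.pull smap_fstS sa
    have h1 := h.fo_exact μ hX hT (sε.mul spc) (Cl.mul sε spc cε cpc) h0
    have hne : (-1 : ℝ) ^ i * κ ≠ 0 := mul_ne_zero (pow_ne_zero _ (by norm_num)) k0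
    have h2 := ((Coh.of_eqv (key sa ca da)).symm.trans h1).smul ((-1 : ℝ) ^ i * κ)⁻¹
    rwa [smul_smul, inv_mul_cancel₀ hne, one_smul, smul_zero] at h2

end gen

/-! ### oriented fields -/
section or
variable {n : Type} [Fintype n] [DecidableEq n]
  {E : Type} [NormedAddCommGroup E] [NormedSpace ℝ E] [FiniteDimensional ℝ E]
  {ι : Type} [Fintype ι] [DecidableEq ι]
  {X : Set E} {Q P : E → EuclideanSpace ℝ n →L[ℝ] EuclideanSpace ℝ n}
  {W : E → (ι × Fin 2 → n) → ℝ} {v : E → EuclideanSpace ℝ n} {d q : ℕ}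
  {ε : E × EuclideanSpace ℝ n → Ext (E × EuclideanSpace ℝ n)}

/-- Leray–Hirsch is inherited along `H → H ⊕ ℝ^κ` -/
theorem LH.of_push {m : Type} [Fintype m] [DecidableEq m] {S : Matrix m n ℝ} (hS : Sᵀ * S = 1)
    (sε : Sm (Sph X P) ε) (cε : Cl (Sph X P) ε) (dε : Hom q ε)
    (h : LH X (pushE S P) q (F.pull (fun z : E × EuclideanSpace ℝ m =>
        ((z.1, mE Sᵀ z.2) : E × EuclideanSpace ℝ n)) ε)) : LH X P q ε := by
  set fo : E × EuclideanSpace ℝ m → E × EuclideanSpace ℝ n := fun z => (z.1, mE Sᵀ z.2) with hfo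
  set fi : E × EuclideanSpace ℝ n → E × EuclideanSpace ℝ m := fun z => (z.1, mE S z.2) with hfi
  have so : SMap (Sph X (pushE S P)) (Sph X P) fo := smap_out hS
  have si : SMap (Sph X P) (Sph X (pushE S P)) fi := smap_in hS
  have e2 : ∀ b, Eqv (Sph X P) (F.pull fi (F.pull fo b)) b := fun b =>
    (eqv_pull_pull si so (SMap.id _) (fun z _ => by
      change (z.1, mE Sᵀ (mE S z.2)) = z
      rw [mE_mE, hS, mE_one]) b).trans (Eqv.of_eq fun z _ => F.pull_id b z)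
  have e3 : ∀ c : E → Ext E, Eqv (Sph X P) (F.pull fi (F.pull Prod.fst c)) (F.pull Prod.fst c) :=
    fun c => eqv_pull_pull si (smap_fstS (X := X) (P := pushE S P)) (smap_fstS (X := X) (P := P))
      (fun _ _ => rfl) c
  have e4 : ∀ c : E → Ext E, Eqv (Sph X (pushE S P)) (F.pull fo (F.pull Prod.fst c))
      (F.pull Prod.fst c) :=
    fun c => eqv_pull_pull so (smap_fstS (X := X) (P := P)) (smap_fstS (X := X) (P := pushE S P))
      (fun _ _ => rfl) c
  refine ⟨sε, cε, dε, fun {j b} hj sb cb db => ?_, fun {i b} sb cb db => ?_,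
    fun {i a} sa ca da h0 => ?_⟩
  · obtain ⟨a, sa, ca, da, ea⟩ := h.low hj (sb.pull so) (cb.pull so sb) db.pull
    exact ⟨a, sa, ca, da, (Coh.of_eqv (e2 b).symm).trans ((ea.pull si).trans (Coh.of_eqv (e3 a)))⟩
  · obtain ⟨a, c, sa, ca, da, sc, cc, dc, ea⟩ := h.split (sb.pull so) (cb.pull so sb) db.pull
    refine ⟨a, c, sa, ca, da, sc, cc, dc, (Coh.of_eqv (e2 b).symm).trans ((ea.pull si).trans ?_)⟩
    rw [pull_add', pull_mul']
    exact Coh.of_eqv ((e3 a).add ((e2 ε).mul (e3 c)))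
  · refine h.inj sa ca da ?_
    have h1 := h0.pull so
    rw [pull_zero', pull_mul'] at h1
    exact (Coh.of_eqv ((Eqv.refl _).mul (e4 a).symm)).trans h1

theorem Pm_pushE {m : Type} [Fintype m] [DecidableEq m] (S : Matrix m n ℝ) :
    Pm (pushE S Q) (fun x => mE S (v x)) = pushE S (Pm Q v) := by
  funext x
  ext w i
  have h1 : ⟪mE S (v x), w⟫ = ⟪v x, mE Sᵀ w⟫ := by
    rw [PiLp.inner_apply, PiLp.inner_apply]
    have := mE_inner S (v x) w
    simpa [mul_comm] using this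
  change (mE S (Q x (mE Sᵀ w)) - ⟪mE S (v x), w⟫ • mE S (v x)) i =
    (mE S (Q x (mE Sᵀ w) - ⟪v x, mE Sᵀ w⟫ • v x)) i
  rw [map_sub, map_smul, h1]

theorem OddS.push {m : Type} [Fintype m] [DecidableEq m] {S : Matrix m n ℝ} (hS : Sᵀ * S = 1)
    (h : OR X Q W) (hs : OddS X Q (2 * Fintype.card ι) v) :
    OddS X (pushE S Q) (2 * Fintype.card ι) (fun x => mE S (v x)) := by
  have hin : ∀ (a : EuclideanSpace ℝ n) (w : EuclideanSpace ℝ m), ⟪mE S a, w⟫ = ⟪a, mE Sᵀ w⟫ := by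
    intro a w
    rw [PiLp.inner_apply, PiLp.inner_apply]
    have := mE_inner S a w
    simpa [mul_comm] using this
  refine ⟨(h.push hS).pfield, fun x hx a b => ?_, fun x hx => ?_, fun x hx => ?_, fun x hx => ?_⟩
  · change ⟪mE S (Q x (mE Sᵀ a)), b⟫ = ⟪a, mE S (Q x (mE Sᵀ b))⟫
    rw [hin, hs.sym x hx, real_inner_comm, ← hin, real_inner_comm]
  · exact (mE S).contDiff.contDiffAt.comp x (hs.sv x hx)
  · rw [norm_mE hS, hs.nv x hx]
  · change mE S (Q x (mE Sᵀ (mE S (v x)))) = mE S (v x)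
    rw [mE_mE, hS, mE_one, hs.fix x hx]

set_option maxHeartbeats 1000000 in
/-- **Leray–Hirsch**, oriented fields of any codimension -/
theorem lh_OR [Nonempty ι] (hX : Sub d X) (hXc : IsPreconnected X) (h : OR X Q W)
    (hs : OddS X Q (2 * Fintype.card ι) v) (hq : q + 2 = 2 * Fintype.card ι)
    (sε : Sm (Sph X (Pm Q v)) ε) (cε : Cl (Sph X (Pm Q v)) ε) (dε : Hom q ε)
    (hε : ¬ ∃ a : E → Ext E, Sm X a ∧ Cl X a ∧ Hom q a ∧
      Coh (Sph X (Pm Q v)) ε (F.pull Prod.fst a)) : LH X (Pm Q v) q ε := by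
  rcases X.eq_empty_or_nonempty with rfl | hne
  · refine (hε ⟨0, Sm.zero, fun x hx => hx.elim, Hom.zero, Coh.of_eqv (Eqv.of_eq fun z hz => ?_)⟩).elim
    exact hz.1.1.elim
  obtain ⟨p, r, eq, -⟩ := exists_par h hne
  have hS := iM_iso (n := n) (Fin p)
  have h' := h.push hS
  obtain ⟨W', c₀, hT⟩ := exists_thomPair thd_holds eq hX hXc hne h'
  have hs' := hs.push hS h
  have hrN : 2 * Fintype.card ι ≤ finrank ℝ (EuclideanSpace ℝ (n ⊕ Fin p)) := by
    rw [finrank_euclideanSpace]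
    exact h'.card_le hne
  refine LH.of_push hS sε cε dε ?_
  rw [← Pm_pushE]
  have so : SMap (Sph X (pushE (iM n (Fin p)) (Pm Q v))) (Sph X (Pm Q v))
    (fun z : E × EuclideanSpace ℝ (n ⊕ Fin p) =>
      ((z.1, mE (iM n (Fin p))ᵀ z.2) : E × EuclideanSpace ℝ n)) := smap_out hS
  have si : SMap (Sph X (Pm Q v)) (Sph X (pushE (iM n (Fin p)) (Pm Q v)))
    (fun z : E × EuclideanSpace ℝ n =>
      ((z.1, mE (iM n (Fin p)) z.2) : E × EuclideanSpace ℝ (n ⊕ Fin p))) := smap_in hS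
  rw [← Pm_pushE] at so si
  refine hs'.lh_pair volume hX hXc hT hrN hq (sε.pull so) (cε.pull so sε) dε.pull ?_
  rintro ⟨a, sa, ca, da, ea⟩
  refine hε ⟨a, sa, ca, da, ?_⟩
  have e1 := ea.pull si
  have e2 := (eqv_pull_pull si so (SMap.id _) (fun z _ => by
      change (z.1, mE (iM n (Fin p))ᵀ (mE (iM n (Fin p)) z.2)) = z
      rw [mE_mE, hS, mE_one]) ε).trans (Eqv.of_eq fun z _ => F.pull_id ε z)
  have e3 := eqv_pull_pull si (smap_fstS (X := X)
    (P := Pm (pushE (iM n (Fin p)) Q) (fun x => mE (iM n (Fin p)) (v x))))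
    (smap_fstS (X := X) (P := Pm Q v)) (fun _ _ => rfl) a
  exact (Coh.of_eqv e2.symm).trans (e1.trans (Coh.of_eqv e3))

end or

end Crest.Agent.R208.GQ
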