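import Mathlib
import Crest.Agent.R208.CW4
import Crest.Agent.R208.PF1

-- ▼ part R208/CW5a
section

/-! Row 208, block CW (helper586).  CW5a: combinatorics of orientation tensors (frames, index
functions `I : ι × Fin 2 → n`). -/

set_option autoImplicit false
set_option linter.unusedSectionVars false
set_option linter.unusedSimpArgs false
set_option linter.unusedVariables false

open scoped BigOperators
open Matrix

noncomputable section

namespace Crest.Agent.R208.CW

section comb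
variable {ι : Type*} [Fintype ι] [DecidableEq ι] {κ n m : Type*} [Fintype κ] [DecidableEq κ]
  [Fintype n] [DecidableEq n] [Fintype m] [DecidableEq m]

/-- functions on `ι × Fin 2` -/
def cur (ι κ : Type*) : (ι × Fin 2 → κ) ≃ (ι → κ × κ) where
  toFun K j := (K (j, 0), K (j, 1))
  invFun L p := if p.2 = 0 then (L p.1).1 else (L p.1).2
  left_inv K := by
    funext ⟨j, e⟩
    fin_cases e <;> simp
  right_inv L := by
    funext j
    simp

theorem prod_sum2 {A : Type*} [CommRing A] (g : ι → κ → κ → A) :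
    ∏ j, ∑ a, ∑ b, g j a b = ∑ K : ι × Fin 2 → κ, ∏ j, g j (K (j, 0)) (K (j, 1)) := by
  have h1 : ∀ j, ∑ a, ∑ b, g j a b = ∑ c : κ × κ, g j c.1 c.2 := fun j =>
    (Fintype.sum_prod_type' (fun a b => g j a b)).symm
  simp only [h1]
  rw [Finset.prod_univ_sum, Fintype.piFinset_univ]
  exact (Fintype.sum_equiv (cur ι κ) _ _ fun K => rfl).symm

theorem prod_pair {A : Type*} [CommRing A] (g : ι × Fin 2 → A) :
    ∏ p, g p = ∏ j, (g (j, 0) * g (j, 1)) := by
  rw [Fintype.prod_prod_type]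
  exact Finset.prod_congr rfl fun j _ => Fin.prod_univ_two _

/-- two index substitution at `j` -/
def upd2 (I : ι × Fin 2 → n) (j : ι) (a b : n) : ι × Fin 2 → n :=
  fun p => if p = (j, 0) then a else if p = (j, 1) then b else I p

theorem upd2_0 (I : ι × Fin 2 → n) (j : ι) (a b : n) : upd2 I j a b (j, 0) = a := by simp [upd2]
theorem upd2_1 (I : ι × Fin 2 → n) (j : ι) (a b : n) : upd2 I j a b (j, 1) = b := by simp [upd2]
theorem upd2_ne (I : ι × Fin 2 → n) (j : ι) (a b : n) {p : ι × Fin 2} (h : p.1 ≠ j) :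
    upd2 I j a b p = I p := by
  rw [upd2, if_neg (fun e => h (by rw [e])), if_neg (fun e => h (by rw [e]))]

/-- the involution exchanging the two indices at `j` with a pair -/
def invo (j : ι) (z : (ι × Fin 2 → n) × n × n) : (ι × Fin 2 → n) × n × n :=
  (upd2 z.1 j z.2.1 z.2.2, z.1 (j, 0), z.1 (j, 1))

theorem invo_invo (j : ι) (z : (ι × Fin 2 → n) × n × n) : invo j (invo j z) = z := by
  obtain ⟨I, a, b⟩ := z
  refine Prod.ext ?_ (Prod.ext ?_ ?_)
  · funext p
    simp only [invo, upd2]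
    by_cases h0 : p = (j, 0)
    · simp [h0]
    · by_cases h1 : p = (j, 1)
      · simp [h1]
      · simp [h0, h1]
  · simp [invo, upd2]
  · simp [invo, upd2]

theorem sum_eq_zero_of_upd2 {V : Type*} [AddCommGroup V] [Module ℂ V] (j : ι)
    (F : (ι × Fin 2 → n) → V) (h : ∀ I, ∑ a, ∑ b, F (upd2 I j a b) = 0) : ∑ I, F I = 0 := by
  rcases isEmpty_or_nonempty n with hn | hn
  · have : IsEmpty (ι × Fin 2 → n) := ⟨fun I => hn.elim (I (j, 0))⟩
    exact Finset.sum_of_isEmpty _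
  have h1 : ∑ z : (ι × Fin 2 → n) × n × n, F (upd2 z.1 j z.2.1 z.2.2) = 0 := by
    rw [Fintype.sum_prod_type]
    refine Finset.sum_eq_zero fun I _ => ?_
    rw [Fintype.sum_prod_type]
    exact h I
  have h2 : ∑ z : (ι × Fin 2 → n) × n × n, F (upd2 z.1 j z.2.1 z.2.2)
      = ∑ z : (ι × Fin 2 → n) × n × n, F z.1 :=
    Fintype.sum_equiv (Function.Involutive.toPerm (invo j) (invo_invo j)) _ _ fun z => rfl
  rw [h2, Fintype.sum_prod_type] at h1
  simp only [Finset.sum_const, Finset.card_univ, ← Finset.smul_sum] at h1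
  rw [← Nat.cast_smul_eq_nsmul ℂ] at h1
  refine (smul_eq_zero.1 h1).resolve_left ?_
  exact_mod_cast Fintype.card_ne_zero

/-- expansion of the determinant of a submatrix -/
theorem det_sub (f : Matrix n κ ℂ) (I : κ → n) :
    (f.submatrix I id).det = ∑ σ : Equiv.Perm κ, ((Equiv.Perm.sign σ : ℤ) : ℂ) * ∏ p, f (I p) (σ p) := by
  rw [← det_transpose, det_apply']
  rfl

theorem det_sub_perm (f : Matrix n κ ℂ) (I : κ → n) (π : Equiv.Perm κ) :
    (f.submatrix (fun p => I (π p)) id).det = ((Equiv.Perm.sign π : ℤ) : ℂ) * (f.submatrix I id).det := by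
  have : f.submatrix (fun p => I (π p)) id = (f.submatrix I id).submatrix π id := rfl
  rw [this, det_permute]

/-- coordinates of a tensor in a frame -/
def co (f : Matrix n κ ℂ) {V : Type*} [AddCommGroup V] [Module ℂ V] (D : (κ → n) → V)
    (K : κ → κ) : V := ∑ I : κ → n, (∏ p, f (I p) (K p)) • D I

theorem co_perm (f : Matrix n κ ℂ) {V : Type*} [AddCommGroup V] [Module ℂ V] {D : (κ → n) → V}
    (hD : ∀ (π : Equiv.Perm κ) I, D (fun p => I (π p)) = ((Equiv.Perm.sign π : ℤ) : ℂ) • D I)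
    (K : κ → κ) (π : Equiv.Perm κ) :
    co f D (fun p => K (π p)) = ((Equiv.Perm.sign π : ℤ) : ℂ) • co f D K := by
  rw [co, co, Finset.smul_sum]
  refine Fintype.sum_equiv (Equiv.arrowCongr π (Equiv.refl n)) _ _ fun I => ?_
  have e1 : (Equiv.arrowCongr π (Equiv.refl n)) I = fun p => I (π.symm p) := rfl
  rw [e1]
  have h1 := hD π (fun p => I (π.symm p))
  simp only [Equiv.symm_apply_apply] at h1
  have h2 : ∏ p, f (I p) (K (π p)) = ∏ p, f (I (π.symm p)) (K p) := by
    refine Fintype.prod_equiv π _ _ fun p => ?_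
    rw [Equiv.symm_apply_apply]
  rw [h2, h1, smul_smul, smul_smul, mul_comm]

theorem co_not_inj (f : Matrix n κ ℂ) {V : Type*} [AddCommGroup V] [Module ℂ V]
    {D : (κ → n) → V}
    (hD : ∀ (π : Equiv.Perm κ) I, D (fun p => I (π p)) = ((Equiv.Perm.sign π : ℤ) : ℂ) • D I)
    {K : κ → κ} (hK : ¬ Function.Injective K) : co f D K = 0 := by
  rw [Function.Injective] at hK
  push Not at hK
  obtain ⟨p, q, hpq, hne⟩ := hK
  have h1 := co_perm f hD K (Equiv.swap p q)
  have h2 : (fun r => K (Equiv.swap p q r)) = K := by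
    funext r
    rcases eq_or_ne r p with rfl | h
    · rw [Equiv.swap_apply_left, hpq]
    rcases eq_or_ne r q with rfl | h'
    · rw [Equiv.swap_apply_right, hpq]
    · rw [Equiv.swap_apply_of_ne_of_ne h h']
  rw [h2, Equiv.Perm.sign_swap hne] at h1
  have h3 : (2 : ℂ) • co f D K = 0 := by
    rw [two_smul]
    nth_rewrite 1 [h1]
    simp
  exact (smul_eq_zero.1 h3).resolve_left two_ne_zero

/-- an alternating tensor orthogonal to the frame tensor has vanishing frame coordinates -/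
theorem co_eq_zero (f : Matrix n κ ℂ) {V : Type*} [AddCommGroup V] [Module ℂ V]
    {D : (κ → n) → V}
    (hD : ∀ (π : Equiv.Perm κ) I, D (fun p => I (π p)) = ((Equiv.Perm.sign π : ℤ) : ℂ) • D I)
    (h0 : ∑ I, (f.submatrix I id).det • D I = 0) (K : κ → κ) : co f D K = 0 := by
  by_cases hK : Function.Injective K
  · have hb : Function.Bijective K := Finite.injective_iff_bijective.1 hK
    have e : ∀ π : Equiv.Perm κ, co f D π = ((Equiv.Perm.sign π : ℤ) : ℂ) • co f D id := fun π =>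
      co_perm f hD id π
    have h1 : ∑ I, (f.submatrix I id).det • D I
        = ∑ σ : Equiv.Perm κ, ((Equiv.Perm.sign σ : ℤ) : ℂ) • co f D σ := by
      simp only [det_sub, Finset.sum_smul, co, Finset.smul_sum, smul_smul]
      rw [Finset.sum_comm]
    have h2 : ∀ σ : Equiv.Perm κ, ((Equiv.Perm.sign σ : ℤ) : ℂ) • co f D σ = co f D id := by
      intro σ
      rw [e, smul_smul]
      rcases Int.units_eq_one_or (Equiv.Perm.sign σ) with h | h <;> simp [h]
    rw [h1] at h0
    simp only [h2, Finset.sum_const, Finset.card_univ] at h0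
    rw [← Nat.cast_smul_eq_nsmul ℂ] at h0
    have h3 : co f D id = 0 := (smul_eq_zero.1 h0).resolve_left (by
      exact_mod_cast Fintype.card_ne_zero)
    have h4 := e (Equiv.ofBijective K hb)
    rw [h3, smul_zero] at h4
    exact h4
  · exact co_not_inj f hD hK

/-- the sum of the squares of the frame tensor depends only on `fᵀ f` -/
theorem sum_sq_det (f : Matrix n κ ℂ) (hf : fᵀ * f = 1) :
    ∑ I : κ → n, (f.submatrix I id).det * (f.submatrix I id).det
      = ∑ σ : Equiv.Perm κ, ∑ τ : Equiv.Perm κ,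
        ((Equiv.Perm.sign σ : ℤ) : ℂ) * ((Equiv.Perm.sign τ : ℤ) : ℂ)
          * ∏ p, (1 : Matrix κ κ ℂ) (σ p) (τ p) := by
  have h1 : ∀ σ τ : Equiv.Perm κ, ∏ p, (1 : Matrix κ κ ℂ) (σ p) (τ p)
      = ∑ I : κ → n, (∏ p, f (I p) (σ p)) * ∏ p, f (I p) (τ p) := by
    intro σ τ
    rw [← hf]
    simp only [mul_apply, transpose_apply, ← Finset.prod_mul_distrib]
    rw [Finset.prod_univ_sum, Fintype.piFinset_univ]
  have h2 : ∀ I : κ → n, (f.submatrix I id).det * (f.submatrix I id).det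
      = ∑ σ : Equiv.Perm κ, ∑ τ : Equiv.Perm κ,
        (((Equiv.Perm.sign σ : ℤ) : ℂ) * ∏ p, f (I p) (σ p))
          * (((Equiv.Perm.sign τ : ℤ) : ℂ) * ∏ p, f (I p) (τ p)) := fun I => by
    rw [det_sub, Finset.sum_mul_sum]
  simp only [h1, h2, Finset.mul_sum]
  rw [Finset.sum_comm]
  refine Finset.sum_congr rfl fun σ _ => ?_
  rw [Finset.sum_comm]
  refine Finset.sum_congr rfl fun τ _ => Finset.sum_congr rfl fun I _ => ?_
  ring

end comb

end Crest.Agent.R208.CW
end
end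

-- ▼ part R208/CW5
section

/-! Row 208, block CW (helper586).  CW5: the Euler form (Pfaffian with orientation tensor) of an
orthogonal projection field is closed. -/

set_option autoImplicit false
set_option linter.unusedSectionVars false
set_option linter.unusedSimpArgs false
set_option linter.unusedVariables false

open scoped BigOperators ContDiff Topology
open Module Set Matrix

noncomputable section

namespace Crest.Agent.R208.CW

open Crest.Agent.R208.F Crest.Agent.R208.FI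

/-! ### products of even forms -/

section prod
variable {E G : Type*} [NormedAddCommGroup E] [NormedSpace ℝ E] [FiniteDimensional ℝ E]
  [NormedAddCommGroup G] [NormedSpace ℝ G] {ι : Type*} [DecidableEq ι]

theorem CD_prod (s : Finset ι) {k : WithTop ℕ∞} {a : ι → G → EvC E} {x : G}
    (h : ∀ j ∈ s, CD k (fun y => (a j y : CF E)) x) :
    CD k (fun y => ((∏ j ∈ s, a j y : EvC E) : CF E)) x := by
  induction s using Finset.induction_on with
  | empty => simpa using CD.const (E := E) (1 : CF E)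
  | insert j s hj ih =>
    simp only [Finset.prod_insert hj]
    exact (h j (Finset.mem_insert_self _ _)).mul (ih fun i hi => h i (Finset.mem_insert_of_mem hi))

theorem dC_prod (s : Finset ι) {a : ι → E → EvC E} {x : E}
    (h : ∀ j ∈ s, CD 1 (fun y => (a j y : CF E)) x) :
    dC (fun y => ((∏ j ∈ s, a j y : EvC E) : CF E)) x
      = ∑ j ∈ s, dC (fun y => (a j y : CF E)) x * ((∏ l ∈ s.erase j, a l x : EvC E) : CF E) := by
  induction s using Finset.induction_on with
  | empty => simpa using dC_const (E := E) (1 : CF E) x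
  | insert j s hj ih =>
    have h1 := h j (Finset.mem_insert_self _ _)
    have h2 : ∀ i ∈ s, CD 1 (fun y => (a i y : CF E)) x := fun i hi =>
      h i (Finset.mem_insert_of_mem hi)
    simp only [Finset.prod_insert hj]
    have e := dC_mul h1 (CD_prod s h2)
    have e2 : dC (fun y => ((a j y * ∏ i ∈ s, a i y : EvC E) : CF E)) x
        = dC (fun y => (a j y : CF E)) x * ((∏ i ∈ s, a i x : EvC E) : CF E)
          + invC (a j x : CF E) * dC (fun y => ((∏ i ∈ s, a i y : EvC E) : CF E)) x := e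
    rw [e2, ih h2, EvC.inv, Finset.sum_insert hj, Finset.erase_insert hj, Finset.mul_sum]
    congr 1
    refine Finset.sum_congr rfl fun i hi => ?_
    have hij : j ≠ i := fun e => hj (e ▸ hi)
    rw [Finset.erase_insert_of_ne hij, Finset.prod_insert (fun e => hj (Finset.mem_of_mem_erase e)),
      ← mul_assoc, even_commC (EvC.inv (a j x)), mul_assoc]
    rfl

end prod

/-! ### the Euler expression at a point -/

section pt
variable {T : Type*} [AddCommGroup T] [Module ℝ T] {ι n m : Type*} [Fintype ι] [DecidableEq ι]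
  [Fintype n] [DecidableEq n] [Fintype m] [DecidableEq m]

/-- `W` is the orientation tensor of an orthonormal frame of the range of `P` -/
def Fr (P : Matrix n n ℂ) (W : (ι × Fin 2 → n) → ℂ) : Prop :=
  ∃ f : Matrix n (ι × Fin 2) ℂ, fᵀ * f = 1 ∧ f * fᵀ = P ∧ ∀ I, W I = (f.submatrix I id).det

/-- the Euler expression -/
def eu (W : (ι × Fin 2 → n) → ℂ) (w : Matrix n n (EvC T)) : EvC T :=
  ∑ I : ι × Fin 2 → n, W I • ∏ j : ι, w (I (j, 0)) (I (j, 1))

theorem Fr.idem {P : Matrix n n ℂ} {W : (ι × Fin 2 → n) → ℂ} (h : Fr P W) : P * P = P := by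
  obtain ⟨f, h1, rfl, h3⟩ := h
  rw [Matrix.mul_assoc, ← Matrix.mul_assoc fᵀ, h1, Matrix.one_mul]

theorem hv_apply (M : Matrix n m ℂ) (i : n) (j : m) : hv T M i j = algebraMap ℂ (EvC T) (M i j) := rfl

theorem expand_frame (f : Matrix n (ι × Fin 2) ℂ) (M : Matrix (ι × Fin 2) (ι × Fin 2) (EvC T))
    (a b : n) : (hv T f * M * (hv T f)ᵀ) a b = ∑ p, ∑ q, (f a p * f b q) • M p q := by
  simp only [Matrix.mul_apply, Finset.sum_mul, transpose_apply, hv_apply]
  rw [Finset.sum_comm]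
  refine Finset.sum_congr rfl fun p _ => Finset.sum_congr rfl fun q _ => ?_
  rw [Algebra.smul_def, map_mul]; ring

theorem prod_expand (f : Matrix n (ι × Fin 2) ℂ) (M : Matrix (ι × Fin 2) (ι × Fin 2) (EvC T))
    (I : ι × Fin 2 → n) :
    ∏ j, (hv T f * M * (hv T f)ᵀ) (I (j, 0)) (I (j, 1))
      = ∑ K : ι × Fin 2 → ι × Fin 2, (∏ p, f (I p) (K p)) • ∏ j, M (K (j, 0)) (K (j, 1)) := by
  simp only [expand_frame]
  rw [prod_sum2 (fun j p q => (f (I (j, 0)) p * f (I (j, 1)) q) • M p q)]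
  refine Finset.sum_congr rfl fun K _ => ?_
  rw [prod_pair (fun p => f (I p) (K p))]
  simp only [Algebra.smul_def]
  rw [Finset.prod_mul_distrib, map_prod]

theorem frame_w {P : Matrix n n ℂ} {f : Matrix n (ι × Fin 2) ℂ} (hP : f * fᵀ = P)
    {w : Matrix n n (EvC T)} (hw : hv T P * w * hv T P = w) :
    w = hv T f * ((hv T f)ᵀ * w * hv T f) * (hv T f)ᵀ := by
  conv_lhs => rw [← hw, ← hP]
  have : hv T fᵀ = (hv T f)ᵀ := rfl
  rw [hv_mul, this]
  simp only [Matrix.mul_assoc]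

/-- first vanishing: derivative of the orientation tensor -/
theorem Z1 {P : Matrix n n ℂ} {f : Matrix n (ι × Fin 2) ℂ} (hP : f * fᵀ = P)
    {w : Matrix n n (EvC T)} (hw : hv T P * w * hv T P = w) {D : (ι × Fin 2 → n) → CF T}
    (hD : ∀ (π : Equiv.Perm (ι × Fin 2)) I,
      D (fun p => I (π p)) = ((Equiv.Perm.sign π : ℤ) : ℂ) • D I)
    (h0 : ∑ I, (f.submatrix I id).det • D I = 0) :
    ∑ I, D I * ((∏ j, w (I (j, 0)) (I (j, 1)) : EvC T) : CF T) = 0 := by
  rw [frame_w hP hw]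
  set M := (hv T f)ᵀ * w * hv T f
  have h1 : ∀ I, D I * ((∏ j, (hv T f * M * (hv T f)ᵀ) (I (j, 0)) (I (j, 1)) : EvC T) : CF T)
      = ∑ K : ι × Fin 2 → ι × Fin 2, ((∏ p, f (I p) (K p)) • D I)
          * ((∏ j, M (K (j, 0)) (K (j, 1)) : EvC T) : CF T) := fun I => by
    rw [prod_expand]
    have e1 : ∀ (s : Finset (ι × Fin 2 → ι × Fin 2)) (g : (ι × Fin 2 → ι × Fin 2) → EvC T),
        ((∑ i ∈ s, g i : EvC T) : CF T) = ∑ i ∈ s, (g i : CF T) := fun s g =>
      map_sum (EvC T).val g s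
    rw [e1, Finset.mul_sum]
    refine Finset.sum_congr rfl fun K _ => ?_
    rw [smul_mul_assoc, ← mul_smul_comm]
    rfl
  simp only [h1]
  rw [Finset.sum_comm]
  refine Finset.sum_eq_zero fun K _ => ?_
  rw [← Finset.sum_mul]
  have := co_eq_zero f hD h0 K
  rw [co] at this
  rw [this, zero_mul]

/-- second vanishing: Bianchi -/
theorem Z2 {f : Matrix n (ι × Fin 2) ℂ} {mm : Matrix n n (CF T)}
    (hm : (hat T f)ᵀ * mm * hat T f = 0) (j : ι) {R : (ι × Fin 2 → n) → CF T}
    (hR : ∀ I a b, R (upd2 I j a b) = R I) :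
    ∑ I, (f.submatrix I id).det • (mm (I (j, 0)) (I (j, 1)) * R I) = 0 := by
  simp only [det_sub, Finset.sum_smul]
  rw [Finset.sum_comm]
  refine Finset.sum_eq_zero fun σ _ => ?_
  refine sum_eq_zero_of_upd2 j _ fun I => ?_
  set C : ℂ := ∏ j' ∈ Finset.univ.erase j, (f (I (j', 0)) (σ (j', 0)) * f (I (j', 1)) (σ (j', 1)))
    with hC
  have h1 : ∀ a b, ∏ p, f (upd2 I j a b p) (σ p) = f a (σ (j, 0)) * f b (σ (j, 1)) * C := by
    intro a b
    rw [prod_pair (fun p => f (upd2 I j a b p) (σ p)), ← Finset.mul_prod_erase _ _ (Finset.mem_univ j),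
      upd2_0, upd2_1, hC]
    congr 1
    refine Finset.prod_congr rfl fun j' hj' => ?_
    have hne : j' ≠ j := Finset.ne_of_mem_erase hj'
    rw [upd2_ne I j a b (p := (j', 0)) hne, upd2_ne I j a b (p := (j', 1)) hne]
  have h2 : ∑ a, ∑ b, (f a (σ (j, 0)) * f b (σ (j, 1))) • mm a b = 0 := by
    have h3 := congrFun (congrFun hm (σ (j, 0))) (σ (j, 1))
    rw [Matrix.mul_apply] at h3
    simp only [Matrix.mul_apply, Finset.sum_mul, transpose_apply] at h3
    rw [Finset.sum_comm] at h3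
    rw [← show _ = (0 : CF T) from h3]
    refine Finset.sum_congr rfl fun a _ => Finset.sum_congr rfl fun b _ => ?_
    have e1 : hat T f a (σ (j, 0)) = algebraMap ℂ (CF T) (f a (σ (j, 0))) := rfl
    have e2 : hat T f b (σ (j, 1)) = algebraMap ℂ (CF T) (f b (σ (j, 1))) := rfl
    rw [e1, e2, ← Algebra.commutes, ← mul_assoc, ← map_mul, Algebra.smul_def, mul_comm (f b _)]
  have h4 : ∀ a b, (((Equiv.Perm.sign σ : ℤ) : ℂ) * ∏ p, f (upd2 I j a b p) (σ p))
        • (mm (upd2 I j a b (j, 0)) (upd2 I j a b (j, 1)) * R (upd2 I j a b))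
      = (((Equiv.Perm.sign σ : ℤ) : ℂ) * C)
        • (((f a (σ (j, 0)) * f b (σ (j, 1))) • mm a b) * R I) := by
    intro a b
    rw [h1, upd2_0, upd2_1, hR, smul_mul_assoc, smul_smul]
    congr 1
    ring
  simp only [h4, ← Finset.smul_sum, ← Finset.sum_mul, h2, zero_mul, smul_zero]

end pt

/-! ### the Euler form of a field -/

section field
variable {E F : Type*} [NormedAddCommGroup E] [NormedSpace ℝ E] [FiniteDimensional ℝ E]
  [NormedAddCommGroup F] [NormedSpace ℝ F] [FiniteDimensional ℝ F]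
  {ι n m : Type*} [Fintype ι] [DecidableEq ι] [Fintype n] [DecidableEq n] [Fintype m]
  [DecidableEq m] {x : E} {X : Set E} {Y : Set F} {dX dY : ℕ}

/-- oriented orthogonal projection field along `X` -/
structure OF (X : Set E) (P : E → Matrix n n ℂ) (W : E → (ι × Fin 2 → n) → ℂ) : Prop where
  sP : ∀ x ∈ X, SM ∞ P x
  sW : ∀ x ∈ X, ∀ I, ContDiffAt ℝ ∞ (fun y => W y I) x
  fr : ∀ x ∈ X, Fr (P x) (W x)

theorem OF.idF {P : E → Matrix n n ℂ} {W : E → (ι × Fin 2 → n) → ℂ} (h : OF X P W) : IdF X P :=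
  ⟨h.sP, fun x hx => (h.fr x hx).idem⟩

/-- Euler form (`2^r r!` times the Pfaffian of the curvature) -/
def ef (P : E → Matrix n n ℂ) (W : E → (ι × Fin 2 → n) → ℂ) (x : E) : CF E :=
  (eu (W x) (Om P x) : EvC E)

theorem ef_apply (P : E → Matrix n n ℂ) (W : E → (ι × Fin 2 → n) → ℂ) (x : E) :
    ef P W x = ∑ I, algebraMap ℂ (CF E) (W x I)
      * ((∏ j, Om P x (I (j, 0)) (I (j, 1)) : EvC E) : CF E) := by
  have e1 : ∀ (s : Finset (ι × Fin 2 → n)) (g : (ι × Fin 2 → n) → EvC E),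
      ((∑ i ∈ s, g i : EvC E) : CF E) = ∑ i ∈ s, (g i : CF E) := fun s g =>
    map_sum (EvC E).val g s
  rw [ef, eu, e1]
  refine Finset.sum_congr rfl fun I _ => ?_
  rw [← Algebra.smul_def]
  rfl

theorem MD_Om {P : E → Matrix n n ℂ} (h : SM ∞ P x) :
    MD ∞ (fun y => vl (Om P y)) x := by
  have h1 : MD ∞ (DD P) x := h.MD_DD inf_add_one
  have h0 : MD ∞ (fun y => hat E (P y)) x := h.hat
  have : (fun y => vl (Om P y)) = fun y => hat E (P y) * (DD P y * DD P y) * hat E (P y) :=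
    funext fun y => vl_Om P y
  rw [this]
  exact (h0.mul (h1.mul h1)).mul h0

theorem dM_Om {P : E → Matrix n n ℂ} (h : SM ∞ P x) :
    dM (fun y => vl (Om P y)) x
      = DD P x * (DD P x * DD P x) * hat E (P x) + hat E (P x) * (DD P x * DD P x) * DD P x := by
  have h1 : MD 1 (DD P) x := (h.MD_DD inf_add_one).of_le one_le_inf
  have h0 : MD 1 (fun y => hat E (P y)) x := (h.of_le one_le_inf).hat
  have h2 := h.of_le two_le
  have : (fun y => vl (Om P y)) = fun y => hat E (P y) * (DD P y * DD P y) * hat E (P y) :=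
    funext fun y => vl_Om P y
  rw [this, dM_mul (h0.mul (h1.mul h1)) h0, dM_mul h0 (h1.mul h1), dM_mul h1 h1, dM_DD h2,
    zero_mul, mul_zero, add_zero, mul_zero, add_zero, invM_mul, invM_hat, invM_mul, invM_DD,
    neg_mul_neg]
  rfl

/-- restriction of even forms -/
def rsE (X : Set E) (x : E) : EvC E →+* EvC (Tan X x) where
  toFun a := ⟨rs X x a, by
    change invC (rs X x a) = rs X x a
    rw [← rs_invC, EvC.inv]⟩
  map_one' := Subtype.ext (map_one _)
  map_mul' a b := Subtype.ext (map_mul (rs X x) _ _)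
  map_zero' := Subtype.ext (map_zero _)
  map_add' a b := Subtype.ext (map_add (rs X x) _ _)

theorem rsE_coe (a : EvC E) : (rsE X x a : CF (Tan X x)) = rs X x a := rfl

theorem rsE_Om (P : E → Matrix n n ℂ) (x : E) :
    (Om P x).map (rsE X x) = wv (P x) (dl X P x) (invM_dl P x) := by
  refine vl_inj ?_
  rw [vl_wv]
  have h : vl ((Om P x).map (rsE X x)) = rsM X x (vl (Om P x)) := rfl
  rw [h, vl_Om, rsM_mul, rsM_mul, rsM_mul, rsM_hat]
  rfl

theorem rs_dC_alg_sub {g g' : E → ℂ} (hx : x ∈ X) (hg : ContDiffAt ℝ 1 g x)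
    (hg' : ContDiffAt ℝ 1 g' x) (h : ∀ y ∈ X, g y = g' y) :
    rs X x (dC (fun y => algebraMap ℂ (CF E) (g y)) x)
      = rs X x (dC (fun y => algebraMap ℂ (CF E) (g' y)) x) := by
  have h1 := rs_dC_fun_zero (X := X) hx (g := fun y => g y - g' y) (hg.sub hg')
    (fun y hy => by simp only [h y hy, sub_self])
  have h2 : (fun y => algebraMap ℂ (CF E) (g y - g' y))
      = fun y => algebraMap ℂ (CF E) (g y) - algebraMap ℂ (CF E) (g' y) :=
    funext fun y => map_sub _ _ _
  rw [h2, dC_sub (CD.of_fun hg) (CD.of_fun hg'), map_sub] at h1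
  exact sub_eq_zero.1 h1

/-- restricted differential of the orientation tensor -/
def dW (X : Set E) (W : E → (ι × Fin 2 → n) → ℂ) (x : E) (I : ι × Fin 2 → n) : CF (Tan X x) :=
  rs X x (dC (fun y => algebraMap ℂ (CF E) (W y I)) x)

theorem OF.dW_alt {P : E → Matrix n n ℂ} {W : E → (ι × Fin 2 → n) → ℂ} (h : OF X P W)
    (hx : x ∈ X) (π : Equiv.Perm (ι × Fin 2)) (I : ι × Fin 2 → n) :
    dW X W x (fun p => I (π p)) = ((Equiv.Perm.sign π : ℤ) : ℂ) • dW X W x I := by
  have h1 : ∀ I, ContDiffAt ℝ 1 (fun y => W y I) x := fun I => (h.sW x hx I).of_le one_le_inf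
  have h2 := rs_dC_alg_sub (X := X) (g := fun y => W y (fun p => I (π p)))
    (g' := fun y => ((Equiv.Perm.sign π : ℤ) : ℂ) * W y I) hx (h1 _) (contDiffAt_const.mul (h1 I))
    (fun y hy => by
      obtain ⟨f, _, _, hf⟩ := h.fr y hy
      simp only [hf, det_sub_perm])
  have h3 : (fun y => algebraMap ℂ (CF E) (((Equiv.Perm.sign π : ℤ) : ℂ) * W y I))
      = fun y => ((Equiv.Perm.sign π : ℤ) : ℂ) • algebraMap ℂ (CF E) (W y I) := by
    funext y; rw [map_mul, ← Algebra.smul_def]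
  rw [h3, dC_csmul _ (CD.of_fun (h1 I)), rs_csmul] at h2
  exact h2

theorem OF.dW_orth {P : E → Matrix n n ℂ} {W : E → (ι × Fin 2 → n) → ℂ} (h : OF X P W)
    (hx : x ∈ X) : ∑ I, W x I • dW X W x I = 0 := by
  have h1 : ∀ I, ContDiffAt ℝ 1 (fun y => W y I) x := fun I => (h.sW x hx I).of_le one_le_inf
  set c : ℂ := ∑ σ : Equiv.Perm (ι × Fin 2), ∑ τ : Equiv.Perm (ι × Fin 2),
        ((Equiv.Perm.sign σ : ℤ) : ℂ) * ((Equiv.Perm.sign τ : ℤ) : ℂ)
          * ∏ p, (1 : Matrix (ι × Fin 2) (ι × Fin 2) ℂ) (σ p) (τ p)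
  have h2 := rs_dC_alg_sub (X := X) (g := fun y => ∑ I, W y I * W y I) (g' := fun _ => c) hx
    (ContDiffAt.sum fun I _ => (h1 I).mul (h1 I)) contDiffAt_const
    (fun y hy => by
      obtain ⟨f, hf1, _, hf⟩ := h.fr y hy
      simp only [hf]
      exact sum_sq_det f hf1)
  have h3 : (fun y => algebraMap ℂ (CF E) (∑ I, W y I * W y I))
      = fun y => ∑ I, algebraMap ℂ (CF E) (W y I) * algebraMap ℂ (CF E) (W y I) := by
    funext y; rw [map_sum]; exact Finset.sum_congr rfl fun I _ => map_mul _ _ _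
  rw [h3, dC_const, map_zero, dC_sum _ fun I _ => (CD.of_fun (h1 I)).mul (CD.of_fun (h1 I)),
    map_sum] at h2
  have h4 : ∀ I, rs X x (dC (fun y => algebraMap ℂ (CF E) (W y I) * algebraMap ℂ (CF E) (W y I)) x)
      = (2 : ℂ) • (W x I • dW X W x I) := by
    intro I
    rw [dC_mul (CD.of_fun (h1 I)) (CD.of_fun (h1 I)), invC_algebraMap, map_add, map_mul, map_mul,
      rs_algebraMap, ← Algebra.commutes, ← Algebra.smul_def, two_smul]
    rfl
  simp only [h4, ← Finset.smul_sum] at h2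
  exact (smul_eq_zero.1 h2).resolve_left two_ne_zero

theorem CD_ef {P : E → Matrix n n ℂ} {W : E → (ι × Fin 2 → n) → ℂ} (hP : SM ∞ P x)
    (hW : ∀ I, ContDiffAt ℝ ∞ (fun y => W y I) x) : CD ∞ (ef P W) x := by
  have : ef P W = fun x => ∑ I, algebraMap ℂ (CF E) (W x I)
      * ((∏ j, Om P x (I (j, 0)) (I (j, 1)) : EvC E) : CF E) := funext fun x => ef_apply P W x
  rw [this]
  exact CD.sum fun I _ => (CD.of_fun (hW I)).mul (CD_prod _ fun j _ => MD_Om hP _ _)

theorem rs_dC_ef {P : E → Matrix n n ℂ} {W : E → (ι × Fin 2 → n) → ℂ} (h : OF X P W)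
    (hx : x ∈ X) : rs X x (dC (ef P W) x) = 0 := by
  have hP := h.sP x hx
  have hW : ∀ I, CD 1 (fun y => algebraMap ℂ (CF E) (W y I)) x := fun I =>
    CD.of_fun ((h.sW x hx I).of_le one_le_inf)
  have hO : ∀ a b, CD 1 (fun y => (Om P y a b : CF E)) x := fun a b =>
    (MD_Om hP a b).of_le one_le_inf
  have hpr : ∀ I : ι × Fin 2 → n, CD 1 (fun y => ((∏ j, Om P y (I (j, 0)) (I (j, 1)) : EvC E) : CF E)) x :=
    fun I => CD_prod _ fun j _ => hO _ _
  obtain ⟨f, hf1, hf2, hf3⟩ := h.fr x hx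
  have hid := h.idF.idem x hx
  have hdl := h.idF.dl_eq_gen hx
  -- the derivative
  have e1 : dC (ef P W) x = (∑ I, dC (fun y => algebraMap ℂ (CF E) (W y I)) x
        * ((∏ j, Om P x (I (j, 0)) (I (j, 1)) : EvC E) : CF E))
      + ∑ j, ∑ I, algebraMap ℂ (CF E) (W x I) * (dC (fun y => (Om P y (I (j, 0)) (I (j, 1)) : CF E)) x
        * ((∏ l ∈ Finset.univ.erase j, Om P x (I (l, 0)) (I (l, 1)) : EvC E) : CF E)) := by
    have : ef P W = fun x => ∑ I, algebraMap ℂ (CF E) (W x I)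
      * ((∏ j, Om P x (I (j, 0)) (I (j, 1)) : EvC E) : CF E) := funext fun x => ef_apply P W x
    rw [this, dC_sum _ fun I _ => (hW I).mul (hpr I), Finset.sum_comm, ← Finset.sum_add_distrib]
    refine Finset.sum_congr rfl fun I _ => ?_
    rw [dC_mul (hW I) (hpr I), invC_algebraMap, dC_prod _ fun j _ => hO _ _, Finset.mul_sum]
  rw [e1, map_add, map_sum, map_sum]
  -- first part
  have hw : hv (Tan X x) (P x) * (Om P x).map (rsE X x) * hv (Tan X x) (P x)
      = (Om P x).map (rsE X x) := by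
    rw [rsE_Om, hv_wv hid, wv_hv hid]
  have z1 := Z1 hf2 hw (D := dW X W x) (fun π I => h.dW_alt hx π I) (by
    have := h.dW_orth hx
    simpa only [hf3] using this)
  have p1 : ∑ I, rs X x (dC (fun y => algebraMap ℂ (CF E) (W y I)) x
        * ((∏ j, Om P x (I (j, 0)) (I (j, 1)) : EvC E) : CF E)) = 0 := by
    rw [← z1]
    refine Finset.sum_congr rfl fun I _ => ?_
    rw [map_mul, ← rsE_coe, map_prod]
    rfl
  rw [p1, zero_add]
  refine Finset.sum_eq_zero fun j _ => ?_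
  rw [map_sum]
  -- second part
  set mm : Matrix n n (CF (Tan X x)) := rsM X x (dM (fun y => vl (Om P y)) x) with hmm
  have hmm2 : mm = dl X P x * (dl X P x * dl X P x) * hat (Tan X x) (P x)
      + hat (Tan X x) (P x) * (dl X P x * dl X P x) * dl X P x := by
    rw [hmm, dM_Om hP, rsM_add, rsM_mul, rsM_mul, rsM_mul, rsM_mul, rsM_mul, rsM_mul, rsM_hat]
    rfl
  have hPf : P x * f = f := by rw [← hf2, Matrix.mul_assoc, hf1, Matrix.mul_one]
  have hPt : (P x)ᵀ = P x := by rw [← hf2, transpose_mul, transpose_transpose]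
  have hfP : fᵀ * P x = fᵀ := by rw [← hPt, ← transpose_mul, hPf]
  have hqf : hat (Tan X x) (P x) * hat (Tan X x) f = hat (Tan X x) f := by rw [← hat_mul, hPf]
  have hfq : (hat (Tan X x) f)ᵀ * hat (Tan X x) (P x) = (hat (Tan X x) f)ᵀ := by
    have e : (hat (Tan X x) f)ᵀ = hat (Tan X x) fᵀ := rfl
    rw [e, ← hat_mul, hfP]
  have hqq : hat (Tan X x) (P x) * hat (Tan X x) (P x) = hat (Tan X x) (P x) := by
    rw [← hat_mul, hid]
  have hodd := idem_odd hqq hdl 1
  have hm0 : (hat (Tan X x) f)ᵀ * mm * hat (Tan X x) f = 0 := by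
    have c3 : dl X P x * (dl X P x * dl X P x) = dl X P x ^ (2 * 1 + 1) := by
      rw [← mul_assoc]; simp [pow_succ]
    have c4 : dl X P x * dl X P x * dl X P x = dl X P x ^ (2 * 1 + 1) := by simp [pow_succ]
    have c1 : (hat (Tan X x) f)ᵀ * (dl X P x ^ (2 * 1 + 1)) * hat (Tan X x) f = 0 := by
      calc (hat (Tan X x) f)ᵀ * (dl X P x ^ (2 * 1 + 1)) * hat (Tan X x) f
          = ((hat (Tan X x) f)ᵀ * hat (Tan X x) (P x)) * (dl X P x ^ (2 * 1 + 1))
              * (hat (Tan X x) (P x) * hat (Tan X x) f) := by rw [hqf, hfq]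
        _ = (hat (Tan X x) f)ᵀ * (hat (Tan X x) (P x) * (dl X P x ^ (2 * 1 + 1))
              * hat (Tan X x) (P x)) * hat (Tan X x) f := by simp only [Matrix.mul_assoc]
        _ = 0 := by rw [hodd, Matrix.mul_zero, Matrix.zero_mul]
    rw [hmm2, c3, mul_assoc (hat (Tan X x) (P x)), c4, Matrix.mul_add, Matrix.add_mul,
      ← Matrix.mul_assoc (hat (Tan X x) f)ᵀ (hat (Tan X x) (P x)), hfq, c1, add_zero,
      Matrix.mul_assoc, Matrix.mul_assoc, hqf, ← Matrix.mul_assoc, c1]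
  have z2 := Z2 hm0 j (R := fun I => ((∏ l ∈ Finset.univ.erase j,
    ((Om P x).map (rsE X x)) (I (l, 0)) (I (l, 1)) : EvC (Tan X x)) : CF (Tan X x)))
    (fun I a b => by
      congr 1
      refine Finset.prod_congr rfl fun l hl => ?_
      have hne : l ≠ j := Finset.ne_of_mem_erase hl
      rw [upd2_ne I j a b (p := (l, 0)) hne, upd2_ne I j a b (p := (l, 1)) hne])
  rw [← z2]
  refine Finset.sum_congr rfl fun I _ => ?_
  rw [map_mul, rs_algebraMap, map_mul, ← hf3 I, Algebra.smul_def, ← rsE_coe, map_prod]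
  rfl

/-- **the Euler form is closed on `X`** (any set `X`) -/
theorem ef_mem_Z {P : E → Matrix n n ℂ} {W : E → (ι × Fin 2 → n) → ℂ} (h : OF X P W) :
    ef P W ∈ Z X :=
  mem_Z.2 ⟨fun x => EvC.inv _, fun x hx => CD_ef (h.sP x hx) (h.sW x hx), fun x hx => rs_dC_ef h hx⟩

/-- the Euler class (unnormalised) -/
def ec {P : E → Matrix n n ℂ} {W : E → (ι × Fin 2 → n) → ℂ} (h : OF X P W) : H X :=
  cls (ef P W) (ef_mem_Z h)

end field

end Crest.Agent.R208.CW
end
end

-- ▼ part R208/CW5b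

/-! Row 208, block CW (helper586).  CW5b: the Euler class: naturality, homotopy invariance,
isometry invariance, vanishing in the presence of a constant unit section. -/

set_option autoImplicit false
set_option linter.unusedSectionVars false
set_option linter.unusedSimpArgs false
set_option linter.unusedVariables false

open scoped BigOperators ContDiff Topology
open Module Set Matrix

noncomputable section

namespace Crest.Agent.R208.CW

open Crest.Agent.R208.F Crest.Agent.R208.FI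

universe u

section pt
variable {T : Type*} [AddCommGroup T] [Module ℝ T] {ι n m l : Type*} [Fintype ι] [DecidableEq ι]
  [Fintype n] [DecidableEq n] [Fintype m] [DecidableEq m] [Fintype l] [DecidableEq l]

theorem eu_frame {f : Matrix n (ι × Fin 2) ℂ} {W : (ι × Fin 2 → n) → ℂ}
    (hf : ∀ I, W I = (f.submatrix I id).det) (w : Matrix n n (EvC T)) :
    eu W w = PF.pfS ((hv T f)ᵀ * w * hv T f) := by
  rw [PF.pfS_conj, eu]
  refine Finset.sum_congr rfl fun I _ => ?_
  rw [hf, Algebra.smul_def]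
  congr 1
  exact RingHom.map_det (algebraMap ℂ (EvC T)) (f.submatrix I id)

theorem eu_neg (W : (ι × Fin 2 → n) → ℂ) (w : Matrix n n (EvC T)) :
    eu (fun I => - W I) w = - eu W w := by
  simp only [eu, neg_smul, Finset.sum_neg_distrib]

/-- push forward of an orientation tensor -/
def pushW (S : Matrix m n ℂ) (W : (ι × Fin 2 → n) → ℂ) (J : ι × Fin 2 → m) : ℂ :=
  ∑ I : ι × Fin 2 → n, (∏ p, S (J p) (I p)) * W I

theorem pushW_frame (S : Matrix m n ℂ) (f : Matrix n (ι × Fin 2) ℂ) {W : (ι × Fin 2 → n) → ℂ}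
    (hf : ∀ I, W I = (f.submatrix I id).det) (J : ι × Fin 2 → m) :
    pushW S W J = ((S * f).submatrix J id).det := by
  rw [pushW, det_sub]
  simp only [hf, det_sub, Finset.mul_sum]
  rw [Finset.sum_comm]
  refine Finset.sum_congr rfl fun σ _ => ?_
  simp only [Matrix.mul_apply]
  rw [Finset.prod_univ_sum, Fintype.piFinset_univ, Finset.mul_sum]
  refine Finset.sum_congr rfl fun I _ => ?_
  rw [Finset.prod_mul_distrib]; ring

theorem Fr.push {P : Matrix n n ℂ} {W : (ι × Fin 2 → n) → ℂ} (h : Fr P W) {S : Matrix m n ℂ}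
    (hS : P * (Sᵀ * S) * P = P) : Fr (S * P * Sᵀ) (pushW S W) := by
  obtain ⟨f, h1, h2, h3⟩ := h
  have hPf : P * f = f := by rw [← h2, Matrix.mul_assoc, h1, Matrix.mul_one]
  have hPt : Pᵀ = P := by rw [← h2, transpose_mul, transpose_transpose]
  have hfP : fᵀ * P = fᵀ := by rw [← hPt, ← transpose_mul, hPf]
  refine ⟨S * f, ?_, ?_, pushW_frame S f h3⟩
  · rw [transpose_mul]
    calc fᵀ * Sᵀ * (S * f) = fᵀ * P * Sᵀ * (S * (P * f)) := by rw [hfP, hPf]
      _ = fᵀ * (P * (Sᵀ * S) * P) * f := by simp only [Matrix.mul_assoc]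
      _ = 1 := by rw [hS, hfP, h1]
  · rw [transpose_mul, ← h2]; simp only [Matrix.mul_assoc]

theorem pushW_pushW (S : Matrix m n ℂ) (S' : Matrix l m ℂ) (W : (ι × Fin 2 → n) → ℂ) :
    pushW S' (pushW S W) = pushW (S' * S) W := by
  funext J
  simp only [pushW, Finset.mul_sum]
  rw [Finset.sum_comm]
  refine Finset.sum_congr rfl fun I _ => ?_
  simp only [Matrix.mul_apply]
  rw [Finset.prod_univ_sum, Fintype.piFinset_univ, Finset.sum_mul]
  refine Finset.sum_congr rfl fun K _ => ?_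
  rw [Finset.prod_mul_distrib]; ring

theorem pushW_one (W : (ι × Fin 2 → n) → ℂ) : pushW 1 W = W := by
  funext J
  rw [pushW, Finset.sum_eq_single J]
  · simp
  · intro I _ hI
    obtain ⟨p, hp⟩ := Function.ne_iff.1 hI
    have h0 : (1 : Matrix n n ℂ) (J p) (I p) = 0 := Matrix.one_apply_ne (fun h => hp h.symm)
    rw [Finset.prod_eq_zero (Finset.mem_univ p) h0, zero_mul]
  · intro h; exact absurd (Finset.mem_univ _) h

/-- a matrix with a zero row has zero Pfaffian -/
theorem pfS_zero_row {A : Type*} [CommRing A] {M : Matrix (ι × Fin 2) (ι × Fin 2) A}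
    {p : ι × Fin 2} (h1 : ∀ q, M p q = 0) (h2 : ∀ q, M q p = 0) : PF.pfS M = 0 := by
  rw [PF.pfS]
  refine Finset.sum_eq_zero fun σ _ => ?_
  obtain ⟨⟨j, e⟩, hq⟩ := σ.surjective p
  have : ∏ j : ι, M (σ (j, 0)) (σ (j, 1)) = 0 := by
    refine Finset.prod_eq_zero (Finset.mem_univ j) ?_
    fin_cases e
    · simp only [Fin.zero_eta] at hq; rw [hq, h1]
    · simp only [Fin.mk_one] at hq; rw [hq, h2]
  rw [this, mul_zero]

/-- a null vector kills the Pfaffian -/
theorem pfS_null {M : Matrix (ι × Fin 2) (ι × Fin 2) (EvC T)} {v : ι × Fin 2 → ℂ} (hv0 : v ≠ 0)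
    (h1 : M.mulVec (fun p => algebraMap ℂ (EvC T) (v p)) = 0)
    (h2 : Matrix.vecMul (fun p => algebraMap ℂ (EvC T) (v p)) M = 0) : PF.pfS M = 0 := by
  obtain ⟨p, hp⟩ := Function.ne_iff.1 hv0
  let B : Matrix (ι × Fin 2) (ι × Fin 2) ℂ := (1 : Matrix _ _ ℂ).updateCol p v
  have hB : B.det = v p := by
    have := Matrix.cramer_apply (1 : Matrix (ι × Fin 2) (ι × Fin 2) ℂ) v p
    rw [Matrix.cramer_one] at this
    exact this.symm
  have hcol : ∀ q, B q p = v q := fun q => by simp [B]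
  have hz : PF.pfS ((hv T B)ᵀ * M * hv T B) = 0 := by
    refine pfS_zero_row (p := p) (fun q => ?_) (fun q => ?_)
    · rw [Matrix.mul_assoc, Matrix.mul_apply]
      have : ∀ a, ((hv T B)ᵀ) p a = algebraMap ℂ (EvC T) (v a) := fun a => by
        rw [transpose_apply, hv_apply, hcol]
      simp only [this, Matrix.mul_apply, Finset.mul_sum]
      rw [Finset.sum_comm]
      refine Finset.sum_eq_zero fun c _ => ?_
      have h3 := congrFun h2 c
      simp only [Matrix.vecMul, dotProduct, Pi.zero_apply] at h3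
      simp only [← mul_assoc, ← Finset.sum_mul, h3, zero_mul]
    · rw [Matrix.mul_assoc, Matrix.mul_apply]
      refine Finset.sum_eq_zero fun a _ => ?_
      have h3 := congrFun h1 a
      simp only [Matrix.mulVec, dotProduct, Pi.zero_apply] at h3
      have : (M * hv T B) a p = 0 := by
        rw [Matrix.mul_apply]
        simp only [hv_apply, hcol]
        exact h3
      rw [this, mul_zero]
  rw [PF.pfS_congr] at hz
  have h4 : (hv T B).det = algebraMap ℂ (EvC T) (v p) := by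
    rw [← hB]; exact (RingHom.map_det (algebraMap ℂ (EvC T)) B).symm
  rw [h4, ← Algebra.smul_def] at hz
  exact (smul_eq_zero.1 hz).resolve_left hp

end pt

section field
variable {E F : Type*} [NormedAddCommGroup E] [NormedSpace ℝ E] [FiniteDimensional ℝ E]
  [NormedAddCommGroup F] [NormedSpace ℝ F] [FiniteDimensional ℝ F]
  {ι n m : Type*} [Fintype ι] [DecidableEq ι] [Fintype n] [DecidableEq n] [Fintype m]
  [DecidableEq m] {x : E} {X : Set E} {Y : Set F} {dX dY : ℕ}

/-! ### naturality -/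

/-- pull-back of even forms -/
def pbE {E F : Type*} [AddCommGroup E] [Module ℝ E] [AddCommGroup F] [Module ℝ F]
    (A : E →ₗ[ℝ] F) : EvC F →+* EvC E where
  toFun a := ⟨pbC A a, by
    change invC (pbC A a) = pbC A a
    rw [← pbC_invC, EvC.inv]⟩
  map_one' := Subtype.ext (map_one _)
  map_mul' a b := Subtype.ext (map_mul (pbC A) _ _)
  map_zero' := Subtype.ext (map_zero _)
  map_add' a b := Subtype.ext (map_add (pbC A) _ _)

theorem pbE_algebraMap {E F : Type*} [AddCommGroup E] [Module ℝ E] [AddCommGroup F] [Module ℝ F]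
    (A : E →ₗ[ℝ] F) (z : ℂ) : pbE A (algebraMap ℂ (EvC F) z) = algebraMap ℂ (EvC E) z :=
  Subtype.ext (pbC_algebraMap A z)

theorem map_eu {T T' : Type*} [AddCommGroup T] [Module ℝ T] [AddCommGroup T'] [Module ℝ T']
    (φ : EvC T →+* EvC T') (hφ : ∀ z, φ (algebraMap ℂ (EvC T) z) = algebraMap ℂ (EvC T') z)
    (W : (ι × Fin 2 → n) → ℂ) (w : Matrix n n (EvC T)) : φ (eu W w) = eu W (w.map φ) := by
  simp only [eu, map_sum]
  refine Finset.sum_congr rfl fun I _ => ?_
  rw [Algebra.smul_def, map_mul, hφ, map_prod, Algebra.smul_def]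
  rfl

theorem rsE_algebraMap (z : ℂ) :
    rsE X x (algebraMap ℂ (EvC E) z) = algebraMap ℂ (EvC (Tan X x)) z :=
  Subtype.ext (rs_algebraMap z)

theorem rs_ef (P : E → Matrix n n ℂ) (W : E → (ι × Fin 2 → n) → ℂ) (x : E) :
    rs X x (ef P W x) = (eu (W x) (wv (P x) (dl X P x) (invM_dl P x)) : EvC (Tan X x)) := by
  rw [ef, ← rsE_coe, map_eu (rsE X x) rsE_algebraMap, rsE_Om]

theorem pbE_Om {f : E → F} {P : F → Matrix n n ℂ} (hf : ContDiffAt ℝ 2 f x) (hP : SM 1 P (f x)) :
    (Om P (f x)).map (pbE ((fderiv ℝ f x : E →L[ℝ] F) : E →ₗ[ℝ] F)) = Om (fun y => P (f y)) x := by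
  refine vl_inj ?_
  set φ : CF F →+* CF E := pbC ((fderiv ℝ f x : E →L[ℝ] F) : E →ₗ[ℝ] F) with hφ
  have h1 : vl ((Om P (f x)).map (pbE ((fderiv ℝ f x : E →L[ℝ] F) : E →ₗ[ℝ] F)))
      = φ.mapMatrix (vl (Om P (f x))) := rfl
  have h3 : φ.mapMatrix (DD P (f x)) = DD (fun y => P (f y)) x := pbC_DD hf hP
  have h4 : φ.mapMatrix (hat F (P (f x))) = hat E (P (f x)) :=
    Matrix.ext fun i j => pbC_algebraMap _ _
  rw [h1, vl_Om, vl_Om, map_mul, map_mul, map_mul, h3, h4]

theorem pullC_ef {f : E → F} {P : F → Matrix n n ℂ} {W : F → (ι × Fin 2 → n) → ℂ}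
    (hf : ContDiffAt ℝ 2 f x) (hP : SM 1 P (f x)) :
    pullC f (ef P W) x = ef (fun y => P (f y)) (fun y => W (f y)) x := by
  change (pbE ((fderiv ℝ f x : E →L[ℝ] F) : E →ₗ[ℝ] F) (eu (W (f x)) (Om P (f x))) : CF E) = _
  rw [map_eu _ (pbE_algebraMap _), pbE_Om hf hP]
  rfl

theorem OF.comp {P : F → Matrix n n ℂ} {W : F → (ι × Fin 2 → n) → ℂ} (h : OF Y P W) {f : E → F}
    (hf : SMap X Y f) : OF X (fun x => P (f x)) (fun x => W (f x)) :=
  ⟨fun x hx => (h.sP _ (hf.maps hx)).comp (hf.smooth x hx),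
    fun x hx I => (h.sW _ (hf.maps hx) I).comp x (hf.smooth x hx), fun x hx => h.fr _ (hf.maps hx)⟩

theorem ec_map {P : F → Matrix n n ℂ} {W : F → (ι × Fin 2 → n) → ℂ} (h : OF Y P W) {f : E → F}
    (hf : SMap X Y f) : H.map hf (ec h) = ec (h.comp hf) := by
  rw [ec, H.map_cls]
  exact cls_congr fun x hx => by
    rw [pullC_ef (hf.c2 hx) (h.idF.s1 (hf.maps hx))]

theorem OF.neg {P : E → Matrix n n ℂ} {W : E → (ι × Fin 2 → n) → ℂ} (h : OF X P W) [Nonempty ι] :
    OF X P (fun x I => - W x I) := by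
  refine ⟨h.sP, fun x hx I => (h.sW x hx I).neg, fun x hx => ?_⟩
  obtain ⟨f, h1, h2, h3⟩ := h.fr x hx
  obtain ⟨j0⟩ := ‹Nonempty ι›
  let p0 : ι × Fin 2 := (j0, 0)
  let D : Matrix (ι × Fin 2) (ι × Fin 2) ℂ := Matrix.diagonal fun p => if p = p0 then -1 else 1
  have hD : D * Dᵀ = 1 := by
    rw [Matrix.diagonal_transpose, Matrix.diagonal_mul_diagonal, ← Matrix.diagonal_one]
    congr 1
    funext p
    split_ifs <;> simp
  have hD' : Dᵀ * D = 1 := by
    rw [Matrix.diagonal_transpose]; rw [Matrix.diagonal_transpose] at hD; exact hD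
  have hdet : D.det = -1 := by
    rw [Matrix.det_diagonal, Finset.prod_ite_eq' Finset.univ p0 (fun _ => (-1 : ℂ))]
    simp
  refine ⟨f * D, ?_, ?_, fun I => ?_⟩
  · rw [transpose_mul, Matrix.mul_assoc, ← Matrix.mul_assoc fᵀ, h1, Matrix.one_mul, hD']
  · rw [transpose_mul, Matrix.mul_assoc, ← Matrix.mul_assoc D, hD, Matrix.one_mul, h2]
  · have : (f * D).submatrix I id = f.submatrix I id * D := rfl
    change - W x I = _
    rw [this, det_mul, hdet, h3]; ring

theorem ef_neg (P : E → Matrix n n ℂ) (W : E → (ι × Fin 2 → n) → ℂ) (x : E) :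
    ef P (fun x I => - W x I) x = - ef P W x := by
  rw [ef, eu_neg]; rfl

theorem ec_congr {P P' : E → Matrix n n ℂ} {W W' : E → (ι × Fin 2 → n) → ℂ} (h : OF X P W)
    (h' : OF X P' W') (hP : ∀ x ∈ X, P x = P' x) (hW : ∀ x ∈ X, W x = W' x) : ec h = ec h' :=
  cls_congr fun x hx => by
    rw [rs_ef, rs_ef]
    have e1 := dl_congr_gen (X := X) hx (h.idF.s1 hx) (h'.idF.s1 hx) hP
    have e2 : wv (P x) (dl X P x) (invM_dl P x) = wv (P' x) (dl X P' x) (invM_dl P' x) := by
      refine vl_inj ?_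
      rw [vl_wv, vl_wv, hP x hx, e1]
    rw [e2, hW x hx]

/-! ### the universal set and homotopy invariance -/

/-- the universal oriented Grassmannian -/
def GRS (ι n : Type*) [Fintype ι] [DecidableEq ι] [Fintype n] [DecidableEq n] :
    Set ((n → n → ℂ) × ((ι × Fin 2 → n) → ℂ)) :=
  {z | Fr (Matrix.of z.1) z.2}

theorem oF_taut : OF (GRS ι n) (fun z => Matrix.of z.1) (fun z => z.2) := by
  refine ⟨fun z _ i j => ?_, fun z _ I => ?_, fun z hz => hz⟩
  · exact ((contDiff_apply_apply ℝ ℂ i j).contDiffAt.comp z contDiffAt_fst : _)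
  · exact ((contDiff_apply ℝ ℂ I).contDiffAt.comp z contDiffAt_snd : _)

theorem OF.smap {P : E → Matrix n n ℂ} {W : E → (ι × Fin 2 → n) → ℂ} (h : OF X P W) :
    SMap X (GRS ι n) (fun x => ((fun i j => P x i j : n → n → ℂ), W x)) :=
  ⟨fun x hx => (contDiffAt_cl (h.sP x hx)).prodMk (contDiffAt_pi.2 fun I => h.sW x hx I),
    fun x hx => h.fr x hx⟩

theorem ec_eq_map {P : E → Matrix n n ℂ} {W : E → (ι × Fin 2 → n) → ℂ} (h : OF X P W) :
    ec h = H.map h.smap (ec (oF_taut (ι := ι) (n := n))) := by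
  rw [ec_map]; exact ec_congr _ _ (fun _ _ => rfl) (fun _ _ => rfl)

end field

section hom
variable {E : Type u} [NormedAddCommGroup E] [NormedSpace ℝ E] [FiniteDimensional ℝ E]
  {ι n m : Type*} [Fintype ι] [DecidableEq ι] [Fintype n] [DecidableEq n] [Fintype m]
  [DecidableEq m] {x : E} {X : Set E} {dX : ℕ}

theorem ec_homotopy {P : E × ℝ → Matrix n n ℂ} {W : E × ℝ → (ι × Fin 2 → n) → ℂ}
    (hP : ∀ x ∈ X, ∀ t ∈ Icc (0 : ℝ) 1, SM ∞ P (x, t))
    (hW : ∀ x ∈ X, ∀ t ∈ Icc (0 : ℝ) 1, ∀ I, ContDiffAt ℝ ∞ (fun z => W z I) (x, t))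
    (hF : ∀ x ∈ X, ∀ t ∈ Icc (0 : ℝ) 1, Fr (P (x, t)) (W (x, t)))
    (h0 : OF X (fun y => P (y, 0)) (fun y => W (y, 0)))
    (h1 : OF X (fun y => P (y, 1)) (fun y => W (y, 1))) : ec h1 = ec h0 := by
  rw [ec_eq_map h1, ec_eq_map h0]
  exact H.map_homotopy (Fh := fun z => ((fun i j => P z i j : n → n → ℂ), W z))
    (fun x hx t ht => (contDiffAt_cl (hP x hx t ht)).prodMk
      (contDiffAt_pi.2 fun I => hW x hx t ht I)) (fun x hx t ht => hF x hx t ht)
    h0.smap h1.smap _

end hom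

section iso
variable {E : Type*} [NormedAddCommGroup E] [NormedSpace ℝ E] [FiniteDimensional ℝ E]
  {ι n m : Type*} [Fintype ι] [DecidableEq ι] [Fintype n] [DecidableEq n] [Fintype m]
  [DecidableEq m] {x : E} {X : Set E} {dX : ℕ}

theorem SM.push {G : Type*} [NormedAddCommGroup G] [NormedSpace ℝ G] {x : G} {k : WithTop ℕ∞}
    {S : G → Matrix m n ℂ} {P : G → Matrix n n ℂ} (hS : SM k S x)
    (hP : SM k P x) : SM k (fun y => S y * P y * (S y)ᵀ) x := (hS.mul hP).mul hS.transpose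

theorem contDiffAt_pushW {G : Type*} [NormedAddCommGroup G] [NormedSpace ℝ G] {x : G}
    {k : WithTop ℕ∞} {S : G → Matrix m n ℂ} {W : G → (ι × Fin 2 → n) → ℂ} (hS : SM k S x)
    (hW : ∀ I, ContDiffAt ℝ k (fun y => W y I) x) (J : ι × Fin 2 → m) :
    ContDiffAt ℝ k (fun y => pushW (S y) (W y) J) x :=
  ContDiffAt.sum fun I _ => (contDiffAt_prod fun p _ => hS (J p) (I p)).mul (hW I)

theorem OF.push {P : E → Matrix n n ℂ} {W : E → (ι × Fin 2 → n) → ℂ} (h : OF X P W)
    {S : E → Matrix m n ℂ} (hS : ∀ x ∈ X, SM ∞ S x)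
    (hi : ∀ x ∈ X, P x * ((S x)ᵀ * S x) * P x = P x) :
    OF X (fun x => S x * P x * (S x)ᵀ) (fun x => pushW (S x) (W x)) :=
  ⟨fun x hx => (hS x hx).push (h.sP x hx), fun x hx J => contDiffAt_pushW (hS x hx) (h.sW x hx) J,
    fun x hx => (h.fr x hx).push (hi x hx)⟩

/-- constant isometric embeddings do not change the Euler form on `X` -/
theorem rs_ef_const_push {P : E → Matrix n n ℂ} {W : E → (ι × Fin 2 → n) → ℂ} (h : OF X P W)
    {S : Matrix m n ℂ} (hS : Sᵀ * S = 1) (hx : x ∈ X) :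
    rs X x (ef (fun x => S * P x * Sᵀ) (fun x => pushW S (W x)) x) = rs X x (ef P W x) := by
  obtain ⟨f, h1, h2, h3⟩ := h.fr x hx
  rw [rs_ef, rs_ef, eu_frame h3, eu_frame (pushW_frame S f h3)]
  congr 2
  have e1 : dl X (fun x => S * P x * Sᵀ) x
      = hat (Tan X x) S * dl X P x * hat (Tan X x) Sᵀ := by
    have hSc : SM 1 (fun _ : E => S) x := SM.const S
    have hSc' : SM 1 (fun _ : E => Sᵀ) x := SM.const _
    rw [dl_mul (hSc.mul (h.idF.s1 hx)) hSc', dl_mul hSc (h.idF.s1 hx), dl_const, dl_const,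
      Matrix.zero_mul, zero_add, Matrix.mul_zero, add_zero]
  have hSS : hat (Tan X x) Sᵀ * hat (Tan X x) S = 1 := by rw [← hat_mul, hS, hat_one]
  have e2 : wv (S * P x * Sᵀ) (dl X (fun x => S * P x * Sᵀ) x) (invM_dl _ x)
      = hv (Tan X x) S * wv (P x) (dl X P x) (invM_dl P x) * (hv (Tan X x) S)ᵀ := by
    refine vl_inj ?_
    have e3 : vl ((hv (Tan X x) S)ᵀ) = hat (Tan X x) Sᵀ := rfl
    rw [vl_wv, vl_mul, vl_mul, vl_wv, e3, vl_hv, e1, hat_mul, hat_mul]
    calc hat (Tan X x) S * hat (Tan X x) (P x) * hat (Tan X x) Sᵀ *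
          (hat (Tan X x) S * dl X P x * hat (Tan X x) Sᵀ *
            (hat (Tan X x) S * dl X P x * hat (Tan X x) Sᵀ)) *
        (hat (Tan X x) S * hat (Tan X x) (P x) * hat (Tan X x) Sᵀ)
        = hat (Tan X x) S * hat (Tan X x) (P x) * (hat (Tan X x) Sᵀ * hat (Tan X x) S) *
          dl X P x * (hat (Tan X x) Sᵀ * hat (Tan X x) S) * dl X P x *
          (hat (Tan X x) Sᵀ * hat (Tan X x) S) * hat (Tan X x) (P x) * hat (Tan X x) Sᵀ := by
          simp only [Matrix.mul_assoc]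
      _ = _ := by rw [hSS]; simp only [Matrix.mul_one, Matrix.mul_assoc]
  rw [e2, hv_mul, transpose_mul]
  have hSS' : (hv (Tan X x) S)ᵀ * hv (Tan X x) S = 1 := by
    refine vl_inj ?_
    have e3 : vl ((hv (Tan X x) S)ᵀ) = hat (Tan X x) Sᵀ := rfl
    rw [vl_mul, e3, vl_hv, hSS]
    exact (Matrix.map_one _ (map_zero _) (map_one _)).symm
  set w := wv (P x) (dl X P x) (invM_dl P x)
  calc (hv (Tan X x) f)ᵀ * (hv (Tan X x) S)ᵀ * (hv (Tan X x) S * w * (hv (Tan X x) S)ᵀ) *
        (hv (Tan X x) S * hv (Tan X x) f)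
      = (hv (Tan X x) f)ᵀ * ((hv (Tan X x) S)ᵀ * hv (Tan X x) S) * w
          * ((hv (Tan X x) S)ᵀ * hv (Tan X x) S) * hv (Tan X x) f := by
        simp only [Matrix.mul_assoc]
    _ = _ := by rw [hSS']; simp only [Matrix.mul_one]

theorem ec_const_push {P : E → Matrix n n ℂ} {W : E → (ι × Fin 2 → n) → ℂ} (h : OF X P W)
    {S : Matrix m n ℂ} (hS : Sᵀ * S = 1)
    (h' : OF X (fun x => S * P x * Sᵀ) (fun x => pushW S (W x))) : ec h' = ec h :=
  cls_congr fun x hx => rs_ef_const_push h hS hx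

end iso

end Crest.Agent.R208.CW
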