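import Crest.Agent.R208.PF1
import Crest.Agent.R208.CW5b

-- ▼ part R208/PF2
section

/-!
# Pfaffian algebra, part 2: block matrices (PF4), off-diagonal matrices, realification (PF3).
-/

namespace Crest.Agent.R208.PF

open Matrix Finset

set_option linter.unusedSectionVars false

variable {ι : Type*} [Fintype ι] [DecidableEq ι] {A : Type*} [CommRing A]
variable {ι' : Type*} [Fintype ι'] [DecidableEq ι']

/-- block diagonal matrix on `(ι ⊕ ι') × Fin 2`. -/
def blockD (M : Matrix (ι × Fin 2) (ι × Fin 2) A) (M' : Matrix (ι' × Fin 2) (ι' × Fin 2) A) :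
    Matrix ((ι ⊕ ι') × Fin 2) ((ι ⊕ ι') × Fin 2) A :=
  (Matrix.fromBlocks M 0 0 M').submatrix (Equiv.sumProdDistrib ι ι' (Fin 2))
    (Equiv.sumProdDistrib ι ι' (Fin 2))

@[simp] theorem blockD_ll (M : Matrix (ι × Fin 2) (ι × Fin 2) A)
    (M' : Matrix (ι' × Fin 2) (ι' × Fin 2) A) (i j : ι) (a b : Fin 2) :
    blockD M M' (Sum.inl i, a) (Sum.inl j, b) = M (i, a) (j, b) := rfl

@[simp] theorem blockD_rr (M : Matrix (ι × Fin 2) (ι × Fin 2) A)
    (M' : Matrix (ι' × Fin 2) (ι' × Fin 2) A) (i j : ι') (a b : Fin 2) :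
    blockD M M' (Sum.inr i, a) (Sum.inr j, b) = M' (i, a) (j, b) := rfl

@[simp] theorem blockD_lr (M : Matrix (ι × Fin 2) (ι × Fin 2) A)
    (M' : Matrix (ι' × Fin 2) (ι' × Fin 2) A) (i : ι) (j : ι') (a b : Fin 2) :
    blockD M M' (Sum.inl i, a) (Sum.inr j, b) = 0 := rfl

@[simp] theorem blockD_rl (M : Matrix (ι × Fin 2) (ι × Fin 2) A)
    (M' : Matrix (ι' × Fin 2) (ι' × Fin 2) A) (i : ι') (j : ι) (a b : Fin 2) :
    blockD M M' (Sum.inr i, a) (Sum.inl j, b) = 0 := rfl

theorem blockD_apply_left (M : Matrix (ι × Fin 2) (ι × Fin 2) A)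
    (p q : (ι ⊕ ι') × Fin 2) (h : blockD M (0 : Matrix (ι' × Fin 2) (ι' × Fin 2) A) p q ≠ 0) :
    p.1.isLeft ∧ q.1.isLeft := by
  obtain ⟨i | i, a⟩ := p <;> obtain ⟨j | j, b⟩ := q <;> simp_all

theorem blockD_apply_right (M' : Matrix (ι' × Fin 2) (ι' × Fin 2) A)
    (p q : (ι ⊕ ι') × Fin 2) (h : blockD (0 : Matrix (ι × Fin 2) (ι × Fin 2) A) M' p q ≠ 0) :
    p.1.isRight ∧ q.1.isRight := by
  obtain ⟨i | i, a⟩ := p <;> obtain ⟨j | j, b⟩ := q <;> simp_all

theorem blockD_add (M : Matrix (ι × Fin 2) (ι × Fin 2) A)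
    (M' : Matrix (ι' × Fin 2) (ι' × Fin 2) A) :
    blockD M M' = blockD M 0 + blockD 0 M' := by
  ext p q
  obtain ⟨i | i, a⟩ := p <;> obtain ⟨j | j, b⟩ := q <;> simp

theorem det_blockD (M : Matrix (ι × Fin 2) (ι × Fin 2) A)
    (M' : Matrix (ι' × Fin 2) (ι' × Fin 2) A) : (blockD M M').det = M.det * M'.det := by
  rw [blockD, det_submatrix_equiv_self, det_fromBlocks_zero₂₁]

/-- the selection form. -/
def selS (M : Matrix (ι × Fin 2) (ι × Fin 2) A) (M' : Matrix (ι' × Fin 2) (ι' × Fin 2) A)
    (S : Finset (ι ⊕ ι')) : A :=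
  mixS fun j => if j ∈ S then blockD M (0 : Matrix (ι' × Fin 2) (ι' × Fin 2) A)
    else blockD (0 : Matrix (ι × Fin 2) (ι × Fin 2) A) M'

theorem pfS_blockD_sum (M : Matrix (ι × Fin 2) (ι × Fin 2) A)
    (M' : Matrix (ι' × Fin 2) (ι' × Fin 2) A) :
    pfS (blockD M M') = ∑ S : Finset (ι ⊕ ι'), selS M M' S := by
  unfold pfS selS mixS
  rw [Finset.sum_comm]
  refine Finset.sum_congr rfl fun σ _ => ?_
  rw [← Finset.mul_sum]
  congr 1
  rw [blockD_add]
  simp only [Matrix.add_apply]
  rw [Finset.prod_add, Finset.powerset_univ]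
  refine Finset.sum_congr rfl fun S _ => ?_
  have h : ∀ j : ι ⊕ ι', (if j ∈ S then blockD M (0 : Matrix (ι' × Fin 2) (ι' × Fin 2) A)
      else blockD (0 : Matrix (ι × Fin 2) (ι × Fin 2) A) M') (σ (j, 0)) (σ (j, 1))
      = if j ∈ S then blockD M (0 : Matrix (ι' × Fin 2) (ι' × Fin 2) A) (σ (j, 0)) (σ (j, 1))
      else blockD (0 : Matrix (ι × Fin 2) (ι × Fin 2) A) M' (σ (j, 0)) (σ (j, 1)) := by
    intro j
    split_ifs <;> rfl
  rw [Finset.prod_congr rfl fun j _ => h j, Finset.prod_ite]
  congr 1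
  · refine Finset.prod_congr (by ext; simp) fun _ _ => rfl
  · refine Finset.prod_congr (by ext; simp) fun _ _ => rfl

/-- only subsets with `card ι` elements contribute. -/
theorem selS_eq_zero (M : Matrix (ι × Fin 2) (ι × Fin 2) A)
    (M' : Matrix (ι' × Fin 2) (ι' × Fin 2) A) (S : Finset (ι ⊕ ι'))
    (hS : S.card ≠ Fintype.card ι) : selS M M' S = 0 := by
  classical
  unfold selS mixS
  refine Finset.sum_eq_zero fun σ _ => ?_
  by_contra hne
  have hj : ∀ j : ι ⊕ ι', (if j ∈ S then blockD M (0 : Matrix (ι' × Fin 2) (ι' × Fin 2) A)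
      else blockD (0 : Matrix (ι × Fin 2) (ι × Fin 2) A) M') (σ (j, 0)) (σ (j, 1)) ≠ 0 := by
    intro j h0
    exact hne (by rw [Finset.prod_eq_zero (Finset.mem_univ j) h0, mul_zero])
  have hmem : ∀ p : (ι ⊕ ι') × Fin 2, p.1 ∈ S ↔ (σ p).1.isLeft := by
    rintro ⟨j, b⟩
    constructor
    · intro h
      have := hj j
      rw [if_pos h] at this
      have := blockD_apply_left M _ _ this
      fin_cases b
      · exact this.1
      · exact this.2
    · intro h
      by_contra hjS
      have := hj j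
      rw [if_neg hjS] at this
      have := blockD_apply_right M' _ _ this
      fin_cases b
      · have h1 := this.1
        rcases hh : (σ (j, 0)).1 with x | x <;> simp_all
      · have h1 := this.2
        rcases hh : (σ (j, 1)).1 with x | x <;> simp_all
  have e1 : (S ×ˢ (Finset.univ : Finset (Fin 2))).card
      = ((Finset.univ : Finset ((ι ⊕ ι') × Fin 2)).filter fun p => p.1.isLeft).card := by
    refine Finset.card_bij (fun p _ => σ p) ?_ (fun _ _ _ _ h => σ.injective h) ?_
    · intro p hp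
      rw [Finset.mem_product] at hp
      simp [(hmem p).1 hp.1]
    · intro q hq
      refine ⟨σ.symm q, ?_, by simp⟩
      rw [Finset.mem_product]
      refine ⟨(hmem _).2 ?_, Finset.mem_univ _⟩
      simpa using (Finset.mem_filter.1 hq).2
  have e2 : ((Finset.univ : Finset ((ι ⊕ ι') × Fin 2)).filter fun p => p.1.isLeft).card
      = Fintype.card ι * 2 := by
    have hc : Fintype.card ι * 2 = (Finset.univ : Finset (ι × Fin 2)).card := by simp
    rw [hc]
    symm
    refine Finset.card_bij (fun p _ => (Sum.inl p.1, p.2)) (fun p _ => by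
      rw [Finset.mem_filter]; exact ⟨Finset.mem_univ _, rfl⟩) ?_ ?_
    · rintro ⟨a, b⟩ _ ⟨a', b'⟩ _ h
      have h1 := congrArg Prod.fst h
      have h2 := congrArg Prod.snd h
      exact Prod.ext (Sum.inl_injective h1) h2
    · rintro ⟨a | a, b⟩ h
      · exact ⟨(a, b), by simp, rfl⟩
      · rw [Finset.mem_filter] at h
        exact absurd h.2 (by simp)
  rw [Finset.card_product, Finset.card_univ, Fintype.card_fin, e2] at e1
  omega

/-- the contribution of `S = range inl`. -/
theorem selS_inl (M : Matrix (ι × Fin 2) (ι × Fin 2) A)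
    (M' : Matrix (ι' × Fin 2) (ι' × Fin 2) A) :
    selS M M' (Finset.univ.filter fun j => j.isLeft) = pfS M * pfS M' := by
  classical
  set e := Equiv.sumProdDistrib ι ι' (Fin 2) with he
  unfold selS mixS
  rw [← Equiv.sum_comp e.symm.permCongr]
  have hterm : ∀ σ : Equiv.Perm (ι × Fin 2 ⊕ ι' × Fin 2),
      ((Equiv.Perm.sign (e.symm.permCongr σ) : ℤ) : A) * ∏ j : ι ⊕ ι',
        (if j ∈ (Finset.univ.filter fun j : ι ⊕ ι' => j.isLeft) then
          blockD M (0 : Matrix (ι' × Fin 2) (ι' × Fin 2) A)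
        else blockD (0 : Matrix (ι × Fin 2) (ι × Fin 2) A) M')
          (e.symm.permCongr σ (j, 0)) (e.symm.permCongr σ (j, 1))
      = ((Equiv.Perm.sign σ : ℤ) : A) * ((∏ j : ι,
          (fromBlocks M 0 0 0 : Matrix (ι × Fin 2 ⊕ ι' × Fin 2) (ι × Fin 2 ⊕ ι' × Fin 2) A)
            (σ (Sum.inl (j, 0))) (σ (Sum.inl (j, 1)))) * ∏ j : ι',
          (fromBlocks 0 0 0 M' : Matrix (ι × Fin 2 ⊕ ι' × Fin 2) (ι × Fin 2 ⊕ ι' × Fin 2) A)
            (σ (Sum.inr (j, 0))) (σ (Sum.inr (j, 1)))) := by
    intro σ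
    rw [Equiv.Perm.sign_permCongr, Fintype.prod_sum_type]
    congr 2
    · refine Finset.prod_congr rfl fun j _ => ?_
      simp only [Finset.mem_filter, Finset.mem_univ, true_and, Sum.isLeft_inl, if_true]
      simp only [blockD, submatrix_apply, Equiv.permCongr_apply, Equiv.symm_symm, ← he,
        Equiv.apply_symm_apply]
      rfl
    · refine Finset.prod_congr rfl fun j _ => ?_
      simp only [Finset.mem_filter, Finset.mem_univ, true_and, Sum.isLeft_inr,
        Bool.false_eq_true, if_false]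
      simp only [blockD, submatrix_apply, Equiv.permCongr_apply, Equiv.symm_symm, ← he,
        Equiv.apply_symm_apply]
      rfl
  rw [Finset.sum_congr rfl fun σ _ => hterm σ]
  unfold pfS
  rw [Finset.sum_mul_sum, ← Finset.sum_product', Finset.univ_product_univ]
  symm
  refine Finset.sum_of_injOn (fun x : Equiv.Perm (ι × Fin 2) × Equiv.Perm (ι' × Fin 2) =>
    Equiv.Perm.sumCongr x.1 x.2) ?_ (fun _ _ => Finset.mem_coe.2 (Finset.mem_univ _)) ?_ ?_
  · rintro ⟨a, b⟩ _ ⟨a', b'⟩ _ h
    have h1 := Equiv.Perm.sumCongrHom_injective (α := ι × Fin 2) (β := ι' × Fin 2)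
    exact h1 h
  · intro σ _ hσ
    by_contra hne
    refine hσ ?_
    have h1 : ∀ j, (fromBlocks M 0 0 0 :
        Matrix (ι × Fin 2 ⊕ ι' × Fin 2) (ι × Fin 2 ⊕ ι' × Fin 2) A)
          (σ (Sum.inl (j, 0))) (σ (Sum.inl (j, 1))) ≠ 0 := by
      intro j h0
      exact hne (by rw [Finset.prod_eq_zero (Finset.mem_univ j) h0, zero_mul, mul_zero])
    have h2 : σ ∈ (Equiv.Perm.sumCongrHom (ι × Fin 2) (ι' × Fin 2)).range := by
      refine Equiv.Perm.mem_sumCongrHom_range_of_perm_mapsTo_inl ?_
      rintro _ ⟨⟨j, b⟩, rfl⟩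
      have h3 := h1 j
      fin_cases b
      · rcases hh : σ (Sum.inl (j, 0)) with x | x
        · exact ⟨x, hh.symm⟩
        · exact absurd (by rw [hh]; rcases σ (Sum.inl (j, 1)) with y | y <;> rfl) h3
      · rcases hh : σ (Sum.inl (j, 1)) with x | x
        · exact ⟨x, hh.symm⟩
        · exact absurd (by rw [hh]; rcases σ (Sum.inl (j, 0)) with y | y <;> rfl) h3
    obtain ⟨x, hx⟩ := h2
    exact ⟨x, by simp, hx⟩
  · rintro ⟨a, b⟩ _
    simp only [Equiv.Perm.sign_sumCongr, Units.val_mul, Int.cast_mul]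
    simp only [Equiv.Perm.sumCongr_apply, Sum.map_inl, Sum.map_inr, fromBlocks_apply₁₁,
      fromBlocks_apply₂₂]
    ring

/-- **(PF4)**. -/
theorem pfS_blockD (M : Matrix (ι × Fin 2) (ι × Fin 2) A)
    (M' : Matrix (ι' × Fin 2) (ι' × Fin 2) A) :
    pfS (blockD M M') = ((Fintype.card ι + Fintype.card ι').choose (Fintype.card ι) : ℕ)
      * (pfS M * pfS M') := by
  classical
  rw [pfS_blockD_sum]
  have hall : ∀ S : Finset (ι ⊕ ι'), S.card = Fintype.card ι → selS M M' S = pfS M * pfS M' := by
    intro S hS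
    rw [← selS_inl]
    set S₀ : Finset (ι ⊕ ι') := Finset.univ.filter fun j => j.isLeft with hS₀
    have hc₀ : S₀.card = Fintype.card ι := by
      rw [← Finset.card_univ]
      symm
      refine Finset.card_bij (fun p _ => Sum.inl p) (by simp [hS₀]) ?_ ?_
      · intro a _ b _ h
        exact Sum.inl_injective h
      · rintro (a | a) h
        · exact ⟨a, by simp, rfl⟩
        · simp [hS₀] at h
    have he : Fintype.card {x // x ∈ S} = Fintype.card {x // x ∈ S₀} := by
      simp [hS, hc₀]
    obtain ⟨e⟩ := Fintype.card_eq.1 he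
    obtain ⟨τ, hτ⟩ : ∃ τ : Equiv.Perm (ι ⊕ ι'), ∀ x, x ∈ S ↔ τ x ∈ S₀ := by
      refine ⟨e.extendSubtype, fun x => ?_⟩
      constructor
      · intro hx
        exact Equiv.extendSubtype_mem e x hx
      · intro hx
        by_contra hx'
        exact Equiv.extendSubtype_not_mem e x hx' hx
    unfold selS
    rw [← mixS_perm (fun j => if j ∈ S₀ then blockD M (0 : Matrix (ι' × Fin 2) (ι' × Fin 2) A)
      else blockD (0 : Matrix (ι × Fin 2) (ι × Fin 2) A) M') τ]
    congr 1
    funext j
    simp only [hτ j]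
  rw [← Finset.sum_filter_add_sum_filter_not Finset.univ
    (fun S : Finset (ι ⊕ ι') => S.card = Fintype.card ι)]
  rw [Finset.sum_congr rfl fun S hS => hall S (Finset.mem_filter.1 hS).2,
    Finset.sum_eq_zero (s := Finset.univ.filter _) fun S hS =>
      selS_eq_zero M M' S (Finset.mem_filter.1 hS).2]
  rw [Finset.sum_const, add_zero, nsmul_eq_mul]
  congr 2
  have : (Finset.univ.filter fun S : Finset (ι ⊕ ι') => S.card = Fintype.card ι)
      = Finset.powersetCard (Fintype.card ι) Finset.univ := by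
    ext S
    simp [Finset.mem_powersetCard]
  rw [this, Finset.card_powersetCard, Finset.card_univ, Fintype.card_sum]


end Crest.Agent.R208.PF
end

-- ▼ part R208/PF3
section

/-!
# Pfaffian algebra, part 3: off-diagonal matrices, realification (PF3).
-/

namespace Crest.Agent.R208.PF

open Matrix Finset
open scoped Kronecker

set_option linter.unusedSectionVars false

variable {ι : Type*} [Fintype ι] [DecidableEq ι] {A : Type*} [CommRing A]

/-- off-diagonal matrix with respect to the `Fin 2`-index. -/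
def offD (X Y : Matrix ι ι A) : Matrix (ι × Fin 2) (ι × Fin 2) A :=
  Matrix.of fun p q => if p.2 = 0 ∧ q.2 = 1 then X p.1 q.1
    else if p.2 = 1 ∧ q.2 = 0 then Y p.1 q.1 else 0

theorem offD_eq (X : Matrix ι ι A) :
    offD X (-Xᵀ) = (blockDiagonal ![Xᵀ, 1])ᵀ * stdJ ι A * blockDiagonal ![Xᵀ, 1] := by
  ext p q
  obtain ⟨i, a⟩ := p
  obtain ⟨j, b⟩ := q
  fin_cases a <;> fin_cases b <;>
    simp [mul_apply, Fintype.sum_prod_type, Fin.sum_univ_two, blockDiagonal_apply, stdJ, offD,
      Matrix.one_apply, Finset.sum_ite_eq']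

/-- `Pf [[0, X], [-Xᵀ, 0]] = det X` (in the pair order). -/
theorem pfS_offD (X : Matrix ι ι A) :
    pfS (offD X (-Xᵀ)) = (2 : A) ^ Fintype.card ι * (Fintype.card ι).factorial * X.det := by
  rw [offD_eq, pfS_congr, pfS_stdJ, det_blockDiagonal]
  simp [Fin.prod_univ_two]
  ring


/-- **(PF3)**. -/
theorem pfS_realM (h2 : IsUnit (2 : A)) (I : A) (hI : I * I = -1) (a b : Matrix ι ι A)
    (ha : aᵀ = -a) (hb : bᵀ = b) :
    pfS (Matrix.of fun p q : ι × Fin 2 => if p.2 = q.2 then a p.1 q.1
        else if p.2 = 0 then -b p.1 q.1 else b p.1 q.1)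
      = (2 : A) ^ Fintype.card ι * (Fintype.card ι).factorial * I ^ Fintype.card ι
        * (a + I • b).det := by
  set R : Matrix (ι × Fin 2) (ι × Fin 2) A := Matrix.of fun p q : ι × Fin 2 =>
    if p.2 = q.2 then a p.1 q.1 else if p.2 = 0 then -b p.1 q.1 else b p.1 q.1 with hR
  set C : Matrix (ι × Fin 2) (ι × Fin 2) A := (1 : Matrix ι ι A) ⊗ₖ !![1, 1; I, -I] with hC
  have hdet : C.det = (-2 * I) ^ Fintype.card ι := by
    rw [hC, det_kronecker, det_one, one_pow, one_mul, det_fin_two_of]
    congr 1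
    ring
  have hCR : Cᵀ * R * C = (2 : A) • offD (a + I • b) (-(a + I • b)ᵀ) := by
    have ha' : ∀ i j, a j i = -a i j := fun i j => by
      have := congrFun (congrFun ha i) j
      simpa using this
    have hb' : ∀ i j, b j i = b i j := fun i j => by
      have := congrFun (congrFun hb i) j
      simpa using this
    ext p q
    obtain ⟨i, x⟩ := p
    obtain ⟨j, y⟩ := q
    have h1 : (Cᵀ * R * C) (i, x) (j, y)
        = !![1, 1; I, -I] 0 x * R (i, 0) (j, 0) * !![1, 1; I, -I] 0 y
        + !![1, 1; I, -I] 1 x * R (i, 1) (j, 0) * !![1, 1; I, -I] 0 y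
        + !![1, 1; I, -I] 0 x * R (i, 0) (j, 1) * !![1, 1; I, -I] 1 y
        + !![1, 1; I, -I] 1 x * R (i, 1) (j, 1) * !![1, 1; I, -I] 1 y := by
      simp only [mul_apply, Fintype.sum_prod_type, Fin.sum_univ_two, hC, kroneckerMap_apply,
        transpose_apply, Matrix.one_apply, ite_mul, one_mul, zero_mul, mul_ite, mul_zero,
        Finset.sum_add_distrib, Finset.sum_ite_eq', Finset.mem_univ, if_true]
      ring
    rw [h1]
    fin_cases x <;> fin_cases y <;>
      simp [hR, offD] <;>
      first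
        | linear_combination (-a i j) * hI
        | (rw [ha' i j, hb' i j]; linear_combination (-a i j) * hI)
        | linear_combination (a i j) * hI
  have h3 := pfS_congr C R
  rw [hCR, pfS_smul, pfS_offD, hdet] at h3
  have h4 : (2 : A) ^ Fintype.card ι * pfS R = (2 : A) ^ Fintype.card ι *
      ((2 : A) ^ Fintype.card ι * (Fintype.card ι).factorial * I ^ Fintype.card ι
        * (a + I • b).det) := by
    have h5 : I ^ Fintype.card ι * (-2 * I) ^ Fintype.card ι = (2 : A) ^ Fintype.card ι := by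
      rw [← mul_pow]
      congr 1
      linear_combination (-2) * hI
    calc (2 : A) ^ Fintype.card ι * pfS R
        = I ^ Fintype.card ι * ((-2 * I) ^ Fintype.card ι * pfS R) := by
          rw [← mul_assoc, h5]
      _ = _ := by
          rw [← h3]
          ring
  exact (h2.pow _).mul_left_cancel h4

end Crest.Agent.R208.PF
end

-- ▼ part R208/PF4
section

/-!
# Pfaffian algebra, part 4: `pfS M ^ 2 = (2^r r!)^2 det M` (PF2).
-/

namespace Crest.Agent.R208.PF

open Matrix Finset

set_option linter.unusedSectionVars false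

/-- Cayley's theorem over a field of characteristic zero. -/
theorem pfS_sq_field {K : Type*} [Field K] [CharZero K] (n : ℕ) :
    ∀ (M : Matrix (Fin n × Fin 2) (Fin n × Fin 2) K), Mᵀ = -M →
      pfS M ^ 2 = ((2 : K) ^ n * n.factorial) ^ 2 * M.det := by
  classical
  induction n with
  | zero =>
    intro M _
    simp [pfS]
  | succ n ih =>
    -- the pivot case on `Unit ⊕ Fin n`
    have piv : ∀ M : Matrix ((Unit ⊕ Fin n) × Fin 2) ((Unit ⊕ Fin n) × Fin 2) K, Mᵀ = -M →
        M (Sum.inl (), 0) (Sum.inl (), 1) ≠ 0 →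
        pfS M ^ 2 = ((2 : K) ^ (n + 1) * (n + 1).factorial) ^ 2 * M.det := by
      intro M hM hx
      set e := Equiv.sumProdDistrib Unit (Fin n) (Fin 2) with he
      set N : Matrix (Unit × Fin 2 ⊕ Fin n × Fin 2) (Unit × Fin 2 ⊕ Fin n × Fin 2) K :=
        M.submatrix e.symm e.symm with hN
      have hNM : M = N.submatrix e e := by
        ext p q
        simp [hN]
      have hNt : Nᵀ = -N := by
        rw [hN, transpose_submatrix, hM]
        rfl
      have hentry : ∀ p q, N q p = -N p q := fun p q => by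
        have := congrFun (congrFun hNt p) q
        simpa using this
      set a := N.toBlocks₁₁ with ha
      set b := N.toBlocks₁₂ with hb
      set c := N.toBlocks₂₁ with hc
      set d := N.toBlocks₂₂ with hd
      have hNb : N = fromBlocks a b c d := (fromBlocks_toBlocks N).symm
      have hat : aᵀ = -a := by
        ext p q
        exact hentry (Sum.inl p) (Sum.inl q)
      have hbt : bᵀ = -c := by
        ext p q
        exact hentry (Sum.inr p) (Sum.inl q)
      have hct : cᵀ = -b := by
        ext p q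
        exact hentry (Sum.inl p) (Sum.inr q)
      have hdt : dᵀ = -d := by
        ext p q
        exact hentry (Sum.inr p) (Sum.inr q)
      set x : K := M (Sum.inl (), 0) (Sum.inl (), 1) with hxdef
      have hself : ∀ p, N p p = 0 := fun p => by
        have := hentry p p
        have h2 : (2 : K) * N p p = 0 := by linear_combination this
        exact (mul_eq_zero.1 h2).resolve_left two_ne_zero
      have a00 : a ((), 0) ((), 0) = 0 := hself _
      have a11 : a ((), 1) ((), 1) = 0 := hself _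
      have a01 : a ((), 0) ((), 1) = x := rfl
      have a10 : a ((), 1) ((), 0) = -x := hentry _ _
      have hadet : a.det = x ^ 2 := by
        have h1 : a.det = (a.submatrix (Equiv.uniqueProd (Fin 2) Unit).symm
            (Equiv.uniqueProd (Fin 2) Unit).symm).det := by
          rw [det_submatrix_equiv_self]
        rw [h1, det_fin_two]
        have e0 : (Equiv.uniqueProd (Fin 2) Unit).symm 0 = ((), 0) := rfl
        have e1 : (Equiv.uniqueProd (Fin 2) Unit).symm 1 = ((), 1) := rfl
        simp only [submatrix_apply, e0, e1, a00, a11, a01, a10]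
        ring
      have hapf : pfS a = 2 * x := by
        have h1 : pfS a = ∑ σ : Equiv.Perm (Fin 2), ((Equiv.Perm.sign σ : ℤ) : K) *
            a ((), σ 0) ((), σ 1) := by
          unfold pfS
          rw [← Equiv.sum_comp (Equiv.uniqueProd (Fin 2) Unit).symm.permCongr]
          refine Finset.sum_congr rfl fun σ _ => ?_
          rw [Equiv.Perm.sign_permCongr]
          simp only [Finset.univ_unique, Finset.prod_singleton, Equiv.permCongr_apply,
            Equiv.symm_symm]
          rfl
        rw [h1]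
        have huniv : (Finset.univ : Finset (Equiv.Perm (Fin 2))) = {1, Equiv.swap 0 1} := by
          decide
        rw [huniv, Finset.sum_insert (by decide), Finset.sum_singleton]
        simp [a01, a10]
        ring
      have hadet' : IsUnit a.det := by
        rw [hadet]
        exact (pow_ne_zero 2 hx).isUnit
      let _ : Invertible a := invertibleOfIsUnitDet a hadet'
      set d' := d - c * ⅟a * b with hd'
      have hinvt : (⅟a)ᵀ = -⅟a := by
        have h1 : (⅟a)ᵀ * aᵀ = 1 := by
          rw [← transpose_mul, mul_invOf_self, transpose_one]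
        rw [hat, Matrix.mul_neg] at h1
        have h2 : (-(⅟a)ᵀ) * a = 1 := by rw [Matrix.neg_mul, h1]
        have h3 : -(⅟a)ᵀ = ⅟a := by
          calc -(⅟a)ᵀ = (-(⅟a)ᵀ) * (a * ⅟a) := by rw [mul_invOf_self, mul_one]
            _ = ⅟a := by rw [← mul_assoc, h2, one_mul]
        calc (⅟a)ᵀ = -(-(⅟a)ᵀ) := (neg_neg _).symm
          _ = -⅟a := by rw [h3]
      have hd't : d'ᵀ = -d' := by
        rw [hd', transpose_sub, transpose_mul, transpose_mul, hdt, hbt, hct, hinvt]
        simp only [Matrix.neg_mul, Matrix.mul_neg, neg_neg, neg_sub, Matrix.mul_assoc]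
        abel
      have hfac : N = (fromBlocks 1 (⅟a * b) 0 1)ᵀ * fromBlocks a 0 0 d' *
          fromBlocks 1 (⅟a * b) 0 1 := by
        rw [hNb, fromBlocks_eq_of_invertible₁₁ a b c d, ← hd', fromBlocks_transpose]
        congr 2
        rw [transpose_one, transpose_one, transpose_zero, transpose_mul, hbt, hinvt]
        simp only [Matrix.neg_mul, Matrix.mul_neg, neg_neg]
      set E : Matrix ((Unit ⊕ Fin n) × Fin 2) ((Unit ⊕ Fin n) × Fin 2) K :=
        (fromBlocks 1 (⅟a * b) 0 1 : Matrix (Unit × Fin 2 ⊕ Fin n × Fin 2)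
          (Unit × Fin 2 ⊕ Fin n × Fin 2) K).submatrix e e with hE
      have hEdet : E.det = 1 := by
        rw [hE, det_submatrix_equiv_self, det_fromBlocks_zero₂₁, det_one, det_one, one_mul]
      have hMfac : M = Eᵀ * blockD a d' * E := by
        rw [hNM, hfac, hE, blockD, ← he, transpose_submatrix, submatrix_mul_equiv,
          submatrix_mul_equiv]
      have hpf : pfS M = pfS (blockD a d') := by
        rw [hMfac, pfS_congr, hEdet, one_mul]
      have hdet : M.det = x ^ 2 * d'.det := by
        rw [hMfac, det_mul, det_mul, det_transpose, hEdet, one_mul, mul_one, det_blockD, hadet]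
      rw [hpf, pfS_blockD, hapf, hdet]
      have ih' := ih d' hd't
      have hch : ((Fintype.card Unit + Fintype.card (Fin n)).choose (Fintype.card Unit) : ℕ)
          = n + 1 := by
        simp [add_comm]
      rw [hch]
      have : (((n + 1 : ℕ) : K) * (2 * x * pfS d')) ^ 2
          = ((n + 1 : ℕ) : K) ^ 2 * (2 * x) ^ 2 * pfS d' ^ 2 := by ring
      rw [this, ih', Nat.factorial_succ]
      push_cast
      ring
    -- all matrices on `Unit ⊕ Fin n`
    have all : ∀ M : Matrix ((Unit ⊕ Fin n) × Fin 2) ((Unit ⊕ Fin n) × Fin 2) K, Mᵀ = -M →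
        pfS M ^ 2 = ((2 : K) ^ (n + 1) * (n + 1).factorial) ^ 2 * M.det := by
      intro M hM
      by_cases h0 : M = 0
      · subst h0
        have h1 : pfS (0 : Matrix ((Unit ⊕ Fin n) × Fin 2) ((Unit ⊕ Fin n) × Fin 2) K) = 0 := by
          unfold pfS
          refine Finset.sum_eq_zero fun σ _ => ?_
          rw [Finset.prod_eq_zero (Finset.mem_univ (Sum.inl ()))]
          · rw [mul_zero]
          · rfl
        rw [h1, show (0 : Matrix ((Unit ⊕ Fin n) × Fin 2) ((Unit ⊕ Fin n) × Fin 2) K).det = 0 from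
          det_eq_zero_of_row_eq_zero (Sum.inl (), 0) fun _ => rfl]
        ring
      · obtain ⟨p, q, hpq⟩ : ∃ p q, M p q ≠ 0 := by
          by_contra h
          push Not at h
          exact h0 (by ext p q; exact h p q)
        have hentry : ∀ p q, M q p = -M p q := fun p q => by
          have := congrFun (congrFun hM p) q
          simpa using this
        have hne : p ≠ q := by
          rintro rfl
          have := hentry p p
          have h2 : (2 : K) * M p p = 0 := by linear_combination this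
          exact hpq ((mul_eq_zero.1 h2).resolve_left two_ne_zero)
        obtain ⟨π, hπ0, hπ1⟩ : ∃ π : Equiv.Perm ((Unit ⊕ Fin n) × Fin 2),
            π (Sum.inl (), 0) = p ∧ π (Sum.inl (), 1) = q := by
          set u : (Unit ⊕ Fin n) × Fin 2 := (Sum.inl (), 0)
          set v : (Unit ⊕ Fin n) × Fin 2 := (Sum.inl (), 1)
          have huv : u ≠ v := by
            intro h
            have h01 : (0 : Fin 2) = 1 := congrArg Prod.snd h
            exact absurd h01 (by decide)
          refine ⟨Equiv.swap (Equiv.swap u p v) q * Equiv.swap u p, ?_, ?_⟩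
          · rw [Equiv.Perm.mul_apply, Equiv.swap_apply_left]
            refine Equiv.swap_apply_of_ne_of_ne ?_ hne
            intro h
            apply huv
            apply (Equiv.swap u p).injective
            rw [Equiv.swap_apply_left, ← h]
          · rw [Equiv.Perm.mul_apply, Equiv.swap_apply_left]
        have h1 := piv (M.submatrix π π) (by rw [transpose_submatrix, hM]; rfl)
          (by rw [submatrix_apply, hπ0, hπ1]; exact hpq)
        rw [pfS_perm, det_submatrix_equiv_self] at h1
        rw [← h1, mul_pow, ← Int.cast_pow, ← Units.val_pow_eq_pow_val, Int.units_sq]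
        simp
    intro M hM
    have hcard : Fintype.card (Unit ⊕ Fin n) = Fintype.card (Fin (n + 1)) := by
      simp [add_comm]
    obtain ⟨f⟩ := Fintype.card_eq.1 hcard
    have h1 := all (M.submatrix (f.prodCongr (Equiv.refl (Fin 2)))
      (f.prodCongr (Equiv.refl (Fin 2)))) (by rw [transpose_submatrix, hM]; rfl)
    rw [pfS_reindex, det_submatrix_equiv_self] at h1
    exact h1

variable {ι : Type*} [Fintype ι] [DecidableEq ι]

/-- **(PF2)** Cayley's theorem over any commutative ring. -/
theorem pfS_sq {A : Type*} [CommRing A] (M : Matrix (ι × Fin 2) (ι × Fin 2) A)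
    (hM : Mᵀ = -M) (hd : ∀ p, M p p = 0) :
    pfS M ^ 2 = ((2 : A) ^ Fintype.card ι * (Fintype.card ι).factorial) ^ 2 * M.det := by
  classical
  -- a linear order on the index set
  obtain ⟨o⟩ : Nonempty (LinearOrder (ι × Fin 2)) :=
    ⟨LinearOrder.lift' (Fintype.equivFin (ι × Fin 2)) (Equiv.injective _)⟩
  set r := Fintype.card ι with hr
  obtain ⟨f⟩ := Fintype.card_eq.1 (show Fintype.card (Fin r) = Fintype.card ι by simp [hr])
  set U := MvPolynomial ((ι × Fin 2) × (ι × Fin 2)) ℤ with hU
  set G : Matrix (ι × Fin 2) (ι × Fin 2) U := Matrix.of fun p q =>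
    (MvPolynomial.X (p, q) : MvPolynomial ((ι × Fin 2) × (ι × Fin 2)) ℤ)
      - MvPolynomial.X (q, p) with hG
  have hGt : Gᵀ = -G := by
    ext1 p q
    simp [hG]
  -- the generic identity
  have hgen : pfS G ^ 2 = ((2 : U) ^ r * r.factorial) ^ 2 * G.det := by
    set K := FractionRing U
    have : CharZero K := by
      have : CharZero U := inferInstance
      exact charZero_of_injective_algebraMap (IsFractionRing.injective U K)
    have h1 := pfS_sq_field (K := K) r
      ((G.map (algebraMap U K)).submatrix (f.prodCongr (Equiv.refl (Fin 2)))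
        (f.prodCongr (Equiv.refl (Fin 2)))) (by
          have hGt' : (G.map (algebraMap U K))ᵀ = -(G.map (algebraMap U K)) := by
            ext p q
            have := congrFun (congrFun hGt p) q
            rw [transpose_apply, neg_apply] at this
            rw [transpose_apply, neg_apply, map_apply, map_apply, this, map_neg]
          rw [transpose_submatrix, hGt']
          rfl)
    rw [pfS_reindex, det_submatrix_equiv_self, pfS_map, ← RingHom.mapMatrix_apply,
      ← RingHom.map_det] at h1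
    apply IsFractionRing.injective U K
    rw [map_pow, h1, map_mul, map_pow, map_mul, map_pow, map_ofNat, map_natCast]
  -- specialise
  set φ : U →+* A := MvPolynomial.eval₂Hom (Int.castRingHom A)
    (fun x => if x.1 < x.2 then M x.1 x.2 else 0) with hφ
  have hentry : ∀ p q, M q p = -M p q := fun p q => by
    have := congrFun (congrFun hM p) q
    simpa using this
  have hGM : G.map φ = M := by
    ext p q
    rw [map_apply, hG, Matrix.of_apply, map_sub, hφ, MvPolynomial.coe_eval₂Hom,
      MvPolynomial.eval₂_X, MvPolynomial.eval₂_X]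
    rcases lt_trichotomy p q with h | h | h
    · rw [if_pos h, if_neg (not_lt.2 h.le), sub_zero]
    · subst h
      rw [if_neg (lt_irrefl _), hd p, sub_zero]
    · rw [if_neg (not_lt.2 h.le), if_pos h, zero_sub, hentry p q, neg_neg]
  have h2 := congrArg φ hgen
  rw [map_pow, ← pfS_map, hGM, map_mul, RingHom.map_det, RingHom.mapMatrix_apply, hGM] at h2
  rw [h2, map_pow, map_mul, map_pow, map_ofNat, map_natCast]

/-- version for rings in which `2` is a unit. -/
theorem pfS_sq' {A : Type*} [CommRing A] (h2 : IsUnit (2 : A))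
    (M : Matrix (ι × Fin 2) (ι × Fin 2) A) (hM : Mᵀ = -M) :
    pfS M ^ 2 = ((2 : A) ^ Fintype.card ι * (Fintype.card ι).factorial) ^ 2 * M.det := by
  refine pfS_sq M hM fun p => ?_
  have h := congrFun (congrFun hM p) p
  rw [transpose_apply, neg_apply] at h
  exact h2.mul_left_cancel (by linear_combination h)

end Crest.Agent.R208.PF
end

-- ▼ part R208/CW5c

/-! Row 208, block CW (helper586).  CW5c: the Euler class: isometry invariance, vanishing for
bundles with a unit section, the square of the Euler class. -/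

set_option autoImplicit false
set_option linter.unusedSectionVars false
set_option linter.unusedSimpArgs false
set_option linter.unusedVariables false

open scoped BigOperators ContDiff Topology
open Module Set Matrix

noncomputable section

namespace Crest.Agent.R208.CW

open Crest.Agent.R208.F Crest.Agent.R208.FI

universe u

section pt
variable {T : Type*} [AddCommGroup T] [Module ℝ T] {ι n m l : Type*} [Fintype ι] [DecidableEq ι]
  [Fintype n] [DecidableEq n] [Fintype m] [DecidableEq m] [Fintype l] [DecidableEq l]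

/-- the rotating embedding -/
def rotS (S : Matrix m n ℂ) (c s : ℂ) : Matrix (n ⊕ m) n ℂ := Matrix.fromRows (c • 1) (s • S)

theorem rotS_tr (S : Matrix m n ℂ) (c s : ℂ) :
    (rotS S c s)ᵀ * rotS S c s = (c * c) • 1 + (s * s) • (Sᵀ * S) := by
  rw [rotS, Matrix.transpose_fromRows, Matrix.fromCols_mul_fromRows, transpose_smul,
    transpose_smul, transpose_one, Matrix.smul_mul, Matrix.mul_smul, Matrix.smul_mul,
    Matrix.mul_smul, smul_smul, smul_smul, Matrix.one_mul]

theorem rotS_iso {P : Matrix n n ℂ} {S : Matrix m n ℂ} (hP : P * P = P)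
    (h : P * (Sᵀ * S) * P = P) {c s : ℂ} (hcs : c * c + s * s = 1) :
    P * ((rotS S c s)ᵀ * rotS S c s) * P = P := by
  rw [rotS_tr, Matrix.mul_add, Matrix.add_mul, Matrix.mul_smul, Matrix.mul_smul, Matrix.smul_mul,
    Matrix.smul_mul, h, Matrix.mul_one, hP, ← add_smul, hcs, one_smul]

end pt

section iso
variable {E : Type u} [NormedAddCommGroup E] [NormedSpace ℝ E] [FiniteDimensional ℝ E]
  {ι n m : Type*} [Fintype ι] [DecidableEq ι] [Fintype n] [DecidableEq n] [Fintype m]
  [DecidableEq m] {x : E} {X : Set E} {dX : ℕ}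

theorem SM.rotS {G : Type*} [NormedAddCommGroup G] [NormedSpace ℝ G] {x : G} {k : WithTop ℕ∞}
    {S : G → Matrix m n ℂ} {c s : G → ℂ} (hS : SM k S x) (hc : ContDiffAt ℝ k c x)
    (hs : ContDiffAt ℝ k s x) : SM k (fun y => rotS (S y) (c y) (s y)) x := by
  rintro (i | i) j
  · exact hc.mul contDiffAt_const
  · exact hs.mul (hS i j)

/-- **isometry invariance** -/
theorem ec_iso {P : E → Matrix n n ℂ} {W : E → (ι × Fin 2 → n) → ℂ} (h : OF X P W)
    {S : E → Matrix m n ℂ} (hS : ∀ x ∈ X, SM ∞ S x)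
    (hi : ∀ x ∈ X, P x * ((S x)ᵀ * S x) * P x = P x)
    (h' : OF X (fun x => S x * P x * (S x)ᵀ) (fun x => pushW (S x) (W x))) : ec h' = ec h := by
  set c : ℝ → ℂ := fun t => ((Real.cos (Real.pi / 2 * t) : ℝ) : ℂ) with hc
  set s : ℝ → ℂ := fun t => ((Real.sin (Real.pi / 2 * t) : ℝ) : ℂ) with hs
  have hcs : ∀ t, c t * c t + s t * s t = 1 := fun t => by
    have e := Real.cos_sq_add_sin_sq (Real.pi / 2 * t)
    have e' : ((Real.cos (Real.pi / 2 * t) ^ 2 + Real.sin (Real.pi / 2 * t) ^ 2 : ℝ) : ℂ) = 1 := by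
      rw [e]; norm_cast
    push_cast at e'
    simp only [hc, hs]
    push_cast
    linear_combination e'
  have hcd : ContDiff ℝ ∞ c := Complex.ofRealCLM.contDiff.comp
    (Real.contDiff_cos.comp (contDiff_const.mul contDiff_id))
  have hsd : ContDiff ℝ ∞ s := Complex.ofRealCLM.contDiff.comp
    (Real.contDiff_sin.comp (contDiff_const.mul contDiff_id))
  have hc0 : c 0 = 1 := by simp [hc]
  have hs0 : s 0 = 0 := by simp [hs]
  have hc1 : c 1 = 0 := by simp [hc]
  have hs1 : s 1 = 1 := by simp [hs]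
  have hid := h.idF.idem
  set R : E × ℝ → Matrix (n ⊕ m) n ℂ := fun z => rotS (S z.1) (c z.2) (s z.2) with hR
  have hRs : ∀ x ∈ X, ∀ t : ℝ, SM ∞ R (x, t) := fun x hx t =>
    SM.rotS (S := fun z : E × ℝ => S z.1) (fun i j => (hS x hx i j).comp (x, t) contDiffAt_fst)
      (hcd.contDiffAt.comp (x, t) contDiffAt_snd) (hsd.contDiffAt.comp (x, t) contDiffAt_snd)
  have hPs : ∀ x ∈ X, ∀ t : ℝ, SM ∞ (fun z : E × ℝ => P z.1) (x, t) := fun x hx t i j =>
    (h.sP x hx i j).comp (x, t) contDiffAt_fst
  have hWs : ∀ x ∈ X, ∀ t : ℝ, ∀ I, ContDiffAt ℝ ∞ (fun z : E × ℝ => W z.1 I) (x, t) :=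
    fun x hx t I => (h.sW x hx I).comp (x, t) contDiffAt_fst
  have hiso : ∀ x ∈ X, ∀ t, P x * ((R (x, t))ᵀ * R (x, t)) * P x = P x := fun x hx t =>
    rotS_iso (hid x hx) (hi x hx) (hcs t)
  have hRt : ∀ x ∈ X, ∀ t : ℝ, SM ∞ (fun y => R (y, t)) x := fun x hx t =>
    SM.comp (f := fun y : E => (y, t)) (hRs x hx t) (contDiffAt_id.prodMk contDiffAt_const)
  have h0 := h.push (S := fun y => R (y, 0)) (fun x hx => hRt x hx 0) (fun x hx => hiso x hx 0)
  have h1 := h.push (S := fun y => R (y, 1)) (fun x hx => hRt x hx 1) (fun x hx => hiso x hx 1)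
  have key := ec_homotopy (X := X) (P := fun z => R z * P z.1 * (R z)ᵀ)
    (W := fun z => pushW (R z) (W z.1))
    (fun x hx t _ => (hRs x hx t).push (hPs x hx t))
    (fun x hx t _ I => contDiffAt_pushW (hRs x hx t) (hWs x hx t) I)
    (fun x hx t _ => (h.fr x hx).push (hiso x hx t)) h0 h1
  have eA : ∀ y, R (y, 0) = Matrix.fromRows 1 0 := fun y => by
    simp only [hR, rotS, hc0, hs0, one_smul, zero_smul]
  have eF : ∀ A : Matrix m n ℂ, (Matrix.fromRows 0 1 : Matrix (n ⊕ m) m ℂ) * A
      = Matrix.fromRows 0 A := fun A => by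
    rw [Matrix.fromRows_mul, Matrix.zero_mul, Matrix.one_mul]
  have eB : ∀ y, R (y, 1) = (Matrix.fromRows 0 1 : Matrix (n ⊕ m) m ℂ) * S y := fun y => by
    rw [eF]
    simp only [hR, rotS, hc1, hs1, one_smul, zero_smul]
  have hA : (Matrix.fromRows 1 0 : Matrix (n ⊕ m) n ℂ)ᵀ * (Matrix.fromRows 1 0 : Matrix (n ⊕ m) n ℂ)
      = 1 := by
    rw [Matrix.transpose_fromRows, Matrix.fromCols_mul_fromRows, transpose_one, Matrix.one_mul,
      Matrix.mul_zero, add_zero]
  have hB : (Matrix.fromRows 0 1 : Matrix (n ⊕ m) m ℂ)ᵀ * (Matrix.fromRows 0 1 : Matrix (n ⊕ m) m ℂ)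
      = 1 := by
    rw [Matrix.transpose_fromRows, Matrix.fromCols_mul_fromRows, transpose_one, Matrix.one_mul,
      Matrix.mul_zero, zero_add]
  have hA' := h.push (S := fun _ => (Matrix.fromRows 1 0 : Matrix (n ⊕ m) n ℂ))
    (fun x hx => SM.const _) (fun x hx => by rw [hA, Matrix.mul_one, hid x hx])
  have hB' := h'.push (S := fun _ => (Matrix.fromRows 0 1 : Matrix (n ⊕ m) m ℂ))
    (fun x hx => SM.const _) (fun x hx => by rw [hB, Matrix.mul_one, h'.idF.idem x hx])
  rw [← ec_const_push h hA hA', ← ec_const_push h' hB hB']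
  rw [ec_congr hB' h1, key, ec_congr h0 hA']
  · intro x hx; rw [eA]
  · intro x hx; rw [eA]
  · intro x hx; rw [eB]; simp only [transpose_mul, Matrix.mul_assoc]
  · intro x hx; rw [eB, pushW_pushW]

end iso

/-! ### vanishing -/

section van
variable {E : Type u} [NormedAddCommGroup E] [NormedSpace ℝ E] [FiniteDimensional ℝ E]
  {ι n m : Type*} [Fintype ι] [DecidableEq ι] [Fintype n] [DecidableEq n] [Fintype m]
  [DecidableEq m] {x : E} {X : Set E} {dX : ℕ}





end van

/-! ### the square of the Euler class -/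

section sq
variable {A : Type*} [CommRing A] {n m : Type*} [Fintype n] [DecidableEq n] [Fintype m]
  [DecidableEq m]

theorem cpoly_mul_comm (S : Matrix n m A) (T : Matrix m n A) :
    cpoly (S * T) = cpoly (T * S) := by
  have e2 : (Polynomial.X : Polynomial A) • (T * S).map Polynomial.C
        = T.map Polynomial.C * ((Polynomial.X : Polynomial A) • S.map Polynomial.C) := by
    rw [Matrix.mul_smul, Matrix.map_mul]
  have e1 : (Polynomial.X : Polynomial A) • (S * T).map Polynomial.C
        = ((Polynomial.X : Polynomial A) • S.map Polynomial.C) * T.map Polynomial.C := by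
    rw [Matrix.smul_mul, Matrix.map_mul]
  rw [cpoly, cpoly, e1, e2, Matrix.det_one_add_mul_comm]

theorem cpoly_coeff_card (M : Matrix n n A) : (cpoly M).coeff (Fintype.card n) = M.det := by
  have h := Polynomial.coeff_det_X_add_C_card M (1 : Matrix n n A)
  rw [Matrix.map_one _ (map_zero _) (map_one _), add_comm] at h
  exact h

end sq

section sqc
variable {E : Type u} [NormedAddCommGroup E] [NormedSpace ℝ E] [FiniteDimensional ℝ E]
  {ι n m : Type*} [Fintype ι] [DecidableEq ι] [Fintype n] [DecidableEq n] [Fintype m]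
  [DecidableEq m] {x : E} {X : Set E} {dX : ℕ}

theorem rs_cf (P : E → Matrix n n ℂ) (j : ℕ) (x : E) :
    rs X x (cf j P x) = (((cpoly (wv (P x) (dl X P x) (invM_dl P x))).coeff j :
      EvC (Tan X x)) : CF (Tan X x)) := by
  rw [cf, ← rsE_coe, ← rsE_Om, ← cpoly_map, Polynomial.coeff_map]

theorem two_unit (T : Type*) [AddCommGroup T] [Module ℝ T] : IsUnit (2 : EvC T) := by
  have : (2 : EvC T) = algebraMap ℂ (EvC T) 2 := by rw [map_ofNat]
  rw [this]
  exact (isUnit_iff_ne_zero.2 two_ne_zero).map _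

theorem wv_transpose {T : Type*} [AddCommGroup T] [Module ℝ T] {q : Matrix n n ℂ} (hq : qᵀ = q)
    {δ : Matrix n n (CF T)} (hδ : invM δ = -δ) (hs : δᵀ = δ) : (wv q δ hδ)ᵀ = - wv q δ hδ := by
  have e1 : (toEv (δ * δ) (invM_sq hδ))ᵀ = - toEv (δ * δ) (invM_sq hδ) := by
    refine vl_inj (Matrix.ext fun i j => ?_)
    change (δ * δ) j i = - (δ * δ) i j
    rw [Matrix.mul_apply, Matrix.mul_apply, ← Finset.sum_neg_distrib]
    refine Finset.sum_congr rfl fun k _ => ?_
    have ho : ∀ a b, invC (δ a b) = - δ a b := fun a b => congrFun (congrFun hδ a) b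
    have hsy : ∀ a b, δ a b = δ b a := fun a b => congrFun (congrFun hs b) a
    rw [odd_commC (ho j k), ho, neg_mul, hsy k i, hsy j k]
  have e2 : (hv T q)ᵀ = hv T q := by
    have : (hv T q)ᵀ = hv T qᵀ := rfl
    rw [this, hq]
  rw [wv, transpose_mul, transpose_mul, e1, e2, Matrix.neg_mul, Matrix.mul_neg, Matrix.mul_assoc]

theorem OF.pt {P : E → Matrix n n ℂ} {W : E → (ι × Fin 2 → n) → ℂ} (h : OF X P W) (hx : x ∈ X) :
    (P x)ᵀ = P x := by
  obtain ⟨g, _, g2, _⟩ := h.fr x hx
  rw [← g2, transpose_mul, transpose_transpose]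

theorem OF.dlt {P : E → Matrix n n ℂ} {W : E → (ι × Fin 2 → n) → ℂ} (h : OF X P W) (hx : x ∈ X) :
    (dl X P x)ᵀ = dl X P x := by
  have : (dl X P x)ᵀ = dl X (fun y => (P y)ᵀ) x := rfl
  rw [this]
  exact dl_congr_gen hx (h.idF.s1 hx).transpose (h.idF.s1 hx) fun y hy => h.pt hy

/-- pointwise: the square of the Euler form is the top Chern form -/
theorem rs_ef_sq {P : E → Matrix n n ℂ} {W : E → (ι × Fin 2 → n) → ℂ} (h : OF X P W)
    (hx : x ∈ X) : rs X x (ef P W x * ef P W x)
      = ((2 : ℂ) ^ Fintype.card ι * (Fintype.card ι).factorial) ^ 2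
        • rs X x (cf (2 * Fintype.card ι) P x) := by
  obtain ⟨f, h1, h2, h3⟩ := h.fr x hx
  have hid := h.idF.idem x hx
  rw [map_mul, rs_ef, eu_frame h3, rs_cf]
  set w := wv (P x) (dl X P x) (invM_dl P x) with hw
  have hwt : wᵀ = -w := wv_transpose (h.pt hx) _ (h.dlt hx)
  set M := (hv (Tan X x) f)ᵀ * w * hv (Tan X x) f with hM
  have hMt : Mᵀ = -M := by
    rw [hM, transpose_mul, transpose_mul, transpose_transpose, hwt, Matrix.neg_mul, Matrix.mul_neg,
      Matrix.mul_assoc]
  have hsq := PF.pfS_sq' (two_unit (Tan X x)) M hMt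
  have ht : hv (Tan X x) fᵀ = (hv (Tan X x) f)ᵀ := rfl
  have hc : cpoly w = cpoly M := by
    have e : w = hv (Tan X x) f * ((hv (Tan X x) f)ᵀ * w) := by
      rw [← Matrix.mul_assoc, ← ht, ← hv_mul, h2, hw, hv_wv hid]
    conv_lhs => rw [e]
    rw [cpoly_mul_comm]
  have hcard : Fintype.card (ι × Fin 2) = 2 * Fintype.card ι := by
    rw [Fintype.card_prod, Fintype.card_fin, mul_comm]
  have e : PF.pfS M * PF.pfS M = ((2 : ℂ) ^ Fintype.card ι * (Fintype.card ι).factorial) ^ 2
      • (cpoly w).coeff (2 * Fintype.card ι) := by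
    rw [← sq, hsq, hc, ← hcard, cpoly_coeff_card, Algebra.smul_def]
    congr 1
    have c2 : algebraMap ℂ (EvC (Tan X x)) 2 = 2 := map_ofNat _ 2
    have c3 : algebraMap ℂ (EvC (Tan X x)) ((Fintype.card ι).factorial : ℂ)
      = ((Fintype.card ι).factorial : EvC (Tan X x)) := map_natCast _ _
    rw [map_pow, map_mul, map_pow, c2, c3]
  exact congrArg (fun a : EvC (Tan X x) => (a : CF (Tan X x))) e

/-- **the square of the Euler class** -/
theorem ec_sq (hX : Sub dX X) {P : E → Matrix n n ℂ} {W : E → (ι × Fin 2 → n) → ℂ} (h : OF X P W) :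
    ec h ^ 2 = ((2 : ℂ) ^ Fintype.card ι * (Fintype.card ι).factorial) ^ 2
      • cc hX h.idF (2 * Fintype.card ι) := by
  rw [sq, ec, cc, ← cls_mul, ← cls_smul]
  exact cls_congr fun x hx => by
    rw [Pi.mul_apply, rs_ef_sq h hx, Pi.smul_apply, rs_csmul]

end sqc

end Crest.Agent.R208.CW
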