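import Crest.Agent.R208.TDefs

-- ▼ part R208/THB1
section

/-! Row 208, block TH-B (helper854).  THB1: smoothness and algebra of the model map `SS`,
complexification of oriented projection fields. -/

set_option autoImplicit false
set_option linter.unusedSectionVars false
set_option linter.unusedSimpArgs false
set_option linter.unusedVariables false

open MeasureTheory Set Filter Topology Module Matrix
open scoped ContDiff
open Crest.Agent.R208.F Crest.Agent.R208.FI Crest.Agent.R208.CW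

noncomputable section

namespace Crest.Agent.R208.T

/-! ### scalar functions -/

theorem ph_contDiff : ContDiff ℝ ∞ ph :=
  contDiff_const.mul (Real.smoothTransition.contDiff.comp
    ((contDiff_const.mul contDiff_id).sub contDiff_const))

theorem ph_of_le {s : ℝ} (h : s ≤ 1 / 2) : ph s = 0 := by
  rw [ph, Real.smoothTransition.zero_of_nonpos (by linarith), mul_zero]

theorem ph_of_ge {s : ℝ} (h : 1 ≤ s) : ph s = Real.pi := by
  rw [ph, Real.smoothTransition.one_of_one_le (by linarith), mul_one]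

theorem ca_of_le {s : ℝ} (h : s ≤ 1 / 2) : ca s = 0 := by
  rw [ca, ph_of_le h, Real.cos_zero, sub_self, zero_div]

theorem cb_of_le {s : ℝ} (h : s ≤ 1 / 2) : cb s = 0 := by
  rw [cb, ph_of_le h, Real.sin_zero, neg_zero, zero_div]

theorem ca_of_ge {s : ℝ} (h : 1 ≤ s) : ca s = -2 / s := by
  rw [ca, ph_of_ge h, Real.cos_pi]; norm_num

theorem cb_of_ge {s : ℝ} (h : 1 ≤ s) : cb s = 0 := by
  rw [cb, ph_of_ge h, Real.sin_pi, neg_zero, zero_div]

theorem ca_contDiff : ContDiff ℝ ∞ ca := by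
  rw [contDiff_iff_contDiffAt]
  intro s
  rcases lt_or_ge s (1 / 2) with h | h
  · have : ca =ᶠ[𝓝 s] fun _ => 0 := by
      filter_upwards [Iio_mem_nhds h] with t ht using ca_of_le (le_of_lt ht)
    exact contDiffAt_const.congr_of_eventuallyEq this
  · exact ((Real.contDiff_cos.comp ph_contDiff).sub contDiff_const).contDiffAt.div contDiffAt_id
      (by linarith)

theorem cb_contDiff : ContDiff ℝ ∞ cb := by
  rw [contDiff_iff_contDiffAt]
  intro s
  rcases lt_or_ge s (1 / 2) with h | h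
  · have : cb =ᶠ[𝓝 s] fun _ => 0 := by
      filter_upwards [Iio_mem_nhds h] with t ht using cb_of_le (le_of_lt ht)
    exact contDiffAt_const.congr_of_eventuallyEq this
  · have hs : s ≠ 0 := by linarith
    exact (Real.contDiff_sin.comp ph_contDiff).neg.contDiffAt.div (Real.contDiffAt_sqrt hs)
      (Real.sqrt_pos.2 (by linarith)).ne'

/-- the key identity: `SS` is isometric -/
theorem ca_cb {s : ℝ} (hs : 0 < s) : 2 * ca s + ca s ^ 2 * s + cb s ^ 2 = 0 := by
  have h1 : Real.sqrt s ^ 2 = s := Real.sq_sqrt hs.le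
  have h2 := Real.sin_sq_add_cos_sq (ph s)
  rw [ca, cb, div_pow, div_pow, h1, neg_sq]
  field_simp
  nlinarith

section model
variable {n : Type*} [Fintype n] [DecidableEq n]

theorem nsq (v : EuclideanSpace ℝ n) : ‖v‖ ^ 2 = ∑ i, v i * v i := by
  rw [EuclideanSpace.norm_sq_eq]
  exact Finset.sum_congr rfl fun i _ => by rw [Real.norm_eq_abs, sq_abs, sq]

theorem contDiff_coord (i : n) : ContDiff ℝ ∞ fun v : EuclideanSpace ℝ n => v i :=
  (EuclideanSpace.proj i : EuclideanSpace ℝ n →L[ℝ] ℝ).contDiff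

theorem contDiff_ca : ContDiff ℝ ∞ fun v : EuclideanSpace ℝ n => ca (‖v‖ ^ 2) :=
  ca_contDiff.comp (contDiff_norm_sq ℝ)

theorem contDiff_cb : ContDiff ℝ ∞ fun v : EuclideanSpace ℝ n => cb (‖v‖ ^ 2) :=
  cb_contDiff.comp (contDiff_norm_sq ℝ)

theorem contDiff_SS (a : n ⊕ Unit) (j : n) :
    ContDiff ℝ ∞ fun v : EuclideanSpace ℝ n => SS v a j := by
  rcases a with i | u
  · have h : ContDiff ℝ ∞ fun v : EuclideanSpace ℝ n => ca (‖v‖ ^ 2) * v i * v j :=
      (contDiff_ca.mul (contDiff_coord i)).mul (contDiff_coord j)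
    exact contDiff_const.add (Complex.ofRealCLM.contDiff.comp h)
  · have h : ContDiff ℝ ∞ fun v : EuclideanSpace ℝ n => cb (‖v‖ ^ 2) * v j :=
      contDiff_cb.mul (contDiff_coord j)
    exact Complex.ofRealCLM.contDiff.comp h

theorem SM_SS (v : EuclideanSpace ℝ n) : SM ∞ (SS (n := n)) v := fun a j =>
  (contDiff_SS a j).contDiffAt

theorem SS_transpose_mul (v : EuclideanSpace ℝ n) : (SS v)ᵀ * SS v = 1 := by
  have key : (2 * ca (‖v‖ ^ 2) + ca (‖v‖ ^ 2) ^ 2 * ‖v‖ ^ 2 + cb (‖v‖ ^ 2) ^ 2) * ‖v‖ ^ 2 = 0 := by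
    rcases (sq_nonneg ‖v‖).eq_or_lt with h | h
    · rw [← h, mul_zero]
    · rw [ca_cb h, zero_mul]
  refine Matrix.ext fun j k => ?_
  rw [Matrix.mul_apply, Fintype.sum_sum_type]
  simp only [transpose_apply, SS, of_apply, Finset.univ_unique, Finset.sum_const,
    Finset.card_singleton, one_smul]
  set c := ca (‖v‖ ^ 2) with hc
  set b := cb (‖v‖ ^ 2) with hb
  have e1 : ∀ i : n, ((if i = j then (1 : ℂ) else 0) + ((c * v i * v j : ℝ) : ℂ)) *
      ((if i = k then (1 : ℂ) else 0) + ((c * v i * v k : ℝ) : ℂ))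
      = (if i = j then (if i = k then (1 : ℂ) else 0) else 0)
        + (if i = j then ((c * v i * v k : ℝ) : ℂ) else 0)
        + (if i = k then ((c * v i * v j : ℝ) : ℂ) else 0)
        + ((c ^ 2 * v j * v k : ℝ) : ℂ) * ((v i * v i : ℝ) : ℂ) := by
    intro i
    push_cast
    split_ifs <;> ring
  simp only [e1, Finset.sum_add_distrib, Finset.sum_ite_eq', Finset.mem_univ, if_true,
    ← Finset.mul_sum]
  have e2 : (∑ i, ((v i * v i : ℝ) : ℂ)) = ((‖v‖ ^ 2 : ℝ) : ℂ) := by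
    rw [nsq]; push_cast; rfl
  rw [e2, Matrix.one_apply]
  have e3 : c * v j * v k + c * v k * v j + c ^ 2 * v j * v k * ‖v‖ ^ 2 + b * v j * (b * v k) = 0 := by
    by_cases hv : ‖v‖ ^ 2 = 0
    · have : v = 0 := by simpa using hv
      subst this; simp
    · have : (2 * c + c ^ 2 * ‖v‖ ^ 2 + b ^ 2) = 0 := (mul_eq_zero.1 key).resolve_right hv
      linear_combination (v j * v k) * this
  have e4 : ((c * v j * v k : ℝ) : ℂ) + ((c * v k * v j : ℝ) : ℂ)
      + ((c ^ 2 * v j * v k : ℝ) : ℂ) * ((‖v‖ ^ 2 : ℝ) : ℂ) + ((b * v j : ℝ) : ℂ) * ((b * v k : ℝ) : ℂ)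
      = 0 := by exact_mod_cast e3
  linear_combination e4

/-- the standard embedding -/
def S0 (n : Type*) [Fintype n] [DecidableEq n] : Matrix (n ⊕ Unit) n ℂ := Matrix.fromRows 1 0

theorem S0_transpose_mul : (S0 n)ᵀ * S0 n = 1 := by
  rw [S0, Matrix.transpose_fromRows, Matrix.fromCols_mul_fromRows, transpose_one, Matrix.one_mul,
    Matrix.mul_zero, add_zero]


/-- the complexified reflection -/
def Rf (v : EuclideanSpace ℝ n) : Matrix n n ℂ :=
  Matrix.of fun i j => (if i = j then 1 else 0) + (((-2 / ‖v‖ ^ 2) * v i * v j : ℝ) : ℂ)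

theorem SS_of_ge {v : EuclideanSpace ℝ n} (hv : 1 ≤ ‖v‖) : SS v = S0 n * Rf v := by
  have h : (1 : ℝ) ≤ ‖v‖ ^ 2 := by nlinarith
  rw [S0, Matrix.fromRows_mul, Matrix.one_mul, Matrix.zero_mul]
  refine Matrix.ext fun a j => ?_
  rcases a with i | u
  · simp only [SS, of_apply, Matrix.fromRows_apply_inl, Rf, ca_of_ge h]
  · simp only [SS, of_apply, Matrix.fromRows_apply_inr, cb_of_ge h, zero_mul, Complex.ofReal_zero,
      Matrix.zero_apply]

theorem Rf_transpose (v : EuclideanSpace ℝ n) : (Rf v)ᵀ = Rf v := by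
  refine Matrix.ext fun i j => ?_
  simp only [transpose_apply, Rf, of_apply]
  congr 1
  · simp only [eq_comm]
  · congr 1; ring

/-- complex column of a real vector -/
def col (v : EuclideanSpace ℝ n) : Matrix n Unit ℂ := Matrix.of fun i _ => ((v i : ℝ) : ℂ)

theorem Rf_eq (v : EuclideanSpace ℝ n) :
    Rf v = 1 + (((-2 / ‖v‖ ^ 2 : ℝ)) : ℂ) • (col v * (col v)ᵀ) := by
  refine Matrix.ext fun i j => ?_
  rw [Matrix.add_apply, Matrix.smul_apply, Matrix.mul_apply, Matrix.one_apply]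
  simp only [Rf, of_apply, col, transpose_apply, Finset.univ_unique, Finset.sum_const,
    Finset.card_singleton, one_smul, smul_eq_mul]
  push_cast
  ring

theorem col_transpose_mul (v : EuclideanSpace ℝ n) :
    (col v)ᵀ * col v = (((‖v‖ ^ 2 : ℝ)) : ℂ) • (1 : Matrix Unit Unit ℂ) := by
  refine Matrix.ext fun i j => ?_
  rw [Matrix.mul_apply, Matrix.smul_apply, Matrix.one_apply, if_pos (Subsingleton.elim _ _), nsq]
  simp only [col, transpose_apply, of_apply, smul_eq_mul, mul_one]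
  push_cast
  rfl

theorem Rf_mul_self {v : EuclideanSpace ℝ n} (hv : v ≠ 0) : Rf v * Rf v = 1 := by
  have h0 : (((‖v‖ ^ 2 : ℝ)) : ℂ) ≠ 0 := by
    have : ‖v‖ ≠ 0 := norm_ne_zero_iff.2 hv
    exact_mod_cast pow_ne_zero 2 this
  rw [Rf_eq, Matrix.add_mul, Matrix.one_mul, Matrix.smul_mul,
    Matrix.mul_add, Matrix.mul_one, Matrix.mul_smul, Matrix.mul_assoc,
    ← Matrix.mul_assoc (col v)ᵀ, col_transpose_mul, Matrix.smul_mul, Matrix.one_mul,
    Matrix.mul_smul, smul_smul]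
  have : ((-2 / ‖v‖ ^ 2 : ℝ) : ℂ) * ((‖v‖ ^ 2 : ℝ) : ℂ) = -2 := by
    rw [← Complex.ofReal_mul, div_mul_cancel₀]
    · norm_num
    · exact_mod_cast h0
  rw [this, smul_add, smul_smul, add_assoc, ← add_smul, ← add_smul]
  have h2 : ((-2 / ‖v‖ ^ 2 : ℝ) : ℂ) + (((-2 / ‖v‖ ^ 2 : ℝ) : ℂ) + ((-2 / ‖v‖ ^ 2 : ℝ) : ℂ) * -2) = 0 := by
    ring
  rw [h2, zero_smul, add_zero]

end model

end Crest.Agent.R208.T
end
end

-- ▼ part R208/THB2

/-! Row 208, block TH-B (helper854).  THB2: frames, complexification of oriented projection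
fields, constant isometric embeddings. -/

set_option autoImplicit false
set_option linter.unusedSectionVars false
set_option linter.unusedSimpArgs false
set_option linter.unusedVariables false

open MeasureTheory Set Filter Topology Module Matrix
open scoped ContDiff
open Crest.Agent.R208.F Crest.Agent.R208.FI Crest.Agent.R208.CW

noncomputable section

namespace Crest.Agent.R208.T

section frame
variable {n ι : Type*} [Fintype n] [DecidableEq n] [Fintype ι] [DecidableEq ι]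

theorem Fr.transpose_eq {P : Matrix n n ℂ} {W : (ι × Fin 2 → n) → ℂ} (h : Fr P W) : Pᵀ = P := by
  obtain ⟨f, h1, h2, h3⟩ := h
  rw [← h2, transpose_mul, transpose_transpose]

theorem Rf_conj {P : Matrix n n ℂ} (hPt : Pᵀ = P) {v : EuclideanSpace ℝ n} (hv : v ≠ 0)
    (hP : P * col v = col v) : Rf v * P * (Rf v)ᵀ = P := by
  have hc : (col v)ᵀ * P = (col v)ᵀ := by
    rw [← hPt, ← transpose_mul, hP]
  have h1 : Rf v * P = P * Rf v := by
    rw [Rf_eq, Matrix.add_mul, Matrix.mul_add, Matrix.one_mul, Matrix.mul_one, Matrix.smul_mul,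
      Matrix.mul_smul, Matrix.mul_assoc, hc, ← Matrix.mul_assoc, hP]
  rw [h1, Rf_transpose, Matrix.mul_assoc, Rf_mul_self hv, Matrix.mul_one]

/-- reflection in a vector of the range reverses the orientation tensor -/
theorem pushW_Rf {P : Matrix n n ℂ} {W : (ι × Fin 2 → n) → ℂ} (h : Fr P W)
    {v : EuclideanSpace ℝ n} (hv : v ≠ 0) (hP : P * col v = col v) :
    pushW (Rf v) W = fun I => - W I := by
  have hPt := Fr.transpose_eq h
  obtain ⟨f, h1, h2, h3⟩ := h
  have h0 : (((‖v‖ ^ 2 : ℝ)) : ℂ) ≠ 0 := by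
    have : ‖v‖ ≠ 0 := norm_ne_zero_iff.2 hv
    exact_mod_cast pow_ne_zero 2 this
  funext J
  rw [pushW_frame _ f h3]
  set c : ℂ := ((-2 / ‖v‖ ^ 2 : ℝ) : ℂ) with hc
  set a : Matrix (ι × Fin 2) Unit ℂ := fᵀ * col v with ha
  have hfa : f * a = col v := by rw [ha, ← Matrix.mul_assoc, h2, hP]
  have haa : aᵀ * a = (((‖v‖ ^ 2 : ℝ)) : ℂ) • (1 : Matrix Unit Unit ℂ) := by
    rw [ha, transpose_mul, transpose_transpose, Matrix.mul_assoc, ← Matrix.mul_assoc f, h2, hP,
      col_transpose_mul]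
  have haT : aᵀ = (col v)ᵀ * f := by rw [ha, transpose_mul, transpose_transpose]
  have hf : Rf v * f = f * (1 + (c • a) * aᵀ) := by
    rw [Rf_eq, Matrix.add_mul, Matrix.one_mul, Matrix.mul_add, Matrix.mul_one, Matrix.smul_mul,
      Matrix.smul_mul, Matrix.mul_smul, ← Matrix.mul_assoc f, hfa, haT, Matrix.mul_assoc]
  have h4 : (Rf v * f).submatrix J id = f.submatrix J id * (1 + (c • a) * aᵀ) := by
    rw [hf]; rfl
  have h5 : (1 + (c • a) * aᵀ : Matrix (ι × Fin 2) (ι × Fin 2) ℂ).det = -1 := by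
    rw [Matrix.det_one_add_mul_comm, Matrix.mul_smul, haa, smul_smul, Matrix.det_unique,
      Matrix.add_apply, Matrix.smul_apply, Matrix.one_apply_eq, smul_eq_mul, mul_one]
    have : c * ((‖v‖ ^ 2 : ℝ) : ℂ) = -2 := by
      rw [hc, ← Complex.ofReal_mul, div_mul_cancel₀]
      · norm_num
      · exact_mod_cast h0
    rw [this]; norm_num
  rw [h4, det_mul, h5, h3]; ring

end frame

section fields
variable {n ι : Type*} [Fintype n] [DecidableEq n] [Fintype ι] [DecidableEq ι]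
  {E : Type*} [NormedAddCommGroup E] [NormedSpace ℝ E] [FiniteDimensional ℝ E]
  {X : Set E} {P : E → EuclideanSpace ℝ n →L[ℝ] EuclideanSpace ℝ n}
  {W : E → (ι × Fin 2 → n) → ℝ}

theorem contDiffAt_mtx {G : Type*} [NormedAddCommGroup G] [NormedSpace ℝ G] {k : WithTop ℕ∞}
    {Q : G → EuclideanSpace ℝ n →L[ℝ] EuclideanSpace ℝ n} {x : G} (hQ : ContDiffAt ℝ k Q x) :
    SM k (fun y => mtx (Q y)) x := by
  intro i j
  have h1 : ContDiffAt ℝ k (fun y => Q y (EuclideanSpace.single j 1)) x :=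
    hQ.clm_apply contDiffAt_const
  have h2 : ContDiffAt ℝ k (fun y => Q y (EuclideanSpace.single j 1) i) x :=
    (EuclideanSpace.proj i : EuclideanSpace ℝ n →L[ℝ] ℝ).contDiff.contDiffAt.comp x h1
  exact Complex.ofRealCLM.contDiff.contDiffAt.comp x h2

theorem mtx_of_frame {A : EuclideanSpace ℝ n →L[ℝ] EuclideanSpace ℝ n} {M : Matrix n n ℝ}
    (h : ∀ v i, A v i = ∑ j, M i j * v j) : mtx A = M.map (algebraMap ℝ ℂ) := by
  refine Matrix.ext fun i j => ?_
  rw [mtx, of_apply, h, Matrix.map_apply]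
  simp [PiLp.single_apply]

theorem mtx_mul_col {A : EuclideanSpace ℝ n →L[ℝ] EuclideanSpace ℝ n} {M : Matrix n n ℝ}
    (h : ∀ v i, A v i = ∑ j, M i j * v j) (v : EuclideanSpace ℝ n) : mtx A * col v = col (A v) := by
  refine Matrix.ext fun i j => ?_
  rw [mtx_of_frame h, Matrix.mul_apply]
  simp only [col, of_apply, Matrix.map_apply, h v i]
  simp

theorem OR.of (h : OR X P W) : OF X (fun x => mtx (P x)) (wC W) := by
  refine ⟨fun x hx => contDiffAt_mtx (h.sP x hx), fun x hx I =>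
    Complex.ofRealCLM.contDiff.contDiffAt.comp x (h.sW x hx I), fun x hx => ?_⟩
  obtain ⟨f, h1, h2, h3⟩ := h.fr x hx
  refine ⟨f.map (algebraMap ℝ ℂ), ?_, ?_, fun I => ?_⟩
  · rw [← Matrix.transpose_map, ← Matrix.map_mul, h1]
    exact Matrix.map_one _ (map_zero _) (map_one _)
  · rw [← Matrix.transpose_map, ← Matrix.map_mul, mtx_of_frame h2]
  · rw [wC, h3]
    exact RingHom.map_det (algebraMap ℝ ℂ) (f.submatrix I id)

theorem OR.mul_col (h : OR X P W) {x : E} (hx : x ∈ X) (v : EuclideanSpace ℝ n) :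
    mtx (P x) * col v = col (P x v) := by
  obtain ⟨f, h1, h2, h3⟩ := h.fr x hx
  exact mtx_mul_col h2 v

theorem OR.pfield (h : OR X P W) : PField X (2 * Fintype.card ι) P := by
  have key : ∀ x ∈ X, ∃ (L : EuclideanSpace ℝ n →ₗ[ℝ] (ι × Fin 2 → ℝ))
      (R : (ι × Fin 2 → ℝ) →ₗ[ℝ] EuclideanSpace ℝ n), L ∘ₗ R = LinearMap.id ∧
      (P x : EuclideanSpace ℝ n →ₗ[ℝ] EuclideanSpace ℝ n) = R ∘ₗ L := by
    intro x hx
    obtain ⟨f, h1, h2, h3⟩ := h.fr x hx
    refine ⟨fᵀ.mulVecLin ∘ₗ (WithLp.linearEquiv 2 ℝ (n → ℝ)).toLinearMap,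
      (WithLp.linearEquiv 2 ℝ (n → ℝ)).symm.toLinearMap ∘ₗ f.mulVecLin, ?_, ?_⟩
    · refine LinearMap.ext fun v => ?_
      change fᵀ.mulVec (f.mulVec v) = v
      rw [Matrix.mulVec_mulVec, h1, Matrix.one_mulVec]
    · refine LinearMap.ext fun v => ?_
      refine PiLp.ext fun i => ?_
      change P x v i = (f.mulVec (fᵀ.mulVec v.ofLp)) i
      rw [Matrix.mulVec_mulVec, h2]
      rfl
  refine ⟨h.sP, fun x hx v => ?_, fun x hx => ?_⟩
  · obtain ⟨L, R, h1, h2⟩ := key x hx
    have e : ∀ w, P x w = R (L w) := fun w => LinearMap.congr_fun h2 w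
    rw [e, e v]
    have := LinearMap.congr_fun h1 (L v)
    rw [LinearMap.comp_apply, LinearMap.id_apply] at this
    rw [this]
  · obtain ⟨L, R, h1, h2⟩ := key x hx
    have hL : LinearMap.range L = ⊤ := by
      rw [LinearMap.range_eq_top]
      exact fun w => ⟨R w, LinearMap.congr_fun h1 w⟩
    have hR : Function.Injective R := by
      intro a b hab
      have h3 := LinearMap.congr_fun h1 a
      have h4 := LinearMap.congr_fun h1 b
      rw [LinearMap.comp_apply, LinearMap.id_apply] at h3 h4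
      rw [← h3, ← h4, hab]
    rw [h2, LinearMap.range_comp_of_range_eq_top _ hL, LinearMap.finrank_range_of_inj hR]
    simp [mul_comm]

end fields

section push
variable {E : Type*} [NormedAddCommGroup E] [NormedSpace ℝ E] [FiniteDimensional ℝ E]
  {ι n m : Type*} [Fintype ι] [DecidableEq ι] [Fintype n] [DecidableEq n] [Fintype m]
  [DecidableEq m] {x : E} {X : Set E}

/-- constant isometric embeddings do not change the Euler form on `X` (pointwise version of
`ec_const_push`) -/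
theorem rs_ef_const_push {P : E → Matrix n n ℂ} {W : E → (ι × Fin 2 → n) → ℂ} (h : OF X P W)
    {S : Matrix m n ℂ} (hS : Sᵀ * S = 1) (hx : x ∈ X) :
    rs X x (ef (fun x => S * P x * Sᵀ) (fun x => pushW S (W x)) x) = rs X x (ef P W x) := by
  obtain ⟨f, h1, h2, h3⟩ := h.fr x hx
  rw [rs_ef, rs_ef, eu_frame h3, eu_frame (pushW_frame S f h3)]
  congr 2
  have e1 : dl X (fun x => S * P x * Sᵀ) x
      = hat (Tan X x) S * dl X P x * hat (Tan X x) Sᵀ := by
    have hSc : SM 1 (fun _ : E => S) x := SM.const S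
    have hSc' : SM 1 (fun _ : E => Sᵀ) x := SM.const _
    rw [dl_mul (hSc.mul (h.idF.s1 hx)) hSc', dl_mul hSc (h.idF.s1 hx), dl_const, dl_const,
      Matrix.zero_mul, zero_add, Matrix.mul_zero, add_zero]
  have hSS : hat (Tan X x) Sᵀ * hat (Tan X x) S = 1 := by rw [← hat_mul, hS, hat_one]
  have e2 : wv (S * P x * Sᵀ) (dl X (fun x => S * P x * Sᵀ) x) (invM_dl _ x)
      = hv (Tan X x) S * wv (P x) (dl X P x) (invM_dl P x) * (hv (Tan X x) S)ᵀ := by
    refine vl_inj ?_
    have e3 : vl ((hv (Tan X x) S)ᵀ) = hat (Tan X x) Sᵀ := rfl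
    rw [vl_wv, vl_mul, vl_mul, vl_wv, e3, vl_hv, e1, hat_mul, hat_mul]
    calc hat (Tan X x) S * hat (Tan X x) (P x) * hat (Tan X x) Sᵀ *
          (hat (Tan X x) S * dl X P x * hat (Tan X x) Sᵀ *
            (hat (Tan X x) S * dl X P x * hat (Tan X x) Sᵀ)) *
        (hat (Tan X x) S * hat (Tan X x) (P x) * hat (Tan X x) Sᵀ)
        = hat (Tan X x) S * hat (Tan X x) (P x) * (hat (Tan X x) Sᵀ * hat (Tan X x) S) *
          dl X P x * (hat (Tan X x) Sᵀ * hat (Tan X x) S) * dl X P x *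
          (hat (Tan X x) Sᵀ * hat (Tan X x) S) * hat (Tan X x) (P x) * hat (Tan X x) Sᵀ := by
          simp only [Matrix.mul_assoc]
      _ = _ := by rw [hSS]; simp only [Matrix.mul_one, Matrix.mul_assoc]
  rw [e2, hv_mul, transpose_mul]
  have hSS' : (hv (Tan X x) S)ᵀ * hv (Tan X x) S = 1 := by
    refine vl_inj ?_
    have e3 : vl ((hv (Tan X x) S)ᵀ) = hat (Tan X x) Sᵀ := rfl
    rw [vl_mul, e3, vl_hv, hSS]
    exact (Matrix.map_one _ (map_zero _) (map_one _)).symm
  set w := wv (P x) (dl X P x) (invM_dl P x)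
  calc (hv (Tan X x) f)ᵀ * (hv (Tan X x) S)ᵀ * (hv (Tan X x) S * w * (hv (Tan X x) S)ᵀ) *
        (hv (Tan X x) S * hv (Tan X x) f)
      = (hv (Tan X x) f)ᵀ * ((hv (Tan X x) S)ᵀ * hv (Tan X x) S) * w
          * ((hv (Tan X x) S)ᵀ * hv (Tan X x) S) * hv (Tan X x) f := by
        simp only [Matrix.mul_assoc]
    _ = _ := by rw [hSS']; simp only [Matrix.mul_one, Matrix.mul_assoc]

/-- the Euler form on `X` only depends on the fields on `X` -/
theorem rs_ef_congr {P P' : E → Matrix n n ℂ} {W W' : E → (ι × Fin 2 → n) → ℂ} (hx : x ∈ X)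
    (h : SM 1 P x) (h' : SM 1 P' x) (hP : ∀ x ∈ X, P x = P' x) (hW : W x = W' x) :
    rs X x (ef P W x) = rs X x (ef P' W' x) := by
  rw [rs_ef, rs_ef]
  have e1 := dl_congr_gen (X := X) hx h h' hP
  have e2 : wv (P x) (dl X P x) (invM_dl P x) = wv (P' x) (dl X P' x) (invM_dl P' x) := by
    refine vl_inj ?_
    rw [vl_wv, vl_wv, hP x hx, e1]
  rw [e2, hW]

theorem rs_mono_zero {X' : Set E} (h : ∀ᶠ y in 𝓝 x, y ∈ X → y ∈ X') {c : CF E}
    (hc : rs X' x c = 0) : rs X x c = 0 := by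
  have hle : Tan X x ≤ Tan X' x := by
    refine Submodule.span_mono ?_
    rintro v ⟨γ, h0, hγ, hX⟩
    refine ⟨γ, h0, hγ, ?_⟩
    have h1 : Tendsto γ (𝓝 0) (𝓝 x) := by rw [← h0]; exact hγ.continuousAt
    filter_upwards [hX, h1.eventually h] with t h2 h3 using h3 h2
  have h1 : (Tan X x).subtype = (Tan X' x).subtype ∘ₗ Submodule.inclusion hle := by ext v; rfl
  rw [rs, h1, ← pbC_comp]
  rw [show pbC (Tan X' x).subtype c = rs X' x c from rfl, hc, map_zero]

end push

end Crest.Agent.R208.T
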