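import Crest.Agent.R208.CW6b
import Crest.Agent.R208.CW5c
import Crest.Agent.R208.TDefs
import Crest.Agent.R208.THB2
import Crest.Agent.R208.DEG2

-- ▼ part R208/CW8
section

/-! Row 208, block CW (helper586).  CW8: the Euler class of an orthogonal sum. -/

set_option autoImplicit false
set_option linter.unusedSectionVars false
set_option linter.unusedSimpArgs false
set_option linter.unusedVariables false

open scoped BigOperators ContDiff Topology RealInnerProductSpace
open Module Set Matrix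

noncomputable section

namespace Crest.Agent.R208.CW

open Crest.Agent.R208.F Crest.Agent.R208.FI

universe u

section alg
variable {R : Type*} [CommRing R] {A B n : Type*} [Fintype A] [DecidableEq A] [Fintype B]
  [DecidableEq B] [Fintype n] [DecidableEq n]

theorem sumAB_frame (f : Matrix n A R) (f' : Matrix n B R) (J : A ⊕ B → n) :
    ∑ σ : Equiv.Perm (A ⊕ B), ((Equiv.Perm.sign σ : ℤ) : R) *
      ((f.submatrix (fun a => J (σ (Sum.inl a))) id).det
        * (f'.submatrix (fun b => J (σ (Sum.inr b))) id).det)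
    = ((Fintype.card A).factorial * (Fintype.card B).factorial : ℕ)
        * ((Matrix.fromCols f f').submatrix J id).det := by
  have h1 : ∀ (α : Equiv.Perm A) (β : Equiv.Perm B),
      ∑ σ : Equiv.Perm (A ⊕ B), ((Equiv.Perm.sign σ : ℤ) : R) *
        ((((Equiv.Perm.sign α : ℤ) : R) * ∏ a, f (J (σ (Sum.inl (α a)))) a)
          * (((Equiv.Perm.sign β : ℤ) : R) * ∏ b, f' (J (σ (Sum.inr (β b)))) b))
      = ((Matrix.fromCols f f').submatrix J id).det := by
    intro α β
    rw [det_apply']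
    conv_rhs => rw [← Equiv.sum_comp (Equiv.mulRight (Equiv.Perm.sumCongr α β))]
    refine Finset.sum_congr rfl fun σ _ => ?_
    rw [Equiv.coe_mulRight, Fintype.prod_sum_type, map_mul, Equiv.Perm.sign_sumCongr]
    simp only [submatrix_apply, id_eq, fromCols_apply_inl, fromCols_apply_inr, Equiv.Perm.mul_apply,
      Equiv.Perm.sumCongr_apply, Sum.map_inl, Sum.map_inr, Units.val_mul, Int.cast_mul]
    ring
  have h2 : ∀ σ : Equiv.Perm (A ⊕ B), ((Equiv.Perm.sign σ : ℤ) : R) *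
      ((f.submatrix (fun a => J (σ (Sum.inl a))) id).det
        * (f'.submatrix (fun b => J (σ (Sum.inr b))) id).det)
      = ∑ α : Equiv.Perm A, ∑ β : Equiv.Perm B, ((Equiv.Perm.sign σ : ℤ) : R) *
        ((((Equiv.Perm.sign α : ℤ) : R) * ∏ a, f (J (σ (Sum.inl (α a)))) a)
          * (((Equiv.Perm.sign β : ℤ) : R) * ∏ b, f' (J (σ (Sum.inr (β b)))) b)) := by
    intro σ
    rw [det_apply', det_apply', Finset.sum_mul_sum, Finset.mul_sum]
    refine Finset.sum_congr rfl fun α _ => ?_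
    rw [Finset.mul_sum]
    rfl
  simp only [h2]
  rw [Finset.sum_comm]
  have h3 : ∀ α : Equiv.Perm A, ∑ σ : Equiv.Perm (A ⊕ B), ∑ β : Equiv.Perm B,
      ((Equiv.Perm.sign σ : ℤ) : R) *
        ((((Equiv.Perm.sign α : ℤ) : R) * ∏ a, f (J (σ (Sum.inl (α a)))) a)
          * (((Equiv.Perm.sign β : ℤ) : R) * ∏ b, f' (J (σ (Sum.inr (β b)))) b))
      = (Fintype.card B).factorial * ((Matrix.fromCols f f').submatrix J id).det := by
    intro α
    rw [Finset.sum_comm]
    simp only [h1, Finset.sum_const, Finset.card_univ, Fintype.card_perm, nsmul_eq_mul]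
  simp only [h3, Finset.sum_const, Finset.card_univ, Fintype.card_perm, nsmul_eq_mul]
  push_cast
  ring

end alg

section ten
variable {R : Type*} [Field R] [CharZero R] {ι ι' n m : Type*} [Fintype ι] [DecidableEq ι]
  [Fintype ι'] [DecidableEq ι'] [Fintype n] [DecidableEq n] [Fintype m] [DecidableEq m]

/-- the orientation tensor of a direct sum -/
def sumT (W : (ι × Fin 2 → n) → R) (W' : (ι' × Fin 2 → n) → R) (I : (ι ⊕ ι') × Fin 2 → n) : R :=
  (((Fintype.card (ι × Fin 2)).factorial * (Fintype.card (ι' × Fin 2)).factorial : ℕ) : R)⁻¹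
    * ∑ σ : Equiv.Perm (ι × Fin 2 ⊕ ι' × Fin 2), ((Equiv.Perm.sign σ : ℤ) : R) *
      (W (fun a => I ((Equiv.sumProdDistrib ι ι' (Fin 2)).symm (σ (Sum.inl a))))
        * W' (fun b => I ((Equiv.sumProdDistrib ι ι' (Fin 2)).symm (σ (Sum.inr b)))))

/-- the frame of a direct sum -/
def sumF {R : Type*} (f : Matrix n (ι × Fin 2) R) (f' : Matrix n (ι' × Fin 2) R) :
    Matrix n ((ι ⊕ ι') × Fin 2) R :=
  (Matrix.fromCols f f').submatrix id (Equiv.sumProdDistrib ι ι' (Fin 2))

theorem sumT_frame {f : Matrix n (ι × Fin 2) R} {f' : Matrix n (ι' × Fin 2) R}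
    {W : (ι × Fin 2 → n) → R} {W' : (ι' × Fin 2 → n) → R}
    (h : ∀ I, W I = (f.submatrix I id).det) (h' : ∀ I, W' I = (f'.submatrix I id).det)
    (I : (ι ⊕ ι') × Fin 2 → n) : sumT W W' I = ((sumF f f').submatrix I id).det := by
  have h1 := sumAB_frame f f' (fun s => I ((Equiv.sumProdDistrib ι ι' (Fin 2)).symm s))
  rw [sumT]
  simp only [h, h', h1]
  rw [← mul_assoc, inv_mul_cancel₀, one_mul]
  · have : (sumF f f').submatrix I id
        = ((Matrix.fromCols f f').submatrix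
          (fun s => I ((Equiv.sumProdDistrib ι ι' (Fin 2)).symm s)) id).submatrix
          (Equiv.sumProdDistrib ι ι' (Fin 2)) (Equiv.sumProdDistrib ι ι' (Fin 2)) := by
      refine Matrix.ext fun i j => ?_
      simp only [sumF, submatrix_apply, id_eq, Equiv.symm_apply_apply]
    rw [this, det_submatrix_equiv_self]
  · exact_mod_cast Nat.mul_ne_zero (Nat.factorial_ne_zero _) (Nat.factorial_ne_zero _)

theorem sumF_mul_tr {R : Type*} [CommRing R] (f : Matrix n (ι × Fin 2) R)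
    (f' : Matrix n (ι' × Fin 2) R) (g : Matrix m (ι × Fin 2) R) (g' : Matrix m (ι' × Fin 2) R) :
    sumF f f' * (sumF g g')ᵀ = f * gᵀ + f' * g'ᵀ := by
  have h1 : sumF f f' * (sumF g g')ᵀ
      = (Matrix.fromCols f f') * (Matrix.fromCols g g')ᵀ := by
    rw [sumF, sumF, transpose_submatrix, submatrix_mul_equiv]
    rfl
  rw [h1, transpose_fromCols, fromCols_mul_fromRows]

theorem tr_sumF_mul {R : Type*} [CommRing R] (f : Matrix n (ι × Fin 2) R)
    (f' : Matrix n (ι' × Fin 2) R) (M : Matrix n n R) :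
    (sumF f f')ᵀ * M * sumF f f'
      = (Matrix.fromBlocks (fᵀ * M * f) (fᵀ * M * f') (f'ᵀ * M * f) (f'ᵀ * M * f')).submatrix
        (Equiv.sumProdDistrib ι ι' (Fin 2)) (Equiv.sumProdDistrib ι ι' (Fin 2)) := by
  have h1 : (sumF f f')ᵀ * M * sumF f f'
      = ((Matrix.fromCols f f')ᵀ * M * Matrix.fromCols f f').submatrix
        (Equiv.sumProdDistrib ι ι' (Fin 2)) (Equiv.sumProdDistrib ι ι' (Fin 2)) := by
    refine Matrix.ext fun i j => ?_
    simp only [sumF, Matrix.mul_apply, submatrix_apply, transpose_apply, id_eq]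
  rw [h1, transpose_fromCols, fromRows_mul, fromRows_mul_fromCols]

theorem mul_sumF {R : Type*} [CommRing R] (S : Matrix m n R) (f : Matrix n (ι × Fin 2) R)
    (f' : Matrix n (ι' × Fin 2) R) : S * sumF f f' = sumF (S * f) (S * f') := by
  refine Matrix.ext fun i j => ?_
  obtain ⟨s, c⟩ := j
  rcases s with s | s
  · rw [Matrix.mul_apply]; rfl
  · rw [Matrix.mul_apply]; rfl

end ten

section fr
variable {ι ι' n m n' : Type*} [Fintype ι] [DecidableEq ι]
  [Fintype ι'] [DecidableEq ι'] [Fintype n] [DecidableEq n] [Fintype m] [DecidableEq m]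
  [Fintype n'] [DecidableEq n']

theorem frame_orth {P P' : Matrix n n ℂ} {f : Matrix n (ι × Fin 2) ℂ} {f' : Matrix n (ι' × Fin 2) ℂ}
    (h1 : fᵀ * f = 1) (h2 : f * fᵀ = P) (h1' : f'ᵀ * f' = 1) (h2' : f' * f'ᵀ = P')
    (h0 : P * P' = 0) : fᵀ * f' = 0 := by
  have e1 : fᵀ * P = fᵀ := by rw [← h2, ← Matrix.mul_assoc, h1, Matrix.one_mul]
  have e2 : P' * f' = f' := by rw [← h2', Matrix.mul_assoc, h1', Matrix.mul_one]
  calc fᵀ * f' = fᵀ * P * (P' * f') := by rw [e1, e2]
    _ = fᵀ * (P * P') * f' := by simp only [Matrix.mul_assoc]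
    _ = 0 := by rw [h0, Matrix.mul_zero, Matrix.zero_mul]

theorem Fr.add {P P' : Matrix n n ℂ} {W : (ι × Fin 2 → n) → ℂ} {W' : (ι' × Fin 2 → n) → ℂ}
    (h : Fr P W) (h' : Fr P' W') (h0 : P * P' = 0) : Fr (P + P') (sumT W W') := by
  obtain ⟨f, h1, h2, h3⟩ := h
  obtain ⟨f', h1', h2', h3'⟩ := h'
  have e := frame_orth h1 h2 h1' h2' h0
  have e' : f'ᵀ * f = 0 := by
    have := congrArg Matrix.transpose e
    rwa [transpose_mul, transpose_transpose, transpose_zero] at this
  refine ⟨sumF f f', ?_, ?_, sumT_frame h3 h3'⟩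
  · have := tr_sumF_mul f f' (1 : Matrix n n ℂ)
    rw [Matrix.mul_one] at this
    rw [this]
    simp only [Matrix.mul_one, h1, h1', e, e', fromBlocks_one, submatrix_one_equiv]
  · rw [sumF_mul_tr, h2, h2']

theorem Fr.tr {P : Matrix n n ℂ} {W : (ι × Fin 2 → n) → ℂ} (h : Fr P W) : Pᵀ = P := by
  obtain ⟨f, h1, h2, h3⟩ := h
  rw [← h2, transpose_mul, transpose_transpose]

theorem push_sumT (S : Matrix m n ℂ) {P P' : Matrix n n ℂ} {W : (ι × Fin 2 → n) → ℂ}
    {W' : (ι' × Fin 2 → n) → ℂ} (h : Fr P W) (h' : Fr P' W') :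
    pushW S (sumT W W') = sumT (pushW S W) (pushW S W') := by
  obtain ⟨f, h1, h2, h3⟩ := h
  obtain ⟨f', h1', h2', h3'⟩ := h'
  funext J
  rw [pushW_frame S (sumF f f') (sumT_frame h3 h3'), mul_sumF,
    sumT_frame (pushW_frame S f h3) (pushW_frame S f' h3')]

theorem pushW_congr {S S' : Matrix m n ℂ} {P : Matrix n n ℂ} {W : (ι × Fin 2 → n) → ℂ}
    (h : Fr P W) (hS : S * P = S' * P) : pushW S W = pushW S' W := by
  obtain ⟨f, h1, h2, h3⟩ := h
  have e : P * f = f := by rw [← h2, Matrix.mul_assoc, h1, Matrix.mul_one]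
  funext J
  rw [pushW_frame S f h3, pushW_frame S' f h3, ← e, ← Matrix.mul_assoc, hS, Matrix.mul_assoc]

end fr

section field
variable {E : Type*} [NormedAddCommGroup E] [NormedSpace ℝ E] [FiniteDimensional ℝ E]
  {ι ι' n m n' : Type*} [Fintype ι] [DecidableEq ι]
  [Fintype ι'] [DecidableEq ι'] [Fintype n] [DecidableEq n] [Fintype m] [DecidableEq m]
  [Fintype n'] [DecidableEq n'] {x : E} {X : Set E}

theorem contDiffAt_sumT {G : Type*} [NormedAddCommGroup G] [NormedSpace ℝ G] {x : G}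
    {k : WithTop ℕ∞} {W : G → (ι × Fin 2 → n) → ℂ} {W' : G → (ι' × Fin 2 → n) → ℂ}
    (hW : ∀ I, ContDiffAt ℝ k (fun y => W y I) x) (hW' : ∀ I, ContDiffAt ℝ k (fun y => W' y I) x)
    (I : (ι ⊕ ι') × Fin 2 → n) : ContDiffAt ℝ k (fun y => sumT (W y) (W' y) I) x :=
  contDiffAt_const.mul (ContDiffAt.sum fun σ _ => contDiffAt_const.mul ((hW _).mul (hW' _)))

theorem OF.add {P P' : E → Matrix n n ℂ} {W : E → (ι × Fin 2 → n) → ℂ}
    {W' : E → (ι' × Fin 2 → n) → ℂ} (h : OF X P W) (h' : OF X P' W')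
    (h0 : ∀ x ∈ X, P x * P' x = 0) :
    OF X (fun x => P x + P' x) (fun x => sumT (W x) (W' x)) :=
  ⟨fun x hx => (h.sP x hx).add (h'.sP x hx),
    fun x hx => contDiffAt_sumT (h.sW x hx) (h'.sW x hx),
    fun x hx => (h.fr x hx).add (h'.fr x hx) (h0 x hx)⟩

theorem mac1 {R a b l : Type*} [Ring R] [Fintype a] [Fintype b] [Fintype l] [DecidableEq a]
    {A : Matrix a b R} {B : Matrix b a R} (h : A * B = 1) (M : Matrix a l R) :
    A * (B * M) = M := by rw [← Matrix.mul_assoc, h, Matrix.one_mul]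

theorem mac0 {R a b c l : Type*} [Ring R] [Fintype a] [Fintype b] [Fintype c] [Fintype l]
    {A : Matrix a b R} {B : Matrix b c R} (h : A * B = 0) (M : Matrix c l R) :
    A * (B * M) = 0 := by rw [← Matrix.mul_assoc, h, Matrix.zero_mul]

section pw
variable {V : Type*} [AddCommGroup V] [Module ℝ V]

theorem hv_tr_mul (S : Matrix m n ℂ) (S' : Matrix m n' ℂ) (h : Sᵀ * S' = 0) :
    (hv V S)ᵀ * hv V S' = 0 := by
  refine vl_inj ?_
  have e3 : vl ((hv V S)ᵀ) = hat V Sᵀ := rfl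
  rw [vl_mul, e3, vl_hv, ← hat_mul, h, hat_zero]
  exact (Matrix.map_zero _ (map_zero _)).symm

theorem hv_tr_mul_one (S : Matrix m n ℂ) (h : Sᵀ * S = 1) : (hv V S)ᵀ * hv V S = 1 := by
  refine vl_inj ?_
  have e3 : vl ((hv V S)ᵀ) = hat V Sᵀ := rfl
  rw [vl_mul, e3, vl_hv, ← hat_mul, h, hat_one]
  exact (Matrix.map_one _ (map_zero _) (map_one _)).symm

theorem wv_block {P : Matrix n n ℂ} {P' : Matrix n' n' ℂ} {δ : Matrix n n (CF V)}
    {δ' : Matrix n' n' (CF V)} {D : Matrix m m (CF V)} (hδ : _) (hδ' : _) (hD : _)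
    {S : Matrix m n ℂ} {S' : Matrix m n' ℂ} (hS : Sᵀ * S = 1) (hS' : S'ᵀ * S' = 1)
    (hSS : Sᵀ * S' = 0) (hSS' : S'ᵀ * S = 0)
    (e : D = hat V S * δ * hat V Sᵀ + hat V S' * δ' * hat V S'ᵀ) :
    wv (S * P * Sᵀ + S' * P' * S'ᵀ) D hD
      = hv V S * wv P δ hδ * (hv V S)ᵀ + hv V S' * wv P' δ' hδ' * (hv V S')ᵀ := by
  have a1 : hat V Sᵀ * hat V S = 1 := by rw [← hat_mul, hS, hat_one]
  have a2 : hat V S'ᵀ * hat V S' = 1 := by rw [← hat_mul, hS', hat_one]
  have a3 : hat V Sᵀ * hat V S' = 0 := by rw [← hat_mul, hSS, hat_zero]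
  have a4 : hat V S'ᵀ * hat V S = 0 := by rw [← hat_mul, hSS', hat_zero]
  refine vl_inj ?_
  have e3 : vl ((hv V S)ᵀ) = hat V Sᵀ := rfl
  have e3' : vl ((hv V S')ᵀ) = hat V S'ᵀ := rfl
  have e4 : ∀ M N : Matrix m m (EvC V), vl (M + N) = vl M + vl N := fun M N => rfl
  rw [vl_wv, e4, vl_mul, vl_mul, vl_mul, vl_mul, vl_wv, vl_wv, e3, e3', vl_hv, vl_hv,
    e, hat_add, hat_mul, hat_mul, hat_mul, hat_mul]
  simp only [Matrix.mul_add, Matrix.add_mul, Matrix.mul_assoc, mac1 a1, mac1 a2, mac0 a3, mac0 a4,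
    Matrix.mul_zero, add_zero, zero_add]

theorem pfS_block (f : Matrix n (ι × Fin 2) ℂ) (f' : Matrix n' (ι' × Fin 2) ℂ)
    {w : Matrix n n (EvC V)} {w' : Matrix n' n' (EvC V)}
    {S : Matrix m n ℂ} {S' : Matrix m n' ℂ} (hS : Sᵀ * S = 1) (hS' : S'ᵀ * S' = 1)
    (hSS : Sᵀ * S' = 0) (hSS' : S'ᵀ * S = 0) :
    PF.pfS ((hv V (sumF (S * f) (S' * f')))ᵀ * (hv V S * w * (hv V S)ᵀ + hv V S' * w' * (hv V S')ᵀ)
        * hv V (sumF (S * f) (S' * f')))
      = ((Fintype.card ι + Fintype.card ι').choose (Fintype.card ι) : ℕ)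
        * (PF.pfS ((hv V f)ᵀ * w * hv V f) * PF.pfS ((hv V f')ᵀ * w' * hv V f')) := by
  have c1 := hv_tr_mul_one (V := V) S hS
  have c2 := hv_tr_mul_one (V := V) S' hS'
  have c3 := hv_tr_mul (V := V) S S' hSS
  have c4 := hv_tr_mul (V := V) S' S hSS'
  have g1 : hv V (sumF (S * f) (S' * f')) = sumF (hv V S * hv V f) (hv V S' * hv V f') := by
    rw [← hv_mul, ← hv_mul]
    refine Matrix.ext fun i j => ?_
    obtain ⟨s, c⟩ := j
    rcases s with s | s <;> rfl
  have g2 : (hv V (sumF (S * f) (S' * f')))ᵀ * (hv V S * w * (hv V S)ᵀ + hv V S' * w' * (hv V S')ᵀ)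
        * hv V (sumF (S * f) (S' * f'))
      = PF.blockD ((hv V f)ᵀ * w * hv V f) ((hv V f')ᵀ * w' * hv V f') := by
    rw [g1, tr_sumF_mul, PF.blockD]
    simp only [transpose_mul, Matrix.mul_add, Matrix.add_mul, Matrix.mul_assoc, mac1 c1, mac1 c2,
      mac0 c3, mac0 c4, c3, c4, Matrix.mul_zero, add_zero, zero_add]
  rw [g2, PF.pfS_blockD]

end pw

/-- the direct sum pushed to orthogonal subspaces -/
theorem rs_ef_block {P : E → Matrix n n ℂ} {W : E → (ι × Fin 2 → n) → ℂ} (h : OF X P W)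
    {P' : E → Matrix n' n' ℂ} {W' : E → (ι' × Fin 2 → n') → ℂ} (h' : OF X P' W')
    {S : Matrix m n ℂ} {S' : Matrix m n' ℂ} (hS : Sᵀ * S = 1) (hS' : S'ᵀ * S' = 1)
    (hSS : Sᵀ * S' = 0) (hx : x ∈ X) :
    rs X x (ef (fun x => S * P x * Sᵀ + S' * P' x * S'ᵀ)
        (fun x => sumT (pushW S (W x)) (pushW S' (W' x))) x)
      = ((Fintype.card ι + Fintype.card ι').choose (Fintype.card ι) : ℕ)
        * (rs X x (ef P W x) * rs X x (ef P' W' x)) := by
  obtain ⟨f, h1, h2, h3⟩ := h.fr x hx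
  obtain ⟨f', h1', h2', h3'⟩ := h'.fr x hx
  have hSS' : S'ᵀ * S = 0 := by
    have := congrArg Matrix.transpose hSS
    rwa [transpose_mul, transpose_transpose, transpose_zero] at this
  have e1 : dl X (fun x => S * P x * Sᵀ + S' * P' x * S'ᵀ) x
      = hat (Tan X x) S * dl X P x * hat (Tan X x) Sᵀ
        + hat (Tan X x) S' * dl X P' x * hat (Tan X x) S'ᵀ := by
    have hSc : SM 1 (fun _ : E => S) x := SM.const S
    have hSc' : SM 1 (fun _ : E => Sᵀ) x := SM.const _
    have hTc : SM 1 (fun _ : E => S') x := SM.const S'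
    have hTc' : SM 1 (fun _ : E => S'ᵀ) x := SM.const _
    rw [dl_add ((hSc.mul (h.idF.s1 hx)).mul hSc') ((hTc.mul (h'.idF.s1 hx)).mul hTc'),
      dl_mul (hSc.mul (h.idF.s1 hx)) hSc', dl_mul hSc (h.idF.s1 hx),
      dl_mul (hTc.mul (h'.idF.s1 hx)) hTc', dl_mul hTc (h'.idF.s1 hx)]
    simp only [dl_const, Matrix.zero_mul, zero_add, Matrix.mul_zero, add_zero]
  rw [rs_ef, rs_ef, rs_ef, eu_frame h3, eu_frame h3',
    eu_frame (sumT_frame (pushW_frame S f h3) (pushW_frame S' f' h3')),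
    wv_block (invM_dl P x) (invM_dl P' x) (invM_dl _ x) hS hS' hSS hSS' e1,
    pfS_block f f' hS hS' hSS hSS']
  rfl

end field

end Crest.Agent.R208.CW
end
end

-- ▼ part R208/CW8b

/-! Row 208, block CW (helper586).  CW8b: the Euler class of an orthogonal sum, as classes in
`H X`, for `OF`, `OFR` and `T.OR`. -/

set_option autoImplicit false
set_option linter.unusedSectionVars false
set_option linter.unusedSimpArgs false
set_option linter.unusedVariables false

open scoped BigOperators ContDiff Topology RealInnerProductSpace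
open Module Set Matrix

noncomputable section

namespace Crest.Agent.R208.CW

open Crest.Agent.R208.F Crest.Agent.R208.FI

universe u

section field
variable {E : Type*} [NormedAddCommGroup E] [NormedSpace ℝ E] [FiniteDimensional ℝ E]
  {ι ι' n m n' : Type*} [Fintype ι] [DecidableEq ι]
  [Fintype ι'] [DecidableEq ι'] [Fintype n] [DecidableEq n] [Fintype m] [DecidableEq m]
  [Fintype n'] [DecidableEq n'] {x : E} {X : Set E}

theorem OF.const_push {P : E → Matrix n n ℂ} {W : E → (ι × Fin 2 → n) → ℂ} (h : OF X P W)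
    {S : Matrix m n ℂ} (hS : Sᵀ * S = 1) :
    OF X (fun x => S * P x * Sᵀ) (fun x => pushW S (W x)) :=
  h.push (S := fun _ => S) (fun x _ => SM.const _) fun x hx => by
    rw [hS, Matrix.mul_one, h.idF.idem x hx]

/-- **the Euler class of a direct sum** (constant orthogonal ambient spaces) -/
theorem ec_block {P : E → Matrix n n ℂ} {W : E → (ι × Fin 2 → n) → ℂ} (h : OF X P W)
    {P' : E → Matrix n' n' ℂ} {W' : E → (ι' × Fin 2 → n') → ℂ} (h' : OF X P' W')
    {S : Matrix m n ℂ} {S' : Matrix m n' ℂ} (hS : Sᵀ * S = 1) (hS' : S'ᵀ * S' = 1)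
    (hSS : Sᵀ * S' = 0)
    (h'' : OF X (fun x => S * P x * Sᵀ + S' * P' x * S'ᵀ)
        (fun x => sumT (pushW S (W x)) (pushW S' (W' x)))) :
    ec h'' = ((Fintype.card ι + Fintype.card ι').choose (Fintype.card ι) : ℕ)
        * (ec h * ec h') := by
  have e1 : (((Fintype.card ι + Fintype.card ι').choose (Fintype.card ι) : ℕ) : H X)
      * (ec h * ec h') = (((Fintype.card ι + Fintype.card ι').choose (Fintype.card ι) : ℕ) : ℂ)
        • (ec h * ec h') := by
    rw [Algebra.smul_def, map_natCast]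
  rw [e1, ec, ec, ec, ← cls_mul, ← cls_smul]
  refine cls_congr fun x hx => ?_
  rw [rs_ef_block h h' hS hS' hSS hx]
  change _ = rs X x ((((Fintype.card ι + Fintype.card ι').choose (Fintype.card ι) : ℕ) : ℂ)
    • (ef P W x * ef P' W' x))
  rw [Algebra.smul_def, map_natCast, map_mul, map_mul, map_natCast]

/-- **the Euler class of an orthogonal sum** -/
theorem ec_add {P P' : E → Matrix n n ℂ} {W : E → (ι × Fin 2 → n) → ℂ}
    {W' : E → (ι' × Fin 2 → n) → ℂ} (h : OF X P W) (h' : OF X P' W')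
    (h0 : ∀ x ∈ X, P x * P' x = 0)
    (hs : OF X (fun x => P x + P' x) (fun x => sumT (W x) (W' x))) :
    ec hs = ((Fintype.card ι + Fintype.card ι').choose (Fintype.card ι) : ℕ)
        * (ec h * ec h') := by
  have hT : ∀ x ∈ X, (P x)ᵀ = P x := fun x hx => (h.fr x hx).tr
  have hT' : ∀ x ∈ X, (P' x)ᵀ = P' x := fun x hx => (h'.fr x hx).tr
  have h0' : ∀ x ∈ X, P' x * P x = 0 := fun x hx => by
    have := congrArg Matrix.transpose (h0 x hx)
    rwa [transpose_mul, hT x hx, hT' x hx, transpose_zero] at this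
  have hi1 := h.idF.idem
  have hi2 := h'.idF.idem
  have hSm : ∀ x ∈ X, SM ∞ (fun x => Matrix.fromRows (P x) (P' x)) x := fun x hx => by
    rintro (i | i) j
    · exact h.sP x hx i j
    · exact h'.sP x hx i j
  have hi : ∀ x ∈ X, (P x + P' x) * ((Matrix.fromRows (P x) (P' x))ᵀ
      * Matrix.fromRows (P x) (P' x)) * (P x + P' x) = P x + P' x := fun x hx => by
    rw [transpose_fromRows, fromCols_mul_fromRows, hT x hx, hT' x hx, hi1 x hx, hi2 x hx]
    simp only [Matrix.mul_add, Matrix.add_mul, h0 x hx, h0' x hx, hi1 x hx, hi2 x hx, add_zero,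
      zero_add]
  have hp := hs.push hSm hi
  rw [← ec_iso hs hSm hi hp]
  have g1 : (Matrix.fromRows 1 0 : Matrix (n ⊕ n) n ℂ)ᵀ * (Matrix.fromRows 1 0 : Matrix (n ⊕ n) n ℂ) = 1 := by
    rw [transpose_fromRows, fromCols_mul_fromRows]; simp
  have g2 : (Matrix.fromRows 0 1 : Matrix (n ⊕ n) n ℂ)ᵀ * (Matrix.fromRows 0 1 : Matrix (n ⊕ n) n ℂ) = 1 := by
    rw [transpose_fromRows, fromCols_mul_fromRows]; simp
  have g3 : (Matrix.fromRows 1 0 : Matrix (n ⊕ n) n ℂ)ᵀ * (Matrix.fromRows 0 1 : Matrix (n ⊕ n) n ℂ) = 0 := by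
    rw [transpose_fromRows, fromCols_mul_fromRows]; simp
  have hb : OF X (fun x => (Matrix.fromRows 1 0 : Matrix (n ⊕ n) n ℂ) * P x
        * (Matrix.fromRows 1 0 : Matrix (n ⊕ n) n ℂ)ᵀ
      + (Matrix.fromRows 0 1 : Matrix (n ⊕ n) n ℂ) * P' x
        * (Matrix.fromRows 0 1 : Matrix (n ⊕ n) n ℂ)ᵀ)
      (fun x => sumT (pushW (Matrix.fromRows 1 0) (W x)) (pushW (Matrix.fromRows 0 1) (W' x))) := by
    refine (h.const_push g1).add (h'.const_push g2) fun x hx => ?_
    calc (Matrix.fromRows 1 0 : Matrix (n ⊕ n) n ℂ) * P x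
          * (Matrix.fromRows 1 0 : Matrix (n ⊕ n) n ℂ)ᵀ
          * ((Matrix.fromRows 0 1 : Matrix (n ⊕ n) n ℂ) * P' x
            * (Matrix.fromRows 0 1 : Matrix (n ⊕ n) n ℂ)ᵀ)
        = (Matrix.fromRows 1 0 : Matrix (n ⊕ n) n ℂ) * P x
          * ((Matrix.fromRows 1 0 : Matrix (n ⊕ n) n ℂ)ᵀ * (Matrix.fromRows 0 1 : Matrix (n ⊕ n) n ℂ)) * P' x
            * (Matrix.fromRows 0 1 : Matrix (n ⊕ n) n ℂ)ᵀ := by simp only [Matrix.mul_assoc]
      _ = 0 := by rw [g3, Matrix.mul_zero, Matrix.zero_mul, Matrix.zero_mul]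
  rw [← ec_block h h' g1 g2 g3 hb]
  refine ec_congr _ _ (fun x hx => ?_) (fun x hx => ?_)
  · rw [transpose_fromRows, fromRows_mul, fromRows_mul_fromCols, transpose_fromRows,
      transpose_fromRows, fromRows_mul, fromRows_mul_fromCols, fromRows_mul, fromRows_mul_fromCols,
      fromBlocks_add, hT x hx, hT' x hx]
    simp only [Matrix.mul_add, Matrix.add_mul, h0 x hx, h0' x hx, hi1 x hx, hi2 x hx, add_zero,
      zero_add, Matrix.one_mul, Matrix.mul_one, Matrix.zero_mul, Matrix.mul_zero, transpose_one,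
      transpose_zero]
  · have q1 : Matrix.fromRows (P x) (P' x) * P x = (Matrix.fromRows 1 0 : Matrix (n ⊕ n) n ℂ) * P x := by
      rw [fromRows_mul, fromRows_mul, hi1 x hx, h0' x hx, Matrix.one_mul, Matrix.zero_mul]
    have q2 : Matrix.fromRows (P x) (P' x) * P' x = (Matrix.fromRows 0 1 : Matrix (n ⊕ n) n ℂ) * P' x := by
      rw [fromRows_mul, fromRows_mul, hi2 x hx, h0 x hx, Matrix.one_mul, Matrix.zero_mul]
    rw [push_sumT _ (h.fr x hx) (h'.fr x hx), pushW_congr (h.fr x hx) q1,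
      pushW_congr (h'.fr x hx) q2]

end field

section ofr
variable {H : Type*} [NormedAddCommGroup H] [InnerProductSpace ℝ H] [FiniteDimensional ℝ H]
  {ι ι' n : Type*} [Fintype ι] [DecidableEq ι] [Fintype ι'] [DecidableEq ι'] [Fintype n]
  [DecidableEq n]

theorem FrR.add {b : OrthonormalBasis n ℝ H} {P P' : H →L[ℝ] H} {w : TW (ι × Fin 2) n}
    {w' : TW (ι' × Fin 2) n} (h : FrR b P w) (h' : FrR b P' w') (h0 : ∀ v, P (P' v) = 0) :
    FrR b (P + P') (sumT w w') := by
  obtain ⟨f, h1, h2, rfl⟩ := h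
  obtain ⟨f', h1', h2', rfl⟩ := h'
  have hf' : ∀ p, P' (f' p) = f' p := fun p => by
    rw [h2', Finset.sum_eq_single p]
    · rw [real_inner_self_eq_norm_sq, h1'.1 p, one_pow, one_smul]
    · intro q _ hq; rw [h1'.2 hq, zero_smul]
    · intro hp; exact absurd (Finset.mem_univ _) hp
  have ho : ∀ p q, ⟪f p, f' q⟫ = 0 := fun p q => by
    have e := h0 (f' q)
    rw [hf', h2] at e
    have e2 := congrArg (fun v => ⟪f p, v⟫) e
    simp only [inner_zero_right, inner_sum, inner_smul_right] at e2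
    rw [Finset.sum_eq_single p] at e2
    · rwa [real_inner_self_eq_norm_sq, h1.1 p, one_pow, mul_one] at e2
    · intro s _ hs; rw [h1.2 hs.symm, mul_zero]
    · intro hp; exact absurd (Finset.mem_univ _) hp
  set e := Equiv.sumProdDistrib ι ι' (Fin 2) with he
  refine ⟨fun p => Sum.elim f f' (e p), ?_, fun v => ?_, ?_⟩
  · have : Orthonormal ℝ (Sum.elim f f') := by
      rw [orthonormal_iff_ite]
      rintro (p | p) (q | q)
      · simp only [Sum.elim_inl, (orthonormal_iff_ite.1 h1) p q, Sum.inl.injEq]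
      · simp only [Sum.elim_inl, Sum.elim_inr, ho, reduceCtorEq, if_false]
      · simp only [Sum.elim_inl, Sum.elim_inr, real_inner_comm, ho, reduceCtorEq, if_false]
      · simp only [Sum.elim_inr, (orthonormal_iff_ite.1 h1') p q, Sum.inr.injEq]
    exact this.comp e e.injective
  · rw [Equiv.sum_comp e (fun s => ⟪Sum.elim f f' s, v⟫ • Sum.elim f f' s), Fintype.sum_sum_type]
    simp only [Sum.elim_inl, Sum.elim_inr]
    rw [← h2, ← h2']
    rfl
  · funext I
    have e5 := sumT_frame (W := tn b f) (W' := tn b f') (f := Matrix.of fun a p => ⟪b a, f p⟫)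
      (f' := Matrix.of fun a p => ⟪b a, f' p⟫) (fun I => rfl) (fun I => rfl) I
    rw [e5, tn]
    congr 1
    refine Matrix.ext fun p q => ?_
    simp only [of_apply, sumF, submatrix_apply, id_eq]
    rcases e q with s | s
    · rfl
    · rfl

theorem cW_sumT (w : TW (ι × Fin 2) n) (w' : TW (ι' × Fin 2) n) :
    cW (sumT w w') = sumT (cW w) (cW w') := by
  funext I
  simp only [cW, sumT]
  push_cast
  rfl

variable {E : Type u} [NormedAddCommGroup E] [NormedSpace ℝ E] [FiniteDimensional ℝ E]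
  {X : Set E} {b : OrthonormalBasis n ℝ H} {P P' : E → H →L[ℝ] H} {w : E → TW (ι × Fin 2) n}
  {w' : E → TW (ι' × Fin 2) n}

theorem OFR.add (h : OFR b X P w) (h' : OFR b X P' w') (h0 : ∀ x ∈ X, ∀ v, P x (P' x v) = 0) :
    OFR b X (fun x => P x + P' x) (fun x => sumT (w x) (w' x)) :=
  ⟨fun x hx => (h.sP x hx).add (h'.sP x hx), fun x hx => contDiffAt_pi.2 fun I =>
    contDiffAt_const.mul (ContDiffAt.sum fun σ _ =>
      contDiffAt_const.mul ((contDiffAt_pi.1 (h.sW x hx) _).mul (contDiffAt_pi.1 (h'.sW x hx) _))),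
    fun x hx => (h.fr x hx).add (h'.fr x hx) (h0 x hx)⟩

theorem cM_add (P P' : H →L[ℝ] H) : cM b (P + P') = cM b P + cM b P' := by
  refine Matrix.ext fun i j => ?_
  rw [Matrix.add_apply]
  simp only [cM_apply, _root_.add_apply, inner_add_right]
  push_cast
  rfl

/-- **the Euler class of an orthogonal sum**, for `OFR` -/
theorem OFR.ec_add (h : OFR b X P w) (h' : OFR b X P' w')
    (h0 : ∀ x ∈ X, ∀ v, P x (P' x v) = 0)
    (hs : OFR b X (fun x => P x + P' x) (fun x => sumT (w x) (w' x))) :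
    ec hs.of = ((Fintype.card ι + Fintype.card ι').choose (Fintype.card ι) : ℕ)
        * (ec h.of * ec h'.of) := by
  have hz : ∀ x ∈ X, cM b (P x) * cM b (P' x) = 0 := fun x hx => by
    refine Matrix.ext fun i j => ?_
    rw [Matrix.mul_apply, Matrix.zero_apply]
    have e := congrArg (fun v => ((⟪b i, v⟫ : ℝ) : ℂ)) (h0 x hx (b j))
    simp only [inner_zero_right, Complex.ofReal_zero] at e
    rw [← e]
    conv_rhs => rw [← b.sum_repr' (P' x (b j))]
    rw [map_sum, inner_sum]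
    push_cast
    refine Finset.sum_congr rfl fun k _ => ?_
    rw [cM_apply, cM_apply, map_smul, inner_smul_right]
    push_cast
    ring
  have hs' : OF X (fun x => cM b (P x) + cM b (P' x)) (fun x => sumT (cW (w x)) (cW (w' x))) :=
    h.of.add h'.of hz
  rw [← CW.ec_add h.of h'.of hz hs']
  exact ec_congr _ _ (fun x _ => cM_add _ _) (fun x _ => cW_sumT (w x) (w' x))

end ofr

end Crest.Agent.R208.CW

namespace Crest.Agent.R208.T

open Crest.Agent.R208.F Crest.Agent.R208.FI Crest.Agent.R208.CW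

section OR
variable {E : Type*} [NormedAddCommGroup E] [NormedSpace ℝ E] [FiniteDimensional ℝ E]
  {ι ι' n : Type*} [Fintype ι] [DecidableEq ι] [Fintype ι'] [DecidableEq ι'] [Fintype n]
  [DecidableEq n] {x : E} {X : Set E}
  {P : E → EuclideanSpace ℝ n →L[ℝ] EuclideanSpace ℝ n} {W : E → (ι × Fin 2 → n) → ℝ}
  {P' : E → EuclideanSpace ℝ n →L[ℝ] EuclideanSpace ℝ n} {W' : E → (ι' × Fin 2 → n) → ℝ}

theorem isRe_ef (P : E → EuclideanSpace ℝ n →L[ℝ] EuclideanSpace ℝ n)
    (W : E → (ι × Fin 2 → n) → ℝ) (x : E) :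
    ef (fun y => mtx (P y)) (wC W) x = Cx.ofR (eR P W x) :=
  (IsRe_ef (fun y i j => Complex.ofReal_im _) fun I => Complex.ofReal_im _).eq

theorem OR.ef_mem (h : OR X P W) : mkF (eR P W) 0 ∈ Z X := by
  have := ef_mem_Z h.of
  have e : ef (fun y => mtx (P y)) (wC W) = mkF (eR P W) 0 := funext fun x => isRe_ef P W x
  rwa [e] at this

theorem OR.EC (h : OR X P W) : T.EC X (eR P W) := by
  obtain ⟨h1, -⟩ := mem_Z_iff.1 h.ef_mem
  exact ⟨h1.1, h1.2.1, h1.2.2⟩

/-- the Euler class in `H X` is the class of the real form `eR` -/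
theorem OR.ec_eq (h : OR X P W) : ec h.of = rcl h.EC := by
  refine cls_congr fun x hx => ?_
  rw [isRe_ef]
  rfl

/-- orthogonal sum -/
theorem OR.add (h : OR X P W) (h' : OR X P' W') (h0 : ∀ x ∈ X, ∀ v, P x (P' x v) = 0) :
    OR X (fun x => P x + P' x) (fun x => sumT (W x) (W' x)) := by
  refine ⟨fun x hx => (h.sP x hx).add (h'.sP x hx), fun x hx I =>
    contDiffAt_const.mul (ContDiffAt.sum fun σ _ =>
      contDiffAt_const.mul ((h.sW x hx _).mul (h'.sW x hx _))), fun x hx => ?_⟩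
  obtain ⟨f, h1, h2, h3⟩ := h.fr x hx
  obtain ⟨f', h1', h2', h3'⟩ := h'.fr x hx
  have e1 : f * fᵀ * (f' * f'ᵀ) = 0 := by
    refine Matrix.ext fun i j => ?_
    have := congrFun (congrArg (fun v : EuclideanSpace ℝ n => (v : n → ℝ))
      (h0 x hx (EuclideanSpace.single j 1))) i
    change (P x (P' x (EuclideanSpace.single j 1))) i = 0 at this
    rw [h2] at this
    simp only [h2'] at this
    rw [Matrix.mul_apply, Matrix.zero_apply, ← this]
    refine Finset.sum_congr rfl fun k _ => ?_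
    congr 1
    simp [PiLp.single_apply]
  have e2 : fᵀ * f' = 0 := by
    calc fᵀ * f' = (fᵀ * f) * fᵀ * f' * (f'ᵀ * f') := by
          rw [h1, h1', Matrix.one_mul, Matrix.mul_one]
      _ = fᵀ * (f * fᵀ * (f' * f'ᵀ)) * f' := by simp only [Matrix.mul_assoc]
      _ = 0 := by rw [e1, Matrix.mul_zero, Matrix.zero_mul]
  have e3 : f'ᵀ * f = 0 := by
    have := congrArg Matrix.transpose e2
    rwa [transpose_mul, transpose_transpose, transpose_zero] at this
  refine ⟨sumF f f', ?_, fun v i => ?_, sumT_frame h3 h3'⟩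
  · have := tr_sumF_mul f f' (1 : Matrix n n ℝ)
    rw [Matrix.mul_one] at this
    rw [this]
    simp only [Matrix.mul_one, h1, h1', e2, e3, fromBlocks_one, submatrix_one_equiv]
  · rw [sumF_mul_tr]
    change P x v i + P' x v i = _
    rw [h2, h2', ← Finset.sum_add_distrib]
    exact Finset.sum_congr rfl fun j _ => by rw [Matrix.add_apply, add_mul]

theorem wC_sumT (W : E → (ι × Fin 2 → n) → ℝ) (W' : E → (ι' × Fin 2 → n) → ℝ) (x : E) :
    wC (fun x => sumT (W x) (W' x)) x = sumT (wC W x) (wC W' x) := by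
  funext I
  simp only [wC, sumT]
  push_cast
  rfl

theorem mtx_add (A B : EuclideanSpace ℝ n →L[ℝ] EuclideanSpace ℝ n) :
    mtx (A + B) = mtx A + mtx B := by
  refine Matrix.ext fun i j => ?_
  simp [mtx]

/-- **the Euler class of an orthogonal sum**, for `OR` -/
theorem OR.ec_add (h : OR X P W) (h' : OR X P' W') (h0 : ∀ x ∈ X, ∀ v, P x (P' x v) = 0)
    (hs : OR X (fun x => P x + P' x) (fun x => sumT (W x) (W' x))) :
    ec hs.of = ((Fintype.card ι + Fintype.card ι').choose (Fintype.card ι) : ℕ)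
        * (ec h.of * ec h'.of) := by
  have hz : ∀ x ∈ X, mtx (P x) * mtx (P' x) = 0 := fun x hx => by
    obtain ⟨f, h1, h2, h3⟩ := h.fr x hx
    obtain ⟨f', h1', h2', h3'⟩ := h'.fr x hx
    have e1 : f * fᵀ * (f' * f'ᵀ) = 0 := by
      refine Matrix.ext fun i j => ?_
      have := congrFun (congrArg (fun v : EuclideanSpace ℝ n => (v : n → ℝ))
        (h0 x hx (EuclideanSpace.single j 1))) i
      change (P x (P' x (EuclideanSpace.single j 1))) i = 0 at this
      rw [h2] at this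
      simp only [h2'] at this
      rw [Matrix.mul_apply, Matrix.zero_apply, ← this]
      refine Finset.sum_congr rfl fun k _ => ?_
      congr 1
      simp [PiLp.single_apply]
    rw [mtx_of_frame h2, mtx_of_frame h2', ← Matrix.map_mul, e1]
    exact Matrix.map_zero _ (map_zero _)
  have hs' : OF X (fun x => mtx (P x) + mtx (P' x)) (fun x => sumT (wC W x) (wC W' x)) :=
    h.of.add h'.of hz
  rw [← CW.ec_add h.of h'.of hz hs']
  exact ec_congr _ _ (fun x _ => mtx_add _ _) (fun x _ => wC_sumT W W' x)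

/-- the same for the real forms -/
theorem OR.coh_add (h : OR X P W) (h' : OR X P' W') (h0 : ∀ x ∈ X, ∀ v, P x (P' x v) = 0) :
    Coh X (eR (fun x => P x + P' x) (fun x => sumT (W x) (W' x)))
      (((Fintype.card ι + Fintype.card ι').choose (Fintype.card ι) : ℝ) • (eR P W * eR P' W')) := by
  have hs := h.add h' h0
  have key := OR.ec_add h h' h0 hs
  rw [h.ec_eq, h'.ec_eq, hs.ec_eq, ← rcl_mul] at key
  refine (rcl_eq_iff hs.EC ((h.EC.mul h'.EC).smul _)).1 ?_
  rw [key, rcl_smul _ (h.EC.mul h'.EC), Algebra.smul_def]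
  congr 1
  simp

end OR

end Crest.Agent.R208.T
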