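import Crest.Agent.R208.CW7

/-! Row 208, block CW (helper586).  CW7b: the Euler class of a real oriented bundle with an
arbitrary smooth complex structure is, up to sign, the top Chern class. -/

set_option autoImplicit false
set_option linter.unusedSectionVars false
set_option linter.unusedSimpArgs false
set_option linter.unusedVariables false

open scoped BigOperators ContDiff Topology
open Module Set Matrix

noncomputable section

namespace Crest.Agent.R208.CW

open Crest.Agent.R208.F Crest.Agent.R208.FI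

universe u

section sm
variable {G : Type*} [NormedAddCommGroup G] [NormedSpace ℝ G] {x : G} {k : WithTop ℕ∞}
  {ι n m : Type*} [Fintype ι] [DecidableEq ι] [Fintype n] [DecidableEq n] [Fintype m]
  [DecidableEq m]

section
attribute [local instance] Matrix.linftyOpNormedRing Matrix.linftyOpNormedAlgebra

theorem SM.sq' {M : G → Matrix n n ℂ} (hM : SM k M x) (h : SP.Dom (M x)) :
    SM k (fun y => SP.sq (M y)) x := by
  refine SP.MSm.of_contDiffAt (𝕜 := ℂ) ?_
  have h0 : ContDiffAt ℝ k (SP.sq : Matrix n n ℂ → Matrix n n ℂ) (M x) :=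
    (SP.contDiffAt_sq h k).restrict_scalars ℝ
  exact ContDiffAt.comp (g := (SP.sq : Matrix n n ℂ → Matrix n n ℂ)) (f := M) x h0
    (SP.MSm.contDiffAt (𝕜 := ℂ) hM)

end

theorem SM.rR {P : Matrix n n ℂ} {J : G → Matrix n n ℂ} (hJ : SM k J x) (h : RJ P (J x)) :
    SM k (fun y => rR (J y)) x :=
  SM.sq' ((SM.const 1).add (hJ.transpose.mul hJ)) h.dom

theorem SM.vR {P : Matrix n n ℂ} {J : G → Matrix n n ℂ} (hJ : SM k J x) (h : RJ P (J x)) :
    SM k (fun y => vR (J y)) x :=
  SP.MSm.ringInverse (𝕜 := ℂ) (SM.rR hJ h) h.rR_unit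

theorem SM.oJ {P : Matrix n n ℂ} {J : G → Matrix n n ℂ} (hJ : SM k J x) (h : RJ P (J x)) :
    SM k (fun y => oJ (J y)) x := ((SM.rR hJ h).mul hJ).mul (SM.vR hJ h)

theorem contDiffAt_wJ {J : G → Matrix n n ℂ} (hJ : SM k J x) (I : ι × Fin 2 → n) :
    ContDiffAt ℝ k (fun y => wJ ι (J y) I) x := by
  refine contDiffAt_const.mul (ContDiffAt.sum fun σ _ => contDiffAt_const.mul
    (contDiffAt_prod fun j _ => hJ _ _))

end sm

section fam
variable {E : Type u} [NormedAddCommGroup E] [NormedSpace ℝ E] [FiniteDimensional ℝ E]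
  {ι n m : Type*} [Fintype ι] [DecidableEq ι] [Fintype n] [DecidableEq n] [Fintype m]
  [DecidableEq m] {x : E} {X : Set E} {dX : ℕ}


theorem SM.qJ {P J : E → Matrix n n ℂ} {k : WithTop ℕ∞} (hP : SM k P x) (hJ : SM k J x) :
    SM k (fun y => qJ (P y) (J y)) x := (hP.csmul _).add ((hJ.neg'.csmul _).csmul _)

/-- orientations of a bundle over a preconnected base agree up to a global sign -/
theorem OF.sign (hXc : IsPreconnected X) {P : E → Matrix n n ℂ}
    {W W' : E → (ι × Fin 2 → n) → ℂ} (h : OF X P W) (h' : OF X P W') :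
    (∀ x ∈ X, W' x = W x) ∨ ∀ x ∈ X, W' x = - W x := by
  have hps : PreconnectedSpace X := Subtype.preconnectedSpace hXc
  have c1 : Continuous fun x : X => W x := by
    refine continuous_pi fun I => continuous_iff_continuousAt.2 fun x => ?_
    exact ContinuousAt.comp (f := fun x : X => (x : E)) (h.sW x x.2 I).continuousAt
      continuousAt_subtype_val
  have c2 : Continuous fun x : X => W' x := by
    refine continuous_pi fun I => continuous_iff_continuousAt.2 fun x => ?_
    exact ContinuousAt.comp (f := fun x : X => (x : E)) (h'.sW x x.2 I).continuousAt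
      continuousAt_subtype_val
  set A : Set X := {x | W' x = W x} with hA
  have hA1 : IsClosed A := isClosed_eq c2 c1
  have hA2 : Aᶜ = {x : X | W' x = - W x} := by
    ext x
    constructor
    · intro hx
      exact ((h.fr x x.2).unique (h'.fr x x.2)).resolve_left hx
    · intro hx hx'
      have e : W x = - W x := hx'.symm.trans hx
      exact (h.fr x x.2).ne_zero (self_eq_neg.1 e)
  have hA3 : IsOpen A := by
    rw [← isClosed_compl_iff, hA2]
    exact isClosed_eq c2 c1.neg
  rcases isClopen_iff.1 ⟨hA1, hA3⟩ with h0 | h0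
  · right
    intro x hx
    have : (⟨x, hx⟩ : X) ∈ Aᶜ := by rw [h0]; exact fun h => h
    rw [hA2] at this; exact this
  · left
    intro x hx
    have : (⟨x, hx⟩ : X) ∈ A := by rw [h0]; exact mem_univ _
    exact this

theorem ec_neg {P : E → Matrix n n ℂ} {W W' : E → (ι × Fin 2 → n) → ℂ} (h : OF X P W)
    (h' : OF X P W') (hW : ∀ x ∈ X, W' x = - W x) : ec h' = - ec h := by
  have e1 : - ec h = cls (-(ef P W)) ((Z X).neg_mem (ef_mem_Z h)) :=
    (map_neg (H.mk X) ⟨ef P W, ef_mem_Z h⟩).symm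
  rw [e1]
  refine cls_congr fun x hx => ?_
  rw [Pi.neg_apply, map_neg, rs_ef, rs_ef, hW x hx]
  have : eu (- W x) (wv (P x) (dl X P x) (invM_dl P x))
    = - eu (W x) (wv (P x) (dl X P x) (invM_dl P x)) := eu_neg _ _
  rw [this]
  rfl

theorem ec_sign (hXc : IsPreconnected X) {P : E → Matrix n n ℂ}
    {W W' : E → (ι × Fin 2 → n) → ℂ} (h : OF X P W) (h' : OF X P W') :
    ec h' = ec h ∨ ec h' = - ec h := by
  rcases OF.sign hXc h h' with e | e
  · exact Or.inl (ec_congr h' h (fun _ _ => rfl) e)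
  · exact Or.inr (ec_neg h h' e)

theorem Fr.trace {P : Matrix n n ℂ} {W : (ι × Fin 2 → n) → ℂ} (h : Fr P W) :
    P.trace = 2 * (Fintype.card ι : ℂ) := by
  obtain ⟨f, h1, rfl, h3⟩ := h
  rw [trace_mul_comm, h1, trace_one, Fintype.card_prod, Fintype.card_fin]
  push_cast; ring

theorem cs_CS {P J : E → Matrix n n ℂ} {W : E → (ι × Fin 2 → n) → ℂ} (h : OF X P W)
    (hJ : ∀ x ∈ X, SM ∞ J x) (hr : ∀ x ∈ X, RJ (P x) (J x)) :
    CS X P (fun x => oJ (J x)) (fun x => wJ ι (oJ (J x))) := by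
  have hfr : ∀ x ∈ X, FrJ (P x) (oJ (J x)) (wJ ι (oJ (J x))) := fun x hx => by
    obtain ⟨W0, hW0⟩ := exists_FrJ (hr x hx).orth (hr x hx).orth_t (h.fr x hx).trace
    have e := hW0.eq_wJ (hr x hx).orth_t (hr x hx).orth.JJ (hr x hx).orth.JP
    rwa [e] at hW0
  refine ⟨⟨h.sP, fun x hx I => contDiffAt_wJ ((hJ x hx).oJ (hr x hx)) I,
    fun x hx => (hfr x hx).fr⟩, fun x hx => (hJ x hx).oJ (hr x hx), fun x hx => (hr x hx).orth_t,
    fun x hx => (hr x hx).orth.JJ, fun x hx => (hr x hx).orth.JP, hfr⟩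

/-- **the Euler class of a real oriented bundle with an arbitrary smooth complex structure is, up
to sign, the top Chern class** (times `2^r r! i^r`) -/
theorem ec_complex (hX : Sub dX X) (hXc : IsPreconnected X) {P J : E → Matrix n n ℂ}
    {W : E → (ι × Fin 2 → n) → ℂ} (h : OF X P W) (hJ : ∀ x ∈ X, SM ∞ J x)
    (hr : ∀ x ∈ X, RJ (P x) (J x)) (hQ : IdF X (fun x => qJ (P x) (J x))) :
    ∃ ε : ℂ, (ε = 1 ∨ ε = -1) ∧ ec h
      = (ε * ((2 : ℂ) ^ Fintype.card ι * (Fintype.card ι).factorial * Complex.I ^ Fintype.card ι))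
        • cc hX hQ (Fintype.card ι) := by
  have hc := cs_CS h hJ hr
  have h1 := hc.ec_eq hX
  have hcs : cs hX hQ = cs hX hc.idF :=
    cs_iso hX hQ hc.idF (S := fun x => rR (J x) * qJ (P x) (J x))
      (fun x hx => ((hJ x hx).rR (hr x hx)).mul (hQ.smooth x hx))
      (fun x hx => ⟨_, (hr x hx).pIso⟩)
  have h2 : cc hX hc.idF (Fintype.card ι) = cc hX hQ (Fintype.card ι) := by
    rw [← coeff_cs, ← coeff_cs, hcs]
  rw [h2] at h1
  rcases ec_sign hXc hc.of h with e | e
  · exact ⟨1, Or.inl rfl, by rw [e, h1, one_mul]⟩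
  · exact ⟨-1, Or.inr rfl, by rw [e, h1, neg_mul, one_mul, neg_smul]⟩

end fam

end Crest.Agent.R208.CW
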