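import Crest.Agent.R208.CW5c
import Crest.Agent.R208.CW7b
import Crest.Agent.R208.CM4c
import Crest.Agent.R208.CM3e
import Crest.Agent.R208.DEG2
import Crest.Agent.R208.HY1

-- ▼ part R208/EW1
section

/-! Row 208, block EW (helper607).  EW1: the top Chern class of the tensor product of a bundle with
a line bundle. -/

set_option autoImplicit false
set_option linter.unusedSectionVars false
set_option linter.unusedVariables false

open scoped BigOperators ContDiff Topology Kronecker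
open Module Set Matrix

noncomputable section

namespace Crest.Agent.R208.EW

open Crest.Agent.R208.F Crest.Agent.R208.FI Crest.Agent.R208.CW

universe u

section alg
variable {A : Type*} [CommRing A]

/-- `det (z + L) = ∑ e_i(L) z^{r-i}` -/
theorem det_smul_one_add {r : ℕ} (L : Matrix (Fin r) (Fin r) A) (z : A) :
    (z • (1 : Matrix (Fin r) (Fin r) A) + L).det
      = ∑ i ∈ Finset.range (r + 1), (cpoly L).coeff i * z ^ (r - i) := by
  nontriviality A
  have h1 : (Matrix.charpoly (-L)).eval z = (z • (1 : Matrix (Fin r) (Fin r) A) + L).det := by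
    rw [Matrix.eval_charpoly]
    congr 1
    rw [Matrix.scalar_apply, ← Matrix.smul_one_eq_diagonal, sub_neg_eq_add]
  have h2 : (Matrix.charpoly (-L)).reverse = cpoly L := by
    rw [Matrix.reverse_charpoly, Matrix.charpolyRev, cpoly]
    congr 1
    rw [sub_eq_add_neg, ← smul_neg]
    congr 2
    refine Matrix.ext fun i j => ?_
    simp
  have hd : (Matrix.charpoly (-L)).natDegree = r := by
    rw [Matrix.charpoly_natDegree_eq_dim, Fintype.card_fin]
  have h3 : ∀ i ≤ r, (cpoly L).coeff i = (Matrix.charpoly (-L)).coeff (r - i) := by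
    intro i hi
    rw [← h2, Polynomial.coeff_reverse, hd, Polynomial.revAt_le hi]
  rw [← h1, Polynomial.eval_eq_sum_range, hd, ← Finset.sum_range_reflect]
  refine Finset.sum_congr rfl fun i hi => ?_
  have hi' : i ≤ r := by simpa [Nat.lt_succ_iff] using hi
  rw [h3 i hi', show r + 1 - 1 - i = r - i by omega]

end alg

section factor
variable {n : Type*} [Fintype n] [DecidableEq n]

/-- an idempotent of rank `r` factors through `ℂ^r` -/
theorem exists_idem_factor {q : Matrix n n ℂ} (hq : q * q = q) {r : ℕ} (hr : q.rank = r) :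
    ∃ (S : Matrix n (Fin r) ℂ) (T : Matrix (Fin r) n ℂ), S * T = q ∧ T * S = 1 := by
  classical
  let V := LinearMap.range q.mulVecLin
  have hV : finrank ℂ V = r := hr
  let e : V ≃ₗ[ℂ] (Fin r → ℂ) := LinearEquiv.ofFinrankEq _ _ (by rw [hV]; simp)
  let f : (Fin r → ℂ) →ₗ[ℂ] (n → ℂ) := V.subtype ∘ₗ e.symm.toLinearMap
  let g : (n → ℂ) →ₗ[ℂ] (Fin r → ℂ) := e.toLinearMap ∘ₗ q.mulVecLin.rangeRestrict
  refine ⟨LinearMap.toMatrix' f, LinearMap.toMatrix' g, ?_, ?_⟩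
  · rw [← LinearMap.toMatrix'_comp]
    have : f ∘ₗ g = q.mulVecLin := by
      refine LinearMap.ext fun v => ?_
      simp [f, g]
    rw [this, ← Matrix.toLin'_apply', LinearMap.toMatrix'_toLin']
  · rw [← LinearMap.toMatrix'_comp]
    have : g ∘ₗ f = LinearMap.id := by
      refine LinearMap.ext fun v => ?_
      have h1 : q.mulVecLin.rangeRestrict ((e.symm v : V) : n → ℂ) = e.symm v := by
        refine Subtype.ext ?_
        obtain ⟨w, hw⟩ := (e.symm v).2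
        change q.mulVecLin ((e.symm v : V) : n → ℂ) = _
        rw [← hw, Matrix.mulVecLin_apply, Matrix.mulVecLin_apply, Matrix.mulVec_mulVec, hq]
      change e (q.mulVecLin.rangeRestrict ((e.symm v : V) : n → ℂ)) = v
      rw [h1, LinearEquiv.apply_symm_apply]
    rw [this, LinearMap.toMatrix'_id]

end factor

section curv
variable {T₀ : Type*} [AddCommGroup T₀] [Module ℝ T₀] {n n' : Type*} [Fintype n] [Fintype n']
  [DecidableEq n] [DecidableEq n']

/-- top coefficient of the curvature of `q ⊗ (line)` -/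
theorem cpoly_kron_line {q : Matrix n n ℂ} {q' : Matrix n' n' ℂ} (hq : q * q = q)
    (hq' : q' * q' = q') {r : ℕ} (hr : q.rank = r) (hr' : q'.rank = 1)
    {w : Matrix n n (EvC T₀)} {w' : Matrix n' n' (EvC T₀)} (h1 : hv T₀ q * w = w)
    (h2 : w * hv T₀ q = w) (h1' : hv T₀ q' * w' = w') (h2' : w' * hv T₀ q' = w') :
    (cpoly (w ⊗ₖ hv T₀ q' + hv T₀ q ⊗ₖ w')).coeff r
      = ∑ i ∈ Finset.range (r + 1), (cpoly w).coeff i * w'.trace ^ (r - i) := by
  obtain ⟨S, T, hST, hTS⟩ := exists_idem_factor hq hr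
  obtain ⟨s, t, hst, hts⟩ := exists_idem_factor hq' hr'
  set z : EvC T₀ := (hv T₀ t * w' * hv T₀ s) 0 0 with hz
  set L : Matrix (Fin r) (Fin r) (EvC T₀) := hv T₀ T * w * hv T₀ S with hL
  have e1 : hv T₀ S * hv T₀ T = hv T₀ q := by rw [← hv_mul, hST]
  have e2 : hv T₀ T * hv T₀ S = 1 := by
    rw [← hv_mul, hTS]
    exact Matrix.map_one _ (map_zero _) (map_one _)
  have e3 : hv T₀ s * hv T₀ t = hv T₀ q' := by rw [← hv_mul, hst]
  have hw : w = hv T₀ S * L * hv T₀ T := by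
    rw [hL]
    calc w = hv T₀ q * w * hv T₀ q := by rw [h1, h2]
      _ = _ := by rw [← e1]; simp only [Matrix.mul_assoc]
  have hw'1 : w' = hv T₀ s * (hv T₀ t * w' * hv T₀ s) * hv T₀ t := by
    calc w' = hv T₀ q' * w' * hv T₀ q' := by rw [h1', h2']
      _ = _ := by rw [← e3]; simp only [Matrix.mul_assoc]
  have hm : hv T₀ t * w' * hv T₀ s = z • (1 : Matrix (Fin 1) (Fin 1) (EvC T₀)) := by
    refine Matrix.ext fun i j => ?_
    rw [Subsingleton.elim i 0, Subsingleton.elim j 0, Matrix.smul_apply, Matrix.one_apply_eq,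
      smul_eq_mul, mul_one]
  have hw' : w' = z • hv T₀ q' := by
    rw [hw'1, hm, Matrix.mul_smul, Matrix.mul_one, Matrix.smul_mul, e3]
  have htr : w'.trace = z := by
    have e4 : hv T₀ t * hv T₀ s = 1 := by
      rw [← hv_mul, hts]
      exact Matrix.map_one _ (map_zero _) (map_one _)
    rw [hw', Matrix.trace_smul, ← e3, Matrix.trace_mul_comm, e4, Matrix.trace_one, Fintype.card_fin,
      Nat.cast_one, smul_eq_mul, mul_one]
  -- the factorisation
  let S2 : Matrix (n × n') (Fin r) (EvC T₀) := Matrix.of fun p a => hv T₀ S p.1 a * hv T₀ s p.2 0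
  let T2 : Matrix (Fin r) (n × n') (EvC T₀) := Matrix.of fun a p => hv T₀ T a p.1 * hv T₀ t 0 p.2
  have hts' : ∑ i, hv T₀ t 0 i * hv T₀ s i 0 = 1 := by
    have e4 : hv T₀ t * hv T₀ s = 1 := by
      rw [← hv_mul, hts]
      exact Matrix.map_one _ (map_zero _) (map_one _)
    have := congrFun (congrFun e4 0) 0
    rwa [Matrix.mul_apply, Matrix.one_apply_eq] at this
  have e5 : T2 * S2 = 1 := by
    refine Matrix.ext fun a b => ?_
    have h0 : ∀ p : n × n', T2 a p * S2 p b = (hv T₀ T a p.1 * hv T₀ S p.1 b)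
        * (hv T₀ t 0 p.2 * hv T₀ s p.2 0) := fun p => by
      change (hv T₀ T a p.1 * hv T₀ t 0 p.2) * (hv T₀ S p.1 b * hv T₀ s p.2 0) = _
      ring
    rw [Matrix.mul_apply]
    simp only [h0]
    rw [Fintype.sum_prod_type]
    simp only [← Finset.mul_sum]
    rw [hts']
    simp only [mul_one]
    rw [← Matrix.mul_apply, e2]
  have hK : w ⊗ₖ hv T₀ q' + hv T₀ q ⊗ₖ w' = S2 * ((z • 1 + L) * T2) := by
    refine Matrix.ext ?_
    rintro ⟨i, i'⟩ ⟨j, j'⟩
    have a1 : (w + z • hv T₀ q) = hv T₀ S * ((z • 1 + L) * hv T₀ T) := by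
      rw [Matrix.add_mul, Matrix.mul_add, Matrix.smul_mul, Matrix.one_mul, Matrix.mul_smul, e1,
        ← Matrix.mul_assoc, ← hw, add_comm]
    have a2 : hv T₀ q' i' j' = hv T₀ s i' 0 * hv T₀ t 0 j' := by
      rw [← e3, Matrix.mul_apply]
      simp
    have a3 : (S2 * ((z • (1 : Matrix (Fin r) (Fin r) (EvC T₀)) + L) * T2)) (i, i') (j, j')
        = (hv T₀ S * ((z • (1 : Matrix (Fin r) (Fin r) (EvC T₀)) + L) * hv T₀ T)) i j
          * (hv T₀ s i' 0 * hv T₀ t 0 j') := by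
      rw [Matrix.mul_apply, Matrix.mul_apply, Finset.sum_mul]
      refine Finset.sum_congr rfl fun a _ => ?_
      rw [Matrix.mul_apply, Matrix.mul_apply, Finset.mul_sum, Finset.mul_sum, Finset.sum_mul]
      refine Finset.sum_congr rfl fun b _ => ?_
      change hv T₀ S i a * hv T₀ s i' 0 * ((z • (1 : Matrix (Fin r) (Fin r) (EvC T₀)) + L) a b
        * (hv T₀ T b j * hv T₀ t 0 j')) = _
      ring
    rw [a3, ← a1, ← a2, hw']
    simp only [Matrix.add_apply, Matrix.kroneckerMap_apply, Matrix.smul_apply, smul_eq_mul]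
    ring
  have hc1 : cpoly (w ⊗ₖ hv T₀ q' + hv T₀ q ⊗ₖ w') = cpoly (z • 1 + L) := by
    rw [hK, cpoly_mul_comm, Matrix.mul_assoc, e5, Matrix.mul_one]
  have hc2 : cpoly w = cpoly L := by
    rw [hw, Matrix.mul_assoc, cpoly_mul_comm, Matrix.mul_assoc, e2, Matrix.mul_one]
  rw [hc1, hc2, htr, ← det_smul_one_add]
  have := cpoly_coeff_card (z • 1 + L)
  rwa [Fintype.card_fin] at this

end curv

section kron
variable {E : Type u} [NormedAddCommGroup E] [NormedSpace ℝ E] [FiniteDimensional ℝ E]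
  {n n' : Type*} [Fintype n] [Fintype n'] [DecidableEq n] [DecidableEq n']
  {x : E} {X : Set E} {dX : ℕ}

/-- **top Chern class of `E ⊗ line`** -/
theorem cc_kron_line (hX : Sub dX X) {Q : E → Matrix n n ℂ} {Q' : E → Matrix n' n' ℂ}
    (hQ : IdF X Q) (hQ' : IdF X Q') {r : ℕ} (hr : ∀ x ∈ X, (Q x).rank = r)
    (hr' : ∀ x ∈ X, (Q' x).rank = 1) :
    cc hX (hQ.kron hQ') r
      = ∑ i ∈ Finset.range (r + 1), cc hX hQ i * sc hX hQ' 1 ^ (r - i) := by
  rw [sc_eq' hX hQ' le_rfl]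
  have key : cc hX (hQ.kron hQ') r = H.mk X (∑ i ∈ Finset.range (r + 1),
      (⟨cf i Q, cf_mem_Z hX hQ i⟩ : Z X) * (⟨sf' 1 Q', sf'_mem_Z hX hQ' 1⟩ : Z X) ^ (r - i)) := by
    refine H.mk_congr (a := ⟨_, cf_mem_Z hX (hQ.kron hQ') r⟩) fun x hx => ?_
    rw [map_sum]
    simp only [map_mul, map_pow]
    change rs X x (cf r (fun y => Q y ⊗ₖ Q' y) x)
      = ∑ i ∈ Finset.range (r + 1), rs X x (cf i Q x) * rs X x (sf' 1 Q' x) ^ (r - i)
    have e0 := kron_wv (hQ.idem x hx) (hQ'.idem x hx) (invM_dl Q x) (invM_dl Q' x)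
      (hQ.dl_eq hX hx) (hQ'.dl_eq hX hx) (invM_dl (X := X) (fun y => Q y ⊗ₖ Q' y) x)
      (dl_kron (hQ.s1 hx) (hQ'.s1 hx))
    rw [rs_cf, e0, cpoly_kron_line (hQ.idem x hx) (hQ'.idem x hx) (hr x hx) (hr' x hx)
      (hv_wv (hQ.idem x hx) _ _) (wv_hv (hQ.idem x hx) _ _) (hv_wv (hQ'.idem x hx) _ _)
      (wv_hv (hQ'.idem x hx) _ _)]
    have e2 : rs X x (sf' 1 Q' x)
        = (((wv (Q' x) (dl X Q' x) (invM_dl Q' x)).trace : EvC (Tan X x)) : CF (Tan X x)) := by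
      rw [sf', pow_one, ← rsE_coe, ← rsE_Om]
      rw [show (rsE X x) (Om Q' x).trace = ((Om Q' x).map (rsE X x)).trace from
        map_sum (rsE X x) _ _]
    rw [e2]
    have e1 : ∀ (s : Finset ℕ) (f : ℕ → EvC (Tan X x)),
        ((∑ i ∈ s, f i : EvC (Tan X x)) : CF (Tan X x)) = ∑ i ∈ s, (f i : CF (Tan X x)) :=
      fun s f => map_sum (EvC (Tan X x)).val f s
    rw [e1]
    refine Finset.sum_congr rfl fun i hi => ?_
    rw [rs_cf]
    push_cast
    rfl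
  rw [key, map_sum]
  simp only [map_mul, map_pow]
  rfl

end kron

end Crest.Agent.R208.EW
end
end

-- ▼ part R208/EW2
section

/-! Row 208, block EW (helper607).  EW2: the real bundle `N ⊕ N` with the circle acting by
`R t ∘ e^{i w t}`, descended to the quotient, is `N_ℂ ⊗ (line)`. -/

set_option autoImplicit false
set_option linter.unusedSectionVars false
set_option linter.unusedVariables false
set_option linter.unusedSimpArgs false

open Set Filter Topology Module MeasureTheory Matrix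
open scoped ContDiff RealInnerProductSpace ComplexConjugate Kronecker
open Crest.Agent.R208.F Crest.Agent.R208.FI Crest.Agent.R208.CW Crest.Agent.R208.T
open Crest.Agent.R208.CM

noncomputable section

namespace Crest.Agent.R208.EW

/-! ### complex matrices of real linear maps -/
section mc
variable {a b c : Type} [Fintype a] [DecidableEq a] [Fintype b] [DecidableEq b] [Fintype c]
  [DecidableEq c]

/-- the complexified matrix of a linear map of Euclidean spaces -/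
def mc (A : EuclideanSpace ℝ a →L[ℝ] EuclideanSpace ℝ b) : Matrix b a ℂ :=
  (MT A).map (algebraMap ℝ ℂ)

theorem mc_apply (A : EuclideanSpace ℝ a →L[ℝ] EuclideanSpace ℝ b) (i : b) (j : a) :
    mc A i j = ((A (EuclideanSpace.single j 1) i : ℝ) : ℂ) := rfl

theorem mc_eq_mtx (A : EuclideanSpace ℝ a →L[ℝ] EuclideanSpace ℝ a) : mc A = mtx A := rfl

theorem MT_comp (A : EuclideanSpace ℝ b →L[ℝ] EuclideanSpace ℝ c)
    (B : EuclideanSpace ℝ a →L[ℝ] EuclideanSpace ℝ b) : MT (A.comp B) = MT A * MT B := by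
  refine mE_injective ?_
  ext1 v
  rw [mE_MT, ← mE_mE, mE_MT, mE_MT]
  rfl

theorem mc_comp (A : EuclideanSpace ℝ b →L[ℝ] EuclideanSpace ℝ c)
    (B : EuclideanSpace ℝ a →L[ℝ] EuclideanSpace ℝ b) : mc (A.comp B) = mc A * mc B := by
  rw [mc, MT_comp, Matrix.map_mul]; rfl

theorem mc_adj (A : EuclideanSpace ℝ a →L[ℝ] EuclideanSpace ℝ b) :
    mc (ContinuousLinearMap.adjoint A) = (mc A)ᵀ := by
  have h : MT (ContinuousLinearMap.adjoint A) = (MT A)ᵀ := by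
    refine mE_injective ?_
    ext1 v
    have e : A = mE (MT A) := by ext1 v; rw [mE_MT]
    rw [mE_MT]
    conv_lhs => rw [e]
    rw [adjoint_mE]
  rw [mc, h]; rfl

theorem mc_add (A B : EuclideanSpace ℝ a →L[ℝ] EuclideanSpace ℝ b) : mc (A + B) = mc A + mc B := by
  ext i j
  rw [Matrix.add_apply, mc_apply, mc_apply, mc_apply]
  change ((A (EuclideanSpace.single j 1) i + B (EuclideanSpace.single j 1) i : ℝ) : ℂ) = _
  push_cast
  rfl

theorem mc_sub (A B : EuclideanSpace ℝ a →L[ℝ] EuclideanSpace ℝ b) : mc (A - B) = mc A - mc B := by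
  ext i j
  rw [Matrix.sub_apply, mc_apply, mc_apply, mc_apply]
  change ((A (EuclideanSpace.single j 1) i - B (EuclideanSpace.single j 1) i : ℝ) : ℂ) = _
  push_cast
  rfl

theorem mc_neg (A : EuclideanSpace ℝ a →L[ℝ] EuclideanSpace ℝ b) : mc (-A) = - mc A := by
  ext i j
  rw [Matrix.neg_apply, mc_apply, mc_apply]
  change ((-(A (EuclideanSpace.single j 1) i) : ℝ) : ℂ) = _
  push_cast
  rfl

theorem mc_smul (r : ℝ) (A : EuclideanSpace ℝ a →L[ℝ] EuclideanSpace ℝ b) :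
    mc (r • A) = (r : ℂ) • mc A := by
  ext i j
  rw [Matrix.smul_apply, mc_apply, mc_apply, smul_eq_mul]
  change ((r * (A (EuclideanSpace.single j 1) i) : ℝ) : ℂ) = _
  push_cast
  rfl

theorem mc_zero : mc (0 : EuclideanSpace ℝ a →L[ℝ] EuclideanSpace ℝ b) = 0 := by
  ext i j
  rw [mc_apply]
  rfl

theorem mc_id : mc (ContinuousLinearMap.id ℝ (EuclideanSpace ℝ a)) = 1 := by
  have h : MT (ContinuousLinearMap.id ℝ (EuclideanSpace ℝ a)) = 1 := by
    refine mE_injective ?_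
    ext1 v
    rw [mE_MT, mE_one]; rfl
  rw [mc, h]
  exact Matrix.map_one _ (map_zero _) (map_one _)


theorem mc_H (A : EuclideanSpace ℝ a →L[ℝ] EuclideanSpace ℝ b) : (mc A)ᴴ = (mc A)ᵀ := by
  rw [Matrix.conjTranspose]
  ext i j
  rw [Matrix.map_apply, Matrix.transpose_apply, mc_apply]
  exact Complex.conj_ofReal _

theorem contDiffAt_mc {G : Type*} [NormedAddCommGroup G] [NormedSpace ℝ G] {x : G}
    {k : WithTop ℕ∞} {A : G → EuclideanSpace ℝ a →L[ℝ] EuclideanSpace ℝ b}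
    (hA : ContDiffAt ℝ k A x) (i : b) (j : a) : ContDiffAt ℝ k (fun y => mc (A y) i j) x := by
  have h1 : ContDiffAt ℝ k (fun y => A y (EuclideanSpace.single j 1)) x :=
    hA.clm_apply contDiffAt_const
  have h2 : ContDiffAt ℝ k (fun y => A y (EuclideanSpace.single j 1) i) x :=
    (EuclideanSpace.proj i : EuclideanSpace ℝ b →L[ℝ] ℝ).contDiff.contDiffAt.comp x h1
  exact Complex.ofRealCLM.contDiff.contDiffAt.comp x h2

end mc

/-! ### doubling -/
section dbl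
variable {a b : Type} [Fintype a] [DecidableEq a] [Fintype b] [DecidableEq b]

/-- `i₁, i₂` identify `ℝ^b` with the orthogonal sum of two copies of `ℝ^a` -/
structure Dbl (i₁ i₂ : EuclideanSpace ℝ a →L[ℝ] EuclideanSpace ℝ b) : Prop where
  iso : ∀ u v, ‖i₁ u + i₂ v‖ ^ 2 = ‖u‖ ^ 2 + ‖v‖ ^ 2
  surj : ∀ w, ∃ u v, w = i₁ u + i₂ v

variable {i₁ i₂ : EuclideanSpace ℝ a →L[ℝ] EuclideanSpace ℝ b}

theorem Dbl.inner (h : Dbl i₁ i₂) (u v u' v' : EuclideanSpace ℝ a) :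
    ⟪i₁ u + i₂ v, i₁ u' + i₂ v'⟫ = ⟪u, u'⟫ + ⟪v, v'⟫ := by
  have h1 := h.iso (u + u') (v + v')
  have h2 := h.iso u v
  have h3 := h.iso u' v'
  have e : i₁ (u + u') + i₂ (v + v') = (i₁ u + i₂ v) + (i₁ u' + i₂ v') := by
    rw [map_add, map_add]; abel
  rw [e, norm_add_sq_real (i₁ u + i₂ v) (i₁ u' + i₂ v'), norm_add_sq_real u u',
    norm_add_sq_real v v'] at h1
  linarith

theorem Dbl.i11 (h : Dbl i₁ i₂) : (mc i₁)ᵀ * mc i₁ = 1 := by
  rw [← mc_adj, ← mc_comp, ← mc_id]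
  congr 1
  ext1 u
  refine ext_inner_right ℝ fun v => ?_
  rw [ContinuousLinearMap.comp_apply, ContinuousLinearMap.adjoint_inner_left]
  have := h.inner u 0 v 0
  simpa using this

theorem Dbl.i22 (h : Dbl i₁ i₂) : (mc i₂)ᵀ * mc i₂ = 1 := by
  rw [← mc_adj, ← mc_comp, ← mc_id]
  congr 1
  ext1 u
  refine ext_inner_right ℝ fun v => ?_
  rw [ContinuousLinearMap.comp_apply, ContinuousLinearMap.adjoint_inner_left]
  have := h.inner 0 u 0 v
  simpa using this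

theorem Dbl.i12 (h : Dbl i₁ i₂) : (mc i₁)ᵀ * mc i₂ = 0 := by
  rw [← mc_adj, ← mc_comp, ← mc_zero]
  congr 1
  ext1 u
  refine ext_inner_right ℝ fun v => ?_
  rw [ContinuousLinearMap.comp_apply, ContinuousLinearMap.adjoint_inner_left]
  have := h.inner 0 u v 0
  simpa using this

theorem Dbl.i21 (h : Dbl i₁ i₂) : (mc i₂)ᵀ * mc i₁ = 0 := by
  have := congrArg Matrix.transpose h.i12
  rwa [Matrix.transpose_mul, Matrix.transpose_transpose, Matrix.transpose_zero] at this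

/-- an operator which commutes with the doubling -/
theorem Dbl.mc_eq (h : Dbl i₁ i₂) {A B : EuclideanSpace ℝ b →L[ℝ] EuclideanSpace ℝ b}
    (hA : ∀ u v, A (i₁ u + i₂ v) = B (i₁ u + i₂ v)) : mc A = mc B := by
  congr 1
  ext1 w
  obtain ⟨u, v, rfl⟩ := h.surj w
  exact hA u v

end dbl

/-! ### the intertwiner at a point -/
section pt
variable {a b p q κ : Type} [Fintype a] [DecidableEq a] [Fintype b] [DecidableEq b] [Fintype p]
  [DecidableEq p] [Fintype q] [DecidableEq q] [Fintype κ] [DecidableEq κ]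

/-- real matrices (as complex ones) describing a point -/
structure PD (M₁ M₂ : Matrix b a ℂ) (n : Matrix a a ℂ) (t₁ : Matrix p a ℂ) (t₂ : Matrix q b ℂ) :
    Prop where
  i11 : M₁ᵀ * M₁ = 1
  i22 : M₂ᵀ * M₂ = 1
  i12 : M₁ᵀ * M₂ = 0
  i21 : M₂ᵀ * M₁ = 0
  t11 : t₁ᵀ * t₁ = 1
  t22 : t₂ᵀ * t₂ = 1
  nn : n * n = n
  nt : nᵀ = n
  c1 : M₁ᴴ = M₁ᵀ
  c2 : M₂ᴴ = M₂ᵀ
  cn : nᴴ = nᵀ
  ct1 : t₁ᴴ = t₁ᵀ
  ct2 : t₂ᴴ = t₂ᵀ

/-- the intertwiner -/
def UU (M₁ M₂ : Matrix b a ℂ) (n : Matrix a a ℂ) (t₁ : Matrix p a ℂ) (t₂ : Matrix q b ℂ) :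
    Matrix q p ℂ :=
  ((Real.sqrt 2 : ℝ) : ℂ)⁻¹ • (t₂ * (M₁ * (n * t₁ᵀ)) + Complex.I • (t₂ * (M₂ * (n * t₁ᵀ))))

/-- the doubled projection -/
def NNm (M₁ M₂ : Matrix b a ℂ) (n : Matrix a a ℂ) : Matrix b b ℂ := M₁ * n * M₁ᵀ + M₂ * n * M₂ᵀ

/-- the complex structure (minus the doubling rotation) -/
def JNm (M₁ M₂ : Matrix b a ℂ) (n : Matrix a a ℂ) : Matrix b b ℂ := M₁ * n * M₂ᵀ - M₂ * n * M₁ᵀ

variable {M₁ M₂ : Matrix b a ℂ} {n : Matrix a a ℂ} {t₁ : Matrix p a ℂ} {t₂ : Matrix q b ℂ}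

theorem sqrt2_conj : (starRingEnd ℂ) (((Real.sqrt 2 : ℝ) : ℂ)⁻¹) = ((Real.sqrt 2 : ℝ) : ℂ)⁻¹ := by
  rw [map_inv₀, Complex.conj_ofReal]

theorem PD.UH (h : PD M₁ M₂ n t₁ t₂) : (UU M₁ M₂ n t₁ t₂)ᴴ
    = ((Real.sqrt 2 : ℝ) : ℂ)⁻¹ • (t₁ * (n * (M₁ᵀ * t₂ᵀ)) - Complex.I • (t₁ * (n * (M₂ᵀ * t₂ᵀ)))) := by
  have e1 : (t₁ᵀ)ᴴ = t₁ := by rw [← h.ct1, Matrix.conjTranspose_conjTranspose]
  have e2 : nᴴ = n := by rw [h.cn, h.nt]
  rw [UU, Matrix.conjTranspose_smul, Matrix.conjTranspose_add, Matrix.conjTranspose_smul]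
  simp only [Matrix.conjTranspose_mul, e1, e2, h.c1, h.c2, h.ct2, Matrix.mul_assoc]
  have e3 : star (((Real.sqrt 2 : ℝ) : ℂ)⁻¹) = ((Real.sqrt 2 : ℝ) : ℂ)⁻¹ := sqrt2_conj
  have e4 : star Complex.I = -Complex.I := Complex.conj_I
  rw [e3, e4, neg_smul, sub_eq_add_neg]

theorem PD.UHU (h : PD M₁ M₂ n t₁ t₂) :
    (UU M₁ M₂ n t₁ t₂)ᴴ * UU M₁ M₂ n t₁ t₂ = t₁ * n * t₁ᵀ := by
  have k1 : ∀ Y : Matrix a p ℂ, M₁ᵀ * (t₂ᵀ * (t₂ * (M₁ * Y))) = Y := fun Y => by
    rw [← Matrix.mul_assoc t₂ᵀ, h.t22, Matrix.one_mul, ← Matrix.mul_assoc, h.i11, Matrix.one_mul]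
  have k2 : ∀ Y : Matrix a p ℂ, M₂ᵀ * (t₂ᵀ * (t₂ * (M₂ * Y))) = Y := fun Y => by
    rw [← Matrix.mul_assoc t₂ᵀ, h.t22, Matrix.one_mul, ← Matrix.mul_assoc, h.i22, Matrix.one_mul]
  have k3 : ∀ Y : Matrix a p ℂ, M₁ᵀ * (t₂ᵀ * (t₂ * (M₂ * Y))) = 0 := fun Y => by
    rw [← Matrix.mul_assoc t₂ᵀ, h.t22, Matrix.one_mul, ← Matrix.mul_assoc, h.i12, Matrix.zero_mul]
  have k4 : ∀ Y : Matrix a p ℂ, M₂ᵀ * (t₂ᵀ * (t₂ * (M₁ * Y))) = 0 := fun Y => by
    rw [← Matrix.mul_assoc t₂ᵀ, h.t22, Matrix.one_mul, ← Matrix.mul_assoc, h.i21, Matrix.zero_mul]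
  have k5 : n * (n * t₁ᵀ) = n * t₁ᵀ := by rw [← Matrix.mul_assoc, h.nn]
  rw [h.UH, UU, Matrix.smul_mul, Matrix.mul_smul, smul_smul, sqrt2_sq]
  simp only [Matrix.sub_mul, Matrix.mul_add, Matrix.smul_mul, Matrix.mul_smul, Matrix.mul_assoc,
    k1, k2, k3, k4, k5, Matrix.mul_zero, smul_zero, add_zero, zero_add, smul_smul, Complex.I_mul_I]
  match_scalars
  linear_combination (-1 / 2 : ℂ) * Complex.I_sq

theorem PD.UUH (h : PD M₁ M₂ n t₁ t₂) :
    UU M₁ M₂ n t₁ t₂ * (UU M₁ M₂ n t₁ t₂)ᴴ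
      = qJ (t₂ * NNm M₁ M₂ n * t₂ᵀ) (t₂ * JNm M₁ M₂ n * t₂ᵀ) := by
  have k1 : ∀ Y : Matrix a q ℂ, t₁ᵀ * (t₁ * Y) = Y := fun Y => by
    rw [← Matrix.mul_assoc, h.t11, Matrix.one_mul]
  have k5 : ∀ Y : Matrix a q ℂ, n * (n * Y) = n * Y := fun Y => by rw [← Matrix.mul_assoc, h.nn]
  rw [h.UH, UU, Matrix.smul_mul, Matrix.mul_smul, smul_smul, sqrt2_sq, qJ, NNm, JNm]
  simp only [Matrix.mul_sub, Matrix.sub_mul, Matrix.mul_add, Matrix.add_mul, Matrix.smul_mul,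
    Matrix.mul_smul, Matrix.mul_assoc, k1, k5, smul_smul, Complex.I_mul_I]
  match_scalars <;> first | ring1 | linear_combination (-1 / 2 : ℂ) * Complex.I_sq

theorem PD.nn' (h : PD M₁ M₂ n t₁ t₂) : NNm M₁ M₂ n * NNm M₁ M₂ n = NNm M₁ M₂ n := by
  have k1 : ∀ Y : Matrix a b ℂ, M₁ᵀ * (M₁ * Y) = Y := fun Y => by
    rw [← Matrix.mul_assoc, h.i11, Matrix.one_mul]
  have k2 : ∀ Y : Matrix a b ℂ, M₂ᵀ * (M₂ * Y) = Y := fun Y => by
    rw [← Matrix.mul_assoc, h.i22, Matrix.one_mul]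
  have k3 : ∀ Y : Matrix a b ℂ, M₁ᵀ * (M₂ * Y) = 0 := fun Y => by
    rw [← Matrix.mul_assoc, h.i12, Matrix.zero_mul]
  have k4 : ∀ Y : Matrix a b ℂ, M₂ᵀ * (M₁ * Y) = 0 := fun Y => by
    rw [← Matrix.mul_assoc, h.i21, Matrix.zero_mul]
  have k5 : ∀ Y : Matrix a b ℂ, n * (n * Y) = n * Y := fun Y => by rw [← Matrix.mul_assoc, h.nn]
  simp only [NNm, Matrix.mul_add, Matrix.add_mul, Matrix.mul_assoc, k1, k2, k3, k4, k5,
    Matrix.mul_zero, add_zero, zero_add]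

theorem PD.jj' (h : PD M₁ M₂ n t₁ t₂) : JNm M₁ M₂ n * JNm M₁ M₂ n = - NNm M₁ M₂ n := by
  have k1 : ∀ Y : Matrix a b ℂ, M₁ᵀ * (M₁ * Y) = Y := fun Y => by
    rw [← Matrix.mul_assoc, h.i11, Matrix.one_mul]
  have k2 : ∀ Y : Matrix a b ℂ, M₂ᵀ * (M₂ * Y) = Y := fun Y => by
    rw [← Matrix.mul_assoc, h.i22, Matrix.one_mul]
  have k3 : ∀ Y : Matrix a b ℂ, M₁ᵀ * (M₂ * Y) = 0 := fun Y => by
    rw [← Matrix.mul_assoc, h.i12, Matrix.zero_mul]
  have k4 : ∀ Y : Matrix a b ℂ, M₂ᵀ * (M₁ * Y) = 0 := fun Y => by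
    rw [← Matrix.mul_assoc, h.i21, Matrix.zero_mul]
  have k5 : ∀ Y : Matrix a b ℂ, n * (n * Y) = n * Y := fun Y => by rw [← Matrix.mul_assoc, h.nn]
  simp only [NNm, JNm, Matrix.mul_sub, Matrix.sub_mul, Matrix.mul_assoc, k1, k2, k3, k4, k5,
    Matrix.mul_zero, add_zero, zero_add, sub_zero, zero_sub]
  try abel

theorem PD.nj' (h : PD M₁ M₂ n t₁ t₂) : NNm M₁ M₂ n * JNm M₁ M₂ n = JNm M₁ M₂ n := by
  have k1 : ∀ Y : Matrix a b ℂ, M₁ᵀ * (M₁ * Y) = Y := fun Y => by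
    rw [← Matrix.mul_assoc, h.i11, Matrix.one_mul]
  have k2 : ∀ Y : Matrix a b ℂ, M₂ᵀ * (M₂ * Y) = Y := fun Y => by
    rw [← Matrix.mul_assoc, h.i22, Matrix.one_mul]
  have k3 : ∀ Y : Matrix a b ℂ, M₁ᵀ * (M₂ * Y) = 0 := fun Y => by
    rw [← Matrix.mul_assoc, h.i12, Matrix.zero_mul]
  have k4 : ∀ Y : Matrix a b ℂ, M₂ᵀ * (M₁ * Y) = 0 := fun Y => by
    rw [← Matrix.mul_assoc, h.i21, Matrix.zero_mul]
  have k5 : ∀ Y : Matrix a b ℂ, n * (n * Y) = n * Y := fun Y => by rw [← Matrix.mul_assoc, h.nn]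
  simp only [NNm, JNm, Matrix.mul_sub, Matrix.add_mul, Matrix.mul_assoc, k1, k2, k3, k4, k5,
    Matrix.mul_zero, add_zero, zero_add, sub_zero, zero_sub]
  try abel

theorem PD.jn' (h : PD M₁ M₂ n t₁ t₂) : JNm M₁ M₂ n * NNm M₁ M₂ n = JNm M₁ M₂ n := by
  have k1 : ∀ Y : Matrix a b ℂ, M₁ᵀ * (M₁ * Y) = Y := fun Y => by
    rw [← Matrix.mul_assoc, h.i11, Matrix.one_mul]
  have k2 : ∀ Y : Matrix a b ℂ, M₂ᵀ * (M₂ * Y) = Y := fun Y => by
    rw [← Matrix.mul_assoc, h.i22, Matrix.one_mul]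
  have k3 : ∀ Y : Matrix a b ℂ, M₁ᵀ * (M₂ * Y) = 0 := fun Y => by
    rw [← Matrix.mul_assoc, h.i12, Matrix.zero_mul]
  have k4 : ∀ Y : Matrix a b ℂ, M₂ᵀ * (M₁ * Y) = 0 := fun Y => by
    rw [← Matrix.mul_assoc, h.i21, Matrix.zero_mul]
  have k5 : ∀ Y : Matrix a b ℂ, n * (n * Y) = n * Y := fun Y => by rw [← Matrix.mul_assoc, h.nn]
  simp only [NNm, JNm, Matrix.sub_mul, Matrix.mul_add, Matrix.mul_assoc, k1, k2, k3, k4, k5,
    Matrix.mul_zero, add_zero, zero_add, sub_zero, zero_sub]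
  try abel

theorem cj_eq_of_H {m l : Type} {A : Matrix m l ℂ} (h : Aᴴ = Aᵀ) : A.map (starRingEnd ℂ) = A := by
  refine Matrix.ext fun i j => ?_
  exact congrFun (congrFun h j) i

theorem PD.rj (h : PD M₁ M₂ n t₁ t₂) :
    RJ (t₂ * NNm M₁ M₂ n * t₂ᵀ) (t₂ * JNm M₁ M₂ n * t₂ᵀ) := by
  have k0 : ∀ A B : Matrix b b ℂ, (t₂ * A * t₂ᵀ) * (t₂ * B * t₂ᵀ) = t₂ * (A * B) * t₂ᵀ :=
    fun A B => by
      calc (t₂ * A * t₂ᵀ) * (t₂ * B * t₂ᵀ) = t₂ * A * (t₂ᵀ * t₂) * B * t₂ᵀ := by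
            simp only [Matrix.mul_assoc]
        _ = _ := by rw [h.t22, Matrix.mul_one, Matrix.mul_assoc t₂ A B]
  have c1 := cj_eq_of_H h.c1
  have c2 := cj_eq_of_H h.c2
  have cn := cj_eq_of_H h.cn
  have ct := cj_eq_of_H h.ct2
  have ctr : ∀ {m l : Type} (A : Matrix m l ℂ), (Aᵀ).map (starRingEnd ℂ) = (A.map (starRingEnd ℂ))ᵀ :=
    fun A => rfl
  have hN : (NNm M₁ M₂ n).map (starRingEnd ℂ) = NNm M₁ M₂ n := by
    rw [NNm, Matrix.map_add _ (map_add _)]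
    simp only [Matrix.map_mul, ctr, c1, c2, cn]
  have hJ : (JNm M₁ M₂ n).map (starRingEnd ℂ) = JNm M₁ M₂ n := by
    rw [JNm, Matrix.map_sub _ (map_sub _)]
    simp only [Matrix.map_mul, ctr, c1, c2, cn]
  refine ⟨?_, ?_, ?_, ?_, ?_, ?_, ?_⟩
  · rw [cj_map, Matrix.map_mul, Matrix.map_mul, ctr, ct, hN]
  · rw [cj_map, Matrix.map_mul, Matrix.map_mul, ctr, ct, hJ]
  · simp only [NNm, Matrix.transpose_mul, Matrix.transpose_transpose, Matrix.transpose_add, h.nt,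
      Matrix.mul_assoc]
  · rw [k0, h.nn']
  · rw [k0, h.jj', Matrix.mul_neg, Matrix.neg_mul]
  · rw [k0, h.jn']
  · rw [k0, h.nj']

/-- the intertwiner with the line spanned by `z` -/
def TT (U : Matrix q p ℂ) (z : κ → ℂ) : Matrix q (p × κ) ℂ :=
  Matrix.of fun j i => U j i.1 * conj (z i.2)

/-- the projection onto the line -/
def lin (z : κ → ℂ) : Matrix κ κ ℂ := Matrix.of fun i j => z i * conj (z j)

theorem TT_mul (U : Matrix q p ℂ) {z : κ → ℂ} (hz : ∑ i, z i * conj (z i) = 1) :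
    TT U z * (TT U z)ᴴ = U * Uᴴ := by
  refine Matrix.ext fun i j => ?_
  rw [Matrix.mul_apply, Fintype.sum_prod_type, Matrix.mul_apply]
  refine Finset.sum_congr rfl fun k _ => ?_
  have : ∀ l, TT U z i (k, l) * (TT U z)ᴴ (k, l) j = (U i k * Uᴴ k j) * (z l * conj (z l)) := by
    intro l
    rw [Matrix.conjTranspose_apply, Matrix.conjTranspose_apply]
    change U i k * conj (z l) * conj (U j k * conj (z l)) = (U i k * conj (U j k)) * (z l * conj (z l))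
    rw [map_mul, Complex.conj_conj]
    ring
  simp only [this]
  rw [← Finset.mul_sum, hz, mul_one]

theorem TT_mul' (U : Matrix q p ℂ) (z : κ → ℂ) :
    (TT U z)ᴴ * TT U z = (Uᴴ * U) ⊗ₖ lin z := by
  refine Matrix.ext ?_
  rintro ⟨i, i'⟩ ⟨j, j'⟩
  rw [Matrix.mul_apply, Matrix.kroneckerMap_apply, Matrix.mul_apply, Finset.sum_mul]
  refine Finset.sum_congr rfl fun k _ => ?_
  rw [Matrix.conjTranspose_apply, Matrix.conjTranspose_apply]
  change conj (U k i * conj (z i')) * (U k j * conj (z j')) = conj (U k i) * U k j * (z i' * conj (z j'))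
  rw [map_mul, Complex.conj_conj]
  ring

theorem lin_idem {z : κ → ℂ} (hz : ∑ i, z i * conj (z i) = 1) : lin z * lin z = lin z := by
  refine Matrix.ext fun i j => ?_
  rw [Matrix.mul_apply]
  have : ∀ l, lin z i l * lin z l j = (z i * conj (z j)) * (z l * conj (z l)) := fun l => by
    change z i * conj (z l) * (z l * conj (z j)) = _
    ring
  simp only [this]
  rw [← Finset.mul_sum, hz, mul_one]
  rfl

theorem lin_trace {z : κ → ℂ} (hz : ∑ i, z i * conj (z i) = 1) : (lin z).trace = 1 := hz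

theorem lin_rank {z : κ → ℂ} (hz : ∑ i, z i * conj (z i) = 1) : (lin z).rank = 1 := by
  have h := rank_eq_trace (lin_idem hz)
  rw [lin_trace hz] at h
  exact_mod_cast h

/-- the partial isometry -/
theorem PD.pIso (h : PD M₁ M₂ n t₁ t₂) {z : κ → ℂ} (hz : ∑ i, z i * conj (z i) = 1) :
    SP.PIso (qJ (t₂ * NNm M₁ M₂ n * t₂ᵀ) (t₂ * JNm M₁ M₂ n * t₂ᵀ)) ((t₁ * n * t₁ᵀ) ⊗ₖ lin z)
      (TT (UU M₁ M₂ n t₁ t₂) z)ᴴ (TT (UU M₁ M₂ n t₁ t₂) z) := by
  set U := UU M₁ M₂ n t₁ t₂ with hU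
  have e1 := TT_mul U hz
  have e2 := TT_mul' U z
  rw [h.UUH] at e1
  rw [h.UHU] at e2
  set P := qJ (t₂ * NNm M₁ M₂ n * t₂ᵀ) (t₂ * JNm M₁ M₂ n * t₂ᵀ) with hP
  set Q := (t₁ * n * t₁ᵀ) ⊗ₖ lin z with hQ
  set V := TT U z with hV
  have hPP : P * P = P := h.rj.qJ_idem
  have hPH : Pᴴ = P := by rw [← e1, Matrix.conjTranspose_mul, Matrix.conjTranspose_conjTranspose]
  -- `P V = V`
  have h0 : (P * V - V) * (P * V - V)ᴴ = 0 := by
    rw [Matrix.conjTranspose_sub, Matrix.conjTranspose_mul, hPH, Matrix.sub_mul, Matrix.mul_sub,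
      Matrix.mul_sub]
    have a1 : P * V * (Vᴴ * P) = P := by
      rw [Matrix.mul_assoc, ← Matrix.mul_assoc V, e1, hPP, hPP]
    have a2 : P * V * Vᴴ = P := by rw [Matrix.mul_assoc, e1, hPP]
    have a3 : V * (Vᴴ * P) = P := by rw [← Matrix.mul_assoc, e1, hPP]
    rw [a1, a2, a3, e1, sub_self]
  have h1 : P * V = V := by
    open scoped ComplexOrder in
    have := Matrix.self_mul_conjTranspose_eq_zero.1 h0
    exact sub_eq_zero.1 this
  have h2 : Vᴴ * P = Vᴴ := by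
    have := congrArg Matrix.conjTranspose h1
    rwa [Matrix.conjTranspose_mul, hPH] at this
  refine ⟨h2, ?_, ?_, h1, e1, e2⟩
  · rw [← e2, Matrix.mul_assoc, e1, h2]
  · rw [← e2, ← Matrix.mul_assoc, e1, h1]

end pt

end Crest.Agent.R208.EW
end
end

-- ▼ part R208/EW3
section

/-! Row 208, block EW (helper607).  EW3: the Euler class of the descended doubled bundle. -/

set_option autoImplicit false
set_option linter.unusedSectionVars false
set_option linter.unusedVariables false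
set_option linter.unusedSimpArgs false

open Set Filter Topology Module MeasureTheory Matrix
open scoped ContDiff RealInnerProductSpace ComplexConjugate Kronecker
open Crest.Agent.R208.F Crest.Agent.R208.FI Crest.Agent.R208.CW Crest.Agent.R208.T
open Crest.Agent.R208.CM

noncomputable section

namespace Crest.Agent.R208.EW

section rk
variable {a : Type} [Fintype a] [DecidableEq a]

/-- complexification preserves the rank of projections -/
theorem rank_mtx {A : EuclideanSpace ℝ a →L[ℝ] EuclideanSpace ℝ a} (hA : ∀ v, A (A v) = A v) :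
    (mtx A).rank = finrank ℝ (LinearMap.range (A : EuclideanSpace ℝ a →ₗ[ℝ] EuclideanSpace ℝ a)) := by
  have h1 : mtx A * mtx A = mtx A := by
    rw [← mc_eq_mtx, ← mc_comp]
    congr 1
    ext1 v
    exact hA v
  have h2 := rank_eq_trace h1
  have h3 : IsIdempotentElem (A : EuclideanSpace ℝ a →ₗ[ℝ] EuclideanSpace ℝ a) :=
    LinearMap.ext fun v => hA v
  have h4 := (LinearMap.IsIdempotentElem.isProj_range _ h3).trace
  have h5 : LinearMap.trace ℝ _ (A : EuclideanSpace ℝ a →ₗ[ℝ] EuclideanSpace ℝ a)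
      = ∑ i, A (EuclideanSpace.single i 1) i := by
    rw [LinearMap.trace_eq_matrix_trace ℝ (EuclideanSpace.basisFun a ℝ).toBasis, Matrix.trace]
    refine Finset.sum_congr rfl fun i _ => ?_
    rw [Matrix.diag_apply, LinearMap.toMatrix_apply]
    simp
  rw [h5] at h4
  have h6 : (mtx A).trace = ((∑ i, A (EuclideanSpace.single i 1) i : ℝ) : ℂ) := by
    rw [Matrix.trace]
    push_cast
    rfl
  rw [h6, h4] at h2
  have h7 : ((mtx A).rank : ℝ) = (finrank ℝ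
    (LinearMap.range (A : EuclideanSpace ℝ a →ₗ[ℝ] EuclideanSpace ℝ a)) : ℝ) := by exact_mod_cast h2
  exact_mod_cast h7

end rk

section glob
variable {E : Type} [NormedAddCommGroup E] [NormedSpace ℝ E] [FiniteDimensional ℝ E]
  {a b p q κ : Type} [Fintype a] [DecidableEq a] [Fintype b] [DecidableEq b] [Fintype p]
  [DecidableEq p] [Fintype q] [DecidableEq q] [Fintype κ] [DecidableEq κ]
  {X : Set E} {φ : ℝ → E → E} {m d r : ℕ} {g : E → Fin m → ℂ}
  {R : ℝ → EuclideanSpace ℝ a →L[ℝ] EuclideanSpace ℝ a}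
  {R₂ : ℝ → EuclideanSpace ℝ b →L[ℝ] EuclideanSpace ℝ b}
  {T : E → EuclideanSpace ℝ a →L[ℝ] EuclideanSpace ℝ p}
  {T₂ : E → EuclideanSpace ℝ b →L[ℝ] EuclideanSpace ℝ q}
  {N : E → EuclideanSpace ℝ a →L[ℝ] EuclideanSpace ℝ a}
  {NN : E → EuclideanSpace ℝ b →L[ℝ] EuclideanSpace ℝ b}
  {i₁ i₂ : EuclideanSpace ℝ a →L[ℝ] EuclideanSpace ℝ b} {w : ℝ} {z : E → κ → ℂ}

/-- all the data: the doubled bundle with the twisted rotation, and a line of weight `w` -/
structure DD2 (X : Set E) (φ : ℝ → E → E) (R : ℝ → EuclideanSpace ℝ a →L[ℝ] EuclideanSpace ℝ a)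
    (R₂ : ℝ → EuclideanSpace ℝ b →L[ℝ] EuclideanSpace ℝ b)
    (T : E → EuclideanSpace ℝ a →L[ℝ] EuclideanSpace ℝ p)
    (T₂ : E → EuclideanSpace ℝ b →L[ℝ] EuclideanSpace ℝ q)
    (N : E → EuclideanSpace ℝ a →L[ℝ] EuclideanSpace ℝ a)
    (NN : E → EuclideanSpace ℝ b →L[ℝ] EuclideanSpace ℝ b)
    (i₁ i₂ : EuclideanSpace ℝ a →L[ℝ] EuclideanSpace ℝ b) (w : ℝ) (z : E → κ → ℂ) : Prop where
  dbl : Dbl i₁ i₂
  rep : Rep R
  rep₂ : Rep R₂
  triv : Triv X φ R T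
  triv₂ : Triv X φ R₂ T₂
  rot : ∀ t u v, R₂ t (i₁ u + i₂ v) = i₁ (Real.cos (w * t) • R t u - Real.sin (w * t) • R t v)
    + i₂ (Real.sin (w * t) • R t u + Real.cos (w * t) • R t v)
  smN : ∀ x ∈ X, ContDiffAt ℝ ∞ N x
  idN : ∀ x ∈ X, ∀ v, N x (N x v) = N x v
  syN : ∀ x ∈ X, ∀ u v, ⟪N x u, v⟫ = ⟪u, N x v⟫
  eqN : ∀ x ∈ X, ∀ t v, N (φ t x) (R t v) = R t (N x v)
  nn : ∀ x ∈ X, ∀ u v, NN x (i₁ u + i₂ v) = i₁ (N x u) + i₂ (N x v)
  smz : ∀ x ∈ X, ContDiffAt ℝ ∞ z x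
  unit : ∀ x ∈ X, ∑ i, z x i * conj (z x i) = 1
  eqz : ∀ x ∈ X, ∀ t : ℝ, z (φ t x) = Complex.exp ((w * t : ℝ) * Complex.I) • z x

theorem adj_eq_of_sym {A : EuclideanSpace ℝ a →L[ℝ] EuclideanSpace ℝ a}
    (h : ∀ u v, ⟪A u, v⟫ = ⟪u, A v⟫) : ContinuousLinearMap.adjoint A = A := by
  ext1 u
  refine ext_inner_right ℝ fun v => ?_
  rw [ContinuousLinearMap.adjoint_inner_left, h]

theorem mc_iso {c e : Type} [Fintype c] [DecidableEq c] [Fintype e] [DecidableEq e]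
    {A : EuclideanSpace ℝ c →L[ℝ] EuclideanSpace ℝ e} (h : ∀ v, ‖A v‖ = ‖v‖) :
    (mc A)ᵀ * mc A = 1 := by
  have h1 := MT_iso h
  have h2 := congrArg (fun M : Matrix c c ℝ => M.map (algebraMap ℝ ℂ)) h1
  rw [Matrix.map_mul, Matrix.map_one _ (map_zero _) (map_one _)] at h2
  exact h2

theorem DD2.pd (h : DD2 X φ R R₂ T T₂ N NN i₁ i₂ w z) {x : E} (hx : x ∈ X) :
    PD (mc i₁) (mc i₂) (mc (N x)) (mc (T x)) (mc (T₂ x)) := by
  refine ⟨h.dbl.i11, h.dbl.i22, h.dbl.i12, h.dbl.i21, mc_iso (h.triv.iso x hx),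
    mc_iso (h.triv₂.iso x hx), ?_, ?_, mc_H _, mc_H _, mc_H _, mc_H _, mc_H _⟩
  · rw [← mc_comp]
    congr 1
    ext1 v
    exact h.idN x hx v
  · rw [← mc_adj, adj_eq_of_sym (h.syN x hx)]

/-- the intertwiner field on `X` -/
def Ux (T : E → EuclideanSpace ℝ a →L[ℝ] EuclideanSpace ℝ p)
    (T₂ : E → EuclideanSpace ℝ b →L[ℝ] EuclideanSpace ℝ q)
    (N : E → EuclideanSpace ℝ a →L[ℝ] EuclideanSpace ℝ a)
    (i₁ i₂ : EuclideanSpace ℝ a →L[ℝ] EuclideanSpace ℝ b) (x : E) : Matrix q p ℂ :=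
  UU (mc i₁) (mc i₂) (mc (N x)) (mc (T x)) (mc (T₂ x))

theorem DD2.equi (h : DD2 X φ R R₂ T T₂ N NN i₁ i₂ w z) {x : E} (hx : x ∈ X) (t : ℝ) :
    Ux T T₂ N i₁ i₂ (φ t x) = Complex.exp ((w * t : ℝ) * Complex.I) • Ux T T₂ N i₁ i₂ x := by
  have e1 : (mc (T (φ t x)))ᵀ = mc (R t) * (mc (T x))ᵀ := by
    rw [← mc_adj, ← mc_adj, ← mc_comp]
    congr 1
    ext1 v
    exact h.triv.adj_equi h.rep hx t v
  have e2 : mc (N (φ t x)) * mc (R t) = mc (R t) * mc (N x) := by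
    rw [← mc_comp, ← mc_comp]
    congr 1
    ext1 v
    exact h.eqN x hx t v
  have e3 : mc (T₂ (φ t x)) = mc (T₂ x) * mc (R₂ (-t)) := by
    rw [← mc_comp]
    congr 1
    ext1 v
    exact h.triv₂.equi' h.rep₂ hx t v
  have e4 : mc (R₂ (-t)) * (mc i₁ * mc (R t))
      = (Real.cos (w * t) : ℂ) • mc i₁ - (Real.sin (w * t) : ℂ) • mc i₂ := by
    rw [← mc_comp, ← mc_comp, ← mc_smul, ← mc_smul, ← mc_sub]
    congr 1
    ext1 v
    have := h.rot (-t) (R t v) 0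
    rw [map_zero, add_zero] at this
    change R₂ (-t) (i₁ (R t v)) = Real.cos (w * t) • i₁ v - Real.sin (w * t) • i₂ v
    rw [this, h.rep.neg_add, map_zero, smul_zero, smul_zero, sub_zero, add_zero, mul_neg,
      Real.cos_neg, Real.sin_neg, map_smul, map_smul, neg_smul, sub_eq_add_neg]
  have e5 : mc (R₂ (-t)) * (mc i₂ * mc (R t))
      = (Real.sin (w * t) : ℂ) • mc i₁ + (Real.cos (w * t) : ℂ) • mc i₂ := by
    rw [← mc_comp, ← mc_comp, ← mc_smul, ← mc_smul, ← mc_add]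
    congr 1
    ext1 v
    have := h.rot (-t) 0 (R t v)
    rw [map_zero, zero_add] at this
    change R₂ (-t) (i₂ (R t v)) = Real.sin (w * t) • i₁ v + Real.cos (w * t) • i₂ v
    rw [this, h.rep.neg_add, map_zero, smul_zero, smul_zero, zero_sub, zero_add, mul_neg,
      Real.cos_neg, Real.sin_neg, map_neg, map_smul, map_smul, neg_smul, neg_neg]
  have e6 : ∀ Y : Matrix b a ℂ, mc (T₂ (φ t x)) * (Y * (mc (N (φ t x)) * (mc (T (φ t x)))ᵀ))
      = mc (T₂ x) * ((mc (R₂ (-t)) * (Y * mc (R t))) * (mc (N x) * (mc (T x))ᵀ)) := fun Y => by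
    rw [e1, e3, ← Matrix.mul_assoc (mc (N (φ t x))), e2]
    simp only [Matrix.mul_assoc]
  rw [Ux, Ux, UU, UU, e6, e6, e4, e5, Complex.exp_mul_I, ← Complex.ofReal_cos, ← Complex.ofReal_sin]
  generalize ((Real.sin (w * t) : ℝ) : ℂ) = s
  generalize ((Real.cos (w * t) : ℝ) : ℂ) = c
  generalize (((Real.sqrt 2 : ℝ) : ℂ)⁻¹) = r2
  simp only [Matrix.sub_mul, Matrix.add_mul, Matrix.mul_sub, Matrix.mul_add, Matrix.smul_mul,
    Matrix.mul_smul]
  match_scalars <;> first | ring1 | linear_combination (-(r2 * s)) * Complex.I_sq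

/-- the invariant matrix field on `X` -/
def Vx (T : E → EuclideanSpace ℝ a →L[ℝ] EuclideanSpace ℝ p)
    (T₂ : E → EuclideanSpace ℝ b →L[ℝ] EuclideanSpace ℝ q)
    (N : E → EuclideanSpace ℝ a →L[ℝ] EuclideanSpace ℝ a)
    (i₁ i₂ : EuclideanSpace ℝ a →L[ℝ] EuclideanSpace ℝ b) (z : E → κ → ℂ) (x : E) :
    q → (p × κ) → ℂ := TT (Ux T T₂ N i₁ i₂ x) (z x)

theorem DD2.Vx_inv (h : DD2 X φ R R₂ T T₂ N NN i₁ i₂ w z) {x : E} (hx : x ∈ X) (t : ℝ) :
    Vx T T₂ N i₁ i₂ z (φ t x) = Vx T T₂ N i₁ i₂ z x := by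
  have h1 : Complex.exp ((w * t : ℝ) * Complex.I) * conj (Complex.exp ((w * t : ℝ) * Complex.I)) = 1 := by
    rw [Complex.mul_conj, Complex.normSq_eq_norm_sq, Complex.norm_exp_ofReal_mul_I]
    simp
  funext j i
  change Ux T T₂ N i₁ i₂ (φ t x) j i.1 * conj (z (φ t x) i.2) = Ux T T₂ N i₁ i₂ x j i.1 * conj (z x i.2)
  rw [h.equi hx, h.eqz x hx, Matrix.smul_apply, Pi.smul_apply, smul_eq_mul, smul_eq_mul, map_mul]
  linear_combination (Ux T T₂ N i₁ i₂ x j i.1 * conj (z x i.2)) * h1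

theorem DD2.contDiffAt_Vx (h : DD2 X φ R R₂ T T₂ N NN i₁ i₂ w z) {x : E} (hx : x ∈ X) :
    ContDiffAt ℝ ∞ (Vx T T₂ N i₁ i₂ z) x := by
  rw [contDiffAt_pi]
  intro j
  rw [contDiffAt_pi]
  rintro ⟨i, k⟩
  have h1 : SM ∞ (fun y => mc (T y)) x := contDiffAt_mc (h.triv.smooth x hx)
  have h2 : SM ∞ (fun y => mc (T₂ y)) x := contDiffAt_mc (h.triv₂.smooth x hx)
  have h3 : SM ∞ (fun y => mc (N y)) x := contDiffAt_mc (h.smN x hx)
  have h4 : SM ∞ (fun y => Ux T T₂ N i₁ i₂ y) x :=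
    SM.csmul _ ((h2.mul ((SM.const _).mul (h3.mul h1.transpose))).add
      (SM.csmul _ (h2.mul ((SM.const _).mul (h3.mul h1.transpose)))))
  exact (h4 j i).mul (Complex.conjCLE.contDiff.contDiffAt.comp x (contDiffAt_pi.1 (h.smz x hx) k))

/-- `NN` in terms of `N` -/
theorem DD2.mc_NN (h : DD2 X φ R R₂ T T₂ N NN i₁ i₂ w z) {x : E} (hx : x ∈ X) :
    mc (NN x) = NNm (mc i₁) (mc i₂) (mc (N x)) := by
  have e : NNm (mc i₁) (mc i₂) (mc (N x))
      = mc ((i₁.comp ((N x).comp (ContinuousLinearMap.adjoint i₁)))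
        + (i₂.comp ((N x).comp (ContinuousLinearMap.adjoint i₂)))) := by
    rw [mc_add, mc_comp, mc_comp, mc_comp, mc_comp, mc_adj, mc_adj, NNm, Matrix.mul_assoc,
      Matrix.mul_assoc]
  rw [e]
  refine h.dbl.mc_eq fun u v => ?_
  have a1 : ContinuousLinearMap.adjoint i₁ (i₁ u + i₂ v) = u := by
    refine ext_inner_right ℝ fun y => ?_
    rw [ContinuousLinearMap.adjoint_inner_left]
    have := h.dbl.inner u v y 0
    simpa using this
  have a2 : ContinuousLinearMap.adjoint i₂ (i₁ u + i₂ v) = v := by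
    refine ext_inner_right ℝ fun y => ?_
    rw [ContinuousLinearMap.adjoint_inner_left]
    have := h.dbl.inner u v 0 y
    simpa using this
  change NN x (i₁ u + i₂ v) = i₁ (N x (ContinuousLinearMap.adjoint i₁ (i₁ u + i₂ v)))
    + i₂ (N x (ContinuousLinearMap.adjoint i₂ (i₁ u + i₂ v)))
  rw [a1, a2, h.nn x hx]

variable {ι : Type} [Fintype ι] [DecidableEq ι]
  {P' : MM m → EuclideanSpace ℝ p →L[ℝ] EuclideanSpace ℝ p}
  {P₂ : MM m → EuclideanSpace ℝ q →L[ℝ] EuclideanSpace ℝ q} {W₂ : MM m → (ι × Fin 2 → q) → ℝ}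
  {L : MM m → Matrix κ κ ℂ}

theorem mc_Qd {c e : Type} [Fintype c] [DecidableEq c] [Fintype e] [DecidableEq e]
    (T : E → EuclideanSpace ℝ c →L[ℝ] EuclideanSpace ℝ e)
    (N : E → EuclideanSpace ℝ c →L[ℝ] EuclideanSpace ℝ c) (x : E) :
    mtx (Qd T N x) = mc (T x) * mc (N x) * (mc (T x))ᵀ := by
  rw [← mc_eq_mtx, Qd, mc_comp, mc_comp, mc_adj, Matrix.mul_assoc]

/-- **the Euler class of the descended doubled bundle**: top Chern class of `N_ℂ ⊗ (line)` -/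
theorem DD2.ec_eq (h : DD2 X φ R R₂ T T₂ N NN i₁ i₂ w z) (hg : Emb X φ g) (hC : Cir X φ)
    (hX : Clo (d + 1) X) (hXc : IsPreconnected X)
    (hP : IdF (Quo X g) fun y => mtx (P' y)) (hPr : ∀ y ∈ Quo X g, (mtx (P' y)).rank = r)
    (hP' : ∀ x ∈ X, P' (jj g x) = Qd T N x)
    (hO : OR (ι := ι) (Quo X g) P₂ W₂) (hι : Fintype.card ι = r)
    (hP₂ : ∀ x ∈ X, P₂ (jj g x) = Qd T₂ NN x)
    (hL : IdF (Quo X g) L) (hLz : ∀ x ∈ X, L (jj g x) = lin (z x)) :
    ∃ ε : ℂ, (ε = 1 ∨ ε = -1) ∧ ec (OR.of hO)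
      = (ε * ((2 : ℂ) ^ r * (r.factorial) * Complex.I ^ r))
        • ∑ i ∈ Finset.range (r + 1), cc (hg.sub_Quo hC hX) hP i
          * sc (hg.sub_Quo hC hX) hL 1 ^ (r - i) := by
  subst hι
  obtain ⟨V, hVs, hV⟩ := hg.exists_desc hC hX (f := Vx T T₂ N i₁ i₂ z)
    (fun x hx => h.contDiffAt_Vx hx) (fun x hx t => h.Vx_inv hx t)
  -- matrices on the quotient
  let V' : MM m → Matrix q (p × κ) ℂ := fun y => Matrix.of (V y)
  have hVsm : ∀ y, SM ∞ V' y := fun y i j =>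
    (contDiffAt_pi.1 (contDiffAt_pi.1 hVs.contDiffAt i) j)
  have hVH : ∀ y, SM ∞ (fun y => (V' y)ᴴ) y := fun y i j =>
    Complex.conjCLE.contDiff.contDiffAt.comp y (hVsm y j i)
  let K : MM m → Matrix q q ℂ := fun y => V' y * (V' y)ᴴ
  have hKs : ∀ y, SM ∞ K y := fun y => (hVsm y).mul (hVH y)
  let J : MM m → Matrix q q ℂ := fun y => Complex.I • (K y - (K y).map (starRingEnd ℂ))
  have hJs : ∀ y, SM ∞ J y := fun y => SM.csmul _ ((hKs y).sub (hKs y).conj)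
  have hVx : ∀ x ∈ X, V' (jj g x) = TT (Ux T T₂ N i₁ i₂ x) (z x) := fun x hx => by
    change Matrix.of (V (jj g x)) = _
    rw [hV x hx]; rfl
  have hK : ∀ x ∈ X, K (jj g x) = qJ (mc (T₂ x) * NNm (mc i₁) (mc i₂) (mc (N x)) * (mc (T₂ x))ᵀ)
      (mc (T₂ x) * JNm (mc i₁) (mc i₂) (mc (N x)) * (mc (T₂ x))ᵀ) := fun x hx => by
    change V' (jj g x) * (V' (jj g x))ᴴ = _
    rw [hVx x hx, TT_mul _ (h.unit x hx), Ux, (h.pd hx).UUH]
  have hPm : ∀ x ∈ X, mtx (P₂ (jj g x))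
      = mc (T₂ x) * NNm (mc i₁) (mc i₂) (mc (N x)) * (mc (T₂ x))ᵀ := fun x hx => by
    rw [hP₂ x hx, mc_Qd, h.mc_NN hx]
  have hJ : ∀ x ∈ X, J (jj g x)
      = mc (T₂ x) * JNm (mc i₁) (mc i₂) (mc (N x)) * (mc (T₂ x))ᵀ := fun x hx => by
    change Complex.I • (K (jj g x) - (K (jj g x)).map (starRingEnd ℂ)) = _
    rw [hK x hx, (h.pd hx).rj.conj_qJ, qJ]
    simp only [smul_neg, smul_sub, smul_add, smul_smul]
    match_scalars <;> first | ring1 | linear_combination (-1 : ℂ) * Complex.I_sq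
  have hr : ∀ y ∈ Quo X g, RJ (mtx (P₂ y)) (J y) := by
    rintro _ ⟨x, hx, rfl⟩
    rw [hPm x hx, hJ x hx]
    exact (h.pd hx).rj
  have hQ : IdF (Quo X g) (fun y => qJ (mtx (P₂ y)) (J y)) :=
    ⟨fun y hy => SM.qJ ((OR.of hO).sP y hy) (hJs y), fun y hy => (hr y hy).qJ_idem⟩
  have hXq : IsPreconnected (Quo X g) := hXc.image _ fun x hx =>
    (hg.contDiffAt_jj hx).continuousAt.continuousWithinAt
  obtain ⟨ε, hε, he⟩ := ec_complex (hg.sub_Quo hC hX) hXq (OR.of hO) (fun y _ => hJs y) hr hQ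
  refine ⟨ε, hε, ?_⟩
  have hiso : cs (hg.sub_Quo hC hX) hQ = cs (hg.sub_Quo hC hX) (hP.kron hL) := by
    refine cs_iso _ hQ (hP.kron hL) (S := fun y => (V' y)ᴴ) (fun y _ => hVH y) ?_
    rintro _ ⟨x, hx, rfl⟩
    refine ⟨V' (jj g x), ?_⟩
    have := (h.pd hx).pIso (κ := κ) (h.unit x hx)
    rw [hPm x hx, hJ x hx, hLz x hx, hP' x hx, hVx x hx, mc_Qd]
    exact this
  have hcc : cc (hg.sub_Quo hC hX) hQ (Fintype.card ι)
      = cc (hg.sub_Quo hC hX) (hP.kron hL) (Fintype.card ι) := by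
    rw [← coeff_cs, ← coeff_cs, hiso]
  rw [he, hcc, cc_kron_line _ hP hL hPr]
  rintro _ ⟨x, hx, rfl⟩
  rw [hLz x hx]
  exact lin_rank (h.unit x hx)

end glob

end Crest.Agent.R208.EW
end
end

-- ▼ part R208/EW4
section

/-! Row 208, block EW (helper607).  EW4: the first Chern class of the tautological line is
`± i [curvature]`; powers of the line. -/

set_option autoImplicit false
set_option linter.unusedSectionVars false
set_option linter.unusedVariables false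
set_option linter.unusedSimpArgs false

open Set Filter Topology Module MeasureTheory Matrix
open scoped ContDiff RealInnerProductSpace ComplexConjugate Kronecker
open Crest.Agent.R208.F Crest.Agent.R208.FI Crest.Agent.R208.CW
open Crest.Agent.R208.CM
open Crest.Agent.R208.T (Sm Cl Eqv Coh Hom mtx wC EC rcl OR)

noncomputable section

namespace Crest.Agent.R208.EW

variable {m : ℕ}

/-- the tautological complex line -/
def Lt (y : MM m) : Matrix (Fin m) (Fin m) ℂ := Matrix.of y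

theorem Lt_jj {E : Type} {g : E → Fin m → ℂ} (x : E) : Lt (jj g x) = lin (g x) := rfl

theorem SM_Lt (y : MM m) {k : WithTop ℕ∞} : SM k (Lt (m := m)) y := fun i j =>
  contDiffAt_pi.1 (contDiffAt_pi.1 contDiffAt_id i) j

section line
variable {E : Type} [NormedAddCommGroup E] [NormedSpace ℝ E] [FiniteDimensional ℝ E]
  {X : Set E} {φ : ℝ → E → E} {g : E → Fin m → ℂ} {n : ℕ} {al : E → Ext E}
  {Fc : MM m → Ext (MM m)}

theorem sum_g (hg : Emb X φ g) {x : E} (hx : x ∈ X) : ∑ i, g x i * conj (g x i) = 1 := by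
  rw [← hg.sum_eq hx]
  exact Finset.sum_congr rfl fun i _ => mul_comm _ _

theorem idF_Lt (hg : Emb X φ g) : IdF (Quo X g) (Lt (m := m)) := by
  refine ⟨fun y _ => SM_Lt y, ?_⟩
  rintro _ ⟨x, hx, rfl⟩
  exact lin_idem (sum_g hg hx)

theorem rank_Lt (hg : Emb X φ g) : ∀ y ∈ Quo X g, (Lt (m := m) y).rank = 1 := by
  rintro _ ⟨x, hx, rfl⟩
  exact lin_rank (sum_g hg hx)

/-- the entries `ce` as a matrix -/
def CE (y : MM m) : Matrix (RI m) (RI m) ℂ := Matrix.of fun p q => ce y p q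

theorem mtx_PL (y : MM m) : mtx (PL y) = ((1 : ℂ) / 2) • (CE y + (CE y).map (starRingEnd ℂ)) := by
  refine Matrix.ext fun p q => ?_
  have h1 : mtx (PL y) p q = ((Pm y p q : ℝ) : ℂ) := by
    rw [PL, T.mtx_mE, T.mE_single]
  rw [h1, Matrix.smul_apply, Matrix.add_apply, Matrix.map_apply]
  change ((ce y p q).re : ℂ) = (1 / 2) • (ce y p q + conj (ce y p q))
  rw [Complex.add_conj, smul_eq_mul]
  push_cast
  ring

theorem CE_mul {x : E} (hg : Emb X φ g) (hx : x ∈ X) :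
    CE (jj g x) * CE (jj g x) = (2 : ℂ) • CE (jj g x) := by
  refine Matrix.ext fun p q => ?_
  rw [Matrix.mul_apply, Fintype.sum_prod_type, Matrix.smul_apply, smul_eq_mul]
  have h1 : ∀ (b : Fin m) (s : Fin 2), CE (jj g x) p (b, s) * CE (jj g x) (b, s) q
      = ce (jj g x) p q * (g x b * conj (g x b)) * (wz s * conj (wz s)) := by
    intro b s
    change ce (jj g x) p (b, s) * ce (jj g x) (b, s) q = _
    rw [ce_jj, ce_jj, ce_jj]
    simp only [map_mul]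
    ring
  simp only [h1, Fin.sum_univ_two, wz_zero, wz_one, map_one, map_neg, Complex.conj_I, mul_one,
    neg_neg]
  have h2 : -Complex.I * Complex.I = 1 := by rw [neg_mul, Complex.I_mul_I, neg_neg]
  simp only [h2, mul_one]
  rw [Finset.sum_add_distrib, ← Finset.mul_sum, sum_g hg hx, mul_one, two_mul]
  rfl

theorem CE_mul_conj {x : E} : CE (jj g x) * (CE (jj g x)).map (starRingEnd ℂ) = 0 := by
  refine Matrix.ext fun p q => ?_
  rw [Matrix.mul_apply, Fintype.sum_prod_type]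
  refine Finset.sum_eq_zero fun b _ => ?_
  have h1 : ∀ (s : Fin 2), CE (jj g x) p (b, s) * (CE (jj g x)).map (starRingEnd ℂ) (b, s) q
      = (g x p.1 * wz p.2) * (g x q.1 * wz q.2) * (conj (g x b) * conj (g x b)) * (conj (wz s) * conj (wz s)) := by
    intro s
    change ce (jj g x) p (b, s) * conj (ce (jj g x) (b, s) q) = _
    rw [ce_jj, ce_jj]
    simp only [map_mul, Complex.conj_conj]
    ring
  simp only [h1, Fin.sum_univ_two, wz_zero, wz_one, map_one, map_neg, Complex.conj_I, mul_one,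
    neg_neg, Complex.I_mul_I]
  ring

/-- the complex structure of the real tautological line -/
def JL (y : MM m) : Matrix (RI m) (RI m) ℂ :=
  (Complex.I / 2) • (CE y - (CE y).map (starRingEnd ℂ))

theorem SM_CE (y : MM m) {k : WithTop ℕ∞} : SM k (CE (m := m)) y := fun p q => by
  have h1 : ContDiffAt ℝ k (fun y : MM m => y p.1 q.1) y :=
    contDiffAt_pi.1 (contDiffAt_pi.1 contDiffAt_id p.1) q.1
  exact h1.mul contDiffAt_const

theorem SM_JL (y : MM m) {k : WithTop ℕ∞} : SM k (JL (m := m)) y :=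
  SM.csmul _ ((SM_CE y).sub (SM_CE y).conj)

theorem CE_T {x : E} : (CE (jj g x))ᵀ = (CE (jj g x)).map (starRingEnd ℂ) := by
  refine Matrix.ext fun p q => ?_
  change ce (jj g x) q p = conj (ce (jj g x) p q)
  rw [ce_jj, ce_jj]
  simp only [map_mul, Complex.conj_conj]
  ring

theorem rj_L (hg : Emb X φ g) : ∀ y ∈ Quo X g, RJ (mtx (PL (m := m) y)) (JL y) := by
  rintro _ ⟨x, hx, rfl⟩
  set C := CE (jj g x) with hC
  set D := C.map (starRingEnd ℂ) with hD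
  have cc : C * C = (2 : ℂ) • C := CE_mul hg hx
  have cd : C * D = 0 := CE_mul_conj
  have dd : D * D = (2 : ℂ) • D := by
    have := congrArg (fun M : Matrix (RI m) (RI m) ℂ => M.map (starRingEnd ℂ)) cc
    rw [Matrix.map_mul] at this
    rw [hD, this]
    refine Matrix.ext fun i j => ?_
    change conj ((2 : ℂ) * C i j) = 2 * conj (C i j)
    rw [map_mul, Complex.conj_ofNat]
  have dc : D * C = 0 := by
    have := congrArg (fun M : Matrix (RI m) (RI m) ℂ => M.map (starRingEnd ℂ)) cd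
    rw [Matrix.map_mul] at this
    have e : D.map (starRingEnd ℂ) = C := by
      refine Matrix.ext fun i j => ?_
      change conj (conj (C i j)) = C i j
      rw [Complex.conj_conj]
    rw [e] at this
    rw [this]
    exact Matrix.ext fun i j => map_zero (starRingEnd ℂ)
  have ct : Cᵀ = D := CE_T
  have dt : Dᵀ = C := by rw [← ct, Matrix.transpose_transpose]
  have cjP : ∀ c : ℂ, ∀ s : ℂ, (c • (C + s • D)).map (starRingEnd ℂ)
      = conj c • (D + conj s • C) := fun c s => by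
    refine Matrix.ext fun i j => ?_
    change conj (c * (C i j + s * D i j)) = conj c * (D i j + conj s * C i j)
    have : D i j = conj (C i j) := rfl
    rw [this, map_mul, map_add, map_mul, Complex.conj_conj]
  refine ⟨?_, ?_, ?_, ?_, ?_, ?_, ?_⟩
  · rw [mtx_PL, cj_map]
    have := cjP (1 / 2) 1
    rw [one_smul, map_one, one_smul] at this
    rw [← hC, ← hD, this, map_div₀, map_one, map_ofNat, add_comm]
  · rw [JL, cj_map]
    have := cjP (Complex.I / 2) (-1)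
    rw [neg_smul, one_smul, map_neg, map_one, neg_smul, one_smul, ← sub_eq_add_neg,
      ← sub_eq_add_neg] at this
    rw [← hC, ← hD, this, map_div₀, map_ofNat, Complex.conj_I]
    module
  · rw [mtx_PL, Matrix.transpose_smul, Matrix.transpose_add, ← hC, ← hD, ct, dt, add_comm]
  · rw [mtx_PL, ← hC, ← hD]
    simp only [Matrix.smul_mul, Matrix.mul_smul, Matrix.add_mul, Matrix.mul_add, cc, cd, dc, dd]
    module
  · rw [mtx_PL, JL, ← hC, ← hD]
    simp only [Matrix.smul_mul, Matrix.mul_smul, Matrix.sub_mul, Matrix.mul_sub, cc, cd, dc, dd]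
    match_scalars <;> first | ring1 | linear_combination (1 / 2 : ℂ) * Complex.I_sq
  · rw [mtx_PL, JL, ← hC, ← hD]
    simp only [Matrix.smul_mul, Matrix.mul_smul, Matrix.sub_mul, Matrix.mul_add, cc, cd, dc, dd]
    module
  · rw [mtx_PL, JL, ← hC, ← hD]
    simp only [Matrix.smul_mul, Matrix.mul_smul, Matrix.add_mul, Matrix.mul_sub, cc, cd, dc, dd]
    module

theorem qJ_L (y : MM m) : qJ (mtx (PL y)) (JL y) = ((1 : ℂ) / 2) • CE y := by
  rw [qJ, mtx_PL, JL]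
  match_scalars <;> first | ring1 | linear_combination (-1 / 4 : ℂ) * Complex.I_sq | linear_combination (1 / 4 : ℂ) * Complex.I_sq

/-- intertwiner between the two descriptions of the line -/
def SL (y : MM m) : Matrix (Fin m) (RI m) ℂ :=
  Matrix.of fun a p => ((Real.sqrt 2 : ℝ) : ℂ)⁻¹ * (y a p.1 * conj (wz p.2))

def TL (y : MM m) : Matrix (RI m) (Fin m) ℂ :=
  Matrix.of fun p a => ((Real.sqrt 2 : ℝ) : ℂ)⁻¹ * (y p.1 a * wz p.2)

theorem sqrt2_sq' : ((Real.sqrt 2 : ℝ) : ℂ)⁻¹ * ((Real.sqrt 2 : ℝ) : ℂ)⁻¹ = 1 / 2 := sqrt2_sq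

theorem pIso_L (hg : Emb X φ g) : ∀ y ∈ Quo X g,
    SP.PIso (qJ (mtx (PL y)) (JL y)) (Lt y) (SL y) (TL y) := by
  rintro _ ⟨x, hx, rfl⟩
  set y := jj g x with hy
  rw [qJ_L]
  have yy : ∀ a b, ∑ c, y a c * y c b = y a b := fun a b => by
    have := congrFun (congrFun (lin_idem (sum_g hg hx)) a) b
    rwa [Matrix.mul_apply] at this
  have ww : ∑ s : Fin 2, wz s * conj (wz s) = 2 := by
    rw [Fin.sum_univ_two, wz_zero, wz_one, map_one, map_neg, Complex.conj_I, neg_neg, neg_mul,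
      Complex.I_mul_I]
    norm_num
  set r2 : ℂ := ((Real.sqrt 2 : ℝ) : ℂ)⁻¹ with hr2
  have r22 : r2 * r2 = 1 / 2 := sqrt2_sq'
  have key1 : ∀ a p, (SL y * (((1 : ℂ) / 2) • CE y)) a p = SL y a p := by
    intro a p
    rw [Matrix.mul_apply, Fintype.sum_prod_type]
    have h1 : ∀ (b : Fin m) (s : Fin 2), SL y a (b, s) * (((1 : ℂ) / 2) • CE y) (b, s) p
        = (r2 * (1 / 2) * conj (wz p.2)) * (y a b * y b p.1) * (wz s * conj (wz s)) := by
      intro b s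
      rw [Matrix.smul_apply, smul_eq_mul]
      change r2 * (y a b * conj (wz s)) * (1 / 2 * (y b p.1 * (wz s * conj (wz p.2)))) = _
      ring
    simp only [h1]
    simp only [← Finset.mul_sum, ww, ← Finset.sum_mul]
    rw [yy]
    change _ = r2 * (y a p.1 * conj (wz p.2))
    ring
  have key2 : ∀ p a, ((((1 : ℂ) / 2) • CE y) * TL y) p a = TL y p a := by
    intro p a
    rw [Matrix.mul_apply, Fintype.sum_prod_type]
    have h1 : ∀ (b : Fin m) (s : Fin 2), (((1 : ℂ) / 2) • CE y) p (b, s) * TL y (b, s) a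
        = (r2 * (1 / 2) * wz p.2) * (y p.1 b * y b a) * (wz s * conj (wz s)) := by
      intro b s
      rw [Matrix.smul_apply, smul_eq_mul]
      change (1 / 2 * (y p.1 b * (wz p.2 * conj (wz s)))) * (r2 * (y b a * wz s)) = _
      ring
    simp only [h1]
    simp only [← Finset.mul_sum, ww, ← Finset.sum_mul]
    rw [yy]
    change _ = r2 * (y p.1 a * wz p.2)
    ring
  refine ⟨Matrix.ext key1, ?_, ?_, Matrix.ext key2, ?_, ?_⟩
  · refine Matrix.ext fun a p => ?_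
    rw [Matrix.mul_apply]
    have h1 : ∀ c, Lt y a c * SL y c p = (r2 * conj (wz p.2)) * (y a c * y c p.1) := fun c => by
      change y a c * (r2 * (y c p.1 * conj (wz p.2))) = _
      ring
    simp only [h1]
    rw [← Finset.mul_sum, yy]
    change _ = r2 * (y a p.1 * conj (wz p.2))
    ring
  · refine Matrix.ext fun p a => ?_
    rw [Matrix.mul_apply]
    have h1 : ∀ c, TL y p c * Lt y c a = (r2 * wz p.2) * (y p.1 c * y c a) := fun c => by
      change (r2 * (y p.1 c * wz p.2)) * y c a = _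
      ring
    simp only [h1]
    rw [← Finset.mul_sum, yy]
    change _ = r2 * (y p.1 a * wz p.2)
    ring
  · refine Matrix.ext fun p q => ?_
    rw [Matrix.mul_apply, Matrix.smul_apply, smul_eq_mul]
    have h1 : ∀ c, TL y p c * SL y c q = (r2 * r2 * (wz p.2 * conj (wz q.2))) * (y p.1 c * y c q.1) :=
      fun c => by
        change (r2 * (y p.1 c * wz p.2)) * (r2 * (y c q.1 * conj (wz q.2))) = _
        ring
    simp only [h1]
    rw [← Finset.mul_sum, yy, r22]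
    change _ = 1 / 2 * (y p.1 q.1 * (wz p.2 * conj (wz q.2)))
    ring
  · refine Matrix.ext fun a b => ?_
    rw [Matrix.mul_apply, Fintype.sum_prod_type]
    have h1 : ∀ (c : Fin m) (s : Fin 2), SL y a (c, s) * TL y (c, s) b
        = (r2 * r2) * (y a c * y c b) * (wz s * conj (wz s)) := by
      intro c s
      change r2 * (y a c * conj (wz s)) * (r2 * (y c b * wz s)) = _
      ring
    simp only [h1]
    simp only [← Finset.mul_sum, ww, ← Finset.sum_mul]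
    rw [yy, r22]
    change _ = y a b
    ring

theorem SM_SL (y : MM m) {k : WithTop ℕ∞} : SM k (SL (m := m)) y := fun a p =>
  contDiffAt_const.mul
    ((contDiffAt_pi.1 (contDiffAt_pi.1 contDiffAt_id a) p.1).mul contDiffAt_const)

/-- Euler class of the real tautological line in terms of the first Chern class -/
theorem ec_L (hg : Emb X φ g) (hC : Cir X φ) (hX : Clo (n + 1) X) (hXc : IsPreconnected X) :
    ∃ ε : ℂ, (ε = 1 ∨ ε = -1) ∧ ec (T.OR.of hg.or_L)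
      = (ε * (2 * Complex.I)) • sc (hg.sub_Quo hC hX) (idF_Lt hg) 1 := by
  have hXq : IsPreconnected (Quo X g) := hXc.image _ fun x hx =>
    (hg.contDiffAt_jj hx).continuousAt.continuousWithinAt
  have hQ : IdF (Quo X g) (fun y => qJ (mtx (PL (m := m) y)) (JL y)) :=
    ⟨fun y hy => SM.qJ ((T.OR.of hg.or_L).sP y hy) (SM_JL y), fun y hy => (rj_L hg y hy).qJ_idem⟩
  obtain ⟨ε, hε, he⟩ := ec_complex (hg.sub_Quo hC hX) hXq (T.OR.of hg.or_L)
    (fun y _ => SM_JL y) (rj_L hg) hQ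
  refine ⟨ε, hε, ?_⟩
  have hiso : cs (hg.sub_Quo hC hX) hQ = cs (hg.sub_Quo hC hX) (idF_Lt hg) :=
    cs_iso _ hQ (idF_Lt hg) (S := SL) (fun y _ => SM_SL y) fun y hy => ⟨TL y, pIso_L hg y hy⟩
  have hcc : cc (hg.sub_Quo hC hX) hQ 1 = sc (hg.sub_Quo hC hX) (idF_Lt hg) 1 := by
    rw [← coeff_cs, hiso, coeff_cs, cc_eq_el]
    have := el_succ (sc (hg.sub_Quo hC hX) (idF_Lt hg)) 0
    simpa [el_zero] using this
  rw [he, ← hcc]
  congr 1
  simp

/-- **the first Chern class of the tautological line is `± i [F]`** -/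
theorem sc_Lt (hg : Emb X φ g) (hC : Cir X φ) (hX : Clo (n + 1) X) (hXc : IsPreconnected X)
    (ha : Conn X φ al) (hF : Curv X g al Fc) (hE : EC (Quo X g) Fc) :
    ∃ σ : ℂ, (σ = 1 ∨ σ = -1) ∧
      sc (hg.sub_Quo hC hX) (idF_Lt hg) 1 = (σ * Complex.I) • rcl hE := by
  obtain ⟨ε, hε, he⟩ := ec_L hg hC hX hXc
  have h1 := hF.coh_eR hg hC hX ha
  obtain ⟨⟨a1, a2, a3⟩, -⟩ := T.mem_Z_iff.1 (ef_mem_Z (T.OR.of hg.or_L))
  have hEe : EC (Quo X g) (T.eR (PL (m := m)) WL) := ⟨a1, a2, a3⟩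
  have h2 : rcl hEe = ec (T.OR.of hg.or_L) := by
    refine T.cls_of_eq _ _ (funext fun x => Cx.ext rfl ?_)
    exact (IsRe_ef (fun _ _ _ => Complex.ofReal_im _) (fun _ => Complex.ofReal_im _)).symm
  have h3 : rcl hE = ((-(1 / 2) : ℝ) : ℂ) • rcl hEe := by
    rw [← T.rcl_smul]
    exact T.rcl_congr _ _ h1
  refine ⟨ε, hε, ?_⟩
  rw [h3, h2, he, smul_smul, smul_smul]
  have hε2 : ε * ε = 1 := by rcases hε with rfl | rfl <;> norm_num
  have : ε * Complex.I * (((-(1 / 2) : ℝ) : ℂ) * (ε * (2 * Complex.I))) = 1 := by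
    push_cast
    linear_combination (-(Complex.I * Complex.I)) * hε2 - Complex.I_mul_I
  rw [← mul_assoc] at this
  rw [this, one_smul]

end line

end Crest.Agent.R208.EW
end
end

-- ▼ part R208/EW5
section

/-! Row 208, block EW (helper607).  EW5: real Chern forms of real projection fields; the Euler form of
the rank 14 bundle `N_ℂ ⊗ L^w`, `w = 1, 2`. -/

set_option autoImplicit false
set_option linter.unusedSectionVars false
set_option linter.unusedVariables false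
set_option linter.unusedSimpArgs false

open Set Filter Topology Module MeasureTheory Matrix
open scoped ContDiff RealInnerProductSpace ComplexConjugate Kronecker
open Crest.Agent.R208.F Crest.Agent.R208.FI Crest.Agent.R208.CW
open Crest.Agent.R208.CM
open Crest.Agent.R208.T (Sm Cl Eqv Coh Hom mtx wC EC rcl OR eR)

noncomputable section

namespace Crest.Agent.R208.EW

/-! ### Chern forms of real fields are real -/
section re
variable {E : Type*} [NormedAddCommGroup E] [NormedSpace ℝ E] [FiniteDimensional ℝ E]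
  {n : Type*} [Fintype n] [DecidableEq n] {X : Set E} {x : E} {dX : ℕ}

theorem IsRe.pow {T : Type*} [AddCommGroup T] [Module ℝ T] {c : CF T} (h : IsRe c) (j : ℕ) :
    IsRe (c ^ j) := by
  induction j with
  | zero => rw [pow_zero]; exact IsRe.one
  | succ j ih => rw [pow_succ]; exact ih.mul h

theorem isRe_Om_pow {P : E → Matrix n n ℂ} (h : ∀ y i j, (P y i j).im = 0) (k : ℕ) (i j : n) :
    IsRe ((Om P x ^ k) i j : CF E) := by
  induction k generalizing i j with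
  | zero =>
    rw [pow_zero]
    by_cases hij : i = j
    · subst hij
      rw [Matrix.one_apply_eq]
      exact IsRe.one
    · rw [Matrix.one_apply_ne hij]
      rfl
  | succ k ih =>
    rw [pow_succ, Matrix.mul_apply]
    have e : ((∑ l, (Om P x ^ k) i l * Om P x l j : EvC E) : CF E)
        = ∑ l, ((Om P x ^ k) i l : CF E) * (Om P x l j : CF E) := by
      push_cast
      rfl
    rw [e]
    exact IsRe.sum _ fun l _ => (ih i l).mul (IsRe_Om h l j)

theorem isRe_trace_pow {P : E → Matrix n n ℂ} (h : ∀ y i j, (P y i j).im = 0) (k : ℕ) :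
    IsRe ((Om P x ^ k).trace : CF E) := by
  have e : (((Om P x ^ k).trace : EvC E) : CF E) = ∑ i, ((Om P x ^ k) i i : CF E) := by
    rw [Matrix.trace]
    push_cast
    rfl
  rw [e]
  exact IsRe.sum _ fun i _ => isRe_Om_pow h k i i

theorem IsRe.csmul {T : Type*} [AddCommGroup T] [Module ℝ T] {c : CF T} (h : IsRe c) {z : ℂ}
    (hz : z.im = 0) : IsRe (z • c) := by
  have h' : c.im = 0 := h
  change (z • c).im = 0
  rw [Cx.csmul_im, hz, h', smul_zero, zero_smul, add_zero]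

theorem isRe_el {s : ℕ → EvC E} (h : ∀ i, IsRe (s i : CF E)) (j : ℕ) :
    IsRe ((el s j : EvC E) : CF E) := by
  induction j using Nat.strong_induction_on with
  | _ j ih =>
    cases j with
    | zero => rw [el_zero]; exact IsRe.one
    | succ j =>
      rw [el]
      have e1 : (((((j : ℂ) + 1)⁻¹ • ∑ i : Fin (j + 1), (-1) ^ (i : ℕ) * el s (j - i) * s (i + 1) :
          EvC E)) : CF E) = ((j : ℂ) + 1)⁻¹ • ∑ i : Fin (j + 1),
            (((-1) ^ (i : ℕ) * el s (j - i) * s (i + 1) : EvC E) : CF E) := by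
        have e4 := map_sum (EvC E).val
          (fun i : Fin (j + 1) => ((-1) ^ (i : ℕ) * el s (j - i) * s (i + 1) : EvC E)) Finset.univ
        change _ • (EvC E).val _ = _
        rw [e4]
        rfl
      rw [e1]
      refine IsRe.csmul (IsRe.sum _ fun i _ => ?_) ?_
      · have h1 := (ih (j - i) (by omega)).mul (h (i + 1))
        have e3 : (((-1) ^ (i : ℕ) * el s (j - i) * s (i + 1) : EvC E) : CF E)
            = ((-1 : ℂ) ^ (i : ℕ)) • (((el s (j - i) : EvC E) : CF E) * ((s (i + 1) : EvC E) : CF E)) := by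
          rw [Algebra.smul_def, map_pow, map_neg, map_one, ← mul_assoc]; rfl
        rw [e3]
        refine IsRe.csmul h1 ?_
        rcases Nat.even_or_odd (i : ℕ) with hi | hi
        · rw [hi.neg_one_pow]; rfl
        · rw [hi.neg_one_pow]; simp
      · have : (((j : ℂ) + 1)⁻¹) = ((((j : ℝ) + 1)⁻¹ : ℝ) : ℂ) := by push_cast; rfl
        rw [this, Complex.ofReal_im]

/-- Chern forms of a real field are real -/
theorem isRe_cf {P : E → Matrix n n ℂ} (h : ∀ y i j, (P y i j).im = 0) (j : ℕ) :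
    IsRe (cf j P x) := by
  rw [cf, cpoly_coeff_eq_el]
  exact isRe_el (fun i => isRe_trace_pow h i) j

/-- the real Chern form of a real field -/
def cfr (j : ℕ) (P : E → Matrix n n ℂ) (x : E) : Ext E := (cf j P x).re

theorem mkF_cfr {P : E → Matrix n n ℂ} (h : ∀ y i j, (P y i j).im = 0) (j : ℕ) :
    T.mkF (cfr j P) 0 = cf j P := funext fun x => Cx.ext rfl (isRe_cf h j).symm

theorem hom_cfr {P : E → Matrix n n ℂ} (j : ℕ) : Hom (2 * j) (cfr j P) := fun x =>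
  (T.degC_cf j P x).1

theorem ec_cfr (hX : Sub dX X) {P : E → Matrix n n ℂ} (hP : IdF X P) (j : ℕ) : EC X (cfr j P) := by
  obtain ⟨⟨h1, h2, h3⟩, -⟩ := T.mem_Z_iff.1 (cf_mem_Z hX hP j)
  exact ⟨h1, h2, h3⟩

theorem rcl_cfr (hX : Sub dX X) {P : E → Matrix n n ℂ} (hP : IdF X P)
    (h : ∀ y i j, (P y i j).im = 0) (j : ℕ) : rcl (ec_cfr hX hP j) = cc hX hP j :=
  T.cls_of_eq _ _ (mkF_cfr h j)

/-- odd Chern classes of a real field vanish -/
theorem cc_real_odd (hX : Sub dX X) {Q : E → Matrix n n ℂ} (hQ : IdF X Q)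
    (hr : ∀ x ∈ X, (Q x).map (starRingEnd ℂ) = Q x) {j : ℕ} (hj : Odd j) : cc hX hQ j = 0 := by
  have h1 := cc_conj hX hQ j
  have h0 : cc hX hQ.conj j = cc hX hQ j := by
    rw [cc_eq_el, cc_eq_el]
    exact el_congr fun i _ _ => sc_congr hX hQ.conj hQ hr i
  rw [h0, hj.neg_one_pow, neg_one_mul] at h1
  have h2 : (2 : ℂ) • cc hX hQ j = 0 := by
    rw [two_smul]; nth_rewrite 1 [h1]; exact neg_add_cancel _
  have h3 := congrArg (fun a => (2 : ℂ)⁻¹ • a) h2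
  simpa only [smul_smul, smul_zero, inv_mul_cancel₀ (two_ne_zero' ℂ), one_smul] using h3


theorem conj_mtx {a : Type*} [Fintype a] [DecidableEq a]
    (A : EuclideanSpace ℝ a →L[ℝ] EuclideanSpace ℝ a) :
    (mtx A).map (starRingEnd ℂ) = mtx A := Matrix.ext fun i j => Complex.conj_ofReal _

end re

/-! ### algebra of the top class of rank `7` -/
section seven
variable {A : Type*} [CommRing A] [Algebra ℂ A]

theorem sum_seven {c : ℕ → A} (h0 : c 0 = 1) (hodd : ∀ j, Odd j → c j = 0) {E z : A} {σ : ℂ} {w : ℝ}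
    (hσ : σ = 1 ∨ σ = -1) (hz : z = (w : ℂ) • ((σ * Complex.I) • E)) :
    (Complex.I ^ 7) • ∑ i ∈ Finset.range (7 + 1), c i * z ^ (7 - i)
      = (-σ) • (((w ^ 7 : ℝ) : ℂ) • E ^ 7 - ((w ^ 5 : ℝ) : ℂ) • (c 2 * E ^ 5)
        + ((w ^ 3 : ℝ) : ℂ) • (c 4 * E ^ 3) - (w : ℂ) • (c 6 * E)) := by
  have h1 := hodd 1 (by decide)
  have h3 := hodd 3 (by decide)
  have h5 := hodd 5 (by decide)
  have h7 := hodd 7 (by decide)
  have hs2 : σ ^ 2 = 1 := by rcases hσ with rfl | rfl <;> norm_num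
  have hz' : z = ((w : ℂ) * (σ * Complex.I)) • E := by rw [hz, smul_smul]
  have p1 : ∀ k : ℕ, z ^ k = (((w : ℂ) * (σ * Complex.I)) ^ k) • E ^ k := fun k => by
    rw [hz', smul_pow]
  have e7 : Complex.I ^ 7 * ((w : ℂ) * (σ * Complex.I)) ^ 7 = -σ * (w : ℂ) ^ 7 := by
    have : Complex.I ^ 7 * ((w : ℂ) * (σ * Complex.I)) ^ 7
        = (Complex.I ^ 2) ^ 7 * (σ ^ 2) ^ 3 * σ * (w : ℂ) ^ 7 := by ring
    rw [this, Complex.I_sq, hs2]; ring
  have e5 : Complex.I ^ 7 * ((w : ℂ) * (σ * Complex.I)) ^ 5 = σ * (w : ℂ) ^ 5 := by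
    have : Complex.I ^ 7 * ((w : ℂ) * (σ * Complex.I)) ^ 5
        = (Complex.I ^ 2) ^ 6 * (σ ^ 2) ^ 2 * σ * (w : ℂ) ^ 5 := by ring
    rw [this, Complex.I_sq, hs2]; ring
  have e3 : Complex.I ^ 7 * ((w : ℂ) * (σ * Complex.I)) ^ 3 = -σ * (w : ℂ) ^ 3 := by
    have : Complex.I ^ 7 * ((w : ℂ) * (σ * Complex.I)) ^ 3
        = (Complex.I ^ 2) ^ 5 * (σ ^ 2) * σ * (w : ℂ) ^ 3 := by ring
    rw [this, Complex.I_sq, hs2]; ring
  have e1 : Complex.I ^ 7 * ((w : ℂ) * (σ * Complex.I)) ^ 1 = σ * (w : ℂ) := by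
    have : Complex.I ^ 7 * ((w : ℂ) * (σ * Complex.I)) ^ 1
        = (Complex.I ^ 2) ^ 4 * σ * (w : ℂ) := by ring
    rw [this, Complex.I_sq]; ring
  simp only [Finset.sum_range_succ, Finset.sum_range_zero, zero_add, h0, h1, h3, h5, h7, zero_mul,
    add_zero, one_mul, Nat.sub_zero, Nat.reduceSub, Nat.sub_self, smul_add, p1, mul_smul_comm,
    smul_smul, e7, e5, e3]
  rw [e1]
  push_cast
  rw [pow_one]
  module

end seven

/-! ### the square of the tautological line -/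
section pow2
variable {m : ℕ} {E : Type} [NormedAddCommGroup E] [NormedSpace ℝ E] [FiniteDimensional ℝ E]
  {X : Set E} {φ : ℝ → E → E} {g : E → Fin m → ℂ} {n : ℕ}

/-- `g ⊗ g` -/
def g2 (g : E → Fin m → ℂ) (x : E) (i : Fin m × Fin m) : ℂ := g x i.1 * g x i.2

theorem lin_g2 (x : E) : lin (g2 g x) = lin (g x) ⊗ₖ lin (g x) := by
  refine Matrix.ext ?_
  rintro ⟨i, i'⟩ ⟨j, j'⟩
  change (g x i * g x i') * conj (g x j * g x j') = (g x i * conj (g x j)) * (g x i' * conj (g x j'))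
  rw [map_mul]
  ring

theorem sum_g2 (hg : Emb X φ g) {x : E} (hx : x ∈ X) :
    ∑ i, g2 g x i * conj (g2 g x i) = 1 := by
  rw [Fintype.sum_prod_type]
  have h : ∀ i j, g2 g x (i, j) * conj (g2 g x (i, j))
      = (g x i * conj (g x i)) * (g x j * conj (g x j)) := fun i j => by
    change (g x i * g x j) * conj (g x i * g x j) = _
    rw [map_mul]; ring
  simp only [h, ← Finset.mul_sum, sum_g hg hx, mul_one]

/-- the square of the tautological line -/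
def Lt2 (y : MM m) : Matrix (Fin m × Fin m) (Fin m × Fin m) ℂ := Lt y ⊗ₖ Lt y

theorem idF_Lt2 (hg : Emb X φ g) : IdF (Quo X g) (Lt2 (m := m)) := (idF_Lt hg).kron (idF_Lt hg)

theorem Lt2_jj (x : E) : Lt2 (jj g x) = lin (g2 g x) := by rw [lin_g2]; rfl

theorem sc_Lt2 (hg : Emb X φ g) (hC : Cir X φ) (hX : Clo (n + 1) X) :
    sc (hg.sub_Quo hC hX) (idF_Lt2 hg) 1 = (2 : ℂ) • sc (hg.sub_Quo hC hX) (idF_Lt hg) 1 := by
  have h := sc_kron (hg.sub_Quo hC hX) (idF_Lt hg) (idF_Lt hg) 1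
  have h0 := sc_zero_of_rank (hg.sub_Quo hC hX) (idF_Lt hg) (rank_Lt hg)
  rw [Finset.sum_range_succ, Finset.sum_range_one] at h
  simp only [Nat.choose_zero_right, Nat.choose_self, Nat.cast_one, one_mul, Nat.sub_zero,
    Nat.sub_self, h0, mul_one] at h
  rw [two_smul]
  exact h

end pow2

end Crest.Agent.R208.EW
end
end

-- ▼ part R208/EW6

/-! Row 208, block EW (helper607).  EW6: **the Euler form of `N_ℂ ⊗ L^w`, rank `14`** and the Chern
forms of the descended `N` in low degrees. -/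

set_option autoImplicit false
set_option linter.unusedSectionVars false
set_option linter.unusedVariables false
set_option linter.unusedSimpArgs false

open Set Filter Topology Module MeasureTheory Matrix
open scoped ContDiff RealInnerProductSpace ComplexConjugate Kronecker
open Crest.Agent.R208.F Crest.Agent.R208.FI Crest.Agent.R208.CW
open Crest.Agent.R208.CM
open Crest.Agent.R208.T

noncomputable section

namespace Crest.Agent.R208.EW

section idf
variable {E : Type*} [NormedAddCommGroup E] [NormedSpace ℝ E] [FiniteDimensional ℝ E]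
  {a : Type} [Fintype a] [DecidableEq a] {X : Set E}
  {P : E → EuclideanSpace ℝ a →L[ℝ] EuclideanSpace ℝ a} {r : ℕ}

theorem idF_mtx (hs : ∀ x ∈ X, ContDiffAt ℝ ∞ P x) (hi : ∀ x ∈ X, ∀ v, P x (P x v) = P x v) :
    IdF X fun y => mtx (P y) :=
  ⟨fun x hx => contDiffAt_mc (hs x hx), fun x hx => by
    rw [← mc_eq_mtx, ← mc_comp]
    congr 1
    ext1 v
    exact hi x hx v⟩

theorem idF_of_pfield (hP : PField X r P) : IdF X fun y => mtx (P y) :=
  idF_mtx hP.smooth hP.idem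

theorem rank_of_pfield (hP : PField X r P) : ∀ x ∈ X, (mtx (P x)).rank = r := fun x hx => by
  rw [rank_mtx (hP.idem x hx), hP.rank x hx]

end idf

section glob
variable {E : Type} [NormedAddCommGroup E] [NormedSpace ℝ E] [FiniteDimensional ℝ E]
  {a b p q κ : Type} [Fintype a] [DecidableEq a] [Fintype b] [DecidableEq b] [Fintype p]
  [DecidableEq p] [Fintype q] [DecidableEq q] [Fintype κ] [DecidableEq κ]
  {X : Set E} {φ : ℝ → E → E} {m d r : ℕ} {g : E → Fin m → ℂ}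
  {R : ℝ → EuclideanSpace ℝ a →L[ℝ] EuclideanSpace ℝ a}
  {R₂ : ℝ → EuclideanSpace ℝ b →L[ℝ] EuclideanSpace ℝ b}
  {Tr : E → EuclideanSpace ℝ a →L[ℝ] EuclideanSpace ℝ p}
  {T₂ : E → EuclideanSpace ℝ b →L[ℝ] EuclideanSpace ℝ q}
  {N : E → EuclideanSpace ℝ a →L[ℝ] EuclideanSpace ℝ a}
  {NN : E → EuclideanSpace ℝ b →L[ℝ] EuclideanSpace ℝ b}
  {i₁ i₂ : EuclideanSpace ℝ a →L[ℝ] EuclideanSpace ℝ b} {w : ℝ} {z : E → κ → ℂ}
  {ι : Type} [Fintype ι] [DecidableEq ι]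
  {P' : MM m → EuclideanSpace ℝ p →L[ℝ] EuclideanSpace ℝ p}
  {P₂ : MM m → EuclideanSpace ℝ q →L[ℝ] EuclideanSpace ℝ q} {W₂ : MM m → (ι × Fin 2 → q) → ℝ}
  {L : MM m → Matrix κ κ ℂ} {al : E → Ext E} {Fc : MM m → Ext (MM m)}

/-- the `j`-th real Chern form of a real projection field -/
def cR {G : Type*} [NormedAddCommGroup G] [NormedSpace ℝ G] [FiniteDimensional ℝ G]
    (j : ℕ) (P : G → EuclideanSpace ℝ p →L[ℝ] EuclideanSpace ℝ p) : G → Ext G :=
  cfr j fun y => mtx (P y)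

/-- the polynomial giving the top class of `N_ℂ ⊗ L^w` -/
def top7 (w : ℝ) (P' : MM m → EuclideanSpace ℝ p →L[ℝ] EuclideanSpace ℝ p)
    (Fc : MM m → Ext (MM m)) : MM m → Ext (MM m) :=
  w ^ 7 • Fc ^ 7 + (-(w ^ 5)) • (cR 2 P' * Fc ^ 5) + w ^ 3 • (cR 4 P' * Fc ^ 3)
    + (-w) • (cR 6 P' * Fc)

theorem curvEC (hF : Curv X g al Fc) : EC (Quo X g) Fc :=
  EC.of_hom (j := 1) hF.sm hF.cl hF.hom

theorem orEC {G : Type} [NormedAddCommGroup G] [NormedSpace ℝ G] [FiniteDimensional ℝ G]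
    {Y : Set G} {P : G → EuclideanSpace ℝ q →L[ℝ] EuclideanSpace ℝ q} {W : G → (ι × Fin 2 → q) → ℝ}
    (h : OR Y P W) : EC Y (eR P W) := by
  obtain ⟨⟨h1, h2, h3⟩, -⟩ := mem_Z_iff.1 (ef_mem_Z (OR.of h))
  exact ⟨h1, h2, h3⟩

theorem orRcl {G : Type} [NormedAddCommGroup G] [NormedSpace ℝ G] [FiniteDimensional ℝ G]
    {Y : Set G} {P : G → EuclideanSpace ℝ q →L[ℝ] EuclideanSpace ℝ q} {W : G → (ι × Fin 2 → q) → ℝ}
    (h : OR Y P W) : rcl (orEC h) = ec (OR.of h) :=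
  cls_of_eq _ _ (funext fun x => Cx.ext rfl
    (IsRe_ef (fun _ _ _ => Complex.ofReal_im _) (fun _ => Complex.ofReal_im _)).symm)

/-- **the Euler form of the real rank `14` bundle `N_ℂ ⊗ L^w`** -/
theorem DD2.coh_eR (h : DD2 X φ R R₂ Tr T₂ N NN i₁ i₂ w z) (hg : Emb X φ g) (hC : Cir X φ)
    (hX : Clo (d + 1) X) (hXc : IsPreconnected X)
    (hP : PField (Quo X g) 7 P') (hP' : ∀ x ∈ X, P' (jj g x) = Qd Tr N x)
    (hO : OR (ι := ι) (Quo X g) P₂ W₂) (hι : Fintype.card ι = 7)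
    (hP₂ : ∀ x ∈ X, P₂ (jj g x) = Qd T₂ NN x)
    (hL : IdF (Quo X g) L) (hLz : ∀ x ∈ X, L (jj g x) = lin (z x))
    (hLw : sc (hg.sub_Quo hC hX) hL 1 = (w : ℂ) • sc (hg.sub_Quo hC hX) (idF_Lt hg) 1)
    (ha : Conn X φ al) (hF : Curv X g al Fc) :
    ∃ ε : ℝ, (ε = 1 ∨ ε = -1) ∧
      Coh (Quo X g) (eR P₂ W₂) ((ε * (2 ^ 7 * (Nat.factorial 7))) • top7 w P' Fc) := by
  have hB := hg.sub_Quo hC hX
  have hI := idF_of_pfield hP
  have hE : EC (Quo X g) Fc := curvEC hF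
  obtain ⟨ε, hε, he⟩ := h.ec_eq hg hC hX hXc hI (rank_of_pfield hP) hP' hO hι hP₂ hL hLz
  obtain ⟨σ, hσ, hs⟩ := sc_Lt hg hC hX hXc ha hF hE
  have e2 := ec_cfr hB hI 2
  have e4 := ec_cfr hB hI 4
  have e6 := ec_cfr hB hI 6
  have r2 := rcl_cfr hB hI (fun y i j => Complex.ofReal_im _) 2
  have r4 := rcl_cfr hB hI (fun y i j => Complex.ofReal_im _) 4
  have r6 := rcl_cfr hB hI (fun y i j => Complex.ofReal_im _) 6
  have t1 := (hE.pow 7).smul (w ^ 7)
  have t2 := (e2.mul (hE.pow 5)).smul (-(w ^ 5))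
  have t3 := (e4.mul (hE.pow 3)).smul (w ^ 3)
  have t4 := (e6.mul hE).smul (-w)
  have ht : EC (Quo X g) (top7 w P' Fc) := ((t1.add t2).add t3).add t4
  have hsum := sum_seven (c := fun i => cc hB hI i) (cc_zero hB hI)
    (fun j hj => cc_real_odd hB hI (fun x hx => conj_mtx _) hj) (E := rcl hE) (σ := σ) (w := w)
    (z := sc hB hL 1) hσ (by rw [hLw, hs])
  have hcl : rcl ht = ((w ^ 7 : ℝ) : ℂ) • rcl hE ^ 7 - ((w ^ 5 : ℝ) : ℂ) • (cc hB hI 2 * rcl hE ^ 5)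
      + ((w ^ 3 : ℝ) : ℂ) • (cc hB hI 4 * rcl hE ^ 3) - (w : ℂ) • (cc hB hI 6 * rcl hE) := by
    have b1 : rcl ht = rcl t1 + rcl t2 + rcl t3 + rcl t4 := by
      rw [← rcl_add t1 t2, ← rcl_add (t1.add t2) t3, ← rcl_add ((t1.add t2).add t3) t4]
      rfl
    have b2 : rcl t1 = ((w ^ 7 : ℝ) : ℂ) • rcl hE ^ 7 := by
      rw [rcl_smul _ (hE.pow 7), rcl_pow hE]
    have b3 : rcl t2 = ((-(w ^ 5) : ℝ) : ℂ) • (cc hB hI 2 * rcl hE ^ 5) := by
      rw [rcl_smul _ (e2.mul (hE.pow 5)), rcl_mul e2 (hE.pow 5), rcl_pow hE, r2]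
    have b4 : rcl t3 = ((w ^ 3 : ℝ) : ℂ) • (cc hB hI 4 * rcl hE ^ 3) := by
      rw [rcl_smul _ (e4.mul (hE.pow 3)), rcl_mul e4 (hE.pow 3), rcl_pow hE, r4]
    have b5 : rcl t4 = ((-w : ℝ) : ℂ) • (cc hB hI 6 * rcl hE) := by
      rw [rcl_smul _ (e6.mul hE), rcl_mul e6 hE, r6]
    rw [b1, b2, b3, b4, b5]
    push_cast
    module
  -- the sign
  have hfin : rcl (orEC hO) = ((-(ε * σ)) * (2 ^ 7 * (Nat.factorial 7) : ℂ)) • rcl ht := by
    rw [orRcl hO, he]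
    have e0 : (ε * ((2 : ℂ) ^ 7 * ((Nat.factorial 7 : ℕ) : ℂ) * Complex.I ^ 7))
        • ∑ i ∈ Finset.range (7 + 1), cc hB hI i * sc hB hL 1 ^ (7 - i)
        = (ε * ((2 : ℂ) ^ 7 * ((Nat.factorial 7 : ℕ) : ℂ))) • ((Complex.I ^ 7)
          • ∑ i ∈ Finset.range (7 + 1), cc hB hI i * sc hB hL 1 ^ (7 - i)) := by
      rw [smul_smul]; congr 1; ring
    rw [e0, hsum, ← hcl, smul_smul]
    congr 1
    ring
  have hre : ∃ δ : ℝ, (δ = 1 ∨ δ = -1) ∧ -(ε * σ) = (δ : ℂ) := by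
    rcases hε with rfl | rfl <;> rcases hσ with rfl | rfl
    · exact ⟨-1, Or.inr rfl, by push_cast; norm_num⟩
    · exact ⟨1, Or.inl rfl, by push_cast; norm_num⟩
    · exact ⟨1, Or.inl rfl, by push_cast; norm_num⟩
    · exact ⟨-1, Or.inr rfl, by push_cast; norm_num⟩
  obtain ⟨δ, hδ, hδ'⟩ := hre
  refine ⟨δ, hδ, ?_⟩
  have hlast : rcl (orEC hO) = rcl (ht.smul (δ * (2 ^ 7 * (Nat.factorial 7)))) := by
    rw [hfin, rcl_smul _ ht, hδ']
    congr 1
    push_cast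
    ring
  exact (rcl_eq_iff _ _).1 hlast

/-- weight `1` -/
theorem DD2.coh_eR_one (h : DD2 X φ R R₂ Tr T₂ N NN i₁ i₂ 1 g) (hg : Emb X φ g) (hC : Cir X φ)
    (hX : Clo (d + 1) X) (hXc : IsPreconnected X)
    (hP : PField (Quo X g) 7 P') (hP' : ∀ x ∈ X, P' (jj g x) = Qd Tr N x)
    (hO : OR (ι := ι) (Quo X g) P₂ W₂) (hι : Fintype.card ι = 7)
    (hP₂ : ∀ x ∈ X, P₂ (jj g x) = Qd T₂ NN x) (ha : Conn X φ al) (hF : Curv X g al Fc) :
    ∃ ε : ℝ, (ε = 1 ∨ ε = -1) ∧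
      Coh (Quo X g) (eR P₂ W₂) ((ε * (2 ^ 7 * (Nat.factorial 7))) • top7 1 P' Fc) :=
  h.coh_eR hg hC hX hXc hP hP' hO hι hP₂ (idF_Lt hg) (fun x hx => Lt_jj x)
    (by rw [Complex.ofReal_one, one_smul]) ha hF


/-! ### restriction of the Chern classes of the descended field -/

/-- pull-back of the Chern forms of the descended field: those of `N` -/
theorem pull_cR (hg : Emb X φ g) (hC : Cir X φ) (hX : Clo (d + 1) X) (hR : Rep R)
    (hT : Triv X φ R Tr) (hN : PField X r N)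
    (hP : PField (Quo X g) r P') (hP' : ∀ x ∈ X, P' (jj g x) = Qd Tr N x) (j : ℕ) :
    Coh X (F.pull (jj g) (cR j P')) (cR j N) := by
  have hB := hg.sub_Quo hC hX
  have hI := idF_of_pfield hP
  have hIN := idF_of_pfield hN
  have h1 := cc_map hX.sub hB hg.smap_jj hI j
  have h2 : cc hX.sub (hI.comp hg.smap_jj) j = cc hX.sub hIN j := by
    rw [← coeff_cs, ← coeff_cs]
    congr 1
    symm
    refine cs_iso hX.sub hIN _ (S := fun x => mc (Tr x) * mtx (N x)) (fun x hx =>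
      SM.mul (contDiffAt_mc (hT.smooth x hx)) (hIN.smooth x hx)) fun x hx => ?_
    have t1 : (mc (Tr x))ᵀ * mc (Tr x) = 1 := mc_iso (hT.iso x hx)
    have nn : mtx (N x) * mtx (N x) = mtx (N x) := hIN.idem x hx
    refine ⟨mtx (N x) * (mc (Tr x))ᵀ, ?_⟩
    have e : mtx (P' (jj g x)) = mc (Tr x) * mtx (N x) * (mc (Tr x))ᵀ := by
      rw [hP' x hx, mc_Qd, mc_eq_mtx]
    rw [e]
    refine ⟨?_, ?_, ?_, ?_, ?_, ?_⟩
    · rw [Matrix.mul_assoc, nn]
    · calc mc (Tr x) * mtx (N x) * (mc (Tr x))ᵀ * (mc (Tr x) * mtx (N x))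
          = mc (Tr x) * mtx (N x) * ((mc (Tr x))ᵀ * mc (Tr x)) * mtx (N x) := by
            simp only [Matrix.mul_assoc]
        _ = _ := by rw [t1, Matrix.mul_one, Matrix.mul_assoc, nn]
    · calc mtx (N x) * (mc (Tr x))ᵀ * (mc (Tr x) * mtx (N x) * (mc (Tr x))ᵀ)
          = mtx (N x) * ((mc (Tr x))ᵀ * mc (Tr x)) * mtx (N x) * (mc (Tr x))ᵀ := by
            simp only [Matrix.mul_assoc]
        _ = _ := by rw [t1, Matrix.mul_one, nn]
    · rw [← Matrix.mul_assoc, nn]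
    · calc mtx (N x) * (mc (Tr x))ᵀ * (mc (Tr x) * mtx (N x))
          = mtx (N x) * ((mc (Tr x))ᵀ * mc (Tr x)) * mtx (N x) := by simp only [Matrix.mul_assoc]
        _ = _ := by rw [t1, Matrix.mul_one, nn]
    · calc mc (Tr x) * mtx (N x) * (mtx (N x) * (mc (Tr x))ᵀ)
          = mc (Tr x) * (mtx (N x) * mtx (N x)) * (mc (Tr x))ᵀ := by simp only [Matrix.mul_assoc]
        _ = _ := by rw [nn]
  have h3 := rcl_cfr hB hI (fun y i j => Complex.ofReal_im _) j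
  have h4 := rcl_cfr hX.sub hIN (fun y i j => Complex.ofReal_im _) j
  have h5 : rcl ((ec_cfr hB hI j).pull hg.smap_jj) = rcl (ec_cfr hX.sub hIN j) := by
    rw [rcl_pull hg.smap_jj (ec_cfr hB hI j), h3, h1, h2, h4]
  exact (rcl_eq_iff _ _).1 h5

end glob

end Crest.Agent.R208.EW
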