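import Crest.Agent.R208.T3c
import Crest.Agent.R208.T2d

/-! Row 208, block RI (helper545), part RI1: retraction of a closed form onto the cut locus along the
tube, naturality of the real Euler form, smooth images of lower dimension are proper. -/

set_option autoImplicit false
set_option linter.unusedSectionVars false

open MeasureTheory Set Filter Topology Module
open scoped ContDiff
open Crest.Agent.R208.F Crest.Agent.R208.FI Crest.Agent.R208.CW

noncomputable section

namespace Crest.Agent.R208.RI

open Crest.Agent.R208.T

universe u w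

section tube
variable {E : Type u} {H : Type w} [NormedAddCommGroup E] [NormedSpace ℝ E] [FiniteDimensional ℝ E]
  [NormedAddCommGroup H] [InnerProductSpace ℝ H] [FiniteDimensional ℝ H]
  {S C : Set E} {p : E} {ρ : ℝ} {Ψ : E × H → E} {Gt : E → E × H} {P : E → H →L[ℝ] H}




end tube

section natural
variable {E E' : Type*} [NormedAddCommGroup E] [NormedSpace ℝ E] [FiniteDimensional ℝ E]
  [NormedAddCommGroup E'] [NormedSpace ℝ E'] [FiniteDimensional ℝ E']
  {ι n : Type*} [Fintype ι] [DecidableEq ι] [Fintype n] [DecidableEq n]
  {X : Set E'} {Y : Set E} {P : E → EuclideanSpace ℝ n →L[ℝ] EuclideanSpace ℝ n}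
  {W : E → (ι × Fin 2 → n) → ℝ}


/-- naturality of the real Euler form (pointwise equality) -/
theorem pull_eR (h : OR Y P W) {f : E' → E} (hf : SMap X Y f) {x : E'} (hx : x ∈ X) :
    F.pull f (eR P W) x = eR (fun y => P (f y)) (fun y => W (f y)) x := by
  have h1 := pullC_ef (f := f) (P := fun y => mtx (P y)) (W := wC W) (hf.c2 hx)
    (((OR.of h).sP _ (hf.maps hx)).of_le one_le_inf)
  exact congrArg Cx.re h1

end natural

/-! ### images of lower dimension -/

section dim
variable {E E' : Type*} [NormedAddCommGroup E] [NormedSpace ℝ E] [FiniteDimensional ℝ E]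
  [NormedAddCommGroup E'] [NormedSpace ℝ E'] [FiniteDimensional ℝ E']
  {X : Set E'} {Y : Set E} {d m : ℕ}



end dim

end Crest.Agent.R208.RI
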