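import Crest.Agent.R208.CW4
import Crest.Agent.R208.DEG2
import Crest.Agent.R208.GT6
import Crest.Agent.R208.GP3c
import Crest.Agent.R208.FV6
import Crest.Agent.R208.T3d
import Crest.Agent.R208.FG1e
import Crest.Agent.R208.CW6

-- ▼ part R208/VX1
section

/-!
R208, block (X3) (helper683), part VX1: the Chern series of a real bundle of even rank `k` over a
space whose even classes of degree `< 2k` live in degree `k` only.
-/

set_option autoImplicit false
set_option linter.unusedSectionVars false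

open MeasureTheory Set Filter Topology Module
open scoped ContDiff
open Crest.Agent.R208.F Crest.Agent.R208.FI Crest.Agent.R208.CW
open Crest.Agent.R208.T (HD)

noncomputable section

namespace Crest.Agent.R208.VX

variable {E : Type*} [NormedAddCommGroup E] [NormedSpace ℝ E] [FiniteDimensional ℝ E]
  {n : Type*} [Fintype n] [DecidableEq n] {X : Set E} {dX k : ℕ}

theorem cc_congr (hX : Sub dX X) {Q Q' : E → Matrix n n ℂ} (hQ : IdF X Q) (hQ' : IdF X Q')
    (h : ∀ x ∈ X, Q x = Q' x) (j : ℕ) : cc hX hQ j = cc hX hQ' j := by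
  rw [cc_eq_el, cc_eq_el]
  exact el_congr fun i _ _ => sc_congr hX hQ hQ' h i

theorem cc_conj_eq (hX : Sub dX X) {Q : E → Matrix n n ℂ} (hQ : IdF X Q) (j : ℕ) :
    cc hX hQ.conj j = H.conj X (cc hX hQ j) := by
  rw [cc_eq_el, cc_eq_el, el_map]
  exact el_congr fun i _ _ => sc_conj hX hQ i

/-- odd Chern classes of a real bundle vanish -/
theorem cc_real_odd (hX : Sub dX X) {Q : E → Matrix n n ℂ} (hQ : IdF X Q)
    (hr : ∀ x ∈ X, (Q x).map (starRingEnd ℂ) = Q x) {j : ℕ} (hj : Odd j) : cc hX hQ j = 0 := by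
  have h1 := cc_conj hX hQ j
  rw [cc_congr hX hQ.conj hQ hr j, hj.neg_one_pow, neg_one_mul] at h1
  have h2 : (2 : ℂ) • cc hX hQ j = 0 := by
    rw [two_smul]; nth_rewrite 1 [h1]; exact neg_add_cancel _
  have h3 := congrArg (fun a => (2 : ℂ)⁻¹ • a) h2
  simpa only [smul_smul, smul_zero, inv_mul_cancel₀ (two_ne_zero' ℂ), one_smul] using h3

/-- Chern classes of a real bundle are real -/
theorem conj_cc_real (hX : Sub dX X) {Q : E → Matrix n n ℂ} (hQ : IdF X Q)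
    (hr : ∀ x ∈ X, (Q x).map (starRingEnd ℂ) = Q x) (j : ℕ) :
    H.conj X (cc hX hQ j) = cc hX hQ j := by
  rw [← cc_conj_eq, cc_congr hX hQ.conj hQ hr j]

/-- a symmetric class in the span of `a`, `b` is a multiple of `a + b` -/
theorem symm_span {A : Type*} [CommRing A] [Algebra ℂ A] (σ : A →ₐ[ℂ] A) {a b c : A}
    (hab : σ a = b) (hba : σ b = a) (hc : σ c = c) {α β : ℂ} (h : c = α • a + β • b) :
    c = ((α + β) / 2) • (a + b) := by
  have h1 : c = α • b + β • a := by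
    rw [← hc, h, map_add, map_smul, map_smul, hab, hba]
  have h2 : c = (2 : ℂ)⁻¹ • (c + c) := by
    rw [← two_smul ℂ c, smul_smul, inv_mul_cancel₀ (two_ne_zero' ℂ), one_smul]
  rw [h2]
  conv_lhs => rw [show c + c = (α • a + β • b) + (α • b + β • a) by rw [← h, ← h1]]
  module

theorem real_smul {c a : H X} {μ : ℂ} (hc : H.conj X c = c) (ha : H.conj X a = a)
    (h : c = μ • a) : c = ((μ.re : ℝ) : ℂ) • a := by
  have h1 : c = (starRingEnd ℂ μ) • a := by
    rw [← hc, h, H.conj_smul, ha]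
  have h2 : c = (2 : ℂ)⁻¹ • (c + c) := by
    rw [← two_smul ℂ c, smul_smul, inv_mul_cancel₀ (two_ne_zero' ℂ), one_smul]
  have h3 : μ + starRingEnd ℂ μ = 2 * ((μ.re : ℝ) : ℂ) := by
    rw [Complex.add_conj]; push_cast; ring
  rw [h2]
  conv_lhs => rw [show c + c = μ • a + (starRingEnd ℂ μ) • a by rw [← h, ← h1]]
  rw [← add_smul, h3, smul_smul]
  congr 1
  ring

/-- **Chern series of a real bundle of even rank `k`** -/
theorem cs_real (hX : Sub dX X) {Q : E → Matrix n n ℂ} (hQ : IdF X Q)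
    (hr : ∀ x ∈ X, (Q x).map (starRingEnd ℂ) = Q x) (hk : Even k) (hk2 : 2 ≤ k)
    (hrk : ∀ x ∈ X, (Q x).rank ≤ k) {a b : H X}
    (h0 : ∀ j, 0 < j → j < k → 2 * j ≠ k → HD X (2 * j) = ⊥)
    (hmid : ∃ α β : ℂ, cc hX hQ (k / 2) = α • a + β • b)
    (σ : H X →ₐ[ℂ] H X) (hab : σ a = b) (hba : σ b = a)
    (hσ : σ (cc hX hQ (k / 2)) = cc hX hQ (k / 2))
    (ha : H.conj X a = a) (hb : H.conj X b = b) (htop : cc hX hQ k = (a - b) ^ 2) :
    ∃ μ : ℝ, (Odd (k / 2) → μ = 0) ∧ cc hX hQ (k / 2) = (μ : ℂ) • (a + b) ∧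
      cs hX hQ = 1 + PowerSeries.C ((μ : ℂ) • (a + b)) * PowerSeries.X ^ (k / 2) +
        PowerSeries.C ((a - b) ^ 2) * PowerSeries.X ^ k := by
  have key : ∃ μ : ℝ, (Odd (k / 2) → μ = 0) ∧ cc hX hQ (k / 2) = (μ : ℂ) • (a + b) := by
    by_cases hodd : Odd (k / 2)
    · exact ⟨0, fun _ => rfl, by rw [cc_real_odd hX hQ hr hodd]; simp⟩
    · obtain ⟨α, β, h1⟩ := hmid
      exact ⟨_, fun h => absurd h hodd, real_smul (conj_cc_real hX hQ hr _)
        (by rw [map_add, ha, hb]) (symm_span σ hab hba hσ h1)⟩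
  obtain ⟨μ, h1, h2⟩ := key
  refine ⟨μ, h1, h2, ?_⟩
  obtain ⟨m, hm⟩ := hk
  have hm0 : 0 < m := by omega
  have hkm : k / 2 = m := by omega
  ext j
  rw [coeff_cs, map_add, map_add, PowerSeries.coeff_one, PowerSeries.coeff_C_mul,
    PowerSeries.coeff_C_mul, PowerSeries.coeff_X_pow, PowerSeries.coeff_X_pow]
  rcases Nat.eq_zero_or_pos j with rfl | hj
  · rw [cc_zero, if_pos rfl, if_neg (by omega), if_neg (by omega)]; simp
  · rw [if_neg (by omega : ¬ j = 0)]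
    by_cases hj1 : j = k / 2
    · rw [if_pos hj1, if_neg (by omega), hj1, h2]; simp
    · by_cases hj2 : j = k
      · rw [if_neg (by omega), if_pos hj2, hj2, htop]; simp
      · rw [if_neg hj1, if_neg hj2]
        simp only [mul_zero, add_zero]
        rcases lt_or_ge j k with hlt | hge
        · have h3 := T.cc_mem_HD hX hQ j
          rw [h0 j hj hlt (by omega)] at h3
          exact (Submodule.mem_bot ℂ).1 h3
        · exact cc_eq_zero hX hQ fun x hx => lt_of_le_of_lt (hrk x hx) (by omega)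

end Crest.Agent.R208.VX
end
end

-- ▼ part R208/VX2

/-!
R208, block (X3) (helper683), part VX2: `c(V ⊗ ℂ) = 1 + μ (x₁ + x₂) t^(k/2) + (x₁ - x₂)² t^k`
on `F`.
-/

set_option autoImplicit false
set_option linter.unusedSectionVars false

open MeasureTheory Set Filter Topology Module
open scoped ContDiff RealInnerProductSpace
open Crest.GeometryTopology.Submanifold
open Crest.Agent.R241.DDefs
open Crest.Agent.R241.D2
open Crest.Agent.R208.F Crest.Agent.R208.FI Crest.Agent.R208.CW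
open Crest.Agent.R208.T (HD EC rcl Sm Cl Hom Coh Eqv eR)

noncomputable section

namespace Crest.Agent.R208.VX

/-! ### real Euler forms as classes -/

section er
variable {E : Type*} [NormedAddCommGroup E] [NormedSpace ℝ E] [FiniteDimensional ℝ E]
  {ι n : Type*} [Fintype ι] [DecidableEq ι] [Fintype n] [DecidableEq n] {X : Set E} {dX : ℕ}
  {P : E → EuclideanSpace ℝ n →L[ℝ] EuclideanSpace ℝ n} {W : E → (ι × Fin 2 → n) → ℝ}

theorem ef_eR (x : E) : ef (fun y => T.mtx (P y)) (T.wC W) x = Cx.ofR (eR P W x) := by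
  refine Cx.ext rfl ?_
  have h1 : IsRe (ef (fun y => T.mtx (P y)) (T.wC W) x) :=
    IsRe_ef (fun y i j => Complex.ofReal_im _) (fun I => Complex.ofReal_im _)
  exact h1

theorem hom_eR : Hom (2 * Fintype.card ι) (eR P W) := fun x => by
  have h1 := T.degC_ef (fun y => T.mtx (P y)) (T.wC W) x
  exact h1.1

theorem ec_eR (h : T.OR X P W) : EC X (eR P W) := by
  have h1 := T.mem_Z_iff.1 (ef_mem_Z h.of)
  exact ⟨h1.1.1, h1.1.2.1, h1.1.2.2⟩

theorem rcl_eR (h : T.OR X P W) : rcl (ec_eR h) = ec h.of := by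
  refine cls_congr fun x hx => ?_
  rw [ef_eR]; rfl

theorem rank_OF {P : E → Matrix n n ℂ} {W : E → (ι × Fin 2 → n) → ℂ} (h : OF X P W) {x : E}
    (hx : x ∈ X) : (P x).rank ≤ 2 * Fintype.card ι := by
  obtain ⟨f, -, h2, -⟩ := h.fr x hx
  rw [← h2]
  refine (Matrix.rank_mul_le_left _ _).trans ((Matrix.rank_le_card_width f).trans ?_)
  rw [Fintype.card_prod, Fintype.card_fin, mul_comm]

end er

/-! ### classes with real coefficients -/

section conj
variable {E : Type*} [NormedAddCommGroup E] [NormedSpace ℝ E] [FiniteDimensional ℝ E]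
  {X : Set E} {a : E → Ext E}

theorem conj_rcl (h : EC X a) : H.conj X (rcl h) = rcl h := by
  rw [rcl, H.conj_cls]
  refine cls_congr fun x hx => ?_
  congr 1
  exact Cx.ext rfl (neg_zero (G := Ext E))

end conj

variable {n N k : ℕ} {κ : ℝ} {S : Set (Euc N)} {G : Geo n N κ S}

theorem mV_eq (PV : Euc N × Euc N → Euc N →L[ℝ] Euc N) (z : Euc N × Euc N) :
    GT.mV PV z = T.mtx (PV z) := by
  ext i j
  rw [GT.mV, SP.cr_apply, GT.mt_bas, T.mtx, Matrix.of_apply, GT.bas_apply, GT.bas_apply,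
    EuclideanSpace.basisFun_apply, EuclideanSpace.basisFun_apply, EuclideanSpace.inner_single_left]
  simp

/-- the normalising constant `2^r r!` of the Euler form -/
def nE (ι : Type*) [Fintype ι] : ℝ := 2 ^ Fintype.card ι * (Fintype.card ι).factorial

theorem nE_pos (ι : Type*) [Fintype ι] : 0 < nE ι := by unfold nE; positivity

section main
variable {ι : Type*} [Fintype ι] [DecidableEq ι] (h : GT.Bla G k) {d : ℕ}
  {W : Euc N × Euc N → (ι × Fin 2 → Fin N) → ℝ}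

theorem ec_sq_V (hF : Sub d (GT.FF S)) (hW : T.OR (GT.FF S) (FV.PVB h) W)
    (hι : 2 * Fintype.card ι = k) :
    ec hW.of ^ 2 = ((nE ι : ℝ) : ℂ) ^ 2 • cc hF (GT.idf_mV (FV.vfield_PVB h)) k := by
  rw [ec_sq hF hW.of, hι, cc_congr hF hW.of.idF (GT.idf_mV (FV.vfield_PVB h))
    (fun z _ => (mV_eq _ z).symm), nE]
  push_cast
  rfl

theorem xq_xp_swap (x : CW.H S) : H.map GT.smap_swap (FG.xp x) = FG.xq x ∧
    H.map GT.smap_swap (FG.xq x) = FG.xp x := by
  constructor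
  · rw [FG.xp, FG.xq, H.map_map]
  · rw [FG.xp, FG.xq, H.map_map]

theorem map_cc_swap (hkn : k < n) (hF : Sub d (GT.FF S)) (j : ℕ) :
    H.map GT.smap_swap (cc hF (GT.idf_mV (FV.vfield_PVB h)) j) =
      cc hF (GT.idf_mV (FV.vfield_PVB h)) j := by
  rw [cc_map hF hF, cc_eq_el, cc_eq_el]
  exact el_congr fun i _ _ => GT.sc_V_swap (FV.vfield_PVB h) h hkn hF i

theorem mV_real (PV : Euc N × Euc N → Euc N →L[ℝ] Euc N) (z : Euc N × Euc N) :
    (GT.mV PV z).map (starRingEnd ℂ) = GT.mV PV z := by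
  ext i j
  rw [Matrix.map_apply, GT.mV, SP.cr_apply, Complex.conj_ofReal]

/-- **(X3)**: the total Chern class of `V ⊗ ℂ` on `F`. -/
theorem cs_V (hke : Even k) (hk2 : 2 ≤ k) (hkn : 2 * k ≤ n) (hF : Sub d (GT.FF S))
    (hW : T.OR (GT.FF S) (FV.PVB h) W) (hι : 2 * Fintype.card ι = k)
    {x : Euc N → Ext (Euc N)} (hx : EC S x)
    (hrel : Coh (GT.FF S) (F.pull Prod.snd x) (F.pull Prod.fst x + eR (FV.PVB h) W))
    (hB5 : ∀ (j : ℕ) (b : Euc N × Euc N → Ext (Euc N × Euc N)), Even j → j + 1 < n →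
      Sm (GT.FF S) b → Cl (GT.FF S) b → Hom j b → ∃ f : ℕ → ℝ, (¬ k ∣ j → ∀ a, f a = 0) ∧
        Coh (GT.FF S) b (∑ a ∈ Finset.range (j / k + 1),
          f a • (F.pull Prod.fst x ^ a * eR (FV.PVB h) W ^ (j / k - a)))) :
    ∃ μ : ℝ, (Odd (k / 2) → μ = 0) ∧
      cc hF (GT.idf_mV (FV.vfield_PVB h)) (k / 2) =
        (μ : ℂ) • (FG.xp (((nE ι : ℝ) : ℂ)⁻¹ • rcl hx) + FG.xq (((nE ι : ℝ) : ℂ)⁻¹ • rcl hx)) ∧
      cs hF (GT.idf_mV (FV.vfield_PVB h)) = 1 +
        PowerSeries.C ((μ : ℂ) •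
          (FG.xp (((nE ι : ℝ) : ℂ)⁻¹ • rcl hx) + FG.xq (((nE ι : ℝ) : ℂ)⁻¹ • rcl hx))) *
            PowerSeries.X ^ (k / 2) +
        PowerSeries.C ((FG.xp (((nE ι : ℝ) : ℂ)⁻¹ • rcl hx) -
          FG.xq (((nE ι : ℝ) : ℂ)⁻¹ • rcl hx)) ^ 2) * PowerSeries.X ^ k := by
  have hc0 : ((nE ι : ℝ) : ℂ) ≠ 0 := by exact_mod_cast (nE_pos ι).ne'
  have hxf : EC (GT.FF S) (F.pull Prod.fst x) := hx.pull FG.smap_fst
  have hxs : EC (GT.FF S) (F.pull Prod.snd x) := hx.pull FG.smap_snd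
  have e1 : FG.xp (rcl hx) = rcl hxf := (T.rcl_pull FG.smap_fst hx).symm
  have e2 : FG.xq (rcl hx) = rcl hxs := (T.rcl_pull FG.smap_snd hx).symm
  have e3 : rcl hxs = rcl hxf + ec hW.of := by
    rw [← rcl_eR hW, ← T.rcl_add hxf (ec_eR hW)]
    exact T.rcl_congr _ _ hrel
  have s1 : FG.xp (((nE ι : ℝ) : ℂ)⁻¹ • rcl hx) = ((nE ι : ℝ) : ℂ)⁻¹ • rcl hxf := by
    rw [FG.xp, map_smul, ← e1, FG.xp]
  have s2 : FG.xq (((nE ι : ℝ) : ℂ)⁻¹ • rcl hx) = ((nE ι : ℝ) : ℂ)⁻¹ • rcl hxs := by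
    rw [FG.xq, map_smul, ← e2, FG.xq]
  refine cs_real hF (GT.idf_mV (FV.vfield_PVB h)) (fun z _ => mV_real _ z) hke hk2 ?_ ?_ ?_
    (H.map GT.smap_swap) (xq_xp_swap _).1 (xq_xp_swap _).2 (map_cc_swap h (by omega) hF _) ?_ ?_ ?_
  · intro z hz
    rw [mV_eq]
    exact (rank_OF hW.of hz).trans hι.le
  · intro j hj hjk hne
    refine T.HD_eq_bot fun b h1 h2 h3 => ?_
    obtain ⟨f, hf, h4⟩ := hB5 (2 * j) b (even_two_mul j) (by omega) h1 h2 h3
    have h5 : ¬ k ∣ 2 * j := by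
      rintro ⟨c, hc⟩
      have h6 : c < 2 := by
        by_contra h7
        have : k * 2 ≤ k * c := Nat.mul_le_mul_left k (not_lt.1 h7)
        omega
      interval_cases c <;> omega
    simpa [hf h5] using h4
  · -- the middle class
    have h1 : cc hF (GT.idf_mV (FV.vfield_PVB h)) (k / 2) ∈ HD (GT.FF S) (2 * (k / 2)) :=
      T.cc_mem_HD hF _ _
    have hkk : 2 * (k / 2) = k := by obtain ⟨m, hm⟩ := hke; omega
    obtain ⟨Cf, hCf⟩ := T.HD_span (j := k / 2) (Finset.range 2)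
      (w := fun a => F.pull Prod.fst x ^ a * eR (FV.PVB h) W ^ (1 - a))
      (fun a => (hxf.pow a).mul ((ec_eR hW).pow _)) (fun b h2 h3 h4 => by
        rw [hkk] at h4
        obtain ⟨f, -, h5⟩ := hB5 k b hke (by omega) h2 h3 h4
        rw [Nat.div_self (by omega)] at h5
        exact ⟨f, h5⟩) h1
    have r0 : rcl ((hxf.pow 0).mul ((ec_eR hW).pow (1 - 0))) = ec hW.of := by
      rw [T.rcl_mul (hxf.pow 0) ((ec_eR hW).pow (1 - 0)), T.rcl_pow hxf, T.rcl_pow (ec_eR hW),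
        rcl_eR hW]
      simp
    have r1 : rcl ((hxf.pow 1).mul ((ec_eR hW).pow (1 - 1))) = rcl hxf := by
      rw [T.rcl_mul (hxf.pow 1) ((ec_eR hW).pow (1 - 1)), T.rcl_pow hxf, T.rcl_pow (ec_eR hW)]
      simp
    rw [Finset.sum_range_succ, Finset.sum_range_one, r0, r1] at hCf
    refine ⟨((nE ι : ℝ) : ℂ) * (Cf 1 - Cf 0), ((nE ι : ℝ) : ℂ) * Cf 0, ?_⟩
    have e4 : ec hW.of = rcl hxs - rcl hxf := by rw [e3]; abel
    rw [hCf, s1, s2, smul_smul, smul_smul, e4, mul_right_comm, mul_right_comm _ (Cf 0),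
      mul_inv_cancel₀ hc0]
    module
  · rw [s1, H.conj_smul, conj_rcl, map_inv₀, Complex.conj_ofReal]
  · rw [s2, H.conj_smul, conj_rcl, map_inv₀, Complex.conj_ofReal]
  · have e5 : FG.xp (((nE ι : ℝ) : ℂ)⁻¹ • rcl hx) - FG.xq (((nE ι : ℝ) : ℂ)⁻¹ • rcl hx) =
        -(((nE ι : ℝ) : ℂ)⁻¹ • ec hW.of) := by
      rw [s1, s2, e3]; module
    rw [e5, neg_sq, smul_pow, ec_sq_V h hF hW hι, smul_smul, ← mul_pow, inv_mul_cancel₀ hc0,
      one_pow, one_smul]

end main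

end Crest.Agent.R208.VX
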