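import Crest.Agent.R208.FH12
import Crest.Agent.R208.THD2
import Crest.Agent.R208.XF0
import Crest.Agent.R208.THB4

-- ▼ part R208/XF1a
section

/-! Row 208, block XF (helper885).  XF1a: the local limit `λ → ∞` of `∫ (f, λ g)^* τ` at a
nondegenerate zero of `g`. -/

set_option autoImplicit false
set_option linter.unusedSectionVars false

open MeasureTheory MeasureTheory.Measure Set Filter Topology Module
open scoped ContDiff
open Crest.Agent.R208.F Crest.Agent.R208.FI

noncomputable section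

namespace Crest.Agent.R208.XF

variable {E H : Type*} [NormedAddCommGroup E] [NormedSpace ℝ E] [FiniteDimensional ℝ E]
  [NormedAddCommGroup H] [NormedSpace ℝ H] [FiniteDimensional ℝ H] {d : ℕ}

/-- joint continuity of `(A, c) ↦ top (A^* c)` -/
theorem continuous_top_pb :
    Continuous fun q : (Eu d →L[ℝ] E) × Ext E => top d (pb (q.1 : Eu d →ₗ[ℝ] E) q.2) := by
  have : (fun q : (Eu d →L[ℝ] E) × Ext E => pb (q.1 : Eu d →ₗ[ℝ] E) q.2) =
      fun q => ∑ J, (extBasis E).coord J q.2 • pb (q.1 : Eu d →ₗ[ℝ] E) (extBasis E J) := by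
    funext q
    conv_lhs => rw [← (extBasis E).sum_repr q.2]
    simp only [_root_.map_sum, map_smul]
    rfl
  have h1 : Continuous (fun q : (Eu d →L[ℝ] E) × Ext E => pb (q.1 : Eu d →ₗ[ℝ] E) q.2) := by
    rw [this]
    refine continuous_finsetSum _ fun J _ => ?_
    exact ((LinearMap.toContinuousLinearMap ((extBasis E).coord J)).continuous.comp
      continuous_snd).smul ((contDiff_pb_apply (n := 0) (extBasis E J)).continuous.comp
      continuous_fst)
  exact continuous_top.comp h1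

/-- scaling of the linear map -/
theorem top_pb_smul (A : Eu d →L[ℝ] E) (c : Ext E) (σ : ℝ) :
    top d (pb ((σ • A : Eu d →L[ℝ] E) : Eu d →ₗ[ℝ] E) c) =
      σ ^ d * top d (pb (A : Eu d →ₗ[ℝ] E) c) := by
  rw [top_pb, top_pb]
  have h := (evA E d c).toMultilinearMap.map_smul_univ (fun _ : Fin d => σ)
    (fun i => A (sb d i))
  simp only [Finset.prod_const, Finset.card_univ, Fintype.card_fin, smul_eq_mul] at h
  exact h

/-- the derivative of `u ↦ (f u, λ g u)` -/
theorem fderiv_pair {f : Eu d → E} {g : Eu d → H} {u : Eu d} (lam : ℝ)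
    (hf : DifferentiableAt ℝ f u) (hg : DifferentiableAt ℝ g u) :
    fderiv ℝ (fun u => (f u, lam • g u)) u = (fderiv ℝ f u).prod (lam • fderiv ℝ g u) := by
  have h := DifferentiableAt.fderiv_prodMk (f₂ := fun u => lam • g u) hf (hg.fun_const_smul lam)
  rw [h, fderiv_fun_const_smul hg]

theorem continuous_clm_prod :
    Continuous fun q : (Eu d →L[ℝ] E) × (Eu d →L[ℝ] H) => q.1.prod q.2 :=
  (ContinuousLinearMap.prodₗᵢ (𝕜 := ℝ) (E := Eu d) (F := E) (G := H) ℝ).continuous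

theorem aesm_comp {F : Eu d → ℝ} (hF : AEStronglyMeasurable F volume) (u0 : Eu d) {σ : ℝ}
    (hσ : σ ≠ 0) : AEStronglyMeasurable (fun y => F (u0 + σ • y)) volume := by
  have h2 : Measure.QuasiMeasurePreserving (fun y : Eu d => σ • y) volume volume := by
    refine ⟨(continuous_const_smul _).measurable, ?_⟩
    rw [Measure.map_addHaar_smul _ hσ]
    exact Measure.smul_absolutelyContinuous
  have h1 : Measure.QuasiMeasurePreserving (fun y : Eu d => u0 + σ • y) volume volume :=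
    (measurePreserving_add_left volume u0).quasiMeasurePreserving.comp h2
  exact hF.comp_quasiMeasurePreserving h1

/-- the measurability of the integrand -/
theorem aesm_Th {f : Eu d → E} {g : Eu d → H} {u0 : Eu d} {ρ : ℝ} {τ : E × H → Ext (E × H)}
    {lam : ℝ} (hf : ContinuousOn f (Metric.ball u0 ρ)) (hg : ContinuousOn g (Metric.ball u0 ρ))
    (hf' : ContinuousOn (fderiv ℝ f) (Metric.ball u0 ρ))
    (hg' : ContinuousOn (fderiv ℝ g) (Metric.ball u0 ρ))
    (hτ : ∀ u ∈ Metric.ball u0 ρ, ContinuousAt τ (f u, lam • g u)) :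
    AEStronglyMeasurable ((Metric.ball u0 ρ).indicator fun u =>
      top d (pb (((lam⁻¹ • fderiv ℝ f u).prod (fderiv ℝ g u) : Eu d →L[ℝ] E × H) :
        Eu d →ₗ[ℝ] E × H) (τ (f u, lam • g u)))) volume := by
  rw [aestronglyMeasurable_indicator_iff Metric.isOpen_ball.measurableSet]
  refine ContinuousOn.aestronglyMeasurable ?_ Metric.isOpen_ball.measurableSet
  have h1 : ContinuousOn (fun u => (lam⁻¹ • fderiv ℝ f u).prod (fderiv ℝ g u))
      (Metric.ball u0 ρ) :=
    continuous_clm_prod.comp_continuousOn ((hf'.const_smul lam⁻¹).prodMk hg')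
  have h2 : ContinuousOn (fun u => τ (f u, lam • g u)) (Metric.ball u0 ρ) := by
    intro u hu
    have h5 : ContinuousWithinAt (fun u => (f u, lam • g u)) (Metric.ball u0 ρ) u :=
      (hf u hu).prodMk ((hg u hu).const_smul lam)
    exact ContinuousAt.comp_continuousWithinAt (g := τ) (f := fun u => (f u, lam • g u))
      (hτ u hu) h5
  have h3 : ContinuousOn (fun u => ((lam⁻¹ • fderiv ℝ f u).prod (fderiv ℝ g u),
      τ (f u, lam • g u))) (Metric.ball u0 ρ) := h1.prodMk h2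
  exact Continuous.comp_continuousOn
    (g := fun q : (Eu d →L[ℝ] E × H) × Ext (E × H) => top d (pb (q.1 : Eu d →ₗ[ℝ] E × H) q.2))
    (f := fun u => ((lam⁻¹ • fderiv ℝ f u).prod (fderiv ℝ g u), τ (f u, lam • g u)))
    continuous_top_pb h3

theorem local_limit {f : Eu d → E} {g : Eu d → H} {u0 : Eu d} {ρ c R : ℝ} (hρ : 0 < ρ)
    (hc : 0 < c) {P : E → H →L[ℝ] H} {τ : E × H → Ext (E × H)}
    (hf : ∀ u ∈ Metric.closedBall u0 ρ, ContDiffAt ℝ 1 f u)
    (hg : ∀ u ∈ Metric.closedBall u0 ρ, ContDiffAt ℝ 1 g u) (hg0 : g u0 = 0)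
    (hgc : ∀ u ∈ Metric.closedBall u0 ρ, c * ‖u - u0‖ ≤ ‖g u‖)
    (hP : ∀ u ∈ Metric.closedBall u0 ρ, ContinuousAt P (f u))
    (hPg : ∀ u ∈ Metric.closedBall u0 ρ, P (f u) (g u) = g u)
    (hτ : ∀ u ∈ Metric.closedBall u0 ρ, ∀ v, P (f u) v = v → ContinuousAt τ (f u, v))
    (hτR : ∀ z : E × H, R < ‖z.2‖ → τ z = 0) :
    Tendsto (fun lam : ℝ => ∫ u in Metric.ball u0 ρ,
        top d (F.pull (fun u => (f u, lam • g u)) τ u)) atTop
      (𝓝 (∫ y : Eu d, top d (pb (((0 : Eu d →L[ℝ] E).prod (fderiv ℝ g u0) :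
        Eu d →L[ℝ] E × H) : Eu d →ₗ[ℝ] E × H) (τ (f u0, fderiv ℝ g u0 y))))) := by
  set cB := Metric.closedBall u0 ρ with hcB
  set L := fderiv ℝ g u0 with hL
  have hcBc : IsCompact cB := isCompact_closedBall _ _
  have hu0 : u0 ∈ cB := Metric.mem_closedBall_self hρ.le
  have hdf : ∀ u ∈ cB, DifferentiableAt ℝ f u := fun u hu => (hf u hu).differentiableAt (by norm_num)
  have hdg : ∀ u ∈ cB, DifferentiableAt ℝ g u := fun u hu => (hg u hu).differentiableAt (by norm_num)
  have hfc : ContinuousOn f cB := fun u hu => (hf u hu).continuousAt.continuousWithinAt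
  have hgc' : ContinuousOn g cB := fun u hu => (hg u hu).continuousAt.continuousWithinAt
  have hf' : ∀ u ∈ cB, ContinuousAt (fderiv ℝ f) u := fun u hu =>
    ((hf u hu).fderiv_right (m := 0) (by norm_num)).continuousAt
  have hg' : ∀ u ∈ cB, ContinuousAt (fderiv ℝ g) u := fun u hu =>
    ((hg u hu).fderiv_right (m := 0) (by norm_num)).continuousAt
  -- the integrand
  let A : ℝ → Eu d → (Eu d →L[ℝ] E × H) := fun lam u =>
    (lam⁻¹ • fderiv ℝ f u).prod (fderiv ℝ g u)
  let Th : ℝ → Eu d → ℝ := fun lam u => top d (pb (A lam u : Eu d →ₗ[ℝ] E × H) (τ (f u, lam • g u)))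
  let Φ : ℝ → Eu d → ℝ := fun lam y =>
    (Metric.ball u0 ρ).indicator (Th lam) (u0 + lam⁻¹ • y)
  have key1 : ∀ lam : ℝ, 0 < lam → ∀ u ∈ cB,
      top d (F.pull (fun u => (f u, lam • g u)) τ u) = lam ^ d * Th lam u := by
    intro lam hlam u hu
    have h1 : fderiv ℝ (fun u => (f u, lam • g u)) u = lam • A lam u := by
      rw [fderiv_pair lam (hdf u hu) (hdg u hu)]
      ext v
      · simp [A, hlam.ne']
      · simp [A]
    rw [F.pull, h1, top_pb_smul]
  have key2 : ∀ lam : ℝ, 0 < lam → ∫ u in Metric.ball u0 ρ,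
      top d (F.pull (fun u => (f u, lam • g u)) τ u) = ∫ y, Φ lam y := by
    intro lam hlam
    have h1 : ∫ u in Metric.ball u0 ρ, top d (F.pull (fun u => (f u, lam • g u)) τ u) =
        ∫ u, (Metric.ball u0 ρ).indicator (fun u => lam ^ d * Th lam u) u := by
      rw [integral_indicator Metric.isOpen_ball.measurableSet]
      refine setIntegral_congr_fun Metric.isOpen_ball.measurableSet fun u hu => ?_
      exact key1 lam hlam u (Metric.ball_subset_closedBall hu)
    rw [h1]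
    have h2 : (fun u => (Metric.ball u0 ρ).indicator (fun u => lam ^ d * Th lam u) u) =
        fun u => lam ^ d * (Metric.ball u0 ρ).indicator (Th lam) u := by
      funext u
      by_cases hu : u ∈ Metric.ball u0 ρ
      · rw [indicator_of_mem hu, indicator_of_mem hu]
      · rw [indicator_of_notMem hu, indicator_of_notMem hu, mul_zero]
    rw [h2, integral_const_mul]
    have h3 : ∫ y, Φ lam y = |((lam⁻¹ ^ finrank ℝ (Eu d))⁻¹)| •
        ∫ y, (Metric.ball u0 ρ).indicator (Th lam) (u0 + y) :=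
      Measure.integral_comp_smul volume
        (fun y => (Metric.ball u0 ρ).indicator (Th lam) (u0 + y)) lam⁻¹
    rw [h3, integral_add_left_eq_self (fun y => (Metric.ball u0 ρ).indicator (Th lam) y) u0,
      finrank_euclideanSpace_fin, inv_pow, _root_.inv_inv, abs_of_pos (pow_pos hlam d), smul_eq_mul]
  -- compactness and the bound
  set Kb : Set (E × H) := {z | ∃ u ∈ cB, f u = z.1 ∧ P z.1 z.2 = z.2 ∧ ‖z.2‖ ≤ R} with hKb
  have hKbc : IsCompact Kb := by
    have h1 : IsCompact (cB ×ˢ Metric.closedBall (0 : H) R) :=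
      hcBc.prod (isCompact_closedBall _ _)
    have h2 : IsClosed ((cB ×ˢ Metric.closedBall (0 : H) R) ∩
        {q : Eu d × H | P (f q.1) q.2 - q.2 ∈ ({0} : Set H)}) := by
      refine ContinuousOn.preimage_isClosed_of_isClosed ?_ h1.isClosed isClosed_singleton
      have h3 : ContinuousOn (fun q : Eu d × H => P (f q.1)) (cB ×ˢ Metric.closedBall (0 : H) R) := by
        intro q hq
        have h4 : ContinuousAt (fun q : Eu d × H => P (f q.1)) q := by
          have h5 : ContinuousAt (fun q : Eu d × H => f q.1) q :=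
            ContinuousAt.comp (g := f) (f := Prod.fst) (hf q.1 hq.1).continuousAt continuousAt_fst
          exact ContinuousAt.comp (g := P) (f := fun q : Eu d × H => f q.1) (hP q.1 hq.1) h5
        exact h4.continuousWithinAt
      exact (h3.clm_apply continuousOn_snd).sub continuousOn_snd
    have h3 : IsCompact ((cB ×ˢ Metric.closedBall (0 : H) R) ∩
        {q : Eu d × H | P (f q.1) q.2 - q.2 ∈ ({0} : Set H)}) :=
      h1.of_isClosed_subset h2 inter_subset_left
    have h4 : Kb = (fun q : Eu d × H => (f q.1, q.2)) '' ((cB ×ˢ Metric.closedBall (0 : H) R) ∩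
        {q : Eu d × H | P (f q.1) q.2 - q.2 ∈ ({0} : Set H)}) := by
      ext z
      constructor
      · rintro ⟨u, hu, h5, h6, h7⟩
        refine ⟨(u, z.2), ⟨⟨hu, by simpa using h7⟩, ?_⟩, Prod.ext h5 rfl⟩
        simp only [mem_ofPred_eq, mem_singleton_iff, h5, h6, sub_self]
      · rintro ⟨q, ⟨⟨h5, h6⟩, h7⟩, rfl⟩
        refine ⟨q.1, h5, rfl, ?_, by simpa using h6⟩
        simpa [sub_eq_zero] using h7
    rw [h4]
    refine h3.image_of_continuousOn ?_
    refine ContinuousOn.prodMk ?_ continuousOn_snd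
    exact hfc.comp continuousOn_fst fun q hq => hq.1.1
  have hτKb : ContinuousOn τ Kb := by
    rintro z ⟨u, hu, h5, h6, -⟩
    have : ContinuousAt τ (f u, z.2) := hτ u hu z.2 (by rw [h5]; exact h6)
    have h7 : (f u, z.2) = z := Prod.ext h5 rfl
    rw [h7] at this
    exact this.continuousWithinAt
  have hM1 : ∃ M1, ∀ u ∈ cB, ‖fderiv ℝ f u‖ ≤ M1 := hcBc.exists_bound_of_continuousOn
    fun u hu => (hf' u hu).continuousWithinAt
  have hM2 : ∃ M2, ∀ u ∈ cB, ‖fderiv ℝ g u‖ ≤ M2 := hcBc.exists_bound_of_continuousOn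
    fun u hu => (hg' u hu).continuousWithinAt
  obtain ⟨M1, hM1⟩ := hM1
  obtain ⟨M2, hM2⟩ := hM2
  have hM : ∃ M, ∀ q ∈ (Metric.closedBall (0 : Eu d →L[ℝ] E × H) (max M1 M2)) ×ˢ (τ '' Kb),
      ‖top d (pb (q.1 : Eu d →ₗ[ℝ] E × H) q.2)‖ ≤ M :=
    ((isCompact_closedBall _ _).prod (hKbc.image_of_continuousOn hτKb)).exists_bound_of_continuousOn
      continuous_top_pb.continuousOn
  obtain ⟨M, hM⟩ := hM
  have hA : ∀ lam : ℝ, 1 ≤ lam → ∀ u ∈ cB, ‖A lam u‖ ≤ max M1 M2 := by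
    intro lam hlam u hu
    refine ContinuousLinearMap.opNorm_le_bound _ ?_ fun v => ?_
    · exact le_max_of_le_left ((norm_nonneg _).trans (hM1 u hu))
    · change ‖(lam⁻¹ • fderiv ℝ f u v, fderiv ℝ g u v)‖ ≤ _
      rw [Prod.norm_def]
      refine max_le ?_ ?_
      · rw [norm_smul, norm_inv, Real.norm_of_nonneg (by linarith)]
        have h1 : lam⁻¹ ≤ 1 := inv_le_one_of_one_le₀ hlam
        have h2 := (fderiv ℝ f u).le_opNorm v
        have h3 := hM1 u hu
        have h4 : ‖fderiv ℝ f u v‖ ≤ max M1 M2 * ‖v‖ :=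
          h2.trans (mul_le_mul_of_nonneg_right (h3.trans (le_max_left _ _)) (norm_nonneg _))
        calc lam⁻¹ * ‖fderiv ℝ f u v‖ ≤ 1 * ‖fderiv ℝ f u v‖ :=
              mul_le_mul_of_nonneg_right h1 (norm_nonneg _)
          _ ≤ _ := by rw [one_mul]; exact h4
      · exact ((fderiv ℝ g u).le_opNorm v).trans
          (mul_le_mul_of_nonneg_right ((hM2 u hu).trans (le_max_right _ _)) (norm_nonneg _))
  have hzero : ∀ lam : ℝ, 0 < lam → ∀ y : Eu d, R / c < ‖y‖ → Φ lam y = 0 := by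
    intro lam hlam y hy
    by_cases hu : u0 + lam⁻¹ • y ∈ Metric.ball u0 ρ
    · have hu' := Metric.ball_subset_closedBall hu
      change (Metric.ball u0 ρ).indicator (Th lam) (u0 + lam⁻¹ • y) = 0
      rw [indicator_of_mem hu]
      have h1 := hgc _ hu'
      rw [add_sub_cancel_left, norm_smul, norm_inv, Real.norm_of_nonneg hlam.le] at h1
      have h2 : R < ‖lam • g (u0 + lam⁻¹ • y)‖ := by
        rw [norm_smul, Real.norm_of_nonneg hlam.le]
        rw [div_lt_iff₀ hc] at hy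
        calc R < ‖y‖ * c := hy
          _ = lam * (c * (lam⁻¹ * ‖y‖)) := by field_simp
          _ ≤ _ := mul_le_mul_of_nonneg_left h1 hlam.le
      change top d (pb _ (τ (f (u0 + lam⁻¹ • y), lam • g (u0 + lam⁻¹ • y)))) = 0
      rw [hτR _ h2, map_zero, map_zero]
    · exact indicator_of_notMem hu _
  have hbound : ∀ lam : ℝ, 1 ≤ lam → ∀ y : Eu d,
      ‖Φ lam y‖ ≤ (Metric.closedBall (0 : Eu d) (R / c)).indicator (fun _ => max M 0) y := by
    intro lam hlam y
    have hlam0 : 0 < lam := by linarith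
    by_cases hy : ‖y‖ ≤ R / c
    · rw [indicator_of_mem (by simpa using hy)]
      by_cases hu : u0 + lam⁻¹ • y ∈ Metric.ball u0 ρ
      · have hu' := Metric.ball_subset_closedBall hu
        change ‖(Metric.ball u0 ρ).indicator (Th lam) (u0 + lam⁻¹ • y)‖ ≤ _
        rw [indicator_of_mem hu]
        set u := u0 + lam⁻¹ • y with hudef
        change ‖top d (pb (A lam u : Eu d →ₗ[ℝ] E × H) (τ (f u, lam • g u)))‖ ≤ _
        by_cases hR : ‖lam • g u‖ ≤ R
        · refine (hM (A lam u, τ (f u, lam • g u)) ⟨?_, ?_⟩).trans (le_max_left _ _)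
          · simpa using hA lam hlam u hu'
          · exact ⟨_, ⟨u, hu', rfl, by
              change P (f u) (lam • g u) = lam • g u
              rw [map_smul, hPg u hu'], hR⟩, rfl⟩
        · rw [hτR _ (not_le.1 hR), map_zero, map_zero, norm_zero]
          exact le_max_right _ _
      · change ‖(Metric.ball u0 ρ).indicator (Th lam) (u0 + lam⁻¹ • y)‖ ≤ _
        rw [indicator_of_notMem hu, norm_zero]
        exact le_max_right _ _
    · rw [hzero lam hlam0 y (not_le.1 hy), norm_zero]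
      exact indicator_nonneg (fun _ _ => le_max_right _ _) _
  -- pointwise convergence
  have hLy : ∀ y : Eu d, Tendsto (fun lam : ℝ => lam • g (u0 + lam⁻¹ • y)) atTop (𝓝 (L y)) := by
    intro y
    have h1 : HasFDerivAt g L u0 := (hdg u0 hu0).hasFDerivAt
    have h2 := h1.lim y (c := fun lam : ℝ => lam) (l := (atTop : Filter ℝ))
      tendsto_norm_atTop_atTop
    refine h2.congr fun lam => ?_
    rw [hg0, sub_zero]
  have hu0y : ∀ y : Eu d, Tendsto (fun lam : ℝ => u0 + lam⁻¹ • y) atTop (𝓝 u0) := by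
    intro y
    have h1 : Tendsto (fun lam : ℝ => u0 + lam⁻¹ • y) atTop (𝓝 (u0 + (0 : ℝ) • y)) :=
      tendsto_const_nhds.add (tendsto_inv_atTop_zero.smul_const y)
    simpa using h1
  have hPL : ∀ y : Eu d, P (f u0) (L y) = L y := by
    intro y
    have h1 : Tendsto (fun lam : ℝ => P (f (u0 + lam⁻¹ • y)) (lam • g (u0 + lam⁻¹ • y))) atTop
        (𝓝 (P (f u0) (L y))) := by
      have h2 : Tendsto (fun lam : ℝ => P (f (u0 + lam⁻¹ • y))) atTop (𝓝 (P (f u0))) :=
        ((hP u0 hu0).tendsto.comp (hf u0 hu0).continuousAt.tendsto).comp (hu0y y)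
      exact (isBoundedBilinearMap_apply (𝕜 := ℝ) (E := H) (F := H)).continuous.continuousAt.tendsto.comp
        (h2.prodMk_nhds (hLy y))
    have h3 : ∀ᶠ lam : ℝ in atTop, P (f (u0 + lam⁻¹ • y)) (lam • g (u0 + lam⁻¹ • y)) =
        lam • g (u0 + lam⁻¹ • y) := by
      filter_upwards [(hu0y y).eventually (Metric.closedBall_mem_nhds u0 hρ)] with lam hlam
      rw [map_smul, hPg _ hlam]
    exact tendsto_nhds_unique (h1.congr' h3) (hLy y)
  have hpt : ∀ y : Eu d, Tendsto (fun lam => Φ lam y) atTop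
      (𝓝 (top d (pb (((0 : Eu d →L[ℝ] E).prod L : Eu d →L[ℝ] E × H) : Eu d →ₗ[ℝ] E × H)
        (τ (f u0, L y))))) := by
    intro y
    have h1 : Tendsto (fun lam : ℝ => A lam (u0 + lam⁻¹ • y)) atTop
        (𝓝 ((0 : Eu d →L[ℝ] E).prod L)) := by
      have h2 : Tendsto (fun lam : ℝ => lam⁻¹ • fderiv ℝ f (u0 + lam⁻¹ • y)) atTop (𝓝 0) := by
        have h3 := (tendsto_inv_atTop_zero (𝕜 := ℝ)).smul ((hf' u0 hu0).tendsto.comp (hu0y y))
        rw [zero_smul] at h3
        exact h3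
      have h3 : Tendsto (fun lam : ℝ => fderiv ℝ g (u0 + lam⁻¹ • y)) atTop (𝓝 L) :=
        (hg' u0 hu0).tendsto.comp (hu0y y)
      exact (continuous_clm_prod (d := d) (E := E) (H := H)).continuousAt.tendsto.comp
        (h2.prodMk_nhds h3)
    have h5 : Tendsto (fun lam : ℝ => τ (f (u0 + lam⁻¹ • y), lam • g (u0 + lam⁻¹ • y))) atTop
        (𝓝 (τ (f u0, L y))) := by
      have h6 := hτ u0 hu0 (L y) (hPL y)
      exact h6.tendsto.comp (((hf u0 hu0).continuousAt.tendsto.comp (hu0y y)).prodMk_nhds (hLy y))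
    have h7 := (continuous_top_pb (d := d) (E := E × H)).continuousAt.tendsto.comp
      (h1.prodMk_nhds h5)
    refine h7.congr' ?_
    filter_upwards [(hu0y y).eventually (Metric.ball_mem_nhds u0 hρ)] with lam hlam
    change _ = (Metric.ball u0 ρ).indicator (Th lam) (u0 + lam⁻¹ • y)
    rw [indicator_of_mem (Metric.mem_ball.2 hlam)]
    rfl
  -- conclusion
  have hfin : Tendsto (fun lam => ∫ y, Φ lam y) atTop
      (𝓝 (∫ y : Eu d, top d (pb (((0 : Eu d →L[ℝ] E).prod L :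
        Eu d →L[ℝ] E × H) : Eu d →ₗ[ℝ] E × H) (τ (f u0, L y))))) := by
    refine tendsto_integral_filter_of_dominated_convergence
      ((Metric.closedBall (0 : Eu d) (R / c)).indicator (fun _ => max M 0)) ?_ ?_ ?_ ?_
    · filter_upwards [eventually_gt_atTop 0] with lam hlam
      refine aesm_comp (F := (Metric.ball u0 ρ).indicator (Th lam)) ?_ u0
        (inv_ne_zero (ne_of_gt hlam))
      refine aesm_Th (hfc.mono Metric.ball_subset_closedBall)
        (hgc'.mono Metric.ball_subset_closedBall)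
        (fun u hu => (hf' u (Metric.ball_subset_closedBall hu)).continuousWithinAt)
        (fun u hu => (hg' u (Metric.ball_subset_closedBall hu)).continuousWithinAt)
        (fun u hu => ?_)
      have hu' := Metric.ball_subset_closedBall hu
      exact hτ u hu' _ (by rw [map_smul, hPg u hu'])
    · filter_upwards [eventually_ge_atTop 1] with lam hlam
      exact Eventually.of_forall (hbound lam hlam)
    · exact (integrable_indicator_iff Metric.isClosed_closedBall.measurableSet).2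
        (integrableOn_const ((isCompact_closedBall _ _).measure_lt_top.ne))
    · exact Eventually.of_forall hpt
  refine hfin.congr' ?_
  filter_upwards [eventually_gt_atTop 0] with lam hlam
  exact (key2 lam hlam).symm

end Crest.Agent.R208.XF
end
end

-- ▼ part R208/XF1b
section

/-! Row 208, block XF (helper885).  XF1b: the value of the local limit: `± ∫ GG (‖z‖²)`. -/

set_option autoImplicit false
set_option linter.unusedSectionVars false

open MeasureTheory MeasureTheory.Measure Set Filter Topology Module Matrix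
open scoped ContDiff
open Crest.Agent.R208.F Crest.Agent.R208.FI Crest.Agent.R208.CW Crest.Agent.R208.T

noncomputable section

namespace Crest.Agent.R208.XF

variable {E : Type*} [NormedAddCommGroup E] [NormedSpace ℝ E] [FiniteDimensional ℝ E]
  {n ι : Type*} [Fintype n] [DecidableEq n] [Fintype ι] [DecidableEq ι]

variable (ι) in
/-- the fibre integral of the Thom form -/
def tau0 : ℝ := ∫ z : Eu (Fintype.card ι * 2), GG ι (‖z‖ ^ 2)

/-- coordinates with respect to the frame -/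
def Mf (f : Matrix n (ι × Fin 2) ℝ) (L : Eu (Fintype.card ι * 2) →L[ℝ] EuclideanSpace ℝ n) :
    Eu (Fintype.card ι * 2) →ₗ[ℝ] Eu (Fintype.card ι * 2) :=
  (WithLp.linearEquiv 2 ℝ (Fin (Fintype.card ι * 2) → ℝ)).symm.toLinearMap ∘ₗ
    LinearMap.pi fun k => (eta f ((kFin ι).symm k)) ∘ₗ
      (L : Eu (Fintype.card ι * 2) →ₗ[ℝ] EuclideanSpace ℝ n)

theorem Mf_apply (f : Matrix n (ι × Fin 2) ℝ)
    (L : Eu (Fintype.card ι * 2) →L[ℝ] EuclideanSpace ℝ n) (y : Eu (Fintype.card ι * 2))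
    (k : Fin (Fintype.card ι * 2)) : Mf f L y k = eta f ((kFin ι).symm k) (L y) := rfl

theorem pb_Xi (f : Matrix n (ι × Fin 2) ℝ)
    (L : Eu (Fintype.card ι * 2) →L[ℝ] EuclideanSpace ℝ n) :
    pb (L : Eu (Fintype.card ι * 2) →ₗ[ℝ] EuclideanSpace ℝ n) (Xi f) =
      pb (Mf f L) (vol (Fintype.card ι * 2)) := by
  rw [Xi, vol, pb_iMulti, pb_iMulti]
  congr 1

theorem top_pb_Xi (f : Matrix n (ι × Fin 2) ℝ)
    (L : Eu (Fintype.card ι * 2) →L[ℝ] EuclideanSpace ℝ n) :
    top (Fintype.card ι * 2) (pb (L : Eu (Fintype.card ι * 2) →ₗ[ℝ] EuclideanSpace ℝ n) (Xi f)) =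
      LinearMap.det (Mf f L) := by
  rw [pb_Xi, top_pb_det, top_vol, mul_one]

variable {f : Matrix n (ι × Fin 2) ℝ} {A : EuclideanSpace ℝ n →L[ℝ] EuclideanSpace ℝ n}
  {L : Eu (Fintype.card ι * 2) →L[ℝ] EuclideanSpace ℝ n}

theorem norm_Mf (hf : fᵀ * f = 1) (hA : ∀ v i, A v i = ∑ j, (f * fᵀ) i j * v j)
    (hL : ∀ y, A (L y) = L y) (y : Eu (Fintype.card ι * 2)) : ‖Mf f L y‖ ^ 2 = ‖L y‖ ^ 2 := by
  rw [← hL y, norm_A hf hA, EuclideanSpace.norm_sq_eq, ← (kFin ι).sum_comp]
  refine Finset.sum_congr rfl fun p _ => ?_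
  rw [Mf_apply, Equiv.symm_apply_apply, eta_apply, Real.norm_eq_abs, sq_abs, sq]
  rfl

theorem det_Mf_ne (hf : fᵀ * f = 1) (hA : ∀ v i, A v i = ∑ j, (f * fᵀ) i j * v j)
    (hL : ∀ y, A (L y) = L y) (hi : Function.Injective L) : LinearMap.det (Mf f L) ≠ 0 := by
  have h1 : Function.Injective (Mf f L) := by
    rw [injective_iff_map_eq_zero]
    intro y hy
    have h2 := norm_Mf hf hA hL y
    rw [hy, norm_zero] at h2
    have h3 : L y = 0 := by
      rw [← norm_eq_zero]
      nlinarith [norm_nonneg (L y)]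
    exact (injective_iff_map_eq_zero L).1 hi y h3
  have h2 : LinearMap.ker (Mf f L) = ⊥ := LinearMap.ker_eq_bot.2 h1
  exact fun h => (LinearMap.bot_lt_ker_of_det_eq_zero h).ne' h2

theorem integral_comp_linear {d : ℕ} {M : Eu d →ₗ[ℝ] Eu d} (hM : LinearMap.det M ≠ 0)
    (φ : Eu d → ℝ) : ∫ y, φ (M y) = |LinearMap.det M|⁻¹ * ∫ z, φ z := by
  have h1 := Measure.map_linearMap_addHaar_eq_smul_addHaar (volume : Measure (Eu d)) hM
  have h2 : MeasurableEmbedding M := by
    have : (LinearMap.toContinuousLinearMap M : Eu d → Eu d) = M := rfl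
    have h3 : Function.Injective M := LinearMap.ker_eq_bot.1
      ((LinearMap.isUnit_iff_ker_eq_bot M).1
        ((LinearMap.isUnit_iff_isUnit_det M).2 (isUnit_iff_ne_zero.2 hM)))
    exact (M.continuous_of_finiteDimensional).measurableEmbedding h3
  have h3 := h2.integral_map (μ := volume) φ
  rw [h1] at h3
  rw [← h3, integral_smul_measure, abs_inv, ENNReal.toReal_ofReal (inv_nonneg.2 (abs_nonneg _)),
    smul_eq_mul]

theorem local_value [Nonempty ι] {P : E → EuclideanSpace ℝ n →L[ℝ] EuclideanSpace ℝ n}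
    {W : E → (ι × Fin 2 → n) → ℝ} {x : E} (hP : ContDiffAt ℝ ∞ P x)
    (hf : fᵀ * f = 1) (hPf : ∀ v i, P x v i = ∑ j, (f * fᵀ) i j * v j)
    (hWf : ∀ I, W x I = (f.submatrix I id).det) (hL : ∀ y, P x (L y) = L y)
    (hi : Function.Injective L) :
    ∃ ε : ℝ, (ε = 1 ∨ ε = -1) ∧
      ∫ y : Eu (Fintype.card ι * 2), top (Fintype.card ι * 2)
        (pb (((0 : Eu (Fintype.card ι * 2) →L[ℝ] E).prod L :
          Eu (Fintype.card ι * 2) →L[ℝ] E × EuclideanSpace ℝ n) :
          Eu (Fintype.card ι * 2) →ₗ[ℝ] E × EuclideanSpace ℝ n) (thomF P W (x, L y))) =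
        ε * tau0 ι := by
  have hdet := det_Mf_ne hf hPf hL hi
  have key : ∀ y : Eu (Fintype.card ι * 2), top (Fintype.card ι * 2)
        (pb (((0 : Eu (Fintype.card ι * 2) →L[ℝ] E).prod L :
          Eu (Fintype.card ι * 2) →L[ℝ] E × EuclideanSpace ℝ n) :
          Eu (Fintype.card ι * 2) →ₗ[ℝ] E × EuclideanSpace ℝ n) (thomF P W (x, L y))) =
        GG ι (‖Mf f L y‖ ^ 2) * LinearMap.det (Mf f L) := by
    intro y
    have h1 := pb_thomF (W := W) hP hf hPf hWf (L y)
    rw [hL y] at h1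
    have h2 : (((0 : Eu (Fintype.card ι * 2) →L[ℝ] E).prod L :
          Eu (Fintype.card ι * 2) →L[ℝ] E × EuclideanSpace ℝ n) :
          Eu (Fintype.card ι * 2) →ₗ[ℝ] E × EuclideanSpace ℝ n) =
        (((ContinuousLinearMap.inr ℝ E (EuclideanSpace ℝ n)).comp (P x) :
          EuclideanSpace ℝ n →L[ℝ] E × EuclideanSpace ℝ n) :
          EuclideanSpace ℝ n →ₗ[ℝ] E × EuclideanSpace ℝ n) ∘ₗ
        (L : Eu (Fintype.card ι * 2) →ₗ[ℝ] EuclideanSpace ℝ n) := by
      refine LinearMap.ext fun v => ?_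
      change ((0 : E), L v) = ((0 : E), P x (L v))
      rw [hL v]
    rw [h2, ← pb_comp, h1, map_smul, map_smul, top_pb_Xi, norm_Mf hf hPf hL y, smul_eq_mul]
  simp only [key]
  rw [integral_mul_const, integral_comp_linear hdet (fun z => GG ι (‖z‖ ^ 2))]
  change ∃ ε : ℝ, (ε = 1 ∨ ε = -1) ∧ |LinearMap.det (Mf f L)|⁻¹ * tau0 ι *
    LinearMap.det (Mf f L) = ε * tau0 ι
  rcases lt_or_gt_of_ne hdet with h | h
  · refine ⟨-1, Or.inr rfl, ?_⟩
    rw [abs_of_neg h]
    field_simp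
  · refine ⟨1, Or.inl rfl, ?_⟩
    rw [abs_of_pos h]
    field_simp

end Crest.Agent.R208.XF
end
end

-- ▼ part R208/XF1c

/-! Row 208, block XF (helper885).  XF1c: **the zero locus formula**
`∫_X e(P) = (4π)^r r! Σ_{s x = 0} ± 1` for a section with non degenerate zeros. -/

set_option autoImplicit false
set_option linter.unusedSectionVars false

open MeasureTheory MeasureTheory.Measure Set Filter Topology Module Matrix
open scoped ContDiff
open Crest.Agent.R208.F Crest.Agent.R208.FI Crest.Agent.R208.CW Crest.Agent.R208.T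

noncomputable section

namespace Crest.Agent.R208.XF

variable {E : Type*} [NormedAddCommGroup E] [NormedSpace ℝ E] [FiniteDimensional ℝ E]
  {H : Type*} [NormedAddCommGroup H] [NormedSpace ℝ H] [FiniteDimensional ℝ H] {d : ℕ}
  {X : Set E} {s : E → H}

/-- lower bound near a nondegenerate zero -/
theorem exists_lower {g : Eu d → H} {u0 : Eu d} {L : Eu d →L[ℝ] H} (hg : HasFDerivAt g L u0)
    (hg0 : g u0 = 0) (hL : Function.Injective L) :
    ∃ c : ℝ, 0 < c ∧ ∀ᶠ u in 𝓝 u0, c * ‖u - u0‖ ≤ ‖g u‖ := by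
  obtain ⟨K, hK, hK'⟩ := (L : Eu d →ₗ[ℝ] H).exists_antilipschitzWith (LinearMap.ker_eq_bot.2 hL)
  have h1 : ∀ w, ‖w‖ ≤ K * ‖L w‖ := fun w => by
    have := hK'.le_mul_dist w 0
    simpa [dist_eq_norm] using this
  have hK0 : (0:ℝ) < K := hK
  refine ⟨(2 * (K:ℝ))⁻¹, by positivity, ?_⟩
  have h2 := (hg.isLittleO.def (c := (2 * (K:ℝ))⁻¹) (by positivity))
  filter_upwards [h2] with u hu
  rw [hg0, sub_zero] at hu
  have h3 := h1 (u - u0)
  have h4 : ‖L (u - u0)‖ ≤ ‖g u‖ + ‖g u - L (u - u0)‖ := by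
    have := norm_sub_norm_le (L (u - u0)) (g u)
    rw [norm_sub_rev] at this
    linarith
  have h5 : (K:ℝ)⁻¹ * ‖u - u0‖ ≤ ‖L (u - u0)‖ := by
    rw [inv_mul_le_iff₀ hK0]; exact h3
  have h6 : (2 * (K:ℝ))⁻¹ = (K:ℝ)⁻¹ / 2 := by
    rw [mul_inv]; ring
  rw [h6] at hu ⊢
  linarith

/-- local data at a nondegenerate zero -/
theorem exists_local (hX : Clo d X) {z : E} (hz : z ∈ X) (hs : ContDiffAt ℝ ∞ s z)
    (hz0 : s z = 0) (hnd : ∀ v ∈ Tan X z, fderiv ℝ s z v = 0 → v = 0) {U : Set E} (hU : U ∈ 𝓝 z) :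
    ∃ (f : Eu d → E) (V : Set (Eu d)) (u0 : Eu d) (ρ c : ℝ), 0 < ρ ∧ 0 < c ∧ Chart d X f V ∧
      Metric.closedBall u0 ρ ⊆ V ∧ f u0 = z ∧ (∀ u ∈ Metric.closedBall u0 ρ, f u ∈ U) ∧
      (∀ u ∈ Metric.closedBall u0 ρ, c * ‖u - u0‖ ≤ ‖s (f u)‖) ∧
      Function.Injective (fderiv ℝ (fun u => s (f u)) u0) := by
  obtain ⟨f, V, hf, u0, hu0, rfl⟩ := hX.chart z hz
  have hsd : DifferentiableAt ℝ s (f u0) := hs.differentiableAt (by simp)
  have hd : HasFDerivAt (fun u => s (f u)) ((fderiv ℝ s (f u0)).comp (fderiv ℝ f u0)) u0 :=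
    hsd.hasFDerivAt.comp u0 (hf.differentiableAt hu0).hasFDerivAt
  have hinj : Function.Injective ((fderiv ℝ s (f u0)).comp (fderiv ℝ f u0)) := by
    rw [injective_iff_map_eq_zero]
    intro w hw
    have h1 := hnd _ (hf.fderiv_mem hu0 w) hw
    exact (injective_iff_map_eq_zero (fderiv ℝ f u0)).1 (hf.inj u0 hu0) w h1
  obtain ⟨c, hc, hev⟩ := exists_lower hd hz0 hinj
  have h2 : ∀ᶠ u in 𝓝 u0, f u ∈ U := (hf.differentiableAt hu0).continuousAt.eventually hU
  have h3 : ∀ᶠ u in 𝓝 u0, u ∈ V := hf.isOpen.mem_nhds hu0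
  obtain ⟨ρ, hρ, hball⟩ := Metric.nhds_basis_closedBall.mem_iff.1 ((hev.and (h2.and h3)))
  exact ⟨f, V, u0, ρ, c, hρ, hc, hf, fun u hu => (hball hu).2.2, rfl, fun u hu => (hball hu).2.1,
    fun u hu => (hball hu).1, by rw [hd.fderiv]; exact hinj⟩

/-- the derivative of a section at a zero has values in the fibre -/
theorem fderiv_section {P : E → H →L[ℝ] H} {f : Eu d → E} {u0 : Eu d} {V : Set (Eu d)}
    (hf : Chart d X f V) (hu0 : u0 ∈ V) (hP : ContDiffAt ℝ ∞ P (f u0))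
    (hs : ContDiffAt ℝ ∞ s (f u0)) (hPs : ∀ x ∈ X, P x (s x) = s x) (h0 : s (f u0) = 0)
    (y : Eu d) : P (f u0) (fderiv ℝ (fun u => s (f u)) u0 y) =
      fderiv ℝ (fun u => s (f u)) u0 y := by
  have hfd := hf.differentiableAt hu0
  have hPd : DifferentiableAt ℝ (fun u => P (f u)) u0 :=
    (hP.differentiableAt (by simp)).comp u0 hfd
  have hsd : DifferentiableAt ℝ (fun u => s (f u)) u0 :=
    (hs.differentiableAt (by simp)).comp u0 hfd
  have h1 := (hPd.hasFDerivAt.clm_apply hsd.hasFDerivAt).fderiv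
  have h2 : (fun u => P (f u) (s (f u))) =ᶠ[𝓝 u0] fun u => s (f u) := by
    filter_upwards [hf.isOpen.mem_nhds hu0] with u hu using hPs _ (hf.mem hu)
  rw [h2.fderiv_eq] at h1
  have h3 := congrArg (fun L : Eu d →L[ℝ] H => L y) h1
  simp only [ContinuousLinearMap.comp_apply, h0, map_zero, add_zero] at h3
  exact h3.symm

end Crest.Agent.R208.XF

namespace Crest.Agent.R208.XF

variable {E : Type*} [NormedAddCommGroup E] [NormedSpace ℝ E] [FiniteDimensional ℝ E]
  {n ι : Type*} [Fintype n] [DecidableEq n] [Fintype ι] [DecidableEq ι]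
  {X : Set E} {oX : E → Ext E} {P : E → EuclideanSpace ℝ n →L[ℝ] EuclideanSpace ℝ n}
  {W : E → (ι × Fin 2 → n) → ℝ} {s : E → EuclideanSpace ℝ n}

theorem J_eqv' {d : ℕ} (hX : Clo d X) {a b : E → Ext E} (h : Eqv X a b) :
    J d X oX a = J d X oX b := by
  refine J_congr hX fun x hx w hw => ?_
  have h1 := ResZero.evA h hx hw
  rw [Pi.sub_apply, map_sub, AlternatingMap.sub_apply, sub_eq_zero] at h1
  exact h1

/-- scaling the section -/
theorem J_scale [Nonempty ι] (hX : Clo (Fintype.card ι * 2) X)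
    (hoX : Ori (Fintype.card ι * 2) X oX) (h : OR X P W) (hs : ∀ x ∈ X, ContDiffAt ℝ ∞ s x)
    (hPs : ∀ x ∈ X, P x (s x) = s x) (lam : ℝ) :
    J (Fintype.card ι * 2) X oX (F.pull (fun x => (x, lam • s x)) (thomF P W)) =
      2 * J (Fintype.card ι * 2) X oX (eR P W) := by
  have hcsf := csf_thomF hX.sub h
  have h1 := J_homotopy (Fh := fun p : E × ℝ => (p.1, (p.2 * lam) • s p.1)) (om := thomF P W)
    (Y := Tot X P) hX hoX
    (fun x hx t _ => by
      have h2 : ContDiffAt ℝ ∞ (fun p : E × ℝ => s p.1) (x, t) :=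
        (hs x hx).comp (x, t) contDiffAt_fst
      exact (contDiffAt_fst.prodMk
        ((contDiffAt_snd.mul contDiffAt_const).smul (h2.of_le two_le_infty))))
    (fun x hx t _ => ⟨hx, by change P x ((t * lam) • s x) = _; rw [map_smul, hPs x hx]⟩)
    (fun y hy => (hcsf.smooth y hy).of_le one_le_inf) hcsf.closed
  simp only [one_mul, zero_mul, zero_smul] at h1
  rw [h1, J_eqv' hX (thomF_zero h)]
  exact J_smul 2

/-- the integral over a chart ball -/
theorem piece_eq {d : ℕ} {τ : E × EuclideanSpace ℝ n → Ext (E × EuclideanSpace ℝ n)}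
    (hoX : Ori d X oX) {f : Eu d → E} {V : Set (Eu d)} (hf : Chart d X f V) {u0 : Eu d} {ρ : ℝ}
    (hρ : 0 < ρ) (hV : Metric.closedBall u0 ρ ⊆ V) (hs : ∀ x ∈ X, ContDiffAt ℝ ∞ s x) :
    ∃ ε : ℝ, (ε = 1 ∨ ε = -1) ∧ ∀ lam : ℝ,
      ∫ y in (toEuclidean : E ≃L[ℝ] _) '' (f '' Metric.ball u0 ρ),
        dens d X oX (F.pull (fun x => (x, lam • s x)) τ) (toEuclidean.symm y) ∂μHE[d] =
      ε * ∫ u in Metric.ball u0 ρ, top d (F.pull (fun u => (f u, lam • s (f u))) τ u) := by
  have hbV : Metric.ball u0 ρ ⊆ V := Metric.ball_subset_closedBall.trans hV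
  have hfb := hf.mono hbV Metric.isOpen_ball
  obtain ⟨ε, hε⟩ := hfb.exists_sign hoX (convex_ball u0 ρ).isPreconnected
  have hu0 : u0 ∈ Metric.ball u0 ρ := Metric.mem_ball_self hρ
  refine ⟨ε, ?_, fun lam => ?_⟩
  · rw [← hε u0 hu0]
    have h0 := hfb.top_ne_zero hoX hu0
    rcases lt_or_gt_of_ne h0 with h | h
    · exact Or.inr (Real.sign_of_neg h)
    · exact Or.inl (Real.sign_of_pos h)
  · rw [integral_chart hf Metric.isOpen_ball.measurableSet hbV, ← integral_const_mul]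
    refine setIntegral_congr_fun Metric.isOpen_ball.measurableSet fun u hu => ?_
    rw [hε u hu, mul_comm]
    congr 2
    have hx : f u ∈ X := hf.mem (hbV hu)
    have h1 : DifferentiableAt ℝ (fun x => (x, lam • s x)) (f u) :=
      differentiableAt_id.prodMk (((hs _ hx).differentiableAt (by simp)).const_smul lam)
    have h2 := pull_comp (om := τ) (hf.differentiableAt (hbV hu)) h1
    exact h2

/-- **(XF1) THE ZERO LOCUS FORMULA.** -/
theorem zero_locus [Nonempty ι] (hX : Clo (Fintype.card ι * 2) X)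
    (hoX : Ori (Fintype.card ι * 2) X oX) (h : OR X P W) (hs : ∀ x ∈ X, ContDiffAt ℝ ∞ s x)
    (hPs : ∀ x ∈ X, P x (s x) = s x) {Z : Finset E} (hZX : ∀ z ∈ Z, z ∈ X)
    (hZ : ∀ z ∈ Z, s z = 0) (hZ' : ∀ x ∈ X, s x = 0 → x ∈ Z)
    (hnd : ∀ z ∈ Z, ∀ v ∈ Tan X z, fderiv ℝ s z v = 0 → v = 0) :
    ∃ ε : E → ℝ, (∀ z ∈ Z, ε z = 1 ∨ ε z = -1) ∧
      J (Fintype.card ι * 2) X oX (eR P W) = tau ι * ∑ z ∈ Z, ε z := by
  classical
  set d := Fintype.card ι * 2 with hd
  have hcsf := csf_thomF hX.sub h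
  set τ := thomF P W with hτ
  obtain ⟨U, hU, hUd⟩ := (Z.finite_toSet).t2_separation
  have key : ∀ z : E, z ∈ Z → ∃ (f : Eu d → E) (V : Set (Eu d)) (u0 : Eu d) (ρ c : ℝ),
      0 < ρ ∧ 0 < c ∧ Chart d X f V ∧
      Metric.closedBall u0 ρ ⊆ V ∧ f u0 = z ∧ (∀ u ∈ Metric.closedBall u0 ρ, f u ∈ U z) ∧
      (∀ u ∈ Metric.closedBall u0 ρ, c * ‖u - u0‖ ≤ ‖s (f u)‖) ∧
      Function.Injective (fderiv ℝ (fun u => s (f u)) u0) := fun z hz =>
    exists_local hX (hZX z hz) (hs z (hZX z hz)) (hZ z hz) (hnd z hz)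
      ((hU z).2.mem_nhds (hU z).1)
  choose! f V u0 ρ c hρ hc hf hV hfu hfU hlow hinj using key
  -- the signs
  have hsg : ∀ z : E, z ∈ Z → ∃ ε : ℝ, (ε = 1 ∨ ε = -1) ∧ ∀ lam : ℝ,
      ∫ y in (toEuclidean : E ≃L[ℝ] _) '' (f z '' Metric.ball (u0 z) (ρ z)),
        dens d X oX (F.pull (fun x => (x, lam • s x)) τ) (toEuclidean.symm y) ∂μHE[d] =
      ε * ∫ u in Metric.ball (u0 z) (ρ z),
        top d (F.pull (fun u => (f z u, lam • s (f z u))) τ u) := fun z hz =>
    piece_eq hoX (hf z hz) (hρ z hz) (hV z hz) hs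
  choose! ε1 hε1 hpc using hsg
  have hlim : ∀ z : E, z ∈ Z → ∃ ε : ℝ, (ε = 1 ∨ ε = -1) ∧
      Tendsto (fun lam : ℝ => ∫ u in Metric.ball (u0 z) (ρ z),
        top d (F.pull (fun u => (f z u, lam • s (f z u))) τ u)) atTop (𝓝 (ε * (2 * tau ι))) := by
    intro z hz
    have hmem : ∀ u ∈ Metric.closedBall (u0 z) (ρ z), f z u ∈ X := fun u hu =>
      (hf z hz).mem (hV z hz hu)
    have hu0 : u0 z ∈ Metric.closedBall (u0 z) (ρ z) := Metric.mem_closedBall_self (hρ z hz).le
    have hz0 : s (f z (u0 z)) = 0 := by rw [hfu z hz]; exact hZ z hz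
    have h1 := local_limit (f := f z) (g := fun u => s (f z u)) (u0 := u0 z) (ρ := ρ z)
      (c := c z) (R := 3) (P := P) (τ := τ) (hρ z hz) (hc z hz)
      (fun u hu => ((hf z hz).contDiffAt (hV z hz hu)).of_le one_le_inf)
      (fun u hu => ((hs _ (hmem u hu)).comp u ((hf z hz).contDiffAt (hV z hz hu))).of_le
        one_le_inf)
      hz0 (hlow z hz)
      (fun u hu => (h.sP _ (hmem u hu)).continuousAt)
      (fun u hu => hPs _ (hmem u hu))
      (fun u hu v hv => (hcsf.smooth (f z u, v) ⟨hmem u hu, hv⟩).continuousAt)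
      (fun w hw => hcsf.supp w hw)
    obtain ⟨fr, hfr, hPfr, hWfr⟩ := h.fr _ (hmem _ hu0)
    obtain ⟨ε, hε, hval⟩ := local_value (W := W) (L := fderiv ℝ (fun u => s (f z u)) (u0 z))
      (h.sP _ (hmem _ hu0)) hfr hPfr hWfr
      (fun y => fderiv_section (hf z hz) (hV z hz hu0) (h.sP _ (hmem _ hu0))
        (hs _ (hmem _ hu0)) hPs hz0 y) (hinj z hz)
    refine ⟨ε, hε, ?_⟩
    rw [hval, tau0, integral_GG] at h1
    exact h1
  choose! ε2 hε2 hlim using hlim
  refine ⟨fun z => ε1 z * ε2 z, fun z hz => ?_, ?_⟩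
  · rcases hε1 z hz with h1 | h1 <;> rcases hε2 z hz with h2 | h2 <;> simp [h1, h2]
  -- away from the zeros
  set S : E → Set E := fun z => f z '' Metric.ball (u0 z) (ρ z) with hS
  have hSX : ∀ z ∈ Z, S z ⊆ X := by
    rintro z hz _ ⟨u, hu, rfl⟩
    exact (hf z hz).mem (hV z hz (Metric.ball_subset_closedBall hu))
  have hopen : ∀ z : E, z ∈ Z → ∃ O : Set E, IsOpen O ∧ S z = X ∩ O := fun z hz =>
    (hf z hz).image_open _ (Metric.ball_subset_closedBall.trans (hV z hz)) Metric.isOpen_ball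
  choose! O hO hSO using hopen
  obtain ⟨R0, hR0, hfar⟩ : ∃ R0 : ℝ, 0 < R0 ∧ ∀ x ∈ X, (∀ z ∈ Z, x ∉ S z) → R0 ≤ ‖s x‖ := by
    have hK : IsCompact (X \ ⋃ z ∈ Z, O z) :=
      hX.compact.diff (isOpen_biUnion fun z hz => hO z hz)
    rcases (X \ ⋃ z ∈ Z, O z).eq_empty_or_nonempty with he | hne
    · refine ⟨1, one_pos, fun x hx hxS => ?_⟩
      have : x ∈ X \ ⋃ z ∈ Z, O z := ⟨hx, fun hxO => by
        obtain ⟨z, hz, hxz⟩ := mem_iUnion₂.1 hxO
        exact hxS z hz (by rw [hSO z hz]; exact ⟨hx, hxz⟩)⟩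
      rw [he] at this
      exact absurd this (notMem_empty x)
    · obtain ⟨x0, hx0, hmin⟩ := hK.exists_isMinOn hne
        (f := fun x => ‖s x‖) (fun x hx => (hs x hx.1).continuousAt.norm.continuousWithinAt)
      refine ⟨‖s x0‖, ?_, fun x hx hxS => ?_⟩
      · rw [norm_pos_iff]
        intro h0
        have hz := hZ' x0 hx0.1 h0
        refine hx0.2 (mem_iUnion₂.2 ⟨x0, hz, ?_⟩)
        have h1 : x0 ∈ S x0 := ⟨u0 x0, Metric.mem_ball_self (hρ x0 hz), hfu x0 hz⟩
        rw [hSO x0 hz] at h1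
        exact h1.2
      · refine hmin (show x ∈ X \ ⋃ z ∈ Z, O z from ⟨hx, fun hxO => ?_⟩)
        obtain ⟨z, hz, hxz⟩ := mem_iUnion₂.1 hxO
        exact hxS z hz (by rw [hSO z hz]; exact ⟨hx, hxz⟩)
  have hsum : ∀ lam : ℝ, 3 / R0 < lam → 2 * J d X oX (eR P W) =
      ∑ z ∈ Z, ε1 z * ∫ u in Metric.ball (u0 z) (ρ z),
        top d (F.pull (fun u => (f z u, lam • s (f z u))) τ u) := by
    intro lam hlam
    have hlam0 : 0 < lam := (by positivity : (0:ℝ) < 3 / R0).trans hlam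
    rw [← J_scale hX hoX h hs hPs lam, FI.J]
    have hsm : ∀ x ∈ X, ContDiffAt ℝ ∞ (fun x => (x, lam • s x)) x := fun x hx =>
      contDiffAt_id.prodMk ((hs x hx).const_smul lam)
    have hcont : ContinuousOn (F.pull (fun x => (x, lam • s x)) τ) X := fun x hx =>
      (contDiffAt_pull (m := ∞) (hsm x hx) (by simp)
        (hcsf.smooth (x, lam • s x) ⟨hx, by
          change P x (lam • s x) = _; rw [map_smul, hPs x hx]⟩)).continuousAt.continuousWithinAt
    have hint := integrableOn_dens hX hoX hcont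
    have hsub : ⋃ z ∈ Z, (toEuclidean : E ≃L[ℝ] _) '' S z ⊆ (toEuclidean : E ≃L[ℝ] _) '' X :=
      iUnion₂_subset fun z hz => image_mono (hSX z hz)
    rw [setIntegral_eq_of_subset_of_forall_sdiff_eq_zero hX.measurableSet hsub]
    · rw [integral_biUnion_finset]
      · exact Finset.sum_congr rfl fun z hz => hpc z hz lam
      · exact fun z hz => Chart.measurableSet_image (hf z hz) Metric.isOpen_ball.measurableSet
          (Metric.ball_subset_closedBall.trans (hV z hz))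
      · intro z hz z' hz' hne
        refine disjoint_image_of_injective (toEuclidean : E ≃L[ℝ] _).injective ?_
        refine (hUd hz hz' hne).mono ?_ ?_
        · rintro _ ⟨u, hu, rfl⟩
          exact hfU z hz u (Metric.ball_subset_closedBall hu)
        · rintro _ ⟨u, hu, rfl⟩
          exact hfU z' hz' u (Metric.ball_subset_closedBall hu)
      · exact fun z hz => hint.mono_set (image_mono (hSX z hz))
    · rintro y ⟨⟨x, hx, rfl⟩, hy⟩
      have hxS : ∀ z ∈ Z, x ∉ S z := fun z hz hxz =>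
        hy (mem_iUnion₂.2 ⟨z, hz, x, hxz, rfl⟩)
      have h1 := hfar x hx hxS
      have h2 : F.pull (fun x => (x, lam • s x)) τ x = 0 := by
        have h3 : τ (x, lam • s x) = 0 := hcsf.supp _ (by
          change 3 < ‖lam • s x‖
          rw [norm_smul, Real.norm_eq_abs, abs_of_pos hlam0]
          rw [div_lt_iff₀ hR0] at hlam
          exact hlam.trans_le (mul_le_mul_of_nonneg_left h1 hlam0.le))
        rw [F.pull, h3, map_zero]
      simp only [ContinuousLinearEquiv.symm_apply_apply]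
      rw [dens, h2, map_zero, AlternatingMap.zero_apply, zero_mul]
  have hT : Tendsto (fun lam : ℝ => ∑ z ∈ Z, ε1 z * ∫ u in Metric.ball (u0 z) (ρ z),
        top d (F.pull (fun u => (f z u, lam • s (f z u))) τ u)) atTop
      (𝓝 (∑ z ∈ Z, ε1 z * (ε2 z * (2 * tau ι)))) :=
    tendsto_finsetSum _ fun z hz => (hlim z hz).const_mul _
  have hT' : Tendsto (fun lam : ℝ => ∑ z ∈ Z, ε1 z * ∫ u in Metric.ball (u0 z) (ρ z),
        top d (F.pull (fun u => (f z u, lam • s (f z u))) τ u)) atTop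
      (𝓝 (2 * J d X oX (eR P W))) := by
    refine tendsto_const_nhds.congr' ?_
    filter_upwards [eventually_gt_atTop (3 / R0)] with lam hlam using hsum lam hlam
  have h3 := tendsto_nhds_unique hT' hT
  have h4 : ∑ z ∈ Z, ε1 z * (ε2 z * (2 * tau ι)) = 2 * (tau ι * ∑ z ∈ Z, ε1 z * ε2 z) := by
    rw [Finset.mul_sum, Finset.mul_sum]
    exact Finset.sum_congr rfl fun z _ => by ring
  rw [h4] at h3
  linarith

end Crest.Agent.R208.XF
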