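import Crest.Agent.R208.GQ2d
import Crest.Agent.R208.GO2
import Crest.Agent.R208.UP2
import Crest.Agent.R208.FV3

-- ▼ part R208/ZH3
section

/-! Row 208, block ZH (helper107), part ZH3: **(V4-c)** Leray–Hirsch for the sphere bundle of an
oriented field of odd rank, through `P ⊕ 1`. -/

set_option autoImplicit false
set_option linter.unusedSectionVars false

open MeasureTheory Set Filter Topology Module
open scoped ContDiff RealInnerProductSpace Matrix
open Crest.Agent.R208.F Crest.Agent.R208.FI Crest.Agent.R208.CW Crest.Agent.R208.T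
open Crest.Agent.R208.NO (pL pU iL iU dsum pL_iL pU_iL pL_iU pU_iU dsum_apply dsum_idem dsum_sym
  dsum_eq_self contDiffAt_dsum finrank_dsum)
open Crest.Agent.R208.SB (OPr)
open Crest.Agent.R208.UP (SyOn UPr)

noncomputable section

namespace Crest.Agent.R208.ZG

section dsum
variable {n : Type} [Fintype n] [DecidableEq n]
  {E : Type} [NormedAddCommGroup E] [NormedSpace ℝ E] [FiniteDimensional ℝ E]
  {X : Set E} {P : E → EuclideanSpace ℝ n →L[ℝ] EuclideanSpace ℝ n} {r d q : ℕ}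
  {oP : E → Ext (EuclideanSpace ℝ n)}

theorem pfield_dsum (hP : PField X r P) : PField X (r + 1) (fun x => dsum (P x)) :=
  ⟨fun x hx => contDiffAt_dsum (hP.smooth x hx), fun x hx => dsum_idem (hP.idem x hx),
    fun x hx => by rw [finrank_dsum (hP.idem x hx), hP.rank x hx]⟩

theorem syOn_dsum (hs : SyOn X P) : SyOn X (fun x => dsum (P x)) := fun x hx =>
  dsum_sym (hs x hx)

theorem norm_iU : ‖iU n 1‖ = 1 := by
  have h1 : ⟪iU n 1, iU n 1⟫ = (1 : ℝ) := by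
    rw [NO.inner_dec, pL_iU, pU_iU, inner_zero_left, zero_add, mul_one]
  rw [real_inner_self_eq_norm_sq] at h1
  nlinarith [norm_nonneg (iU n 1)]

theorem oddS_dsum (hP : PField X r P) (hs : SyOn X P) :
    GQ.OddS X (fun x => dsum (P x)) (r + 1) (fun _ => iU n 1) :=
  ⟨pfield_dsum hP, syOn_dsum hs, fun _ _ => contDiffAt_const, fun _ _ => norm_iU,
    fun x _ => dsum_eq_self.2 (by rw [pL_iU, map_zero])⟩

theorem mE_iM (w : EuclideanSpace ℝ n) : mE (iM n Unit) w = iL n w := by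
  ext i
  rcases i with i | i
  · change ((iM n Unit).mulVec w) (Sum.inl i) = w i
    rw [iM, Matrix.fromRows_mulVec]
    simp
  · change ((iM n Unit).mulVec w) (Sum.inr i) = 0
    rw [iM, Matrix.fromRows_mulVec]
    simp

theorem mE_iMt (w : EuclideanSpace ℝ (n ⊕ Unit)) : mE (iM n Unit)ᵀ w = pL n w := by
  ext i
  change ((iM n Unit)ᵀ.mulVec w) i = w (Sum.inl i)
  rw [iM, Matrix.transpose_fromRows, Matrix.mulVec, dotProduct, Fintype.sum_sum_type]
  simp [Matrix.one_apply]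

theorem Pm_dsum : GQ.Pm (fun x => dsum (P x)) (fun _ => iU n 1) = pushE (iM n Unit) P := by
  funext x
  ext1 w
  change dsum (P x) w - ⟪iU n 1, w⟫ • iU n 1 = mE (iM n Unit) (P x (mE (iM n Unit)ᵀ w))
  rw [mE_iM, mE_iMt, NO.inner_dec, pL_iU, pU_iU, inner_zero_left, zero_add, one_mul, dsum_apply,
    ← map_smul, smul_eq_mul, mul_one, add_sub_cancel_right]

/-- orientation form of `P ⊕ 1` -/
def oD (oP : E → Ext (EuclideanSpace ℝ n)) (x : E) : Ext (EuclideanSpace ℝ (n ⊕ Unit)) :=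
  io (pU n : EuclideanSpace ℝ (n ⊕ Unit) →ₗ[ℝ] ℝ) *
    pb (pL n : EuclideanSpace ℝ (n ⊕ Unit) →ₗ[ℝ] EuclideanSpace ℝ n) (oP x)

theorem opr_dsum (hP : PField X r P) (h : OPr X r P oP) :
    OPr X (r + 1) (fun x => dsum (P x)) (oD oP) := by
  refine OPr.of (pfield_dsum hP) (fun x hx => ?_) (fun x => ?_) (fun x hx => ?_)
  · exact contDiffAt_mul contDiffAt_const ((pbL (pL n)).contDiff.contDiffAt.comp x (h.sm x hx))
  · have h1 := T.IsDeg.mul (CM.isDeg_io (pU n : EuclideanSpace ℝ (n ⊕ Unit) →ₗ[ℝ] ℝ))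
      ((h.deg x).pb (pL n : EuclideanSpace ℝ (n ⊕ Unit) →ₗ[ℝ] EuclideanSpace ℝ n))
    rw [add_comm] at h1
    exact h1
  · obtain ⟨e, he, hPe⟩ := UP.exists_fr (hP.idem x hx) (hP.rank x hx)
    refine ⟨Matrix.vecCons (iU n 1) (fun i => iL n (e i)), fun i => ?_, ?_⟩
    · refine Fin.cases ?_ (fun i => ?_) i
      · exact dsum_eq_self.2 (by
          change P x (pL n (iU n 1)) = pL n (iU n 1)
          rw [pL_iU, map_zero])
      · exact dsum_eq_self.2 (by
          change P x (pL n (iL n (e i))) = pL n (iL n (e i))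
          rw [pL_iL, hPe])
    · have h2 : ii (iU n 1) (oD oP x) =
          pb (pL n : EuclideanSpace ℝ (n ⊕ Unit) →ₗ[ℝ] EuclideanSpace ℝ n) (oP x) := by
        have h3 : (pL n : EuclideanSpace ℝ (n ⊕ Unit) →ₗ[ℝ] EuclideanSpace ℝ n) (iU n 1) = 0 :=
          pL_iU 1
        have h4 : (pU n : EuclideanSpace ℝ (n ⊕ Unit) →ₗ[ℝ] ℝ) (iU n 1) = 1 := pU_iU 1
        rw [oD, ii_io_mul, ii_pb, h3, h4]
        have h5 : ii (0 : EuclideanSpace ℝ n) (oP x) = 0 := by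
          rw [map_zero]; rfl
        rw [h5, map_zero, mul_zero, sub_zero, one_smul]
      rw [evA_ii, h2, evA_pb]
      have h6 : (fun i => (pL n : EuclideanSpace ℝ (n ⊕ Unit) →ₗ[ℝ] EuclideanSpace ℝ n)
          (iL n (e i))) = e := funext fun i => pL_iL (e i)
      rw [h6]
      exact h.ne x hx e he.linearIndependent hPe

/-- **Leray–Hirsch** for the sphere bundle of an oriented field of odd rank `2 l + 1` -/
theorem lh_gen {l : ℕ} (hX : Sub d X) (hXc : IsPreconnected X) (hP : PField X (2 * l + 1) P)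
    (hs : SyOn X P) (ho : OPr X (2 * l + 1) P oP)
    {ε : E × EuclideanSpace ℝ n → Ext (E × EuclideanSpace ℝ n)} (sε : Sm (Sph X P) ε)
    (cε : Cl (Sph X P) ε) (dε : Hom (2 * l) ε)
    (hε : ¬ ∃ a : E → Ext E, Sm X a ∧ Cl X a ∧ Hom (2 * l) a ∧
      Coh (Sph X P) ε (F.pull Prod.fst a)) : GQ.LH X P (2 * l) ε := by
  have hcard : Fintype.card (Fin (l + 1)) = l + 1 := Fintype.card_fin _
  have φ : Fin (l + 1) × Fin 2 ≃ Fin (2 * l + 1 + 1) :=
    finProdFinEquiv.trans (finCongr (by ring))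
  have hOR := UP.OR_of_opr φ (opr_dsum hP ho) (pfield_dsum hP) (syOn_dsum hs)
  have hodd : GQ.OddS X (fun x => dsum (P x)) (2 * Fintype.card (Fin (l + 1)))
      (fun _ => iU n 1) := by
    have := oddS_dsum hP hs
    rwa [show 2 * l + 1 + 1 = 2 * Fintype.card (Fin (l + 1)) by rw [hcard]; ring] at this
  have hS := iM_iso (n := n) Unit
  refine GQ.LH.of_push hS sε cε dε ?_
  rw [← Pm_dsum]
  have so : SMap (Sph X (pushE (iM n Unit) P)) (Sph X P)
    (fun z : E × EuclideanSpace ℝ (n ⊕ Unit) =>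
      ((z.1, mE (iM n Unit)ᵀ z.2) : E × EuclideanSpace ℝ n)) := smap_out hS
  have si : SMap (Sph X P) (Sph X (pushE (iM n Unit) P))
    (fun z : E × EuclideanSpace ℝ n =>
      ((z.1, mE (iM n Unit) z.2) : E × EuclideanSpace ℝ (n ⊕ Unit))) := smap_in hS
  rw [← Pm_dsum] at so si
  refine GQ.lh_OR hX hXc hOR hodd (by rw [hcard]; ring) (sε.pull so) (cε.pull so sε) dε.pull ?_
  rintro ⟨a, sa, ca, da, ea⟩
  refine hε ⟨a, sa, ca, da, ?_⟩
  have e1 := ea.pull si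
  have e2 := (eqv_pull_pull si so (SMap.id _) (fun z _ => by
      change (z.1, mE (iM n Unit)ᵀ (mE (iM n Unit) z.2)) = z
      rw [mE_mE, hS, mE_one]) ε).trans (Eqv.of_eq fun z _ => F.pull_id ε z)
  have e3 := eqv_pull_pull si (smap_fstS (X := X)
    (P := GQ.Pm (fun x => dsum (P x)) (fun _ => iU n 1)))
    (smap_fstS (X := X) (P := P)) (fun _ _ => rfl) a
  exact (Coh.of_eqv e2.symm).trans (e1.trans (Coh.of_eqv e3))

/-- a form with a nonzero integral over one fibre is not a class of the base -/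
theorem not_pull_of_J {k : ℕ} (hk0 : 0 < k) {x0 : E} (hP : PField X (k + 1) P) (hx0 : x0 ∈ X)
    {ε : E × EuclideanSpace ℝ n → Ext (E × EuclideanSpace ℝ n)} (sε : Sm (Sph X P) ε)
    {oF : E × EuclideanSpace ℝ n → Ext (E × EuclideanSpace ℝ n)}
    (ho : Ori k (Sph X P ∩ Prod.fst ⁻¹' {x0}) oF)
    (hJ : J k (Sph X P ∩ Prod.fst ⁻¹' {x0}) oF ε ≠ 0) :
    ¬ ∃ c : E → Ext E, Sm X c ∧ Coh (Sph X P) ε (F.pull Prod.fst c) := by
  rintro ⟨c, hc, hcoh⟩
  have hset : Sph X P ∩ Prod.fst ⁻¹' {x0} = Sph ({x0} : Set E) P := by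
    ext z
    constructor
    · rintro ⟨⟨⟨_, h2⟩, h3⟩, h4⟩
      exact ⟨⟨h4, h2⟩, h3⟩
    · rintro ⟨⟨h1, h2⟩, h3⟩
      have h1' : z.1 = x0 := h1
      exact ⟨⟨⟨by rw [h1']; exact hx0, h2⟩, h3⟩, h1⟩
  rw [hset] at ho hJ
  have hP0 : PField ({x0} : Set E) (k + 1) P :=
    ⟨fun x hx => by rw [hx]; exact hP.smooth _ hx0, fun x hx => by rw [hx]; exact hP.idem _ hx0,
      fun x hx => by rw [hx, hP.rank _ hx0]⟩
  have hsub : Sph ({x0} : Set E) P ⊆ Sph X P := by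
    rw [← hset]; exact Set.inter_subset_left
  have hS : Clo (k + 0) (Sph ({x0} : Set E) P) :=
    SB.clo_Sph ((sub_point x0).clo isCompact_singleton) hP0
  rw [add_zero] at hS
  have hsm : Sm (Sph ({x0} : Set E) P) (F.pull Prod.fst c) := (hc.pull smap_fstS).mono hsub
  rw [SO.J_coh hS ho (sε.mono hsub) hsm (hcoh.mono hsub)] at hJ
  refine hJ (J_eq_zero hS fun z hz w hw => ?_)
  obtain ⟨x, y⟩ := z
  have hx : x = x0 := hz.1.1
  subst hx
  rw [F.pull, evA_pb]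
  have h2 : fderiv ℝ (Prod.fst : E × EuclideanSpace ℝ n → E) (x, y) =
      ContinuousLinearMap.fst ℝ E (EuclideanSpace ℝ n) := fderiv_fst
  rw [h2]
  refine (evA E k (c x)).map_coord_zero ⟨0, hk0⟩ ?_
  have h3 := ((SB.mem_Tan_Sph (sub_point x) hP0 (v := y) hz (a := (w ⟨0, hk0⟩).1)
    (b := (w ⟨0, hk0⟩).2)).1 (hw ⟨0, hk0⟩)).1
  rw [GO.Tan_point, Submodule.mem_bot] at h3
  exact h3

/-- Leray–Hirsch with a form whose integral over one fibre is not zero -/
theorem lh_of_J {l : ℕ} (hl : 0 < l) (hX : Sub d X) (hXc : IsPreconnected X)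
    (hP : PField X (2 * l + 1) P) (hs : SyOn X P) (ho : OPr X (2 * l + 1) P oP)
    {ε : E × EuclideanSpace ℝ n → Ext (E × EuclideanSpace ℝ n)} (sε : Sm (Sph X P) ε)
    (cε : Cl (Sph X P) ε) (dε : Hom (2 * l) ε) {x0 : E} (hx0 : x0 ∈ X)
    {oF : E × EuclideanSpace ℝ n → Ext (E × EuclideanSpace ℝ n)}
    (hoF : Ori (2 * l) (Sph X P ∩ Prod.fst ⁻¹' {x0}) oF)
    (hJ : J (2 * l) (Sph X P ∩ Prod.fst ⁻¹' {x0}) oF ε ≠ 0) : GQ.LH X P (2 * l) ε :=
  lh_gen hX hXc hP hs ho sε cε dε fun ⟨a, sa, _, _, ea⟩ =>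
    not_pull_of_J (by omega) hP hx0 sε hoF hJ ⟨a, sa, ea⟩

/-- Leray–Hirsch with the Euler form of the vertical field -/
theorem lh_RR {ι' : Type} [Fintype ι'] [DecidableEq ι'] [Nonempty ι']
    {W' : E × EuclideanSpace ℝ n → (ι' × Fin 2 → n) → ℝ} (hX : Sub d X)
    (hXc : IsPreconnected X) (hXn : X.Nonempty) (hP : PField X (2 * Fintype.card ι' + 1) P)
    (hs : SyOn X P) (ho : OPr X (2 * Fintype.card ι' + 1) P oP)
    (hR : OR (Sph X P) (GO.RR P) W') :
    GQ.LH X P (2 * Fintype.card ι') (eR (GO.RR P) W') := by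
  obtain ⟨x0, hx0⟩ := hXn
  exact lh_gen hX hXc hP hs ho (CM.sm_eR hR) (CM.cl_eR hR) (CM.hom_eR _ _) fun ⟨a, sa, _, _, ea⟩ =>
    GO.not_pull hP rfl hR hx0 ⟨a, sa, ea⟩

end dsum

end Crest.Agent.R208.ZG
end
end

-- ▼ part R208/ZH3b

/-! Row 208, block ZH (helper107), part ZH3b: the instances `X = US G`, `P = N` and
`X = B = US G / S¹`, `P = N / S¹` of **(V4-c)**. -/

set_option autoImplicit false
set_option linter.unusedSectionVars false

open MeasureTheory Set Filter Topology Module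
open scoped ContDiff RealInnerProductSpace Matrix
open Crest.GeometryTopology.Submanifold
open Crest.Agent.R241.DDefs
open Crest.Agent.R241.D2
open Crest.Agent.R208.F Crest.Agent.R208.FI Crest.Agent.R208.CW Crest.Agent.R208.T
open Crest.Agent.R208.NN
open Crest.Agent.R208.NB (NegB)
open Crest.Agent.R208.L (US)
open Crest.Agent.R208.CM (Cir Rep Triv Emb Quo Qd MM jj)
open Crest.Agent.R208.SB (OPr)
open Crest.Agent.R208.UP (SyOn UPr)

noncomputable section

namespace Crest.Agent.R208.ZG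

variable {n N k K m r l : ℕ} {κ δ : ℝ} {S : Set (Euc N)} {G : Geo n N κ S}
  {PN : Euc N × Euc N → Wt N K →L[ℝ] Wt N K}

/-- **(V4-c) over `US G`** -/
theorem lh_N (h : GT.Bla G k) (hl : 0 < l) (hkl : k = 2 * l + 2) (hkn : k < n)
    (H : NegB G (k - 1) (nuP K) δ PN)
    {ε : (Euc N × Euc N) × Wt N K → Ext ((Euc N × Euc N) × Wt N K)}
    (sε : Sm (Sph (US G) PN) ε) (cε : Cl (Sph (US G) PN) ε) (dε : Hom (2 * l) ε)
    {z0 : Euc N × Euc N} (hz0 : z0 ∈ US G)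
    {oF : (Euc N × Euc N) × Wt N K → Ext ((Euc N × Euc N) × Wt N K)}
    (hoF : Ori (2 * l) (Sph (US G) PN ∩ Prod.fst ⁻¹' {z0}) oF)
    (hJ : J (2 * l) (Sph (US G) PN ∩ Prod.fst ⁻¹' {z0}) oF ε ≠ 0) :
    GQ.LH (US G) PN (2 * l) ε := by
  have hk1 : k - 1 = 2 * l + 1 := by omega
  rw [hk1] at H
  obtain ⟨oP, hoP⟩ := SB.exists_opr_N h (by omega) hkn (by rw [hk1]; exact H)
  rw [hk1] at hoP
  exact lh_of_J hl (CM.clo_US' h.bl).sub (FV.preconn_US h.bl (by omega)) (UP.pfield_N H)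
    (UP.syOn_N H) hoP sε cε dε hz0 hoF hJ


variable {g : Euc N × Euc N → Fin m → ℂ} {p : Type} [Fintype p] [DecidableEq p]
  {P' : MM m → EuclideanSpace ℝ p →L[ℝ] EuclideanSpace ℝ p} {o' : MM m → Ext (EuclideanSpace ℝ p)}

theorem clo_B (h : GT.Bla G k) (hper : HS.Per G) (hg : Emb (US G) (CM.gf G) g) :
    Clo (2 * (n - 1)) (Quo (US G) g) :=
  CM.Emb.clo_Quo hg (CM.cir_US h.bl hper) (CM.clo_US' h.bl)

theorem preconn_B (h : GT.Bla G k) (hn : 2 ≤ n) (hg : Emb (US G) (CM.gf G) g) :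
    IsPreconnected (Quo (US G) g) := by
  have h1 : Quo (US G) g = jj g '' US G := rfl
  rw [h1]
  exact (FV.preconn_US h.bl hn).image _ fun z hz => (hg.smap_jj.smooth z hz).continuousAt.continuousWithinAt



end Crest.Agent.R208.ZG
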