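import Crest.Agent.R208.TX9
import Crest.Agent.R208.GQ2d
import Crest.Agent.R208.ZH3b
import Crest.Agent.R208.SB5
import Crest.Agent.R208.CBN1

-- ▼ part R208/HN1
section

/-! Row 208, block RR, (Hn) (helper316).  HN1: closed forms of low degree on sphere bundles of odd
rank over `US`. -/

set_option autoImplicit false
set_option linter.unusedSectionVars false

open MeasureTheory Set Filter Topology Module
open scoped ContDiff RealInnerProductSpace
open Crest.GeometryTopology.Submanifold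
open Crest.Agent.R241.DDefs
open Crest.Agent.R241.D2
open Crest.Agent.R208.F Crest.Agent.R208.FI Crest.Agent.R208.CW Crest.Agent.R208.T
open Crest.Agent.R208.L (US)

noncomputable section

namespace Crest.Agent.R208.HN

universe u w

section gen
variable {E : Type u} {H : Type w} [NormedAddCommGroup E] [NormedSpace ℝ E] [FiniteDimensional ℝ E]
  [NormedAddCommGroup H] [InnerProductSpace ℝ H] [FiniteDimensional ℝ H]
  {X : Set E} {P : E → H →L[ℝ] H} {d j q : ℕ} {ε b : E × H → Ext (E × H)}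


/-- the middle degree -/
theorem mid_of_LH (hL : GQ.LH X P q ε) (hX : FI.Sub d X) (hXc : IsPreconnected X)
    (h0 : ExactIn X q) (hb : Sm (Sph X P) b) (hc : Cl (Sph X P) b) (hd : Hom q b) :
    ∃ c : ℝ, Coh (Sph X P) b (c • ε) := by
  obtain ⟨a, c, sa, ca, da, sc, cc, dc, h1⟩ := hL.split (i := 0) hb hc (by rwa [zero_add])
  rw [zero_add] at da
  obtain ⟨t, ht⟩ := const_of_closed hX hXc sc cc dc
  refine ⟨t, h1.trans ?_⟩
  have h2 := (h0 a sa ca da).pull (smap_fstS (X := X) (P := P))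
  rw [pull_zero'] at h2
  have h3 : Eqv X c (fun _ => algebraMap ℝ (Ext E) t) := Eqv.of_eq ht
  have h4 := h3.pull (smap_fstS (X := X) (P := P))
  rw [pull_const'] at h4
  have h5 : Eqv (Sph X P) (ε * F.pull Prod.fst c) (t • ε) := by
    refine ((Eqv.refl ε).mul h4).trans (Eqv.of_eq fun z _ => ?_)
    rw [Pi.mul_apply, Pi.smul_apply, Algebra.smul_def, Algebra.commutes]
  have h6 := h2.add (Coh.of_eqv h5)
  rwa [zero_add] at h6




end gen

variable {n N k m : ℕ} {κ : ℝ} {S : Set (Euc N)} {G : Geo n N κ S} {p₀ : Euc N}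
  {ι : Type} [Fintype ι] [DecidableEq ι] {W₀ : Euc N × Euc N → (ι × Fin 2 → Fin N) → ℝ}
  {x : Euc N → Ext (Euc N)} {j : ℕ}

/-- closed forms on `US` of degree `j < n + k - 1`, `k ∤ j`, are exact -/
theorem exactIn_US {h : GT.Bla G k} (D : T.XM h m W₀ p₀ x) (hj : 0 < j) (hjn : j < n + k - 1)
    (hkj : ¬ k ∣ j) : ExactIn (US G) j := by
  intro b sb cb db
  rw [← FV.Sph_S] at *
  obtain ⟨c, hc0, hc⟩ := D.low j b hj hjn sb cb db
  rwa [hc0 hkj, zero_smul] at hc

section inst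
variable {H : Type} [NormedAddCommGroup H] [InnerProductSpace ℝ H] [FiniteDimensional ℝ H]
  {PN : Euc N × Euc N → H →L[ℝ] H} {ε b : (Euc N × Euc N) × H → Ext ((Euc N × Euc N) × H)}

/-- **(Hn)**: closed forms of degree `k - 2` on `Sph (US G) PN`, `PN` of rank `k - 1`, are multiples
of the fibre class -/
theorem mid_US {h : GT.Bla G k} (D : T.XM h m W₀ p₀ x) (hk : 4 ≤ k)
    (hL : GQ.LH (US G) PN (k - 2) ε) (hb : Sm (Sph (US G) PN) b) (hc : Cl (Sph (US G) PN) b)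
    (hd : Hom (k - 2) b) : ∃ c : ℝ, Coh (Sph (US G) PN) b (c • ε) := by
  have h2k := D.two_k
  exact mid_of_LH hL (LB.sub_US (FV.sub_S h.bl) (d := 2 * n - 1) (by omega)) (FV.preconn_US h.bl (by omega))
    (exactIn_US D (by omega) (by omega) fun hd => by
      have := Nat.le_of_dvd (by omega) hd; omega) hb hc hd

end inst

end Crest.Agent.R208.HN
end
end

-- ▼ part R208/HN2

/-! Row 208, block RR, (Hn) (helper316).  HN2: the Leray-Hirsch class of `Sph (US G) PN` pulled back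
from the sphere bundle over `B`, and (Hn) for it. -/

set_option autoImplicit false
set_option linter.unusedSectionVars false

open MeasureTheory Set Filter Topology Module
open scoped ContDiff RealInnerProductSpace
open Crest.GeometryTopology.Submanifold
open Crest.Agent.R241.DDefs
open Crest.Agent.R241.D2
open Crest.Agent.R208.F Crest.Agent.R208.FI Crest.Agent.R208.CW Crest.Agent.R208.T
open Crest.Agent.R208.NN
open Crest.Agent.R208.NB (NegB)
open Crest.Agent.R208.L (US)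
open Crest.Agent.R208.CM (Cir Rep Triv Emb Quo Qd MM jj Th)
open Crest.Agent.R208.SB (OPr OddB oV clo_Sph)
open Crest.Agent.R208.UP (SyOn UPr)

noncomputable section

namespace Crest.Agent.R208.HN

/-! ### the fibre -/

section fib
variable {E E' H V : Type} [NormedAddCommGroup E] [NormedSpace ℝ E] [FiniteDimensional ℝ E]
  [NormedAddCommGroup E'] [NormedSpace ℝ E'] [FiniteDimensional ℝ E']
  [NormedAddCommGroup H] [InnerProductSpace ℝ H] [FiniteDimensional ℝ H]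
  [NormedAddCommGroup V] [InnerProductSpace ℝ V] [FiniteDimensional ℝ V]
  {X : Set E} {Y : Set E'} {φ : ℝ → E → E} {R : ℝ → H →L[ℝ] H} {q : E → E'}
  {T : E → H →L[ℝ] V} {P : E → H →L[ℝ] H} {P' : E' → V →L[ℝ] V} {r : ℕ}

/-- the map of sphere bundles -/
theorem smap_Th (sq : SMap X Y q) (hT : Triv X φ R T) (hd : ∀ x ∈ X, P' (q x) = Qd T P x) :
    SMap (Sph X P) (Sph Y P') (Th q T) := by
  refine ⟨fun z hz => ?_, fun z hz => ⟨⟨sq.maps hz.1.1, ?_⟩, ?_⟩⟩
  · refine ((sq.smooth z.1 hz.1.1).comp z contDiffAt_fst).prodMk ?_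
    exact ((hT.smooth z.1 hz.1.1).comp z contDiffAt_fst).clm_apply contDiffAt_snd
  · change P' (q z.1) (T z.1 z.2) = T z.1 z.2
    rw [hd _ hz.1.1, hT.Qd_T hz.1.1, hz.1.2]
  · change ‖T z.1 z.2‖ = 1
    rw [hT.iso _ hz.1.1]; exact hz.2

theorem clo_fib (hP : PField X (r + 1) P) {x : E} (hx : x ∈ X) :
    Clo r (Sph X P ∩ (Prod.fst : E × H → E) ⁻¹' {x}) := by
  have h1 : PField ({x} : Set E) (r + 1) P :=
    ⟨fun y hy => by rw [hy]; exact hP.smooth _ hx, fun y hy => by rw [hy]; exact hP.idem _ hx,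
      fun y hy => by rw [hy]; exact hP.rank _ hx⟩
  have h2 := clo_Sph ((sub_point x).clo isCompact_singleton) h1
  rw [add_zero] at h2
  have h3 : Sph X P ∩ (Prod.fst : E × H → E) ⁻¹' {x} = Sph ({x} : Set E) P := by
    ext z
    constructor
    · rintro ⟨⟨⟨h1, h2⟩, h3⟩, h4⟩
      exact ⟨⟨h4, h2⟩, h3⟩
    · rintro ⟨⟨h1, h2⟩, h3⟩
      have h1' : z.1 = x := h1
      exact ⟨⟨⟨by rw [h1']; exact hx, h2⟩, h3⟩, h1⟩
  rw [h3]
  exact h2

/-- the fibre map is a bijection -/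
theorem bij_fib (sq : SMap X Y q) (hT : Triv X φ R T) (hd : ∀ x ∈ X, P' (q x) = Qd T P x)
    {x : E} (hx : x ∈ X) :
    BijOn (Th q T) (Sph X P ∩ (Prod.fst : E × H → E) ⁻¹' {x})
      (Sph Y P' ∩ (Prod.fst : E' × V → E') ⁻¹' {q x}) := by
  refine ⟨fun z hz => ⟨(smap_Th sq hT hd).maps hz.1, ?_⟩, ?_, ?_⟩
  · have h1 : z.1 = x := hz.2
    change q z.1 = q x
    rw [h1]
  · rintro ⟨a, v⟩ ha ⟨b, w⟩ hb hab
    have h1 : a = x := ha.2
    have h2 : b = x := hb.2
    subst h1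
    subst h2
    have h3 : T b v = T b w := congrArg Prod.snd hab
    rw [hT.inj hx h3]
  · rintro ⟨y, w⟩ ⟨⟨⟨h1, h2⟩, h3⟩, h4⟩
    have h4' : y = q x := h4
    subst h4'
    have h2' : P' (q x) w = w := h2
    rw [hd x hx] at h2'
    obtain ⟨h5, h6⟩ := hT.mem_range hx h2'
    refine ⟨(x, ContinuousLinearMap.adjoint (T x) w), ⟨⟨⟨hx, h6⟩, ?_⟩, rfl⟩, ?_⟩
    · change ‖ContinuousLinearMap.adjoint (T x) w‖ = 1
      rw [← hT.iso x hx, h5]
      exact h3
    · change (q x, T x (ContinuousLinearMap.adjoint (T x) w)) = (q x, w)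
      rw [h5]

/-- **the fibre integral of a pull-back** -/
theorem J_fib_pull (sq : SMap X Y q) (hT : Triv X φ R T) (hd : ∀ x ∈ X, P' (q x) = Qd T P x)
    (hP : PField X (r + 1) P) (hP' : PField Y (r + 1) P')
    {x : E} (hx : x ∈ X) {o' W : E' × V → Ext (E' × V)}
    (ho : Ori r (Sph Y P' ∩ (Prod.fst : E' × V → E') ⁻¹' {q x}) o') (sW : Sm (Sph Y P') W) :
    Ori r (Sph X P ∩ (Prod.fst : E × H → E) ⁻¹' {x}) (F.pull (Th q T) o') ∧
    J r (Sph X P ∩ (Prod.fst : E × H → E) ⁻¹' {x}) (F.pull (Th q T) o') (F.pull (Th q T) W) =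
      J r (Sph Y P' ∩ (Prod.fst : E' × V → E') ⁻¹' {q x}) o' W := by
  have c1 := clo_fib hP hx
  have c2 := clo_fib hP' (sq.maps hx)
  have hs := smap_Th sq hT hd
  have hb := bij_fib sq hT hd hx
  refine ⟨Ori.pull c1 c2 (fun z hz => (hs.smooth z hz.1).of_le (by simp)) hb.mapsTo
    (fun z hz v hv h0 => ?_) ho, J_pull c1 c2 (fun z hz => (hs.smooth z hz.1).differentiableAt
      (by simp)) hb ho fun z hz => (sW z hz.1).continuousAt.continuousWithinAt⟩
  -- vertical vectors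
  have hz1 : z.1 = x := hz.2
  have hv1 : v.1 = 0 := by
    have h1 := FV.fderiv_mem_Tan_of_mapsTo (g := (Prod.fst : E × H → E)) (Y := ({x} : Set E))
      (fun y hy => hy.2) differentiableAt_fst hv
    rw [fderiv_fst] at h1
    have h2 : Tan ({x} : Set E) z.1 = ⊥ := by
      rw [hz1]
      exact Submodule.finrank_eq_zero.1 ((sub_point x).finrank_Tan rfl)
    rw [h2] at h1
    exact h1
  have d1 : DifferentiableAt ℝ q z.1 := (sq.smooth _ hz.1.1.1).differentiableAt (by simp)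
  have d2 : DifferentiableAt ℝ T z.1 := (hT.smooth _ hz.1.1.1).differentiableAt (by simp)
  have e2 : HasFDerivAt (fun y : E × H => T y.1 y.2) _ z :=
    (d2.hasFDerivAt.comp z hasFDerivAt_fst).clm_apply hasFDerivAt_snd
  have e1 : HasFDerivAt (fun y : E × H => q y.1) _ z := d1.hasFDerivAt.comp z hasFDerivAt_fst
  have e3 := (e1.prodMk e2).fderiv
  have e4 : fderiv ℝ (Th q T) z v = 0 := h0
  have e5 : Th q T = fun y : E × H => (q y.1, T y.1 y.2) := rfl
  rw [e5, e3] at e4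
  have e6 := congrArg Prod.snd e4
  simp [hv1] at e6
  have h7 : v.2 = 0 := hT.inj hz.1.1.1 (by rw [e6, map_zero])
  exact Prod.ext hv1 h7

end fib

/-! ### the instance -/

section inst
variable {n N k m' m K l : ℕ} {κ δ : ℝ} {S : Set (Euc N)} {G : Geo n N κ S}
  {PN : Euc N × Euc N → Wt N K →L[ℝ] Wt N K} {p₀ : Euc N}
  {ι ι' : Type} [Fintype ι] [DecidableEq ι] [Fintype ι'] [DecidableEq ι']
  {W₀ : Euc N × Euc N → (ι × Fin 2 → Fin N) → ℝ} {x : Euc N → Ext (Euc N)}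
  {E' V : Type} [NormedAddCommGroup E'] [NormedSpace ℝ E'] [FiniteDimensional ℝ E']
  [NormedAddCommGroup V] [InnerProductSpace ℝ V] [FiniteDimensional ℝ V]
  {Y : Set E'} {q : Euc N × Euc N → E'} {T : Euc N × Euc N → Wt N K →L[ℝ] V}
  {P' : E' → V →L[ℝ] V} {φ : ℝ → Euc N × Euc N → Euc N × Euc N} {R : ℝ → Wt N K →L[ℝ] Wt N K}

/-- **the class `q^* W` is a Leray-Hirsch class** on `Sph (US G) PN` -/
theorem lh_pull (h : GT.Bla G k) (hl : 0 < l) (hkl : k = 2 * l + 2) (hkn : k < n)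
    (H : NegB G (k - 1) (nuP K) δ PN) (sq : SMap (US G) Y q) (hT : Triv (US G) φ R T)
    (hd : ∀ z ∈ US G, P' (q z) = Qd T PN z) (hP' : PField Y (2 * l + 1) P')
    {W : E' × V → Ext (E' × V)} (sW : Sm (Sph Y P') W) (cW : Cl (Sph Y P') W)
    (dW : Hom (2 * l) W) {z0 : Euc N × Euc N} (hz0 : z0 ∈ US G)
    {oF : E' × V → Ext (E' × V)}
    (hoF : Ori (2 * l) (Sph Y P' ∩ (Prod.fst : E' × V → E') ⁻¹' {q z0}) oF)
    (hJ : J (2 * l) (Sph Y P' ∩ (Prod.fst : E' × V → E') ⁻¹' {q z0}) oF W ≠ 0) :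
    GQ.LH (US G) PN (2 * l) (F.pull (Th q T) W) := by
  have hk1 : k - 1 = 2 * l + 1 := by omega
  have hP : PField (US G) (2 * l + 1) PN := by
    have := UP.pfield_N H
    rwa [hk1] at this
  have hs : SMap (Sph (US G) PN) (Sph Y P') (Th q T) := smap_Th sq hT hd
  obtain ⟨h1, h2⟩ := J_fib_pull sq hT hd hP hP' hz0 hoF sW
  exact ZG.lh_N h hl hkl hkn H (sW.pull hs) (Cl.pull hs sW cW) dW.pull hz0 h1 (by rw [h2]; exact hJ)


end inst

section oddb
variable {n N k m K l r : ℕ} {κ δ : ℝ} {S : Set (Euc N)} {G : Geo n N κ S}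
  {PN : Euc N × Euc N → Wt N K →L[ℝ] Wt N K} {p₀ : Euc N}
  {ι ι' : Type} [Fintype ι] [DecidableEq ι] [Fintype ι'] [DecidableEq ι'] [Nonempty ι']
  {W₀ : Euc N × Euc N → (ι × Fin 2 → Fin N) → ℝ} {x : Euc N → Ext (Euc N)}
  {E' : Type} [NormedAddCommGroup E'] [NormedSpace ℝ E'] [FiniteDimensional ℝ E']
  {p : Type} [Fintype p] [DecidableEq p]
  {Y : Set E'} {q : Euc N × Euc N → E'} {T : Euc N × Euc N → Wt N K →L[ℝ] EuclideanSpace ℝ p}
  {P' : E' → EuclideanSpace ℝ p →L[ℝ] EuclideanSpace ℝ p} {oP' : E' → Ext (EuclideanSpace ℝ p)}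
  {φ : ℝ → Euc N × Euc N → Euc N × Euc N} {R : ℝ → Wt N K →L[ℝ] Wt N K}

/-- **LH for 349's vertical Euler form** pulled back to `Sph (US G) PN` -/
theorem lh_eV (h : GT.Bla G k) (hr : r + 2 = k) (hkn : k < n)
    (H : NegB G (k - 1) (nuP K) δ PN) (sq : SMap (US G) Y q) (hT : Triv (US G) φ R T)
    (hd : ∀ z ∈ US G, P' (q z) = Qd T PN z) (ob : OddB ι' Y r P' oP') (hne : (US G).Nonempty) :
    GQ.LH (US G) PN r (F.pull (Th q T) (SB.OddB.eV ι' ob.hr P' oP')) := by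
  obtain ⟨z0, hz0⟩ := hne
  have hr' := ob.hr
  have hpos : 0 < Fintype.card ι' := Fintype.card_pos
  have hτ := XF.tau_pos ι'
  have hP' := ob.pf
  have hq0 := sq.maps hz0
  have h1 := ob.ori_oV hq0
  rw [← SB.OddB.fibre_eq (X := Y) hq0] at h1
  have h2 := ob.J_fibre' hq0
  have h4 := ob.ec_eV
  have h5 := SB.OddB.hom_eV (P := P') (oP := oP') ob.hr
  revert h1 h2 h4 h5 hP'
  generalize SB.OddB.eV ι' ob.hr P' oP' = W
  clear ob
  subst hr'
  intro hP' h1 h2 h4 h5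
  exact lh_pull h hpos (by omega) hkn H sq hT hd hP' h4.sm h4.cl h5 hz0 h1 (by
    rw [h2]; positivity)

/-- **(Hn)** -/
theorem hn_eV {h : GT.Bla G k} (D : Crest.Agent.R208.T.XM h m W₀ p₀ x) (hr : r + 2 = k) (hkn : k < n)
    (H : NegB G (k - 1) (nuP K) δ PN) (sq : SMap (US G) Y q) (hT : Triv (US G) φ R T)
    (hd : ∀ z ∈ US G, P' (q z) = Qd T PN z) (ob : OddB ι' Y r P' oP') :
    ∀ β : (Euc N × Euc N) × Wt N K → Ext ((Euc N × Euc N) × Wt N K),
      Sm (Sph (US G) PN) β → Cl (Sph (US G) PN) β → Hom r β →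
      ∃ c : ℝ, Coh (Sph (US G) PN) β (c • F.pull (Th q T) (SB.OddB.eV ι' ob.hr P' oP')) := by
  intro β sβ cβ dβ
  have hpos : 0 < Fintype.card ι' := Fintype.card_pos
  have hr' := ob.hr
  have hL := lh_eV h hr hkn H sq hT hd ob (nonempty_UST h D.hp)
  have hk2 : r = k - 2 := by omega
  rw [hk2] at dβ
  refine mid_US D (by omega) ?_ sβ cβ dβ
  rw [← hk2]
  exact hL

end oddb

end Crest.Agent.R208.HN
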