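import Crest.Agent.R208.RRc365C

/-! Row 208, block RR / (K8) (helper545): **the value of `D` without the F-family.**
`exists_prim` (on `US`), `D_tot`, `D_value`, `D_value'` (any `Fam` over `τ : Z → US`), `J_value`
(with `rr1`), `J_US_value` (`Z = US`, `h = 1`).
`h_m(x_2, x_1) ~ 0` on `F` (X1d) gives a primitive of `(m+1) p^*ξ^m` on `US` whose pairing with
`p^*ξ^m` is the Fubini number; with `rr2` and fibre integration this gives `D` of every family. -/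

set_option autoImplicit false
set_option linter.unusedSectionVars false
set_option linter.unusedVariables false

open MeasureTheory MeasureTheory.Measure Set Filter Topology Module Metric
open scoped ContDiff RealInnerProductSpace
open Crest.GeometryTopology.Submanifold
open Crest.Agent.R241.DDefs
open Crest.Agent.R241.D2
open Crest.Agent.R208.F Crest.Agent.R208.FI Crest.Agent.R208.CW Crest.Agent.R208.T
open Crest.Agent.R208.RR Crest.Agent.R208.RRC
open Crest.Agent.R208.L (US)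

noncomputable section

namespace Crest.Agent.R208.KD

section us
variable {n N k : ℕ} {κ : ℝ} {S : Set (Euc N)} {G : Geo n N κ S}
  {oS ξ : Euc N → Ext (Euc N)} {m d : ℕ}

/-- `h_m(E^*ξ, p^*ξ)` on the cylinder over `US` -/
def HU (G : Geo n N κ S) (ξ : Euc N → Ext (Euc N)) (m : ℕ) :
    (Euc N × Euc N) × ℝ → Ext ((Euc N × Euc N) × ℝ) := HM (F.pull (EE G) ξ) (F.pull PP ξ) m

/-- `h_m(x_2, x_1)` on `F` -/
def hF (ξ : Euc N → Ext (Euc N)) (m : ℕ) : Euc N × Euc N → Ext (Euc N × Euc N) :=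
  ∑ i ∈ Finset.range (m + 1), F.pull Prod.snd ξ ^ i * F.pull Prod.fst ξ ^ (m - i)

theorem sm_HU (hξ : Sm S ξ) : Sm (Cyl (US G)) (HU G ξ m) := by
  unfold HU HM
  exact Sm.sum _ fun i _ => (Sm.pow (hξ.pull smap_EE) i).mul (Sm.pow (hξ.pull smap_PP) _)

theorem cl_HU (hξ : Sm S ξ) (cξ : Cl S ξ) : Cl (Cyl (US G)) (HU G ξ m) := by
  unfold HU HM
  exact Cl.sum _ (fun i _ => (Sm.pow (hξ.pull smap_EE) i).mul (Sm.pow (hξ.pull smap_PP) _)) fun i _ =>
    Cl.mul (Sm.pow (hξ.pull smap_EE) i) (Sm.pow (hξ.pull smap_PP) _)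
      (Cl.pow (hξ.pull smap_EE) (Cl.pull smap_EE hξ cξ) i)
      (Cl.pow (hξ.pull smap_PP) (Cl.pull smap_PP hξ cξ) _)

theorem isDeg_one' {E : Type*} [AddCommGroup E] [Module ℝ E] : IsDeg 0 (1 : Ext E) := by
  intro q hq
  obtain ⟨q, rfl⟩ := Nat.exists_eq_succ_of_ne_zero hq
  have := evA_succ_algebraMap (E := E) q 1
  rwa [map_one] at this

theorem hom_pow' {E : Type*} [NormedAddCommGroup E] [NormedSpace ℝ E] [FiniteDimensional ℝ E]
    {a : E → Ext E} {p : ℕ} (h : Hom p a) (i : ℕ) : Hom (p * i) (a ^ i) := by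
  induction i with
  | zero => rw [pow_zero, mul_zero]; exact fun x => isDeg_one'
  | succ i ih =>
    rw [pow_succ, Nat.mul_succ]
    exact fun x => isDeg_mul (ih x) (h x)

theorem hom_sum' {E ι : Type*} [NormedAddCommGroup E] [NormedSpace ℝ E] [FiniteDimensional ℝ E]
    {p : ℕ} (s : Finset ι) {f : ι → E → Ext E} (h : ∀ i ∈ s, Hom p (f i)) :
    Hom p (∑ i ∈ s, f i) := by
  classical
  induction s using Finset.induction_on with
  | empty => rw [Finset.sum_empty]; exact fun x => IsDeg.zero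
  | insert i s hi ih =>
    rw [Finset.sum_insert hi]
    exact fun x => IsDeg.add (h i (Finset.mem_insert_self i s) x)
      (ih (fun j hj => h j (Finset.mem_insert_of_mem hj)) x)

theorem hom_HU (dξ : Hom k ξ) : Hom (k * m) (HU G ξ m) := by
  unfold HU HM
  refine hom_sum' _ fun i hi => ?_
  have hi' := Finset.mem_range.1 hi
  rw [← pull_pow', ← pull_pow']
  have h1 : k * m = k * i + k * (m + 1 - 1 - i) := by
    rw [← mul_add]; congr 1; omega
  rw [h1]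
  exact fun x => isDeg_mul ((hom_pow' dξ i _).pb _) ((hom_pow' dξ _ _).pb _)

theorem smap_phi (hB : Bl n N κ S G Real.pi) : SMap (US G) (GT.FF S) (FV.phi G) :=
  ⟨fun z hz => FV.contDiffAt_phi hz.1, fun z hz => FV.phi_mem hB hz⟩

theorem smap_fst_FF : SMap (GT.FF S) S (Prod.fst : Euc N × Euc N → Euc N) :=
  ⟨fun _ _ => contDiffAt_fst, fun _ hz => hz.1⟩

theorem smap_snd_FF : SMap (GT.FF S) S (Prod.snd : Euc N × Euc N → Euc N) :=
  ⟨fun _ _ => contDiffAt_snd, fun _ hz => hz.2.1⟩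

theorem smap_fst_US : SMap (US G) S (Prod.fst : Euc N × Euc N → Euc N) :=
  ⟨fun _ _ => contDiffAt_fst, fun _ hz => hz.1.1⟩

/-- the slices of `p^*ξ` -/
theorem sl_PP (s : ℝ) (hξ : Sm S ξ) :
    Eqv (US G) (F.pull (sl s) (F.pull PP ξ)) (F.pull Prod.fst ξ) :=
  Eqv.of_eq fun z hz => by
    rw [pull_PP, pull_sl_fst s _ (hξ.pull smap_fst_US) hz]

/-- the slice of `E^*ξ` at `1` -/
theorem sl_EE_one (hB : Bl n N κ S G Real.pi) :
    Eqv (US G) (F.pull (sl 1) (F.pull (EE G) ξ)) (F.pull (FV.phi G) (F.pull Prod.snd ξ)) :=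
  Eqv.of_eq fun z hz => by
    have e1 := pull_comp (f := sl (E := Euc N × Euc N) 1) (g := EE G) (om := ξ) (x := z)
      ((contDiff_sl 1).contDiffAt.differentiableAt (by simp))
      ((contDiffAt_EE hz.1 1).differentiableAt (by simp))
    have e2 := pull_comp (f := FV.phi G) (g := (Prod.snd : Euc N × Euc N → Euc N)) (om := ξ)
      (x := z) ((FV.contDiffAt_phi hz.1).differentiableAt (by simp)) differentiableAt_snd
    rw [e1, e2]
    congr 1
    funext w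
    simp [EE, sl, FV.phi]

/-- the slice of `E^*ξ` at `0` -/
theorem sl_EE_zero :
    Eqv (US G) (F.pull (sl 0) (F.pull (EE G) ξ)) (F.pull Prod.fst ξ) := by
  have h1 : Eqv (US G) (F.pull (sl 0) (F.pull (EE G) ξ))
      (F.pull (fun z : Euc N × Euc N => EE G (sl 0 z)) ξ) := Eqv.of_eq fun z hz =>
    pull_comp (f := sl (E := Euc N × Euc N) 0) (g := EE G) (om := ξ) (x := z)
      ((contDiff_sl 0).contDiffAt.differentiableAt (by simp))
      ((contDiffAt_EE hz.1 0).differentiableAt (by simp))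
  refine h1.trans (eqv_pull_of_eq ξ (fun z hz => ?_) (fun z _ => differentiableAt_fst)
    fun z hz => ?_)
  · exact ((contDiffAt_EE (q := z) hz.1 0).comp z (contDiff_sl 0).contDiffAt).differentiableAt
      (by simp)
  · change Exp G z.1 ((Real.pi * 0) • z.2) = z.1
    rw [mul_zero, zero_smul]
    exact Crest.Agent.R241.D2.Exp_zero G hz.1.1

/-- the slice of `h_m` at `0` -/
theorem HU_zero (hξ : Sm S ξ) :
    Eqv (US G) (F.pull (sl 0) (HU G ξ m)) ((m + 1 : ℝ) • F.pull Prod.fst ξ ^ m) := by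
  refine eqv_iff.2 fun x hx => ?_
  have e1 := eqv_iff.1 (sl_EE_zero (G := G) (ξ := ξ)) x hx
  have e2 := eqv_iff.1 (sl_PP (G := G) 0 hξ) x hx
  have h0 : F.pull (sl 0) (HU G ξ m) = ∑ i ∈ Finset.range (m + 1),
      F.pull (sl 0) (F.pull (EE G) ξ) ^ i * F.pull (sl 0) (F.pull PP ξ) ^ (m + 1 - 1 - i) := by
    rw [HU, HM, pull_sum']
    refine Finset.sum_congr rfl fun i _ => ?_
    rw [pull_mul', pull_pow', pull_pow']
  rw [h0]
  simp only [rs_mul, rs_pow, rs_smul, rs_sum] at *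
  rw [e1, e2]
  have h2 : ∀ i ∈ Finset.range (m + 1),
      Rs (US G) x (F.pull Prod.fst ξ x) ^ i * Rs (US G) x (F.pull Prod.fst ξ x) ^ (m + 1 - 1 - i) =
      Rs (US G) x (F.pull Prod.fst ξ x) ^ m := by
    intro i hi
    have := Finset.mem_range.1 hi
    rw [← pow_add]
    congr 1
    omega
  rw [Finset.sum_congr rfl h2, Finset.sum_const, Finset.card_range,
    ← Nat.cast_smul_eq_nsmul ℝ, Nat.cast_add, Nat.cast_one]

/-- the slice of `h_m` at `1` -/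
theorem HU_one (hB : Bl n N κ S G Real.pi) (hξ : Sm S ξ) :
    Eqv (US G) (F.pull (sl 1) (HU G ξ m)) (F.pull (FV.phi G) (hF ξ m)) := by
  refine eqv_iff.2 fun x hx => ?_
  have e1 := eqv_iff.1 (sl_EE_one (ξ := ξ) hB) x hx
  have e2 := eqv_iff.1 (sl_PP (G := G) 1 hξ) x hx
  have e3 : F.pull (FV.phi G) (F.pull Prod.fst ξ) x = F.pull Prod.fst ξ x := by
    rw [pull_comp (f := FV.phi G) (g := (Prod.fst : Euc N × Euc N → Euc N)) (om := ξ)
      (x := x) ((FV.contDiffAt_phi hx.1).differentiableAt (by simp)) differentiableAt_fst]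
    rfl
  have h0 : F.pull (sl 1) (HU G ξ m) = ∑ i ∈ Finset.range (m + 1),
      F.pull (sl 1) (F.pull (EE G) ξ) ^ i * F.pull (sl 1) (F.pull PP ξ) ^ (m + 1 - 1 - i) := by
    rw [HU, HM, pull_sum']
    refine Finset.sum_congr rfl fun i _ => ?_
    rw [pull_mul', pull_pow', pull_pow']
  have h1 : F.pull (FV.phi G) (hF ξ m) = ∑ i ∈ Finset.range (m + 1),
      F.pull (FV.phi G) (F.pull Prod.snd ξ) ^ i *
        F.pull (FV.phi G) (F.pull Prod.fst ξ) ^ (m - i) := by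
    rw [hF, pull_sum']
    refine Finset.sum_congr rfl fun i _ => ?_
    rw [pull_mul', pull_pow', pull_pow']
  rw [h0, h1]
  simp only [rs_mul, rs_pow, rs_sum] at *
  rw [e1, e2, e3]
  refine Finset.sum_congr rfl fun i _ => ?_
  rw [Nat.add_sub_cancel]

theorem Hom.prim' {X : Set (Euc N × Euc N)} {b : Euc N × Euc N → Ext (Euc N × Euc N)} {i : ℕ}
    (h : Coh X b 0) (hd : Hom (i + 1) b) :
    ∃ ζ : Euc N × Euc N → Ext (Euc N × Euc N), Sm X ζ ∧ Hom i ζ ∧ Eqv X b (F.d ζ) := by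
  obtain ⟨ζ, sζ, eζ⟩ := h
  rw [sub_zero] at eζ
  refine ⟨T.dp i ζ, sζ.dp i, hom_dp i ζ, ?_⟩
  have := eζ.dp (i + 1)
  rw [hd.dp_eq] at this
  exact this.trans (Eqv.of_eq fun y hy => dp_d i (sζ.diff hy))

theorem hom_hF (dξ : Hom k ξ) : Hom (k * m) (hF ξ m) := by
  unfold hF
  refine hom_sum' _ fun i hi => ?_
  have hi' := Finset.mem_range.1 hi
  rw [← pull_pow', ← pull_pow']
  have h1 : k * m = k * i + k * (m - i) := by
    rw [← mul_add]; congr 1; omega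
  rw [h1]
  exact fun x => isDeg_mul ((hom_pow' dξ i _).pb _) ((hom_pow' dξ _ _).pb _)

set_option maxHeartbeats 2000000 in
/-- **the primitive of `(m+1) p^*ξ^m` on `US`** (X1d ⟹ exactness and the Hopf number) -/
theorem exists_prim (h : GT.Bla G k) (hk : 2 ≤ k) (hm : 1 ≤ m) (hn : n = k * m)
    (hd : d + 1 = 2 * n) {oU : Euc N × Euc N → Ext (Euc N × Euc N)} (ho : Ori d (US G) oU)
    (hoS : Ori n S oS) (sξ : Sm S ξ) (cξ : Cl S ξ) (dξ : Hom k ξ)
    (hX : Coh (GT.FF S) (hF ξ m) 0) :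
    ∃ ζ : Euc N × Euc N → Ext (Euc N × Euc N), Sm (US G) ζ ∧ Hom (n - 1) ζ ∧
      Eqv (US G) (F.d ζ) ((m + 1 : ℝ) • F.pull Prod.fst ξ ^ m) ∧
      |J d (US G) oU (ζ * F.pull Prod.fst ξ ^ m)| = (J n S oS (ξ ^ m)) ^ 2 := by
  have hB := h.bl
  have hn2 : 2 ≤ n := by rw [hn]; calc 2 ≤ k * 1 := by omega
      _ ≤ k * m := Nat.mul_le_mul_left k hm
  have hcl : Clo d (US G) := LB.clo_US (FV.sub_S hB) hB.cpt hd
  have hFF : Clo (2 * n - k) (GT.FF S) := FV.clo_FF' h (by have := h.ty.le; omega)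
  have hnk : n - 1 + 1 = k * m := by omega
  have dF : Hom (n - 1 + 1) (hF ξ m) := by rw [hnk]; exact hom_hF (m := m) dξ
  obtain ⟨lam, slam, dlam, elam⟩ := Hom.prim' hX dF
  have sH := sm_HU (G := G) (m := m) sξ
  have cH := cl_HU (G := G) (m := m) sξ cξ
  have dH : Hom (n - 1 + 1) (HU G ξ m) := by rw [hnk]; exact hom_HU (G := G) (m := m) dξ
  have sK : Sm (US G) (K (HU G ξ m)) := Sm.K sH
  have dK' : Hom (n - 1) (K (HU G ξ m)) := fun x => isDeg_K (fun y => dH y) x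
  have sL : Sm (US G) (F.pull (FV.phi G) lam) := slam.pull (smap_phi hB)
  -- the derivative of `K`
  have hKd : Eqv (US G) (F.d (K (HU G ξ m)))
      (F.pull (FV.phi G) (hF ξ m) - (m + 1 : ℝ) • F.pull Prod.fst ξ ^ m) := by
    have h1 := K_d_eqv sH
    have h2 : Eqv (US G) (K (F.d (HU G ξ m))) 0 := by
      have h3 := K_eqv sH.d Sm.zero (resZero_iff.1 cH)
      rwa [show K (0 : (Euc N × Euc N) × ℝ → Ext ((Euc N × Euc N) × ℝ)) = 0 by
        have h4 := K_smul (E := Euc N × Euc N) (w := 0) (0 : ℝ)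
        rwa [zero_smul, zero_smul] at h4] at h3
    have h6 := h1.sub (Eqv.refl (K (F.d (HU G ξ m))))
    rw [add_sub_cancel_right] at h6
    have h7 := ((HU_one (m := m) hB sξ).sub (HU_zero (G := G) (m := m) sξ)).sub h2
    rw [sub_zero] at h7
    exact h6.trans h7
  refine ⟨F.pull (FV.phi G) lam - K (HU G ξ m), sL.sub sK,
    ?_, ?_, ?_⟩
  · exact ((Hom.pull dlam).sub dK')
  · refine (d_sub_eqv sL sK).trans ?_
    have h1 : Eqv (US G) (F.d (F.pull (FV.phi G) lam)) (F.pull (FV.phi G) (hF ξ m)) :=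
      (d_pull_eqv (smap_phi hB) slam).trans (Eqv.pull (smap_phi hB) elam.symm)
    have h2 := h1.sub hKd
    rwa [sub_sub_cancel] at h2
  · -- the number
    have sP : Sm (US G) (F.pull Prod.fst ξ ^ m) := Sm.pow (sξ.pull smap_fst_US) m
    have z1 : J d (US G) oU (F.pull (FV.phi G) lam * F.pull Prod.fst ξ ^ m) = 0 := by
      have a1 : Eqv (GT.FF S) (lam * F.pull Prod.fst ξ ^ m) 0 := by
        refine eqv_iff.2 fun u hu => ?_
        have h1 : IsDeg (n - 1 + k * m) (pb (Tan (GT.FF S) u).subtype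
            ((lam * F.pull Prod.fst ξ ^ m : Euc N × Euc N → Ext (Euc N × Euc N)) u)) := by
          rw [← pull_pow']
          exact (isDeg_mul (dlam u) ((hom_pow' dξ m _).pb _)).pb _
        rw [h1.eq_zero (by rw [hFF.finrank_Tan hu]; omega), Pi.zero_apply, map_zero]
      have a2 := Eqv.pull (smap_phi hB) a1
      rw [pull_zero', pull_mul', pull_pow'] at a2
      have a3 : Eqv (US G) (F.pull (FV.phi G) (F.pull Prod.fst ξ)) (F.pull Prod.fst ξ) :=
        Eqv.of_eq fun x hx => by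
          rw [pull_comp (f := FV.phi G) (g := (Prod.fst : Euc N × Euc N → Euc N)) (om := ξ)
            (x := x) ((FV.contDiffAt_phi hx.1).differentiableAt (by simp)) differentiableAt_fst]
          rfl
      have a4 : Eqv (US G) (F.pull (FV.phi G) lam * F.pull Prod.fst ξ ^ m) 0 := by
        refine Eqv.trans (eqv_iff.2 fun x hx => ?_) a2
        have e3 := eqv_iff.1 a3 x hx
        simp only [rs_mul, rs_pow]
        rw [e3]
      rw [J_eqv hcl a4]
      exact J_zero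
    have hEE : Sm (Cyl (US G)) (F.pull (EE G) ξ) := sξ.pull smap_EE
    have hPP : Sm (Cyl (US G)) (F.pull PP ξ) := sξ.pull smap_PP
    have b0 : Eqv (Cyl (US G)) (F.pull PP ξ ^ (m + 1)) 0 := by
      have a1 : Eqv S (ξ ^ (m + 1)) 0 := by
        refine eqv_iff.2 fun u hu => ?_
        have h1 : IsDeg (k * (m + 1)) (pb (Tan S u).subtype ((ξ ^ (m + 1)) u)) :=
          (hom_pow' dξ (m + 1) u).pb _
        rw [h1.eq_zero (by
          rw [(FV.sub_S hB).finrank_Tan hu, hn]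
          exact Nat.mul_lt_mul_of_pos_left (by omega) (by omega)), Pi.zero_apply, map_zero]
      have a2 := Eqv.pull (smap_PP (G := G)) a1
      rwa [pull_zero', pull_pow'] at a2
    have hmul : Eqv (Cyl (US G)) (HU G ξ m * F.pull PP ξ ^ m)
        (F.pull (EE G) ξ ^ m * F.pull PP ξ ^ m) := eqv_iff.2 fun x hx => by
      have e2 := eqv_iff.1 b0 x hx
      simp only [HU, HM, rs_mul, rs_pow, rs_sum, Pi.zero_apply, map_zero] at *
      exact hm_mul e2
    have z2 : J d (US G) oU (K (HU G ξ m) * F.pull Prod.fst ξ ^ m) =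
        J d (US G) oU (K (F.pull (EE G) ξ ^ m * F.pull PP ξ ^ m)) := by
      rw [← JK_congr hcl (sH.mul (Sm.pow hPP m)) ((Sm.pow hEE m).mul (Sm.pow hPP m)) hmul]
      refine J_congr' hcl fun x hx => ?_
      have e1 : F.pull PP ξ ^ m = F.pull (Prod.fst : (Euc N × Euc N) × ℝ → Euc N × Euc N)
          (F.pull (Prod.fst : Euc N × Euc N → Euc N) ξ ^ m) := by
        rw [pull_PP, pull_pow']
      rw [e1, K_mul_fst (IK.of_sm sH hx)]
      rfl
    have z3 := DF_two (m := m) hB hn2 hd ho hoS sξ fun x hx q hq => by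
      have := hom_pow' dξ m x
      rw [← hn] at this
      exact this q (by omega)
    rw [sub_mul, J_sub' hcl ho (sL.mul sP) (sK.mul sP), z1, zero_sub, abs_neg, z2, ← z3, one_mul]

end us

section fam
universe v
variable {n N k : ℕ} {κ : ℝ} {S : Set (Euc N)} {G : Geo n N κ S}
  {oS ξ : Euc N → Ext (Euc N)} {m d r : ℕ}
  {H : Type v} [NormedAddCommGroup H] [NormedSpace ℝ H] [FiniteDimensional ℝ H]
  {Z : Set H} {τ : H → Euc N × Euc N} {oV : H → Ext H}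
  {oU : Euc N × Euc N → Ext (Euc N × Euc N)} {φ : ℝ → H → H}
  {a b hh η : H × ℝ → Ext (H × ℝ)} {θ : H → Ext H} {c : ℝ}

set_option maxHeartbeats 1000000 in
/-- `D` of any family over `τ : Z → US` from a primitive of `(m+1) p^*ξ^m` on `US` (product
orientation, no connectedness of `Z`) -/
theorem D_tot (hB : Bl n N κ S G Real.pi) (hn : 2 ≤ n) (A : Fam Z (CM.gen φ) m a b hh η θ c)
    (hφ : CM.Cir Z φ) (hc : c ≠ 0)
    (ia : Inv Z φ (F.pull (sl 1) a)) (ib : Inv Z φ (F.pull (sl 1) b))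
    (ih : Inv Z φ (F.pull (sl 1) hh)) (h00 : Eqv Z (F.pull (sl 0) a) (F.pull (sl 0) b))
    (hτ : FG.OSubm r d Z (US G) τ oV oU) (sξ : Sm S ξ)
    (ha0 : Eqv Z (F.pull (sl 0) a) (F.pull τ (F.pull Prod.fst ξ)))
    {ζ : Euc N × Euc N → Ext (Euc N × Euc N)} (sζ : Sm (US G) ζ)
    (hdeg : Hom d (ζ * F.pull Prod.fst ξ ^ m))
    (dζ : Eqv (US G) (F.d ζ) ((m + 1 : ℝ) • F.pull Prod.fst ξ ^ m)) {u : Euc N × Euc N}
    (hu : u ∈ US G) :
    J (r + d) Z (fun z => oV z * F.pull τ oU z) (K (hh * a ^ m * b ^ m)) =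
      -(J r (Z ∩ τ ⁻¹' {u}) oV (F.pull (sl 0) hh) *
        J d (US G) oU (ζ * F.pull Prod.fst ξ ^ m)) := by
  have hZ : Clo (r + d) Z := hτ.subm.cloZ
  have hs := smap_of_subm hτ.subm
  have ho := hτ.tot
  obtain ⟨κ', sκ, dκ, e1⟩ := A.rr2 hZ ho hφ hc ia ib ih h00
  set h0 := F.pull (sl 0) hh with hh0
  set a0 := F.pull (sl 0) a with ha0'
  have sh0 : Sm Z h0 := A.sh.pull (smap_sl 0)
  have ch0 : Cl Z h0 := Cl.pull (smap_sl 0) A.sh A.ch
  have eh0 : Ev Z h0 := Ev.pull (smap_sl 0) A.eh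
  have sa0 : Sm Z a0 := A.sa.pull (smap_sl 0)
  have ea0 : Ev Z a0 := Ev.pull (smap_sl 0) A.ea
  have sT : Sm Z (F.pull τ ζ) := sζ.pull hs
  have hm0 : ((m : ℝ) + 1) ≠ 0 := by positivity
  have hP : Eqv Z (a0 ^ m) (F.pull τ (F.pull Prod.fst ξ ^ m)) := eqv_iff.2 fun x hx => by
    have e := eqv_iff.1 ha0 x hx
    rw [pull_pow']
    simp only [rs_pow]
    rw [e]
  have dT : Eqv Z (F.d (F.pull τ ζ)) ((m + 1 : ℝ) • a0 ^ m) := by
    refine (d_pull_eqv hs sζ).trans ((Eqv.pull hs dζ).trans ?_)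
    rw [pull_smul']
    exact (hP.symm).smul _
  have dκ1 : Eqv Z (F.d (F.pull τ ζ * h0)) ((m + 1 : ℝ) • (h0 * a0 ^ m)) := by
    refine (d_mul_cl sT sh0 ch0).trans ((dT.mul (Eqv.refl h0)).trans (eqv_iff.2 fun x hx => ?_))
    simp only [rs_mul, rs_smul, rs_pow]
    rw [smul_mul_assoc, (eh0.comm hx _).eq]
  have dζ' : Eqv Z (F.d (((m : ℝ) + 1)⁻¹ • F.pull τ ζ)) (a0 ^ m) := by
    refine (d_smul_eqv _ sT).trans ?_
    have := dT.smul ((m : ℝ) + 1)⁻¹
    rwa [smul_smul, inv_mul_cancel₀ hm0, one_smul] at this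
  have e2 := D_unique hZ ho sκ (sT.mul sh0) (sT.smul _) (Sm.pow sa0 m) (dκ.trans dκ1.symm) dζ'
    (Ev.pow ea0 m)
  have e3 : Eqv Z (F.pull τ ζ * h0 * a0 ^ m)
      (fun z => h0 z * F.pull τ (ζ * F.pull Prod.fst ξ ^ m) z) := by
    have q1 : (fun z => h0 z * F.pull τ (ζ * F.pull Prod.fst ξ ^ m) z) =
        h0 * (F.pull τ ζ * F.pull τ (F.pull Prod.fst ξ ^ m)) := by
      rw [← pull_mul']; rfl
    rw [q1]
    refine eqv_iff.2 fun x hx => ?_
    have e := eqv_iff.1 hP x hx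
    simp only [rs_mul] at *
    rw [e, ← mul_assoc, (eh0.comm hx _).eq]
  have e4 := fibre_integration_const hτ.subm (FV.preconn_US hB hn) hτ.base hτ.cV hτ.tot hτ.low
    (η := h0) (om := ζ * F.pull Prod.fst ξ ^ m) (fun z hz => (sh0 z hz).of_le (by simp)) ch0
    (Sm.cont (sζ.mul (Sm.pow (sξ.pull smap_fst_US) m))) (fun x _ q hq => hdeg x q (by omega)) hu
  rw [e1, e2, J_eqv hZ e3, e4]

/-- **(K8): the value of `D` of any family over `US`** (`Z` connected: any orientation) -/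
theorem D_value (h : GT.Bla G k) (hk : 2 ≤ k) (hm : 1 ≤ m) (hn : n = k * m)
    (hd : d + 1 = 2 * n) (hoS : Ori n S oS) (sξ : Sm S ξ) (cξ : Cl S ξ) (dξ : Hom k ξ)
    (hX : Coh (GT.FF S) (hF ξ m) 0) (A : Fam Z (CM.gen φ) m a b hh η θ c)
    (hφ : CM.Cir Z φ) (hc : c ≠ 0)
    (ia : Inv Z φ (F.pull (sl 1) a)) (ib : Inv Z φ (F.pull (sl 1) b))
    (ih : Inv Z φ (F.pull (sl 1) hh)) (h00 : Eqv Z (F.pull (sl 0) a) (F.pull (sl 0) b))
    (hτ : FG.OSubm r d Z (US G) τ oV oU)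
    (ha0 : Eqv Z (F.pull (sl 0) a) (F.pull τ (F.pull Prod.fst ξ)))
    {u : Euc N × Euc N} (hu : u ∈ US G) :
    |J (r + d) Z (fun z => oV z * F.pull τ oU z) (K (hh * a ^ m * b ^ m))| =
      |J r (Z ∩ τ ⁻¹' {u}) oV (F.pull (sl 0) hh)| * (J n S oS (ξ ^ m)) ^ 2 := by
  have hn2 : 2 ≤ n := by rw [hn]; calc 2 ≤ k * 1 := by omega
      _ ≤ k * m := Nat.mul_le_mul_left k hm
  obtain ⟨ζ, sζ, dζ', dζ, e⟩ := exists_prim h hk hm hn hd hτ.base hoS sξ cξ dξ hX
  have hdeg : Hom d (ζ * F.pull Prod.fst ξ ^ m) := by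
    rw [← pull_pow']
    have h1 : d = n - 1 + k * m := by omega
    rw [h1]
    exact dζ'.mul (Hom.pull (hom_pow' dξ m))
  rw [D_tot h.bl hn2 A hφ hc ia ib ih h00 hτ sξ ha0 sζ hdeg dζ hu, abs_neg, abs_mul, e]

theorem D_value' (h : GT.Bla G k) (hk : 2 ≤ k) (hm : 1 ≤ m) (hn : n = k * m)
    (hd : d + 1 = 2 * n) (hoS : Ori n S oS) (sξ : Sm S ξ) (cξ : Cl S ξ) (dξ : Hom k ξ)
    (hX : Coh (GT.FF S) (hF ξ m) 0) (A : Fam Z (CM.gen φ) m a b hh η θ c)
    (hφ : CM.Cir Z φ) (hc : c ≠ 0)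
    (ia : Inv Z φ (F.pull (sl 1) a)) (ib : Inv Z φ (F.pull (sl 1) b))
    (ih : Inv Z φ (F.pull (sl 1) hh)) (h00 : Eqv Z (F.pull (sl 0) a) (F.pull (sl 0) b))
    (hτ : FG.OSubm r d Z (US G) τ oV oU)
    (ha0 : Eqv Z (F.pull (sl 0) a) (F.pull τ (F.pull Prod.fst ξ)))
    {o : H → Ext H} (ho : Ori (r + d) Z o) (hZc : IsPreconnected Z)
    {u : Euc N × Euc N} (hu : u ∈ US G) :
    |J (r + d) Z o (K (hh * a ^ m * b ^ m))| =
      |J r (Z ∩ τ ⁻¹' {u}) oV (F.pull (sl 0) hh)| * (J n S oS (ξ ^ m)) ^ 2 := by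
  rw [← D_value h hk hm hn hd hoS sξ cξ dξ hX A hφ hc ia ib ih h00 hτ ha0 hu]
  rcases J_ori_connected hτ.subm.cloZ hτ.tot ho hZc with e | e
  · rw [e]
  · rw [e, abs_neg]


end fam

section self
variable {n N k : ℕ} {κ : ℝ} {S : Set (Euc N)} {G : Geo n N κ S}
  {oS ξ : Euc N → Ext (Euc N)} {m d : ℕ}
  {oU : Euc N × Euc N → Ext (Euc N × Euc N)} {φ : ℝ → Euc N × Euc N → Euc N × Euc N}
  {a b η : (Euc N × Euc N) × ℝ → Ext ((Euc N × Euc N) × ℝ)}
  {θ : Euc N × Euc N → Ext (Euc N × Euc N)} {c : ℝ}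

/-- the case `Z = US`, `h = 1` (`k = 2`) -/
theorem D_self (h : GT.Bla G k) (hk : 2 ≤ k) (hm : 1 ≤ m) (hn : n = k * m)
    (hd : d + 1 = 2 * n) (ho : Ori d (US G) oU) (hoS : Ori n S oS) (sξ : Sm S ξ) (cξ : Cl S ξ)
    (dξ : Hom k ξ) (hX : Coh (GT.FF S) (hF ξ m) 0) (A : Fam (US G) (CM.gen φ) m a b 1 η θ c)
    (hφ : CM.Cir (US G) φ) (hc : c ≠ 0)
    (ia : Inv (US G) φ (F.pull (sl 1) a)) (ib : Inv (US G) φ (F.pull (sl 1) b))
    (h00 : Eqv (US G) (F.pull (sl 0) a) (F.pull (sl 0) b))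
    (ha0 : Eqv (US G) (F.pull (sl 0) a) (F.pull Prod.fst ξ)) :
    |J d (US G) oU (K (1 * a ^ m * b ^ m))| = (J n S oS (ξ ^ m)) ^ 2 := by
  have hcl : Clo d (US G) := LB.clo_US (FV.sub_S h.bl) h.bl.cpt hd
  obtain ⟨ζ, sζ, dζ', dζ, e⟩ := exists_prim h hk hm hn hd ho hoS sξ cξ dξ hX
  have ih : Inv (US G) φ (F.pull (sl 1) (1 : (Euc N × Euc N) × ℝ → Ext ((Euc N × Euc N) × ℝ))) := by
    rw [pull_one']; exact Inv.one
  obtain ⟨κ', sκ, dκ, e1⟩ := A.rr2 hcl ho hφ hc ia ib ih h00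
  set a0 := F.pull (sl 0) a with ha0'
  have sa0 : Sm (US G) a0 := A.sa.pull (smap_sl 0)
  have ea0 : Ev (US G) a0 := Ev.pull (smap_sl 0) A.ea
  have hm0 : ((m : ℝ) + 1) ≠ 0 := by positivity
  have hP : Eqv (US G) (a0 ^ m) (F.pull Prod.fst ξ ^ m) := eqv_iff.2 fun x hx => by
    have e := eqv_iff.1 ha0 x hx
    simp only [rs_pow]
    rw [e]
  have dT : Eqv (US G) (F.d ζ) ((m + 1 : ℝ) • a0 ^ m) := dζ.trans ((hP.symm).smul _)
  have dκ1 : Eqv (US G) (F.d κ') (F.d ζ) := by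
    refine dκ.trans (Eqv.trans ?_ dT.symm)
    rw [pull_one', one_mul]
    exact Eqv.refl _
  have dζ'' : Eqv (US G) (F.d (((m : ℝ) + 1)⁻¹ • ζ)) (a0 ^ m) := by
    refine (d_smul_eqv _ sζ).trans ?_
    have := dT.smul ((m : ℝ) + 1)⁻¹
    rwa [smul_smul, inv_mul_cancel₀ hm0, one_smul] at this
  have e2 := D_unique hcl ho sκ sζ (sζ.smul _) (Sm.pow sa0 m) dκ1 dζ'' (Ev.pow ea0 m)
  rw [e1, e2, abs_neg, ← e]
  congr 1
  refine J_eqv hcl (eqv_iff.2 fun x hx => ?_)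
  have e := eqv_iff.1 hP x hx
  simp only [rs_mul] at *
  rw [e]

/-- **`Z = US`, `h = 1`, with `rr1`** -/
theorem J_self (h : GT.Bla G k) (hk : 2 ≤ k) (hm : 1 ≤ m) (hn : n = k * m)
    (hd : d + 1 = 2 * n) (ho : Ori d (US G) oU) (hoS : Ori n S oS) (sξ : Sm S ξ) (cξ : Cl S ξ)
    (dξ : Hom k ξ) (hX : Coh (GT.FF S) (hF ξ m) 0) (A : Fam (US G) (CM.gen φ) m a b 1 η θ c)
    (hφ : CM.Cir (US G) φ) (hc : c ≠ 0)
    (ia : Inv (US G) φ (F.pull (sl 1) a)) (ib : Inv (US G) φ (F.pull (sl 1) b))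
    (h00 : Eqv (US G) (F.pull (sl 0) a) (F.pull (sl 0) b))
    (ha0 : Eqv (US G) (F.pull (sl 0) a) (F.pull Prod.fst ξ)) :
    |J d (US G) oU (θ * F.d θ ^ (2 * m - 1))| =
      ((2 * m).choose m : ℝ) * (J n S oS (ξ ^ m)) ^ 2 := by
  have hcl : Clo d (US G) := LB.clo_US (FV.sub_S h.bl) h.bl.cpt hd
  have h1 := A.rr1 hcl ho hm
  rw [pull_one', one_pow, mul_one] at h1
  rw [h1, abs_mul, abs_mul, abs_pow, abs_neg, abs_one, one_pow, one_mul, Nat.abs_cast,
    D_self h hk hm hn hd ho hoS sξ cξ dξ hX A hφ hc ia ib h00 ha0]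

end self

end Crest.Agent.R208.KD
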