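import Crest.Agent.R208.RR6
import Crest.Agent.R208.SO2
import Crest.Agent.R208.CM3d
import Crest.Agent.R208.CG1
import Crest.Agent.R208.KD1
import Crest.Agent.R208.KC2
import Crest.Agent.R208.CG6_Mg
import Crest.Agent.R208.FM1
import Crest.Agent.R208.CBN1

-- ▼ part R208/KP1
section

/-! Row 208, block RR (helper545), part KP1: **the CM half** of the family (any even `k`):
contraction data with a flip, basic forms, the structure `RR.Pre`. -/

set_option autoImplicit false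
set_option linter.unusedSectionVars false
set_option linter.unusedVariables false

open MeasureTheory Set Filter Topology Module
open scoped ContDiff
open Crest.Agent.R208.F Crest.Agent.R208.FI Crest.Agent.R208.CW Crest.Agent.R208.T
open Crest.Agent.R208.RR

noncomputable section

namespace Crest.Agent.R208.KP


variable {E : Type} [NormedAddCommGroup E] [NormedSpace ℝ E] [FiniteDimensional ℝ E]
  {F' : Type} [NormedAddCommGroup F'] [NormedSpace ℝ F'] [FiniteDimensional ℝ F']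
  {Z : Set E} {S : Set F'} {φ : ℝ → E → E} {p : E → F'} {A B : E × ℝ → F'} {f : E → E}
  {ξ : F' → Ext F'} {θ W β μ : E → Ext E} {m d : ℕ}

/-- a contraction: smooth family starting at the foot point, with orbit-constant end -/
structure Ctr (Z : Set E) (S : Set F') (φ : ℝ → E → E) (p : E → F') (A : E × ℝ → F') : Prop where
  smap : SMap (Cyl Z) S A
  zero : ∀ x ∈ Z, A (x, 0) = p x
  one : ∀ x ∈ Z, ∀ t, A (φ t x, 1) = A (x, 1)

/-- an equivariant involution over the foot point -/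
structure Flp (Z : Set E) (φ : ℝ → E → E) (p : E → F') (f : E → E) : Prop where
  smap : SMap Z Z f
  act : ∀ x ∈ Z, ∀ t, f (φ t x) = φ t (f x)
  foot : ∀ x ∈ Z, p (f x) = p x
  inv : ∀ x ∈ Z, f (f x) = x

/-- basic closed even forms -/
structure Bas (Z : Set E) (φ : ℝ → E → E) (W : E → Ext E) : Prop where
  sm : Sm Z W
  cl : Cl Z W
  ev : Ev Z W
  hz : Hz Z (CM.gen φ) W
  inv : Inv Z φ W

/-- connection forms -/
structure Thd (Z : Set E) (φ : ℝ → E → E) (θ : E → Ext E) : Prop where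
  sm : Sm Z θ
  one : ∀ x ∈ Z, Rs Z x (ii (CM.gen φ x) (θ x)) = 1
  hz : Hz Z (CM.gen φ) (F.d θ)

/-- `(x, s) ↦ (f x, s)` -/
def ff (f : E → E) (y : E × ℝ) : E × ℝ := (f y.1, y.2)

theorem smap_ff (hf : SMap Z Z f) : SMap (Cyl Z) (Cyl Z) (ff f) :=
  ⟨fun y hy => ((hf.1 _ (mem_Cyl.1 hy)).comp y contDiffAt_fst).prodMk contDiffAt_snd,
    fun y hy => mem_Cyl.2 (hf.2 (mem_Cyl.1 hy))⟩

theorem Ctr.flip (hA : Ctr Z S φ p A) (hf : Flp Z φ p f) : Ctr Z S φ p (fun y => A (ff f y)) where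
  smap := hA.smap.comp (smap_ff hf.smap)
  zero := fun x hx => (hA.zero _ (hf.smap.2 hx)).trans (hf.foot x hx)
  one := fun x hx t => by
    change A (f (φ t x), 1) = A (f x, 1)
    rw [hf.act x hx t]
    exact hA.one _ (hf.smap.2 hx) t

/-- maps constant on the orbits -/
theorem fderiv_gen_zero (hφ : CM.Cir Z φ) {g : E → F'} (hg : SMap Z S g)
    (hc : ∀ x ∈ Z, ∀ t, g (φ t x) = g x) {x : E} (hx : x ∈ Z) : fderiv ℝ g x (CM.gen φ x) = 0 := by
  have h1 := hφ.hasDerivAt hx 0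
  have h2 : HasFDerivAt g (fderiv ℝ g (φ 0 x)) (φ 0 x) :=
    ((hg.1 _ (hφ.maps 0 hx)).differentiableAt (by simp)).hasFDerivAt
  have h3 : HasDerivAt (fun s => g (φ s x)) (fderiv ℝ g (φ 0 x) (CM.gen φ (φ 0 x))) 0 :=
    h2.comp_hasDerivAt 0 h1
  have h4 : (fun s => g (φ s x)) = fun _ => g x := funext fun s => hc x hx s
  rw [h4] at h3
  have h5 := h3.unique (hasDerivAt_const 0 (g x))
  rwa [hφ.zero x hx] at h5

theorem hz_pull (hφ : CM.Cir Z φ) {g : E → F'} (hg : SMap Z S g)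
    (hc : ∀ x ∈ Z, ∀ t, g (φ t x) = g x) (w : F' → Ext F') : Hz Z (CM.gen φ) (F.pull g w) := by
  intro x hx
  have e : ((fderiv ℝ g x : E →L[ℝ] F') : E →ₗ[ℝ] F') (CM.gen φ x) = 0 :=
    fderiv_gen_zero hφ hg hc hx
  rw [F.pull, ii_pb, e, map_zero, LinearMap.zero_apply, map_zero, map_zero]

theorem inv_pull (hφ : CM.Cir Z φ) {g : E → F'} (hg : SMap Z S g)
    (hc : ∀ x ∈ Z, ∀ t, g (φ t x) = g x) (w : F' → Ext F') : Inv Z φ (F.pull g w) := fun t =>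
  eqv_pull_pull (⟨fun x hx => hφ.smooth_right t hx, hφ.maps t⟩ : SMap Z Z (φ t)) hg hg
    (fun x hx => hc x hx t) w

/-- basic forms from the quotient -/
theorem Bas.pull (hφ : CM.Cir Z φ) {g : E → F'} (hg : SMap Z S g)
    (hc : ∀ x ∈ Z, ∀ t, g (φ t x) = g x) {w : F' → Ext F'} (sw : Sm S w) (cw : Cl S w)
    (ew : Ev S w) : Bas Z φ (F.pull g w) :=
  ⟨sw.pull hg, Cl.pull hg sw cw, Ev.pull hg ew, hz_pull hφ hg hc w, inv_pull hφ hg hc w⟩

theorem ev_of_hom {S : Set F'} {w : F' → Ext F'} {k : ℕ} (h : Hom k w) (hk : Even k) : Ev S w :=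
  Eqv.of_eq fun x _ => SO.inv_of_hom_even h hk x

theorem Thd.of (hφ : CM.Cir Z φ) (ha : CM.Conn Z φ θ) {q : E → F'} (hq : SMap Z S q)
    (hc : ∀ x ∈ Z, ∀ t, q (φ t x) = q x) {Fc : F' → Ext F'}
    (hF : Eqv Z (F.d θ) (F.pull q Fc)) : Thd Z φ θ :=
  ⟨ha.sm, fun x hx => by rw [ha.unit x hx, map_one],
    Hz.eqv (fun x hx => hφ.gen_mem hx) hF (hz_pull hφ hq hc Fc)⟩

/-- slices -/
theorem sl_pull (hA : SMap (Cyl Z) S A) (s : ℝ) (w : F' → Ext F') :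
    Eqv Z (F.pull (sl s) (F.pull A w)) (F.pull (fun x => A (x, s)) w) :=
  eqv_pull_pull (smap_sl s) hA (hA.comp (smap_sl s)) (fun _ _ => rfl) w

theorem Ctr.smap_one (hA : Ctr Z S φ p A) (s : ℝ) : SMap Z S (fun x => A (x, s)) :=
  hA.smap.comp (smap_sl s)

theorem Ctr.sl_zero (hA : Ctr Z S φ p A) (hp : SMap Z S p) (w : F' → Ext F') :
    Eqv Z (F.pull (sl 0) (F.pull A w)) (F.pull p w) :=
  (sl_pull hA.smap 0 w).trans (eqv_pull_of_eq w
    (fun x hx => ((hA.smap_one 0).1 x hx).differentiableAt (by simp))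
    (fun x hx => (hp.1 x hx).differentiableAt (by simp)) hA.zero)

/-- the forms `h = W`, constant in `s` -/
theorem sl_fst (s : ℝ) (sW : Sm Z W) : Eqv Z (F.pull (sl s) (F.pull Prod.fst W)) W :=
  Eqv.of_eq fun x hx => pull_sl_fst s W sW hx

theorem Inv.eqv' (hφ : CM.Cir Z φ) {a b : E → Ext E} (h : Eqv Z a b) (hb : Inv Z φ b) :
    Inv Z φ a := fun t =>
  (Eqv.pull (⟨fun x hx => hφ.smooth_right t hx, hφ.maps t⟩ : SMap Z Z (φ t)) h).trans
    ((hb t).trans h.symm)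

/-- **(2a)** the input structure `Pre` -/
theorem pre (hφ : CM.Cir Z φ) (hp : SMap Z S p) (hA : Ctr Z S φ p A) (hB : Ctr Z S φ p B)
    (sξ : Sm S ξ) (cξ : Cl S ξ) (eξ : Ev S ξ) (x0 : Eqv S (ξ ^ (m + 1)) 0) (hW : Bas Z φ W)
    (hθ : Thd Z φ θ) :
    Pre Z φ m (F.pull A ξ) (F.pull B ξ) (F.pull Prod.fst W) θ where
  cir := hφ
  sa := sξ.pull hA.smap
  sb := sξ.pull hB.smap
  sh := hW.sm.pull smap_fst
  sθ := hθ.sm
  ca := Cl.pull hA.smap sξ cξ
  cb := Cl.pull hB.smap sξ cξ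
  ch := Cl.pull smap_fst hW.sm hW.cl
  ea := Ev.pull hA.smap eξ
  eb := Ev.pull hB.smap eξ
  eh := Ev.pull smap_fst hW.ev
  a0 := by
    have := Eqv.pull hA.smap x0
    rwa [pull_zero', RR.pull_pow'] at this
  b0 := by
    have := Eqv.pull hB.smap x0
    rwa [pull_zero', RR.pull_pow'] at this
  h00 := (hA.sl_zero hp ξ).trans (hB.sl_zero hp ξ).symm
  a1 := Hz.eqv (fun x hx => hφ.gen_mem hx) (sl_pull hA.smap 1 ξ)
    (hz_pull hφ (hA.smap_one 1) hA.one ξ)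
  b1 := Hz.eqv (fun x hx => hφ.gen_mem hx) (sl_pull hB.smap 1 ξ)
    (hz_pull hφ (hB.smap_one 1) hB.one ξ)
  h1 := Hz.eqv (fun x hx => hφ.gen_mem hx) (sl_fst 1 hW.sm) hW.hz
  ia := Inv.eqv' hφ (sl_pull hA.smap 1 ξ) (inv_pull hφ (hA.smap_one 1) hA.one ξ)
  ib := Inv.eqv' hφ (sl_pull hB.smap 1 ξ) (inv_pull hφ (hB.smap_one 1) hB.one ξ)
  ih := Inv.eqv' hφ (sl_fst 1 hW.sm) hW.inv
  θ1 := hθ.one
  dθ := hθ.hz

/-! ### (2b) horizontal primitives -/

/-- the orbit average of a primitive has constant vertical part -/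
theorem exists_const_prim (hφ : CM.Cir Z φ) (hZ : Sub d Z) (hZc : IsPreconnected Z)
    (hβ : Hz Z (CM.gen φ) β) (sμ : Sm Z μ) (dμ : Hom 1 μ) (h : Eqv Z β (F.d μ)) :
    ∃ (μ₁ : E → Ext E) (c : ℝ), Sm Z μ₁ ∧ Eqv Z β (F.d μ₁) ∧
      ∀ x ∈ Z, Rs Z x (ii (CM.gen φ x) (μ₁ x)) = algebraMap ℝ _ c := by
  have hV : ∀ x ∈ Z, CM.gen φ x ∈ Tan Z x := fun x hx => hφ.gen_mem hx
  have hdμ : Hz Z (CM.gen φ) (F.d μ) := Hz.eqv hV h.symm hβ
  obtain ⟨lam, slam, hlam⟩ := average hφ sμ hdμ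
  have sW := Sm.Wp hφ sμ
  have cW : Cl Z (Wp φ μ) := by
    refine resZero_iff.2 ((d_Wp hφ sμ).trans ?_)
    have h4 := (Wp_zero_of_hz hφ sμ.d hdμ).neg
    rwa [neg_zero] at h4
  obtain ⟨c₀, hc₀⟩ := const_of_closed hZ hZc sW cW (hom_Wp dμ)
  have hπ : (2 * Real.pi) ≠ 0 := by positivity
  refine ⟨μ + F.d lam, c₀ / (2 * Real.pi), sμ.add slam.d, ?_, fun x hx => ?_⟩
  · refine h.trans (Eqv.symm ?_)
    refine (d_add_eqv sμ slam.d).trans ?_
    have h1 := (Eqv.refl (X := Z) (F.d μ)).add (resZero_iff.1 (d_d' slam))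
    rwa [add_zero] at h1
  · have h1 := hlam x hx
    rw [hc₀ x hx, Rs, AlgHom.commutes] at h1
    have h2 : (2 * Real.pi) • Rs Z x (ii (CM.gen φ x) ((μ + F.d lam) x)) =
        (2 * Real.pi) • algebraMap ℝ (Ext (Tan Z x)) (c₀ / (2 * Real.pi)) := by
      rw [Rs, h1, Algebra.algebraMap_eq_smul_one, Algebra.algebraMap_eq_smul_one, smul_smul,
        mul_div_cancel₀ _ hπ]
    exact smul_right_injective _ hπ h2

/-- the vertical part of the pull-back by an equivariant map -/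
theorem ii_flip (hφ : CM.Cir Z φ) (hf : SMap Z Z f) (hact : ∀ x ∈ Z, ∀ t, f (φ t x) = φ t (f x))
    {c : ℝ} (h : ∀ x ∈ Z, Rs Z x (ii (CM.gen φ x) (μ x)) = algebraMap ℝ _ c) {x : E}
    (hx : x ∈ Z) : Rs Z x (ii (CM.gen φ x) (F.pull f μ x)) = algebraMap ℝ _ c := by
  have h1 : fderiv ℝ f x (CM.gen φ x) = CM.gen φ (f x) := by
    have a1 := hφ.hasDerivAt hx 0
    have a2 : HasFDerivAt f (fderiv ℝ f (φ 0 x)) (φ 0 x) :=
      ((hf.1 _ (hφ.maps 0 hx)).differentiableAt (by simp)).hasFDerivAt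
    have a3 : HasDerivAt (fun s => f (φ s x)) (fderiv ℝ f (φ 0 x) (CM.gen φ (φ 0 x))) 0 :=
      a2.comp_hasDerivAt 0 a1
    have a4 : (fun s => f (φ s x)) = fun s => φ s (f x) := funext fun s => hact x hx s
    rw [a4] at a3
    have a5 := a3.unique (hφ.hasDerivAt (hf.2 hx) 0)
    rwa [hφ.zero x hx, hφ.zero _ (hf.2 hx)] at a5
  have hdf : DifferentiableAt ℝ f x := (hf.1 x hx).differentiableAt (by simp)
  have h2 : Rs Z x (pb ((fderiv ℝ f x : E →L[ℝ] E) : E →ₗ[ℝ] E)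
      (ii (CM.gen φ (f x)) (μ (f x)) - algebraMap ℝ _ c)) = 0 := by
    refine pb_pull_eq_zero hdf hf.2 ?_
    rw [map_sub, AlgHom.commutes]
    have := h _ (hf.2 hx)
    rw [Rs] at this
    rw [this, sub_self]
  rw [map_sub, map_sub, sub_eq_zero, AlgHom.commutes, Rs, AlgHom.commutes] at h2
  rw [F.pull, ii_pb]
  have h3 : ((fderiv ℝ f x : E →L[ℝ] E) : E →ₗ[ℝ] E) (CM.gen φ x) = CM.gen φ (f x) := h1
  rw [h3]
  exact h2

/-- **(2b)** antisymmetric basic 2-forms have horizontal primitives -/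
theorem exists_hor_prim (hφ : CM.Cir Z φ) (hf : Flp Z φ p f) (hZ : Sub d Z)
    (hZc : IsPreconnected Z) (hβ : Hz Z (CM.gen φ) β) (hanti : Eqv Z (F.pull f β) (-β))
    (sμ : Sm Z μ) (dμ : Hom 1 μ) (h : Eqv Z β (F.d μ)) :
    ∃ μ' : E → Ext E, Sm Z μ' ∧ Hz Z (CM.gen φ) μ' ∧ Eqv Z β (F.d μ') := by
  obtain ⟨μ₁, c, sμ₁, h1, h2⟩ := exists_const_prim hφ hZ hZc hβ sμ dμ h
  have sf : Sm Z (F.pull f μ₁) := sμ₁.pull hf.smap
  refine ⟨(2 : ℝ)⁻¹ • (μ₁ - F.pull f μ₁), (sμ₁.sub sf).smul _, fun x hx => ?_, ?_⟩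
  · rw [Pi.smul_apply, map_smul, map_smul, Pi.sub_apply, map_sub, map_sub, h2 x hx,
      ii_flip hφ hf.smap hf.act h2 hx, sub_self, smul_zero]
  · refine Eqv.symm ((d_smul_eqv _ (sμ₁.sub sf)).trans ?_)
    have h3 : Eqv Z (F.d (μ₁ - F.pull f μ₁)) (β - -β) :=
      (d_sub_eqv sμ₁ sf).trans (h1.symm.sub ((d_pull_eqv hf.smap sμ₁).trans
        ((Eqv.pull hf.smap h1.symm).trans hanti)))
    have h4 := h3.smul (2 : ℝ)⁻¹
    have h5 : (2 : ℝ)⁻¹ • (β - -β) = β := by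
      rw [sub_neg_eq_add, ← two_smul ℝ β, smul_smul, inv_mul_cancel₀ two_ne_zero, one_smul]
    rwa [h5] at h4

end Crest.Agent.R208.KP
end
end

-- ▼ part R208/KP2
section

/-! Row 208, block RR (helper545), part KP2: antisymmetry under the flip and the existence of the
family for `k = 4`. -/

set_option autoImplicit false
set_option linter.unusedSectionVars false
set_option linter.unusedVariables false

open MeasureTheory Set Filter Topology Module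
open scoped ContDiff
open Crest.Agent.R208.F Crest.Agent.R208.FI Crest.Agent.R208.CW Crest.Agent.R208.T
open Crest.Agent.R208.RR

noncomputable section

namespace Crest.Agent.R208.KP

variable {E : Type} [NormedAddCommGroup E] [NormedSpace ℝ E] [FiniteDimensional ℝ E]
  {F' : Type} [NormedAddCommGroup F'] [NormedSpace ℝ F'] [FiniteDimensional ℝ F']
  {Z : Set E} {S : Set F'} {φ : ℝ → E → E} {p : E → F'} {A B : E × ℝ → F'} {f : E → E}
  {ξ : F' → Ext F'} {θ W β μ κ : E → Ext E} {m d : ℕ}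

theorem smap_Fl (hφ : CM.Cir Z φ) : SMap (Cyl Z) Z (Fl φ) :=
  ⟨fun y hy => contDiffAt_Fl hφ (mem_Cyl.1 hy) y.2, fun y hy => Fl_mem hφ (mem_Cyl.1 hy) y.2⟩

/-- naturality of the orbit integral -/
theorem wp_flip (hφ : CM.Cir Z φ) (hf : SMap Z Z f) (hact : ∀ x ∈ Z, ∀ t, f (φ t x) = φ t (f x))
    (sκ : Sm Z κ) : Eqv Z (F.pull f (Wp φ κ)) (Wp φ (F.pull f κ)) := by
  have hF := smap_Fl hφ
  have hff := smap_ff hf
  have h1 : Eqv Z (F.pull f (Wp φ κ)) (K (E := E) (F.pull (ff f) (F.pull (Fl φ) κ))) :=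
    Eqv.of_eq fun x hx => CG.pull_K (v := F.pull (Fl φ) κ)
      ((hf.1 x hx).differentiableAt (by simp)) (sκ.pull hF) (hf.2 hx)
  have h2 : Eqv (Cyl Z) (F.pull (ff f) (F.pull (Fl φ) κ)) (F.pull (Fl φ) (F.pull f κ)) := by
    have e1 := eqv_pull_pull hff hF (hF.comp hff) (fun _ _ => rfl) κ
    have e2 := eqv_pull_pull hF hf (hF.comp hff) (fun y hy => by
      change f (φ (2 * Real.pi * y.2) y.1) = φ (2 * Real.pi * y.2) (f y.1)
      exact hact _ (mem_Cyl.1 hy) _) κ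
    exact e1.trans e2.symm
  exact h1.trans (K_eqv ((sκ.pull hF).pull hff) ((sκ.pull hf).pull hF) h2)

/-- naturality of the fibre integral -/
theorem k_flip (hf : SMap Z Z f) {w : E × ℝ → Ext (E × ℝ)} (sw : Sm (Cyl Z) w) :
    Eqv Z (F.pull f (K (E := E) w)) (K (E := E) (F.pull (ff f) w)) :=
  Eqv.of_eq fun x hx => CG.pull_K (v := w) ((hf.1 x hx).differentiableAt (by simp)) sw (hf.2 hx)

/-- **antisymmetry** of the orbit integral of the difference -/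
theorem anti (hφ : CM.Cir Z φ) (hA : Ctr Z S φ p A) (hf : Flp Z φ p f) (sξ : Sm S ξ) :
    Eqv Z (F.pull f (Wp φ (K (E := E) (F.pull A ξ - F.pull (fun y => A (ff f y)) ξ))))
      (-(Wp φ (K (E := E) (F.pull A ξ - F.pull (fun y => A (ff f y)) ξ)))) := by
  set a := F.pull A ξ with ha
  set b := F.pull (fun y => A (ff f y)) ξ with hb
  have hB := hA.flip hf
  have hff := smap_ff hf.smap
  have sa : Sm (Cyl Z) a := sξ.pull hA.smap
  have sb : Sm (Cyl Z) b := sξ.pull hB.smap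
  have h1 : Eqv (Cyl Z) (F.pull (ff f) a) b :=
    eqv_pull_pull hff hA.smap hB.smap (fun _ _ => rfl) ξ
  have h2 : Eqv (Cyl Z) (F.pull (ff f) b) a :=
    eqv_pull_pull hff hB.smap hA.smap (fun y hy => by
      change A (f (f y.1), y.2) = A y
      rw [hf.inv _ (mem_Cyl.1 hy)]) ξ
  have h3 : Eqv (Cyl Z) (F.pull (ff f) (a - b)) ((-1 : ℝ) • (a - b)) := by
    rw [pull_sub', neg_one_smul, neg_sub]
    exact h1.sub h2
  have sK := Sm.K (sa.sub sb)
  have h4 : Eqv Z (F.pull f (K (E := E) (a - b))) ((-1 : ℝ) • K (E := E) (a - b)) := by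
    refine (k_flip hf.smap (sa.sub sb)).trans ?_
    rw [← K_smul]
    exact K_eqv ((sa.sub sb).pull hff) ((sa.sub sb).smul _) h3
  refine (wp_flip hφ hf.smap hf.act sK).trans ?_
  refine (Wp_eqv hφ (sK.pull hf.smap) (sK.smul _) h4).trans ?_
  rw [Wp_smul, neg_one_smul]
  exact Eqv.refl _

theorem prim_hom {X : Set E} {b : E → Ext E} {i : ℕ} (h : Coh X b 0) (hd : Hom (i + 1) b) :
    ∃ ζ : E → Ext E, Sm X ζ ∧ Hom i ζ ∧ Eqv X b (F.d ζ) := by
  obtain ⟨ζ, sζ, eζ⟩ := h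
  rw [sub_zero] at eζ
  refine ⟨T.dp i ζ, sζ.dp i, hom_dp i ζ, ?_⟩
  have := eζ.dp (i + 1)
  rw [hd.dp_eq] at this
  exact this.trans (Eqv.of_eq fun y hy => dp_d i (sζ.diff hy))

/-- **(2b), (2d): existence of the family for `k = 4`** -/
theorem exists_fam_four (hφ : CM.Cir Z φ) (hZ : Sub d Z) (hZc : IsPreconnected Z)
    (hp : SMap Z S p) (hA : Ctr Z S φ p A) (hf : Flp Z φ p f) (sξ : Sm S ξ) (cξ : Cl S ξ)
    (dξ : Hom 4 ξ) (x0 : Eqv S (ξ ^ (m + 1)) 0) (hW : Bas Z φ W) (dW : Hom 2 W)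
    (hWf : Eqv Z (F.pull f W) (-W)) (hθ : Thd Z φ θ)
    (hn : ∀ β : E → Ext E, Sm Z β → Cl Z β → Hom 2 β → ∃ c : ℝ, Coh Z β (c • W)) :
    ∃ (c : ℝ) (η : E × ℝ → Ext (E × ℝ)),
      Fam Z (CM.gen φ) m (F.pull A ξ) (F.pull (fun y => A (ff f y)) ξ) (F.pull Prod.fst W) η
        (c • θ) c ∧
      Pre Z φ m (F.pull A ξ) (F.pull (fun y => A (ff f y)) ξ) (F.pull Prod.fst W) θ ∧
      Coh Z (Wp φ (K (E := E) (F.pull A ξ - F.pull (fun y => A (ff f y)) ξ)))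
        ((2 * Real.pi * c) • W) := by
  have hB := hA.flip hf
  have P := pre hφ hp hA hB sξ cξ (ev_of_hom dξ ⟨2, rfl⟩) x0 hW hθ
  set a := F.pull A ξ with ha
  set b := F.pull (fun y => A (ff f y)) ξ with hb
  have sβ : Sm Z (Wp φ (K (E := E) (a - b))) := P.sWK
  have cβ : Cl Z (Wp φ (K (E := E) (a - b))) := P.cl_Wp
  have da : Hom 4 a := Hom.pull dξ
  have db : Hom 4 b := Hom.pull dξ
  have dβ : Hom 2 (Wp φ (K (E := E) (a - b))) := hom_Wp (hom_K (p := 3) (da.sub db))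
  obtain ⟨c₁, hc₁⟩ := hn _ sβ cβ dβ
  have hπ : (2 * Real.pi) ≠ 0 := by positivity
  set c := c₁ / (2 * Real.pi) with hc
  have hcc : 2 * Real.pi * c = c₁ := mul_div_cancel₀ _ hπ
  have hV : ∀ x ∈ Z, CM.gen φ x ∈ Tan Z x := fun x hx => hφ.gen_mem hx
  set γ := Wp φ (K (E := E) (a - b)) - c₁ • W with hγ
  have hγ0 : Coh Z γ 0 := by
    obtain ⟨ζ, sζ, eζ⟩ := hc₁
    exact ⟨ζ, sζ, by rwa [sub_zero]⟩
  obtain ⟨μ, sμ, dμ, eμ⟩ := prim_hom (i := 1) hγ0 (dβ.sub (dW.smul _))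
  have hγz : Hz Z (CM.gen φ) γ := (Wp_hz hφ (Sm.K (P.sa.sub P.sb))).sub (hW.hz.smul _)
  have hanti : Eqv Z (F.pull f γ) (-γ) := by
    rw [hγ, pull_sub', pull_smul', neg_sub]
    have h1 := (anti hφ hA hf sξ).sub (hWf.smul c₁)
    rw [smul_neg, sub_neg_eq_add, neg_add_eq_sub] at h1
    exact h1
  obtain ⟨μ', sμ', zμ', eμ'⟩ := exists_hor_prim hφ hf hZ hZc hγz hanti sμ dμ eμ
  have sμ2 : Sm Z ((2 * Real.pi)⁻¹ • μ') := sμ'.smul _
  have e1 : Eqv Z (F.d ((2 * Real.pi)⁻¹ • μ')) ((2 * Real.pi)⁻¹ • γ) :=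
    (d_smul_eqv _ sμ').trans (eμ'.symm.smul _)
  obtain ⟨η, H⟩ := P.exists_fam (c := c) hZ sμ2 (zμ'.smul _) (by
    have h1 : Eqv Z ((2 * Real.pi) • (c • F.pull (sl 1) (F.pull Prod.fst W) +
        F.d ((2 * Real.pi)⁻¹ • μ'))) ((2 * Real.pi) • (c • W + (2 * Real.pi)⁻¹ • γ)) :=
      (((sl_fst 1 hW.sm).smul c).add e1).smul _
    refine Eqv.symm (h1.trans (Eqv.of_eq fun x _ => ?_))
    rw [smul_add, smul_smul, smul_smul, hcc, mul_inv_cancel₀ hπ, one_smul, hγ, add_sub_cancel])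
  refine ⟨c, η, H, P, ?_⟩
  rw [hcc]
  exact hc₁

end Crest.Agent.R208.KP
end
end

-- ▼ part R208/KP3

/-! Row 208, block RR (helper545), part KP3: the instance on `Z = Sph (US G) PN`: contraction data
of 613's `Af`, the comparison theorem `CG.main`, fibre values. -/

set_option autoImplicit false
set_option linter.unusedSectionVars false
set_option linter.unusedVariables false

open MeasureTheory MeasureTheory.Measure Set Filter Topology Module Metric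
open scoped ContDiff RealInnerProductSpace
open Crest.GeometryTopology.Submanifold
open Crest.Agent.R241.DDefs
open Crest.Agent.R241.D Crest.Agent.R241.D2
open Crest.Agent.R208.F Crest.Agent.R208.FI Crest.Agent.R208.CW Crest.Agent.R208.T

noncomputable section

namespace Crest.Agent.R208.KP

open Crest.Agent.R208.RR (Cyl mem_Cyl smap_fst sl smap_sl Wp Fl Pre Fam Hz Inv Ev J_eqv J_smul'
  K_eqv K_smul Wp_eqv Wp_smul J_sub' J_add' hom_K hom_Wp)
open Crest.Agent.R208.NN (Wt nuP)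
open Crest.Agent.R208.FL (Af D1)
open Crest.Agent.R208.KC (flp)

section inst
variable {n N K k : ℕ} {κ : ℝ} {S : Set (Euc N)} {G : Geo n N κ S}
  {lg : Euc N → Euc N → Euc N} {ρ : Euc N → Euc N} {r C r' Kr B w δ : ℝ}
  {PN : Euc N × Euc N → Wt N K →L[ℝ] Wt N K} {ε E₀ η : ℝ} {J₀ : ℕ}

/-- the action on the sphere bundle -/
theorem cir_Z (h : D1 G k K lg ρ r C r' Kr B w δ PN ε J₀ E₀ η) :
    CM.Cir (T.Sph (L.US G) PN) (FL.Ph G K) :=
  UP.cir_sph (CM.cir_US h.bla.bl h.bla.ty.per) FL.rep_Rt fun x hx t w => h.neg.equi x hx t w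

/-- the foot point -/
def ft {N K : ℕ} (q : (Euc N × Euc N) × Wt N K) : Euc N := q.1.1

theorem smap_ft : SMap (T.Sph (L.US G) PN) S (ft (N := N) (K := K)) :=
  ⟨fun q _ => (contDiff_fst.comp contDiff_fst).contDiffAt, fun q hq => hq.1.1.1.1⟩

theorem ctr_Z (h : D1 G k K lg ρ r C r' Kr B w δ PN ε J₀ E₀ η) :
    Ctr (T.Sph (L.US G) PN) S (FL.Ph G K) ft (Af G lg ρ w J₀ ε) where
  smap := ⟨fun y hy => h.contDiffAt_Af (mem_Cyl.1 hy).1 y.2,
    fun y hy => h.Af_mem (mem_Cyl.1 hy).1 y.2⟩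
  zero := fun x hx => h.Af_zero hx.1 le_rfl
  one := fun x hx t => h.Af_end hx.1 hx.2 (by norm_num) t

theorem flp_Z (h : D1 G k K lg ρ r C r' Kr B w δ PN ε J₀ E₀ η) :
    Flp (T.Sph (L.US G) PN) (FL.Ph G K) (ft (N := N) (K := K)) flp where
  smap := ⟨fun x _ => KC.contDiff_flp.contDiffAt, fun x hx => KC.flp_mem hx⟩
  act := fun x hx t => (KC.Ph_flp t x).symm
  foot := fun x hx => rfl
  inv := fun x hx => KC.flp_flp x

/-- **the comparison** with the rotation family -/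
theorem cg_Z (h : D1 G k K lg ρ r C r' Kr B w δ PN ε J₀ E₀ η) (hkn : k < n)
    {ξ : Euc N → Ext (Euc N)} (sξ : Sm S ξ) (cξ : Cl S ξ) :
    Coh (T.Sph (L.US G) PN)
      (Wp (FL.Ph G K) (RR.K (E := (Euc N × Euc N) × Wt N K) (F.pull (Af G lg ρ w J₀ ε) ξ -
        F.pull (fun y => Af G lg ρ w J₀ ε (ff flp y)) ξ)))
      (-(Wp (FM.phiF h.bla PN) (F.pull Prod.fst (RR.K (E := Euc N × Euc N)
        (F.pull (RRC.EE G) ξ))))) := by
  have hA := ctr_Z h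
  have hB := hA.flip (flp_Z h)
  have hφ := cir_Z h
  have hφ' := FM.cir_phiF h.bla h.neg hkn
  obtain ⟨cA, cB, hc⟩ := KC.exists_centres h hkn
  have hP : SMap (T.Sph (L.US G) PN) (L.US G) (Prod.fst : (Euc N × Euc N) × Wt N K → Euc N × Euc N) :=
    ⟨fun q _ => contDiffAt_fst, fun q hq => hq.1.1⟩
  have h1 := CG.main (Z := T.Sph (L.US G) PN) (P := Prod.fst) (w := RK.dir h.bla PN)
    (A := Af G lg ρ w J₀ ε) (B := fun y => Af G lg ρ w J₀ ε (ff flp y)) (cA := cA) (cB := cB)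
    h.bla hP hφ hφ' (fun x hx t => rfl) (fun x hx t => rfl)
    (fun x hx => by
      rw [Exp_smul G hx.1.1.1.1 hx.1.1.1.2]
      exact RK.dir_mem h.bla hkn hx.1.1 hx.1.2)
    (fun x hx => FM.norm_dir' h.bla h.neg hkn hx)
    (fun x hx => RK.inner_dir_v h.bla hkn hx.1.1 hx.1.2) sξ cξ hA.smap hB.smap
    ⟨fun y hy => ((hc _ (mem_Cyl.1 hy)).1 y.2).1, fun y hy => ((hc _ (mem_Cyl.1 hy)).1 y.2).2⟩
    ⟨fun y hy => ((hc _ (mem_Cyl.1 hy)).2.1 y.2).1, fun y hy => ((hc _ (mem_Cyl.1 hy)).2.1 y.2).2⟩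
    hA.zero hB.zero hA.one hB.one (fun x hx => (hc x hx).2.2.1 0 le_rfl)
    (fun x hx => (hc x hx).2.2.2.1 0 le_rfl)
    (fun x hx t s hs => (hc x hx).2.2.2.2.1 s hs.1 t)
    (fun x hx t s hs => (hc x hx).2.2.2.2.2 s hs.1 t)
  have sa : Sm (Cyl (T.Sph (L.US G) PN)) (F.pull (Af G lg ρ w J₀ ε) ξ) := sξ.pull hA.smap
  have sb : Sm (Cyl (T.Sph (L.US G) PN)) (F.pull (fun y => Af G lg ρ w J₀ ε (ff flp y)) ξ) :=
    sξ.pull hB.smap
  have sKa := RR.Sm.K sa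
  have sKb := RR.Sm.K sb
  have e1 : Eqv (T.Sph (L.US G) PN)
      (Wp (FL.Ph G K) (RR.K (E := (Euc N × Euc N) × Wt N K) (F.pull (Af G lg ρ w J₀ ε) ξ -
        F.pull (fun y => Af G lg ρ w J₀ ε (ff flp y)) ξ)))
      (Wp (FL.Ph G K) (RR.K (E := (Euc N × Euc N) × Wt N K) (F.pull (Af G lg ρ w J₀ ε) ξ)) -
        Wp (FL.Ph G K) (RR.K (E := (Euc N × Euc N) × Wt N K)
          (F.pull (fun y => Af G lg ρ w J₀ ε (ff flp y)) ξ))) := by
    refine (Wp_eqv hφ (RR.Sm.K (sa.sub sb)) (sKa.sub sKb) (CG.K_sub_eqv sa sb)).trans ?_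
    exact Eqv.of_eq fun x hx => RR.Wp_sub hφ sKa sKb hx
  -- the rotation family is pulled back from `US`
  have sE : Sm (Cyl (L.US G)) (F.pull (RRC.EE G) ξ) := sξ.pull RRC.smap_EE
  have sKE := RR.Sm.K sE
  have hti : SMap (Cyl (T.Sph (L.US G) PN)) (Cyl (L.US G))
      (CG.fx (Prod.fst : (Euc N × Euc N) × Wt N K → Euc N × Euc N) fun t => t) :=
    ⟨fun y hy => ((contDiff_fst.comp contDiff_fst).prodMk contDiff_snd).contDiffAt,
      fun y hy => mem_Cyl.2 (hP.2 (mem_Cyl.1 hy))⟩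
  have e2 : Eqv (T.Sph (L.US G) PN)
      (RR.K (E := (Euc N × Euc N) × Wt N K) (F.pull (fun y : ((Euc N × Euc N) × Wt N K) × ℝ =>
        Exp G (Prod.fst y.1).1 ((Real.pi * y.2) • (Prod.fst y.1).2)) ξ))
      (F.pull Prod.fst (RR.K (E := Euc N × Euc N) (F.pull (RRC.EE G) ξ))) := by
    have a1 : Eqv (Cyl (T.Sph (L.US G) PN))
        (F.pull (CG.fx (Prod.fst : (Euc N × Euc N) × Wt N K → Euc N × Euc N) fun t => t)
          (F.pull (RRC.EE G) ξ))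
        (F.pull (fun y : ((Euc N × Euc N) × Wt N K) × ℝ =>
          Exp G (Prod.fst y.1).1 ((Real.pi * y.2) • (Prod.fst y.1).2)) ξ) :=
      eqv_pull_pull hti RRC.smap_EE (RRC.smap_EE.comp hti) (fun _ _ => rfl) ξ
    refine Eqv.symm (Eqv.trans (Eqv.of_eq fun x hx => CG.pull_K
      (v := F.pull (RRC.EE G) ξ) differentiableAt_fst sE (hP.2 hx)) ?_)
    exact K_eqv (sE.pull hti) (sξ.pull (RRC.smap_EE.comp hti)) a1
  have sE' : Sm (Cyl (T.Sph (L.US G) PN)) (F.pull (fun y : ((Euc N × Euc N) × Wt N K) × ℝ =>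
        Exp G (Prod.fst y.1).1 ((Real.pi * y.2) • (Prod.fst y.1).2)) ξ) :=
    sξ.pull (RRC.smap_EE.comp hti)
  have e3 := Wp_eqv hφ' (RR.Sm.K sE') (sKE.pull hP) e2
  exact (Coh.of_eqv e1).trans (h1.trans (Coh.of_eqv e3.neg))

end inst

/-! ### fibre values -/

section fib
variable {E B : Type} [NormedAddCommGroup E] [NormedSpace ℝ E] [FiniteDimensional ℝ E]
  [NormedAddCommGroup B] [NormedSpace ℝ B] [FiniteDimensional ℝ B]
  {Z : Set E} {X : Set B} {τ : E → B} {oV : E → Ext E} {oX : B → Ext B} {r d : ℕ}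

/-- integrals over the fibres only see cohomology classes -/
theorem J_fibre_coh (hτ : FG.OSubm r d Z X τ oV oX) {a b : E → Ext E} (sa : Sm Z a) (sb : Sm Z b)
    (h : Coh Z a b) (u : B) : J r (Z ∩ τ ⁻¹' {u}) oV a = J r (Z ∩ τ ⁻¹' {u}) oV b :=
  RI.J_coh (hτ.subm.clo_fibre u) (hτ.fib u) (fun x hx => sa x hx.1) (fun x hx => sb x hx.1)
    (h.mono inter_subset_left)

end fib

end Crest.Agent.R208.KP
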