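import Crest.Agent.R208.GP4a
import Crest.Agent.R208.GP2d
import Crest.Agent.R208.T3c
import Crest.Agent.R208.T2d

-- ▼ part R208/GP2e

/-! Row 208, block GP (helper198), part GP2e: instances `Polar`, `Tube` of block T for `S`, `C_p`;
cohomology of the unit sphere of `T_p S`; (B4') without hypotheses for `n` even. -/

set_option autoImplicit false
set_option linter.unusedSectionVars false

open MeasureTheory Measure Set Filter Topology Module Metric
open scoped ContDiff RealInnerProductSpace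
open Crest.GeometryTopology.Submanifold
open Crest.Agent.R241.DDefs
open Crest.Agent.R241.D2
open Crest.Agent.R208.F Crest.Agent.R208.FI
open Crest.Agent.R208.CW (SMap SMap.id SMap.comp)
open Crest.Agent.R208.T (Eqv Sm Cl Coh Hom Sph)

noncomputable section

namespace Crest.Agent.R208.GP

variable {n N k : ℕ} {κ : ℝ} {S : Set (Euc N)} {G : Geo n N κ S} {p q x v : Euc N}

/-- **Polar instance** -/
theorem exists_polar (hB : Bl n N κ S G Real.pi) (hp : p ∈ S) {r : ℝ} (hr0 : 0 < r)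
    (hr : r < Real.pi) : ∃ (U : Set (Euc N)) (Λ : Euc N → Euc N × Euc N),
      T.Polar S p U (G.P p) r (Psi G) Λ ∧ (∀ y ∈ S, y ∈ U ↔ intrinsicDist S p y < r) ∧
      ∀ y ∈ S ∩ U, ‖(Λ y).2‖ = intrinsicDist S p y := by
  obtain ⟨L, hL1, hL2⟩ := exists_log hB hp hr
  obtain ⟨U, hU, hUe⟩ := continuousOn_iff'.1 (continuousOn_dist_left hB hp) (Iio r) isOpen_Iio
  have hUr : ∀ y ∈ S, y ∈ U ↔ intrinsicDist S p y < r := by
    intro y hy
    constructor
    · intro h
      have : y ∈ U ∩ S := ⟨h, hy⟩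
      rw [← hUe] at this
      exact this.1
    · intro h
      have : y ∈ (fun y => intrinsicDist S p y) ⁻¹' Iio r ∩ S := ⟨h, hy⟩
      rw [hUe] at this
      exact this.1
  refine ⟨U, fun y => (p, L y), ⟨hp, hU, ?_, hr0, ?_, ?_, ?_, ?_⟩, hUr, ?_⟩
  · rw [hUr p hp, intrinsicDist_self hp]; exact hr0
  · refine ⟨fun z hz => ?_, fun z hz => ?_⟩
    · have h1 : z.1 = p := hz.1.1
      have h2 : z.2 ∈ G.T p := (P_eq_self G hp).2 hz.1.2
      exact contDiffAt_Psi ⟨by rw [h1]; exact hp, by rw [h1]; exact h2⟩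
    · have h1 : z.1 = p := hz.1.1
      have h2 : z.2 ∈ G.T p := (P_eq_self G hp).2 hz.1.2
      have h3 : ‖z.2‖ < r := hz.2
      have h4 := Exp_mem G hp h2
      have h5 : Psi G z = Exp G p z.2 := by rw [Psi, h1]
      rw [h5]
      exact ⟨h4, (hUr _ h4).2 (by rw [hB.dist_Exp hp h2 (h3.le.trans hr.le)]; exact h3)⟩
  · refine ⟨fun y hy => ?_, fun y hy => ?_⟩
    · exact contDiffAt_const.prodMk (hL1 y hy.1 ((hUr y hy.1).1 hy.2).le)
    · obtain ⟨h1, h2, -⟩ := hL2 y hy.1 ((hUr y hy.1).1 hy.2).le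
      refine ⟨⟨rfl, (P_eq_self G hp).1 h1⟩, ?_⟩
      change ‖L y‖ < r
      rw [h2]; exact (hUr y hy.1).1 hy.2
  · intro y hy
    exact (hL2 y hy.1 ((hUr y hy.1).1 hy.2).le).2.2
  · intro z hz hzr
    have h1 : z.1 = p := hz.1
    have h2 : z.2 ∈ G.T p := (P_eq_self G hp).2 hz.2
    have h5 : Psi G z = Exp G p z.2 := by rw [Psi, h1]
    rw [h5]
    constructor
    · intro h
      have h6 := hB.dist_Exp hp h2 (hzr.le.trans hr.le)
      rw [h, intrinsicDist_self hp] at h6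
      exact norm_eq_zero.1 h6.symm
    · intro h
      rw [h, Exp_zero G hp]
  · intro y hy
    exact (hL2 y hy.1 ((hUr y hy.1).1 hy.2).le).2.1

/-- **Tube instance** -/
theorem exists_Tube (hB : Bl n N κ S G Real.pi) (hT : I.Typ G k) (hS : Sub n S) (hp : p ∈ S) :
    ∃ Gt : Euc N → Euc N × Euc N,
      T.Tube S (Cut S p) p (PC hB hT hS p) Real.pi (Psi G) Gt ∧
      (∀ x ∈ S \ {p}, ‖(Gt x).2‖ = Real.pi - intrinsicDist S p x) := by
  obtain ⟨Gt, h1, h2, h3, h4, h5, h6⟩ := exists_Gt hB hT hS hp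
  have h3π : (0 : ℝ) < Real.pi - 3 := by linarith [Real.pi_gt_three]
  obtain ⟨U, Λ, h7, h8, -⟩ := exists_polar (G := G) hB hp h3π (by linarith)
  refine ⟨Gt, ⟨fun q hq => ⟨hq.1, ne_of_Cut hB hp hq⟩, h1, h2, h3, fun q hq => Exp_zero G hq.1, h5,
    U, h7.oU, h7.pU, fun q hq hqp => ?_⟩, h6⟩
  rw [h6 q ⟨hq.1, hqp⟩]
  have := (h8 q hq.1).1 hq.2
  linarith



end Crest.Agent.R208.GP
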