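import Crest.Agent.R208.RI1
import Crest.Agent.R208.GP2e
import Crest.Agent.R208.RR5
import Crest.Agent.R208.T2b

-- ▼ part R208/RI2
section

/-! Row 208, block RI (helper545), part RI2: the integral of a closed `k`-form `ξ` of `S`, which restricts
to (a multiple of) the Euler form of the normal bundle of every cut locus, over a smooth image of a
closed `k`-manifold is an integral multiple of the universal unit. -/

set_option autoImplicit false
set_option linter.unusedSectionVars false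

open MeasureTheory Measure Set Filter Topology Module Metric
open scoped ContDiff RealInnerProductSpace
open Crest.GeometryTopology.Submanifold
open Crest.Agent.R241.DDefs
open Crest.Agent.R241.D2
open Crest.Agent.R208.F Crest.Agent.R208.FI
open Crest.Agent.R208.CW (SMap SMap.id SMap.comp)
open Crest.Agent.R208.T (Eqv Sm Cl Coh Hom Sph Tube eR)
open Crest.Agent.R208.GP (PC Cut)

noncomputable section

namespace Crest.Agent.R208.RI

section J
variable {E : Type*} [NormedAddCommGroup E] [NormedSpace ℝ E] [FiniteDimensional ℝ E]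
  {X : Set E} {d : ℕ} {o a b : E → Ext E}

theorem Sm.cont (h : Sm X a) : ContinuousOn a X := fun x hx => (h x hx).continuousAt.continuousWithinAt

/-- cohomologous forms have the same integral -/
theorem J_coh (hX : Clo d X) (ho : Ori d X o) (ha : Sm X a) (hb : Sm X b) (h : Coh X a b) :
    J d X o a = J d X o b := by
  obtain ⟨ξ, hξ, he⟩ := h
  have hβ : ∀ x ∈ X, ContDiffAt ℝ 1 ξ x := fun x hx => (hξ x hx).of_le (by exact_mod_cast le_top)
  have h2 := J_d hX ho hβ
  have h4 : J d X o (fun x => a x - b x - F.d ξ x) = 0 :=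
    J_eq_zero hX fun x hx w hw => he.evA hx hw
  have h5 := J_sub hX ho (om := fun x => a x - b x) ((Sm.cont ha).sub (Sm.cont hb)) (continuousOn_d hβ)
  rw [h5, J_sub hX ho (Sm.cont ha) (Sm.cont hb), h2, sub_zero] at h4
  exact sub_eq_zero.1 h4

end J

section abs
universe u
variable {E E' : Type u} [NormedAddCommGroup E] [NormedSpace ℝ E] [FiniteDimensional ℝ E]
  [NormedAddCommGroup E'] [NormedSpace ℝ E'] [FiniteDimensional ℝ E']
  {ι n : Type*} [Fintype ι] [DecidableEq ι] [Fintype n] [DecidableEq n]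
  {S C : Set E} {p : E} {ρ : ℝ} {Ψ : E × EuclideanSpace ℝ n → E} {Gt : E → E × EuclideanSpace ℝ n}
  {P : E → EuclideanSpace ℝ n →L[ℝ] EuclideanSpace ℝ n} {W : E → (ι × Fin 2 → n) → ℝ}
  {X : Set E'} {d : ℕ} {oX : E' → Ext E'}


end abs

section inst
variable {n N k : ℕ} {κ : ℝ} {S : Set (Euc N)} {G : Geo n N κ S}


end inst

end Crest.Agent.R208.RI
end
end

-- ▼ part R208/RR6

/-! Row 208, block RR (helper427), part RR6: the constant for 2-forms; the final theorem with two
families; comparison of the constants. -/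

set_option autoImplicit false
set_option linter.unusedSectionVars false
set_option linter.unusedVariables false

open MeasureTheory Set Filter Topology Module
open scoped ContDiff
open Crest.Agent.R208.F Crest.Agent.R208.FI Crest.Agent.R208.CW Crest.Agent.R208.T

noncomputable section

namespace Crest.Agent.R208.RR

universe u
variable {E : Type u} [NormedAddCommGroup E] [NormedSpace ℝ E] [FiniteDimensional ℝ E]
  {d : ℕ} {Z : Set E} {o : E → Ext E} {x : E} {φ φ' : ℝ → E → E}
  {w : E × ℝ → Ext (E × ℝ)} {m : ℕ} {a b h η a' b' h' η' : E × ℝ → Ext (E × ℝ)}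
  {θ θ' κ μ μ' : E → Ext E} {c c' : ℝ}

theorem hom_K {p : ℕ} (h : Hom (p + 1) w) : Hom p (K w) := fun x => by
  rw [K, hop, I1, intervalIntegral.integral_of_le zero_le_one]
  refine isDeg_integral _ fun t => ?_
  rw [hopg, hopL_apply]
  exact ((h _).ii _).pb _

theorem hom_Wp {p : ℕ} (h : Hom (p + 1) κ) : Hom p (Wp φ κ) := fun x => by
  rw [Wp_apply, intervalIntegral.integral_of_le zero_le_one]
  refine isDeg_integral _ fun t => ?_
  rw [hopL_apply]
  exact (((h.pull) _).ii _).pb _

theorem Wp_zero_of_hz (hφ : CM.Cir Z φ) (hμ : Sm Z μ) (h : Hz Z (CM.gen φ) μ) :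
    Eqv Z (Wp φ μ) 0 := by
  have h1 := Wp_inv hφ hμ 0 (Inv.one (Z := Z) (φ := φ)) fun x hx => by rw [h x hx, zero_smul]
  rwa [mul_zero, zero_smul] at h1

namespace Pre

theorem sWK (P : Pre Z φ m a b h θ) : Sm Z (Wp φ (K (a - b))) :=
  Sm.Wp P.cir (Sm.K (P.sa.sub P.sb))

/-- `Wp φ (K (a - b))` is closed -/
theorem cl_Wp (P : Pre Z φ m a b h θ) : Cl Z (Wp φ (K (a - b))) := by
  have sK : Sm Z (K (a - b)) := Sm.K (P.sa.sub P.sb)
  have hV : ∀ x ∈ Z, CM.gen φ x ∈ Tan Z x := fun x hx => P.cir.gen_mem hx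
  have h1 : Hz Z (CM.gen φ) (F.d (K (a - b))) := by
    refine Hz.eqv hV P.dK ?_
    rw [pull_sub']; exact P.a1.sub P.b1
  have h2 := Wp_zero_of_hz P.cir sK.d h1
  have h3 := d_Wp P.cir sK
  refine resZero_iff.2 (h3.trans ?_)
  have h4 := h2.neg
  rwa [neg_zero] at h4

/-- the constant for 2-forms -/
theorem const0 (P : Pre Z φ m a b h θ) (hZ : Sub d Z) (hc : IsPreconnected Z) (ha : Hom 2 a)
    (hb : Hom 2 b) : ∃ c : ℝ, Eqv Z (Wp φ (K (a - b))) ((2 * Real.pi * c) • (1 : E → Ext E)) := by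
  have h1 : Hom 0 (Wp φ (K (a - b))) := hom_Wp (hom_K (ha.sub hb))
  obtain ⟨c₀, hc₀⟩ := const_of_closed hZ hc P.sWK P.cl_Wp h1
  have hπ : (2 * Real.pi) ≠ 0 := by positivity
  refine ⟨c₀ / (2 * Real.pi), Eqv.of_eq fun x hx => ?_⟩
  rw [hc₀ x hx, mul_div_cancel₀ _ hπ, Pi.smul_apply, Pi.one_apply, Algebra.algebraMap_eq_smul_one]

/-- existence of the family for `h = 1` (2-forms) -/
theorem exists_fam_two (P : Pre Z φ m a b 1 θ) (hZ : Sub d Z)
    (hβ : Eqv Z (Wp φ (K (a - b))) ((2 * Real.pi * c) • (1 : E → Ext E))) :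
    ∃ η, Fam Z (CM.gen φ) m a b 1 η (c • θ) c := by
  refine P.exists_fam hZ (μ := 0) Sm.zero (Hz.zero) ?_
  have h1 : F.d (0 : E → Ext E) = 0 := funext fun x => F.d_const (0 : Ext E) x
  rw [h1, add_zero, pull_one', smul_smul]
  exact hβ

end Pre


/-- the scalar form of the left hand side -/
theorem J_scale (hZ : Clo d Z) (hm : 1 ≤ m) {γ : E → Ext E} (hθ : Sm Z θ) :
    J d Z o ((c • θ) * (F.d (c • θ) ^ (2 * m - 1) * γ)) =
      c ^ (2 * m) * J d Z o (θ * (F.d θ ^ (2 * m - 1) * γ)) := by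
  have h1 : Eqv Z ((c • θ) * (F.d (c • θ) ^ (2 * m - 1) * γ))
      (c ^ (2 * m) • (θ * (F.d θ ^ (2 * m - 1) * γ))) := by
    refine eqv_iff.2 fun x hx => ?_
    have h2 := eqv_iff.1 (d_smul_eqv c hθ) x hx
    have h3 : c ^ (2 * m) = c * c ^ (2 * m - 1) := by
      rw [← pow_succ']; congr 1; omega
    simp only [rs_mul, rs_pow, rs_smul] at *
    rw [h2, smul_pow, smul_mul_assoc, smul_mul_assoc, mul_smul_comm, smul_smul, h3]
  rw [J_eqv hZ h1, J_smul']


end Crest.Agent.R208.RR
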