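import Crest.Agent.R208.VC1

-- ▼ part R208/VC2
section

/-! Row 208, block VC (helper997), part VC2: the algebra of one orbit.  For a continuous curve `w`
of even forms on a vector space `T` and a vector `V` the element `PSI V w`, its naturality, its
invariance under time shifts and the doubling formula `PSI (2V) (w(2·)) = 4 PSI V w`. -/

set_option autoImplicit false
set_option linter.unusedSectionVars false
set_option linter.unusedVariables false

open MeasureTheory Set Filter Topology Module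
open scoped ContDiff
open Crest.Agent.R208.F Crest.Agent.R208.FI Crest.Agent.R208.CW Crest.Agent.R208.T

noncomputable section

namespace Crest.Agent.R208.VC

section alg
variable {T : Type*} [AddCommGroup T] [Module ℝ T]

/-- odd elements have square zero -/
theorem odd_sq {a : Ext T} (h : F.inv a = -a) : a * a = 0 := by
  have h1 := odd_comm h a
  rw [h, neg_mul] at h1
  have h2 : (2 : ℝ) • (a * a) = 0 := by
    rw [two_smul]; nth_rewrite 1 [h1]; exact neg_add_cancel _
  exact (smul_eq_zero.1 h2).resolve_left two_ne_zero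

theorem odd_ii {a : Ext T} (h : F.inv a = a) (v : T) : F.inv (ii v a) = - ii v a := by
  rw [F.inv_ii, h]


theorem odd_odd_odd {a b : Ext T} (h : F.inv a = -a) : a * b * a = 0 := by
  rw [odd_comm h b, mul_assoc, odd_sq h, mul_zero]

end alg

section curve
variable {T : Type*} [NormedAddCommGroup T] [NormedSpace ℝ T] [FiniteDimensional ℝ T]
  {T' : Type*} [NormedAddCommGroup T'] [NormedSpace ℝ T'] [FiniteDimensional ℝ T']
  {V : T} {w : ℝ → Ext T}

/-- the average of the curve -/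
def MM (w : ℝ → Ext T) : Ext T := ∫ r in (0 : ℝ)..1, w r

/-- the weighted average `2π ∫_0^1 (1-τ) ι_V w(s+τ) dτ` -/
def LAM (V : T) (w : ℝ → Ext T) (s : ℝ) : Ext T :=
  ∫ τ in (0 : ℝ)..1, (2 * Real.pi * (1 - τ)) • ii V (w (s + τ))

/-- `∫ (w² + A w) Λ` -/
def YA (V : T) (w : ℝ → Ext T) : Ext T :=
  ∫ s in (0 : ℝ)..1, (w s * w s + MM w * w s) * LAM V w s

/-- the 29-form along one orbit -/
def PSI (V : T) (w : ℝ → Ext T) : Ext T := ii V (MM w) * ii V (YA V w)

theorem continuous_ii (V : T) (hw : Continuous w) : Continuous fun s => ii V (w s) :=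
  (iiL V).continuous.comp hw

theorem continuous_mul' {v w : ℝ → Ext T} (hv : Continuous v) (hw : Continuous w) :
    Continuous fun s => v s * w s := by
  rw [continuous_iff_continuousAt]
  intro s
  have h1 : ContDiffAt ℝ 0 (fun p : Ext T × Ext T => p.1 * p.2) (v s, w s) :=
    F.contDiffAt_mul contDiffAt_fst contDiffAt_snd
  exact h1.continuousAt.comp (f := fun s => (v s, w s)) (hv.prodMk hw).continuousAt

theorem LAM_eq (V : T) (hw : Continuous w) (s : ℝ) :
    LAM V w s = ii V (∫ τ in (0 : ℝ)..1, (2 * Real.pi * (1 - τ)) • w (s + τ)) := by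
  have h1 : IntervalIntegrable (fun τ => (2 * Real.pi * (1 - τ)) • w (s + τ)) volume 0 1 := by
    apply Continuous.intervalIntegrable
    exact (by fun_prop : Continuous fun τ : ℝ => 2 * Real.pi * (1 - τ)).smul
      (hw.comp (by fun_prop))
  have h2 := (iiL V).intervalIntegral_comp_comm h1
  rw [iiL_apply] at h2
  rw [← h2, LAM]
  refine intervalIntegral.integral_congr fun τ _ => ?_
  simp only [iiL_apply, map_smul]

theorem continuous_LAM (V : T) (hw : Continuous w) : Continuous (LAM V w) := by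
  have h0 : Continuous (Function.uncurry fun (s : ℝ) (τ : ℝ) =>
      (2 * Real.pi * (1 - τ)) • ii V (w (s + τ))) := by
    have h1 : Continuous fun p : ℝ × ℝ => ii V (w (p.1 + p.2)) :=
      (continuous_ii V hw).comp (by fun_prop)
    have h2 : Continuous fun p : ℝ × ℝ => 2 * Real.pi * (1 - p.2) := by fun_prop
    exact h2.smul h1
  exact intervalIntegral.continuous_parametric_intervalIntegral_of_continuous' h0 0 1

theorem continuous_int (V : T) (hw : Continuous w) :
    Continuous fun s => (w s * w s + MM w * w s) * LAM V w s :=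
  continuous_mul' ((continuous_mul' hw hw).add (continuous_mul' continuous_const hw))
    (continuous_LAM V hw)

/-! ### naturality -/

theorem pb_MM (A : T' →ₗ[ℝ] T) (hw : Continuous w) : pb A (MM w) = MM fun s => pb A (w s) :=
  ((LinearMap.toContinuousLinearMap (pb A).toLinearMap).intervalIntegral_comp_comm
    (hw.intervalIntegrable 0 1)).symm


theorem pb_int (A : T' →ₗ[ℝ] T) {f : ℝ → Ext T} (hf : Continuous f) :
    pb A (∫ s in (0 : ℝ)..1, f s) = ∫ s in (0 : ℝ)..1, pb A (f s) :=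
  ((LinearMap.toContinuousLinearMap (pb A).toLinearMap).intervalIntegral_comp_comm
    (hf.intervalIntegrable 0 1)).symm

theorem pb_LAM (A : T' →ₗ[ℝ] T) (V' : T') (hw : Continuous w) (s : ℝ) :
    pb A (LAM (A V') w s) = LAM V' (fun s => pb A (w s)) s := by
  have h0 : Continuous fun τ : ℝ => (2 * Real.pi * (1 - τ)) • ii (A V') (w (s + τ)) :=
    (by fun_prop : Continuous fun τ : ℝ => 2 * Real.pi * (1 - τ)).smul
      ((continuous_ii (A V') hw).comp (by fun_prop))
  rw [LAM, pb_int A h0, LAM]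
  refine intervalIntegral.integral_congr fun τ _ => ?_
  simp only [map_smul, ii_pb]

theorem pb_YA (A : T' →ₗ[ℝ] T) (V' : T') (hw : Continuous w) :
    pb A (YA (A V') w) = YA V' fun s => pb A (w s) := by
  rw [YA, pb_int A (continuous_int _ hw), YA]
  refine intervalIntegral.integral_congr fun s _ => ?_
  simp only [map_mul, map_add, pb_MM A hw, pb_LAM A V' hw]

theorem pb_PSI (A : T' →ₗ[ℝ] T) (V' : T') (hw : Continuous w) :
    pb A (PSI (A V') w) = PSI V' fun s => pb A (w s) := by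
  rw [PSI, map_mul, ← ii_pb, ← ii_pb, pb_MM A hw, pb_YA A V' hw, PSI]

/-! ### shifts -/

theorem int_shift {f : ℝ → Ext T} (hf : Function.Periodic f 1) (r : ℝ) :
    ∫ s in (0 : ℝ)..1, f (s + r) = ∫ s in (0 : ℝ)..1, f s := by
  rw [intervalIntegral.integral_comp_add_right f r, zero_add, add_comm 1 r]
  have := hf.intervalIntegral_add_eq r 0
  rwa [zero_add] at this

theorem int_double {f : ℝ → Ext T} (hc : Continuous f) (hf : Function.Periodic f 1) :
    ∫ s in (0 : ℝ)..1, f (2 * s) = ∫ s in (0 : ℝ)..1, f s := by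
  have h1 := intervalIntegral.integral_comp_mul_left f (c := 2) (a := 0) (b := 1) two_ne_zero
  rw [h1, mul_zero, mul_one]
  have h2 : ∫ s in (0 : ℝ)..2, f s = (∫ s in (0 : ℝ)..1, f s) + ∫ s in (1 : ℝ)..2, f s :=
    (intervalIntegral.integral_add_adjacent_intervals (hc.intervalIntegrable _ _)
      (hc.intervalIntegrable _ _)).symm
  have h3 := hf.intervalIntegral_add_eq 1 0
  rw [zero_add, one_add_one_eq_two] at h3
  rw [h2, h3, ← two_smul ℝ, smul_smul, inv_mul_cancel₀ two_ne_zero, one_smul]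

theorem MM_shift (hp : Function.Periodic w 1) (r : ℝ) : MM (fun s => w (s + r)) = MM w :=
  int_shift hp r

theorem LAM_shift (V : T) (w : ℝ → Ext T) (r s : ℝ) :
    LAM V (fun s => w (s + r)) s = LAM V w (s + r) := by
  rw [LAM, LAM]
  refine intervalIntegral.integral_congr fun τ _ => ?_
  simp only [show s + τ + r = s + r + τ by ring]

theorem LAM_periodic (V : T) (hp : Function.Periodic w 1) : Function.Periodic (LAM V w) 1 := by
  intro s
  rw [← LAM_shift]
  congr 1
  funext r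
  exact hp r

theorem YA_shift (V : T) (hp : Function.Periodic w 1) (r : ℝ) :
    YA V (fun s => w (s + r)) = YA V w := by
  rw [YA, MM_shift hp]
  simp only [LAM_shift]
  refine int_shift (f := fun s => (w s * w s + MM w * w s) * LAM V w s) (fun s => ?_) r
  simp only [hp s, LAM_periodic V hp s]

theorem PSI_shift (V : T) (hp : Function.Periodic w 1) (r : ℝ) :
    PSI V (fun s => w (s + r)) = PSI V w := by
  rw [PSI, MM_shift hp, YA_shift V hp, PSI]

/-! ### doubling -/

theorem MM_double (hw : Continuous w) (hp : Function.Periodic w 1) : MM (fun s => w (2 * s)) = MM w :=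
  int_double hw hp

theorem LAM_double (V : T) (hw : Continuous w) (hp : Function.Periodic w 1) (s : ℝ) :
    LAM ((2 : ℝ) • V) (fun s => w (2 * s)) s = LAM V w (2 * s) + Real.pi • ii V (MM w) := by
  have hc : ∀ g : ℝ → ℝ, Continuous g → Continuous fun u : ℝ => g u • ii V (w (2 * s + u)) :=
    fun g hg => hg.smul ((continuous_ii V hw).comp (by fun_prop))
  have e1 : LAM ((2 : ℝ) • V) (fun s => w (2 * s)) s =
      ∫ τ in (0 : ℝ)..1, (fun u : ℝ => (4 * Real.pi * (1 - u / 2)) • ii V (w (2 * s + u))) (2 * τ) := by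
    rw [LAM]
    refine intervalIntegral.integral_congr fun τ _ => ?_
    simp only [map_smul, LinearMap.smul_apply, smul_smul]
    congr 1
    · ring
    · ring_nf
  have e2 : ∫ τ in (0 : ℝ)..1, (fun u : ℝ => (4 * Real.pi * (1 - u / 2)) • ii V (w (2 * s + u))) (2 * τ)
      = ∫ u in (0 : ℝ)..2, (2 * Real.pi * (1 - u / 2)) • ii V (w (2 * s + u)) := by
    rw [intervalIntegral.integral_comp_mul_left
      (fun u : ℝ => (4 * Real.pi * (1 - u / 2)) • ii V (w (2 * s + u))) two_ne_zero, mul_zero,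
      mul_one, ← intervalIntegral.integral_smul]
    refine intervalIntegral.integral_congr fun u _ => ?_
    simp only [smul_smul]
    congr 1
    ring
  have e3 : ∫ u in (0 : ℝ)..2, (2 * Real.pi * (1 - u / 2)) • ii V (w (2 * s + u)) =
      (∫ u in (0 : ℝ)..1, (2 * Real.pi * (1 - u / 2)) • ii V (w (2 * s + u))) +
      ∫ u in (1 : ℝ)..2, (2 * Real.pi * (1 - u / 2)) • ii V (w (2 * s + u)) :=
    (intervalIntegral.integral_add_adjacent_intervals
      ((hc _ (by fun_prop)).intervalIntegrable _ _) ((hc _ (by fun_prop)).intervalIntegrable _ _)).symm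
  have e4 : ∫ u in (1 : ℝ)..2, (2 * Real.pi * (1 - u / 2)) • ii V (w (2 * s + u)) =
      ∫ u in (0 : ℝ)..1, (2 * Real.pi * (1 - (u + 1) / 2)) • ii V (w (2 * s + u)) := by
    have h1 := intervalIntegral.integral_comp_add_right
      (fun u : ℝ => (2 * Real.pi * (1 - u / 2)) • ii V (w (2 * s + u))) (a := 0) (b := 1) 1
    rw [zero_add, one_add_one_eq_two] at h1
    rw [← h1]
    refine intervalIntegral.integral_congr fun u _ => ?_
    simp only [← add_assoc, hp (2 * s + u)]
  have e5 : LAM V w (2 * s) = ∫ u in (0 : ℝ)..1, (2 * Real.pi * (1 - u)) • ii V (w (2 * s + u)) := rfl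
  have e6 : ii V (MM w) = ∫ u in (0 : ℝ)..1, ii V (w (2 * s + u)) := by
    have h1 : MM w = ∫ u in (0 : ℝ)..1, w (2 * s + u) := by
      rw [MM, ← int_shift hp (2 * s)]
      refine intervalIntegral.integral_congr fun u _ => ?_
      simp only [add_comm]
    rw [h1]
    exact ((iiL V).intervalIntegral_comp_comm
      ((hw.comp (by fun_prop : Continuous fun u : ℝ => 2 * s + u)).intervalIntegrable 0 1)).symm
  rw [e1, e2, e3, e4, e5, e6, ← intervalIntegral.integral_smul,
    ← intervalIntegral.integral_add ((hc _ (by fun_prop)).intervalIntegrable _ _)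
      ((hc _ (by fun_prop)).intervalIntegrable _ _),
    ← intervalIntegral.integral_add ((hc _ (by fun_prop)).intervalIntegrable _ _)
      ((hc (fun _ => Real.pi) continuous_const).intervalIntegrable _ _)]
  refine intervalIntegral.integral_congr fun u _ => ?_
  simp only [← add_smul]
  congr 1
  ring

theorem YA_double (V : T) (hw : Continuous w) (hp : Function.Periodic w 1) :
    YA ((2 : ℝ) • V) (fun s => w (2 * s)) =
      YA V w + Real.pi • (((∫ s in (0 : ℝ)..1, w s * w s) + MM w * MM w) * ii V (MM w)) := by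
  rw [YA, MM_double hw hp]
  simp only [LAM_double V hw hp]
  have h1 : ∫ s in (0 : ℝ)..1, (w (2 * s) * w (2 * s) + MM w * w (2 * s)) *
      (LAM V w (2 * s) + Real.pi • ii V (MM w)) =
      ∫ s in (0 : ℝ)..1, (w s * w s + MM w * w s) * (LAM V w s + Real.pi • ii V (MM w)) := by
    refine int_double (f := fun s => (w s * w s + MM w * w s) * (LAM V w s + Real.pi • ii V (MM w)))
      (continuous_mul' ((continuous_mul' hw hw).add (continuous_mul' continuous_const hw))
        ((continuous_LAM V hw).add continuous_const)) (fun s => ?_)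
    simp only [hp s, LAM_periodic V hp s]
  have hq : Continuous fun s => w s * w s + MM w * w s :=
    (continuous_mul' hw hw).add (continuous_mul' continuous_const hw)
  rw [h1]
  have h2 : ∀ s, (w s * w s + MM w * w s) * (LAM V w s + Real.pi • ii V (MM w)) =
      (w s * w s + MM w * w s) * LAM V w s +
        Real.pi • ((w s * w s + MM w * w s) * ii V (MM w)) := fun s => by
    rw [mul_add, mul_smul_comm]
  simp only [h2]
  have h6' : Continuous fun s => (w s * w s + MM w * w s) * ii V (MM w) :=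
    continuous_mul' hq continuous_const
  have h6 : Continuous fun s => Real.pi • ((w s * w s + MM w * w s) * ii V (MM w)) :=
    h6'.const_smul Real.pi
  rw [intervalIntegral.integral_add ((continuous_int V hw).intervalIntegrable _ _)
    (h6.intervalIntegrable _ _), intervalIntegral.integral_smul]
  congr 2
  have h3 : ∫ s in (0 : ℝ)..1, (w s * w s + MM w * w s) * ii V (MM w) =
      (∫ s in (0 : ℝ)..1, (w s * w s + MM w * w s)) * ii V (MM w) :=
    ((mulL T).flip (ii V (MM w))).intervalIntegral_comp_comm (hq.intervalIntegrable 0 1)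
  have h4 : ∫ s in (0 : ℝ)..1, MM w * w s = MM w * MM w :=
    (mulL T (MM w)).intervalIntegral_comp_comm (hw.intervalIntegrable 0 1)
  rw [h3, intervalIntegral.integral_add ((continuous_mul' hw hw).intervalIntegrable _ _)
    ((continuous_mul' continuous_const hw).intervalIntegrable _ _), h4]

theorem inv_int {f : ℝ → Ext T} (hf : Continuous f) :
    F.inv (∫ s in (0 : ℝ)..1, f s) = ∫ s in (0 : ℝ)..1, F.inv (f s) :=
  ((invL (E := T)).intervalIntegral_comp_comm (hf.intervalIntegrable 0 1)).symm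

theorem inv_MM (hw : Continuous w) (he : ∀ s, F.inv (w s) = w s) : F.inv (MM w) = MM w := by
  rw [MM, inv_int hw]; simp only [he]

/-- **doubling** -/
theorem PSI_double (V : T) (hw : Continuous w) (hp : Function.Periodic w 1)
    (he : ∀ s, F.inv (w s) = w s) :
    PSI ((2 : ℝ) • V) (fun s => w (2 * s)) = (4 : ℝ) • PSI V w := by
  have hM := inv_MM hw he
  have ho := odd_ii hM V
  generalize hQ : (∫ s in (0 : ℝ)..1, w s * w s) + MM w * MM w = Q at *
  have h7 : ii V (Q * ii V (MM w)) = ii V Q * ii V (MM w) := by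
    rw [ii_mul, ii_ii, mul_zero, add_zero]
  rw [PSI, MM_double hw hp, YA_double V hw hp, hQ, map_smul, LinearMap.smul_apply,
    LinearMap.smul_apply, map_add, map_smul, h7, smul_mul_smul_comm, mul_add, mul_smul_comm,
    ← mul_assoc, odd_odd_odd ho, smul_zero, add_zero, PSI]
  norm_num

end curve

end Crest.Agent.R208.VC
end
end

-- ▼ part R208/VC3

/-! Row 208, block VC (helper997), part VC3: the forms `Av`, `xi`, `YY`, `psi` of a smooth circle
action on a submanifold: smoothness, restriction to tangent spaces, naturality, invariance,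
doubling. -/

set_option autoImplicit false
set_option linter.unusedSectionVars false
set_option linter.unusedVariables false

open MeasureTheory Set Filter Topology Module
open scoped ContDiff
open Crest.Agent.R208.F Crest.Agent.R208.FI Crest.Agent.R208.CW Crest.Agent.R208.T
open Crest.Agent.R208.CM (Cir gen)

noncomputable section

namespace Crest.Agent.R208.VC

universe u v
variable {E : Type u} [NormedAddCommGroup E] [NormedSpace ℝ E] [FiniteDimensional ℝ E]
  {F' : Type v} [NormedAddCommGroup F'] [NormedSpace ℝ F'] [FiniteDimensional ℝ F']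
  {m : ℕ} {X : Set E} {φ : ℝ → E → E} {a b : E → Ext E} {x : E}

/-- the pulled back family, normalised to period one -/
def Wn (φ : ℝ → E → E) (b : E → Ext E) (p : E × ℝ) : Ext E := Wt φ b (p.1, 2 * Real.pi * p.2)

theorem smT_Wn (h : Act X φ) (hb : Sm X b) : SmT X (Wn φ b) :=
  (smT_Wt h hb).time (f := fun s => 2 * Real.pi * s) (by fun_prop)

theorem Wn_eq (h : Act X φ) (hx : x ∈ X) (s : ℝ) :
    Wn φ b (x, s) = F.pull (φ (2 * Real.pi * s)) b x := Wt_eq h hx _

/-- the average of `b` over the circle -/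
def Av (φ : ℝ → E → E) (b : E → Ext E) : E → Ext E := I1 (Wn φ b)

/-- the contraction of the average with the generator -/
def xi (φ : ℝ → E → E) (b : E → Ext E) : E → Ext E := iV φ (Av φ b)

/-- the weighted average of `ι_V φ_t^* b`, primitive of `Av - φ_s^* b` -/
def Lf (φ : ℝ → E → E) (b : E → Ext E) (p : E × ℝ) : Ext E :=
  ∫ τ in (0 : ℝ)..1, (2 * Real.pi * (1 - τ)) • ii (gen φ p.1) (Wn φ b (p.1, p.2 + τ))

/-- the integrand of `YY` -/
def Yg (φ : ℝ → E → E) (b : E → Ext E) (p : E × ℝ) : Ext E :=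
  (Wn φ b p * Wn φ b p + Av φ b p.1 * Wn φ b p) * Lf φ b p

/-- the primitive of `Av³` -/
def YY (φ : ℝ → E → E) (b : E → Ext E) : E → Ext E := I1 (Yg φ b)

/-- the basic form `ξ ι_V Y` -/
def psi (φ : ℝ → E → E) (b : E → Ext E) : E → Ext E := xi φ b * iV φ (YY φ b)

theorem sm_Av (h : Act X φ) (hb : Sm X b) : Sm X (Av φ b) := (smT_Wn h hb).sm_I1
theorem sm_xi (h : Act X φ) (hb : Sm X b) : Sm X (xi φ b) := Sm.iV h (sm_Av h hb)

theorem smT_Lf (h : Act X φ) (hb : Sm X b) : SmT X (Lf φ b) := by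
  intro x hx s
  have h1 : ∀ τ : ℝ, ContDiffAt ℝ ∞ (fun q : (E × ℝ) × ℝ =>
      (2 * Real.pi * (1 - q.2)) • ii (gen φ q.1.1) (Wn φ b (q.1.1, q.1.2 + q.2))) ((x, s), τ) := by
    intro τ
    have h2 : ContDiffAt ℝ ∞ (fun q : (E × ℝ) × ℝ => Wn φ b (q.1.1, q.1.2 + q.2)) ((x, s), τ) :=
      ContDiffAt.comp (g := Wn φ b) (f := fun q : (E × ℝ) × ℝ => (q.1.1, q.1.2 + q.2)) ((x, s), τ)
        (smT_Wn h hb x hx (s + τ)) (by fun_prop)
    have h3 : ContDiffAt ℝ ∞ (fun q : (E × ℝ) × ℝ => gen φ q.1.1) ((x, s), τ) :=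
      ContDiffAt.comp (g := gen φ) (f := fun q : (E × ℝ) × ℝ => q.1.1) ((x, s), τ)
        (smooth_gen h hx) (by fun_prop)
    have h4 : ContDiffAt ℝ ∞ (fun q : (E × ℝ) × ℝ => 2 * Real.pi * (1 - q.2)) ((x, s), τ) := by
      fun_prop
    exact h4.smul (contDiffAt_ii h3 h2)
  exact contDiffAt_I1 (g := fun q : (E × ℝ) × ℝ =>
      (2 * Real.pi * (1 - q.2)) • ii (gen φ q.1.1) (Wn φ b (q.1.1, q.1.2 + q.2))) fun τ _ => h1 τ

theorem smT_Yg (h : Act X φ) (hb : Sm X b) : SmT X (Yg φ b) :=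
  (((smT_Wn h hb).mul (smT_Wn h hb)).add ((SmT.of_sm (sm_Av h hb)).mul (smT_Wn h hb))).mul
    (smT_Lf h hb)

theorem sm_YY (h : Act X φ) (hb : Sm X b) : Sm X (YY φ b) := (smT_Yg h hb).sm_I1
theorem sm_iYY (h : Act X φ) (hb : Sm X b) : Sm X (iV φ (YY φ b)) := Sm.iV h (sm_YY h hb)
theorem sm_psi (h : Act X φ) (hb : Sm X b) : Sm X (psi φ b) := (sm_xi h hb).mul (sm_iYY h hb)

/-! ### the forms at a point in terms of the curve -/

theorem Av_eq (x : E) : Av φ b x = MM fun s => Wn φ b (x, s) := rfl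
theorem xi_eq (x : E) : xi φ b x = ii (gen φ x) (MM fun s => Wn φ b (x, s)) := rfl
theorem YY_eq (x : E) : YY φ b x = YA (gen φ x) fun s => Wn φ b (x, s) := rfl
theorem psi_eq (x : E) : psi φ b x = PSI (gen φ x) fun s => Wn φ b (x, s) := rfl

/-- the restricted curve -/
def cv (X : Set E) (φ : ℝ → E → E) (b : E → Ext E) (x : E) (s : ℝ) : Ext (Tan X x) :=
  rsL X x (Wn φ b (x, s))

/-- the generator as a tangent vector -/
def tg (h : Act X φ) (hx : x ∈ X) : Tan X x := ⟨gen φ x, h.gen_mem hx⟩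

theorem continuous_Wn (h : Act X φ) (hb : Sm X b) (hx : x ∈ X) :
    Continuous fun s => Wn φ b (x, s) := (smT_Wn h hb).continuous hx

theorem continuous_cv (h : Act X φ) (hb : Sm X b) (hx : x ∈ X) : Continuous (cv X φ b x) :=
  (rsL X x).continuous.comp (continuous_Wn h hb hx)

theorem rs_Av (h : Act X φ) (hb : Sm X b) (hx : x ∈ X) : rsL X x (Av φ b x) = MM (cv X φ b x) :=
  pb_MM (Tan X x).subtype (continuous_Wn h hb hx)

theorem rs_xi (h : Act X φ) (hb : Sm X b) (hx : x ∈ X) :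
    rsL X x (xi φ b x) = ii (tg h hx) (MM (cv X φ b x)) := by
  rw [← rs_Av h hb hx]
  exact pb_ii_tan (h.gen_mem hx) _

theorem rs_YY (h : Act X φ) (hb : Sm X b) (hx : x ∈ X) :
    rsL X x (YY φ b x) = YA (tg h hx) (cv X φ b x) :=
  pb_YA (Tan X x).subtype (tg h hx) (continuous_Wn h hb hx)

theorem rs_psi (h : Act X φ) (hb : Sm X b) (hx : x ∈ X) :
    rsL X x (psi φ b x) = PSI (tg h hx) (cv X φ b x) :=
  pb_PSI (Tan X x).subtype (tg h hx) (continuous_Wn h hb hx)


theorem cv_periodic (h : Act X φ) (hx : x ∈ X) : Function.Periodic (cv X φ b x) 1 := by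
  intro s
  rw [cv, cv, Wn_eq h hx, Wn_eq h hx]
  refine Eqv.pull_congr ((smap h _).diff hx) ((smap h _).diff hx) hx fun y hy => ?_
  rw [mul_add, mul_one, h.add _ _ y hy, h.per y hy]

theorem cv_even (h : Act X φ) (he : ∀ x ∈ X, F.inv (b x) = b x) (hx : x ∈ X) (s : ℝ) :
    F.inv (cv X φ b x s) = cv X φ b x s := by
  rw [cv, rsL_apply, ← pb_inv, Wn_eq h hx, F.pull, ← pb_inv, he _ (h.maps _ hx)]

theorem Av_even (h : Act X φ) (hb : Sm X b) (he : ∀ x ∈ X, F.inv (b x) = b x) (hx : x ∈ X) :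
    F.inv (Av φ b x) = Av φ b x :=
  inv_MM (continuous_Wn h hb hx) fun s => by rw [Wn_eq h hx, F.pull, ← pb_inv, he _ (h.maps _ hx)]

theorem xi_odd (h : Act X φ) (hb : Sm X b) (he : ∀ x ∈ X, F.inv (b x) = b x) (hx : x ∈ X) :
    F.inv (xi φ b x) = - xi φ b x := odd_ii (Av_even h hb he hx) _

/-- forms with the same restricted curves -/
theorem cv_congr (h : Act X φ) (hab : Eqv X a b) (hx : x ∈ X) : cv X φ a x = cv X φ b x := by
  funext s
  exact rs_Wt_of_eqv h hab hx _

theorem eqv_Av (h : Act X φ) (ha : Sm X a) (hb : Sm X b) (hab : Eqv X a b) :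
    Eqv X (Av φ a) (Av φ b) := eqv_iff.2 fun x hx => by
  have h1 := rs_Av h ha hx
  rw [cv_congr h hab hx, ← rs_Av h hb hx] at h1
  exact h1

theorem eqv_xi (h : Act X φ) (ha : Sm X a) (hb : Sm X b) (hab : Eqv X a b) :
    Eqv X (xi φ a) (xi φ b) := Eqv.iV h (eqv_Av h ha hb hab)


theorem eqv_psi (h : Act X φ) (ha : Sm X a) (hb : Sm X b) (hab : Eqv X a b) :
    Eqv X (psi φ a) (psi φ b) := eqv_iff.2 fun x hx => by
  have h1 := rs_psi h ha hx
  rw [cv_congr h hab hx, ← rs_psi h hb hx] at h1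
  exact h1

/-! ### naturality -/

section nat
variable {X' : Set F'} {φ' : ℝ → F' → F'} {g : F' → E} {y : F'}

/-- equivariant maps map the generator to the generator -/
theorem fderiv_gen_eq (h : Act X φ) (h' : Act X' φ') (hg : SMap X' X g)
    (heq : ∀ t, ∀ y ∈ X', g (φ' t y) = φ t (g y)) (hy : y ∈ X') :
    fderiv ℝ g y (gen φ' y) = gen φ (g y) := by
  have h1 := h'.hasDerivAt hy 0
  rw [h'.zero y hy] at h1
  have h2 : HasFDerivAt g (fderiv ℝ g y) (φ' 0 y) := by
    rw [h'.zero y hy]; exact (hg.diff hy).hasFDerivAt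
  have h3 : HasDerivAt (fun s => g (φ' s y)) (fderiv ℝ g y (gen φ' y)) 0 :=
    h2.comp_hasDerivAt 0 h1
  have h4 : (fun s : ℝ => g (φ' s y)) = fun s => φ s (g y) := by
    funext s; exact heq s y hy
  rw [h4] at h3
  have h5 := h.hasDerivAt (hg.maps hy) 0
  rw [h.zero _ (hg.maps hy)] at h5
  exact h3.unique h5

/-- the derivative restricted to the tangent space -/
def dr (X' : Set F') (g : F' → E) (y : F') : Tan X' y →ₗ[ℝ] E :=
  ((fderiv ℝ g y : F' →L[ℝ] E) : F' →ₗ[ℝ] E) ∘ₗ (Tan X' y).subtype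

theorem pb_dr (c : E → Ext E) (y : F') :
    rsL X' y (F.pull g c y) = pb (dr X' g y) (c (g y)) := by
  rw [rsL_apply, F.pull, pb_comp]; rfl

theorem dr_gen (h : Act X φ) (h' : Act X' φ') (hg : SMap X' X g)
    (heq : ∀ t, ∀ y ∈ X', g (φ' t y) = φ t (g y)) (hy : y ∈ X') :
    dr X' g y (tg h' hy) = gen φ (g y) := fderiv_gen_eq h h' hg heq hy

theorem cv_nat (h : Act X φ) (h' : Act X' φ') (hg : SMap X' X g)
    (heq : ∀ t, ∀ y ∈ X', g (φ' t y) = φ t (g y)) (hy : y ∈ X') :
    (fun s => pb (dr X' g y) (Wn φ b (g y, s))) = cv X' φ' (F.pull g b) y := by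
  funext s
  have h1 : pb (dr X' g y) (Wn φ b (g y, s)) =
      rsL X' y (F.pull g (F.pull (φ (2 * Real.pi * s)) b) y) := by
    rw [pb_dr, Wn_eq h (hg.maps hy)]
  have h2 : F.pull g (F.pull (φ (2 * Real.pi * s)) b) y =
      F.pull (fun z => φ (2 * Real.pi * s) (g z)) b y :=
    F.pull_comp (hg.diff hy) ((smap h _).diff (hg.maps hy))
  have h3 : F.pull (φ' (2 * Real.pi * s)) (F.pull g b) y =
      F.pull (fun z => g (φ' (2 * Real.pi * s) z)) b y :=
    F.pull_comp ((smap h' _).diff hy) (hg.diff (h'.maps _ hy))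
  rw [h1, h2, cv, Wn_eq h' hy, h3]
  exact Eqv.pull_congr (((smap h _).comp hg).diff hy) ((hg.comp (smap h' _)).diff hy) hy
    fun z hz => (heq _ z hz).symm

theorem nat_Av (h : Act X φ) (h' : Act X' φ') (hg : SMap X' X g)
    (heq : ∀ t, ∀ y ∈ X', g (φ' t y) = φ t (g y)) (hb : Sm X b) :
    Eqv X' (F.pull g (Av φ b)) (Av φ' (F.pull g b)) := eqv_iff.2 fun y hy => by
  have h1 : pb (Tan X' y).subtype (F.pull g (Av φ b) y) = pb (dr X' g y) (Av φ b (g y)) := pb_dr _ _
  rw [h1, Av_eq, pb_MM _ (continuous_Wn h hb (hg.maps hy)), cv_nat h h' hg heq hy]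
  exact (rs_Av h' (hb.pull hg) hy).symm

theorem nat_xi (h : Act X φ) (h' : Act X' φ') (hg : SMap X' X g)
    (heq : ∀ t, ∀ y ∈ X', g (φ' t y) = φ t (g y)) (hb : Sm X b) :
    Eqv X' (F.pull g (xi φ b)) (xi φ' (F.pull g b)) := eqv_iff.2 fun y hy => by
  have h1 : pb (Tan X' y).subtype (F.pull g (xi φ b) y) = pb (dr X' g y) (xi φ b (g y)) := pb_dr _ _
  have h2 := pb_MM (dr X' g y) (continuous_Wn h hb (hg.maps hy))
  rw [cv_nat h h' hg heq hy] at h2
  rw [h1, xi_eq, ← dr_gen h h' hg heq hy, ← ii_pb, h2]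
  exact (rs_xi h' (hb.pull hg) hy).symm

theorem nat_YY (h : Act X φ) (h' : Act X' φ') (hg : SMap X' X g)
    (heq : ∀ t, ∀ y ∈ X', g (φ' t y) = φ t (g y)) (hb : Sm X b) :
    Eqv X' (F.pull g (YY φ b)) (YY φ' (F.pull g b)) := eqv_iff.2 fun y hy => by
  have h1 : pb (Tan X' y).subtype (F.pull g (YY φ b) y) = pb (dr X' g y) (YY φ b (g y)) := pb_dr _ _
  rw [h1, YY_eq, ← dr_gen h h' hg heq hy, pb_YA _ _ (continuous_Wn h hb (hg.maps hy)),
    cv_nat h h' hg heq hy]
  exact (rs_YY h' (hb.pull hg) hy).symm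

/-- **naturality** -/
theorem nat_psi (h : Act X φ) (h' : Act X' φ') (hg : SMap X' X g)
    (heq : ∀ t, ∀ y ∈ X', g (φ' t y) = φ t (g y)) (hb : Sm X b) :
    Eqv X' (F.pull g (psi φ b)) (psi φ' (F.pull g b)) := eqv_iff.2 fun y hy => by
  have h1 : pb (Tan X' y).subtype (F.pull g (psi φ b) y) = pb (dr X' g y) (psi φ b (g y)) :=
    pb_dr _ _
  rw [h1, psi_eq, ← dr_gen h h' hg heq hy, pb_PSI _ _ (continuous_Wn h hb (hg.maps hy)),
    cv_nat h h' hg heq hy]
  exact (rs_psi h' (hb.pull hg) hy).symm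

end nat

/-! ### invariance -/

theorem cv_shift (h : Act X φ) (hx : x ∈ X) (t : ℝ) :
    cv X φ (F.pull (φ t) b) x = fun s => cv X φ b x (s + t / (2 * Real.pi)) := by
  funext s
  have h3 : F.pull (φ (2 * Real.pi * s)) (F.pull (φ t) b) x =
      F.pull (fun z => φ t (φ (2 * Real.pi * s) z)) b x :=
    F.pull_comp ((smap h _).diff hx) ((smap h _).diff (h.maps _ hx))
  rw [cv, cv, Wn_eq h hx, Wn_eq h hx, h3]
  refine Eqv.pull_congr (((smap h _).comp (smap h _)).diff hx) ((smap h _).diff hx) hx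
    fun z hz => ?_
  rw [← h.add _ _ z hz]
  congr 1
  have := Real.pi_pos
  field_simp
  ring

theorem comm_act (h : Act X φ) (t : ℝ) : ∀ s, ∀ y ∈ X, φ t (φ s y) = φ s (φ t y) := fun s y hy => by
  rw [← h.add _ _ y hy, ← h.add _ _ y hy, add_comm]

theorem cvp (b : E → Ext E) (h : Act X φ) (hx : x ∈ X) : Function.Periodic (cv X φ b x) 1 :=
  cv_periodic h hx

theorem inv_Av (h : Act X φ) (hb : Sm X b) : Inv X φ (Av φ b) := by
  intro t
  refine (nat_Av h h (smap h t) (comm_act h t) hb).trans (eqv_iff.2 fun x hx => ?_)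
  have h1 := rs_Av h (hb.pull (smap h t)) hx
  rw [cv_shift h hx, MM_shift (w := cv X φ b x) (cvp b h hx) (t / (2 * Real.pi)),
    ← rs_Av h hb hx] at h1
  exact h1

theorem inv_xi (h : Act X φ) (hb : Sm X b) : Inv X φ (xi φ b) := by
  intro t
  refine (nat_xi h h (smap h t) (comm_act h t) hb).trans (eqv_iff.2 fun x hx => ?_)
  have h1 := rs_xi h (hb.pull (smap h t)) hx
  rw [cv_shift h hx, MM_shift (w := cv X φ b x) (cvp b h hx) (t / (2 * Real.pi)),
    ← rs_xi h hb hx] at h1
  exact h1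

theorem inv_YY (h : Act X φ) (hb : Sm X b) : Inv X φ (YY φ b) := by
  intro t
  refine (nat_YY h h (smap h t) (comm_act h t) hb).trans (eqv_iff.2 fun x hx => ?_)
  have h1 := rs_YY h (hb.pull (smap h t)) hx
  rw [cv_shift h hx, YA_shift (w := cv X φ b x) _ (cvp b h hx) (t / (2 * Real.pi)),
    ← rs_YY h hb hx] at h1
  exact h1

/-- **invariance** -/
theorem inv_psi (h : Act X φ) (hb : Sm X b) : Inv X φ (psi φ b) := by
  intro t
  refine (nat_psi h h (smap h t) (comm_act h t) hb).trans (eqv_iff.2 fun x hx => ?_)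
  have h1 := rs_psi h (hb.pull (smap h t)) hx
  rw [cv_shift h hx, PSI_shift (w := cv X φ b x) _ (cvp b h hx) (t / (2 * Real.pi)),
    ← rs_psi h hb hx] at h1
  exact h1

theorem Inv.mul {a b : E → Ext E} (ha : Inv X φ a) (hb : Inv X φ b) : Inv X φ (a * b) := fun t => by
  rw [pull_mul']; exact (ha t).mul (hb t)
theorem Inv.add {a b : E → Ext E} (ha : Inv X φ a) (hb : Inv X φ b) : Inv X φ (a + b) := fun t => by
  rw [pull_add']; exact (ha t).add (hb t)
theorem Inv.sub {a b : E → Ext E} (ha : Inv X φ a) (hb : Inv X φ b) : Inv X φ (a - b) := fun t => by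
  rw [pull_sub']; exact (ha t).sub (hb t)
theorem Inv.smul {a : E → Ext E} (r : ℝ) (ha : Inv X φ a) : Inv X φ (r • a) := fun t => by
  rw [pull_smul']; exact (ha t).smul r
theorem Inv.iV (h : Act X φ) {a : E → Ext E} (ha : Inv X φ a) : Inv X φ (VC.iV φ a) := fun t => by
  refine eqv_iff.2 fun x hx => ?_
  have h1 : pb (Tan X x).subtype (F.pull (φ t) (VC.iV φ a) x) =
      pb (dr X (φ t) x) (VC.iV φ a (φ t x)) := pb_dr _ _
  rw [h1, VC.iV, ← dr_gen h h (smap h t) (comm_act h t) hx, ← ii_pb,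
    show pb (dr X (φ t) x) (a (φ t x)) = rsL X x (F.pull (φ t) a x) from (pb_dr a x).symm,
    rsL_apply, eqv_iff.1 (ha t) x hx]
  exact (pb_ii_tan (h.gen_mem hx) _).symm

/-! ### vanishing -/

/-- the forms vanish at the points with constant orbit loops -/
theorem rs_xi_eq_zero (h : Act X φ) (hb : Sm X b) (hx : x ∈ X)
    (h0 : ∀ s, ii (tg h hx) (cv X φ b x s) = 0) : rsL X x (xi φ b x) = 0 := by
  have h2 := (iiL (tg h hx)).intervalIntegral_comp_comm
    ((continuous_cv h hb hx).intervalIntegrable (μ := volume) 0 1)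
  rw [rs_xi h hb hx]
  show iiL (tg h hx) (∫ s in (0 : ℝ)..1, cv X φ b x s) = 0
  rw [← h2]
  simp [h0]

theorem rs_psi_eq_zero (h : Act X φ) (hb : Sm X b) (hx : x ∈ X)
    (h0 : ∀ s, ii (tg h hx) (cv X φ b x s) = 0) : rsL X x (psi φ b x) = 0 := by
  have h1 := rs_xi_eq_zero h hb hx h0
  rw [rsL_apply] at h1 ⊢
  rw [psi, Pi.mul_apply, map_mul, h1, zero_mul]

/-- for `b = f^* om` and a constant loop `t ↦ f (φ_t x)` -/
theorem ii_cv_pull {f : E → F'} {om : F' → Ext F'} (h : Act X φ) (hx : x ∈ X)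
    (hf : ∀ t, DifferentiableAt ℝ f (φ t x)) (hc : ∀ t, f (φ t x) = f x) (s : ℝ) :
    ii (tg h hx) (cv X φ (F.pull f om) x s) = 0 := by
  have h1 : F.pull (φ (2 * Real.pi * s)) (F.pull f om) x =
      F.pull (fun z => f (φ (2 * Real.pi * s) z)) om x :=
    F.pull_comp ((smap h _).diff hx) (hf _)
  rw [cv, Wn_eq h hx, h1, rsL_apply, F.pull, ii_pb, ii_pb]
  have h2 : fderiv ℝ (fun z => f (φ (2 * Real.pi * s) z)) x (gen φ x) = 0 := by
    have e1 : HasFDerivAt (fun z => f (φ (2 * Real.pi * s) z))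
        (fderiv ℝ (fun z => f (φ (2 * Real.pi * s) z)) x) (φ 0 x) := by
      rw [h.zero x hx]
      exact ((hf _).comp x ((smap h _).diff hx)).hasFDerivAt
    have e2 := h.hasDerivAt hx 0
    rw [h.zero x hx] at e2
    have e3 : HasDerivAt (fun r => f (φ (2 * Real.pi * s) (φ r x)))
        (fderiv ℝ (fun z => f (φ (2 * Real.pi * s) z)) x (gen φ x)) 0 :=
      HasFDerivAt.comp_hasDerivAt (l := fun z => f (φ (2 * Real.pi * s) z)) (f := fun r => φ r x)
        0 e1 e2
    have e4 : (fun r => f (φ (2 * Real.pi * s) (φ r x))) = fun _ => f x := by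
      funext r; rw [← h.add _ _ x hx, hc]
    rw [e4] at e3
    exact e3.unique (hasDerivAt_const _ _)
  have h3 : ((fderiv ℝ (fun z => f (φ (2 * Real.pi * s) z)) x : E →L[ℝ] F') : E →ₗ[ℝ] F')
      ((Tan X x).subtype (tg h hx)) = 0 := h2
  rw [h3, map_zero, LinearMap.zero_apply, map_zero, map_zero]

/-! ### doubling -/

/-- the doubled action -/
def dbl (φ : ℝ → E → E) (t : ℝ) : E → E := φ (2 * t)

theorem Act.dbl (h : Act X φ) : Act X (VC.dbl φ) where
  smooth := fun t x hx => ContDiffAt.comp (g := fun q : ℝ × E => φ q.1 q.2)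
    (f := fun q : ℝ × E => (2 * q.1, q.2)) (t, x) (h.smooth (2 * t) x hx) (by fun_prop)
  maps := fun t => h.maps _
  zero := fun x hx => by rw [VC.dbl, mul_zero, h.zero x hx]
  add := fun s t x hx => by rw [VC.dbl, VC.dbl, VC.dbl, mul_add, h.add _ _ x hx]
  per := fun x hx => by
    rw [VC.dbl, two_mul, h.add _ _ x hx, h.per x hx, h.per x hx]

theorem gen_dbl (h : Act X φ) (hx : x ∈ X) : gen (dbl φ) x = (2 : ℝ) • gen φ x := by
  have h1 := h.hasDerivAt hx 0
  rw [h.zero x hx] at h1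
  have h2 : HasDerivAt (fun t : ℝ => 2 * t) 2 0 := by simpa using (hasDerivAt_id (0 : ℝ)).const_mul 2
  have h3 : HasDerivAt (fun s => φ s x) (gen φ x) ((fun t : ℝ => 2 * t) 0) := by
    simpa using h1
  exact (h3.scomp 0 h2).deriv

theorem cv_dbl (h : Act X φ) (hx : x ∈ X) :
    cv X (dbl φ) b x = fun s => cv X φ b x (2 * s) := by
  funext s
  rw [cv, cv, Wn_eq h.dbl hx, Wn_eq h hx, dbl, mul_left_comm]

theorem tg_dbl (h : Act X φ) (hx : x ∈ X) : tg h.dbl hx = (2 : ℝ) • tg h hx :=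
  Subtype.ext (gen_dbl h hx)

theorem Av_dbl (h : Act X φ) (hb : Sm X b) : Eqv X (Av (dbl φ) b) (Av φ b) :=
  eqv_iff.2 fun x hx => by
  have h1 := rs_Av h.dbl hb hx
  rw [cv_dbl h hx, MM_double (w := cv X φ b x) (continuous_cv h hb hx) (cvp b h hx), ← rs_Av h hb hx] at h1
  exact h1

theorem xi_dbl (h : Act X φ) (hb : Sm X b) : Eqv X (xi (dbl φ) b) ((2 : ℝ) • xi φ b) :=
  eqv_iff.2 fun x hx => by
  have h1 := rs_xi h.dbl hb hx
  rw [cv_dbl h hx, MM_double (w := cv X φ b x) (continuous_cv h hb hx) (cvp b h hx), tg_dbl h hx, map_smul,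
    LinearMap.smul_apply, ← rs_xi h hb hx, ← map_smul] at h1
  exact h1

/-- **doubling** -/
theorem psi_dbl (h : Act X φ) (hb : Sm X b) (he : ∀ x ∈ X, F.inv (b x) = b x) :
    Eqv X (psi (dbl φ) b) ((4 : ℝ) • psi φ b) :=
  eqv_iff.2 fun x hx => by
  have h1 := rs_psi h.dbl hb hx
  rw [cv_dbl h hx, tg_dbl h hx, PSI_double (w := cv X φ b x) _ (continuous_cv h hb hx) (cvp b h hx)
    (cv_even h he hx), ← rs_psi h hb hx, ← map_smul] at h1
  exact h1

end Crest.Agent.R208.VC
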