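import Crest.Agent.R208.CG3
import Crest.Agent.R208.VC3
import Crest.Agent.R208.CG4
import Crest.Agent.R208.CG7
import Crest.Agent.R208.KP3
import Crest.Agent.R208.HN2
import Crest.Agent.R208.AF9
import Crest.Agent.R208.RR6
import Crest.Agent.R208.SB3

-- ▼ part R208/CG8
section

/-! Row 208, block RR, piece (CG) (helper99), part CG8: interchange of the two fibre integrals;
`Wp φ = 2π xi φ`; the ray integral of `xi φ b`. -/

set_option autoImplicit false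
set_option linter.unusedSectionVars false
set_option linter.unusedVariables false

open MeasureTheory Set Filter Topology Module
open scoped ContDiff
open Crest.Agent.R208.F Crest.Agent.R208.FI Crest.Agent.R208.CW Crest.Agent.R208.T
open Crest.Agent.R208.RR

noncomputable section

namespace Crest.Agent.R208.CG

universe u
variable {E : Type u} [NormedAddCommGroup E] [NormedSpace ℝ E] [FiniteDimensional ℝ E]
  {E' : Type u} [NormedAddCommGroup E'] [NormedSpace ℝ E'] [FiniteDimensional ℝ E']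
  {Z : Set E} {Y : Set E'} {x : E}

/-- contraction with the two parameter directions -/
def ig2 (w : (E × ℝ) × ℝ → Ext ((E × ℝ) × ℝ)) (x : E) (t s : ℝ) : Ext E :=
  pb (((ContinuousLinearMap.inl ℝ (E × ℝ) ℝ).comp (ContinuousLinearMap.inl ℝ E ℝ) :
    E →L[ℝ] (E × ℝ) × ℝ) : E →ₗ[ℝ] (E × ℝ) × ℝ)
    (ii (((0, 1), 0) : (E × ℝ) × ℝ) (ii ((0, 1) : (E × ℝ) × ℝ) (w ((x, t), s))))

theorem ig2_eq (w : (E × ℝ) × ℝ → Ext ((E × ℝ) × ℝ)) (x : E) (t s : ℝ) :
    hopL (ContinuousLinearMap.inl ℝ E ℝ) ((0, 1) : E × ℝ) (ig (E := E × ℝ) w (x, t) s) =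
      ig2 w x t s := by
  rw [ig, hopL_apply, hopL_apply, ii_pb, pb_comp, ig2]
  rfl

theorem continuous_ig2 {w : (E × ℝ) × ℝ → Ext ((E × ℝ) × ℝ)} (hw : Sm (Cyl (Cyl Z)) w)
    (hx : x ∈ Z) : Continuous fun p : ℝ × ℝ => ig2 w x p.1 p.2 := by
  have h1 : (fun p : ℝ × ℝ => ig2 w x p.1 p.2) = fun p : ℝ × ℝ =>
      hopL (ContinuousLinearMap.inl ℝ E ℝ) ((0, 1) : E × ℝ)
        (hopL (ContinuousLinearMap.inl ℝ (E × ℝ) ℝ) ((0, 1) : (E × ℝ) × ℝ) (w ((x, p.1), p.2))) := by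
    funext p
    rw [← ig2_eq]
    rfl
  rw [h1]
  refine (hopL _ _).continuous.comp ((hopL _ _).continuous.comp ?_)
  rw [continuous_iff_continuousAt]
  intro p
  have h2 : ContinuousAt w ((fun p : ℝ × ℝ => (((x, p.1), p.2) : (E × ℝ) × ℝ)) p) :=
    (hw _ (mem_Cyl.2 (mem_Cyl.2 hx))).continuousAt
  exact h2.comp (f := fun p : ℝ × ℝ => (((x, p.1), p.2) : (E × ℝ) × ℝ)) (by fun_prop :
    Continuous (fun p : ℝ × ℝ => (((x, p.1), p.2) : (E × ℝ) × ℝ))).continuousAt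

theorem K2_apply {w : (E × ℝ) × ℝ → Ext ((E × ℝ) × ℝ)} (hw : Sm (Cyl (Cyl Z)) w) (hx : x ∈ Z) :
    K2 w x = ∫ t in (0 : ℝ)..1, ∫ s in (0 : ℝ)..1, ig2 w x t s := by
  rw [K2, K_apply]
  refine intervalIntegral.integral_congr fun t _ => ?_
  change hopL (ContinuousLinearMap.inl ℝ E ℝ) ((0, 1) : E × ℝ) (KI w (x, t)) = _
  rw [KI, K_apply, ← ContinuousLinearMap.intervalIntegral_comp_comm _
    ((continuous_ig (E := E × ℝ) hw (mem_Cyl.2 hx)).intervalIntegrable _ _)]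
  refine intervalIntegral.integral_congr fun s _ => ?_
  exact ig2_eq w x t s

/-- the interchange of the parameters -/
def sw (y : (E × ℝ) × ℝ) : (E × ℝ) × ℝ := ((y.1.1, y.2), y.1.2)

/-- `sw` as a continuous linear map -/
def swL (E : Type u) [NormedAddCommGroup E] [NormedSpace ℝ E] : (E × ℝ) × ℝ →L[ℝ] (E × ℝ) × ℝ :=
  (((ContinuousLinearMap.fst ℝ E ℝ).comp (ContinuousLinearMap.fst ℝ (E × ℝ) ℝ)).prod
    (ContinuousLinearMap.snd ℝ (E × ℝ) ℝ)).prod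
    ((ContinuousLinearMap.snd ℝ E ℝ).comp (ContinuousLinearMap.fst ℝ (E × ℝ) ℝ))

theorem fderiv_sw (y : (E × ℝ) × ℝ) : fderiv ℝ (sw (E := E)) y = swL E :=
  (swL E).hasFDerivAt.fderiv

theorem contDiff_sw : ContDiff ℝ ∞ (sw (E := E)) := (swL E).contDiff

theorem smap_sw : SMap (Cyl (Cyl Z)) (Cyl (Cyl Z)) (sw (E := E)) :=
  ⟨fun _ _ => contDiff_sw.contDiffAt, fun _ hy => mem_Cyl.2 (mem_Cyl.2 (mem_Cyl.1 (mem_Cyl.1 hy)))⟩

theorem ig2_sw (w : (E × ℝ) × ℝ → Ext ((E × ℝ) × ℝ)) (x : E) (t s : ℝ) :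
    ig2 (F.pull (sw (E := E)) w) x t s = - ig2 w x s t := by
  rw [ig2, F.pull, fderiv_sw, ii_pb, ii_pb, pb_comp, ig2]
  have h1 : ((swL E : (E × ℝ) × ℝ →L[ℝ] (E × ℝ) × ℝ) : (E × ℝ) × ℝ →ₗ[ℝ] (E × ℝ) × ℝ) ∘ₗ
      (((ContinuousLinearMap.inl ℝ (E × ℝ) ℝ).comp (ContinuousLinearMap.inl ℝ E ℝ) :
    E →L[ℝ] (E × ℝ) × ℝ) : E →ₗ[ℝ] (E × ℝ) × ℝ) =
      (((ContinuousLinearMap.inl ℝ (E × ℝ) ℝ).comp (ContinuousLinearMap.inl ℝ E ℝ) :
    E →L[ℝ] (E × ℝ) × ℝ) : E →ₗ[ℝ] (E × ℝ) × ℝ) := by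
    ext z <;> rfl
  rw [h1]
  change pb _ (ii ((swL E) (((0, 1), 0) : (E × ℝ) × ℝ))
    (ii ((swL E) ((0, 1) : (E × ℝ) × ℝ)) (w (sw ((x, t), s))))) = _
  have h2 : (swL E) (((0, 1), 0) : (E × ℝ) × ℝ) = ((0, 1) : (E × ℝ) × ℝ) := rfl
  have h3 : (swL E) ((0, 1) : (E × ℝ) × ℝ) = (((0, 1), 0) : (E × ℝ) × ℝ) := rfl
  have h4 : sw ((x, t), s) = ((x, s), t) := rfl
  rw [h2, h3, h4, ii_comm, map_neg]

/-- **interchange of the two fibre integrals** -/
theorem K2_sw {w : (E × ℝ) × ℝ → Ext ((E × ℝ) × ℝ)} (hw : Sm (Cyl (Cyl Z)) w) (hx : x ∈ Z) :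
    K2 (F.pull (sw (E := E)) w) x = - K2 w x := by
  rw [K2_apply (hw.pull smap_sw) hx, K2_apply hw hx]
  simp only [ig2_sw, intervalIntegral.integral_neg]
  congr 1
  rw [intervalIntegral_intervalIntegral_swap]
  have h1 : IntegrableOn (Function.uncurry fun t s : ℝ => ig2 w x s t)
      (uIcc (0 : ℝ) 1 ×ˢ uIcc (0 : ℝ) 1) volume :=
    ((continuous_ig2 hw hx).comp continuous_swap).continuousOn.integrableOn_compact
      (isCompact_uIcc.prod isCompact_uIcc)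
  exact h1.mono_set (Set.prod_mono uIoc_subset_uIcc uIoc_subset_uIcc)

end Crest.Agent.R208.CG
end
end

-- ▼ part R208/CG9
section

/-! Row 208, block RR, piece (CG) (helper99), part CG9: `Wp φ = 2π xi φ`, and the ray integral of
`xi φ b` in terms of `Wp φ (K (sc^* b))`. -/

set_option autoImplicit false
set_option linter.unusedSectionVars false
set_option linter.unusedVariables false

open MeasureTheory Set Filter Topology Module
open scoped ContDiff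
open Crest.Agent.R208.F Crest.Agent.R208.FI Crest.Agent.R208.CW Crest.Agent.R208.T
open Crest.Agent.R208.RR

noncomputable section

namespace Crest.Agent.R208.CG

universe u
variable {E : Type u} [NormedAddCommGroup E] [NormedSpace ℝ E] [FiniteDimensional ℝ E]
  {E' : Type u} [NormedAddCommGroup E'] [NormedSpace ℝ E'] [FiniteDimensional ℝ E']
  {Z : Set E} {X : Set E'} {x : E} {φ : ℝ → E → E} {φ' : ℝ → E' → E'} {μ : E → Ext E}
  {sc : E × ℝ → E'} {b : E' → Ext E'}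

/-- **`Wp φ` is `2π` times the contracted average** -/
theorem Wp_eq_xi (hφ : CM.Cir Z φ) (hμ : Sm Z μ) (hx : x ∈ Z) :
    Wp φ μ x = (2 * Real.pi) • VC.xi φ μ x := by
  have hA : VC.Act Z φ := VC.Act.of_cir hφ
  rw [Wp_apply, VC.xi_eq, VC.MM]
  change _ = (2 * Real.pi) • iiL (CM.gen φ x) _
  rw [← ContinuousLinearMap.intervalIntegral_comp_comm _
    ((VC.continuous_Wn hA hμ hx).intervalIntegrable _ _), ← intervalIntegral.integral_smul]
  refine intervalIntegral.integral_congr fun t _ => ?_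
  change hopL (ContinuousLinearMap.inl ℝ E ℝ) ((0, 1) : E × ℝ) (F.pull (Fl φ) μ (x, t)) =
    (2 * Real.pi) • iiL (CM.gen φ x) (VC.Wn φ μ (x, t))
  rw [hopL_Fl hφ hx, iiL_apply, VC.Wn_eq hA hx, F.pull, ii_pb]
  congr 2
  change ii (CM.gen φ (φ (2 * Real.pi * t) x)) _ =
    ii (fderiv ℝ (φ (2 * Real.pi * t)) x (CM.gen φ x)) _
  rw [hφ.fderiv_gen hx]

theorem Wp_eqv_xi (hφ : CM.Cir Z φ) (hμ : Sm Z μ) :
    Eqv Z (Wp φ μ) ((2 * Real.pi) • VC.xi φ μ) := Eqv.of_eq fun _ hx => Wp_eq_xi hφ hμ hx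

/-- `K (f^* (K (A^* ξ)))` as a double integral, general form -/
theorem KfK' {Y : Set E'} {f : E × ℝ → E'} (hf : SMap (Cyl Z) Y f) {v : E' × ℝ → Ext (E' × ℝ)}
    (hv : Sm (Cyl Y) v) :
    Eqv Z (K (E := E) (F.pull f (K (E := E') v)))
      (K2 (F.pull (fx (E := E × ℝ) (E' := E') f fun s => s) v)) := by
  have sf : SMap (Cyl (Cyl Z)) (Cyl Y) (fx (E := E × ℝ) (E' := E') f fun s => s) :=
    smap_fx hf contDiff_id
  have h1 : Eqv (Cyl Z) (F.pull f (K (E := E') v))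
      (KI (F.pull (fx (E := E × ℝ) (E' := E') f fun s => s) v)) :=
    Eqv.of_eq fun y hy => pull_K (E := E × ℝ) (E' := E') (hf.diff hy) hv (hf.maps hy)
  exact K_eqv (E := E) ((Sm.K hv).pull hf) (Sm.KI (hv.pull sf)) h1

/-- **the ray integral of the orbit integral** -/
theorem K_sc_Wp (hφ : CM.Cir Z φ) (hφ' : CM.Cir X φ') (hsc : SMap (Cyl Z) X sc)
    (hc : ∀ x ∈ Z, ∀ t s : ℝ, sc (φ t x, s) = φ' t (sc (x, s))) (hb : Sm X b) :
    Eqv Z (K (E := E) (F.pull sc (Wp φ' b))) (-(Wp φ (K (E := E) (F.pull sc b)))) := by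
  have hF := smap_Fl hφ
  have hF' := smap_Fl hφ'
  have sb : Sm (Cyl X) (F.pull (Fl φ') b) := hb.pull hF'
  have ss : Sm (Cyl Z) (F.pull sc b) := hb.pull hsc
  have f1 : SMap (Cyl (Cyl Z)) (Cyl X) (fx (E := E × ℝ) (E' := E') sc fun s => s) :=
    smap_fx hsc contDiff_id
  have f2 : SMap (Cyl (Cyl Z)) (Cyl Z) (fx (E := E × ℝ) (E' := E) (Fl φ) fun s => s) :=
    smap_fx hF contDiff_id
  have e1 : Eqv Z (K (E := E) (F.pull sc (Wp φ' b)))
      (K2 (F.pull (fx (E := E × ℝ) (E' := E') sc fun s => s) (F.pull (Fl φ') b))) :=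
    KfK' hsc sb
  have e2 : Eqv Z (Wp φ (K (E := E) (F.pull sc b)))
      (K2 (F.pull (fx (E := E × ℝ) (E' := E) (Fl φ) fun s => s) (F.pull sc b))) :=
    KfK' hF ss
  have s1 := sb.pull f1
  have s2 := ss.pull f2
  have e3 : Eqv (Cyl (Cyl Z))
      (F.pull (fx (E := E × ℝ) (E' := E) (Fl φ) fun s => s) (F.pull sc b))
      (F.pull (sw (E := E))
        (F.pull (fx (E := E × ℝ) (E' := E') sc fun s => s) (F.pull (Fl φ') b))) := by
    have a1 : Eqv (Cyl (Cyl Z))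
        (F.pull (fx (E := E × ℝ) (E' := E) (Fl φ) fun s => s) (F.pull sc b))
        (F.pull (fun y => sc (fx (E := E × ℝ) (E' := E) (Fl φ) (fun s => s) y)) b) :=
      pull_pull hsc f2
    have a2 : Eqv (Cyl (Cyl Z))
        (F.pull (fx (E := E × ℝ) (E' := E') sc fun s => s) (F.pull (Fl φ') b))
        (F.pull (fun y => Fl φ' (fx (E := E × ℝ) (E' := E') sc (fun s => s) y)) b) :=
      pull_pull hF' f1
    have m1 : SMap (Cyl (Cyl Z)) X
        (fun y => Fl φ' (fx (E := E × ℝ) (E' := E') sc (fun s => s) y)) := smap_comp hF' f1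
    have m2 : SMap (Cyl (Cyl Z)) X
        (fun y => sc (fx (E := E × ℝ) (E' := E) (Fl φ) (fun s => s) y)) := smap_comp hsc f2
    have a3 := Eqv.pull (smap_sw (Z := Z)) a2
    have a4 : Eqv (Cyl (Cyl Z)) (F.pull (sw (E := E))
        (F.pull (fun y => Fl φ' (fx (E := E × ℝ) (E' := E') sc (fun s => s) y)) b))
        (F.pull (fun y => Fl φ' (fx (E := E × ℝ) (E' := E') sc (fun s => s) (sw y))) b) :=
      pull_pull m1 smap_sw
    have m3 : SMap (Cyl (Cyl Z)) X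
        (fun y => Fl φ' (fx (E := E × ℝ) (E' := E') sc (fun s => s) (sw y))) :=
      smap_comp (g := fun y => Fl φ' (fx (E := E × ℝ) (E' := E') sc (fun s => s) y))
        (f := sw (E := E)) m1 smap_sw
    refine a1.trans (Eqv.trans ?_ (a3.trans a4).symm)
    refine eqv_pull_of_eq b (fun y hy => m2.diff hy) (fun y hy => m3.diff hy) fun y hy => ?_
    exact hc _ (mem_Cyl.1 (mem_Cyl.1 hy)) _ _
  have e4 := K2_eqv s2 (s1.pull smap_sw) e3
  refine e1.trans (Eqv.trans ?_ (e2.trans e4).neg.symm)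
  refine Eqv.of_eq fun x hx => ?_
  rw [Pi.neg_apply, K2_sw s1 hx, neg_neg]

/-- the ray integral of `xi` -/
theorem K_sc_xi (hφ : CM.Cir Z φ) (hφ' : CM.Cir X φ') (hsc : SMap (Cyl Z) X sc)
    (hc : ∀ x ∈ Z, ∀ t s : ℝ, sc (φ t x, s) = φ' t (sc (x, s))) (hb : Sm X b) :
    Eqv Z ((2 * Real.pi) • K (E := E) (F.pull sc (VC.xi φ' b)))
      (-(Wp φ (K (E := E) (F.pull sc b)))) := by
  refine Eqv.trans ?_ (K_sc_Wp hφ hφ' hsc hc hb)
  have hA : VC.Act X φ' := VC.Act.of_cir hφ'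
  have sx : Sm X (VC.xi φ' b) := VC.sm_xi hA hb
  have h1 : Eqv (Cyl Z) (F.pull sc (Wp φ' b)) ((2 * Real.pi) • F.pull sc (VC.xi φ' b)) := by
    have h2 := Eqv.pull hsc (Wp_eqv_xi hφ' hb)
    rwa [pull_smul'] at h2
  have h3 := K_eqv (E := E) ((Sm.Wp hφ' hb).pull hsc) ((sx.pull hsc).smul _) h1
  rw [K_smul] at h3
  exact h3.symm

end Crest.Agent.R208.CG
end
end

-- ▼ part R208/CG10

/-! Row 208, block RR, piece (CG) (helper99), part CG10: the antipodal map of an even sphere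
reverses fibre integrals; the fibre value of the family `Af`. -/

set_option autoImplicit false
set_option linter.unusedSectionVars false
set_option linter.unusedVariables false

open MeasureTheory Set Filter Topology Module
open scoped ContDiff RealInnerProductSpace
open Crest.GeometryTopology.Submanifold
open Crest.Agent.R241.DDefs
open Crest.Agent.R241.D2
open Crest.Agent.R208.GT
open Crest.Agent.R208.F Crest.Agent.R208.FI Crest.Agent.R208.CW Crest.Agent.R208.T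

noncomputable section

namespace Crest.Agent.R208.CG

open Crest.Agent.R208.SB (OPr oV)

section flip
variable {E H : Type} [NormedAddCommGroup E] [NormedSpace ℝ E] [FiniteDimensional ℝ E]
  [NormedAddCommGroup H] [InnerProductSpace ℝ H] [FiniteDimensional ℝ H]
  {X : Set E} {P : E → H →L[ℝ] H} {r : ℕ} {oP : E → Ext H} {x : E} {oF β : E × H → Ext (E × H)}

/-- the fibre over a point -/
theorem fib_eq (hx : x ∈ X) :
    Sph X P ∩ (Prod.fst : E × H → E) ⁻¹' {x} = Sph ({x} : Set E) P := by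
  ext z
  constructor
  · rintro ⟨⟨⟨h1, h2⟩, h3⟩, h4⟩
    exact ⟨⟨h4, h2⟩, h3⟩
  · rintro ⟨⟨h1, h2⟩, h3⟩
    have h1' : z.1 = x := h1
    exact ⟨⟨⟨by rw [h1']; exact hx, h2⟩, h3⟩, h1⟩

theorem ori_fib (hP : PField X (r + 1) P) (h : OPr X (r + 1) P oP) (hx : x ∈ X) :
    Ori r (Sph X P ∩ (Prod.fst : E × H → E) ⁻¹' {x}) (oV oP) := by
  have h1 : PField ({x} : Set E) (r + 1) P :=
    ⟨fun y hy => by rw [hy]; exact hP.smooth _ hx, fun y hy => by rw [hy]; exact hP.idem _ hx,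
      fun y hy => by rw [hy]; exact hP.rank _ hx⟩
  refine ori_of (HN.clo_fib hP hx) (fun z hz =>
    (SB.contDiffAt_oV h hz.1.1.1).continuousAt.continuousWithinAt) ?_
  rintro ⟨y, v⟩ ⟨hz, hy⟩
  have hy' : y = x := hy
  subst hy'
  obtain ⟨e, heV, hve, -, hli⟩ := SB.exists_cons_frame (V := LinearMap.range (P y : H →ₗ[ℝ] H))
    (hP.rank y hx) ⟨v, hz.1.2⟩ hz.2
  have heP : ∀ i, P y (e i) = e i := by
    intro i
    obtain ⟨w, hw⟩ := heV i
    have hw' : P y w = e i := hw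
    rw [← hw', hP.idem y hx]
  refine ⟨fun i => ((0 : E), e i), fun i => ?_, ?_⟩
  · have hz' : (y, v) ∈ Sph ({y} : Set E) P := by rw [← fib_eq hx]; exact ⟨hz, rfl⟩
    rw [fib_eq hx]
    exact (SB.vert_mem_Sph (sub_point y) h1 hz').2 ⟨heP i, hve i⟩
  · rw [oV, evA_pb, ← evA_ii]
    refine h.ne y hx _ hli fun i => ?_
    refine Fin.cases ?_ (fun i => ?_) i
    · exact hz.1.2
    · exact heP i

/-- the antipodal map -/
def fl' (z : E × H) : E × H := (z.1, -z.2)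

theorem contDiff_fl' : ContDiff ℝ ∞ (fl' (E := E) (H := H)) := contDiff_fst.prodMk contDiff_snd.neg

theorem fl'_fl' (z : E × H) : fl' (fl' z) = z := by simp [fl']

theorem fl'_mem {z : E × H} (hz : z ∈ Sph X P ∩ (Prod.fst : E × H → E) ⁻¹' {x}) :
    fl' z ∈ Sph X P ∩ (Prod.fst : E × H → E) ⁻¹' {x} :=
  ⟨⟨⟨hz.1.1.1, by change P z.1 (-z.2) = -z.2; rw [map_neg, hz.1.1.2]⟩, by
    change ‖-z.2‖ = 1; rw [norm_neg]; exact hz.1.2⟩, hz.2⟩

theorem bijOn_fl' : BijOn (fl' (E := E) (H := H)) (Sph X P ∩ (Prod.fst : E × H → E) ⁻¹' {x})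
    (Sph X P ∩ (Prod.fst : E × H → E) ⁻¹' {x}) :=
  ⟨fun _ hz => fl'_mem hz, fun a _ b _ hab => by rw [← fl'_fl' a, hab, fl'_fl'],
    fun z hz => ⟨fl' z, fl'_mem hz, fl'_fl' z⟩⟩

theorem pull_fl'_oV (h : OPr X (r + 1) P oP) (hr : Even r) :
    F.pull fl' (oV oP) = fun z => -(oV oP z) := by
  funext z
  have hd : HasFDerivAt (fl' (E := E) (H := H))
      ((ContinuousLinearMap.fst ℝ E H).prod (-(ContinuousLinearMap.snd ℝ E H))) z :=
    hasFDerivAt_fst.prodMk hasFDerivAt_snd.neg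
  rw [F.pull, hd.fderiv, oV, oV, pb_comp]
  change pb _ (ii (-z.2) (oP z.1)) = -(pb _ (ii z.2 (oP z.1)))
  have h1 : (ContinuousLinearMap.snd ℝ E H : E × H →ₗ[ℝ] H) ∘ₗ
      (((ContinuousLinearMap.fst ℝ E H).prod (-(ContinuousLinearMap.snd ℝ E H)) :
        E × H →L[ℝ] E × H) : E × H →ₗ[ℝ] E × H) =
      ((-1 : ℝ) • (LinearMap.id : H →ₗ[ℝ] H)) ∘ₗ
        (ContinuousLinearMap.snd ℝ E H : E × H →ₗ[ℝ] H) := by
    ext z <;> simp
  rw [h1, ← pb_comp, isDeg_pb_smul ((h.deg z.1).ii _), hr.neg_one_pow, one_smul, map_neg]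
  rw [LinearMap.neg_apply, map_neg]

/-- **the antipodal map reverses the integrals over even spheres** -/
theorem J_fl' (hP : PField X (r + 1) P) (h : OPr X (r + 1) P oP) (hr : Even r) (hx : x ∈ X)
    (hβ : Sm (Sph X P) β) :
    J r (Sph X P ∩ (Prod.fst : E × H → E) ⁻¹' {x}) (oV oP) (F.pull fl' β) =
      - J r (Sph X P ∩ (Prod.fst : E × H → E) ⁻¹' {x}) (oV oP) β := by
  have c := HN.clo_fib hP hx
  have h1 := J_pull c c (fun z _ => (contDiff_fl'.differentiable (by simp) z)) bijOn_fl'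
    (ori_fib hP h hx) (om := β) fun z hz => (hβ z hz.1).continuousAt.continuousWithinAt
  rw [pull_fl'_oV h hr, J_neg_ori] at h1
  rw [← h1, neg_neg]

theorem conn_fib (hP : PField X r P) (hr : 2 ≤ r) (hx : x ∈ X) :
    IsPreconnected (Sph X P ∩ (Prod.fst : E × H → E) ⁻¹' {x}) := by
  have key : Sph X P ∩ Prod.fst ⁻¹' {x} =
      (fun v : H => (x, v)) '' {v : H | v ∈ LinearMap.range (P x : H →ₗ[ℝ] H) ∧ ‖v‖ = 1} := by
    ext ⟨y, v⟩
    constructor
    · rintro ⟨⟨⟨h1, h2⟩, h3⟩, h4⟩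
      obtain rfl : y = x := h4
      exact ⟨v, ⟨⟨v, h2⟩, h3⟩, rfl⟩
    · rintro ⟨w, ⟨⟨u, hu⟩, h3⟩, h4⟩
      obtain ⟨rfl, rfl⟩ := Prod.mk.inj h4
      have hu' : P x u = w := hu
      exact ⟨⟨⟨hx, by show P x w = w; rw [← hu', hP.idem x hx]⟩, h3⟩, rfl⟩
  rw [key]
  exact (SN.preconn_sph (by rw [hP.rank x hx]; exact hr)).image _ (by fun_prop)

/-- the same for every orientation -/
theorem J_fl'_any (hP : PField X (r + 1) P) (h : OPr X (r + 1) P oP) (hr : Even r) (hr1 : 1 ≤ r)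
    (hx : x ∈ X) (hF : Ori r (Sph X P ∩ (Prod.fst : E × H → E) ⁻¹' {x}) oF)
    (hβ : Sm (Sph X P) β) :
    J r (Sph X P ∩ (Prod.fst : E × H → E) ⁻¹' {x}) oF (F.pull fl' β) =
      - J r (Sph X P ∩ (Prod.fst : E × H → E) ⁻¹' {x}) oF β := by
  have c := HN.clo_fib hP hx
  rcases J_ori_connected c (ori_fib hP h hx) hF (conn_fib hP (by omega) hx) with h1 | h1
  · rw [h1, h1, J_fl' hP h hr hx hβ]
  · rw [h1, h1, J_fl' hP h hr hx hβ]

end flip

end Crest.Agent.R208.CG
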