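import Crest.Agent.R208.CH3
import Crest.Agent.R208.HW2
import Crest.Agent.R208.CM5

-- ▼ part R208/CH3b
section

/-! Row 208, block CH (helper305), part CH3b: the swept chain is thin. -/

set_option autoImplicit false
set_option linter.unusedSectionVars false

open MeasureTheory MeasureTheory.Measure Set Filter Topology Module
open scoped ContDiff
open Crest.Agent.R208.F Crest.Agent.R208.FI

noncomputable section

namespace Crest.Agent.R208.CH

open HW (U SU)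

variable {E E' V : Type*} [NormedAddCommGroup E] [NormedSpace ℝ E] [FiniteDimensional ℝ E]
  [NormedAddCommGroup E'] [NormedSpace ℝ E'] [FiniteDimensional ℝ E']
  [NormedAddCommGroup V] [NormedSpace ℝ V] [FiniteDimensional ℝ V]

/-- the content of `Dfm` with the open set as a parameter -/
structure DfmO (X K : Set E) (ρ : ℕ) (R : E × ℝ → E) (O : Set E) : Prop where
  op : IsOpen O
  sub : K ⊆ O
  sm : ∀ z ∈ O ∩ X, ∀ t, ContDiffAt ℝ ∞ R (z, t)
  mem : ∀ z ∈ O ∩ X, ∀ t, R (z, t) ∈ X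
  zero : ∀ z ∈ O ∩ X, ∀ t ≤ 0, R (z, t) = z
  one : ∀ z ∈ O ∩ X, ∀ t, 1 ≤ t → R (z, t) = R (z, 1)
  rk : ∀ z ∈ O ∩ X, finrank ℝ ((Tan X z).map (fderiv ℝ (fun y => R (y, 1)) z : E →ₗ[ℝ] E)) ≤ ρ

theorem Dfm.exO {X K : Set E} {ρ : ℕ} {R : E × ℝ → E} (h : Dfm X K ρ R) : ∃ O, DfmO X K ρ R O := by
  obtain ⟨O, h1, h2, h3, h4, h5, h6, h7⟩ := h.ex
  exact ⟨O, h1, h2, h3, h4, h5, h6, h7⟩

variable {X : Set E} {Z : Set V} {B : Set E'} {π : E → E'} {g : V → E'} {χ : V → ℝ}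
  {R : E × ℝ → E} {n d ρ : ℕ} {O : Set E}

theorem mem_K {y : (E × V) × U 0} (hy : y ∈ ZS X Z π g)
    (hR : DfmO X (Prod.fst '' FG.FP X Z π g) ρ R O) : y.1.1 ∈ O ∩ X :=
  ⟨hR.sub ⟨y.1, hy.1, rfl⟩, hy.1.1⟩

theorem GS_mem {y : (E × V) × U 0} (hy : y ∈ ZS X Z π g)
    (hR : DfmO X (Prod.fst '' FG.FP X Z π g) ρ R O) : GS R y ∈ X := hR.mem _ (mem_K hy hR) _

theorem GS_diff {y : (E × V) × U 0} (hy : y ∈ ZS X Z π g)
    (hR : DfmO X (Prod.fst '' FG.FP X Z π g) ρ R O) : DifferentiableAt ℝ (GS (V := V) R) y :=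
  (contDiffAt_GS (hR.sm _ (mem_K hy hR) _)).differentiableAt (by simp)

/-- case `t = 0` -/
theorem fderiv_GS_A {y : (E × V) × U 0} (hy : y ∈ ZS X Z π g)
    (hR : DfmO X (Prod.fst '' FG.FP X Z π g) ρ R O) (hA : y.2 (0, 0) < -(1 / 2))
    {v : (E × V) × U 0} (hv : v ∈ Tan (ZS X Z π g) y) : fderiv ℝ (GS R) y v = v.1.1 := by
  have h1 : ∀ᶠ y' in 𝓝[ZS X Z π g] y, GS R y' = y'.1.1 := by
    have h2 : ∀ᶠ y' : (E × V) × U 0 in 𝓝 y, y'.2 (0, 0) < -(1 / 2) :=
      (continuous_snd.continuousAt (x := y)).eventually (ev_lt hA)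
    filter_upwards [self_mem_nhdsWithin, nhdsWithin_le_nhds h2] with y' h3 h4
    rw [GS, tt_zero h4.le]
    exact hR.zero _ (mem_K h3 hR) 0 le_rfl
  have h2 := CM.fderiv_eq_of_eqOn (GS_diff hy hR)
    (g := fun y' : (E × V) × U 0 => y'.1.1)
    ((differentiableAt_fst.comp y differentiableAt_fst)) h1 hv
  rw [h2]
  have h3 : HasFDerivAt (fun y' : (E × V) × U 0 => y'.1.1)
      ((ContinuousLinearMap.fst ℝ E V).comp (ContinuousLinearMap.fst ℝ (E × V) (U 0))) y :=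
    hasFDerivAt_fst.comp y hasFDerivAt_fst
  rw [h3.fderiv]; rfl

/-- case `t = 1` -/
theorem fderiv_GS_B {y : (E × V) × U 0} (hy : y ∈ ZS X Z π g)
    (hR : DfmO X (Prod.fst '' FG.FP X Z π g) ρ R O) (hB : 1 / 2 < y.2 (0, 0))
    (v : (E × V) × U 0) : fderiv ℝ (GS R) y v = fderiv ℝ (fun z => R (z, 1)) y.1.1 v.1.1 := by
  have h1 : GS R =ᶠ[𝓝 y] fun y' : (E × V) × U 0 => R (y'.1.1, 1) := by
    have h2 : ∀ᶠ y' : (E × V) × U 0 in 𝓝 y, 1 / 2 < y'.2 (0, 0) :=
      (continuous_snd.continuousAt (x := y)).eventually (ev_gt hB)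
    filter_upwards [h2] with y' h4
    rw [GS, tt_one h4.le]
  rw [h1.fderiv_eq]
  have h2 : ContDiffAt ℝ ∞ (fun z => R (z, 1)) y.1.1 :=
    ContDiffAt.comp (g := R) (f := fun z : E => (z, (1 : ℝ))) y.1.1 (hR.sm _ (mem_K hy hR) 1)
      (contDiffAt_id.prodMk contDiffAt_const)
  have h3 : HasFDerivAt (fun y' : (E × V) × U 0 => y'.1.1)
      ((ContinuousLinearMap.fst ℝ E V).comp (ContinuousLinearMap.fst ℝ (E × V) (U 0))) y :=
    hasFDerivAt_fst.comp y hasFDerivAt_fst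
  have h4 : HasFDerivAt (fun z => R (z, 1)) (fderiv ℝ (fun z => R (z, 1)) y.1.1) y.1.1 :=
    (h2.differentiableAt (by simp)).hasFDerivAt
  have h5 := HasFDerivAt.comp (g := fun z => R (z, 1)) y h4 h3
  have h6 : fderiv ℝ (fun y' : (E × V) × U 0 => R (y'.1.1, 1)) y = _ := h5.fderiv
  rw [h6]; rfl

theorem fderiv_GS {y : (E × V) × U 0} (hy : y ∈ ZS X Z π g)
    (hR : DfmO X (Prod.fst '' FG.FP X Z π g) ρ R O) (v : (E × V) × U 0) :
    fderiv ℝ (GS R) y v = fderiv ℝ R (y.1.1, tt y.2) (v.1.1, fderiv ℝ tt y.2 v.2) := by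
  have h1 : HasFDerivAt R (fderiv ℝ R (y.1.1, tt y.2)) (y.1.1, tt y.2) :=
    ((hR.sm _ (mem_K hy hR) _).differentiableAt (by simp)).hasFDerivAt
  have h3 : HasFDerivAt (fun y' : (E × V) × U 0 => y'.1.1)
      ((ContinuousLinearMap.fst ℝ E V).comp (ContinuousLinearMap.fst ℝ (E × V) (U 0))) y :=
    hasFDerivAt_fst.comp y hasFDerivAt_fst
  have h4 : HasFDerivAt (fun y' : (E × V) × U 0 => tt y'.2)
      ((fderiv ℝ tt y.2).comp (ContinuousLinearMap.snd ℝ (E × V) (U 0))) y :=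
    HasFDerivAt.comp (g := tt) y
      ((contDiff_tt.contDiffAt.differentiableAt (by simp)).hasFDerivAt) hasFDerivAt_snd
  have h5 := h1.comp y (h3.prodMk h4)
  have h6 : fderiv ℝ (GS (V := V) R) y = _ := h5.fderiv
  rw [h6]; rfl

theorem fderiv_cS {y : (E × V) × U 0} (hχ : ContDiffAt ℝ ∞ χ y.1.2) (v : (E × V) × U 0) :
    fderiv ℝ (cS (E := E) χ) y v =
      kk y.2 * fderiv ℝ χ y.1.2 v.1.2 + χ y.1.2 * fderiv ℝ kk y.2 v.2 := by
  have h3 : HasFDerivAt (fun y' : (E × V) × U 0 => y'.1.2)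
      ((ContinuousLinearMap.snd ℝ E V).comp (ContinuousLinearMap.fst ℝ (E × V) (U 0))) y :=
    hasFDerivAt_snd.comp y hasFDerivAt_fst
  have h1 : HasFDerivAt (fun y' : (E × V) × U 0 => χ y'.1.2)
      ((fderiv ℝ χ y.1.2).comp ((ContinuousLinearMap.snd ℝ E V).comp
        (ContinuousLinearMap.fst ℝ (E × V) (U 0)))) y :=
    HasFDerivAt.comp (g := χ) y ((hχ.differentiableAt (by simp)).hasFDerivAt) h3
  have h4 : HasFDerivAt (fun y' : (E × V) × U 0 => kk y'.2)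
      ((fderiv ℝ kk y.2).comp (ContinuousLinearMap.snd ℝ (E × V) (U 0))) y :=
    HasFDerivAt.comp (g := kk) y
      ((contDiff_kk.contDiffAt.differentiableAt (by simp)).hasFDerivAt) hasFDerivAt_snd
  have h5 := h1.mul h4
  have h6 : fderiv ℝ (cS (E := E) χ) y = _ := h5.fderiv
  rw [h6]
  simp
  ring

theorem kk_ev_one {y : (E × V) × U 0} (hC : 1 / 2 < y.2 (0, 1)) :
    kk y.2 = 1 ∧ fderiv ℝ kk y.2 = 0 := by
  have h1 : kk =ᶠ[𝓝 y.2] fun _ => 1 := by
    filter_upwards [ev_gt hC] with u hu using kk_one hu.le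
  exact ⟨h1.self_of_nhds, by rw [h1.fderiv_eq]; exact fderiv_const_apply _⟩

theorem kk_ev_zero {y : (E × V) × U 0} (hC : y.2 (0, 1) < -(1 / 2)) :
    kk y.2 = 0 ∧ fderiv ℝ kk y.2 = 0 := by
  have h1 : kk =ᶠ[𝓝 y.2] fun _ => 0 := by
    filter_upwards [ev_lt hC] with u hu using kk_zero hu.le
  exact ⟨h1.self_of_nhds, by rw [h1.fderiv_eq]; exact fderiv_const_apply _⟩

theorem fderiv_gS (hπ : Subm 1 n X B π) {y : (E × V) × U 0} (hy : y ∈ ZS X Z π g)
    (hR : DfmO X (Prod.fst '' FG.FP X Z π g) ρ R O) (v : (E × V) × U 0) :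
    fderiv ℝ (gS π R) y v = fderiv ℝ π (GS R y) (fderiv ℝ (GS R) y v) := by
  have h1 : DifferentiableAt ℝ π (GS R y) :=
    (hπ.smooth _ (GS_mem hy hR)).differentiableAt (by simp)
  have h2 : gS (V := V) π R = fun y => π (GS R y) := rfl
  rw [h2, fderiv_fun_comp y h1 (GS_diff hy hR)]
  rfl

/-- the differential of `(GS, cS)` -/
abbrev DD (R : E × ℝ → E) (χ : V → ℝ) (y : (E × V) × U 0) : ((E × V) × U 0) →ₗ[ℝ] E × ℝ :=
  (fderiv ℝ (GS R) y).prod (fderiv ℝ (cS (E := E) χ) y)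

theorem rank_B {y : (E × V) × U 0} (hy : y ∈ ZS X Z π g)
    (hR : DfmO X (Prod.fst '' FG.FP X Z π g) ρ R O) (hB : 1 / 2 < y.2 (0, 0)) :
    finrank ℝ ((Tan (ZS X Z π g) y).map (DD R χ y)) ≤ ρ + 1 := by
  refine (finrank_prod_le _).trans (Nat.add_le_add_right ?_ 1)
  refine le_trans (Submodule.finrank_mono ?_) (hR.rk _ (mem_K hy hR))
  rintro _ ⟨_, ⟨v, hv, rfl⟩, rfl⟩
  exact ⟨v.1.1, (tan_ZS hv).2.2.1, (fderiv_GS_B hy hR hB v).symm⟩

theorem finrank_Tan_SU {u : U 0} (hu : u ∈ SU 0) : finrank ℝ (Tan (SU 0) u) = 1 :=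
  (HW.clo_SU (k := 0)).finrank_Tan hu

theorem rank_C (hπ : Subm 1 n X B π) (hg : CW.SMap Z B g) {y : (E × V) × U 0}
    (hy : y ∈ ZS X Z π g) (hχ : ContDiffAt ℝ ∞ χ y.1.2)
    (hR : DfmO X (Prod.fst '' FG.FP X Z π g) ρ R O) (hC : 1 / 2 < y.2 (0, 1))
    (hr : finrank ℝ ((Tan Z y.1.2).map ((fderiv ℝ g y.1.2).prod (fderiv ℝ χ y.1.2) :
      V →ₗ[ℝ] E' × ℝ)) < d) :
    finrank ℝ ((Tan (ZS X Z π g) y).map (DD R χ y)) ≤ d + 1 := by
  have h1 := rank_fibre (X := Z) (g := g) (χ := χ) hπ (X' := FG.FP X Z π g)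
    (p := fun z : E × V => z.2) (f' := fun z : E × V => z.1) (fun z hz => hz.2.1)
    (fun z hz => hz.1) (fun z hz => hz.2.2) (x := y.1) hy.1
    ((hg.smooth _ hy.1.2.1).differentiableAt (by simp)) differentiableAt_snd
    differentiableAt_fst (hχ.differentiableAt (by simp))
  set T1 := (Tan (FG.FP X Z π g) y.1).map ((fderiv ℝ (fun z : E × V => z.1) y.1).prod
    (fderiv ℝ (fun z : E × V => χ z.2) y.1) : (E × V) →ₗ[ℝ] E × ℝ) with hT1
  set N : ((E × V) × U 0) →ₗ[ℝ] (E × ℝ) × U 0 :=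
    (((fderiv ℝ (fun z : E × V => z.1) y.1).prod
    (fderiv ℝ (fun z : E × V => χ z.2) y.1) : (E × V) →ₗ[ℝ] E × ℝ)).prodMap LinearMap.id with hN
  set T2 := (Tan (ZS X Z π g) y).map N with hT2
  have h2 : finrank ℝ T2 ≤ finrank ℝ T1 + 1 := by
    have h3 := finrank_le_map_add T2 (LinearMap.fst ℝ (E × ℝ) (U 0))
      ((Tan (SU 0) y.2).map (LinearMap.inr ℝ (E × ℝ) (U 0))) (by
        rintro _ ⟨v, hv, rfl⟩ h
        exact ⟨v.2, (tan_ZS hv).2.1, Prod.ext (show (0 : E × ℝ) = _ from h.symm) rfl⟩)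
    have h4 : T2.map (LinearMap.fst ℝ (E × ℝ) (U 0)) ≤ T1 := by
      rintro _ ⟨_, ⟨v, hv, rfl⟩, rfl⟩
      exact ⟨v.1, (tan_ZS hv).1, rfl⟩
    have h5 := Submodule.finrank_mono h4
    have h6 : finrank ℝ ((Tan (SU 0) y.2).map (LinearMap.inr ℝ (E × ℝ) (U 0))) ≤ 1 :=
      (Submodule.finrank_map_le _ _).trans (finrank_Tan_SU hy.2).le
    omega
  set M : (E × ℝ) × U 0 →ₗ[ℝ] E × ℝ :=
    ((fderiv ℝ R (y.1.1, tt y.2) : E × ℝ →ₗ[ℝ] E) ∘ₗ
      ((LinearMap.fst ℝ E ℝ).prodMap (fderiv ℝ tt y.2 : U 0 →ₗ[ℝ] ℝ))).prod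
      (LinearMap.snd ℝ E ℝ ∘ₗ LinearMap.fst ℝ (E × ℝ) (U 0)) with hM
  have h7 : (Tan (ZS X Z π g) y).map (DD R χ y) ≤ T2.map M := by
    rintro _ ⟨v, hv, rfl⟩
    refine ⟨N v, ⟨v, hv, rfl⟩, ?_⟩
    have e1 : fderiv ℝ (fun z : E × V => z.1) y.1 v.1 = v.1.1 := by rw [fderiv_fst]; rfl
    have e2 : fderiv ℝ (fun z : E × V => χ z.2) y.1 v.1 = fderiv ℝ χ y.1.2 v.1.2 := by
      rw [fderiv_fun_comp y.1 (hχ.differentiableAt (by simp)) differentiableAt_snd, fderiv_snd]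
      rfl
    refine Prod.ext ?_ ?_
    · show fderiv ℝ R (y.1.1, tt y.2) (fderiv ℝ (fun z : E × V => z.1) y.1 v.1,
        fderiv ℝ tt y.2 v.2) = fderiv ℝ (GS R) y v
      rw [e1, fderiv_GS hy hR]
    · show fderiv ℝ (fun z : E × V => χ z.2) y.1 v.1 = fderiv ℝ (cS (E := E) χ) y v
      rw [e2, fderiv_cS hχ, (kk_ev_one hC).1, (kk_ev_one hC).2]
      simp
  have h8 := Submodule.finrank_mono h7
  have h9 : finrank ℝ (T2.map M) ≤ finrank ℝ T2 := Submodule.finrank_map_le _ _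
  omega

/-- **the swept chain is thin** -/
theorem thn_sweep (hπ : Subm 1 n X B π) (hg : CW.SMap Z B g) (hZ : Clo d Z) (ht : Thn d Z g χ)
    (hR : DfmO X (Prod.fst '' FG.FP X Z π g) ρ R O) (hρ : ρ ≤ d) :
    Thn (d + 2) (ZS X Z π g) (gS π R) (cS χ) := by
  refine ⟨fun y hy => contDiffAt_cS (ht.1 _ hy.1.2.1), fun y hy => ?_⟩
  have hχ := ht.1 _ hy.1.2.1
  have hle : finrank ℝ ((Tan (ZS X Z π g) y).map ((fderiv ℝ (gS π R) y).prod
      (fderiv ℝ (cS (E := E) χ) y) : _ →ₗ[ℝ] E' × ℝ)) ≤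
      finrank ℝ ((Tan (ZS X Z π g) y).map (DD R χ y)) := by
    have h1 : (Tan (ZS X Z π g) y).map ((fderiv ℝ (gS π R) y).prod
      (fderiv ℝ (cS (E := E) χ) y) : _ →ₗ[ℝ] E' × ℝ) ≤
      ((Tan (ZS X Z π g) y).map (DD R χ y)).map
        ((fderiv ℝ π (GS R y) : E →ₗ[ℝ] E').prodMap LinearMap.id) := by
      rintro _ ⟨v, hv, rfl⟩
      exact ⟨_, ⟨v, hv, rfl⟩, Prod.ext (fderiv_gS hπ hy hR v).symm rfl⟩
    exact (Submodule.finrank_mono h1).trans (Submodule.finrank_map_le _ _)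
  rcases circle_cases hy.2 with hA | hB | hC | hD
  · right
    refine lt_of_le_of_lt (finrank_prod_le _) ?_
    have h1 : ((Tan (ZS X Z π g) y).map ((fderiv ℝ (gS π R) y).prod
      (fderiv ℝ (cS (E := E) χ) y) : _ →ₗ[ℝ] E' × ℝ)).map (LinearMap.fst ℝ E' ℝ) ≤
        (Tan Z y.1.2).map (fderiv ℝ g y.1.2 : V →ₗ[ℝ] E') := by
      rintro _ ⟨_, ⟨v, hv, rfl⟩, rfl⟩
      refine ⟨v.1.2, (tan_ZS hv).2.2.2, ?_⟩
      show fderiv ℝ g y.1.2 v.1.2 = fderiv ℝ (gS π R) y v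
      have hG : GS R y = y.1.1 := by
        rw [GS, tt_zero hA.le]; exact hR.zero _ (mem_K hy hR) 0 le_rfl
      rw [fderiv_gS hπ hy hR, fderiv_GS_A hy hR hA hv, hG]
      have h2 := CM.fderiv_eq_of_eqOn (X := FG.FP X Z π g) (f := fun z : E × V => π z.1)
        (g := fun z : E × V => g z.2) (x := y.1)
        (((hπ.smooth _ hy.1.1).differentiableAt (by simp)).comp y.1 differentiableAt_fst)
        (((hg.smooth _ hy.1.2.1).differentiableAt (by simp)).comp y.1 differentiableAt_snd)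
        (eventually_nhdsWithin_of_forall fun z hz => hz.2.2) (tan_ZS hv).1
      rw [fderiv_fun_comp y.1 ((hπ.smooth _ hy.1.1).differentiableAt (by simp))
        differentiableAt_fst, fderiv_fun_comp y.1
        ((hg.smooth _ hy.1.2.1).differentiableAt (by simp)) differentiableAt_snd,
        fderiv_fst, fderiv_snd] at h2
      exact h2.symm
    have h2 := (Submodule.finrank_mono h1).trans ((Submodule.finrank_map_le _ _).trans
      (hZ.finrank_Tan hy.1.2.1).le)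
    omega
  · right
    have := rank_B (χ := χ) hy hR hB
    omega
  · rcases ht.2 _ hy.1.2.1 with ⟨h1, h2⟩ | h1
    · left
      refine ⟨?_, fun v hv => ?_⟩
      · rw [cS, (kk_ev_one hC).1, mul_one]; exact h1
      · rw [fderiv_cS hχ, (kk_ev_one hC).2, h2 _ (tan_ZS hv).2.2.2]
        simp
    · right
      have := rank_C hπ hg hy hχ hR hC h1
      omega
  · left
    refine ⟨Or.inl (by rw [cS, (kk_ev_zero hD).1, mul_zero]), fun v hv => ?_⟩
    rw [fderiv_cS hχ, (kk_ev_zero hD).1, (kk_ev_zero hD).2]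
    simp

theorem clo_ZS (hπ : Subm 1 n X B π) (hZ : Clo d Z) (hg : CW.SMap Z B g) :
    Clo (d + 2) (ZS X Z π g) := by
  have h1 := FG.bc_clo hπ ⟨hZ, hg.smooth, hg.maps⟩
  have h2 := h1.prod (HW.clo_SU (k := 0))
  have e : 1 + d + (2 * 0 + 1) = d + 2 := by omega
  rw [e] at h2
  exact h2

theorem smap_gS (hπ : Subm 1 n X B π)
    (hR : DfmO X (Prod.fst '' FG.FP X Z π g) ρ R O) : CW.SMap (ZS X Z π g) B (gS π R) :=
  ⟨fun y hy => ContDiffAt.comp y (hπ.smooth _ (GS_mem hy hR))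
    (contDiffAt_GS (hR.sm _ (mem_K hy hR) _)), fun _ hy => hπ.mapsTo (GS_mem hy hR)⟩

end Crest.Agent.R208.CH
end
end

-- ▼ part R208/CH3c

/-! Row 208, block CH (helper305), part CH3c: the parameter circle: action, orientation, the
fibre integral of `(1 - tt) d kk`. -/

set_option autoImplicit false
set_option linter.unusedSectionVars false

open MeasureTheory MeasureTheory.Measure Set Filter Topology Module
open scoped ContDiff RealInnerProductSpace
open Crest.Agent.R208.F Crest.Agent.R208.FI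

noncomputable section

namespace Crest.Agent.R208.CH

open HW (U SU)

section orbit
variable {E : Type*} [NormedAddCommGroup E] [NormedSpace ℝ E] [FiniteDimensional ℝ E]

/-- integral of any form over one orbit -/
theorem J_orbit_gen {X : Set E} {φ : ℝ → E → E} (h : CM.Cir X φ) {O : Set E} (hO : Clo 1 O) {x : E}
    (hx : x ∈ X) (hOx : O = range fun t => φ t x) {al : E → Ext E}
    (hal : ∀ y ∈ O, evA E 1 (al y) (fun _ => CM.gen φ y) = 1) (η : E → Ext E) :
    J 1 O al η = ∫ s in (0 : ℝ)..(2 * Real.pi), evA E 1 (η (φ s x)) (fun _ => CM.gen φ (φ s x)) := by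
  have hπ := Real.pi_pos
  set A : Set (Eu 1) := {u : Eu 1 | u 0 ∈ Ico (0 : ℝ) (2 * Real.pi)} with hA
  have hAm : MeasurableSet A := by
    have : Measurable fun u : Eu 1 => u 0 :=
      ((EuclideanSpace.proj (0 : Fin 1) : Eu 1 →L[ℝ] ℝ).continuous).measurable
    exact this measurableSet_Ico
  have hmemO : ∀ u, CM.orb φ x u ∈ O := fun u => by rw [hOx]; exact ⟨u 0, rfl⟩
  have himg : CM.orb φ x '' A = O := by
    refine Subset.antisymm (by rintro _ ⟨u, -, rfl⟩; exact hmemO u) ?_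
    rw [hOx]
    rintro _ ⟨t, rfl⟩
    obtain ⟨s, hs, k, hk⟩ : ∃ s ∈ Ico (0 : ℝ) (2 * Real.pi), ∃ k : ℤ, t = s + 2 * Real.pi * k := by
      refine ⟨toIcoMod (CM.two_pi_pos_aux) 0 t, ?_, toIcoDiv CM.two_pi_pos_aux 0 t, ?_⟩
      · have := toIcoMod_mem_Ico CM.two_pi_pos_aux 0 t
        rwa [zero_add] at this
      · have := toIcoMod_add_toIcoDiv_zsmul CM.two_pi_pos_aux 0 t
        rw [zsmul_eq_mul] at this
        linarith
    refine ⟨!₂[s], ?_, ?_⟩
    · simpa [hA] using hs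
    · show φ ((!₂[s] : Eu 1) 0) x = φ t x
      rw [hk, h.add_int s k hx]
      rfl
  have hinj : InjOn (CM.orb φ x) A := by
    intro u hu v hv huv
    obtain ⟨k, hk⟩ := (h.eq_iff hx).1 huv
    have hu' : 0 ≤ u 0 ∧ u 0 < 2 * Real.pi := hu
    have hv' : 0 ≤ v 0 ∧ v 0 < 2 * Real.pi := hv
    have hk0 : k = 0 := by
      have h1 : (k : ℝ) < 1 := by
        by_contra hc
        push Not at hc
        nlinarith
      have h2 : (-1 : ℝ) < k := by
        by_contra hc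
        push Not at hc
        nlinarith
      have h1' : k < 1 := by exact_mod_cast h1
      have h2' : -1 < k := by exact_mod_cast h2
      omega
    rw [hk0] at hk
    ext i
    rw [Fin.fin_one_eq_zero i]
    simpa using hk
  have hd : ∀ u, HasFDerivAt (CM.orb φ x) _ u := fun u => CM.hasFDerivAt_orb h hx u
  have key := integral_param (X := O) (o := al) (om := η) (f := CM.orb φ x) hAm
    (fun u _ => (hd u).differentiableAt) hinj (fun u _ => hO.finrank_Tan (hmemO u))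
    (fun u _ w => fderiv_mem_Tan (hd u).differentiableAt (Eventually.of_forall hmemO) w)
  rw [himg] at key
  have htop : ∀ (c : E → Ext E) (u : Eu 1), top 1 (pull (CM.orb φ x) c u) =
      evA E 1 (c (φ (u 0) x)) (fun _ => CM.gen φ (φ (u 0) x)) := by
    intro c u
    unfold pull
    rw [top_pb]
    congr 1
    funext i
    rw [ContinuousLinearMap.coe_coe, (hd u).fderiv, Fin.fin_one_eq_zero i]
    simp [sb]
  have h2 : ∀ u ∈ A, top 1 (pull (CM.orb φ x) η u) * Real.sign (top 1 (pull (CM.orb φ x) al u)) =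
      evA E 1 (η (φ (u 0) x)) (fun _ => CM.gen φ (φ (u 0) x)) := by
    intro u _
    have h3 : evA E 1 (al (φ (u 0) x)) (fun _ => CM.gen φ (φ (u 0) x)) = 1 := hal _ (hmemO u)
    rw [htop, htop, h3, Real.sign_one, mul_one]
  unfold J
  rw [key, setIntegral_congr_fun hAm h2]
  have h1 : MeasurePreserving (fun u : Eu 1 => u 0) := by
    have h2 := (PiLp.volume_preserving_ofLp (Fin 1))
    have h3 := (volume_preserving_funUnique (Fin 1) ℝ)
    exact h3.comp h2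
  have hemb : MeasurableEmbedding (fun u : Eu 1 => u 0) := by
    refine (EuclideanSpace.proj (0 : Fin 1) : Eu 1 →L[ℝ] ℝ).continuous.measurableEmbedding ?_
    intro a b hab
    ext i
    rw [Fin.fin_one_eq_zero i]
    exact hab
  have h3 := h1.setIntegral_preimage_emb hemb
    (fun s => evA E 1 (η (φ s x)) (fun _ => CM.gen φ (φ s x))) (Ico (0 : ℝ) (2 * Real.pi))
  rw [intervalIntegral.integral_of_le (by positivity), ← integral_Ico_eq_integral_Ioc, ← h3]
  rfl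

end orbit

section circle
variable {E : Type*} [NormedAddCommGroup E] [NormedSpace ℝ E] [FiniteDimensional ℝ E]

/-- rotation of the parameter circle -/
def rc (t : ℝ) (y : E × U 0) : E × U 0 := (y.1, HW.rt 0 t y.2)

theorem cir_rc (W : Set E) : CM.Cir (W ×ˢ SU 0) (rc (E := E)) where
  smooth := fun t y _ => by
    have h0 : ContDiff ℝ ∞ fun q : ℝ × (E × U 0) => (q.1, q.2.2) :=
      contDiff_fst.prodMk (contDiff_snd.comp contDiff_snd)
    have h2 : ContDiff ℝ ∞ fun q : ℝ × (E × U 0) => HW.rt 0 q.1 q.2.2 :=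
      ContDiff.comp (g := fun q : ℝ × U 0 => HW.rt 0 q.1 q.2)
        (f := fun q : ℝ × (E × U 0) => (q.1, q.2.2)) HW.contDiff_rt h0
    have h1 : ContDiff ℝ ∞ fun q : ℝ × (E × U 0) => (q.2.1, HW.rt 0 q.1 q.2.2) :=
      (contDiff_fst.comp contDiff_snd).prodMk h2
    exact h1.contDiffAt
  maps := fun t y hy => ⟨hy.1, by
    rw [HW.mem_SU]
    show ‖HW.rt 0 t y.2‖ = 1
    rw [HW.norm_rt]; exact hy.2⟩
  zero := fun y _ => by rw [rc, HW.rt_zero]; rfl
  add := fun s t y _ => Prod.ext rfl (HW.rt_add s t y.2)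
  per := fun y _ => by rw [rc, HW.rt_two_pi]; rfl
  free := fun t y hy h => by
    have h1 : HW.rt 0 t y.2 = y.2 := congrArg Prod.snd h
    have h2 := HW.inner_rt_self t y.2
    rw [h1, real_inner_self_eq_norm_sq, HW.mem_SU.1 hy.2] at h2
    have h3 : Real.cos t = 1 := by linarith
    obtain ⟨k, hk⟩ := (Real.cos_eq_one_iff t).1 h3
    exact ⟨k, by rw [← hk]; ring⟩

theorem gen_rc (y : E × U 0) : CM.gen rc y = (0, HW.JJ 0 y.2) := by
  have h1 : HasDerivAt (fun t => rc t y) ((0 : E), HW.rt 0 0 (HW.JJ 0 y.2)) 0 :=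
    (hasDerivAt_const (0 : ℝ) y.1).prodMk (HW.hasDerivAt_rt 0 y.2)
  rw [HW.rt_zero] at h1
  exact h1.deriv

theorem subm_rc {m : ℕ} {W : Set E} (hW : Clo m W) : Subm 1 m (W ×ˢ SU 0) W (Prod.fst : E × U 0 → E) where
  cloZ := by
    have h := hW.prod (HW.clo_SU (k := 0))
    rwa [show m + (2 * 0 + 1) = 1 + m by omega] at h
  cloX := hW
  smooth := fun _ _ => contDiffAt_fst
  mapsTo := fun _ hz => hz.1
  sub := by
    rintro ⟨w, u⟩ hz v hv
    refine ⟨(v, 0), ?_, by rw [fderiv_fst]; rfl⟩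
    rw [Tan_prod hW.sub (HW.clo_SU (k := 0)).sub hz.1 hz.2]
    exact ⟨hv, Submodule.zero_mem _⟩

/-- the connection form of the parameter circle -/
def b0' (y : E × U 0) : Ext (E × U 0) := F.pull Prod.snd (HW.b0 0) y

theorem b0'_gen {y : E × U 0} (hy : y.2 ∈ SU 0) : evA (E × U 0) 1 (b0' y) (fun _ => CM.gen rc y) = 1 := by
  rw [b0', F.pull, evA_pb, gen_rc]
  have h1 : (fun _ : Fin 1 => ((fderiv ℝ (Prod.snd : E × U 0 → U 0) y : (E × U 0) →L[ℝ] U 0) :
      (E × U 0) →ₗ[ℝ] U 0) ((0 : E), HW.JJ 0 y.2)) = fun _ => HW.JJ 0 y.2 := by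
    funext i; rw [fderiv_snd]; rfl
  rw [HW.b0]
  simp only [h1]
  rw [evA_io, HW.b0L_apply, real_inner_self_eq_norm_sq, HW.norm_JJ, HW.mem_SU.1 hy]
  norm_num

theorem hom_b0' : T.Hom 1 (b0' (E := E)) := HW.hom_b0.pull

theorem sm_b0' (S : Set (E × U 0)) : T.Sm S (b0' (E := E)) := fun y _ =>
  contDiffAt_pull (n := ∞) (m := ∞) contDiffAt_snd (by simp) HW.contDiff_b0.contDiffAt

/-- the base point of the circle -/
def u1 : U 0 := WithLp.toLp 2 fun p => if p.2 = 0 then 1 else 0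

theorem rt_u1_zero (s : ℝ) : HW.rt 0 s u1 (0, 0) = Real.cos s := by
  rw [HW.rt_apply]
  show Real.cos s * u1 (0, 0) + Real.sin s * HW.JJ 0 u1 (0, 0) = _
  rw [HW.JJ_zero']
  simp [u1]

theorem rt_u1_one (s : ℝ) : HW.rt 0 s u1 (0, 1) = Real.sin s := by
  rw [HW.rt_apply]
  show Real.cos s * u1 (0, 1) + Real.sin s * HW.JJ 0 u1 (0, 1) = _
  rw [HW.JJ_one']
  simp [u1]

theorem range_rt : (range fun t => HW.rt 0 t u1) = SU 0 := by
  ext u
  constructor
  · rintro ⟨t, rfl⟩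
    rw [HW.mem_SU]
    have h1 := HW.inner_eq (HW.rt 0 t u1) (HW.rt 0 t u1)
    rw [real_inner_self_eq_norm_sq] at h1
    simp only [Nat.reduceAdd, Finset.univ_unique, Fin.default_eq_zero, Fin.isValue,
      Finset.sum_singleton] at h1
    rw [rt_u1_zero, rt_u1_one] at h1
    have h2 : ‖HW.rt 0 t u1‖ ^ 2 = 1 := by
      rw [h1]; nlinarith [Real.sin_sq_add_cos_sq t]
    exact (pow_eq_one_iff_of_nonneg (norm_nonneg _) two_ne_zero).1 h2
  · intro hu
    have h1 : u (0, 0) ^ 2 + u (0, 1) ^ 2 = 1 := by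
      have h2 := HW.inner_eq u u
      rw [real_inner_self_eq_norm_sq, HW.mem_SU.1 hu] at h2
      simp only [Nat.reduceAdd, Finset.univ_unique, Fin.default_eq_zero, Fin.isValue,
        Finset.sum_singleton] at h2
      nlinarith
    have h2 : ‖(⟨u (0, 0), u (0, 1)⟩ : ℂ)‖ = 1 := by
      rw [Complex.norm_def, Complex.normSq_mk, ← sq, ← sq, h1, Real.sqrt_one]
    obtain ⟨θ, hθ⟩ := (Complex.norm_eq_one_iff _).1 h2
    refine ⟨θ, ?_⟩
    have h3 : Real.cos θ = u (0, 0) := by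
      have := congrArg Complex.re hθ
      rwa [Complex.exp_ofReal_mul_I_re] at this
    have h4 : Real.sin θ = u (0, 1) := by
      have := congrArg Complex.im hθ
      rwa [Complex.exp_ofReal_mul_I_im] at this
    ext ⟨a, b⟩
    rw [Fin.fin_one_eq_zero a]
    fin_cases b
    · exact (rt_u1_zero θ).trans h3
    · exact (rt_u1_one θ).trans h4

/-- the one form `(1 - tt) d kk` on the parameter circle -/
def ek (u : U 0) : Ext (U 0) := (1 - tt u) • io ((fderiv ℝ kk u : U 0 →L[ℝ] ℝ) : Module.Dual ℝ (U 0))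

theorem contDiff_ek : ContDiff ℝ ∞ ek := by
  have h1 : ContDiff ℝ ∞ (fderiv ℝ kk) := contDiff_kk.fderiv_right (by simp)
  let L : (U 0 →L[ℝ] ℝ) →ₗ[ℝ] Ext (U 0) :=
    (io : Module.Dual ℝ (U 0) →ₗ[ℝ] Ext (U 0)) ∘ₗ (ContinuousLinearMap.coeLM ℝ)
  have h4 : ContDiff ℝ ∞ L := (LinearMap.toContinuousLinearMap L).contDiff
  exact (contDiff_const.sub contDiff_tt).smul (h4.comp h1)

/-- `F s = smoothTransition (sin s + 1/2)` -/
def Fs (s : ℝ) : ℝ := Real.smoothTransition (Real.sin s + 1 / 2)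

theorem contDiff_Fs : ContDiff ℝ ∞ Fs :=
  Real.smoothTransition.contDiff.comp (Real.contDiff_sin.add contDiff_const)

theorem deriv_Fs_zero {s : ℝ} (h : 1 / 2 < |Real.sin s|) : deriv Fs s = 0 := by
  rcases lt_abs.1 h with h1 | h1
  · have h2 : Fs =ᶠ[𝓝 s] fun _ => 1 := by
      filter_upwards [Real.continuous_sin.continuousAt.eventually (lt_mem_nhds h1)] with t ht
      exact Real.smoothTransition.one_of_one_le (by linarith)
    rw [h2.deriv_eq, deriv_const]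
  · have h1' : Real.sin s < -(1 / 2) := by linarith
    have h2 : Fs =ᶠ[𝓝 s] fun _ => 0 := by
      filter_upwards [Real.continuous_sin.continuousAt.eventually (gt_mem_nhds h1')] with t ht
      exact Real.smoothTransition.zero_of_nonpos (by linarith)
    rw [h2.deriv_eq, deriv_const]

theorem ek_eval (s : ℝ) : evA (U 0) 1 (ek (HW.rt 0 s u1)) (fun _ => HW.JJ 0 (HW.rt 0 s u1)) =
    (1 - Real.smoothTransition (Real.cos s + 1 / 2)) * deriv Fs s := by
  have h1 : HasDerivAt (fun s => kk (HW.rt 0 s u1))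
      (fderiv ℝ kk (HW.rt 0 s u1) (HW.rt 0 s (HW.JJ 0 u1))) s :=
    (contDiff_kk.contDiffAt.differentiableAt (by simp)).hasFDerivAt.comp_hasDerivAt s
      (HW.hasDerivAt_rt s u1)
  have h2 : (fun s => kk (HW.rt 0 s u1)) = Fs := funext fun s => by
    rw [kk, rt_u1_one, Fs]
  rw [h2] at h1
  rw [ek, map_smul, AlternatingMap.smul_apply, evA_io, h1.deriv, HW.rt_JJ, tt, rt_u1_zero]
  rfl

theorem int_ek : ∫ s in (0 : ℝ)..(2 * Real.pi),
    (1 - Real.smoothTransition (Real.cos s + 1 / 2)) * deriv Fs s = -1 := by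
  have hπ := Real.pi_pos
  have hc : Continuous fun s : ℝ =>
      (1 - Real.smoothTransition (Real.cos s + 1 / 2)) * deriv Fs s := by
    have h1 : Continuous (deriv Fs) := contDiff_Fs.continuous_deriv (by simp)
    have h2 : Continuous fun s : ℝ => Real.smoothTransition (Real.cos s + 1 / 2) :=
      Real.smoothTransition.continuous.comp (Real.continuous_cos.add continuous_const)
    exact (continuous_const.sub h2).mul h1
  have hi : ∀ a b : ℝ, IntervalIntegrable (fun s : ℝ =>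
      (1 - Real.smoothTransition (Real.cos s + 1 / 2)) * deriv Fs s) volume a b :=
    fun a b => hc.intervalIntegrable a b
  have hzero : ∀ s : ℝ, 0 ≤ Real.cos s →
      (1 - Real.smoothTransition (Real.cos s + 1 / 2)) * deriv Fs s = 0 := fun s hs => by
    by_cases h : 1 / 2 ≤ Real.cos s
    · rw [Real.smoothTransition.one_of_one_le (by linarith), sub_self, zero_mul]
    · rw [deriv_Fs_zero, mul_zero]
      rw [← sq_lt_sq₀ (by norm_num) (abs_nonneg _), sq_abs]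
      nlinarith [Real.sin_sq_add_cos_sq s]
  have hfull : ∀ s : ℝ, Real.cos s ≤ 0 →
      (1 - Real.smoothTransition (Real.cos s + 1 / 2)) * deriv Fs s = deriv Fs s := fun s hs => by
    by_cases h : Real.cos s ≤ -(1 / 2)
    · rw [Real.smoothTransition.zero_of_nonpos (by linarith), sub_zero, one_mul]
    · rw [deriv_Fs_zero, mul_zero]
      rw [← sq_lt_sq₀ (by norm_num) (abs_nonneg _), sq_abs]
      nlinarith [Real.sin_sq_add_cos_sq s]
  rw [← intervalIntegral.integral_add_adjacent_intervals (hi 0 (Real.pi / 2))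
    (hi (Real.pi / 2) (2 * Real.pi)), ← intervalIntegral.integral_add_adjacent_intervals
    (hi (Real.pi / 2) (3 * Real.pi / 2)) (hi (3 * Real.pi / 2) (2 * Real.pi))]
  have e1 : ∫ s in (0 : ℝ)..(Real.pi / 2),
      (1 - Real.smoothTransition (Real.cos s + 1 / 2)) * deriv Fs s = 0 := by
    refine intervalIntegral.integral_zero_ae (Eventually.of_forall fun s hs => ?_)
    rw [uIoc_of_le (by positivity)] at hs
    exact hzero s (Real.cos_nonneg_of_mem_Icc ⟨by linarith [hs.1], hs.2⟩)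
  have e3 : ∫ s in (3 * Real.pi / 2)..(2 * Real.pi),
      (1 - Real.smoothTransition (Real.cos s + 1 / 2)) * deriv Fs s = 0 := by
    refine intervalIntegral.integral_zero_ae (Eventually.of_forall fun s hs => ?_)
    rw [uIoc_of_le (by linarith)] at hs
    refine hzero s ?_
    rw [← Real.cos_sub_two_pi]
    exact Real.cos_nonneg_of_mem_Icc ⟨by linarith [hs.1], by linarith [hs.2]⟩
  have e2 : ∫ s in (Real.pi / 2)..(3 * Real.pi / 2),
      (1 - Real.smoothTransition (Real.cos s + 1 / 2)) * deriv Fs s = -1 := by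
    have h1 : ∫ s in (Real.pi / 2)..(3 * Real.pi / 2),
      (1 - Real.smoothTransition (Real.cos s + 1 / 2)) * deriv Fs s =
      ∫ s in (Real.pi / 2)..(3 * Real.pi / 2), deriv Fs s := by
      refine intervalIntegral.integral_congr fun s hs => ?_
      rw [uIcc_of_le (by linarith)] at hs
      exact hfull s (Real.cos_nonpos_of_pi_div_two_le_of_le hs.1 (by linarith [hs.2]))
    rw [h1, intervalIntegral.integral_deriv_eq_sub
      (fun s _ => (contDiff_Fs.contDiffAt.differentiableAt (by simp)))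
      ((contDiff_Fs.continuous_deriv (by simp)).intervalIntegrable _ _)]
    have h2 : Real.sin (3 * Real.pi / 2) = -1 := by
      rw [show 3 * Real.pi / 2 = Real.pi / 2 + Real.pi by ring, Real.sin_add_pi,
        Real.sin_pi_div_two]
    rw [Fs, Fs, h2, Real.sin_pi_div_two, Real.smoothTransition.zero_of_nonpos (by norm_num),
      Real.smoothTransition.one_of_one_le (by norm_num)]
    norm_num
  rw [e1, e2, e3]
  norm_num

/-- **the fibre integral of `(1 - tt) d kk`** -/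
theorem J_fibre_ek {m : ℕ} {W : Set E} (hW : Clo m W) {w : E} (hw : w ∈ W) :
    J 1 ((W ×ˢ SU 0) ∩ (Prod.fst : E × U 0 → E) ⁻¹' {w}) b0' (F.pull Prod.snd ek) = -1 := by
  have hx : (w, u1) ∈ W ×ˢ SU 0 := ⟨hw, by rw [← range_rt]; exact ⟨0, by
    show HW.rt 0 0 u1 = u1
    rw [HW.rt_zero]; rfl⟩⟩
  have hO : (W ×ˢ SU 0) ∩ (Prod.fst : E × U 0 → E) ⁻¹' {w} = range fun t => rc t (w, u1) := by
    ext ⟨a, u⟩
    constructor
    · rintro ⟨⟨h1, h2⟩, h3⟩
      have h3' : a = w := h3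
      rw [← range_rt] at h2
      obtain ⟨t, ht⟩ := h2
      exact ⟨t, Prod.ext h3'.symm ht⟩
    · rintro ⟨t, ht⟩
      have h1 : w = a := congrArg Prod.fst ht
      have h2 : HW.rt 0 t u1 = u := congrArg Prod.snd ht
      refine ⟨⟨by rw [← h1]; exact hw, ?_⟩, h1.symm⟩
      rw [← range_rt]; exact ⟨t, h2⟩
  rw [J_orbit_gen (cir_rc W) ((subm_rc hW).clo_fibre w) hx hO (fun y hy => b0'_gen hy.1.2)
    (F.pull Prod.snd ek)]
  rw [← int_ek]
  congr 1
  funext s
  rw [← ek_eval, F.pull, evA_pb, gen_rc]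
  have h1 : (fun _ : Fin 1 => ((fderiv ℝ (Prod.snd : E × U 0 → U 0) (rc s (w, u1)) :
      (E × U 0) →L[ℝ] U 0) : (E × U 0) →ₗ[ℝ] U 0) ((0 : E), HW.JJ 0 (rc s (w, u1)).2)) =
      fun _ => HW.JJ 0 (HW.rt 0 s u1) := by
    funext i; rw [fderiv_snd]; rfl
  rw [h1]
  rfl

end circle

end Crest.Agent.R208.CH
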