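import Crest.Agent.R208.CM0
import Crest.Agent.R208.FV1
import Crest.Agent.R208.FH10a

-- ▼ part R208/CM1
section

/-! Row 208, block CM (helper971), part CM1: equivariant embedding of a compact submanifold with a
free circle action into the unit sphere of `ℂ^m`. -/

set_option autoImplicit false
set_option linter.unusedSectionVars false
set_option linter.unusedVariables false

open Set Filter Topology Module MeasureTheory
open scoped ContDiff RealInnerProductSpace
open Crest.Agent.R208.F Crest.Agent.R208.FI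

noncomputable section

namespace Crest.Agent.R208.CM

local notation "π" => Real.pi

variable {E : Type} [NormedAddCommGroup E] [NormedSpace ℝ E] [FiniteDimensional ℝ E]
  {X : Set E} {φ : ℝ → E → E}

/-- the integrand of the first Fourier mode along the orbits -/
def avi (φ : ℝ → E → E) (ρ : E → ℂ) (q : E × ℝ) : ℂ :=
  Complex.exp (-((2 * π * q.2 : ℝ) : ℂ) * Complex.I) * ρ (φ (2 * π * q.2) q.1)

/-- the first Fourier mode along the orbits -/
def avg (φ : ℝ → E → E) (ρ : E → ℂ) : E → ℂ := I1 (avi φ ρ)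

theorem contDiffAt_avi (h : Cir X φ) {ρ : E → ℂ} (hρ : ContDiff ℝ ∞ ρ) {x : E} (hx : x ∈ X)
    (t : ℝ) : ContDiffAt ℝ ∞ (avi φ ρ) (x, t) := by
  have h1 : ContDiffAt ℝ ∞ (fun q : E × ℝ => Complex.exp (-((2 * π * q.2 : ℝ) : ℂ) * Complex.I))
      (x, t) := by
    have : ContDiff ℝ ∞ (fun q : E × ℝ => ((2 * π * q.2 : ℝ) : ℂ)) :=
      Complex.ofRealCLM.contDiff.comp (contDiff_const.mul contDiff_snd)
    exact ((this.neg.mul contDiff_const).cexp).contDiffAt
  have h2 : ContDiffAt ℝ ∞ (fun q : E × ℝ => φ (2 * π * q.2) q.1) (x, t) := by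
    have h3 : ContDiffAt ℝ ∞ (fun q : E × ℝ => (2 * π * q.2, q.1)) (x, t) :=
      ((contDiff_const.mul contDiff_snd).prodMk contDiff_fst).contDiffAt
    exact ContDiffAt.comp (g := fun q : ℝ × E => φ q.1 q.2) (x, t) (h.smooth _ x hx) h3
  exact h1.mul (hρ.contDiffAt.comp (x, t) h2)

theorem contDiffAt_avg (h : Cir X φ) {ρ : E → ℂ} (hρ : ContDiff ℝ ∞ ρ) {x : E} (hx : x ∈ X) :
    ContDiffAt ℝ ∞ (avg φ ρ) x := contDiffAt_I1 fun t _ => contDiffAt_avi h hρ hx t

theorem avg_equi (h : Cir X φ) (ρ : E → ℂ) {x : E} (hx : x ∈ X) (t : ℝ) :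
    avg φ ρ (φ t x) = Complex.exp ((t : ℂ) * Complex.I) * avg φ ρ x := by
  have hπ : (2 * π : ℝ) ≠ 0 := by positivity
  set P : ℝ → ℂ := fun s => avi φ ρ (x, s) with hP
  have hper : Function.Periodic P 1 := by
    intro s
    simp only [hP, avi]
    have e1 : (2 * π * (s + 1) : ℝ) = 2 * π * s + 2 * π := by ring
    rw [e1, h.add_two_pi _ hx]
    congr 1
    have e2 : (-((2 * π * s + 2 * π : ℝ) : ℂ) * Complex.I) =
        -((2 * π * s : ℝ) : ℂ) * Complex.I - 2 * π * Complex.I := by push_cast; ring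
    rw [e2, Complex.exp_sub, Complex.exp_two_pi_mul_I, div_one]
  have h1 : ∀ s, avi φ ρ (φ t x, s) = Complex.exp ((t : ℂ) * Complex.I) * P (s + t / (2 * π)) := by
    intro s
    simp only [hP, avi]
    have e1 : (2 * π * (s + t / (2 * π)) : ℝ) = 2 * π * s + t := by field_simp
    rw [e1, ← h.add _ _ x hx, ← mul_assoc, ← Complex.exp_add]
    congr 2
    push_cast; ring
  unfold avg I1
  simp only [h1]
  rw [intervalIntegral.integral_const_mul]
  congr 1
  rw [intervalIntegral.integral_comp_add_right (fun s => P s)]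
  have := hper.intervalIntegral_add_eq (t / (2 * π)) 0
  rw [zero_add] at this ⊢
  rw [add_comm 1 (t / (2 * π))]
  exact this

/-- **non vanishing** of a first Fourier mode -/
theorem exists_avg_ne (h : Cir X φ) {x : E} (hx : x ∈ X) :
    ∃ ρ : E → ℂ, ContDiff ℝ ∞ ρ ∧ avg φ ρ x ≠ 0 := by
  classical
  have hcont : Continuous fun s => φ s x :=
    continuous_iff_continuousAt.2 fun t => (h.smooth_left t hx).continuousAt
  set C : Set E := (fun s => φ s x) '' (Icc 0 (2 * π) ∩ {s | Real.cos s ≤ 0}) with hC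
  have hCc : IsCompact C :=
    (isCompact_Icc.inter_right (isClosed_le Real.continuous_cos continuous_const)).image hcont
  have hxC : x ∉ C := by
    rintro ⟨s, ⟨-, hs⟩, hsx⟩
    obtain ⟨k, rfl⟩ := h.free s x hx hsx
    have h1 : Real.cos (2 * π * k) = 1 := by
      rw [mul_comm]; exact Real.cos_int_mul_two_pi k
    have h2 : Real.cos (2 * π * k) ≤ 0 := hs
    rw [h1] at h2
    exact absurd h2 (by norm_num)
  obtain ⟨ε, hε, hεC⟩ := Metric.isOpen_iff.1 hCc.isClosed.isOpen_compl x hxC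
  let f : ContDiffBump x := ⟨ε / 2, ε, by positivity, by linarith⟩
  refine ⟨fun y => ((f y : ℝ) : ℂ), Complex.ofRealCLM.contDiff.comp f.contDiff, fun h0 => ?_⟩
  have hcont' : Continuous fun s => avi φ (fun y => ((f y : ℝ) : ℂ)) (x, s) := by
    have hf : ContDiff ℝ ∞ (fun y => ((f y : ℝ) : ℂ)) := Complex.ofRealCLM.contDiff.comp f.contDiff
    refine continuous_iff_continuousAt.2 fun t => ?_
    exact ((contDiffAt_avi h hf hx t).continuousAt).comp (f := fun s : ℝ => (x, s)) (by fun_prop)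
  have hre : ∀ s, (avi φ (fun y => ((f y : ℝ) : ℂ)) (x, s)).re =
      Real.cos (2 * π * s) * f (φ (2 * π * s) x) := by
    intro s
    simp only [avi]
    rw [Complex.re_mul_ofReal]
    congr 1
    have : (-((2 * π * s : ℝ) : ℂ) * Complex.I) = ((-(2 * π * s) : ℝ) : ℂ) * Complex.I := by
      push_cast; ring
    rw [this, Complex.exp_ofReal_mul_I_re, Real.cos_neg]
  have h2 : (avg φ (fun y => ((f y : ℝ) : ℂ)) x).re =
      ∫ s in (0 : ℝ)..1, Real.cos (2 * π * s) * f (φ (2 * π * s) x) := by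
    unfold avg I1
    have := Complex.reCLM.intervalIntegral_comp_comm (hcont'.intervalIntegrable (μ := volume) 0 1)
    simp only [Complex.reCLM_apply] at this
    rw [← this]
    simp only [hre]
  have h3 : 0 < ∫ s in (0 : ℝ)..1, Real.cos (2 * π * s) * f (φ (2 * π * s) x) := by
    refine intervalIntegral.integral_pos zero_lt_one ?_ ?_ ⟨0, by simp, ?_⟩
    · refine Continuous.continuousOn ?_
      have : Continuous fun s : ℝ => φ (2 * π * s) x := hcont.comp (by fun_prop)
      exact (Real.continuous_cos.comp (by fun_prop)).mul (f.continuous.comp this)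
    · intro s hs
      by_cases hc : Real.cos (2 * π * s) ≤ 0
      · have : φ (2 * π * s) x ∈ C := by
          refine ⟨2 * π * s, ⟨⟨by have := hs.1; positivity, ?_⟩, hc⟩, rfl⟩
          have := hs.2
          nlinarith [Real.pi_pos]
        have h4 : φ (2 * π * s) x ∉ Metric.ball x ε := fun hb => hεC hb this
        have h5 : f (φ (2 * π * s) x) = 0 := by
          refine f.zero_of_le_dist ?_
          rw [Metric.mem_ball, not_lt] at h4
          exact h4
        rw [h5, mul_zero]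
      · push Not at hc
        exact mul_nonneg hc.le f.nonneg
    · rw [mul_zero, Real.cos_zero, h.zero x hx, one_mul]
      exact f.pos_of_mem_ball (Metric.mem_ball_self hε)
  rw [← h2, h0] at h3
  exact absurd h3 (by simp)

end Crest.Agent.R208.CM
end
end

-- ▼ part R208/CM1b

/-! Row 208, block CM (helper971), part CM1b: equivariant pieces (phase retraction). -/

set_option autoImplicit false
set_option linter.unusedSectionVars false
set_option linter.unusedVariables false

open Set Filter Topology Module MeasureTheory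
open scoped ContDiff RealInnerProductSpace
open Crest.Agent.R208.F Crest.Agent.R208.FI

noncomputable section

namespace Crest.Agent.R208.CM

local notation "π" => Real.pi

section gen

variable {E W : Type*} [NormedAddCommGroup E] [NormedSpace ℝ E] [NormedAddCommGroup W]
  [NormedSpace ℝ W] {X : Set E}

/-- two functions agreeing on `X` have the same derivative on `Tan X x`. -/
theorem fderiv_eq_of_eqOn {f g : E → W} {x : E} (hf : DifferentiableAt ℝ f x)
    (hg : DifferentiableAt ℝ g x) (h : ∀ᶠ y in 𝓝[X] x, f y = g y) {v : E} (hv : v ∈ Tan X x) :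
    fderiv ℝ f x v = fderiv ℝ g x v := by
  have : Tan X x ≤ LinearMap.ker ((fderiv ℝ f x - fderiv ℝ g x : E →L[ℝ] W) : E →ₗ[ℝ] W) := by
    rw [Tan, Submodule.span_le]
    rintro v ⟨γ, rfl, hγ, hS⟩
    have h1 : HasDerivAt (fun t => f (γ t)) (fderiv ℝ f (γ 0) v) 0 :=
      hf.hasFDerivAt.comp_hasDerivAt 0 hγ
    have h2 : HasDerivAt (fun t => g (γ t)) (fderiv ℝ g (γ 0) v) 0 :=
      hg.hasFDerivAt.comp_hasDerivAt 0 hγ
    have h3 : Tendsto γ (𝓝 0) (𝓝[X] (γ 0)) :=
      tendsto_nhdsWithin_iff.2 ⟨hγ.continuousAt, hS⟩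
    have h4 : (fun t => f (γ t)) =ᶠ[𝓝 0] fun t => g (γ t) := h3.eventually h
    have h5 := (h2.congr_of_eventuallyEq h4).unique h1
    change fderiv ℝ f (γ 0) v - fderiv ℝ g (γ 0) v = 0
    rw [← h5, sub_self]
  have := this hv
  exact sub_eq_zero.1 this

end gen

variable {E : Type} [NormedAddCommGroup E] [NormedSpace ℝ E] [FiniteDimensional ℝ E]
  {X : Set E} {φ : ℝ → E → E}

theorem Cir.fderiv_inj (h : Cir X φ) {x : E} (hx : x ∈ X) (t : ℝ) {v : E} (hv : v ∈ Tan X x)
    (h0 : fderiv ℝ (φ t) x v = 0) : v = 0 := by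
  have h1 : HasFDerivAt (φ t) (fderiv ℝ (φ t) x) x :=
    ((h.smooth_right t hx).differentiableAt (by simp)).hasFDerivAt
  have h2 : HasFDerivAt (φ (-t)) (fderiv ℝ (φ (-t)) (φ t x)) (φ t x) :=
    ((h.smooth_right (-t) (h.maps t hx)).differentiableAt (by simp)).hasFDerivAt
  have h3 := h2.comp x h1
  have h4 := fderiv_eq_of_eqOn (X := X) (f := φ (-t) ∘ φ t) (g := id) h3.differentiableAt
    differentiableAt_id (eventually_nhdsWithin_of_forall fun y hy => h.neg_add t hy) hv
  rw [h3.fderiv, fderiv_id] at h4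
  have h5 : fderiv ℝ (φ (-t)) (φ t x) (fderiv ℝ (φ t) x v) = v := h4
  rw [← h5, h0, map_zero]

/-- the phase retraction defined by `u` -/
def ret (φ : ℝ → E → E) (u : E → ℂ) (y : E) : E := φ (-(Complex.arg (u y))) y

theorem Cir.ret_eq (h : Cir X φ) {u : E → ℂ} {y : E} (hy : y ∈ X) (hu : u y ≠ 0) {θ : ℝ}
    (hθ : Complex.exp (θ * Complex.I) = Complex.exp ((Complex.arg (u y) : ℂ) * Complex.I)) :
    ret φ u y = φ (-θ) y := by
  obtain ⟨n, hn⟩ := Complex.exp_eq_exp_iff_exists_int.1 hθ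
  have h1 : θ = Complex.arg (u y) + 2 * π * n := by
    have h2 : ((θ : ℂ)) * Complex.I = ((Complex.arg (u y) + 2 * π * n : ℝ) : ℂ) * Complex.I := by
      rw [hn]; push_cast; ring
    have h3 := mul_right_cancel₀ Complex.I_ne_zero h2
    exact_mod_cast h3
  unfold ret
  rw [h1, show -(Complex.arg (u y) + 2 * π * n) = -Complex.arg (u y) + 2 * π * ((-n : ℤ) : ℝ) by
    push_cast; ring, h.add_int _ _ hy]

theorem exp_arg {z : ℂ} (hz : z ≠ 0) : Complex.exp ((Complex.arg z : ℂ) * Complex.I) = z / ‖z‖ := by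
  have h1 := Complex.norm_mul_exp_arg_mul_I z
  have h2 : (‖z‖ : ℂ) ≠ 0 := by simpa using hz
  rw [eq_div_iff h2, mul_comm]
  exact h1

theorem Cir.ret_inv (h : Cir X φ) {u : E → ℂ}
    (hu : ∀ x ∈ X, ∀ t : ℝ, u (φ t x) = Complex.exp (t * Complex.I) * u x) {x : E} (hx : x ∈ X)
    (hx0 : u x ≠ 0) (t : ℝ) : ret φ u (φ t x) = ret φ u x := by
  have h0 : u (φ t x) ≠ 0 := by rw [hu x hx]; exact mul_ne_zero (Complex.exp_ne_zero _) hx0
  have h1 : ret φ u (φ t x) = φ (-(t + Complex.arg (u x))) (φ t x) := by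
    refine h.ret_eq (h.maps t hx) h0 ?_
    rw [exp_arg h0, hu x hx, norm_mul, Complex.norm_exp_ofReal_mul_I, one_mul]
    push_cast
    rw [add_mul, Complex.exp_add, exp_arg hx0, mul_div_assoc]
  rw [h1, ← h.add _ _ x hx, ret]
  congr 1; ring

theorem contDiffAt_arg {z : ℂ} (hz : z ∈ Complex.slitPlane) :
    ContDiffAt ℝ ∞ Complex.arg z := by
  have h1 : ContDiffAt ℝ ∞ Complex.log z := (Complex.contDiffAt_log hz).restrict_scalars ℝ
  have h2 := Complex.imCLM.contDiff.contDiffAt.comp z h1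
  exact h2.congr_of_eventuallyEq (Eventually.of_forall fun w => (Complex.log_im w).symm)

/-- the local smooth model of the retraction -/
def ret' (φ : ℝ → E → E) (u : E → ℂ) (x y : E) : E :=
  φ (-(Complex.arg (u y / u x) + Complex.arg (u x))) y

theorem Cir.ret'_eq (h : Cir X φ) {u : E → ℂ} {x y : E} (hy : y ∈ X) (hx0 : u x ≠ 0)
    (hy0 : u y ≠ 0) : ret φ u y = ret' φ u x y := by
  refine h.ret_eq hy hy0 ?_
  push_cast
  have h1 : u y / u x ≠ 0 := div_ne_zero hy0 hx0
  have h2 : (‖u x‖ : ℂ) ≠ 0 := by simpa using hx0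
  have h3 : (‖u y‖ : ℂ) ≠ 0 := by simpa using hy0
  rw [add_mul, Complex.exp_add, exp_arg h1, exp_arg hx0, exp_arg hy0, norm_div]
  push_cast
  field_simp

theorem contDiffAt_ph {u : E → ℂ} {x : E} (hux : ContDiffAt ℝ ∞ u x) (hx0 : u x ≠ 0) :
    ContDiffAt ℝ ∞ (fun y => -(Complex.arg (u y / u x) + Complex.arg (u x))) x := by
  have h1 : ContDiffAt ℝ ∞ (fun y => u y / u x) x := by
    simp only [div_eq_mul_inv]
    exact hux.mul contDiffAt_const
  have h2 : ContDiffAt ℝ ∞ Complex.arg (u x / u x) := by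
    refine contDiffAt_arg ?_
    rw [div_self hx0]; exact Complex.one_mem_slitPlane
  have h3 : ContDiffAt ℝ ∞ (fun y => Complex.arg (u y / u x)) x :=
    ContDiffAt.comp (g := Complex.arg) (f := fun y => u y / u x) x h2 h1
  exact (h3.add contDiffAt_const).neg

theorem Cir.contDiffAt_ret' (h : Cir X φ) {u : E → ℂ} {x : E} (hx : x ∈ X)
    (hux : ContDiffAt ℝ ∞ u x) (hx0 : u x ≠ 0) : ContDiffAt ℝ ∞ (ret' φ u x) x := by
  exact ContDiffAt.comp (g := fun q : ℝ × E => φ q.1 q.2)
    (f := fun y => (-(Complex.arg (u y / u x) + Complex.arg (u x)), y)) x (h.smooth _ x hx)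
    ((contDiffAt_ph hux hx0).prodMk contDiffAt_id)

/-- the kernel of the derivative of the retraction on the tangent space -/
theorem Cir.ker_ret' (h : Cir X φ) {u : E → ℂ} {x : E} (hx : x ∈ X)
    (hux : ContDiffAt ℝ ∞ u x) (hx0 : u x ≠ 0) {v : E} (hv : v ∈ Tan X x)
    (h0 : fderiv ℝ (ret' φ u x) x v = 0) : ∃ c : ℝ, v = c • gen φ x := by
  set θ : E → ℝ := fun y => -(Complex.arg (u y / u x) + Complex.arg (u x)) with hθ
  have hθd : HasFDerivAt θ (fderiv ℝ θ x) x :=
    ((contDiffAt_ph hux hx0).differentiableAt (by simp)).hasFDerivAt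
  have h1 : HasFDerivAt (fun q : ℝ × E => φ q.1 q.2)
      (fderiv ℝ (fun q : ℝ × E => φ q.1 q.2) (θ x, x)) (θ x, x) :=
    ((h.smooth _ x hx).differentiableAt (by simp)).hasFDerivAt
  set A := fderiv ℝ (fun q : ℝ × E => φ q.1 q.2) (θ x, x) with hA
  have h2 : HasFDerivAt (fun y => φ (θ y) y) _ x :=
    HasFDerivAt.comp (g := fun q : ℝ × E => φ q.1 q.2) (f := fun y => (θ y, y)) x h1
      (hθd.prodMk (hasFDerivAt_id x))
  have h3 : fderiv ℝ (ret' φ u x) x v = A (fderiv ℝ θ x v, v) := by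
    have : fderiv ℝ (ret' φ u x) x = _ := h2.fderiv
    rw [this]; rfl
  have h4 : A (1, 0) = gen φ (φ (θ x) x) := by
    have e1 : HasDerivAt (fun s : ℝ => (s, x)) ((1 : ℝ), (0 : E)) (θ x) :=
      (hasDerivAt_id (θ x)).prodMk (hasDerivAt_const (θ x) x)
    have e2 : HasDerivAt (fun s => φ s x) (A (1, 0)) (θ x) :=
      HasFDerivAt.comp_hasDerivAt (l := fun q : ℝ × E => φ q.1 q.2) (f := fun s : ℝ => (s, x))
        (θ x) h1 e1
    exact e2.unique (h.hasDerivAt hx (θ x))
  have h5 : A (0, v) = fderiv ℝ (φ (θ x)) x v := by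
    have e1 : HasFDerivAt (fun y : E => (θ x, y)) (ContinuousLinearMap.inr ℝ ℝ E) x :=
      (hasFDerivAt_const (θ x) x).prodMk (hasFDerivAt_id x)
    have e2 : HasFDerivAt (fun y => φ (θ x) y) (A.comp (ContinuousLinearMap.inr ℝ ℝ E)) x :=
      HasFDerivAt.comp (g := fun q : ℝ × E => φ q.1 q.2) x h1 e1
    have e3 : fderiv ℝ (φ (θ x)) x = _ := e2.fderiv
    rw [e3]; rfl
  have h6 : A (fderiv ℝ θ x v, v) = fderiv ℝ θ x v • A (1, 0) + A (0, v) := by
    rw [← map_smul, ← map_add]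
    congr 1
    simp
  rw [h3, h6, h4, h5, ← h.fderiv_gen hx, ← map_smul, ← map_add] at h0
  have h7 := h.fderiv_inj hx _ ((Tan X x).add_mem ((Tan X x).smul_mem _ (h.gen_mem hx)) hv) h0
  refine ⟨-(fderiv ℝ θ x v), ?_⟩
  rw [neg_smul]
  exact eq_neg_of_add_eq_zero_right h7

end Crest.Agent.R208.CM
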