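import Crest.Agent.R208.CM3
import Crest.Agent.R208.T2d

/-! Row 208, block CM (helper971), part CM3b: the tautological complex line over the quotient, as an
oriented real plane field; `X` is its unit sphere bundle. -/

set_option autoImplicit false
set_option linter.unusedSectionVars false
set_option linter.unusedVariables false

open Set Filter Topology Module MeasureTheory
open scoped ContDiff RealInnerProductSpace ComplexConjugate
open Crest.Agent.R208.F Crest.Agent.R208.FI
open Crest.Agent.R208.CW (SMap)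
open Crest.Agent.R208.T (Sm Cl Eqv Coh eqv_iff)

noncomputable section

namespace Crest.Agent.R208.CM

variable {m : ℕ}

/-- index set of the real coordinates of `ℂ^m` -/
abbrev RI (m : ℕ) : Type := Fin m × Fin 2

/-- `1` and `-i` -/
def wz (s : Fin 2) : ℂ := if s = 0 then 1 else -Complex.I

@[simp] theorem wz_zero : wz 0 = 1 := rfl
@[simp] theorem wz_one : wz 1 = -Complex.I := rfl

/-- real coordinates of `ℂ^m` -/
def rcL (m : ℕ) : (Fin m → ℂ) →L[ℝ] EuclideanSpace ℝ (RI m) :=
  LinearMap.toContinuousLinearMap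
    { toFun := fun z => WithLp.toLp 2 fun p => (z p.1 * wz p.2).re
      map_add' := fun x y => by
        ext p; simp [add_mul]
      map_smul' := fun r x => by
        ext p; simp [mul_assoc] }

theorem rcL_apply (z : Fin m → ℂ) (p : RI m) : rcL m z p = (z p.1 * wz p.2).re := rfl

theorem rcL_zero_apply (z : Fin m → ℂ) (a : Fin m) : rcL m z (a, 0) = (z a).re := by
  rw [rcL_apply]; simp

theorem rcL_one_apply (z : Fin m → ℂ) (a : Fin m) : rcL m z (a, 1) = (z a).im := by
  rw [rcL_apply]; simp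

theorem rcL_inj {z w : Fin m → ℂ} (h : rcL m z = rcL m w) : z = w := by
  funext a
  refine Complex.ext ?_ ?_
  · have := congrArg (fun v : EuclideanSpace ℝ (RI m) => v (a, 0)) h
    simpa only [rcL_zero_apply] using this
  · have := congrArg (fun v : EuclideanSpace ℝ (RI m) => v (a, 1)) h
    simpa only [rcL_one_apply] using this

/-- the complex entries -/
def ce (Q : MM m) (p q : RI m) : ℂ := Q p.1 q.1 * (wz p.2 * conj (wz q.2))

/-- the real matrix of the realification -/
def Pm (Q : MM m) : Matrix (RI m) (RI m) ℝ := Matrix.of fun p q => (ce Q p q).re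

/-- **the tautological line** as a field of real projections -/
def PL (Q : MM m) : EuclideanSpace ℝ (RI m) →L[ℝ] EuclideanSpace ℝ (RI m) := T.mE (Pm Q)

/-- its orientation tensor -/
def WL (Q : MM m) (I : Unit × Fin 2 → RI m) : ℝ := (ce Q (I ((), 0)) (I ((), 1))).im

theorem ce_add (Q Q' : MM m) (p q : RI m) : ce (Q + Q') p q = ce Q p q + ce Q' p q := by
  simp [ce, add_mul]

theorem ce_smul (r : ℝ) (Q : MM m) (p q : RI m) : ce (r • Q) p q = r • ce Q p q := by
  simp [ce, mul_assoc]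

theorem contDiff_PL {k : WithTop ℕ∞} : ContDiff ℝ k (PL (m := m)) := by
  let L : MM m →ₗ[ℝ] (EuclideanSpace ℝ (RI m) →L[ℝ] EuclideanSpace ℝ (RI m)) :=
    { toFun := PL
      map_add' := fun Q Q' => by
        ext v p
        change T.mE (Pm (Q + Q')) v p = T.mE (Pm Q) v p + T.mE (Pm Q') v p
        simp only [T.mE_apply, Pm, Matrix.of_apply, ce_add, Complex.add_re, add_mul]
        exact Finset.sum_add_distrib
      map_smul' := fun r Q => by
        ext v p
        change T.mE (Pm (r • Q)) v p = r * T.mE (Pm Q) v p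
        simp only [T.mE_apply, Pm, Matrix.of_apply, ce_smul, Complex.smul_re, smul_eq_mul,
          Finset.mul_sum, mul_assoc] }
  exact (LinearMap.toContinuousLinearMap L).contDiff

theorem contDiff_WL {k : WithTop ℕ∞} (I : Unit × Fin 2 → RI m) :
    ContDiff ℝ k (fun Q : MM m => WL Q I) := by
  let L : MM m →ₗ[ℝ] ℝ :=
    { toFun := fun Q => WL Q I
      map_add' := fun Q Q' => by simp only [WL, ce_add, Complex.add_im]
      map_smul' := fun r Q => by simp only [WL, ce_smul, Complex.smul_im, RingHom.id_apply,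
        smul_eq_mul] }
  exact (LinearMap.toContinuousLinearMap L).contDiff

/-- the frame `(z, i z)` -/
def fm (z : Fin m → ℂ) : Matrix (RI m) (Unit × Fin 2) ℝ :=
  Matrix.of fun p k => if k.2 = 0 then (z p.1 * wz p.2).re else -(z p.1 * wz p.2).im

theorem fm_zero (z : Fin m → ℂ) (p : RI m) (u : Unit) : fm z p (u, 0) = (z p.1 * wz p.2).re := rfl
theorem fm_one (z : Fin m → ℂ) (p : RI m) (u : Unit) : fm z p (u, 1) = -(z p.1 * wz p.2).im := rfl

theorem ce_jj {E : Type} {g : E → Fin m → ℂ} (x : E) (p q : RI m) :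
    ce (jj g x) p q = (g x p.1 * wz p.2) * conj (g x q.1 * wz q.2) := by
  simp only [ce, jj, map_mul]; ring

theorem Pm_jj {E : Type} {g : E → Fin m → ℂ} (x : E) :
    Pm (jj g x) = fm (g x) * (fm (g x)).transpose := by
  ext p q
  rw [Matrix.mul_apply, Fintype.sum_prod_type]
  simp only [Finset.univ_unique, Finset.sum_const, Finset.card_singleton, one_smul,
    Fin.sum_univ_two, Matrix.transpose_apply, PUnit.default_eq_unit, fm_zero, fm_one]
  rw [Pm, Matrix.of_apply, ce_jj, Complex.mul_re, Complex.conj_re, Complex.conj_im]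
  ring

theorem fm_tr_mul {z : Fin m → ℂ} (hz : ∑ a, ‖z a‖ ^ 2 = 1) : (fm z).transpose * fm z = 1 := by
  have h1 : ∀ a, (z a).re ^ 2 + (z a).im ^ 2 = ‖z a‖ ^ 2 := fun a => by
    rw [← Complex.normSq_eq_norm_sq, Complex.normSq_apply]; ring
  have key : ∀ s t : Fin 2, ∑ p, fm z p ((), s) * fm z p ((), t) = if s = t then 1 else 0 := by
    intro s t
    rw [Fintype.sum_prod_type]
    simp only [Fin.sum_univ_two]
    revert s t
    simp only [Fin.forall_fin_two, fm_zero, fm_one, wz_zero, wz_one, mul_one]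
    refine ⟨⟨?_, ?_⟩, ⟨?_, ?_⟩⟩
    · rw [if_pos trivial, ← hz]
      refine Finset.sum_congr rfl fun a _ => ?_
      rw [← h1 a]; simp; ring
    · rw [if_neg (by decide)]
      refine Finset.sum_eq_zero fun a _ => ?_
      simp; ring
    · rw [if_neg (by decide)]
      refine Finset.sum_eq_zero fun a _ => ?_
      simp; ring
    · rw [if_pos trivial, ← hz]
      refine Finset.sum_congr rfl fun a _ => ?_
      rw [← h1 a]; simp; ring
  ext ⟨⟨⟩, s⟩ ⟨⟨⟩, t⟩
  rw [Matrix.mul_apply, Matrix.one_apply]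
  simp only [Matrix.transpose_apply]
  rw [key s t]
  by_cases hst : s = t
  · rw [if_pos hst, hst, if_pos rfl]
  · rw [if_neg hst, if_neg (by simpa using hst)]

/-- `det` over `Unit × Fin 2` -/
theorem det_unit_two (M : Matrix (Unit × Fin 2) (Unit × Fin 2) ℝ) :
    M.det = M ((), 0) ((), 0) * M ((), 1) ((), 1) - M ((), 0) ((), 1) * M ((), 1) ((), 0) := by
  let e : Fin 2 ≃ Unit × Fin 2 := (Equiv.punitProd (Fin 2)).symm
  rw [← Matrix.det_submatrix_equiv_self e, Matrix.det_fin_two]
  rfl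

variable {E : Type} [NormedAddCommGroup E] [NormedSpace ℝ E] [FiniteDimensional ℝ E]
  {X : Set E} {φ : ℝ → E → E} {g : E → Fin m → ℂ} {n : ℕ}

theorem WL_jj (x : E) (I : Unit × Fin 2 → RI m) :
    WL (jj g x) I = ((fm (g x)).submatrix I id).det := by
  rw [det_unit_two]
  simp only [Matrix.submatrix_apply, id, fm_zero, fm_one]
  rw [WL, ce_jj, Complex.mul_im, Complex.conj_re, Complex.conj_im]
  ring

namespace Emb

/-- the tautological line is an oriented plane field over the quotient -/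
theorem or_L (hg : Emb X φ g) : T.OR (ι := Unit) (Quo X g) (PL (m := m)) WL := by
  refine ⟨fun x _ => contDiff_PL.contDiffAt, fun x _ I => (contDiff_WL I).contDiffAt, ?_⟩
  rintro _ ⟨x, hx, rfl⟩
  refine ⟨fm (g x), fm_tr_mul (hg.unit x hx), fun v i => ?_, fun I => WL_jj x I⟩
  rw [PL, T.mE_apply, Pm_jj]

end Emb

/-! ### `X` is the unit circle bundle -/

/-- `x ↦ (jj x, g x)` -/
def Jm (g : E → Fin m → ℂ) (x : E) : MM m × EuclideanSpace ℝ (RI m) := (jj g x, rcL m (g x))

theorem rcL_norm_sq (z : Fin m → ℂ) : ‖rcL m z‖ ^ 2 = ∑ a, ‖z a‖ ^ 2 := by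
  rw [EuclideanSpace.norm_sq_eq, Fintype.sum_prod_type]
  refine Finset.sum_congr rfl fun a _ => ?_
  rw [Fin.sum_univ_two, rcL_zero_apply, rcL_one_apply, ← Complex.normSq_eq_norm_sq,
    Complex.normSq_apply, Real.norm_eq_abs, Real.norm_eq_abs, sq_abs, sq_abs]
  ring

/-- the image of a vector under the projection onto the line through `g x` -/
theorem PL_jj_apply (x : E) (v : EuclideanSpace ℝ (RI m)) :
    PL (jj g x) v = rcL m (((∑ p, rcL m (g x) p * v p : ℝ) +
      (∑ p, rcL m (Complex.I • g x) p * v p : ℝ) * Complex.I : ℂ) • g x) := by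
  ext p
  rw [PL, T.mE_apply, rcL_apply]
  simp only [Pm, Matrix.of_apply, ce_jj, rcL_apply, Pi.smul_apply, smul_eq_mul]
  set A := g x p.1 * wz p.2 with hA
  have e1 : ∀ (α β : ℝ), ((((α : ℂ) + (β : ℂ) * Complex.I) * g x p.1) * wz p.2).re =
      α * A.re - β * A.im := by
    intro α β
    have : (((α : ℂ) + (β : ℂ) * Complex.I) * g x p.1) * wz p.2 =
        ((α : ℂ) + (β : ℂ) * Complex.I) * A := by rw [hA]; ring
    rw [this]
    simp [Complex.mul_re]
  rw [e1, Finset.sum_mul, Finset.sum_mul, ← Finset.sum_sub_distrib]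
  refine Finset.sum_congr rfl fun q _ => ?_
  have e2 : (Complex.I * g x q.1 * wz q.2).re = -(g x q.1 * wz q.2).im := by
    rw [mul_assoc, Complex.I_mul_re]
  rw [e2, Complex.mul_re, Complex.conj_re, Complex.conj_im]
  ring

theorem sum_rcL_mul (z w : Fin m → ℂ) :
    ∑ p, rcL m z p * rcL m w p = (∑ a, z a * conj (w a)).re := by
  rw [Fintype.sum_prod_type, Complex.re_sum]
  refine Finset.sum_congr rfl fun a _ => ?_
  rw [Fin.sum_univ_two, rcL_zero_apply, rcL_one_apply, rcL_zero_apply, rcL_one_apply,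
    Complex.mul_re, Complex.conj_re, Complex.conj_im]
  ring

namespace Emb

theorem g_inj (hg : Emb X φ g) (h : Cir X φ) {x y : E} (hx : x ∈ X) (hy : y ∈ X)
    (hxy : g x = g y) : x = y := by
  obtain ⟨t, rfl⟩ := hg.sep x hx y hy ⟨1, by rw [one_smul, hxy]⟩
  rw [hg.equi x hx] at hxy
  have h1 : Complex.exp (t * Complex.I) = 1 := by
    have h2 := hg.sum_eq hx
    have h3 : ∑ b, conj (g x b) * (Complex.exp (t * Complex.I) • g x) b = 1 := by
      rw [← hxy]; exact h2
    have h4 : ∑ b, conj (g x b) * (Complex.exp (t * Complex.I) • g x) b =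
        Complex.exp (t * Complex.I) * ∑ b, conj (g x b) * g x b := by
      rw [Finset.mul_sum]
      exact Finset.sum_congr rfl fun b _ => by
        rw [Pi.smul_apply, smul_eq_mul]; ring
    rw [h4, h2, mul_one] at h3
    exact h3
  obtain ⟨k, hk⟩ := Complex.exp_eq_one_iff.1 h1
  have h5 : t = 2 * Real.pi * k := by
    have h6 : (t : ℂ) * Complex.I = ((2 * Real.pi * k : ℝ) : ℂ) * Complex.I := by
      rw [hk]; push_cast; ring
    exact_mod_cast mul_right_cancel₀ Complex.I_ne_zero h6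
  rw [h5]
  exact (h.int k hx).symm

theorem fderiv_g_gen (hg : Emb X φ g) (h : Cir X φ) {x : E} (hx : x ∈ X) :
    fderiv ℝ g x (gen φ x) = Complex.I • g x := by
  have h1 := h.hasDerivAt hx 0
  rw [h.zero x hx] at h1
  have h2 : HasFDerivAt g (fderiv ℝ g x) (φ 0 x) := by
    rw [h.zero x hx]; exact ((hg.smooth x hx).differentiableAt (by simp)).hasFDerivAt
  have h3 : HasDerivAt (fun t => g (φ t x)) (fderiv ℝ g x (gen φ x)) 0 :=
    HasFDerivAt.comp_hasDerivAt (l := g) (f := fun t => φ t x) (0 : ℝ) h2 h1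
  have h4 : (fun t : ℝ => g (φ t x)) = fun t : ℝ => Complex.exp (t * Complex.I) • g x := by
    funext t; exact hg.equi x hx t
  have h5 : HasDerivAt (fun t : ℝ => Complex.exp (t * Complex.I) • g x) (Complex.I • g x) 0 := by
    have h6 : HasDerivAt (fun t : ℝ => Complex.exp (t * Complex.I)) Complex.I 0 := by
      have h7 : HasDerivAt (fun t : ℝ => (t : ℂ) * Complex.I) Complex.I 0 := by
        simpa using (Complex.ofRealCLM.hasDerivAt (x := (0 : ℝ))).mul_const Complex.I
      have := h7.cexp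
      simpa using this
    exact h6.smul_const (g x)
  rw [h4] at h3
  exact h3.unique h5

theorem contDiffAt_Jm (hg : Emb X φ g) {x : E} (hx : x ∈ X) : ContDiffAt ℝ ∞ (Jm g) x :=
  (hg.contDiffAt_jj hx).prodMk ((rcL m).contDiff.contDiffAt.comp x (hg.smooth x hx))

theorem Jm_injOn (hg : Emb X φ g) (h : Cir X φ) : InjOn (Jm g) X := fun x hx y hy hxy =>
  hg.g_inj h hx hy (rcL_inj (congrArg Prod.snd hxy))

theorem Jm_imm (hg : Emb X φ g) (h : Cir X φ) {x : E} (hx : x ∈ X) {v : E} (hv : v ∈ Tan X x)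
    (h0 : fderiv ℝ (Jm g) x v = 0) : v = 0 := by
  have hgd : HasFDerivAt g (fderiv ℝ g x) x :=
    ((hg.smooth x hx).differentiableAt (by simp)).hasFDerivAt
  have h1 : HasFDerivAt (Jm g) ((fderiv ℝ (jj g) x).prod ((rcL m).comp (fderiv ℝ g x))) x :=
    (hg.differentiableAt_jj hx).hasFDerivAt.prodMk ((rcL m).hasFDerivAt.comp x hgd)
  rw [h1.fderiv] at h0
  have h2 : fderiv ℝ (jj g) x v = 0 := congrArg Prod.fst h0
  have h3 : rcL m (fderiv ℝ g x v) = 0 := congrArg Prod.snd h0
  obtain ⟨c, rfl⟩ := (hg.ker_jj h hx hv).1 h2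
  have h4 : fderiv ℝ g x (c • gen φ x) = 0 := rcL_inj (by rw [h3, map_zero])
  rw [map_smul, hg.fderiv_g_gen h hx] at h4
  have hg0 : g x ≠ 0 := by
    intro h5
    have := hg.unit x hx
    simp [h5] at this
  rcases smul_eq_zero.1 h4 with h5 | h5
  · rw [h5, zero_smul]
  · exact absurd ((smul_eq_zero.1 h5).resolve_left Complex.I_ne_zero) hg0

/-- **`X` is the unit circle bundle of the tautological line.** -/
theorem image_Jm (hg : Emb X φ g) (h : Cir X φ) : Jm g '' X = T.Sph (Quo X g) (PL (m := m)) := by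
  have hPg : ∀ x ∈ X, ∀ z : ℂ, PL (jj g x) (rcL m (z • g x)) = rcL m (z • g x) := by
    intro x hx z
    rw [PL_jj_apply]
    congr 1
    have e0 : ∑ a, g x a * conj (g x a) = 1 := by
      rw [← hg.sum_eq hx]
      exact Finset.sum_congr rfl fun a _ => mul_comm _ _
    have e1 : ∀ w : ℂ, ∑ p, rcL m (w • g x) p * rcL m (z • g x) p = (w * conj z).re := by
      intro w
      rw [sum_rcL_mul]
      congr 1
      have : ∀ a, (w • g x) a * conj ((z • g x) a) = (w * conj z) * (g x a * conj (g x a)) := by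
        intro a
        simp only [Pi.smul_apply, smul_eq_mul, map_mul]; ring
      simp only [this]
      rw [← Finset.mul_sum, e0, mul_one]
    have e2 := e1 1
    rw [one_smul, one_mul] at e2
    rw [e2, e1 Complex.I]
    congr 1
    refine Complex.ext ?_ ?_ <;> simp
  apply Subset.antisymm
  · rintro _ ⟨x, hx, rfl⟩
    refine ⟨⟨jj_mem hx, ?_⟩, ?_⟩
    · have := hPg x hx 1
      rw [one_smul] at this
      exact this
    · have h1 : ‖rcL m (g x)‖ ^ 2 = 1 := by rw [rcL_norm_sq, hg.unit x hx]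
      change ‖rcL m (g x)‖ = 1
      have h2 := norm_nonneg (rcL m (g x))
      nlinarith
  · rintro ⟨Q, v⟩ ⟨⟨⟨x, hx, rfl⟩, hv⟩, hv1⟩
    change PL (jj g x) v = v at hv
    change ‖v‖ = 1 at hv1
    rw [PL_jj_apply] at hv
    set w : ℂ := ((∑ p, rcL m (g x) p * v p : ℝ) +
      (∑ p, rcL m (Complex.I • g x) p * v p : ℝ) * Complex.I : ℂ) with hw
    have h1 : ‖w‖ = 1 := by
      have h2 : ‖v‖ ^ 2 = ‖w‖ ^ 2 := by
        rw [← hv, rcL_norm_sq]
        simp only [Pi.smul_apply, smul_eq_mul, norm_mul, mul_pow]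
        rw [← Finset.mul_sum, hg.unit x hx, mul_one]
      rw [hv1] at h2
      have := norm_nonneg w
      nlinarith
    have h3 : w = Complex.exp ((Complex.arg w : ℂ) * Complex.I) := by
      have := Complex.norm_mul_exp_arg_mul_I w
      rw [h1] at this
      simpa using this.symm
    refine ⟨φ (Complex.arg w) x, h.maps _ hx, ?_⟩
    refine Prod.ext (hg.jj_act hx _) ?_
    change rcL m (g (φ (Complex.arg w) x)) = v
    rw [hg.equi x hx, ← h3, hv]

theorem smap_Jm (hg : Emb X φ g) (h : Cir X φ) : SMap X (T.Sph (Quo X g) (PL (m := m))) (Jm g) :=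
  ⟨fun x hx => hg.contDiffAt_Jm hx, fun x hx => by rw [← hg.image_Jm h]; exact ⟨x, hx, rfl⟩⟩

/-- the smooth inverse `Sph → X` -/
theorem exists_Jinv (hg : Emb X φ g) (h : Cir X φ) (hX : Clo n X) :
    ∃ ψ : MM m × EuclideanSpace ℝ (RI m) → E, ContDiff ℝ ∞ ψ ∧
      SMap (T.Sph (Quo X g) (PL (m := m))) X ψ ∧ (∀ x ∈ X, ψ (Jm g x) = x) ∧
      ∀ z ∈ T.Sph (Quo X g) (PL (m := m)), Jm g (ψ z) = z ∧ jj g (ψ z) = z.1 := by
  obtain ⟨ψ, h1, h2⟩ := exists_smooth_inv hX (f := Jm g) (fun x hx => hg.contDiffAt_Jm hx)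
    (hg.Jm_injOn h) (fun x hx v hv h0 => hg.Jm_imm h hx hv h0)
  refine ⟨ψ, h1, ⟨fun x _ => h1.contDiffAt, fun z hz => ?_⟩, h2, fun z hz => ?_⟩
  · rw [← hg.image_Jm h] at hz
    obtain ⟨x, hx, rfl⟩ := hz
    rw [h2 x hx]; exact hx
  · rw [← hg.image_Jm h] at hz
    obtain ⟨x, hx, rfl⟩ := hz
    rw [h2 x hx]; exact ⟨rfl, rfl⟩


end Emb

end Crest.Agent.R208.CM
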