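import Crest.Agent.R208.NB2
import Crest.Agent.R208.NN0b

/-! Row 208, block NB (helper537), part NB3: the index form `SV.ix` of 336 in the parallel frame. -/

set_option autoImplicit false
set_option linter.unusedSectionVars false
set_option linter.unusedVariables false

open MeasureTheory Set Filter Topology
open scoped ContDiff RealInnerProductSpace
open Crest.GeometryTopology.Submanifold
open Crest.Agent.R241.DDefs
open Crest.Agent.R241.D2
open Crest.Agent.R208.J

noncomputable section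

namespace Crest.Agent.R208.NB

variable {n N : ℕ} {κ : ℝ} {S : Set (Euc N)} {G : Geo n N κ S} {q : Euc N × Euc N}
  {A A' : ℝ → Euc N}

/-- the field in the parallel frame -/
def pf (G : Geo n N κ S) (q : Euc N × Euc N) (A : ℝ → Euc N) (t : ℝ) : Euc N := PTi G q t (A t)

/-- its derivative -/
def pf' (G : Geo n N κ S) (q : Euc N × Euc N) (A' : ℝ → Euc N) (t : ℝ) : Euc N :=
  PTi G q t (G.P (fl G (q, t)).1 (A' t))

lemma der_split (hq : q ∈ TS G) (hA : ∀ t, HasDerivAt A (A' t) t)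
    (hm : ∀ t, A t ∈ G.T (fl G (q, t)).1) (t : ℝ) :
    A' t = G.P (fl G (q, t)).1 (A' t) + dP G (fl G (q, t)) (A t) := by
  have h1 : TanTS G ((fl G (q, t)).1, A t) ((fl G (q, t)).2, A' t) := by
    refine ⟨fun s => ((fl G (q, t + s)).1, A (t + s)), by simp, ?_, ?_⟩
    · have h2 : HasDerivAt (fun t => ((fl G (q, t)).1, A t)) ((fl G (q, t)).2, A' t) (t + 0) := by
        rw [add_zero]
        exact (hda_fst (hasDerivAt_fl G (complete G hq t))).prodMk (hA t)
      exact h2.comp_const_add t 0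
    · exact Eventually.of_forall fun s => ⟨(fl_mem G hq _).1, hm _⟩
  have h2 := h1.snd_eq
  change A' t = G.P (fl G (q, t)).1 (A' t) + dP G ((fl G (q, t)).1, A t) (fl G (q, t)).2 at h2
  rw [dP_comm (fl_mem G hq t).1 (hm t) (fl_mem G hq t).2] at h2
  exact h2

lemma hasDerivAt_pf (hq : q ∈ TS G) (hA : ∀ t, HasDerivAt A (A' t) t)
    (hm : ∀ t, A t ∈ G.T (fl G (q, t)).1) (t : ℝ) :
    HasDerivAt (pf G q A) (pf' G q A' t) t := by
  have h1 := hasDerivAt_PTi hq (hA t)
  refine h1.congr_deriv ?_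
  rw [Om_tangent (fl_mem G hq t) (hm t)]
  have h2 := der_split hq hA hm t
  unfold pf'
  congr 1
  nth_rewrite 1 [h2]
  abel

lemma continuous_pf' (hq : q ∈ TS G) (hA' : Continuous A') : Continuous (pf' G q A') := by
  have h1 := (contDiff_fl_t hq).continuous
  exact (contDiff_PTi hq).continuous.clm_apply
    ((G.contDiff_P.continuous.comp h1.fst).clm_apply hA')

lemma pf_mem (hq : q ∈ TS G) (hm : ∀ t, A t ∈ G.T (fl G (q, t)).1) (t : ℝ) :
    pf G q A t ∈ G.T q.1 := PTi_mem hq t (hm t)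

lemma ixd_eq (hq : q ∈ TS G) (hA : ∀ t, HasDerivAt A (A' t) t)
    (hm : ∀ t, A t ∈ G.T (fl G (q, t)).1) (t : ℝ) :
    SV.ixd G q A A' A A' t = ‖pf' G q A' t‖ ^ 2 - ⟪Rh G q t (pf G q A t), pf G q A t⟫ := by
  have hqt := fl_mem G hq t
  have h1 : ⟪Rh G q t (pf G q A t), pf G q A t⟫ = ⟪Rm G (fl G (q, t)) (A t), A t⟫ := by
    rw [Rh_apply, pf, PT_PTi hq, inner_PTi hq]
  have h2 : ‖pf' G q A' t‖ ^ 2 = ‖G.P (fl G (q, t)).1 (A' t)‖ ^ 2 := by
    rw [pf', norm_PTi hq]
  rw [h1, h2, inner_Rm_tangent hqt (hm t)]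
  have h3 := der_split hq hA hm t
  have h4 : ‖A' t‖ ^ 2 = ‖G.P (fl G (q, t)).1 (A' t)‖ ^ 2 + ‖dP G (fl G (q, t)) (A t)‖ ^ 2 := by
    have h5 : ⟪G.P (fl G (q, t)).1 (A' t), dP G (fl G (q, t)) (A t)⟫ = 0 := by
      rw [inner_P_left G hqt.1, dP_tangent_normal hqt (hm t), inner_zero_right]
    conv_lhs => rw [h3]
    rw [norm_add_sq_real, h5]; ring
  unfold SV.ixd
  rw [real_inner_self_eq_norm_sq, h4, real_inner_self_eq_norm_sq]
  change _ - ⟪dP G (fl G (q, t)) (fl G (q, t)).2, dP G ((fl G (q, t)).1, A t) (A t)⟫ = _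
  ring





end Crest.Agent.R208.NB
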