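import Crest.Agent.R208.NB5

-- ▼ part R208/NB6
section

/-! Row 208, block NB (helper537), part NB6: the projection `n(W)` of an arbitrary (continuous)
field `W` along a closed geodesic to the negative space `N_z`; no derivative of `W` is used. -/

set_option autoImplicit false
set_option linter.unusedSectionVars false
set_option linter.unusedVariables false

open MeasureTheory Set Filter Topology Module
open scoped ContDiff RealInnerProductSpace
open Crest.GeometryTopology.Submanifold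
open Crest.Agent.R241.DDefs
open Crest.Agent.R241.D2
open Crest.Agent.R208.NN

noncomputable section

namespace Crest.Agent.R208.NB

variable {n N k K r : ℕ} {κ : ℝ} {S : Set (Euc N)} {G : Geo n N κ S} {z : Euc N × Euc N}
  {ν : Fin K → ℝ} {δ : ℝ} {PN : Euc N × Euc N → Wt N K →L[ℝ] Wt N K} {V V' W W' : ℝ → Euc N}

/-! ### parametric integrals over `[0, 2π]` -/

section par
variable {E H : Type} [NormedAddCommGroup E] [NormedSpace ℝ E] [FiniteDimensional ℝ E]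
  [NormedAddCommGroup H] [NormedSpace ℝ H]

theorem contDiffAt_int {g : E × ℝ → H} {x : E} {T : ℝ} (hT : 0 ≤ T)
    (hg : ∀ t ∈ Icc (0 : ℝ) T, ContDiffAt ℝ ∞ g (x, t)) :
    ContDiffAt ℝ ∞ (fun x => ∫ t in (0 : ℝ)..T, g (x, t)) x := by
  have h1 : ContDiffAt ℝ ∞ (FI.I1 (fun p : E × ℝ => g (p.1, T * p.2))) x := by
    refine FI.contDiffAt_I1 fun t ht => ?_
    have h2 : ContDiffAt ℝ ∞ (fun p : E × ℝ => (p.1, T * p.2)) (x, t) := by fun_prop
    exact ContDiffAt.comp (x, t) (g := g)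
      (hg (T * t) ⟨mul_nonneg hT ht.1, by nlinarith [ht.2]⟩) h2
  have h2 : (fun x => ∫ t in (0 : ℝ)..T, g (x, t)) = fun x => T •
      FI.I1 (fun p : E × ℝ => g (p.1, T * p.2)) x := by
    funext x
    have := intervalIntegral.smul_integral_comp_mul_left (a := 0) (b := 1) (fun t => g (x, t)) T
    rw [mul_zero, mul_one] at this
    exact this.symm
  rw [h2]
  exact h1.const_smul T

end par

/-! ### second derivative -/

lemma contDiff_Dp' : ContDiff ℝ ∞ (Dp G ν : (Euc N × Euc N) × ℝ → Wt N K →L[ℝ] Euc N) := by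
  rw [contDiff_clm_apply_iff]
  exact fun w => contDiff_Dp w

lemma contDiff_Fp' : ContDiff ℝ ∞ (Fp G ν : (Euc N × Euc N) × ℝ → Wt N K →L[ℝ] Euc N) := by
  rw [contDiff_clm_apply_iff]
  exact fun w => contDiff_Fp w

/-- the second derivative of `fd` -/
def D2p (G : Geo n N κ S) (ν : Fin K → ℝ) (p : (Euc N × Euc N) × ℝ) : Wt N K →L[ℝ] Euc N :=
  fderiv ℝ (Dp G ν) p (X G p.1, 1)

lemma contDiff_D2p : ContDiff ℝ ∞ (D2p G ν : (Euc N × Euc N) × ℝ → Wt N K →L[ℝ] Euc N) :=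
  ((contDiff_Dp' (G := G) (ν := ν)).fderiv_right (m := ∞) (by simp)).clm_apply
    (((contDiff_X G).comp contDiff_fst).prodMk contDiff_const)

theorem hasDerivAt_fd' (hz : z ∈ TS G) (w : Wt N K) (t : ℝ) :
    HasDerivAt (fd' G z ν w) (D2p G ν (fl G (z, t), t) w) t := by
  have h1 : HasDerivAt (fun t => (fl G (z, t), t)) (X G (fl G (z, t)), 1) t :=
    (hasDerivAt_fl G (complete G hz t)).prodMk (hasDerivAt_id t)
  have h2 : HasFDerivAt (Dp G ν) (fderiv ℝ (Dp G ν) (fl G (z, t), t)) (fl G (z, t), t) :=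
    ((contDiff_Dp' (G := G) (ν := ν)).differentiable (by simp)).differentiableAt.hasFDerivAt
  have h3 : HasDerivAt (fun t => Dp G ν (fl G (z, t), t)) (D2p G ν (fl G (z, t), t)) t :=
    HasFDerivAt.comp_hasDerivAt (f := fun t => (fl G (z, t), t)) t h2 h1
  have h4 := h3.clm_apply (hasDerivAt_const t w)
  refine h4.congr_deriv ?_
  simp

lemma hasLine (p : (Euc N × Euc N) × ℝ) (v : (Euc N × Euc N) × ℝ) (w : Wt N K) :
    HasDerivAt (fun r : ℝ => Dp G ν (p + r • v) w) (fderiv ℝ (Dp G ν) p v w) 0 := by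
  have hd : HasFDerivAt (fun p => Dp G ν p w) ((fderiv ℝ (Dp G ν) p).flip w) p := by
    have h1 := (((contDiff_Dp' (G := G) (ν := ν)).differentiable (by simp)) p).hasFDerivAt
    have h2 := h1.clm_apply (hasFDerivAt_const w p)
    refine h2.congr_fderiv ?_
    simp
  exact hd.hasLineDerivAt v

lemma D2p_Rt (x : Euc N × Euc N) (t s : ℝ) (w : Wt N K) :
    D2p G ν (x, t) (Rt ν s w) = D2p G ν (x, t + s) w := by
  have h1 := hasLine (G := G) (ν := ν) (x, t) (X G x, 1) (Rt ν s w)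
  have h1' := hasLine (G := G) (ν := ν) (x, t + s) (X G x, 1) w
  refine h1.unique (h1'.congr_of_eventuallyEq ?_)
  refine Eventually.of_forall fun r => ?_
  change Dp G ν (x + r • X G x, t + r • (1 : ℝ)) (Rt ν s w) =
    Dp G ν (x + r • X G x, t + s + r • (1 : ℝ)) w
  rw [Dp_Rt]
  congr 2
  ring_nf

/-! ### the pairing density -/

/-- `v ↦ m ↦ -⟪v, (fd m)''⟫ - ⟪X, II (v, fd m)⟫` -/
def bq (G : Geo n N κ S) (ν : Fin K → ℝ) (p : (Euc N × Euc N) × ℝ) :
    Euc N →L[ℝ] Wt N K →L[ℝ] ℝ :=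
  -((ip N).bilinearComp (ContinuousLinearMap.id ℝ (Euc N)) (D2p G ν p)) -
    (bII G p.1).bilinearComp (ContinuousLinearMap.id ℝ (Euc N)) (Fp G ν p)

lemma bq_apply (p : (Euc N × Euc N) × ℝ) (v : Euc N) (m : Wt N K) :
    bq G ν p v m = -⟪v, D2p G ν p m⟫ -
      ⟪(X G p.1).2, fderiv ℝ G.P p.1.1 v (Fp G ν p m)⟫ := rfl

theorem contDiff_bq : ContDiff ℝ ∞ (bq G ν : (Euc N × Euc N) × ℝ → _) := by
  rw [contDiff_clm_apply_iff]
  intro v
  rw [contDiff_clm_apply_iff]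
  intro m
  have hX : ContDiff ℝ ∞ (fun p : (Euc N × Euc N) × ℝ => (X G p.1).2) :=
    contDiff_snd.comp ((contDiff_X G).comp contDiff_fst)
  have h1 : ContDiff ℝ ∞ (fun p : (Euc N × Euc N) × ℝ => ⟪v, D2p G ν p m⟫) :=
    contDiff_const.inner ℝ ((contDiff_D2p (G := G) (ν := ν)).clm_apply contDiff_const)
  have h2 : ContDiff ℝ ∞ (fun p : (Euc N × Euc N) × ℝ =>
      ⟪(X G p.1).2, fderiv ℝ G.P p.1.1 v (Fp G ν p m)⟫) :=
    hX.inner ℝ (((contDiff_dP_p (G := G)).clm_apply contDiff_const).clm_apply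
    (contDiff_Fp (G := G) (ν := ν) m))
  exact h1.neg.sub h2

lemma bq_Rt (x : Euc N × Euc N) (t s : ℝ) (v : Euc N) (m : Wt N K) :
    bq G ν (x, t) v (Rt ν s m) = bq G ν (x, t + s) v m := by
  rw [bq_apply, bq_apply, D2p_Rt, Fp_Rt]

lemma continuous_fl_t (hz : z ∈ TS G) : Continuous fun t : ℝ => (fl G (z, t), t) :=
  (SV.continuous_fl (G := G) hz).prodMk continuous_id

lemma contOn_bq (hz : z ∈ TS G) (m : Wt N K) {s : Set ℝ} (hW : ContinuousOn W s) :
    ContinuousOn (fun t => bq G ν (fl G (z, t), t) (W t) m) s :=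
  (((contDiff_bq (G := G) (ν := ν)).continuous.comp
    (continuous_fl_t hz)).continuousOn.clm_apply hW).clm_apply continuousOn_const

/-- integration by parts -/
theorem ix_eq_bq (h : GT.Bla G k) (hz : z ∈ L.US G) {σ : ℝ} (hσ : Sig N ν σ) (m : Wt N K)
    (hW : SV.Fld G z 0 (2 * Real.pi) W W') (hper : W (2 * Real.pi) = σ • W 0) :
    SV.ix G z 0 (2 * Real.pi) W W' (fd G z ν m) (fd' G z ν m) =
      ∫ t in (0 : ℝ)..(2 * Real.pi), bq G ν (fl G (z, t), t) (W t) m := by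
  have hπ : (0 : ℝ) ≤ 2 * Real.pi := by positivity
  have hF := fld_fd hz.1 ν m 0 (2 * Real.pi)
  have hcont : ContinuousOn (fun t => ⟪W t, fd' G z ν m t⟫) (Icc 0 (2 * Real.pi)) :=
    hW.contX.inner hF.cont
  have hi1 := hW.intble hz.1 hπ hF
  have hi2 : IntervalIntegrable (fun t => bq G ν (fl G (z, t), t) (W t) m) volume 0
      (2 * Real.pi) := by
    refine ContinuousOn.intervalIntegrable ?_
    rw [uIcc_of_le hπ]
    exact contOn_bq hz.1 m hW.contX
  have hder : ∀ t ∈ Ioo 0 (2 * Real.pi), HasDerivAt (fun t => ⟪W t, fd' G z ν m t⟫)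
      (SV.ixd G z W W' (fd G z ν m) (fd' G z ν m) t -
        bq G ν (fl G (z, t), t) (W t) m) t := by
    intro t ht
    have ht' : t ∈ Icc 0 (2 * Real.pi) := ⟨ht.1.le, ht.2.le⟩
    have h1 := hasDerivAt_fd' (ν := ν) hz.1 m t
    have h2 := (hW.der t ht').hasDerivAt (Icc_mem_nhds ht.1 ht.2)
    refine (h2.inner ℝ h1).congr_deriv ?_
    rw [bq_apply, SV.ixd]
    have e : II G (fl G (z, t)).1 (W t) (fd G z ν m t) =
      fderiv ℝ G.P (fl G (z, t)).1 (W t) (Fp G ν (fl G (z, t), t) m) := rfl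
    rw [e]
    ring
  have key := intervalIntegral.integral_eq_sub_of_hasDerivAt_of_le hπ hcont hder
    (hi1.sub hi2)
  have e2 : fd' G z ν m (2 * Real.pi) = σ • fd' G z ν m 0 := by
    change Dp G ν (fl G (z, 2 * Real.pi), 2 * Real.pi) m = σ • Dp G ν (fl G (z, 0), 0) m
    rw [fl_two_pi h hz, fl_zero]
    have := Dp_Rt (G := G) (ν := ν) z 0 (2 * Real.pi) m
    rw [zero_add] at this
    rw [← this, hσ.2, map_smul]
  rw [intervalIntegral.integral_sub hi1 hi2, hper, e2, real_inner_smul_left,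
    real_inner_smul_right, ← mul_assoc, hσ.1, one_mul, sub_self, sub_eq_zero] at key
  exact key

/-- the vector of pairings with `W` -/
def bv (G : Geo n N κ S) (ν : Fin K → ℝ) (z : Euc N × Euc N) (W : ℝ → Euc N) : Wt N K :=
  ∑ j, (∫ t in (0 : ℝ)..(2 * Real.pi), bq G ν (fl G (z, t), t) (W t)
    (stdOrthonormalBasis ℝ (Wt N K) j)) • (stdOrthonormalBasis ℝ (Wt N K) j : Wt N K)

theorem inner_bv (hz : z ∈ TS G) (hW : ContinuousOn W (Icc 0 (2 * Real.pi))) (m : Wt N K) :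
    ⟪bv G ν z W, m⟫ = ∫ t in (0 : ℝ)..(2 * Real.pi), bq G ν (fl G (z, t), t) (W t) m := by
  have hπ : (0 : ℝ) ≤ 2 * Real.pi := by positivity
  set e := stdOrthonormalBasis ℝ (Wt N K) with he
  rw [bv, sum_inner]
  have h1 : ∀ t, bq G ν (fl G (z, t), t) (W t) m =
      ∑ j, ⟪(e j : Wt N K), m⟫ * bq G ν (fl G (z, t), t) (W t) (e j) := by
    intro t
    conv_lhs => rw [← e.sum_repr' m]
    rw [map_sum]
    refine Finset.sum_congr rfl fun j _ => ?_
    rw [map_smul, smul_eq_mul]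
  simp only [h1]
  rw [intervalIntegral.integral_finsetSum]
  · refine Finset.sum_congr rfl fun j _ => ?_
    rw [real_inner_smul_left, intervalIntegral.integral_const_mul, mul_comm]
  · intro j _
    refine ContinuousOn.intervalIntegrable ?_
    rw [uIcc_of_le hπ]
    exact continuousOn_const.mul (contOn_bq hz _ hW)


theorem bv_add (hz : z ∈ TS G) (hV : ContinuousOn V (Icc 0 (2 * Real.pi)))
    (hW : ContinuousOn W (Icc 0 (2 * Real.pi))) :
    bv G ν z (V + W) = bv G ν z V + bv G ν z W := by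
  have hπ : (0 : ℝ) ≤ 2 * Real.pi := by positivity
  refine ext_inner_right ℝ fun m => ?_
  rw [inner_add_left, inner_bv hz (hV.add hW), inner_bv hz hV, inner_bv hz hW,
    ← intervalIntegral.integral_add]
  · refine intervalIntegral.integral_congr fun t _ => ?_
    change bq G ν (fl G (z, t), t) (V t + W t) m = _
    rw [map_add]; rfl
  · exact ContinuousOn.intervalIntegrable (by rw [uIcc_of_le hπ]; exact contOn_bq hz _ hV)
  · exact ContinuousOn.intervalIntegrable (by rw [uIcc_of_le hπ]; exact contOn_bq hz _ hW)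

theorem bv_smul (hz : z ∈ TS G) (c : ℝ) (hW : ContinuousOn W (Icc 0 (2 * Real.pi))) :
    bv G ν z (c • W) = c • bv G ν z W := by
  refine ext_inner_right ℝ fun m => ?_
  rw [real_inner_smul_left, inner_bv hz (hW.const_smul c), inner_bv hz hW,
    ← intervalIntegral.integral_const_mul]
  refine intervalIntegral.integral_congr fun t _ => ?_
  change bq G ν (fl G (z, t), t) (c • W t) m = _
  rw [map_smul]; rfl

/-- smoothness along smooth families -/
theorem contDiffAt_bv {E : Type} [NormedAddCommGroup E] [NormedSpace ℝ E] [FiniteDimensional ℝ E]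
    {zz : E → Euc N × Euc N} {F : E × ℝ → Euc N} {x : E} (hzz : ContDiffAt ℝ ∞ zz x)
    (hx : zz x ∈ TS G) (hF : ∀ t ∈ Icc (0 : ℝ) (2 * Real.pi), ContDiffAt ℝ ∞ F (x, t)) :
    ContDiffAt ℝ ∞ (fun x => bv G ν (zz x) (fun t => F (x, t))) x := by
  have hπ : (0 : ℝ) ≤ 2 * Real.pi := by positivity
  have key : ∀ m : Wt N K, ContDiffAt ℝ ∞ (fun x => ∫ t in (0 : ℝ)..(2 * Real.pi),
      bq G ν (fl G (zz x, t), t) (F (x, t)) m) x := by
    intro m
    refine contDiffAt_int (E := E) (H := ℝ) (g := fun p : E × ℝ =>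
      bq G ν (fl G (zz p.1, p.2), p.2) (F p) m) (x := x) hπ fun t ht => ?_
    have h0 : ContDiffAt ℝ ∞ (fun p : E × ℝ => zz p.1) (x, t) :=
      ContDiffAt.comp (x, t) (g := zz) hzz contDiffAt_fst
    have h1 : ContDiffAt ℝ ∞ (fun p : E × ℝ => (zz p.1, p.2)) (x, t) := h0.prodMk contDiffAt_snd
    have h2 : ContDiffAt ℝ ∞ (fun p : E × ℝ => fl G (zz p.1, p.2)) (x, t) :=
      ContDiffAt.comp (x, t) (g := fl G) (contDiffAt_fl' G hx _) h1
    have h3 : ContDiffAt ℝ ∞ (fun p : E × ℝ => bq G ν (fl G (zz p.1, p.2), p.2)) (x, t) :=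
      (contDiff_bq (G := G) (ν := ν)).contDiffAt.comp (x, t) (h2.prodMk contDiffAt_snd)
    exact (h3.clm_apply (hF t ht)).clm_apply contDiffAt_const
  unfold bv
  exact ContDiffAt.sum fun j _ => (key _).smul contDiffAt_const

/-! ### equivariance -/

theorem bv_equiv (hper : HS.Per G) (hz : z ∈ TS G) (h1 : ‖z.2‖ = 1) {σ : ℝ} (hσ : Sig N ν σ)
    (hc : Continuous W) (hW : ∀ t, W (t + 2 * Real.pi) = σ • W t) (s : ℝ) :
    bv G ν (fl G (z, s)) (fun t => W (t + s)) = Rt ν s (bv G ν z W) := by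
  have hs := fl_mem G hz s
  refine ext_inner_right ℝ fun m => ?_
  have h2 : m = Rt ν s (Rt ν (-s) m) := by rw [← Rt_add, add_neg_cancel, Rt_zero]
  set m' := Rt ν (-s) m with hm'
  have hcs : Continuous fun t => W (t + s) := hc.comp (continuous_add_const s)
  rw [h2, inner_Rt, inner_bv hs hcs.continuousOn, inner_bv hz hc.continuousOn]
  have h3 : ∀ t, bq G ν (fl G (fl G (z, s), t), t) (W (t + s)) (Rt ν s m') =
      bq G ν (fl G (z, t + s), t + s) (W (t + s)) m' := by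
    intro t
    rw [bq_Rt, ← fl_add' G hz, add_comm s t]
  simp only [h3]
  rw [intervalIntegral.integral_comp_add_right
    (fun t => bq G ν (fl G (z, t), t) (W t) m') s, zero_add]
  have hp : Function.Periodic (fun t => bq G ν (fl G (z, t), t) (W t) m') (2 * Real.pi) := by
    intro t
    change bq G ν (fl G (z, t + 2 * Real.pi), t + 2 * Real.pi) (W (t + 2 * Real.pi)) m' = _
    have h4 : fl G (z, t + 2 * Real.pi) = fl G (z, t) := by
      rw [add_comm, fl_add' G hz, hper z hz h1]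
    rw [h4, ← bq_Rt, hσ.2, hW, map_smul, map_smul]
    change σ • (σ • bq G ν (fl G (z, t), t) (W t) m') = _
    rw [smul_smul, hσ.1, one_smul]
  have h5 := hp.intervalIntegral_add_eq s 0
  rw [zero_add, add_comm s] at h5
  exact h5

end Crest.Agent.R208.NB
end
end

-- ▼ part R208/NB7
section

/-! Row 208, block NB (helper537), part NB7: the projection `npr` to the negative space `N_z`. -/

set_option autoImplicit false
set_option linter.unusedSectionVars false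
set_option linter.unusedVariables false

open MeasureTheory Set Filter Topology Module
open scoped ContDiff RealInnerProductSpace
open Crest.GeometryTopology.Submanifold
open Crest.Agent.R241.DDefs
open Crest.Agent.R241.D2
open Crest.Agent.R208.NN

noncomputable section

namespace Crest.Agent.R208.NB

variable {n N k K r : ℕ} {κ : ℝ} {S : Set (Euc N)} {G : Geo n N κ S} {z : Euc N × Euc N}
  {ν : Fin K → ℝ} {δ : ℝ} {PN : Euc N × Euc N → Wt N K →L[ℝ] Wt N K} {V V' W W' : ℝ → Euc N}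

/-! ### the index form on the space of coefficients -/

/-- integrand -/
def cL (G : Geo n N κ S) (ν : Fin K → ℝ) (p : (Euc N × Euc N) × ℝ) :
    Wt N K →L[ℝ] Wt N K →L[ℝ] ℝ :=
  (ip N).bilinearComp (Dp G ν p) (Dp G ν p) -
    (bII G p.1).bilinearComp (Fp G ν p) (Fp G ν p)

lemma cL_apply (p : (Euc N × Euc N) × ℝ) (w w' : Wt N K) :
    cL G ν p w w' = ⟪Dp G ν p w, Dp G ν p w'⟫ -
      ⟪(X G p.1).2, fderiv ℝ G.P p.1.1 (Fp G ν p w) (Fp G ν p w')⟫ := rfl

theorem contDiff_cL : ContDiff ℝ ∞ (cL G ν : (Euc N × Euc N) × ℝ → _) := by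
  rw [contDiff_clm_apply_iff]
  intro w
  rw [contDiff_clm_apply_iff]
  intro w'
  have hX : ContDiff ℝ ∞ (fun p : (Euc N × Euc N) × ℝ => (X G p.1).2) :=
    contDiff_snd.comp ((contDiff_X G).comp contDiff_fst)
  have h1 := (contDiff_Dp (G := G) (ν := ν) w).inner ℝ (contDiff_Dp (G := G) (ν := ν) w')
  have h2 := hX.inner ℝ (((contDiff_dP_p (G := G)).clm_apply
    (contDiff_Fp (G := G) (ν := ν) w)).clm_apply (contDiff_Fp (G := G) (ν := ν) w'))
  exact h1.sub h2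

/-- the index form of `fd w`, `fd w'` -/
def Cb (G : Geo n N κ S) (ν : Fin K → ℝ) (z : Euc N × Euc N) : Wt N K →L[ℝ] Wt N K →L[ℝ] ℝ :=
  ∫ t in (0 : ℝ)..(2 * Real.pi), cL G ν (fl G (z, t), t)

lemma continuous_cL (hz : z ∈ TS G) : Continuous fun t => cL G ν (fl G (z, t), t) :=
  (contDiff_cL (G := G) (ν := ν)).continuous.comp (continuous_fl_t hz)

theorem Cb_eq (hz : z ∈ TS G) (w w' : Wt N K) : Cb G ν z w w' =
    SV.ix G z 0 (2 * Real.pi) (fd G z ν w) (fd' G z ν w) (fd G z ν w') (fd' G z ν w') := by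
  have hc := continuous_cL (G := G) (ν := ν) hz
  rw [Cb, ContinuousLinearMap.intervalIntegral_apply (hc.intervalIntegrable _ _),
    ContinuousLinearMap.intervalIntegral_apply
      ((hc.clm_apply continuous_const).intervalIntegrable _ _)]
  rfl

theorem contDiffAt_Cb (hz : z ∈ TS G) : ContDiffAt ℝ ∞ (Cb G ν) z := by
  have hπ : (0 : ℝ) ≤ 2 * Real.pi := by positivity
  refine contDiffAt_int (g := fun p : (Euc N × Euc N) × ℝ => cL G ν (fl G p, p.2)) hπ
    fun t _ => ?_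
  exact (contDiff_cL (G := G) (ν := ν)).contDiffAt.comp (z, t)
    ((contDiffAt_fl' G hz t).prodMk contDiffAt_snd)

lemma cL_Rt (x : Euc N × Euc N) (t s : ℝ) (w w' : Wt N K) :
    cL G ν (x, t) (Rt ν s w) (Rt ν s w') = cL G ν (x, t + s) w w' := by
  rw [cL_apply, cL_apply, Fp_Rt, Fp_Rt, Dp_Rt, Dp_Rt]

lemma cL_smul (p : (Euc N × Euc N) × ℝ) (σ : ℝ) (hσ : σ * σ = 1) (w w' : Wt N K) :
    cL G ν p (σ • w) (σ • w') = cL G ν p w w' := by
  simp only [map_smul, smul_apply, smul_eq_mul]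
  rw [← mul_assoc, hσ, one_mul]

theorem Cb_apply (hz : z ∈ TS G) (w w' : Wt N K) : Cb G ν z w w' =
    ∫ t in (0 : ℝ)..(2 * Real.pi), cL G ν (fl G (z, t), t) w w' := by
  have hc := continuous_cL (G := G) (ν := ν) hz
  rw [Cb, ContinuousLinearMap.intervalIntegral_apply (hc.intervalIntegrable _ _),
    ContinuousLinearMap.intervalIntegral_apply
      ((hc.clm_apply continuous_const).intervalIntegrable _ _)]

theorem Cb_equiv (hper : HS.Per G) (hz : z ∈ TS G) (h1 : ‖z.2‖ = 1) {σ : ℝ}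
    (hσ : Sig N ν σ) (s : ℝ) (w w' : Wt N K) :
    Cb G ν (fl G (z, s)) (Rt ν s w) (Rt ν s w') = Cb G ν z w w' := by
  have hs := fl_mem G hz s
  rw [Cb_apply hs, Cb_apply hz]
  have h2 : ∀ t, cL G ν (fl G (fl G (z, s), t), t) (Rt ν s w) (Rt ν s w') =
      cL G ν (fl G (z, t + s), t + s) w w' := by
    intro t
    rw [cL_Rt, ← fl_add' G hz, add_comm s t]
  simp only [h2]
  rw [intervalIntegral.integral_comp_add_right (fun t => cL G ν (fl G (z, t), t) w w') s,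
    zero_add]
  have hp : Function.Periodic (fun t => cL G ν (fl G (z, t), t) w w') (2 * Real.pi) := by
    intro t
    change cL G ν (fl G (z, t + 2 * Real.pi), t + 2 * Real.pi) w w' = _
    have h4 : fl G (z, t + 2 * Real.pi) = fl G (z, t) := by
      rw [add_comm, fl_add' G hz, hper z hz h1]
    rw [h4, ← cL_Rt, hσ.2, hσ.2, cL_smul _ σ hσ.1]
  have h3 := hp.intervalIntegral_add_eq s 0
  rw [zero_add, add_comm s] at h3
  exact h3

/-- the operator -/
def Cz (G : Geo n N κ S) (ν : Fin K → ℝ) (z : Euc N × Euc N) : Wt N K →L[ℝ] Wt N K :=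
  opB (Cb G ν z)

theorem inner_Cz (hz : z ∈ TS G) (w w' : Wt N K) : ⟪Cz G ν z w, w'⟫ =
    SV.ix G z 0 (2 * Real.pi) (fd G z ν w) (fd' G z ν w) (fd G z ν w') (fd' G z ν w') := by
  rw [Cz, inner_opB, Cb_eq hz]

theorem contDiffAt_Cz (hz : z ∈ TS G) : ContDiffAt ℝ ∞ (Cz G ν) z := by
  unfold Cz opB
  refine ContDiffAt.sum fun j _ => ?_
  exact contDiffAt_const.clm_comp (contDiffAt_const.clm_comp (contDiffAt_Cb hz))

/-- the invertible operator: `PN Cz PN - δ (1 - PN)` -/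
def Mz (G : Geo n N κ S) (ν : Fin K → ℝ) (δ : ℝ)
    (PN : Euc N × Euc N → Wt N K →L[ℝ] Wt N K) (z : Euc N × Euc N) : Wt N K →L[ℝ] Wt N K :=
  (PN z).comp ((Cz G ν z).comp (PN z)) - δ • (1 - PN z)

/-- **the projection to `N_z`** -/
def npr (G : Geo n N κ S) (ν : Fin K → ℝ) (δ : ℝ)
    (PN : Euc N × Euc N → Wt N K →L[ℝ] Wt N K) (z : Euc N × Euc N) (W : ℝ → Euc N) : Wt N K :=
  Ring.inverse (Mz G ν δ PN z) (PN z (bv G ν z W))

namespace NegB

variable (H : NegB G r ν δ PN)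

include H

lemma norm_PN (z : Euc N × Euc N) (w : Wt N K) :
    ‖w‖ ^ 2 = ‖PN z w‖ ^ 2 + ‖w - PN z w‖ ^ 2 := by
  have h1 : ⟪PN z w, w - PN z w⟫ = 0 := by
    rw [H.sy z w, map_sub, H.idem, sub_self, inner_zero_right]
  have h2 : ‖PN z w + (w - PN z w)‖ * ‖PN z w + (w - PN z w)‖ =
      ‖PN z w‖ * ‖PN z w‖ + ‖w - PN z w‖ * ‖w - PN z w‖ :=
    norm_add_sq_eq_norm_sq_add_norm_sq_of_inner_eq_zero _ _ h1
  rw [add_sub_cancel] at h2
  rw [pow_two, pow_two, pow_two]; exact h2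

lemma norm_PN_le (z : Euc N × Euc N) (w : Wt N K) : ‖PN z w‖ ≤ ‖w‖ := by
  have h1 := H.norm_PN z w
  have h2 := sq_nonneg ‖w - PN z w‖
  exact le_of_sq_le_sq (by linarith) (norm_nonneg _)

theorem inner_Mz (hz : z ∈ L.US G) (w : Wt N K) :
    ⟪Mz G ν δ PN z w, w⟫ ≤ -(δ * ‖w‖ ^ 2) := by
  have h1 : Mz G ν δ PN z w = PN z (Cz G ν z (PN z w)) - δ • (w - PN z w) := rfl
  have h2 : ⟪PN z (Cz G ν z (PN z w)), w⟫ ≤ -(δ * ‖PN z w‖ ^ 2) := by
    rw [H.sy z, inner_Cz hz.1]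
    exact H.ix_neg hz (H.idem z w)
  have h3 : ⟪w - PN z w, w⟫ = ‖w - PN z w‖ ^ 2 := by
    have h5 : ⟪w - PN z w, PN z w⟫ = 0 := by
      rw [real_inner_comm, H.sy z w, map_sub, H.idem, sub_self, inner_zero_right]
    have h6 : ⟪w - PN z w, w⟫ = ⟪w - PN z w, PN z w⟫ + ⟪w - PN z w, w - PN z w⟫ := by
      rw [← inner_add_right, add_sub_cancel]
    rw [h6, h5, zero_add, real_inner_self_eq_norm_sq]
  have h4 := H.norm_PN z w
  rw [h1, inner_sub_left, real_inner_smul_left, h3, h4]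
  linarith

theorem le_norm_Mz (hz : z ∈ L.US G) (w : Wt N K) : δ * ‖w‖ ≤ ‖Mz G ν δ PN z w‖ := by
  have h1 := H.inner_Mz hz w
  have h2 := abs_real_inner_le_norm (Mz G ν δ PN z w) w
  have h3 := abs_le.1 h2
  by_cases hw : ‖w‖ = 0
  · rw [hw, mul_zero]; exact norm_nonneg _
  · have hw' : 0 < ‖w‖ := lt_of_le_of_ne (norm_nonneg _) (Ne.symm hw)
    have h4 : δ * ‖w‖ * ‖w‖ ≤ ‖Mz G ν δ PN z w‖ * ‖w‖ := by nlinarith [h3.1]
    exact le_of_mul_le_mul_right h4 hw'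

theorem isUnit_Mz (hz : z ∈ L.US G) : IsUnit (Mz G ν δ PN z) := by
  have hinj : Function.Injective (Mz G ν δ PN z) := by
    rw [injective_iff_map_eq_zero]
    intro w hw
    have h1 := H.le_norm_Mz hz w
    rw [hw, norm_zero] at h1
    have h2 := H.pos_δ
    by_contra h3
    have h4 : 0 < ‖w‖ := norm_pos_iff.2 h3
    have : 0 < δ * ‖w‖ := by positivity
    linarith
  have h1 : IsUnit (Mz G ν δ PN z : Wt N K →ₗ[ℝ] Wt N K) :=
    (LinearMap.isUnit_iff_ker_eq_bot _).2 (LinearMap.ker_eq_bot.2 hinj)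
  obtain ⟨u, hu⟩ := h1
  refine ⟨⟨Mz G ν δ PN z, LinearMap.toContinuousLinearMap (u⁻¹ : (Wt N K →ₗ[ℝ] Wt N K)ˣ).1,
    ?_, ?_⟩, rfl⟩
  · ext1 w
    have h2 : ((u : Wt N K →ₗ[ℝ] Wt N K) * (u⁻¹ : (Wt N K →ₗ[ℝ] Wt N K)ˣ).1) w = w := by
      rw [Units.mul_inv]; rfl
    rw [hu] at h2
    exact h2
  · ext1 w
    have h2 : ((u⁻¹ : (Wt N K →ₗ[ℝ] Wt N K)ˣ).1 * (u : Wt N K →ₗ[ℝ] Wt N K)) w = w := by
      rw [Units.inv_mul]; rfl
    rw [hu] at h2
    exact h2

theorem inv_Mz (hz : z ∈ L.US G) (w : Wt N K) :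
    Ring.inverse (Mz G ν δ PN z) (Mz G ν δ PN z w) = w := by
  have h1 := Ring.inverse_mul_cancel _ (H.isUnit_Mz hz)
  exact congrArg (fun A : Wt N K →L[ℝ] Wt N K => A w) h1

theorem Mz_inv (hz : z ∈ L.US G) (w : Wt N K) :
    Mz G ν δ PN z (Ring.inverse (Mz G ν δ PN z) w) = w := by
  have h1 := Ring.mul_inverse_cancel _ (H.isUnit_Mz hz)
  exact congrArg (fun A : Wt N K →L[ℝ] Wt N K => A w) h1

theorem contDiffAt_Mz (hz : z ∈ L.US G) : ContDiffAt ℝ ∞ (Mz G ν δ PN) z := by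
  unfold Mz
  exact ((H.smooth z hz).clm_comp ((contDiffAt_Cz hz.1).clm_comp (H.smooth z hz))).sub
    ((contDiffAt_const.sub (H.smooth z hz)).const_smul δ)

theorem contDiffAt_inv (hz : z ∈ L.US G) :
    ContDiffAt ℝ ∞ (fun z => Ring.inverse (Mz G ν δ PN z)) z := by
  obtain ⟨u, hu⟩ := H.isUnit_Mz hz
  have h1 : ContDiffAt ℝ ∞ Ring.inverse (Mz G ν δ PN z) := by
    rw [← hu]; exact contDiffAt_ringInverse ℝ u
  exact h1.comp z (H.contDiffAt_Mz hz)

/-! ### properties of `npr` -/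

/-- smoothness along smooth families -/
theorem contDiffAt_npr {E : Type} [NormedAddCommGroup E] [NormedSpace ℝ E]
    [FiniteDimensional ℝ E]
    {zz : E → Euc N × Euc N} {F : E × ℝ → Euc N} {x : E} (hzz : ContDiffAt ℝ ∞ zz x)
    (hx : zz x ∈ L.US G) (hF : ∀ t ∈ Icc (0 : ℝ) (2 * Real.pi), ContDiffAt ℝ ∞ F (x, t)) :
    ContDiffAt ℝ ∞ (fun x => npr G ν δ PN (zz x) (fun t => F (x, t))) x := by
  have h1 : ContDiffAt ℝ ∞ (fun x => Ring.inverse (Mz G ν δ PN (zz x))) x :=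
    ContDiffAt.comp x (g := fun z => Ring.inverse (Mz G ν δ PN z)) (H.contDiffAt_inv hx) hzz
  have h2 : ContDiffAt ℝ ∞ (fun x => PN (zz x)) x :=
    ContDiffAt.comp x (g := PN) (H.smooth _ hx) hzz
  exact h1.clm_apply (h2.clm_apply (contDiffAt_bv hzz hx.1 hF))

/-- `n(W)` is in `N_z` -/
theorem npr_mem (hz : z ∈ L.US G) (W : ℝ → Euc N) :
    PN z (npr G ν δ PN z W) = npr G ν δ PN z W := by
  set m := npr G ν δ PN z W with hm
  have h1 : Mz G ν δ PN z m = PN z (bv G ν z W) := H.Mz_inv hz _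
  have h2 : Mz G ν δ PN z m = PN z (Cz G ν z (PN z m)) - δ • (m - PN z m) := rfl
  have h3 : δ • (m - PN z m) = 0 := by
    have h4 : PN z (Mz G ν δ PN z m) = Mz G ν δ PN z m := by rw [h1, H.idem]
    rw [h2, map_sub, map_smul, map_sub, H.idem, H.idem, sub_self, smul_zero, sub_zero] at h4
    exact sub_eq_self.1 h4.symm
  have h4 := (smul_eq_zero.1 h3).resolve_left H.pos_δ.ne'
  exact (sub_eq_zero.1 h4).symm

/-- defining property -/
theorem inner_npr (hz : z ∈ L.US G) (W : ℝ → Euc N) {m : Wt N K} (hm : PN z m = m) :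
    SV.ix G z 0 (2 * Real.pi) (fd G z ν (npr G ν δ PN z W)) (fd' G z ν (npr G ν δ PN z W))
      (fd G z ν m) (fd' G z ν m) = ⟪bv G ν z W, m⟫ := by
  have h1 : Mz G ν δ PN z (npr G ν δ PN z W) = PN z (bv G ν z W) := H.Mz_inv hz _
  have h2 : Mz G ν δ PN z (npr G ν δ PN z W) = PN z (Cz G ν z (PN z (npr G ν δ PN z W))) -
    δ • (npr G ν δ PN z W - PN z (npr G ν δ PN z W)) := rfl
  rw [H.npr_mem hz, sub_self, smul_zero, sub_zero] at h2
  rw [← inner_Cz hz.1]
  have h3 : ⟪Cz G ν z (npr G ν δ PN z W), m⟫ = ⟪PN z (Cz G ν z (npr G ν δ PN z W)), m⟫ := by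
    rw [H.sy z, hm]
  rw [h3, ← h2, h1, H.sy z, hm]

/-- **`B(W, fd m) = B(fd (n(W)), fd m)` for all `m ∈ N_z`** -/
theorem ix_npr (h : GT.Bla G k) (hz : z ∈ L.US G) {σ : ℝ} (hσ : Sig N ν σ)
    (hW : SV.Fld G z 0 (2 * Real.pi) W W') (hper : W (2 * Real.pi) = σ • W 0)
    {m : Wt N K} (hm : PN z m = m) :
    SV.ix G z 0 (2 * Real.pi) W W' (fd G z ν m) (fd' G z ν m) =
      SV.ix G z 0 (2 * Real.pi) (fd G z ν (npr G ν δ PN z W)) (fd' G z ν (npr G ν δ PN z W))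
        (fd G z ν m) (fd' G z ν m) := by
  rw [H.inner_npr hz W hm, inner_bv hz.1 hW.contX, ix_eq_bq h hz hσ m hW hper]

/-- uniqueness -/
theorem eq_of_ix (hz : z ∈ L.US G) {w w' : Wt N K} (hw : PN z w = w) (hw' : PN z w' = w')
    (he : ∀ m, PN z m = m →
      SV.ix G z 0 (2 * Real.pi) (fd G z ν w) (fd' G z ν w) (fd G z ν m) (fd' G z ν m) =
      SV.ix G z 0 (2 * Real.pi) (fd G z ν w') (fd' G z ν w') (fd G z ν m) (fd' G z ν m)) :
    w = w' := by
  have h1 : Mz G ν δ PN z w = Mz G ν δ PN z w' := by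
    have e1 : Mz G ν δ PN z w = PN z (Cz G ν z (PN z w)) - δ • (w - PN z w) := rfl
    have e2 : Mz G ν δ PN z w' = PN z (Cz G ν z (PN z w')) - δ • (w' - PN z w') := rfl
    rw [e1, e2, hw, hw', sub_self, sub_self, smul_zero, sub_zero, sub_zero]
    refine ext_inner_right ℝ fun m => ?_
    rw [H.sy z, H.sy z, inner_Cz hz.1, inner_Cz hz.1]
    exact he _ (H.idem z m)
  rw [← H.inv_Mz hz w, h1, H.inv_Mz hz]



theorem npr_add (hz : z ∈ TS G) (hV : ContinuousOn V (Icc 0 (2 * Real.pi)))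
    (hW : ContinuousOn W (Icc 0 (2 * Real.pi))) :
    npr G ν δ PN z (V + W) = npr G ν δ PN z V + npr G ν δ PN z W := by
  unfold npr; rw [bv_add hz hV hW, map_add, map_add]

theorem npr_smul (hz : z ∈ TS G) (c : ℝ) (hW : ContinuousOn W (Icc 0 (2 * Real.pi))) :
    npr G ν δ PN z (c • W) = c • npr G ν δ PN z W := by
  unfold npr; rw [bv_smul hz c hW, map_smul, map_smul]


/-- **equivariance** -/
theorem npr_equiv (h : GT.Bla G k) (hz : z ∈ L.US G) {σ : ℝ} (hσ : Sig N ν σ)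
    (hc : Continuous W) (hW : ∀ t, W (t + 2 * Real.pi) = σ • W t) (s : ℝ) :
    npr G ν δ PN (fl G (z, s)) (fun t => W (t + s)) = Rt ν s (npr G ν δ PN z W) := by
  have hs := fl_mem_US hz s
  refine H.eq_of_ix hs (H.npr_mem hs _) ?_ fun m hm => ?_
  · rw [H.equi z hz, H.npr_mem hz]
  · rw [H.inner_npr hs _ hm, bv_equiv h.ty.per hz.1 hz.2 hσ hc hW]
    have h2 : m = Rt ν s (Rt ν (-s) m) := by rw [← Rt_add, add_neg_cancel, Rt_zero]
    have hm' : PN z (Rt ν (-s) m) = Rt ν (-s) m := by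
      have h3 := H.equi z hz s (Rt ν (-s) m)
      rw [← h2, hm] at h3
      have h4 : Rt ν (-s) (Rt ν s (PN z (Rt ν (-s) m))) = PN z (Rt ν (-s) m) := by
        rw [← Rt_add, neg_add_cancel, Rt_zero]
      rw [← h4, ← h3]
    have h5 := H.inner_npr hz W hm'
    rw [← Cb_eq hz.1] at h5
    rw [← Cb_eq hs.1]
    set m' := Rt ν (-s) m with hm'd
    rw [h2, inner_Rt, ← h5]
    exact (Cb_equiv h.ty.per hz.1 hz.2 hσ s _ _).symm

end NegB

end Crest.Agent.R208.NB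
end
end

-- ▼ part R208/NB8

/-! Row 208, block NB (helper537), part NB8: uniform bounds for `npr`, `fd`, `fd'`; the
decomposition of the index form along `N_z`. -/

set_option autoImplicit false
set_option linter.unusedSectionVars false
set_option linter.unusedVariables false

open MeasureTheory Set Filter Topology Module
open scoped ContDiff RealInnerProductSpace
open Crest.GeometryTopology.Submanifold
open Crest.Agent.R241.DDefs
open Crest.Agent.R241.D2
open Crest.Agent.R208.NN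

noncomputable section

namespace Crest.Agent.R208.NB

variable {n N k K r : ℕ} {κ : ℝ} {S : Set (Euc N)} {G : Geo n N κ S} {z : Euc N × Euc N}
  {ν : Fin K → ℝ} {δ : ℝ} {PN : Euc N × Euc N → Wt N K →L[ℝ] Wt N K} {V V' W W' : ℝ → Euc N}

/-- a continuous function is bounded on `US G` -/
theorem exists_bound_US {H : Type*} [NormedAddCommGroup H] (hc : IsCompact S)
    {f : Euc N × Euc N → H} (hf : ContinuousOn f (L.US G)) :
    ∃ C : ℝ, 0 ≤ C ∧ ∀ z ∈ L.US G, ‖f z‖ ≤ C := by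
  obtain ⟨C, hC⟩ := (LB.isCompact_US (G := G) hc).exists_bound_of_continuousOn hf
  exact ⟨max C 0, le_max_right _ _, fun z hz => (hC z hz).trans (le_max_left _ _)⟩

/-- uniform bound for `fd`, all times -/
theorem exists_bound_fd (hc : IsCompact S) (G : Geo n N κ S) (ν : Fin K → ℝ) :
    ∃ C : ℝ, 0 ≤ C ∧ ∀ z ∈ L.US G, ∀ (w : Wt N K) (t : ℝ),
      ‖fd G z ν w t‖ ≤ C * ‖w‖ ∧ ‖fd' G z ν w t‖ ≤ C * ‖w‖ ∧
        ‖D2p G ν (fl G (z, t), t) w‖ ≤ C * ‖w‖ := by
  obtain ⟨C1, h10, h1⟩ := exists_bound_US (G := G) hc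
    (f := fun z => Fp G ν ((z, 0) : (Euc N × Euc N) × ℝ))
    (((contDiff_Fp' (G := G) (ν := ν)).continuous.comp (by fun_prop)).continuousOn)
  obtain ⟨C2, h20, h2⟩ := exists_bound_US (G := G) hc
    (f := fun z => Dp G ν ((z, 0) : (Euc N × Euc N) × ℝ))
    (((contDiff_Dp' (G := G) (ν := ν)).continuous.comp (by fun_prop)).continuousOn)
  obtain ⟨C3, h30, h3⟩ := exists_bound_US (G := G) hc
    (f := fun z => D2p G ν ((z, 0) : (Euc N × Euc N) × ℝ))
    (((contDiff_D2p (G := G) (ν := ν)).continuous.comp (by fun_prop)).continuousOn)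
  refine ⟨C1 + C2 + C3, by positivity, fun z hz w t => ⟨?_, ?_, ?_⟩⟩
  · have e : fd G z ν w t = Fp G ν (fl G (z, t), 0) (Rt ν t w) := by
      rw [Fp_Rt, zero_add]; rfl
    rw [e]
    refine (ContinuousLinearMap.le_opNorm _ _).trans ?_
    rw [norm_Rt]
    exact mul_le_mul_of_nonneg_right ((h1 _ (fl_mem_US hz t)).trans (by linarith))
      (norm_nonneg _)
  · have e : fd' G z ν w t = Dp G ν (fl G (z, t), 0) (Rt ν t w) := by
      rw [Dp_Rt, zero_add]; rfl
    rw [e]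
    refine (ContinuousLinearMap.le_opNorm _ _).trans ?_
    rw [norm_Rt]
    exact mul_le_mul_of_nonneg_right ((h2 _ (fl_mem_US hz t)).trans (by linarith))
      (norm_nonneg _)
  · have e : D2p G ν (fl G (z, t), t) w = D2p G ν (fl G (z, t), 0) (Rt ν t w) := by
      rw [D2p_Rt, zero_add]
    rw [e]
    refine (ContinuousLinearMap.le_opNorm _ _).trans ?_
    rw [norm_Rt]
    exact mul_le_mul_of_nonneg_right ((h3 _ (fl_mem_US hz t)).trans (by linarith))
      (norm_nonneg _)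

/-- joint smoothness of `fd` and `fd'` -/
theorem contDiffAt_fd (hz : z ∈ TS G) (w : Wt N K) (t : ℝ) :
    ContDiffAt ℝ ∞ (fun p : ((Euc N × Euc N) × Wt N K) × ℝ => fd G p.1.1 ν p.1.2 p.2)
      ((z, w), t) ∧
    ContDiffAt ℝ ∞ (fun p : ((Euc N × Euc N) × Wt N K) × ℝ => fd' G p.1.1 ν p.1.2 p.2)
      ((z, w), t) := by
  have h1 : ContDiffAt ℝ ∞ (fun p : ((Euc N × Euc N) × Wt N K) × ℝ => (p.1.1, p.2))
      ((z, w), t) := by fun_prop
  have h2 : ContDiffAt ℝ ∞ (fun p : ((Euc N × Euc N) × Wt N K) × ℝ =>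
      (fl G (p.1.1, p.2), p.2)) ((z, w), t) :=
    (ContDiffAt.comp ((z, w), t) (g := fl G) (contDiffAt_fl' G hz t) h1).prodMk contDiffAt_snd
  have h3 : ContDiffAt ℝ ∞ (fun p : ((Euc N × Euc N) × Wt N K) × ℝ => p.1.2) ((z, w), t) := by
    fun_prop
  exact ⟨((contDiff_Fp' (G := G) (ν := ν)).contDiffAt.comp ((z, w), t) h2).clm_apply h3,
    ((contDiff_Dp' (G := G) (ν := ν)).contDiffAt.comp ((z, w), t) h2).clm_apply h3⟩

/-- uniform bound for the pairing density, all times -/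
theorem exists_bound_bq (hc : IsCompact S) (G : Geo n N κ S) (ν : Fin K → ℝ) :
    ∃ C : ℝ, 0 ≤ C ∧ ∀ z ∈ L.US G, ∀ (t : ℝ) (v : Euc N) (m : Wt N K),
      |bq G ν (fl G (z, t), t) v m| ≤ C * ‖v‖ * ‖m‖ := by
  obtain ⟨C, h0, hC⟩ := exists_bound_US (G := G) hc
    (f := fun z => bq G ν ((z, 0) : (Euc N × Euc N) × ℝ))
    (((contDiff_bq (G := G) (ν := ν)).continuous.comp (by fun_prop)).continuousOn)
  refine ⟨C, h0, fun z hz t v m => ?_⟩
  have e : bq G ν (fl G (z, t), t) v m = bq G ν (fl G (z, t), 0) v (Rt ν t m) := by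
    rw [bq_Rt, zero_add]
  rw [e, ← Real.norm_eq_abs]
  refine (ContinuousLinearMap.le_opNorm₂ _ _ _).trans ?_
  rw [norm_Rt]
  gcongr
  exact hC _ (fl_mem_US hz t)

theorem exists_bound_bv (hc : IsCompact S) (G : Geo n N κ S) (ν : Fin K → ℝ) :
    ∃ C : ℝ, 0 ≤ C ∧ ∀ z ∈ L.US G, ∀ W : ℝ → Euc N, ContinuousOn W (Icc 0 (2 * Real.pi)) →
      ‖bv G ν z W‖ ≤ C * ∫ t in (0 : ℝ)..(2 * Real.pi), ‖W t‖ := by
  have hπ : (0 : ℝ) ≤ 2 * Real.pi := by positivity
  obtain ⟨C, h0, hC⟩ := exists_bound_bq hc G ν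
  refine ⟨C, h0, fun z hz W hW => ?_⟩
  set b := bv G ν z W with hb
  have hi : IntervalIntegrable (fun t => ‖W t‖) volume 0 (2 * Real.pi) :=
    ContinuousOn.intervalIntegrable (by rw [uIcc_of_le hπ]; exact hW.norm)
  have hi2 : IntervalIntegrable (fun t => bq G ν (fl G (z, t), t) (W t) b) volume 0
      (2 * Real.pi) :=
    ContinuousOn.intervalIntegrable (by rw [uIcc_of_le hπ]; exact contOn_bq hz.1 _ hW)
  have h1 : ‖b‖ ^ 2 ≤ C * (∫ t in (0 : ℝ)..(2 * Real.pi), ‖W t‖) * ‖b‖ := by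
    rw [← real_inner_self_eq_norm_sq]
    conv_lhs => rw [hb]
    rw [inner_bv hz.1 hW, mul_assoc, mul_comm _ ‖b‖, ← mul_assoc,
      ← intervalIntegral.integral_const_mul]
    refine intervalIntegral.integral_mono_on hπ hi2 (hi.const_mul _) fun t _ => ?_
    refine (le_abs_self _).trans ((hC z hz t _ _).trans (le_of_eq ?_))
    ring
  by_cases hb0 : ‖b‖ = 0
  · rw [hb0]
    exact mul_nonneg h0 (intervalIntegral.integral_nonneg hπ fun t _ => norm_nonneg _)
  · have hb' : 0 < ‖b‖ := lt_of_le_of_ne (norm_nonneg _) (Ne.symm hb0)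
    rw [pow_two] at h1
    exact le_of_mul_le_mul_right h1 hb'

/-- Cauchy-Schwarz on `[0, 2π]` -/
theorem int_norm_sq_le (hW : ContinuousOn W (Icc 0 (2 * Real.pi))) :
    (∫ t in (0 : ℝ)..(2 * Real.pi), ‖W t‖) ^ 2 ≤
      2 * Real.pi * ∫ t in (0 : ℝ)..(2 * Real.pi), ‖W t‖ ^ 2 := by
  have hπ : (0 : ℝ) < 2 * Real.pi := by positivity
  have hi : IntervalIntegrable (fun t => ‖W t‖) volume 0 (2 * Real.pi) :=
    ContinuousOn.intervalIntegrable (by rw [uIcc_of_le hπ.le]; exact hW.norm)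
  have hi2 : IntervalIntegrable (fun t => ‖W t‖ ^ 2) volume 0 (2 * Real.pi) :=
    ContinuousOn.intervalIntegrable (by rw [uIcc_of_le hπ.le]; exact hW.norm.pow 2)
  set I := ∫ t in (0 : ℝ)..(2 * Real.pi), ‖W t‖ with hI
  have h1 : 0 ≤ ∫ t in (0 : ℝ)..(2 * Real.pi), (‖W t‖ - I / (2 * Real.pi)) ^ 2 :=
    intervalIntegral.integral_nonneg hπ.le fun t _ => sq_nonneg _
  have h2 : ∫ t in (0 : ℝ)..(2 * Real.pi), (‖W t‖ - I / (2 * Real.pi)) ^ 2 =
      (∫ t in (0 : ℝ)..(2 * Real.pi), ‖W t‖ ^ 2) - 2 * (I / (2 * Real.pi)) * I +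
        (2 * Real.pi) * (I / (2 * Real.pi)) ^ 2 := by
    have e : ∀ t, (‖W t‖ - I / (2 * Real.pi)) ^ 2 = ‖W t‖ ^ 2 - 2 * (I / (2 * Real.pi)) * ‖W t‖ +
        (I / (2 * Real.pi)) ^ 2 := fun t => by ring
    simp only [e]
    rw [intervalIntegral.integral_add (hi2.sub (hi.const_mul _)) (by simp),
      intervalIntegral.integral_sub hi2 (hi.const_mul _), intervalIntegral.integral_const_mul,
      intervalIntegral.integral_const]
    simp only [sub_zero, smul_eq_mul, ← hI]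
  rw [h2] at h1
  have h3 : (2 * Real.pi) * (2 * (I / (2 * Real.pi)) * I - (2 * Real.pi) *
    (I / (2 * Real.pi)) ^ 2) = I ^ 2 := by
    field_simp
    ring
  have h4 : 2 * (I / (2 * Real.pi)) * I - (2 * Real.pi) * (I / (2 * Real.pi)) ^ 2 ≤
    ∫ t in (0 : ℝ)..(2 * Real.pi), ‖W t‖ ^ 2 := by linarith
  rw [← h3]
  exact mul_le_mul_of_nonneg_left h4 hπ.le

namespace NegB

/-- **uniform bound of `n(W)`** -/
theorem exists_bound_npr (hc : IsCompact S) (H : NegB G r ν δ PN) :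
    ∃ C : ℝ, 0 ≤ C ∧ ∀ z ∈ L.US G, ∀ W : ℝ → Euc N, ContinuousOn W (Icc 0 (2 * Real.pi)) →
      ‖npr G ν δ PN z W‖ ≤ C * ∫ t in (0 : ℝ)..(2 * Real.pi), ‖W t‖ := by
  obtain ⟨C, h0, hC⟩ := exists_bound_bv hc G ν
  have hδ := H.pos_δ
  refine ⟨C / δ, by positivity, fun z hz W hW => ?_⟩
  have h1 := H.le_norm_Mz hz (npr G ν δ PN z W)
  have h2 : Mz G ν δ PN z (npr G ν δ PN z W) = PN z (bv G ν z W) := H.Mz_inv hz _
  rw [h2] at h1
  have h3 := h1.trans ((H.norm_PN_le z _).trans (hC z hz W hW))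
  rw [div_mul_eq_mul_div, le_div_iff₀ hδ]
  linarith

/-- `L²` version -/
theorem exists_bound_npr_sq (hc : IsCompact S) (H : NegB G r ν δ PN) :
    ∃ C : ℝ, 0 ≤ C ∧ ∀ z ∈ L.US G, ∀ W : ℝ → Euc N, ContinuousOn W (Icc 0 (2 * Real.pi)) →
      ‖npr G ν δ PN z W‖ ^ 2 ≤ C * ∫ t in (0 : ℝ)..(2 * Real.pi), ‖W t‖ ^ 2 := by
  obtain ⟨C, h0, hC⟩ := H.exists_bound_npr hc
  refine ⟨C ^ 2 * (2 * Real.pi), by positivity, fun z hz W hW => ?_⟩
  have h1 := hC z hz W hW
  have h2 := pow_le_pow_left₀ (norm_nonneg _) h1 2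
  refine h2.trans ?_
  rw [mul_pow, mul_assoc]
  exact mul_le_mul_of_nonneg_left (int_norm_sq_le hW) (by positivity)

variable (h : GT.Bla G k) (H : NegB G (k - 1) (nuP K) δ PN)

include h H

/-- **decomposition of the index form** of a `C¹` periodic field `V`, with
`n = npr z V`, `V₊ = V - fd n` -/
theorem decomp (hz : z ∈ L.US G) (hV : SV.Fld G z 0 (2 * Real.pi) V V')
    (hper : V (2 * Real.pi) = V 0) {w : Wt N K} (hw : npr G (nuP K) δ PN z V = w) :
    PN z w = w ∧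
    SV.Fld G z 0 (2 * Real.pi) (V - fd G z (nuP K) w) (V' - fd' G z (nuP K) w) ∧
    (∀ m, PN z m = m → SV.ix G z 0 (2 * Real.pi) (V - fd G z (nuP K) w)
      (V' - fd' G z (nuP K) w) (fd G z (nuP K) m) (fd' G z (nuP K) m) = 0) ∧
    0 ≤ SV.ix G z 0 (2 * Real.pi) (V - fd G z (nuP K) w) (V' - fd' G z (nuP K) w)
      (V - fd G z (nuP K) w) (V' - fd' G z (nuP K) w) ∧
    SV.ix G z 0 (2 * Real.pi) V V' V V' =
      SV.ix G z 0 (2 * Real.pi) (V - fd G z (nuP K) w) (V' - fd' G z (nuP K) w)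
        (V - fd G z (nuP K) w) (V' - fd' G z (nuP K) w) +
      SV.ix G z 0 (2 * Real.pi) (fd G z (nuP K) w) (fd' G z (nuP K) w)
        (fd G z (nuP K) w) (fd' G z (nuP K) w) := by
  have hπ : (0 : ℝ) ≤ 2 * Real.pi := by positivity
  have hw' : PN z w = w := by rw [← hw]; exact H.npr_mem hz V
  have hF := fld_fd hz.1 (nuP K) w 0 (2 * Real.pi)
  have hD := hV.sub hF
  have h1 : ∀ m, PN z m = m → SV.ix G z 0 (2 * Real.pi) (V - fd G z (nuP K) w)
      (V' - fd' G z (nuP K) w) (fd G z (nuP K) m) (fd' G z (nuP K) m) = 0 := by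
    intro m hm
    rw [SV.ix_sub_left hπ hz.1 hV hF (fld_fd hz.1 (nuP K) m 0 (2 * Real.pi)),
      H.ix_npr h hz sig_per hV (by rw [one_smul]; exact hper) hm, hw, sub_self]
  have hper' : (V - fd G z (nuP K) w) (2 * Real.pi) = (V - fd G z (nuP K) w) 0 := by
    rw [Pi.sub_apply, Pi.sub_apply, hper, fd_two_pi h hz]
  refine ⟨hw', hD, h1, H.compl_nonneg h hz hD hper' h1, ?_⟩
  have h2 := SV.ix_add_self hπ hz.1 hD hF
  rw [SV.ix_symm hπ hz.1 hF hD, h1 w hw', mul_zero, add_zero, sub_add_cancel,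
    sub_add_cancel] at h2
  exact h2


end NegB

end Crest.Agent.R208.NB
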