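import Crest.Agent.R208.G3
import Crest.Agent.R241.D3c

/-!
R208, block G3b (helper882): Hopf-Rinow, no corners, injectivity of the exponential map on the
open `D`-ball for Blaschke data.
-/

set_option autoImplicit false

open Set Filter Topology MeasureTheory
open scoped ContDiff RealInnerProductSpace
open Crest.GeometryTopology.Submanifold
open Crest.Agent.R241.DDefs Crest.Agent.R241.D Crest.Agent.R241.D2

noncomputable section

namespace Crest.Agent.R208

variable {n N : ℕ} {κ : ℝ} {S : Set (Euc N)} {G : Geo n N κ S} {D : ℝ}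

/-- `Exp G x ∘ b` is smooth -/
theorem contDiff_Exp_frame (G : Geo n N κ S) {x : Euc N} (hx : x ∈ S)
    {b : Euc n →ₗᵢ[ℝ] Euc N} (hb : LinearMap.range b.toLinearMap = G.T x) :
    ContDiff ℝ ∞ (fun v => Exp G x (b v)) := by
  rw [contDiff_iff_contDiffAt]
  intro v
  exact ContDiffAt.comp (g := Exp G x) (f := fun v => b v) v
    (Crest.Agent.R241.D3c.contDiffAt_Exp' G hx (frame_mem hb v))
    b.toContinuousLinearMap.contDiff.contDiffAt

/-- `Exp G x ∘ b` near small vectors: smooth, in `S`, injective differential. -/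
theorem exists_radius (G : Geo n N κ S) {x : Euc N} (hx : x ∈ S) {b : Euc n →ₗᵢ[ℝ] Euc N}
    (hb : LinearMap.range b.toLinearMap = G.T x) :
    ∃ r > 0, ∀ v : Euc n, ‖v‖ < r →
      Function.Injective (fderiv ℝ (fun v => Exp G x (b v)) v) := by
  have hd : ∀ v : Euc n, ContDiffAt ℝ ∞ (fun v => Exp G x (b v)) v := fun v =>
    (contDiff_Exp_frame G hx hb).contDiffAt
  have h0 : ∀ w, fderiv ℝ (fun v => Exp G x (b v)) 0 w = b w := by
    intro w
    have h1 : HasFDerivAt (fun v => Exp G x (b v))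
        ((fderiv ℝ (Exp G x) (b 0)).comp b.toContinuousLinearMap) 0 := by
      have h2 : HasFDerivAt (Exp G x) (fderiv ℝ (Exp G x) (b 0)) (b 0) :=
        ((Crest.Agent.R241.D3c.contDiffAt_Exp' G hx (frame_mem hb 0)).differentiableAt
          (by simp)).hasFDerivAt
      exact HasFDerivAt.comp (g := Exp G x) (f := fun v => b v) (0 : Euc n) h2
        b.toContinuousLinearMap.hasFDerivAt
    rw [h1.fderiv]
    simp only [ContinuousLinearMap.comp_apply, map_zero]
    exact Crest.Agent.R241.D3c.fderiv_Exp_zero G hx (frame_mem hb w)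
  have hcont : ContinuousAt (fderiv ℝ (fun v => Exp G x (b v))) 0 :=
    ((hd 0).fderiv_right (m := ∞) (by simp)).continuousAt
  obtain ⟨r, hr, h⟩ := Metric.continuousAt_iff.1 hcont (1 / 2) (by norm_num)
  refine ⟨r, hr, fun v hv => ?_⟩
  have h1 := h (show dist v 0 < r by rwa [dist_zero_right])
  rw [dist_eq_norm] at h1
  rw [injective_iff_map_eq_zero]
  intro w hw
  have h2 := (fderiv ℝ (fun v => Exp G x (b v)) v - fderiv ℝ (fun v => Exp G x (b v)) 0).le_opNorm w
  rw [_root_.sub_apply, hw, h0, zero_sub, norm_neg, b.norm_map] at h2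
  by_contra hne
  have h3 : 0 < ‖w‖ := norm_pos_iff.2 hne
  nlinarith

namespace Bl

variable (h : Bl n N κ S G D)

include h in
theorem joined {p q : Euc N} (hp : p ∈ S) (hq : q ∈ S) : JoinedS S p q :=
  joinedS_of_connected h.sub h.conn hp hq

include h in
theorem tri {p q r : Euc N} (hp : p ∈ S) (hq : q ∈ S) (hr : r ∈ S) :
    intrinsicDist S p r ≤ intrinsicDist S p q + intrinsicDist S q r :=
  intrinsicDist_triangle (h.joined hp hq) (h.joined hq hr)

include h in
theorem continuousOn_dist :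
    ContinuousOn (fun z : Euc N × Euc N => intrinsicDist S z.1 z.2) (S ×ˢ S) :=
  continuousOn_intrinsicDist h.sub h.cpt h.conn

include h in
theorem eq_of_dist_eq_zero {p q : Euc N} (hp : p ∈ S) (hq : q ∈ S)
    (h0 : intrinsicDist S p q = 0) : p = q := by
  have := chord_le_intrinsicDist (h.joined hp hq)
  rw [h0] at this
  exact (sub_eq_zero.1 (norm_le_zero_iff.1 this)).symm

include h in
/-- distance along rays, unit vector version -/
theorem dist_ray {p u : Euc N} (hp : p ∈ S) (hu : u ∈ G.T p) (hu1 : ‖u‖ = 1) {s t : ℝ}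
    (hst : s ≤ t) (hD : t - s ≤ D) :
    intrinsicDist S (Exp G p (s • u)) (Exp G p (t • u)) = t - s := by
  rw [Exp_smul G hp hu, Exp_smul G hp hu]
  exact h.dist_fl (p, u) ⟨hp, hu⟩ hu1 s t hst hD


include h in
theorem dist_Exp {p v : Euc N} (hp : p ∈ S) (hv : v ∈ G.T p) (hvD : ‖v‖ ≤ D) :
    intrinsicDist S p (Exp G p v) = ‖v‖ := by
  rcases eq_or_ne v 0 with rfl | hv0
  · rw [Exp_zero G hp, norm_zero, intrinsicDist_self hp]
  · have hn : 0 < ‖v‖ := norm_pos_iff.2 hv0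
    have hu1 : ‖(‖v‖⁻¹ • v)‖ = 1 := by
      rw [norm_smul, norm_inv, norm_norm, inv_mul_cancel₀ hn.ne']
    have h1 := h.dist_ray hp ((G.T p).smul_mem _ hv) hu1 (s := 0) (t := ‖v‖) hn.le (by linarith)
    rwa [zero_smul, Exp_zero G hp, smul_smul, mul_inv_cancel₀ hn.ne', one_smul, sub_zero] at h1

include h in
/-- infinitesimal triangle comparison at a corner -/
theorem corner {x u w : Euc N} (hx : x ∈ S) (hu : u ∈ G.T x) (hw : w ∈ G.T x) {η : ℝ}
    (hη : 0 < η) : ∀ᶠ ε in 𝓝[>] (0 : ℝ),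
      intrinsicDist S (Exp G x (ε • u)) (Exp G x (ε • w)) ≤ ε * (‖u - w‖ + η) := by
  set a : ℝ := ‖u - w‖ with ha
  have ha0 : 0 ≤ a := norm_nonneg _
  -- choose `ζ` with `(1 + ζ) * (a + ζ) ≤ a + η`
  obtain ⟨ζ, hζ0, hζ⟩ : ∃ ζ > 0, (1 + ζ) * (a + ζ) ≤ a + η := by
    refine ⟨min 1 (η / (a + 2)), lt_min one_pos (by positivity), ?_⟩
    set ζ := min 1 (η / (a + 2)) with hζ
    have h1 : ζ ≤ 1 := min_le_left _ _
    have h0 : 0 < ζ := lt_min one_pos (by positivity)
    have h2 : ζ * (a + 2) ≤ η := by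
      have : ζ ≤ η / (a + 2) := min_le_right _ _
      rwa [le_div_iff₀ (by positivity)] at this
    nlinarith
  obtain ⟨δ, hδ, hδb⟩ := uniform_joinedLen h.sub h.cpt hζ0
  have hmem : ∀ (v : Euc N), v ∈ G.T x → ∀ ε : ℝ, Exp G x (ε • v) ∈ S := fun v hv ε =>
    Exp_mem G hx ((G.T x).smul_mem _ hv)
  have hda : ∀ v ∈ G.T x, HasDerivAt (fun ε : ℝ => Exp G x (ε • v)) v 0 := by
    intro v hv
    have h1 : (fun ε : ℝ => Exp G x (ε • v)) = fun ε => (fl G ((x, v), ε)).1 :=
      funext fun ε => Exp_smul G hx hv ε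
    rw [h1]
    have h2 := hda_fst (hasDerivAt_fl G (complete G (q := (x, v)) ⟨hx, hv⟩ 0))
    rw [fl_zero] at h2
    exact h2
  have hdiff : HasDerivAt (fun ε : ℝ => Exp G x (ε • u) - Exp G x (ε • w)) (u - w) 0 :=
    (hda u hu).sub (hda w hw)
  have h0 : Exp G x ((0 : ℝ) • u) - Exp G x ((0 : ℝ) • w) = 0 := by
    rw [zero_smul, zero_smul, sub_self]
  have hlo := (hasDerivAt_iff_isLittleO.1 hdiff).def hζ0
  have hcont : ContinuousAt (fun ε : ℝ => Exp G x (ε • u) - Exp G x (ε • w)) 0 :=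
    hdiff.continuousAt
  have hsmall : ∀ᶠ ε in 𝓝 (0 : ℝ), ‖Exp G x (ε • u) - Exp G x (ε • w)‖ < δ := by
    have := (Metric.continuousAt_iff'.1 hcont) δ hδ
    filter_upwards [this] with ε hε
    rwa [h0, dist_zero_right] at hε
  filter_upwards [nhdsWithin_le_nhds hlo, nhdsWithin_le_nhds hsmall, self_mem_nhdsWithin] with
    ε h1 h2 hε
  have hε0 : 0 < ε := hε
  rw [h0, sub_zero, sub_zero, Real.norm_eq_abs, abs_of_pos hε0] at h1
  obtain ⟨ℓ, h3, h4⟩ := hδb _ (hmem u hu ε) _ (hmem w hw ε) (by rwa [dist_eq_norm])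
  have h5 : ‖Exp G x (ε • u) - Exp G x (ε • w)‖ ≤ ε * (a + ζ) := by
    calc ‖Exp G x (ε • u) - Exp G x (ε • w)‖
        = ‖ε • (u - w) + (Exp G x (ε • u) - Exp G x (ε • w) - ε • (u - w))‖ := by
          congr 1; abel
      _ ≤ ‖ε • (u - w)‖ + ‖Exp G x (ε • u) - Exp G x (ε • w) - ε • (u - w)‖ := norm_add_le _ _
      _ ≤ ε * a + ζ * ε := by
          gcongr
          rw [norm_smul, Real.norm_eq_abs, abs_of_pos hε0]
      _ = ε * (a + ζ) := by ring
  calc intrinsicDist S (Exp G x (ε • u)) (Exp G x (ε • w)) ≤ ℓ := intrinsicDist_le h3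
    _ ≤ (1 + ζ) * ‖Exp G x (ε • w) - Exp G x (ε • u)‖ := h4
    _ = (1 + ζ) * ‖Exp G x (ε • u) - Exp G x (ε • w)‖ := by rw [norm_sub_rev]
    _ ≤ (1 + ζ) * (ε * (a + ζ)) := by gcongr
    _ = ε * ((1 + ζ) * (a + ζ)) := by ring
    _ ≤ ε * (a + η) := by gcongr

/-- unit vectors at distance `≥ 2` are opposite -/
theorem eq_neg_of_norm_sub {u w : Euc N} (hu : ‖u‖ = 1) (hw : ‖w‖ = 1)
    (h2 : 2 ≤ ‖u - w‖) : w = -u := by
  have h1 : ‖u + w‖ ^ 2 + ‖u - w‖ ^ 2 = 2 * (‖u‖ ^ 2 + ‖w‖ ^ 2) := by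
    have := parallelogram_law_with_norm ℝ u w
    nlinarith
  rw [hu, hw] at h1
  have h3 : ‖u + w‖ ^ 2 ≤ 0 := by nlinarith
  have h4 : ‖u + w‖ = 0 := by
    have := sq_nonneg ‖u + w‖
    exact pow_eq_zero_iff (two_ne_zero) |>.1 (le_antisymm h3 this)
  have h5 : u + w = 0 := norm_eq_zero.1 h4
  exact (neg_eq_of_add_eq_zero_right h5).symm

include h in
/-- minimising curves have no corners -/
theorem no_corner {x u w : Euc N} (hx : x ∈ S) (hu : u ∈ G.T x) (hw : w ∈ G.T x)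
    (hu1 : ‖u‖ = 1) (hw1 : ‖w‖ = 1) {s t : ℝ} (hs : 0 < s) (ht : 0 < t) (hsD : s ≤ D)
    (htD : t ≤ D) (hd : s + t ≤ intrinsicDist S (Exp G x (s • u)) (Exp G x (t • w))) :
    w = -u := by
  apply eq_neg_of_norm_sub hu1 hw1
  by_contra hlt
  rw [not_le] at hlt
  set η : ℝ := (2 - ‖u - w‖) / 2 with hη
  have hη0 : 0 < η := by rw [hη]; linarith
  have hev := h.corner hx hu hw hη0
  have hev2 : ∀ᶠ ε in 𝓝[>] (0 : ℝ), ε < min s t :=
    nhdsWithin_le_nhds (Iio_mem_nhds (lt_min hs ht))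
  obtain ⟨ε, h1, h2, h3⟩ := (hev.and (hev2.and self_mem_nhdsWithin)).exists
  have hε0 : 0 < ε := h3
  have hεs : ε ≤ s := (h2.trans_le (min_le_left _ _)).le
  have hεt : ε ≤ t := (h2.trans_le (min_le_right _ _)).le
  have hmu : ∀ r : ℝ, Exp G x (r • u) ∈ S := fun r => Exp_mem G hx ((G.T x).smul_mem _ hu)
  have hmw : ∀ r : ℝ, Exp G x (r • w) ∈ S := fun r => Exp_mem G hx ((G.T x).smul_mem _ hw)
  have a1 : intrinsicDist S (Exp G x (s • u)) (Exp G x (ε • u)) = s - ε := by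
    rw [intrinsicDist_comm]
    exact h.dist_ray hx hu hu1 hεs (by linarith)
  have a2 : intrinsicDist S (Exp G x (ε • w)) (Exp G x (t • w)) = t - ε :=
    h.dist_ray hx hw hw1 hεt (by linarith)
  have a3 := h.tri (hmu s) (hmu ε) (hmw t)
  have a4 := h.tri (hmu ε) (hmw ε) (hmw t)
  nlinarith

include h in
/-- first step of Hopf-Rinow -/
theorem first_step {x : Euc N} (hx : x ∈ S) :
    ∃ δ₀ > 0, ∀ δ, 0 < δ → δ ≤ δ₀ → ∀ q ∈ S, δ ≤ intrinsicDist S x q →
      ∃ u ∈ G.T x, ‖u‖ = 1 ∧ intrinsicDist S x q = δ + intrinsicDist S (Exp G x (δ • u)) q := by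
  obtain ⟨b, hb⟩ := exists_frame G hx
  obtain ⟨r, hr, hinj⟩ := exists_radius G hx hb
  refine ⟨min (r / 2) D, lt_min (by positivity) h.D_pos, ?_⟩
  intro δ hδ hδ0 q hq hxq
  have hδr : δ < r := lt_of_le_of_lt (hδ0.trans (min_le_left _ _)) (by linarith)
  have hδD : δ ≤ D := hδ0.trans (min_le_right _ _)
  set E : Euc n → Euc N := fun v => Exp G x (b v) with hE
  have hEc : Continuous E := (contDiff_Exp_frame G hx hb).continuous
  have hES : ∀ v, E v ∈ S := fun v => Exp_mem G hx (frame_mem hb v)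
  have hEd : ∀ v, ‖v‖ ≤ D → intrinsicDist S x (E v) = ‖v‖ := by
    intro v hv
    rw [hE]
    simp only
    rw [h.dist_Exp hx (frame_mem hb v) (by rwa [b.norm_map]), b.norm_map]
  -- the open ball is relatively open
  have hopen : ∀ v, ‖v‖ < δ → ∀ᶠ y in 𝓝[S] (E v), ∃ w, ‖w‖ < δ ∧ E w = y := by
    intro v hv
    obtain ⟨R, hR, hR0, -, hR2⟩ := local_inverse h.sub (Φ := E) (v₀ := v)
      (contDiff_Exp_frame G hx hb).contDiffAt
      (Eventually.of_forall hES) (hinj v (hv.trans hδr))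
    have h1 : ∀ᶠ y in 𝓝 (E v), ‖R y‖ < δ := by
      have : ContinuousAt (fun y => ‖R y‖) (E v) := hR.continuousAt.norm
      refine this.eventually (p := fun z => z < δ) ?_
      simp only [hR0]
      exact Iio_mem_nhds hv
    filter_upwards [hR2, nhdsWithin_le_nhds h1] with y hy1 hy2
    exact ⟨R y, hy2, hy1⟩
  -- the sphere
  have hsph : IsCompact {u : Euc n | ‖u‖ = δ} := by
    have h1 : {u : Euc n | ‖u‖ = δ} = Metric.sphere (0 : Euc n) δ := by
      ext u
      rw [Metric.mem_sphere, dist_zero_right]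
      rfl
    rw [h1]
    exact isCompact_sphere (0 : Euc n) δ
  have hne : ({u : Euc n | ‖u‖ = δ}).Nonempty := by
    refine ⟨δ • stdVec n ⟨0, h.hn⟩, ?_⟩
    simp [norm_smul, stdVec, abs_of_pos hδ]
  have hfc : ContinuousOn (fun v => intrinsicDist S (E v) q) {u : Euc n | ‖u‖ = δ} := by
    have h1 := h.continuousOn_dist
    have h2 : Continuous fun v => (E v, q) := hEc.prodMk continuous_const
    exact h1.comp h2.continuousOn fun v _ => ⟨hES v, hq⟩
  obtain ⟨u₀, hu₀, hmin⟩ := hsph.exists_isMinOn hne hfc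
  have hu₀' : ‖u₀‖ = δ := hu₀
  have hkey : δ + intrinsicDist S (E u₀) q ≤ intrinsicDist S x q := by
    refine le_of_forall_pos_le_add fun ε hε => ?_
    obtain ⟨ℓ, ⟨γ, hγ, hγ0, hγ1, rfl⟩, hℓ⟩ := exists_joinedLen_lt (h.joined hx hq)
      (show intrinsicDist S x q < intrinsicDist S x q + ε by linarith)
    -- exit time
    set A : Set ℝ := {t | t ∈ Icc (0 : ℝ) 1 ∧ ¬ ∃ w, ‖w‖ < δ ∧ E w = γ t} with hA
    have hγc : Continuous γ := hγ.1.continuous
    have hAcl : IsClosed A := by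
      rw [← isOpen_compl_iff, isOpen_iff_mem_nhds]
      intro t ht
      by_cases htI : t ∈ Icc (0 : ℝ) 1
      · have h1 : ∃ w, ‖w‖ < δ ∧ E w = γ t := by
          by_contra hcon
          exact ht ⟨htI, hcon⟩
        obtain ⟨w, hw, hwt⟩ := h1
        have h2 := hopen w hw
        rw [hwt] at h2
        have h3 : Tendsto γ (𝓝 t) (𝓝[S] (γ t)) :=
          tendsto_nhdsWithin_iff.2 ⟨hγc.continuousAt, Eventually.of_forall hγ.2⟩
        filter_upwards [h3.eventually h2] with s hs hsA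
        exact hsA.2 hs
      · have : (Icc (0 : ℝ) 1)ᶜ ∈ 𝓝 t := isClosed_Icc.isOpen_compl.mem_nhds htI
        filter_upwards [this] with s hs hsA
        exact hs hsA.1
    have h1A : (1 : ℝ) ∈ A := by
      refine ⟨⟨zero_le_one, le_rfl⟩, ?_⟩
      rintro ⟨w, hw, hw1⟩
      have := hEd w (hw.le.trans hδD)
      rw [hw1, hγ1] at this
      linarith
    have hAbd : BddBelow A := ⟨0, fun t ht => ht.1.1⟩
    set t₁ := sInf A with ht₁
    have ht₁A : t₁ ∈ A := hAcl.csInf_mem ⟨1, h1A⟩ hAbd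
    have hbefore : ∀ t, 0 ≤ t → t < t₁ → ∃ w, ‖w‖ < δ ∧ E w = γ t := by
      intro t ht0 ht
      by_contra hcon
      have : t ∈ A := ⟨⟨ht0, ht.le.trans ht₁A.1.2⟩, hcon⟩
      exact absurd (csInf_le hAbd this) (not_le.2 ht)
    have h0A : t₁ ≠ 0 := by
      intro h0
      have := ht₁A.2
      rw [h0, hγ0] at this
      exact this ⟨0, by simpa using hδ, by simp [hE, Exp_zero G hx]⟩
    have ht₁pos : 0 < t₁ := lt_of_le_of_ne ht₁A.1.1 (Ne.symm h0A)
    -- `γ t₁` is in the image of the closed ball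
    have hball : IsCompact (E '' Metric.closedBall 0 δ) :=
      (isCompact_closedBall _ _).image hEc
    have hmemcl : γ t₁ ∈ E '' Metric.closedBall 0 δ := by
      have hcl : t₁ ∈ closure (Ico 0 t₁) := by
        rw [closure_Ico (ne_of_lt ht₁pos)]
        exact ⟨ht₁pos.le, le_rfl⟩
      have := map_mem_closure hγc hcl (t := E '' Metric.closedBall 0 δ) (by
        rintro t ⟨ht0, ht1⟩
        obtain ⟨w, hw, hwt⟩ := hbefore t ht0 ht1
        exact ⟨w, by simpa using hw.le, hwt⟩)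
      rwa [hball.isClosed.closure_eq] at this
    obtain ⟨v, hv, hvt⟩ := hmemcl
    rw [Metric.mem_closedBall, dist_zero_right] at hv
    have hvδ : ‖v‖ = δ := by
      rcases hv.lt_or_eq with hlt | heq
      · exact absurd ⟨v, hlt, hvt⟩ ht₁A.2
      · exact heq
    -- lengths of the two pieces
    have e1 : intrinsicDist S x (γ t₁) ≤ len γ 0 t₁ := by
      have := (intrinsicDist_le_integral h.sub h.cpt (c := γ) (c' := deriv γ) ht₁A.1.1
        (fun t _ => hγ.2 t) (fun t _ => (hasDerivAt_deriv_of_contDiff hγ.1 t).hasDerivWithinAt)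
        (contDiff_deriv hγ.1).continuous.continuousOn).2
      rwa [hγ0] at this
    have e2 : intrinsicDist S (γ t₁) q ≤ len γ t₁ 1 := by
      have := (intrinsicDist_le_integral h.sub h.cpt (c := γ) (c' := deriv γ) ht₁A.1.2
        (fun t _ => hγ.2 t) (fun t _ => (hasDerivAt_deriv_of_contDiff hγ.1 t).hasDerivWithinAt)
        (contDiff_deriv hγ.1).continuous.continuousOn).2
      rwa [hγ1] at this
    have e3 : len γ 0 t₁ + len γ t₁ 1 = curveLength γ := len_add hγ.1 0 t₁ 1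
    have e4 : intrinsicDist S x (γ t₁) = δ := by
      rw [← hvt, hEd v (by linarith), hvδ]
    have e5 : intrinsicDist S (E u₀) q ≤ intrinsicDist S (γ t₁) q := by
      rw [← hvt]
      exact hmin (show ‖v‖ = δ from hvδ)
    linarith
  have hble : intrinsicDist S x q ≤ δ + intrinsicDist S (E u₀) q := by
    have := h.tri hx (hES u₀) hq
    rwa [hEd u₀ (by linarith), hu₀'] at this
  refine ⟨δ⁻¹ • b u₀, (G.T x).smul_mem _ (frame_mem hb u₀), ?_, ?_⟩
  · rw [norm_smul, b.norm_map, hu₀', Real.norm_eq_abs, abs_of_pos (by positivity),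
      inv_mul_cancel₀ hδ.ne']
  · rw [smul_smul, mul_inv_cancel₀ hδ.ne', one_smul]
    exact le_antisymm hble hkey

include h in
/-- HOPF-RINOW: any two points are joined by a minimising geodesic. -/
theorem exists_Exp {p q : Euc N} (hp : p ∈ S) (hq : q ∈ S) :
    ∃ v ∈ G.T p, ‖v‖ = intrinsicDist S p q ∧ Exp G p v = q := by
  rcases (intrinsicDist_nonneg S p q).eq_or_lt with h0 | hpos
  · have := h.eq_of_dist_eq_zero hp hq h0.symm
    subst this
    exact ⟨0, (G.T p).zero_mem, by rw [norm_zero]; exact h0, Exp_zero G hp⟩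
  set r := intrinsicDist S p q with hr
  have hrD : r ≤ D := h.dist_le p hp q hq
  obtain ⟨δ₀, hδ₀, hfs⟩ := h.first_step hp
  obtain ⟨u, hu, hu1, hd1⟩ := hfs (min δ₀ r) (lt_min hδ₀ hpos) (min_le_left _ _) q hq
    (min_le_right _ _)
  have hm : ∀ t : ℝ, Exp G p (t • u) ∈ S := fun t => Exp_mem G hp ((G.T p).smul_mem _ hu)
  -- the set of times with the minimising property
  set A : Set ℝ := {t | t ∈ Icc 0 r ∧ intrinsicDist S (Exp G p (t • u)) q = r - t} with hA
  have hcE : Continuous fun t : ℝ => Exp G p (t • u) := by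
    have h1 : (fun t : ℝ => Exp G p (t • u)) = fun t => (fl G ((p, u), t)).1 :=
      funext fun t => Exp_smul G hp hu t
    rw [h1]
    exact (contDiff_fl_curve G (q := (p, u)) ⟨hp, hu⟩).continuous.fst
  have hcd : Continuous fun t : ℝ => intrinsicDist S (Exp G p (t • u)) q := by
    have h1 := h.continuousOn_dist
    have h2 : Continuous fun t : ℝ => (Exp G p (t • u), q) := hcE.prodMk continuous_const
    exact h1.comp_continuous h2 fun t => ⟨hm t, hq⟩
  have hAcl : IsClosed A := by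
    refine isClosed_Icc.inter (isClosed_eq hcd (continuous_const.sub continuous_id))
  have hA1 : min δ₀ r ∈ A := by
    refine ⟨⟨(lt_min hδ₀ hpos).le, min_le_right _ _⟩, ?_⟩
    linarith
  have hAbd : BddAbove A := ⟨r, fun t ht => ht.1.2⟩
  set t₀ := sSup A with ht₀
  have ht₀A : t₀ ∈ A := hAcl.csSup_mem ⟨_, hA1⟩ hAbd
  have ht₀pos : 0 < t₀ := lt_of_lt_of_le (lt_min hδ₀ hpos) (le_csSup hAbd hA1)
  rcases ht₀A.1.2.lt_or_eq with hlt | heq
  · exfalso
    -- continue the geodesic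
    set x := Exp G p (t₀ • u) with hx
    have hxS : x ∈ S := hm t₀
    have hxq : intrinsicDist S x q = r - t₀ := ht₀A.2
    obtain ⟨δ₁, hδ₁, hfs1⟩ := h.first_step hxS
    set δ := min δ₁ (r - t₀) with hδ
    have hδpos : 0 < δ := lt_min hδ₁ (by linarith)
    have hδr : δ ≤ r - t₀ := min_le_right _ _
    obtain ⟨w, hw, hw1, hd2⟩ := hfs1 δ hδpos (min_le_left _ _) q hq (by rw [hxq]; exact hδr)
    -- velocity of the geodesic at `x`
    have hTS : ((p, u) : Euc N × Euc N) ∈ TS G := ⟨hp, hu⟩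
    set z := fl G ((p, u), t₀) with hz
    have hzTS : z ∈ TS G := fl_mem G hTS t₀
    have hz1 : z.1 = x := (Exp_smul G hp hu t₀).symm
    have hz2n : ‖z.2‖ = 1 := by rw [hz, norm_fl G hTS]; exact hu1
    have hz2T : z.2 ∈ G.T x := by rw [← hz1]; exact hzTS.2
    have hzx : z = (x, z.2) := Prod.ext hz1 rfl
    have hback : ∀ s : ℝ, Exp G x (s • z.2) = Exp G p ((t₀ + s) • u) := by
      intro s
      rw [Exp_smul G hxS hz2T, Exp_smul G hp hu, ← hzx, hz, ← fl_add' G hTS]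
    -- no corner at `x`
    have hcor : w = -(-z.2) := by
      refine h.no_corner hxS (u := -z.2) (w := w) ((G.T x).neg_mem hz2T) hw
        (by rw [norm_neg, hz2n]) hw1 (s := t₀) (t := δ) ht₀pos hδpos (by linarith) (by linarith) ?_
      have e1 : Exp G x (t₀ • -z.2) = p := by
        have := hback (-t₀)
        rw [add_neg_cancel, zero_smul, Exp_zero G hp] at this
        rw [smul_neg, ← neg_smul]
        exact this
      rw [e1]
      have hwS : Exp G x (δ • w) ∈ S := Exp_mem G hxS ((G.T x).smul_mem _ hw)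
      have e2 := h.tri hp hwS hq
      linarith
    rw [neg_neg] at hcor
    have hnew : t₀ + δ ∈ A := by
      refine ⟨⟨by linarith, by linarith⟩, ?_⟩
      rw [← hback δ, ← hcor]
      linarith
    have := le_csSup hAbd hnew
    linarith
  · refine ⟨t₀ • u, (G.T p).smul_mem _ hu, ?_, ?_⟩
    · rw [norm_smul, hu1, mul_one, Real.norm_eq_abs, abs_of_pos ht₀pos, heq]
    · have h1 := ht₀A.2
      rw [heq, sub_self] at h1
      rw [heq]
      exact h.eq_of_dist_eq_zero (hm r) hq h1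

include h in
/-- the exponential map is injective on the open `D`-ball, even against the closed one -/
theorem Exp_inj {p v w : Euc N} (hp : p ∈ S) (hv : v ∈ G.T p) (hw : w ∈ G.T p)
    (hvD : ‖v‖ < D) (hwD : ‖w‖ ≤ D) (he : Exp G p v = Exp G p w) : v = w := by
  have h1 := h.dist_Exp hp hv hvD.le
  have h2 := h.dist_Exp hp hw hwD
  rw [he, h2] at h1
  rcases eq_or_ne v 0 with hv0 | hv0
  · rw [hv0, norm_zero] at h1
    rw [hv0, norm_eq_zero.1 h1]
  have hr : 0 < ‖v‖ := norm_pos_iff.2 hv0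
  set q := Exp G p v with hq
  have hqS : q ∈ S := Exp_mem G hp hv
  set a := Vel G p v with ha
  set c := Vel G p w with hc
  have haT : a ∈ G.T q := Vel_mem G hp hv
  have hcT : c ∈ G.T q := by
    have := Vel_mem G hp hw
    rwa [← he] at this
  have han : ‖a‖ = ‖v‖ := norm_Vel G hp hv
  have hcn : ‖c‖ = ‖v‖ := by rw [hc, norm_Vel G hp hw, h1]
  obtain ⟨b1, b2⟩ := Exp_neg_Vel G hp hv
  obtain ⟨b3, b4⟩ := Exp_neg_Vel G hp hw
  rw [← he] at b3 b4
  -- unit vectors
  have hinv : ‖v‖⁻¹ * ‖v‖ = 1 := inv_mul_cancel₀ hr.ne'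
  have key : ‖v‖⁻¹ • a = -(-(‖v‖⁻¹ • c)) := by
    refine h.no_corner hqS (u := -(‖v‖⁻¹ • c)) (w := ‖v‖⁻¹ • a)
      ((G.T q).neg_mem ((G.T q).smul_mem _ hcT)) ((G.T q).smul_mem _ haT) ?_ ?_
      (s := ‖v‖) (t := D - ‖v‖) hr (by linarith) hvD.le (by linarith) ?_
    · rw [norm_neg, norm_smul, norm_inv, norm_norm, hcn, hinv]
    · rw [norm_smul, norm_inv, norm_norm, han, hinv]
    · have e1 : Exp G q (‖v‖ • -(‖v‖⁻¹ • c)) = p := by
        rw [smul_neg, smul_smul, mul_inv_cancel₀ hr.ne', one_smul]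
        exact b3
      rw [e1]
      -- the second point is on the ray of `v`
      have hTS : ((p, ‖v‖⁻¹ • v) : Euc N × Euc N) ∈ TS G := ⟨hp, (G.T p).smul_mem _ hv⟩
      have e2 : fl G ((p, ‖v‖⁻¹ • v), ‖v‖) = (q, ‖v‖⁻¹ • a) := by
        rw [fl_scale G (x := p) (v := v) ⟨hp, hv⟩, hinv]
        rfl
      have e3 : Exp G q ((D - ‖v‖) • (‖v‖⁻¹ • a)) = Exp G p (D • (‖v‖⁻¹ • v)) := by
        rw [Exp_smul G hqS ((G.T q).smul_mem _ haT), Exp_smul G hp hTS.2, ← e2,
          ← fl_add' G hTS]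
        congr 2
        ring_nf
      rw [e3]
      have hu1 : ‖(‖v‖⁻¹ • v)‖ = 1 := by rw [norm_smul, norm_inv, norm_norm, hinv]
      have e4 := h.dist_ray hp hTS.2 hu1 (s := 0) (t := D) h.D_pos.le (by linarith)
      rw [zero_smul, Exp_zero G hp] at e4
      rw [e4]
      linarith
  rw [neg_neg] at key
  have hac : a = c := by
    have := congrArg (fun z => ‖v‖ • z) key
    simp only [smul_smul, mul_inv_cancel₀ hr.ne', one_smul] at this
    exact this
  have b5 : Vel G q (-a) = -v := b2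
  have b6 : Vel G q (-c) = -w := b4
  rw [hac, b6] at b5
  exact (neg_injective b5).symm

end Bl

end Crest.Agent.R208
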