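import Crest.Agent.R208.SV1
import Crest.Agent.R208.G3b

-- ▼ part R208/SV2
section

/-!
R208, block SV (helper336), part 2: uniform pointwise second order expansion of
`|d/dt Exp (γ t) (A t)|^2`.
-/

set_option autoImplicit false

open Set Filter Topology MeasureTheory
open scoped ContDiff RealInnerProductSpace Interval
open Crest.GeometryTopology.Submanifold
open Crest.Agent.R241.DDefs
open Crest.Agent.R241.D2
open Crest.Agent.R208.L (om TanTS dfl)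

noncomputable section

namespace Crest.Agent.R208.SV

section taylor

lemma mvt0 {f f' : ℝ → ℝ} {C s : ℝ} (hs : 0 ≤ s)
    (hf : ∀ r ∈ Icc 0 s, HasDerivAt f (f' r) r) (hb : ∀ r ∈ Icc 0 s, |f' r| ≤ C) :
    |f s - f 0| ≤ C * s := by
  have h := norm_image_sub_le_of_norm_deriv_le_segment' (f := f) (f' := f') (C := C) (a := 0)
    (b := s) (fun x hx => (hf x hx).hasDerivWithinAt)
    (fun x hx => hb x ⟨hx.1, hx.2.le⟩) s ⟨hs, le_rfl⟩
  simpa using h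

/-- uniform second order Taylor estimate -/
theorem taylor2 {Z : Type*} [NormedAddCommGroup Z] [NormedSpace ℝ Z] {K : Set Z}
    (hK : IsCompact K) {g0 g1 g2 : Z × ℝ → ℝ}
    (h1 : ∀ z ∈ K, ∀ s ∈ Icc (0 : ℝ) 1, HasDerivAt (fun s => g0 (z, s)) (g1 (z, s)) s)
    (h2 : ∀ z ∈ K, ∀ s ∈ Icc (0 : ℝ) 1, HasDerivAt (fun s => g1 (z, s)) (g2 (z, s)) s)
    (h3 : ∀ z ∈ K, ∀ s ∈ Icc (0 : ℝ) 1, ContDiffAt ℝ 1 g2 (z, s)) :
    ∃ C, 0 ≤ C ∧ ∀ z ∈ K, ∀ s ∈ Icc (0 : ℝ) 1,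
      |g0 (z, s) - g0 (z, 0) - s * g1 (z, 0) - s ^ 2 / 2 * g2 (z, 0)| ≤ C * s ^ 3 := by
  have hcont : ContinuousOn (fun p => fderiv ℝ g2 p (0, 1)) (K ×ˢ Icc (0 : ℝ) 1) := by
    rintro ⟨z, s⟩ ⟨hz, hs⟩
    have h4 : ContDiffAt ℝ 0 (fderiv ℝ g2) (z, s) := (h3 z hz s hs).fderiv_right (by norm_num)
    exact (h4.continuousAt.clm_apply continuousAt_const).continuousWithinAt
  obtain ⟨C, hC⟩ := (hK.prod isCompact_Icc).exists_bound_of_continuousOn hcont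
  refine ⟨max C 0, le_max_right _ _, ?_⟩
  intro z hz s hs
  have hsub : ∀ r ∈ Icc 0 s, r ∈ Icc (0 : ℝ) 1 := fun r hr => ⟨hr.1, hr.2.trans hs.2⟩
  have e2 : ∀ r ∈ Icc (0 : ℝ) 1, HasDerivAt (fun s => g2 (z, s)) (fderiv ℝ g2 (z, r) (0, 1)) r := by
    intro r hr
    have h5 := ((h3 z hz r hr).differentiableAt (by norm_num)).hasFDerivAt
    have h6 : HasDerivAt (fun s : ℝ => ((z, s) : Z × ℝ)) (0, 1) r :=
      (hasDerivAt_const r z).prodMk (hasDerivAt_id r)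
    exact HasFDerivAt.comp_hasDerivAt (f := fun s : ℝ => ((z, s) : Z × ℝ)) r h5 h6
  have b2 : ∀ r ∈ Icc (0 : ℝ) 1, |g2 (z, r) - g2 (z, 0)| ≤ max C 0 * r := by
    intro r hr
    refine mvt0 (f := fun s => g2 (z, s)) hr.1 (fun r' hr' => e2 r' ⟨hr'.1, hr'.2.trans hr.2⟩)
      fun r' hr' => ?_
    exact (hC (z, r') ⟨hz, hr'.1, hr'.2.trans hr.2⟩).trans (le_max_left _ _)
  have b1 : ∀ r ∈ Icc (0 : ℝ) 1, |g1 (z, r) - g1 (z, 0) - r * g2 (z, 0)| ≤ max C 0 * r * r := by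
    intro r hr
    have := mvt0 (f := fun s => g1 (z, s) - s * g2 (z, 0)) (f' := fun s => g2 (z, s) - g2 (z, 0))
      (C := max C 0 * r) hr.1 (fun r' hr' => ?_) fun r' hr' => ?_
    · simp only [zero_mul, sub_zero] at this
      rw [sub_right_comm] at this
      exact this
    · have h7 := h2 z hz r' ⟨hr'.1, hr'.2.trans hr.2⟩
      have h8 : HasDerivAt (fun s : ℝ => s * g2 (z, 0)) (g2 (z, 0)) r' := by
        simpa using (hasDerivAt_id r').mul_const (g2 (z, 0))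
      exact h7.fun_sub h8
    · refine (b2 r' ⟨hr'.1, hr'.2.trans hr.2⟩).trans ?_
      exact mul_le_mul_of_nonneg_left hr'.2 (le_max_right _ _)
  have b0 := mvt0 (f := fun s => g0 (z, s) - s * g1 (z, 0) - s ^ 2 / 2 * g2 (z, 0))
      (f' := fun s => g1 (z, s) - g1 (z, 0) - s * g2 (z, 0))
      (C := max C 0 * s * s) hs.1 (fun r' hr' => ?_) fun r' hr' => ?_
  · simp only [zero_mul, sub_zero] at b0
    have e : g0 (z, s) - g0 (z, 0) - s * g1 (z, 0) - s ^ 2 / 2 * g2 (z, 0) =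
        g0 (z, s) - s * g1 (z, 0) - s ^ 2 / 2 * g2 (z, 0) -
          (g0 (z, 0) - (0 : ℝ) ^ 2 / 2 * g2 (z, 0)) := by ring
    rw [e]
    refine b0.trans (le_of_eq ?_)
    ring
  · have h7 := h1 z hz r' ⟨hr'.1, hr'.2.trans hs.2⟩
    have h8 : HasDerivAt (fun s : ℝ => s * g1 (z, 0)) (g1 (z, 0)) r' := by
      simpa using (hasDerivAt_id r').mul_const (g1 (z, 0))
    have h9 : HasDerivAt (fun s : ℝ => s ^ 2 / 2 * g2 (z, 0)) (r' * g2 (z, 0)) r' := by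
      have := (((hasDerivAt_id r').pow 2).div_const 2).mul_const (g2 (z, 0))
      refine this.congr_deriv ?_
      simp
    exact (h7.fun_sub h8).fun_sub h9
  · refine (b1 r' ⟨hr'.1, hr'.2.trans hs.2⟩).trans ?_
    have := le_max_right C 0
    have h0 := hr'.1
    have h1 := hr'.2
    exact mul_le_mul (mul_le_mul_of_nonneg_left h1 this) h1 h0 (mul_nonneg this hs.1)

/-- a quadratic polynomial small on `[-δ,δ]` -/
lemma quad_bound {p0 p1 p2 m δ : ℝ} (hδ : 0 < δ)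
    (h : ∀ l : ℝ, |l| ≤ δ → |p0 + p1 * l + p2 * l ^ 2| ≤ m) :
    |p0 + p1 + p2| ≤ m * (1 + 1 / δ + 2 / δ ^ 2) := by
  have h0 := h 0 (by simpa using hδ.le)
  have h1 := h δ (by rw [abs_of_pos hδ])
  have h2 := h (-δ) (by rw [abs_neg, abs_of_pos hδ])
  simp only [mul_zero, add_zero, ne_eq, OfNat.ofNat_ne_zero, not_false_eq_true, zero_pow] at h0
  have hp1 : |p1| ≤ m / δ := by
    rw [le_div_iff₀ hδ]
    have : |p1 * δ| ≤ m := by
      rw [abs_le] at *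
      constructor <;> nlinarith [h1.1, h1.2, h2.1, h2.2]
    rwa [abs_mul, abs_of_pos hδ] at this
  have hp2 : |p2| ≤ 2 * m / δ ^ 2 := by
    rw [le_div_iff₀ (by positivity)]
    have : |p2 * δ ^ 2| ≤ 2 * m := by
      rw [abs_le] at *
      constructor <;> nlinarith [h1.1, h1.2, h2.1, h2.2, h0.1, h0.2]
    rwa [abs_mul, abs_of_pos (by positivity : (0:ℝ) < δ ^ 2)] at this
  calc |p0 + p1 + p2| ≤ |p0| + |p1| + |p2| := abs_add_three _ _ _
    _ ≤ m + m / δ + 2 * m / δ ^ 2 := by gcongr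
    _ = m * (1 + 1 / δ + 2 / δ ^ 2) := by field_simp

end taylor

end Crest.Agent.R208.SV
end
end

-- ▼ part R208/SV3
section

/-!
R208, block SV (helper336), part 3: the uniform pointwise second order expansion of
`|D Exp (x,y) (u,w)|^2`.
-/

set_option autoImplicit false

open Set Filter Topology MeasureTheory
open scoped ContDiff RealInnerProductSpace Interval
open Crest.GeometryTopology.Submanifold
open Crest.Agent.R241.DDefs
open Crest.Agent.R241.D2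
open Crest.Agent.R208.L (om TanTS dfl)

noncomputable section

namespace Crest.Agent.R208.SV

variable {n N : ℕ} {κ : ℝ} {S : Set (Euc N)} {G : Geo n N κ S} {q ξ : Euc N × Euc N}

variable (G) in
/-- linearised flow as a function of all its variables -/
def LL (p : ((Euc N × Euc N) × (Euc N × Euc N)) × ℝ) : Euc N × Euc N :=
  fderiv ℝ (fl G) (p.1.1, p.2) (p.1.2, 0)

lemma LL_eq (hq : q ∈ TS G) (ξ : Euc N × Euc N) (s : ℝ) : LL G ((q, ξ), s) = dfl G q s ξ :=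
  (L.dfl_apply hq s ξ).symm

lemma contDiffAt_LL (hq : q ∈ TS G) (ξ : Euc N × Euc N) (s : ℝ) :
    ContDiffAt ℝ ∞ (LL G) ((q, ξ), s) := by
  have h0 : ContDiffAt ℝ ∞ (fderiv ℝ (fl G)) (q, s) :=
    (contDiffAt_fl' G hq s).fderiv_right (m := ∞) (by simp)
  have h1 : ContDiffAt ℝ ∞ (fun p : ((Euc N × Euc N) × (Euc N × Euc N)) × ℝ => (p.1.1, p.2))
      ((q, ξ), s) := by fun_prop
  have h2 : ContDiffAt ℝ ∞ (fun p : ((Euc N × Euc N) × (Euc N × Euc N)) × ℝ => (p.1.2, (0:ℝ)))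
      ((q, ξ), s) := by fun_prop
  have h3 : ContDiffAt ℝ ∞ (fun p : ((Euc N × Euc N) × (Euc N × Euc N)) × ℝ =>
      fderiv ℝ (fl G) (p.1.1, p.2)) ((q, ξ), s) :=
    ContDiffAt.comp (g := fderiv ℝ (fl G)) ((q, ξ), s) h0 h1
  exact h3.clm_apply h2

variable (G) in
def g0 (p : ((Euc N × Euc N) × (Euc N × Euc N)) × ℝ) : ℝ := ‖(LL G p).1‖ ^ 2

variable (G) in
def g1 (p : ((Euc N × Euc N) × (Euc N × Euc N)) × ℝ) : ℝ := 2 * ⟪(LL G p).1, (LL G p).2⟫

variable (G) in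
def g2 (p : ((Euc N × Euc N) × (Euc N × Euc N)) × ℝ) : ℝ :=
  2 * ‖(LL G p).2‖ ^ 2 +
    2 * ⟪(LL G p).1, (fderiv ℝ (X G) (fl G (p.1.1, p.2)) (LL G p)).2⟫

lemma hasDerivAt_g0 (hq : q ∈ TS G) (ξ : Euc N × Euc N) (s : ℝ) :
    HasDerivAt (fun s => g0 G ((q, ξ), s)) (g1 G ((q, ξ), s)) s := by
  have h := hasDerivAt_jf hq ξ s
  have e : (fun s => g0 G ((q, ξ), s)) = fun s => ‖jf G q ξ s‖ ^ 2 := by
    funext r; unfold g0; rw [LL_eq hq]; rfl
  rw [e]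
  refine (h.norm_sq).congr_deriv ?_
  unfold g1
  rw [LL_eq hq]
  rfl

lemma hasDerivAt_g1 (hq : q ∈ TS G) (ξ : Euc N × Euc N) (s : ℝ) :
    HasDerivAt (fun s => g1 G ((q, ξ), s)) (g2 G ((q, ξ), s)) s := by
  have h := hasDerivAt_jf hq ξ s
  have h' := hasDerivAt_jf' hq ξ s
  have e : (fun s => g1 G ((q, ξ), s)) = fun s => 2 * ⟪jf G q ξ s, jf' G q ξ s⟫ := by
    funext r; unfold g1; rw [LL_eq hq]; rfl
  rw [e]
  refine ((h.inner ℝ h').const_mul 2).congr_deriv ?_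
  unfold g2
  rw [LL_eq hq]
  change 2 * (⟪jf G q ξ s, _⟫ + ⟪jf' G q ξ s, jf' G q ξ s⟫) =
    2 * ‖jf' G q ξ s‖ ^ 2 + 2 * ⟪jf G q ξ s, _⟫
  rw [real_inner_self_eq_norm_sq]
  ring

lemma contDiffAt_g2 (hq : q ∈ TS G) (ξ : Euc N × Euc N) (s : ℝ) :
    ContDiffAt ℝ 1 (g2 G) ((q, ξ), s) := by
  have hL : ContDiffAt ℝ ∞ (LL G) ((q, ξ), s) := contDiffAt_LL hq ξ s
  have h0 : ContDiffAt ℝ ∞ (fun p : ((Euc N × Euc N) × (Euc N × Euc N)) × ℝ =>
      fl G (p.1.1, p.2)) ((q, ξ), s) := by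
    have h1 : ContDiffAt ℝ ∞ (fun p : ((Euc N × Euc N) × (Euc N × Euc N)) × ℝ => (p.1.1, p.2))
      ((q, ξ), s) := by fun_prop
    exact ContDiffAt.comp (g := fl G) ((q, ξ), s) (contDiffAt_fl' G hq s) h1
  have hX : ContDiff ℝ ∞ (fderiv ℝ (X G)) := (contDiff_X G).fderiv_right (by simp)
  have h2 : ContDiffAt ℝ ∞ (fun p : ((Euc N × Euc N) × (Euc N × Euc N)) × ℝ =>
      fderiv ℝ (X G) (fl G (p.1.1, p.2)) (LL G p)) ((q, ξ), s) :=
    (hX.contDiffAt.comp _ h0).clm_apply hL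
  have h3 : ContDiffAt ℝ ∞ (g2 G) ((q, ξ), s) :=
    (contDiffAt_const.mul (hL.snd.norm_sq ℝ)).add
      (contDiffAt_const.mul (hL.fst.inner ℝ h2.snd))
  exact h3.of_le (by simp)

/-! ### scaling -/

lemma tanTS_scale {x y u w : Euc N} (h : TanTS G (x, y) (u, w)) (s : ℝ) :
    TanTS G (x, s • y) (u, s • w) := by
  obtain ⟨c, h0, hc, hS⟩ := h
  refine ⟨fun r => ((c r).1, s • (c r).2), by simp [h0], (hda_fst hc).prodMk
    ((hda_snd hc).const_smul s), ?_⟩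
  filter_upwards [hS] with r hr
  exact ⟨hr.1, (G.T _).smul_mem s hr.2⟩

lemma dfl_scale {x y u w : Euc N} (h : TanTS G (x, y) (u, w)) (s : ℝ) :
    (dfl G (x, y) s (u, w)).1 = (dfl G (x, s • y) 1 (u, s • w)).1 := by
  have hq := mem_TS h
  have hq' := mem_TS (tanTS_scale h s)
  obtain ⟨c, h0, hc, hS⟩ := h
  have h1 : HasDerivAt (fun r => (fl G (c r, s)).1) (dfl G (x, y) s (u, w)).1 0 := by
    have h2 : HasFDerivAt (fun y => fl G (y, s)) (dfl G (x, y) s) (c 0) := by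
      rw [h0]; exact L.hasFDerivAt_fl_left hq s
    exact hda_fst (h2.comp_hasDerivAt (0 : ℝ) hc)
  have h2 : HasDerivAt (fun r => (fl G (((c r).1, s • (c r).2), 1)).1)
      (dfl G (x, s • y) 1 (u, s • w)).1 0 := by
    have h3 : HasDerivAt (fun r => ((c r).1, s • (c r).2)) (u, s • w) 0 :=
      (hda_fst hc).prodMk ((hda_snd hc).const_smul s)
    have h4 : HasFDerivAt (fun y => fl G (y, 1)) (dfl G (x, s • y) 1)
        ((c 0).1, s • (c 0).2) := by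
      rw [h0]; exact L.hasFDerivAt_fl_left hq' 1
    exact hda_fst (HasFDerivAt.comp_hasDerivAt (f := fun r => ((c r).1, s • (c r).2)) (0 : ℝ) h4 h3)
  refine h1.unique (h2.congr_of_eventuallyEq ?_)
  filter_upwards [hS] with r hr
  exact (Exp_smul G hr.1 hr.2 s).symm

/-! ### the remainder -/

variable (G) in
/-- the second order remainder -/
def Rr (x y u w : Euc N) : ℝ :=
  ‖(dfl G (x, y) 1 (u, w)).1‖ ^ 2 - ‖u‖ ^ 2 - 2 * ⟪u, w⟫ -
    (‖w‖ ^ 2 - ⟪II G x y y, II G x u u⟫)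

variable (G) in
/-- a compact set of tangent data -/
def KK (M : ℝ) : Set ((Euc N × Euc N) × (Euc N × Euc N)) :=
  {z | z.1 ∈ TS G ∧ (z.1.1, z.2.1) ∈ TS G ∧ ‖z.1.2‖ ≤ 1 ∧ ‖z.2.1‖ ≤ 1 ∧ ‖z.2.2‖ ≤ M}

lemma isCompact_KK (hc : IsCompact S) (M : ℝ) : IsCompact (KK G M) := by
  have h1 : IsCompact ((S ×ˢ Metric.closedBall (0 : Euc N) 1) ×ˢ
      (Metric.closedBall (0 : Euc N) 1 ×ˢ Metric.closedBall (0 : Euc N) M)) :=
    (hc.prod (isCompact_closedBall _ _)).prod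
      ((isCompact_closedBall _ _).prod (isCompact_closedBall _ _))
  refine h1.of_isClosed_subset ?_ ?_
  · have c1 : IsClosed {z : (Euc N × Euc N) × (Euc N × Euc N) | z.1 ∈ TS G} :=
      (isClosed_TS G).preimage continuous_fst
    have c2 : IsClosed {z : (Euc N × Euc N) × (Euc N × Euc N) | (z.1.1, z.2.1) ∈ TS G} :=
      (isClosed_TS G).preimage (by fun_prop)
    have c3 : IsClosed {z : (Euc N × Euc N) × (Euc N × Euc N) | ‖z.1.2‖ ≤ 1} :=
      isClosed_le (by fun_prop) continuous_const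
    have c4 : IsClosed {z : (Euc N × Euc N) × (Euc N × Euc N) | ‖z.2.1‖ ≤ 1} :=
      isClosed_le (by fun_prop) continuous_const
    have c5 : IsClosed {z : (Euc N × Euc N) × (Euc N × Euc N) | ‖z.2.2‖ ≤ M} :=
      isClosed_le (by fun_prop) continuous_const
    exact c1.inter (c2.inter (c3.inter (c4.inter c5)))
  · rintro z ⟨h1, h2, h3, h4, h5⟩
    refine ⟨⟨h1.1, by simpa using h3⟩, by simpa using h4, by simpa using h5⟩

lemma step1 (hc : IsCompact S) (M : ℝ) : ∃ C, 0 ≤ C ∧ ∀ x y u w : Euc N,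
    TanTS G (x, y) (u, w) → ‖y‖ ≤ 1 → ‖u‖ ≤ 1 → ‖w‖ ≤ M → ∀ s ∈ Icc (0 : ℝ) 1,
      |Rr G x (s • y) u (s • w)| ≤ C * s ^ 3 := by
  obtain ⟨C, hC0, hC⟩ := taylor2 (isCompact_KK (G := G) hc M) (g0 := g0 G) (g1 := g1 G)
    (g2 := g2 G) (fun z hz s _ => hasDerivAt_g0 hz.1 z.2 s)
    (fun z hz s _ => hasDerivAt_g1 hz.1 z.2 s) (fun z hz s _ => contDiffAt_g2 hz.1 z.2 s)
  refine ⟨C, hC0, ?_⟩
  intro x y u w h hy hu hw s hs
  have hq := mem_TS h
  have hxu : (x, u) ∈ TS G := ⟨hq.1, h.fst_mem⟩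
  have h1 := hC ((x, y), (u, w)) ⟨hq, hxu, hy, hu, hw⟩ s hs
  refine le_trans (le_of_eq ?_) h1
  congr 1
  unfold Rr g0 g1 g2
  rw [LL_eq hq, LL_eq hq, L.dfl_zero hq, dfl_scale h s, fl_zero]
  have e1 : ⟪u, (fderiv ℝ (X G) (x, y) (u, w)).2⟫ = -⟪II G x y y, II G x u u⟫ := by
    rw [real_inner_comm, L.inner_fderiv_X hq h h.fst_mem]
    rfl
  simp only [e1]
  have e2 : II G x (s • y) (s • y) = (s ^ 2) • II G x y y := by
    unfold II
    rw [map_smul, map_smul, smul_apply, smul_smul, pow_two]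
  rw [e2, norm_smul, inner_smul_right, real_inner_smul_left, mul_pow, Real.norm_eq_abs, sq_abs]
  ring

end Crest.Agent.R208.SV
end
end

-- ▼ part R208/SV4
section

/-!
R208, block SV (helper336), part 4: the pointwise remainder estimate
`|Rr x y u w| ≤ C ‖y‖ (‖y‖² + ‖w‖²)`.
-/

set_option autoImplicit false

open Set Filter Topology MeasureTheory
open scoped ContDiff RealInnerProductSpace Interval
open Crest.GeometryTopology.Submanifold
open Crest.Agent.R241.DDefs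
open Crest.Agent.R241.D2
open Crest.Agent.R208.L (om TanTS dfl)

noncomputable section

namespace Crest.Agent.R208.SV

variable {n N : ℕ} {κ : ℝ} {S : Set (Euc N)} {G : Geo n N κ S} {q ξ : Euc N × Euc N}

lemma exists_II_bound (G : Geo n N κ S) (hc : IsCompact S) :
    ∃ B, 0 ≤ B ∧ ∀ x ∈ S, ∀ v w : Euc N, ‖II G x v w‖ ≤ B * ‖v‖ * ‖w‖ := by
  have h3 : Continuous (fderiv ℝ G.P) := G.contDiff_P.continuous_fderiv (by simp)
  obtain ⟨B, hB⟩ : ∃ B, ∀ x ∈ S, ‖fderiv ℝ G.P x‖ ≤ B := by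
    have hcn : Continuous (fun x => ‖fderiv ℝ G.P x‖) :=
      (continuous_norm (E := Euc N →L[ℝ] Euc N →L[ℝ] Euc N)).comp h3
    obtain ⟨C, hC⟩ := hc.exists_bound_of_continuousOn (f := fun x => ‖fderiv ℝ G.P x‖)
      hcn.continuousOn
    exact ⟨C, fun x hx => (le_abs_self _).trans (hC x hx)⟩
  refine ⟨max B 0, le_max_right _ _, fun x hx v w => ?_⟩
  calc ‖II G x v w‖ ≤ ‖fderiv ℝ G.P x v‖ * ‖w‖ := (fderiv ℝ G.P x v).le_opNorm w
    _ ≤ ‖fderiv ℝ G.P x‖ * ‖v‖ * ‖w‖ := by gcongr; exact (fderiv ℝ G.P x).le_opNorm v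
    _ ≤ max B 0 * ‖v‖ * ‖w‖ := by gcongr; exact (hB x hx).trans (le_max_left _ _)

lemma norm_P_le {x : Euc N} (hx : x ∈ S) (w : Euc N) : ‖G.P x w‖ ≤ ‖w‖ := by
  rw [G.P_eq x hx]
  exact Submodule.norm_starProjection_apply_le _ _

lemma step2 (hc : IsCompact S) : ∃ C, 0 ≤ C ∧ ∀ x y u w : Euc N,
    TanTS G (x, y) (u, w) → ‖u‖ ≤ 1 → ∀ s : ℝ, 0 < s → s ≤ 1 → ‖y‖ ≤ s →
      |Rr G x y u w| ≤ C * (s * (s ^ 2 + ‖w‖ ^ 2)) := by
  obtain ⟨B, hB0, hB⟩ := exists_II_bound G hc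
  obtain ⟨C, hC0, hC⟩ := step1 (G := G) hc (B + 1)
  refine ⟨4 * C, by positivity, ?_⟩
  intro x y u w h hu s hs0 hs1 hys
  have hq := mem_TS h
  have hx : x ∈ S := hq.1
  have hyT : y ∈ G.T x := hq.2
  have huT : u ∈ G.T x := h.fst_mem
  set w0 := II G x y u with hw0
  set b := G.P x w with hb
  have hbT : b ∈ G.T x := P_mem G hx
  have hw : w = w0 + b := by rw [add_comm]; exact snd_eq h
  have hbw : ‖b‖ ≤ ‖w‖ := norm_P_le hx w
  have key : ∀ l : ℝ, |l| * ‖b‖ ≤ s → |Rr G x y u (w0 + l • b)| ≤ C * s ^ 3 := by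
    intro l hl
    have h1 : TanTS G (x, y) (u, w0 + l • b) :=
      tanTS_mk hx hyT huT ((G.T x).smul_mem l hbT)
    have h2 := tanTS_scale h1 s⁻¹
    have h3 : ‖s⁻¹ • y‖ ≤ 1 := by
      rw [norm_smul, norm_inv, Real.norm_of_nonneg hs0.le, inv_mul_le_iff₀ hs0, mul_one]
      exact hys
    have h4 : ‖s⁻¹ • (w0 + l • b)‖ ≤ B + 1 := by
      rw [norm_smul, norm_inv, Real.norm_of_nonneg hs0.le, inv_mul_le_iff₀ hs0]
      calc ‖w0 + l • b‖ ≤ ‖w0‖ + ‖l • b‖ := norm_add_le _ _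
        _ ≤ B * ‖y‖ * ‖u‖ + |l| * ‖b‖ := by
            rw [norm_smul, Real.norm_eq_abs]
            gcongr
            exact hB x hx y u
        _ ≤ B * s * 1 + s := by gcongr
        _ = s * (B + 1) := by ring
    have h5 := hC x (s⁻¹ • y) u (s⁻¹ • (w0 + l • b)) h2 h3 hu h4 s ⟨hs0.le, hs1⟩
    rwa [smul_inv_smul₀ hs0.ne', smul_inv_smul₀ hs0.ne'] at h5
  by_cases hb0 : b = 0
  · have h6 := key 0 (by simpa using hs0.le)
    rw [hb0, smul_zero, add_zero] at h6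
    rw [hw, hb0, add_zero]
    refine h6.trans ?_
    have : 0 ≤ ‖w0‖ ^ 2 := by positivity
    have h7 : C * s ^ 3 ≤ C * (s * (s ^ 2 + ‖w0‖ ^ 2)) := by
      apply mul_le_mul_of_nonneg_left _ hC0
      nlinarith
    nlinarith [mul_nonneg hC0 (mul_nonneg hs0.le (by positivity : 0 ≤ s ^ 2 + ‖w0‖ ^ 2))]
  · have hbpos : 0 < ‖b‖ := norm_pos_iff.2 hb0
    set δ := s / ‖b‖ with hδ
    have hδ0 : 0 < δ := by positivity
    -- polynomial structure
    set A := (dfl G (x, y) 1 (u, w0)).1 with hA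
    set D := (dfl G (x, y) 1 (0, b)).1 with hD
    have hlin : ∀ l : ℝ, (dfl G (x, y) 1 (u, w0 + l • b)).1 = A + l • D := by
      intro l
      have e : ((u, w0 + l • b) : Euc N × Euc N) = (u, w0) + l • ((0, b) : Euc N × Euc N) := by
        ext1 <;> simp
      rw [e, map_add, map_smul]
      rfl
    have hpoly : ∀ l : ℝ, Rr G x y u (w0 + l • b) =
        (‖A‖ ^ 2 - ‖u‖ ^ 2 - 2 * ⟪u, w0⟫ - ‖w0‖ ^ 2 + ⟪II G x y y, II G x u u⟫) +
          (2 * ⟪A, D⟫ - 2 * ⟪u, b⟫ - 2 * ⟪w0, b⟫) * l + (‖D‖ ^ 2 - ‖b‖ ^ 2) * l ^ 2 := by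
      intro l
      unfold Rr
      rw [hlin, norm_add_sq_real, norm_add_sq_real, inner_smul_right, inner_add_right,
        inner_smul_right, inner_smul_right, norm_smul, norm_smul, mul_pow, mul_pow,
        Real.norm_eq_abs, sq_abs]
      ring
    have h8 := quad_bound (p0 := ‖A‖ ^ 2 - ‖u‖ ^ 2 - 2 * ⟪u, w0⟫ - ‖w0‖ ^ 2 +
        ⟪II G x y y, II G x u u⟫) (p1 := 2 * ⟪A, D⟫ - 2 * ⟪u, b⟫ - 2 * ⟪w0, b⟫)
        (p2 := ‖D‖ ^ 2 - ‖b‖ ^ 2) (m := C * s ^ 3) hδ0 (fun l hl => by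
          rw [← hpoly]
          refine key l ?_
          rwa [hδ, le_div_iff₀ hbpos] at hl)
    have h9 : Rr G x y u w = ‖A‖ ^ 2 - ‖u‖ ^ 2 - 2 * ⟪u, w0⟫ - ‖w0‖ ^ 2 +
        ⟪II G x y y, II G x u u⟫ + (2 * ⟪A, D⟫ - 2 * ⟪u, b⟫ - 2 * ⟪w0, b⟫) +
        (‖D‖ ^ 2 - ‖b‖ ^ 2) := by
      have := hpoly 1
      rw [one_smul, ← hw] at this
      rw [this]; ring
    rw [h9]
    refine h8.trans ?_
    have h10 : C * s ^ 3 * (1 + 1 / δ + 2 / δ ^ 2) =
        C * (s * (s ^ 2 + s * ‖b‖ + 2 * ‖b‖ ^ 2)) := by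
      rw [hδ]; field_simp
    rw [h10]
    have h11 : s * ‖b‖ ≤ (s ^ 2 + ‖b‖ ^ 2) / 2 := by nlinarith [sq_nonneg (s - ‖b‖)]
    have h12 : ‖b‖ ^ 2 ≤ ‖w‖ ^ 2 := by gcongr
    have h13 : s ^ 2 + s * ‖b‖ + 2 * ‖b‖ ^ 2 ≤ 4 * (s ^ 2 + ‖w‖ ^ 2) := by nlinarith [sq_nonneg s]
    calc C * (s * (s ^ 2 + s * ‖b‖ + 2 * ‖b‖ ^ 2)) ≤ C * (s * (4 * (s ^ 2 + ‖w‖ ^ 2))) := by gcongr
      _ = 4 * C * (s * (s ^ 2 + ‖w‖ ^ 2)) := by ring

/-- **uniform second order expansion** of `|D Exp (x,y) (u,w)|²` -/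
theorem pt (hc : IsCompact S) : ∃ C, 0 ≤ C ∧ ∀ x y u w : Euc N,
    TanTS G (x, y) (u, w) → ‖u‖ ≤ 1 → ‖y‖ ≤ 1 →
      |Rr G x y u w| ≤ C * (‖y‖ * (‖y‖ ^ 2 + ‖w‖ ^ 2)) := by
  obtain ⟨C, hC0, hC⟩ := step2 (G := G) hc
  refine ⟨C, hC0, ?_⟩
  intro x y u w h hu hy
  by_cases hy0 : y = 0
  · have h1 : Tendsto (fun s : ℝ => C * (s * (s ^ 2 + ‖w‖ ^ 2))) (𝓝[>] 0)
        (𝓝 (C * (0 * (0 ^ 2 + ‖w‖ ^ 2)))) := by
      apply Tendsto.mono_left _ nhdsWithin_le_nhds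
      have : Continuous fun s : ℝ => C * (s * (s ^ 2 + ‖w‖ ^ 2)) := by fun_prop
      exact this.tendsto 0
    have h2 : ∀ᶠ s in 𝓝[>] (0 : ℝ), |Rr G x y u w| ≤ C * (s * (s ^ 2 + ‖w‖ ^ 2)) := by
      filter_upwards [Ioo_mem_nhdsGT (zero_lt_one : (0:ℝ) < 1)] with s hs
      exact hC x y u w h hu s hs.1 hs.2.le (by rw [hy0, norm_zero]; exact hs.1.le)
    have h3 := ge_of_tendsto h1 h2
    rw [hy0, norm_zero] at *
    simpa using h3
  · exact hC x y u w h hu ‖y‖ (norm_pos_iff.2 hy0) hy le_rfl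

end Crest.Agent.R208.SV
end
end

-- ▼ part R208/SV5

/-!
R208, block SV (helper336), part 5: energy of `t ↦ Exp (γ t) (A t)`, positivity of the index form on
fields vanishing at the ends of a minimising arc.
-/

set_option autoImplicit false

open Set Filter Topology MeasureTheory
open scoped ContDiff RealInnerProductSpace Interval
open Crest.GeometryTopology.Submanifold
open Crest.Agent.R241.DDefs
open Crest.Agent.R241.D2
open Crest.Agent.R208.L (om TanTS dfl)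

noncomputable section

namespace Crest.Agent.R208.SV

variable {n N : ℕ} {κ : ℝ} {S : Set (Euc N)} {G : Geo n N κ S} {q ξ : Euc N × Euc N}

lemma Fld.tanTS (hq : q ∈ TS G) {a b : ℝ} (hab : a < b) {A A' : ℝ → Euc N}
    (hA : Fld G q a b A A') {t : ℝ} (ht : t ∈ Icc a b) :
    TanTS G ((fl G (q, t)).1, A t) ((fl G (q, t)).2, A' t) := by
  have hft := fl_mem G hq t
  have h1 : HasDerivAt (fun t => (fl G (q, t)).1) (fl G (q, t)).2 t :=
    hda_fst (hasDerivAt_fl G (complete G hq t))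
  have h2 : HasDerivAt (fun t => G.P (fl G (q, t)).1) (fderiv ℝ G.P (fl G (q, t)).1
      (fl G (q, t)).2) t :=
    ((differentiable_P G) _).hasFDerivAt.comp_hasDerivAt t h1
  have h3 : HasDerivWithinAt (fun t => G.P (fl G (q, t)).1 (A t))
      (fderiv ℝ G.P (fl G (q, t)).1 (fl G (q, t)).2 (A t) + G.P (fl G (q, t)).1 (A' t))
      (Icc a b) t := h2.hasDerivWithinAt.clm_apply (hA.der t ht)
  have h4 : HasDerivWithinAt A
      (fderiv ℝ G.P (fl G (q, t)).1 (fl G (q, t)).2 (A t) + G.P (fl G (q, t)).1 (A' t))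
      (Icc a b) t := by
    refine h3.congr (fun r hr => ?_) ?_
    · exact ((P_eq_self G (fl_mem G hq r).1).1 (hA.mem r hr)).symm
    · exact ((P_eq_self G hft.1).1 (hA.mem t ht)).symm
  have h5 := (uniqueDiffOn_Icc hab t ht).eq_deriv _ (hA.der t ht) h4
  have h6 : A' t = II G (fl G (q, t)).1 (A t) (fl G (q, t)).2 + G.P (fl G (q, t)).1 (A' t) := by
    rw [II_comm hft.1 (hA.mem t ht) hft.2]
    exact h5
  rw [h6]
  exact tanTS_mk hft.1 (hA.mem t ht) hft.2 (P_mem G hft.1)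

variable (G) in
/-- the curve `Exp (γ t) (A t)` -/
def cv (q : Euc N × Euc N) (A : ℝ → Euc N) (t : ℝ) : Euc N := Exp G (fl G (q, t)).1 (A t)

variable (G) in
/-- its velocity -/
def cv' (q : Euc N × Euc N) (A A' : ℝ → Euc N) (t : ℝ) : Euc N :=
  (dfl G ((fl G (q, t)).1, A t) 1 ((fl G (q, t)).2, A' t)).1

lemma Fld.mem_TS (hq : q ∈ TS G) {a b : ℝ} {A A' : ℝ → Euc N}
    (hA : Fld G q a b A A') {t : ℝ} (ht : t ∈ Icc a b) : ((fl G (q, t)).1, A t) ∈ TS G :=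
  ⟨(fl_mem G hq t).1, hA.mem t ht⟩

lemma Fld.cv_mem (hq : q ∈ TS G) {a b : ℝ} {A A' : ℝ → Euc N}
    (hA : Fld G q a b A A') {t : ℝ} (ht : t ∈ Icc a b) : cv G q A t ∈ S :=
  Exp_mem G (fl_mem G hq t).1 (hA.mem t ht)

lemma Fld.hasDerivWithinAt_cv (hq : q ∈ TS G) {a b : ℝ} {A A' : ℝ → Euc N}
    (hA : Fld G q a b A A') {t : ℝ} (ht : t ∈ Icc a b) :
    HasDerivWithinAt (cv G q A) (cv' G q A A' t) (Icc a b) t := by
  have h1 : HasDerivAt (fun t => (fl G (q, t)).1) (fl G (q, t)).2 t :=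
    hda_fst (hasDerivAt_fl G (complete G hq t))
  have h2 : HasDerivWithinAt (fun t => ((fl G (q, t)).1, A t)) ((fl G (q, t)).2, A' t)
      (Icc a b) t := h1.hasDerivWithinAt.prodMk (hA.der t ht)
  have h3 := L.hasFDerivAt_fl_left (hA.mem_TS hq ht) 1
  have h4 : HasDerivWithinAt (fun t => fl G (((fl G (q, t)).1, A t), 1))
      (dfl G ((fl G (q, t)).1, A t) 1 ((fl G (q, t)).2, A' t)) (Icc a b) t :=
    HasFDerivAt.comp_hasDerivWithinAt (f := fun t => ((fl G (q, t)).1, A t)) t h3 h2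
  exact (hasFDerivAt_fst (𝕜 := ℝ)).comp_hasDerivWithinAt t h4

lemma Fld.contOn_cv' (hq : q ∈ TS G) {a b : ℝ} {A A' : ℝ → Euc N}
    (hA : Fld G q a b A A') : ContinuousOn (cv' G q A A') (Icc a b) := by
  intro t ht
  have h1 : ContinuousAt (LL G) ((((fl G (q, t)).1, A t), ((fl G (q, t)).2, A' t)), 1) :=
    (contDiffAt_LL (hA.mem_TS hq ht) _ 1).continuousAt
  have h2 := contOn_fl hq (Icc a b) t ht
  have h3 : ContinuousWithinAt (fun t =>
      (((((fl G (q, t)).1, A t), ((fl G (q, t)).2, A' t)), (1 : ℝ)) :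
        ((Euc N × Euc N) × (Euc N × Euc N)) × ℝ)) (Icc a b) t :=
    ((h2.fst.prodMk (hA.contX t ht)).prodMk (h2.snd.prodMk (hA.cont t ht))).prodMk
      continuousWithinAt_const
  have h4 := h1.comp_continuousWithinAt (f := fun t =>
      (((((fl G (q, t)).1, A t), ((fl G (q, t)).2, A' t)), (1 : ℝ)) :
        ((Euc N × Euc N) × (Euc N × Euc N)) × ℝ)) h3
  have h5 := h4.fst
  refine h5.congr (fun r hr => ?_) ?_
  · unfold cv'; rw [Function.comp_apply, LL_eq (hA.mem_TS hq hr)]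
  · unfold cv'; rw [Function.comp_apply, LL_eq (hA.mem_TS hq ht)]

/-- `∫ ⟪γ', A'⟫ = [⟪γ', A⟫]` -/
lemma Fld.int_inner (hq : q ∈ TS G) {a b : ℝ} (hab : a ≤ b) {A A' : ℝ → Euc N}
    (hA : Fld G q a b A A') :
    ∫ t in a..b, ⟪(fl G (q, t)).2, A' t⟫ = ⟪(fl G (q, b)).2, A b⟫ - ⟪(fl G (q, a)).2, A a⟫ := by
  have hc2 : ContinuousOn (fun t => (fl G (q, t)).2) (Icc a b) :=
    continuous_snd.comp_continuousOn (contOn_fl hq _)
  have hc3 : ContinuousOn (fun t => ⟪(fl G (q, t)).2, A t⟫) (Icc a b) := hc2.inner hA.contX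
  refine intervalIntegral.integral_eq_sub_of_hasDerivAt_of_le hab hc3
    (fun t ht => ?_) ?_
  · have ht' : t ∈ Icc a b := ⟨ht.1.le, ht.2.le⟩
    have h1 := hda_snd (hasDerivAt_fl G (complete G hq t))
    have h2 := (hA.der t ht').hasDerivAt (Icc_mem_nhds ht.1 ht.2)
    refine (h1.inner ℝ h2).congr_deriv ?_
    have h3 := fl_mem G hq t
    have h4 : ⟪(X G (fl G (q, t))).2, A t⟫ = 0 := inner_II G h3.1 h3.2 h3.2 (hA.mem t ht')
    rw [h4, add_zero]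
  · apply ContinuousOn.intervalIntegrable
    rw [uIcc_of_le hab]
    exact hc2.inner hA.cont

/-- **energy expansion** -/
theorem energy_expand (hc : IsCompact S) : ∃ C, 0 ≤ C ∧ ∀ q ∈ TS G, ‖q.2‖ ≤ 1 →
    ∀ a b : ℝ, a ≤ b → ∀ A A' : ℝ → Euc N, Fld G q a b A A' → ∀ ρ ≤ 1,
      (∀ t ∈ Icc a b, ‖A t‖ ≤ ρ) →
      |(∫ t in a..b, ‖cv' G q A A' t‖ ^ 2) - (b - a) * ‖q.2‖ ^ 2 -
          2 * (⟪(fl G (q, b)).2, A b⟫ - ⟪(fl G (q, a)).2, A a⟫) - ix G q a b A A' A A'| ≤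
        C * ρ * ∫ t in a..b, (‖A t‖ ^ 2 + ‖A' t‖ ^ 2) := by
  obtain ⟨C, hC0, hC⟩ := pt (G := G) hc
  refine ⟨C, hC0, ?_⟩
  intro q hq hq1 a b hab A A' hA ρ hρ hAρ
  rcases hab.eq_or_lt with rfl | hlt
  · simp [ix]
  have i1 : IntervalIntegrable (fun t => ‖cv' G q A A' t‖ ^ 2) volume a b := by
    apply ContinuousOn.intervalIntegrable
    rw [uIcc_of_le hab]
    exact (hA.contOn_cv' hq).norm.pow 2
  have hc2 : ContinuousOn (fun t => (fl G (q, t)).2) (Icc a b) :=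
    continuous_snd.comp_continuousOn (contOn_fl hq _)
  have i2 : IntervalIntegrable (fun t => 2 * ⟪(fl G (q, t)).2, A' t⟫) volume a b := by
    apply ContinuousOn.intervalIntegrable
    rw [uIcc_of_le hab]
    exact continuousOn_const.mul (hc2.inner hA.cont)
  have i3 := hA.intble hq hab hA
  have i4 : IntervalIntegrable (fun _ : ℝ => ‖q.2‖ ^ 2) volume a b := by simp
  have i5 : IntervalIntegrable (fun t => ‖A t‖ ^ 2 + ‖A' t‖ ^ 2) volume a b := by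
    apply ContinuousOn.intervalIntegrable
    rw [uIcc_of_le hab]
    exact (hA.contX.norm.pow 2).add (hA.cont.norm.pow 2)
  have e1 : (∫ t in a..b, ‖cv' G q A A' t‖ ^ 2) - (b - a) * ‖q.2‖ ^ 2 -
          2 * (⟪(fl G (q, b)).2, A b⟫ - ⟪(fl G (q, a)).2, A a⟫) - ix G q a b A A' A A' =
      ∫ t in a..b, (‖cv' G q A A' t‖ ^ 2 - ‖q.2‖ ^ 2 - 2 * ⟪(fl G (q, t)).2, A' t⟫ -
        ixd G q A A' A A' t) := by
    rw [intervalIntegral.integral_sub ((i1.sub i4).sub i2) i3,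
      intervalIntegral.integral_sub (i1.sub i4) i2, intervalIntegral.integral_sub i1 i4,
      intervalIntegral.integral_const_mul, hA.int_inner hq hab]
    simp [ix]
  rw [e1, ← intervalIntegral.integral_const_mul]
  rw [← Real.norm_eq_abs]
  refine (intervalIntegral.norm_integral_le_integral_norm hab).trans ?_
  apply intervalIntegral.integral_mono_on hab (((i1.sub i4).sub i2).sub i3).norm (i5.const_mul _)
  intro t ht
  have hft := fl_mem G hq t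
  have h1 := hA.tanTS hq hlt ht
  have h2 := hC _ _ _ _ h1 (by rw [norm_fl G hq]; exact hq1) ((hAρ t ht).trans hρ)
  have h3 : ‖cv' G q A A' t‖ ^ 2 - ‖q.2‖ ^ 2 - 2 * ⟪(fl G (q, t)).2, A' t⟫ -
        ixd G q A A' A A' t = Rr G (fl G (q, t)).1 (A t) (fl G (q, t)).2 (A' t) := by
    unfold Rr cv' ixd
    rw [norm_fl G hq, real_inner_self_eq_norm_sq]
    have : (X G (fl G (q, t))).2 = II G (fl G (q, t)).1 (fl G (q, t)).2 (fl G (q, t)).2 := rfl
    rw [this, real_inner_comm (II G (fl G (q, t)).1 (A t) (A t))]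
  rw [h3, Real.norm_eq_abs]
  refine h2.trans ?_
  have h4 := hAρ t ht
  have h5 : 0 ≤ ‖A t‖ ^ 2 + ‖A' t‖ ^ 2 := by positivity
  calc C * (‖A t‖ * (‖A t‖ ^ 2 + ‖A' t‖ ^ 2)) ≤ C * (ρ * (‖A t‖ ^ 2 + ‖A' t‖ ^ 2)) := by gcongr
    _ = C * ρ * (‖A t‖ ^ 2 + ‖A' t‖ ^ 2) := by ring

/-- **the index form is nonnegative on fields vanishing at the ends of a minimising arc** -/
theorem ix_nonneg {D : ℝ} (hB : Bl n N κ S G D) (hq : q ∈ TS G) (hq1 : ‖q.2‖ = 1) {a b : ℝ}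
    (hab : a ≤ b) (hbD : b - a ≤ D) {A A' : ℝ → Euc N} (hA : Fld G q a b A A')
    (ha : A a = 0) (hb : A b = 0) : 0 ≤ ix G q a b A A' A A' := by
  obtain ⟨C, hC0, hC⟩ := energy_expand (G := G) hB.cpt
  obtain ⟨M, hM⟩ := isCompact_Icc.exists_bound_of_continuousOn hA.contX
  set M' := max M 1 with hM'
  have hM1 : 1 ≤ M' := le_max_right _ _
  have hMt : ∀ t ∈ Icc a b, ‖A t‖ ≤ M' := fun t ht => (hM t ht).trans (le_max_left _ _)
  set I := ∫ t in a..b, (‖A t‖ ^ 2 + ‖A' t‖ ^ 2) with hI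
  have hI0 : 0 ≤ I := intervalIntegral.integral_nonneg hab fun t _ => by positivity
  -- the key inequality
  have key : ∀ ε : ℝ, 0 < ε → ε ≤ 1 / M' → -(C * (ε * M') * I) ≤ ix G q a b A A' A A' := by
    intro ε hε hεM
    have hεM' : ε * M' ≤ 1 := by rwa [le_div_iff₀ (by linarith)] at hεM
    have hεA := hA.smul ε
    have h1 := hC q hq hq1.le a b hab (ε • A) (ε • A') hεA (ε * M') hεM' (fun t ht => by
      rw [Pi.smul_apply, norm_smul, Real.norm_of_nonneg hε.le]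
      exact mul_le_mul_of_nonneg_left (hMt t ht) hε.le)
    simp only [Pi.smul_apply, ha, hb, smul_zero, inner_zero_right, sub_zero, mul_zero, hq1,
      one_pow, mul_one] at h1
    rw [ix_smul_left, ix_smul_right] at h1
    have h2 : ∫ t in a..b, (‖ε • A t‖ ^ 2 + ‖ε • A' t‖ ^ 2) = ε ^ 2 * I := by
      rw [hI, ← intervalIntegral.integral_const_mul]
      refine intervalIntegral.integral_congr fun t _ => ?_
      simp only [norm_smul, mul_pow, Real.norm_eq_abs, sq_abs]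
      ring
    rw [h2] at h1
    -- minimality
    have h3 := (intrinsicDist_le_integral hB.sub hB.cpt hab (fun t ht => hεA.cv_mem hq ht)
      (fun t ht => hεA.hasDerivWithinAt_cv hq ht) (hεA.contOn_cv' hq)).2
    have h4 : cv G q (ε • A) a = (fl G (q, a)).1 := by
      unfold cv; rw [Pi.smul_apply, ha, smul_zero, Exp_zero G (fl_mem G hq a).1]
    have h5 : cv G q (ε • A) b = (fl G (q, b)).1 := by
      unfold cv; rw [Pi.smul_apply, hb, smul_zero, Exp_zero G (fl_mem G hq b).1]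
    rw [h4, h5, hB.dist_fl q hq hq1 a b hab hbD] at h3
    have hcn : ContinuousOn (fun t => ‖cv' G q (ε • A) (ε • A') t‖) (uIcc a b) := by
      rw [uIcc_of_le hab]; exact (hεA.contOn_cv' hq).norm
    have h6 : 0 ≤ ∫ t in a..b, (‖cv' G q (ε • A) (ε • A') t‖ - 1) ^ 2 :=
      intervalIntegral.integral_nonneg hab fun t _ => sq_nonneg _
    have h7 : ∫ t in a..b, (‖cv' G q (ε • A) (ε • A') t‖ - 1) ^ 2 =
        (∫ t in a..b, ‖cv' G q (ε • A) (ε • A') t‖ ^ 2) -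
          2 * (∫ t in a..b, ‖cv' G q (ε • A) (ε • A') t‖) + (b - a) := by
      have j1 : IntervalIntegrable (fun t => ‖cv' G q (ε • A) (ε • A') t‖ ^ 2) volume a b :=
        (hcn.pow 2).intervalIntegrable
      have j2 : IntervalIntegrable (fun t => 2 * ‖cv' G q (ε • A) (ε • A') t‖) volume a b :=
        (continuousOn_const.mul hcn).intervalIntegrable
      have j3 : IntervalIntegrable (fun _ : ℝ => (1 : ℝ)) volume a b := by simp
      rw [← intervalIntegral.integral_const_mul, ← intervalIntegral.integral_sub j1 j2]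
      have e3 : b - a = ∫ _t in a..b, (1 : ℝ) := by simp
      rw [e3, ← intervalIntegral.integral_add (j1.sub j2) j3]
      refine intervalIntegral.integral_congr fun t _ => ?_
      ring
    have h8 : b - a ≤ ∫ t in a..b, ‖cv' G q (ε • A) (ε • A') t‖ ^ 2 := by linarith
    rw [abs_le] at h1
    have h9 : 0 ≤ ε ^ 2 * ix G q a b A A' A A' + C * (ε * M') * (ε ^ 2 * I) := by
      nlinarith [h1.2]
    have h10 : 0 ≤ ε ^ 2 * (ix G q a b A A' A A' + C * (ε * M') * I) := by nlinarith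
    have h11 := nonneg_of_mul_nonneg_right h10 (by positivity)
    linarith
  -- let `ε → 0`
  by_contra hneg
  rw [not_le] at hneg
  set J := ix G q a b A A' A A' with hJ
  set ε := min (1 / M') (-J / (2 * (C * M' * I + 1))) with hε
  have hpos : 0 < C * M' * I + 1 := by positivity
  have hε0 : 0 < ε := lt_min (by positivity) (div_pos (by linarith) (by positivity))
  have h12 := key ε hε0 (min_le_left _ _)
  have h13 : ε ≤ -J / (2 * (C * M' * I + 1)) := min_le_right _ _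
  rw [le_div_iff₀ (by positivity)] at h13
  have h14 : 0 ≤ C * M' * I := by positivity
  nlinarith

end Crest.Agent.R208.SV
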