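import Crest.Agent.R241.D3b

-- ▼ part R208/J1
section

/-!
R208, block G4a (helper631), part 1: parallel transport along the geodesics of a closed submanifold
of Euclidean space, as a smooth field `PT G q t` of isometries of the ambient space which
intertwines the projections onto the tangent spaces.
-/

set_option autoImplicit false

open Set Filter Topology
open scoped ContDiff RealInnerProductSpace
open Crest.GeometryTopology.Submanifold
open Crest.Agent.R241.DDefs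
open Crest.Agent.R241.D2
open Crest.Agent.Lib.ODEFlow

noncomputable section

namespace Crest.Agent.R208.J

variable {n N : ℕ} {κ : ℝ} {S : Set (Euc N)} (G : Geo n N κ S)

/-- derivative of the projection field in the direction `q.2` at `q.1`. -/
def dP (q : Euc N × Euc N) : Euc N →L[ℝ] Euc N := fderiv ℝ G.P q.1 q.2

/-- connection form: `E' = Om E` is the equation of parallel transport. -/
def Om (q : Euc N × Euc N) : Euc N →L[ℝ] Euc N := dP G q ∘L G.P q.1 - G.P q.1 ∘L dP G q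

lemma contDiff_dP : ContDiff ℝ ∞ (dP G) := by
  have h1 : ContDiff ℝ ∞ (fderiv ℝ G.P) := G.contDiff_P.fderiv_right (by simp)
  exact (h1.comp contDiff_fst).clm_apply contDiff_snd

lemma contDiff_Om : ContDiff ℝ ∞ (Om G) := by
  have h1 := contDiff_dP G
  have h2 : ContDiff ℝ ∞ (fun q : Euc N × Euc N => G.P q.1) := G.contDiff_P.comp contDiff_fst
  exact (h1.clm_comp h2).sub (h2.clm_comp h1)

lemma hasDerivAt_P_comp {c : ℝ → Euc N} {c' : Euc N} {t : ℝ} (h : HasDerivAt c c' t) :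
    HasDerivAt (fun s => G.P (c s)) (dP G (c t, c')) t :=
  ((differentiable_P G) (c t)).hasFDerivAt.comp_hasDerivAt t h

variable {G}

/-- `dP` is symmetric. -/
lemma inner_dP {x v : Euc N} (hx : x ∈ S) (hv : v ∈ G.T x) (a b : Euc N) :
    ⟪dP G (x, v) a, b⟫ = ⟪a, dP G (x, v) b⟫ := by
  obtain ⟨c, h0, hc, hS⟩ := exists_curve G hx hv
  have hP := hasDerivAt_P_comp G hc
  rw [h0] at hP
  have h1 : HasDerivAt (fun t => ⟪G.P (c t) a, b⟫) ⟪dP G (x, v) a, b⟫ 0 := by
    have := (hP.clm_apply (hasDerivAt_const (0 : ℝ) a)).inner ℝ (hasDerivAt_const (0 : ℝ) b)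
    simpa using this
  have h2 : HasDerivAt (fun t => ⟪a, G.P (c t) b⟫) ⟪a, dP G (x, v) b⟫ 0 := by
    have := (hasDerivAt_const (0 : ℝ) a).inner ℝ (hP.clm_apply (hasDerivAt_const (0 : ℝ) b))
    simpa using this
  have h3 : (fun t => ⟪G.P (c t) a, b⟫) =ᶠ[𝓝 0] fun t => ⟪a, G.P (c t) b⟫ := by
    filter_upwards [hS] with t ht
    exact inner_P_left G ht a b
  exact (h1.congr_of_eventuallyEq h3.symm).unique h2

/-- `P' P + P P' = P'`. -/
lemma dP_P_add {x v : Euc N} (hx : x ∈ S) (hv : v ∈ G.T x) (a : Euc N) :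
    dP G (x, v) (G.P x a) + G.P x (dP G (x, v) a) = dP G (x, v) a := by
  obtain ⟨c, h0, hc, hS⟩ := exists_curve G hx hv
  have hP := hasDerivAt_P_comp G hc
  rw [h0] at hP
  have h1 : HasDerivAt (fun t => G.P (c t) a) (dP G (x, v) a) 0 := by
    simpa using hP.clm_apply (hasDerivAt_const (0 : ℝ) a)
  have h2 := hP.clm_apply h1
  have h3 : (fun t => G.P (c t) (G.P (c t) a)) =ᶠ[𝓝 0] fun t => G.P (c t) a := by
    filter_upwards [hS] with t ht
    exact P_idem G ht a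
  have h4 := (h2.congr_of_eventuallyEq h3.symm).unique h1
  rw [h0] at h4
  exact h4

/-- `P P' P = 0`. -/
lemma P_dP_P {x v : Euc N} (hx : x ∈ S) (hv : v ∈ G.T x) (a : Euc N) :
    G.P x (dP G (x, v) (G.P x a)) = 0 := by
  have h := congrArg (G.P x) (dP_P_add hx hv a)
  rw [map_add, P_idem G hx] at h
  simpa using h

/-- `dP` maps normal vectors to tangent ones. -/
lemma P_dP_normal {x v a : Euc N} (hx : x ∈ S) (hv : v ∈ G.T x) (ha : G.P x a = 0) :
    G.P x (dP G (x, v) a) = dP G (x, v) a := by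
  have h := dP_P_add hx hv a
  rw [ha, map_zero, zero_add] at h
  exact h

lemma Om_apply (q : Euc N × Euc N) (a : Euc N) :
    Om G q a = dP G q (G.P q.1 a) - G.P q.1 (dP G q a) := rfl

lemma inner_Om {q : Euc N × Euc N} (hq : q ∈ TS G) (a b : Euc N) :
    ⟪Om G q a, b⟫ = -⟪a, Om G q b⟫ := by
  obtain ⟨x, v⟩ := q
  have h1 := inner_dP (G := G) hq.1 hq.2
  simp only [Om_apply, inner_sub_left, inner_sub_right]
  rw [h1, inner_P_left G hq.1, inner_P_left G hq.1, h1]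
  ring

lemma P_Om {q : Euc N × Euc N} (hq : q ∈ TS G) (a : Euc N) :
    G.P q.1 (Om G q a) - Om G q (G.P q.1 a) = - dP G q a := by
  obtain ⟨x, v⟩ := q
  have hx : x ∈ S := hq.1
  have hv : v ∈ G.T x := hq.2
  have h1 := dP_P_add hx hv a
  simp only [Om_apply, map_sub]
  have e1 : G.P x (dP G (x, v) (G.P x a)) = 0 := P_dP_P hx hv a
  have e2 : G.P x (G.P x a) = G.P x a := P_idem G hx a
  have e3 : G.P x (G.P x (dP G (x, v) a)) = G.P x (dP G (x, v) a) := P_idem G hx _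
  rw [e1, e2, e3]
  have h2 : ∀ u w z : Euc N, u + w = z → 0 - w - (u - 0) = -z := by
    rintro u w z rfl
    abel
  exact h2 _ _ _ h1

lemma Om_tangent {q : Euc N × Euc N} (hq : q ∈ TS G) {a : Euc N} (ha : a ∈ G.T q.1) :
    Om G q a = dP G q a := by
  obtain ⟨x, v⟩ := q
  have hx : x ∈ S := hq.1
  have hv : v ∈ G.T x := hq.2
  have ha' : G.P x a = a := (P_eq_self G hx).1 ha
  have h2 := P_dP_P hx hv a
  rw [ha'] at h2
  rw [Om_apply]
  change dP G (x, v) (G.P x a) - G.P x (dP G (x, v) a) = _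
  rw [ha', h2, sub_zero]

/-! ### parallel transport -/

variable (G)

/-- the vector field of the coupled system -/
def Y (z : (Euc N × Euc N) × (Euc N →L[ℝ] Euc N)) :
    (Euc N × Euc N) × (Euc N →L[ℝ] Euc N) := (X G z.1, Om G z.1 ∘L z.2)

lemma contDiff_Y : ContDiff ℝ ∞ (Y G) :=
  ((contDiff_X G).comp contDiff_fst).prodMk (((contDiff_Om G).comp contDiff_fst).clm_comp
    contDiff_snd)

lemma hY1 : ContDiffOn ℝ 1 (Y G) univ := ((contDiff_Y G).of_le (by simp)).contDiffOn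

/-- flow of the coupled system -/
def fY (z : ((Euc N × Euc N) × (Euc N →L[ℝ] Euc N)) × ℝ) :
    (Euc N × Euc N) × (Euc N →L[ℝ] Euc N) := flow (Y G) univ z

def dY : Set (((Euc N × Euc N) × (Euc N →L[ℝ] Euc N)) × ℝ) := dom (Y G) univ

lemma isOpen_dY : IsOpen (dY G) := isOpen_dom isOpen_univ (hY1 G)

lemma contDiffAt_fY {z : ((Euc N × Euc N) × (Euc N →L[ℝ] Euc N)) × ℝ} (h : z ∈ dY G) :
    ContDiffAt ℝ ∞ (fY G) z :=
  (contDiffOn_flow (n := ⊤) (by simp) isOpen_univ (contDiff_Y G).contDiffOn).contDiffAt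
    ((isOpen_dY G).mem_nhds h)

lemma fY_zero (z : (Euc N × Euc N) × (Euc N →L[ℝ] Euc N)) : fY G (z, 0) = z :=
  flow_zero isOpen_univ (hY1 G) (mem_univ _)

lemma hasDerivAt_fY {z : (Euc N × Euc N) × (Euc N →L[ℝ] Euc N)} {t : ℝ} (h : (z, t) ∈ dY G) :
    HasDerivAt (fun s => fY G (z, s)) (Y G (fY G (z, t))) t :=
  hasDerivAt_flow isOpen_univ (hY1 G) h

lemma mem_dY_of_uIcc {z : (Euc N × Euc N) × (Euc N →L[ℝ] Euc N)} {l s : ℝ} (h : (z, l) ∈ dY G)
    (hs : s ∈ uIcc 0 l) : (z, s) ∈ dY G := mem_dom_of_uIcc h hs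

/-- the first component is the geodesic flow. -/
lemma fY_fst {z : (Euc N × Euc N) × (Euc N →L[ℝ] Euc N)} {t : ℝ} (h : (z, t) ∈ dY G) :
    (fY G (z, t)).1 = fl G (z.1, t) := by
  have h1 := fl_of_curve G (c := fun s => (fY G (z, s)).1) (q := z.1) (l := t)
    (by simp [fY_zero]) (fun s hs => hda_fst (hasDerivAt_fY G (mem_dY_of_uIcc G h hs)))
  exact h1.2.symm

lemma hasDerivAt_fY_snd {z : (Euc N × Euc N) × (Euc N →L[ℝ] Euc N)} {t : ℝ} (h : (z, t) ∈ dY G) :
    HasDerivAt (fun s => (fY G (z, s)).2) (Om G (fl G (z.1, t)) ∘L (fY G (z, t)).2) t := by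
  have h1 := hda_snd (hasDerivAt_fY G h)
  rw [← fY_fst G h]
  exact h1

lemma inner_fY {z : (Euc N × Euc N) × (Euc N →L[ℝ] Euc N)} (hz : z.1 ∈ TS G) {t : ℝ} (ht : 0 ≤ t)
    (h : (z, t) ∈ dY G) (a b : Euc N) :
    ⟪(fY G (z, t)).2 a, (fY G (z, t)).2 b⟫ = ⟪z.2 a, z.2 b⟫ := by
  have hmem : ∀ s ∈ Icc 0 t, (z, s) ∈ dY G := fun s hs =>
    mem_dY_of_uIcc G h (by rwa [uIcc_of_le ht])
  have hder : ∀ s ∈ Icc 0 t,
      HasDerivAt (fun s => ⟪(fY G (z, s)).2 a, (fY G (z, s)).2 b⟫) 0 s := by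
    intro s hs
    have h1 := hasDerivAt_fY_snd G (hmem s hs)
    have h2 := (h1.clm_apply (hasDerivAt_const s a)).inner ℝ (h1.clm_apply (hasDerivAt_const s b))
    refine h2.congr_deriv ?_
    simp only [ContinuousLinearMap.comp_apply, map_zero, add_zero]
    rw [inner_Om (fl_mem G hz s)]
    ring
  have hconst := constant_of_has_deriv_right_zero
    (fun s hs => (hder s hs).continuousAt.continuousWithinAt)
    (fun s hs => (hder s ⟨hs.1, hs.2.le⟩).hasDerivWithinAt) t ⟨ht, le_rfl⟩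
  rw [fY_zero] at hconst
  exact hconst

lemma complete_nonneg_Y {z : (Euc N × Euc N) × (Euc N →L[ℝ] Euc N)} (hz : z.1 ∈ TS G) {t : ℝ}
    (ht : 0 ≤ t) : (z, t) ∈ dY G := by
  refine mem_dom_of_compact isOpen_univ (hY1 G)
    (K := (Metric.closedBall (z.1.1) (‖z.1.2‖ * t) ×ˢ Metric.closedBall (0 : Euc N) ‖z.1.2‖) ×ˢ
      Metric.closedBall (0 : Euc N →L[ℝ] Euc N) ‖z.2‖)
    (((isCompact_closedBall _ _).prod (isCompact_closedBall _ _)).prod (isCompact_closedBall _ _))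
    (subset_univ _) (mem_univ _) ?_ ht
  intro s hs hsd
  have hf := fY_fst G hsd
  have hnorm := norm_fl G hz s
  refine ⟨?_, ?_⟩
  · change (fY G (z, s)).1 ∈ _
    rw [hf]
    constructor
    · have h1 : ∀ r ∈ Icc 0 s, HasDerivWithinAt (fun r => (fl G (z.1, r)).1)
          ((fl G (z.1, r)).2) (Icc 0 s) r := fun r hr =>
        (hda_fst (hasDerivAt_fl G (complete G hz r))).hasDerivWithinAt
      have h2 := (convex_Icc (0 : ℝ) s).norm_image_sub_le_of_norm_hasDerivWithin_le h1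
        (C := ‖z.1.2‖) (fun r hr => (norm_fl G hz r).le)
        (x := 0) (y := s) ⟨le_rfl, hs.1⟩ ⟨hs.1, le_rfl⟩
      rw [fl_zero] at h2
      rw [Metric.mem_closedBall, dist_eq_norm]
      refine h2.trans ?_
      rw [sub_zero, Real.norm_eq_abs, abs_of_nonneg hs.1]
      exact mul_le_mul_of_nonneg_left hs.2.le (norm_nonneg _)
    · rw [Metric.mem_closedBall, dist_zero_right]
      exact hnorm.le
  · rw [Metric.mem_closedBall, dist_zero_right]
    refine ContinuousLinearMap.opNorm_le_bound _ (norm_nonneg _) fun a => ?_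
    have h1 := inner_fY G hz hs.1 hsd a a
    rw [real_inner_self_eq_norm_sq, real_inner_self_eq_norm_sq] at h1
    have h2 := (sq_eq_sq₀ (norm_nonneg _) (norm_nonneg _)).1 h1
    change ‖(fY G (z, s)).2 a‖ ≤ _
    rw [h2]
    exact z.2.le_opNorm a

lemma Om_rev (q : Euc N × Euc N) : Om G (rev q) = -Om G q := by
  ext1 a
  have h : dP G (rev q) = -dP G q := by simp [dP, rev]
  rw [Om_apply, h]
  change (-dP G q) (G.P q.1 a) - G.P q.1 ((-dP G q) a) = -(Om G q a)
  rw [Om_apply, neg_apply, neg_apply, map_neg]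
  abel

/-- reversal on the state space -/
def revY (z : (Euc N × Euc N) × (Euc N →L[ℝ] Euc N)) :
    (Euc N × Euc N) × (Euc N →L[ℝ] Euc N) := (rev z.1, z.2)

lemma Y_revY (z : (Euc N × Euc N) × (Euc N →L[ℝ] Euc N)) :
    Y G (revY z) = (-rev (X G z.1), -(Om G z.1 ∘L z.2)) := by
  refine Prod.ext ?_ ?_
  · change X G (rev z.1) = _
    rw [X_rev]
  · change Om G (rev z.1) ∘L z.2 = _
    rw [Om_rev]
    rfl

lemma hasDerivAt_revY {c : ℝ → (Euc N × Euc N) × (Euc N →L[ℝ] Euc N)} {s : ℝ}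
    {c' : (Euc N × Euc N) × (Euc N →L[ℝ] Euc N)} (h : HasDerivAt c c' s) :
    HasDerivAt (fun s => revY (c s)) (rev c'.1, c'.2) s := by
  have h5 := hda_fst h
  exact ((hda_fst h5).prodMk (hda_snd h5).neg).prodMk (hda_snd h)

/-- parallel transport as an integral curve for negative times -/
lemma neg_curve {z : (Euc N × Euc N) × (Euc N →L[ℝ] Euc N)} (hz : z.1 ∈ TS G) {t : ℝ}
    (ht : t ≤ 0) : (z, t) ∈ dY G := by
  have h1 : (revY z, -t) ∈ dY G := complete_nonneg_Y G (z := revY z) (rev_mem G hz)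
    (neg_nonneg.2 ht)
  have hrr : revY (revY z) = z := by simp [revY, rev_rev]
  have h2 := flow_of_integralCurve' (v := Y G) isOpen_univ (hY1 G)
    (c := fun s => revY (fY G (revY z, -s))) (x := z)
    (l := t) (by simp [fY_zero, hrr]) (fun _ _ => mem_univ _) (fun s hs => by
      have hs' : -s ∈ uIcc 0 (-t) := by
        rw [mem_uIcc] at hs ⊢
        rcases hs with h | h
        · exact Or.inr ⟨by linarith, by linarith⟩
        · exact Or.inl ⟨by linarith, by linarith⟩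
      have hd := mem_dY_of_uIcc G h1 hs'
      have h3 := (hasDerivAt_fY G hd).scomp s (hasDerivAt_neg s)
      have h4 : HasDerivAt (fun s => fY G (revY z, -s))
          (-(Y G (fY G (revY z, -s)))) s := by
        simpa [Function.comp_def] using h3
      have h5 := hasDerivAt_revY h4
      refine h5.congr_deriv ?_
      rw [Y_revY]
      refine Prod.ext ?_ ?_
      · change rev (-(X G (fY G (revY z, -s)).1)) = -rev (X G (fY G (revY z, -s)).1)
        simp [rev]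
      · rfl)
  exact h2.1

theorem complete_Y {z : (Euc N × Euc N) × (Euc N →L[ℝ] Euc N)} (hz : z.1 ∈ TS G) (t : ℝ) :
    (z, t) ∈ dY G := by
  rcases le_total 0 t with ht | ht
  · exact complete_nonneg_Y G hz ht
  · exact neg_curve G hz ht

/-- Parallel transport along the geodesic `s ↦ (fl G (q, s)).1` from time `0` to time `t`. -/
def PT (q : Euc N × Euc N) (t : ℝ) : Euc N →L[ℝ] Euc N :=
  (fY G ((q, ContinuousLinearMap.id ℝ (Euc N)), t)).2

variable {G}
variable {q : Euc N × Euc N}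

@[simp] lemma PT_zero : PT G q 0 = ContinuousLinearMap.id ℝ (Euc N) := by
  rw [PT, fY_zero]

lemma hasDerivAt_PT (hq : q ∈ TS G) (t : ℝ) :
    HasDerivAt (PT G q) (Om G (fl G (q, t)) ∘L PT G q t) t :=
  hasDerivAt_fY_snd G (z := (q, ContinuousLinearMap.id ℝ (Euc N))) (complete_Y G hq t)

lemma hasDerivAt_PT_apply (hq : q ∈ TS G) (t : ℝ) (a : Euc N) :
    HasDerivAt (fun t => PT G q t a) (Om G (fl G (q, t)) (PT G q t a)) t := by
  have := (hasDerivAt_PT hq t).clm_apply (hasDerivAt_const t a)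
  simpa using this

lemma contDiffAt_PT (hq : q ∈ TS G) (t : ℝ) :
    ContDiffAt ℝ ∞ (fun z : (Euc N × Euc N) × ℝ => PT G z.1 z.2) (q, t) := by
  have h1 := contDiffAt_fY G (z := ((q, ContinuousLinearMap.id ℝ (Euc N)), t)) (complete_Y G hq t)
  have h2 : ContDiffAt ℝ ∞ (fun z : (Euc N × Euc N) × ℝ =>
      ((z.1, ContinuousLinearMap.id ℝ (Euc N)), z.2)) (q, t) := by fun_prop
  exact (ContDiffAt.comp (q, t) h1 h2).snd

lemma contDiff_PT (hq : q ∈ TS G) : ContDiff ℝ ∞ (PT G q) := by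
  rw [contDiff_iff_contDiffAt]
  intro t
  have h1 := contDiffAt_PT hq t
  have h2 : ContDiffAt ℝ ∞ (fun s : ℝ => (q, s)) t := by fun_prop
  exact ContDiffAt.comp (g := fun z : (Euc N × Euc N) × ℝ => PT G z.1 z.2) t h1 h2

lemma eq_of_hasDerivAt_zero {f : ℝ → ℝ} (h : ∀ t, HasDerivAt f 0 t) (t : ℝ) : f t = f 0 :=
  is_const_of_deriv_eq_zero (fun t => (h t).differentiableAt) (fun t => (h t).deriv) t 0

/-- parallel transport is isometric. -/
lemma inner_PT (hq : q ∈ TS G) (t : ℝ) (a b : Euc N) : ⟪PT G q t a, PT G q t b⟫ = ⟪a, b⟫ := by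
  have h : ∀ s, HasDerivAt (fun s => ⟪PT G q s a, PT G q s b⟫) 0 s := by
    intro s
    refine ((hasDerivAt_PT_apply hq s a).inner ℝ (hasDerivAt_PT_apply hq s b)).congr_deriv ?_
    rw [inner_Om (fl_mem G hq s)]
    ring
  have := eq_of_hasDerivAt_zero h t
  simpa using this

lemma norm_PT (hq : q ∈ TS G) (t : ℝ) (a : Euc N) : ‖PT G q t a‖ = ‖a‖ := by
  have h1 := inner_PT hq t a a
  rw [real_inner_self_eq_norm_sq, real_inner_self_eq_norm_sq] at h1
  exact (sq_eq_sq₀ (norm_nonneg _) (norm_nonneg _)).1 h1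

/-- the inverse of parallel transport: its adjoint. -/
def PTi (G : Geo n N κ S) (q : Euc N × Euc N) (t : ℝ) : Euc N →L[ℝ] Euc N := (PT G q t).adjoint

lemma PTi_PT (hq : q ∈ TS G) (t : ℝ) (a : Euc N) : PTi G q t (PT G q t a) = a := by
  refine ext_inner_right ℝ fun b => ?_
  rw [PTi, ContinuousLinearMap.adjoint_inner_left, inner_PT hq]

lemma PT_PTi (hq : q ∈ TS G) (t : ℝ) (a : Euc N) : PT G q t (PTi G q t a) = a := by
  have hinj : Function.Injective (PT G q t).toLinearMap := by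
    intro a b h
    have := congrArg (PTi G q t) h
    simpa [PTi_PT hq] using this
  obtain ⟨b, rfl⟩ := (LinearMap.injective_iff_surjective.1 hinj) a
  change PT G q t (PTi G q t (PT G q t b)) = PT G q t b
  rw [PTi_PT hq]

lemma norm_PTi (hq : q ∈ TS G) (t : ℝ) (a : Euc N) : ‖PTi G q t a‖ = ‖a‖ := by
  rw [← norm_PT hq t, PT_PTi hq]

lemma inner_PTi (hq : q ∈ TS G) (t : ℝ) (a b : Euc N) : ⟪PTi G q t a, PTi G q t b⟫ = ⟪a, b⟫ := by
  rw [← inner_PT hq t, PT_PTi hq, PT_PTi hq]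

lemma inner_PTi_left (t : ℝ) (a b : Euc N) : ⟪PTi G q t a, b⟫ = ⟪a, PT G q t b⟫ := by
  rw [PTi, ContinuousLinearMap.adjoint_inner_left]

lemma inner_PTi_right (t : ℝ) (a b : Euc N) : ⟪a, PTi G q t b⟫ = ⟪PT G q t a, b⟫ := by
  rw [PTi, ContinuousLinearMap.adjoint_inner_right]

lemma contDiff_PTi (hq : q ∈ TS G) : ContDiff ℝ ∞ (PTi G q) := by
  have h1 : ContDiff ℝ ∞ (fun L : Euc N →L[ℝ] Euc N => L.adjoint) :=
    (ContinuousLinearMap.adjoint (𝕜 := ℝ) (E := Euc N) (F := Euc N)).toContinuousLinearEquiv.contDiff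
  exact h1.comp (contDiff_PT hq)

/-- parallel transport intertwines the projections. -/
lemma P_PT (hq : q ∈ TS G) (t : ℝ) (a : Euc N) :
    G.P (fl G (q, t)).1 (PT G q t a) = PT G q t (G.P q.1 a) := by
  -- `⟪PT b, P PT a⟫` is constant
  have key : ∀ b : Euc N, ⟪PT G q t b, G.P (fl G (q, t)).1 (PT G q t a)⟫ = ⟪b, G.P q.1 a⟫ := by
    intro b
    have h : ∀ s, HasDerivAt (fun s => ⟪PT G q s b, G.P (fl G (q, s)).1 (PT G q s a)⟫) 0 s := by
      intro s
      have hf := hda_fst (hasDerivAt_fl G (complete G hq s))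
      have hP := hasDerivAt_P_comp G hf
      have hm := fl_mem G hq s
      refine ((hasDerivAt_PT_apply hq s b).inner ℝ
        (hP.clm_apply (hasDerivAt_PT_apply hq s a))).congr_deriv ?_
      have h1 := P_Om hm (PT G q s a)
      have h2 : dP G ((fl G (q, s)).1, (X G (fl G (q, s))).1) = dP G (fl G (q, s)) := rfl
      rw [h2, inner_Om hm, inner_add_right]
      have h3 : G.P (fl G (q, s)).1 (Om G (fl G (q, s)) (PT G q s a)) =
          Om G (fl G (q, s)) (G.P (fl G (q, s)).1 (PT G q s a)) - dP G (fl G (q, s)) (PT G q s a) :=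
        by rw [sub_eq_add_neg, ← h1]; abel
      rw [h3, inner_sub_right]
      ring
    have := eq_of_hasDerivAt_zero h t
    simpa [fl_zero] using this
  refine ext_inner_left ℝ fun b => ?_
  rw [← PT_PTi hq t b, key, inner_PT hq]

lemma PT_mem (hq : q ∈ TS G) (t : ℝ) {a : Euc N} (ha : a ∈ G.T q.1) :
    PT G q t a ∈ G.T (fl G (q, t)).1 := by
  rw [P_eq_self G (fl_mem G hq t).1, P_PT hq, (P_eq_self G hq.1).1 ha]

lemma P_PTi (hq : q ∈ TS G) (t : ℝ) (a : Euc N) :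
    G.P q.1 (PTi G q t a) = PTi G q t (G.P (fl G (q, t)).1 a) := by
  have h := P_PT hq t (PTi G q t a)
  rw [PT_PTi hq] at h
  rw [h, PTi_PT hq]

lemma PTi_mem (hq : q ∈ TS G) (t : ℝ) {a : Euc N} (ha : a ∈ G.T (fl G (q, t)).1) :
    PTi G q t a ∈ G.T q.1 := by
  rw [P_eq_self G hq.1, P_PTi hq, (P_eq_self G (fl_mem G hq t).1).1 ha]

/-- uniqueness for the parallel transport equation. -/
lemma eq_PT (hq : q ∈ TS G) {W : ℝ → Euc N} (hW : ∀ t, HasDerivAt W (Om G (fl G (q, t)) (W t)) t)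
    (t : ℝ) : W t = PT G q t (W 0) := by
  have key : ∀ b : Euc N, ⟪PT G q t b, W t⟫ = ⟪b, W 0⟫ := by
    intro b
    have h : ∀ s, HasDerivAt (fun s => ⟪PT G q s b, W s⟫) 0 s := by
      intro s
      refine ((hasDerivAt_PT_apply hq s b).inner ℝ (hW s)).congr_deriv ?_
      rw [inner_Om (fl_mem G hq s)]
      ring
    have := eq_of_hasDerivAt_zero h t
    simpa using this
  refine ext_inner_left ℝ fun b => ?_
  rw [← PT_PTi hq t b, key, inner_PT hq]

/-- the velocity is parallel -/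
lemma PT_velocity (hq : q ∈ TS G) (t : ℝ) : PT G q t q.2 = (fl G (q, t)).2 := by
  have h : ∀ t, HasDerivAt (fun t => (fl G (q, t)).2) (Om G (fl G (q, t)) (fl G (q, t)).2) t := by
    intro t
    have h1 := hda_snd (hasDerivAt_fl G (complete G hq t))
    have hm := fl_mem G hq t
    rw [Om_tangent hm hm.2]
    exact h1
  have := eq_PT hq h t
  simpa [fl_zero] using this.symm

/-- cocycle property. -/
lemma PT_add (hq : q ∈ TS G) (s t : ℝ) (a : Euc N) :
    PT G q (s + t) a = PT G (fl G (q, s)) t (PT G q s a) := by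
  have h := eq_PT (fl_mem G hq s) (W := fun r => PT G q (s + r) a) (fun r => by
    have h1 := (hasDerivAt_PT_apply hq (s + r) a).scomp r ((hasDerivAt_id r).const_add s)
    rw [fl_add' G hq] at h1
    simpa [Function.comp_def] using h1) t
  simpa using h

end Crest.Agent.R208.J
end
end

-- ▼ part R208/J2

/-!
R208, block G4a (helper631), part 2: the curvature operator of a geodesic and the Jacobi equation
(in a parallel frame) for the linearised geodesic flow.
-/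

set_option autoImplicit false

open Set Filter Topology
open scoped ContDiff RealInnerProductSpace
open Crest.GeometryTopology.Submanifold
open Crest.Agent.R241.DDefs
open Crest.Agent.R241.D2
open Crest.Agent.Lib.ODEFlow

noncomputable section

namespace Crest.Agent.R208.J

variable {n N : ℕ} {κ : ℝ} {S : Set (Euc N)} {G : Geo n N κ S}

/-- the second fundamental form is symmetric. -/
lemma dP_comm {x v w : Euc N} (hx : x ∈ S) (hv : v ∈ G.T x) (hw : w ∈ G.T x) :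
    dP G (x, v) w = dP G (x, w) v := by
  obtain ⟨α, h0, hα, hS, h1, h2⟩ := G.exists_surface x hx v hv w hw
  have hS' : ∀ᶠ q' in 𝓝 (0 : ℝ × ℝ), α q' ∈ S := hS
  have hα2 : ContDiffAt ℝ 2 α 0 := hα.of_le Crest.Agent.R241.D3b.two_le
  have h3 := Crest.Agent.R241.D3b.snd_deriv G hα2 hS' (1, 0) (0, 1)
  have h4 := Crest.Agent.R241.D3b.snd_deriv G hα2 hS' (0, 1) (1, 0)
  have hsym : fderiv ℝ (fderiv ℝ α) 0 (1, 0) (0, 1) = fderiv ℝ (fderiv ℝ α) 0 (0, 1) (1, 0) := by
    have h := (hα.isSymmSndFDerivAt (n := ∞) Crest.Agent.R241.D3b.min_le)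
    exact h.eq _ _
  rw [h0, h1, h2] at h3 h4
  rw [hsym] at h3
  exact (add_left_cancel (h4.symm.trans h3)).symm

/-- tangent vectors of the tangent bundle -/
def TanTS (G : Geo n N κ S) (q z : Euc N × Euc N) : Prop :=
  ∃ c : ℝ → Euc N × Euc N, c 0 = q ∧ HasDerivAt c z 0 ∧ ∀ᶠ s in 𝓝 (0 : ℝ), c s ∈ TS G

variable {q z : Euc N × Euc N}

lemma TanTS.mem (h : TanTS G q z) : q ∈ TS G := by
  obtain ⟨c, h0, -, h2⟩ := h
  rw [← h0]
  exact h2.self_of_nhds

lemma TanTS.fst_mem (h : TanTS G q z) : z.1 ∈ G.T q.1 := by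
  obtain ⟨c, h0, h1, h2⟩ := h
  have := G.deriv_mem (fun s => (c s).1) z.1 0 (h2.mono fun s hs => hs.1) (hda_fst h1)
  rwa [h0] at this

/-- `η = P η + dP(v) ξ`. -/
lemma TanTS.snd_eq (h : TanTS G q z) : z.2 = G.P q.1 z.2 + dP G q z.1 := by
  have hz := h.fst_mem
  have hq := h.mem
  obtain ⟨c, h0, h1, h2⟩ := h
  have hP := hasDerivAt_P_comp G (hda_fst h1)
  have h3 := hP.clm_apply (hda_snd h1)
  have h4 : (fun s => G.P (c s).1 (c s).2) =ᶠ[𝓝 0] fun s => (c s).2 := by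
    filter_upwards [h2] with s hs
    exact (P_eq_self G hs.1).1 hs.2
  have h5 := (h3.congr_of_eventuallyEq h4.symm).unique (hda_snd h1)
  rw [h0] at h5
  rw [dP_comm hq.1 hz hq.2] at h5
  rw [← h5]
  change _ = G.P q.1 (dP G q z.1 + G.P q.1 z.2) + dP G q z.1
  have h6 : G.P q.1 (dP G q z.1) = 0 := by
    have := P_dP_P hq.1 hq.2 z.1
    rwa [(P_eq_self G hq.1).1 hz] at this
  rw [map_add, h6, P_idem G hq.1, zero_add, add_comm]

/-- derivative of `P dP P = 0`. -/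
lemma TanTS.snd (h : TanTS G q z) (a : Euc N) :
    dP G (q.1, z.1) (dP G q (G.P q.1 a)) + G.P q.1 (fderiv ℝ (dP G) q z (G.P q.1 a)) +
      G.P q.1 (dP G q (dP G (q.1, z.1) a)) = 0 := by
  obtain ⟨c, h0, h1, h2⟩ := h
  have hP := hasDerivAt_P_comp G (hda_fst h1)
  have hPa : HasDerivAt (fun s => G.P (c s).1 a) (dP G ((c 0).1, z.1) a) 0 := by
    simpa using hP.clm_apply (hasDerivAt_const (0 : ℝ) a)
  have hQ : HasDerivAt (fun s => dP G (c s)) (fderiv ℝ (dP G) (c 0) z) 0 := by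
    have := ((contDiff_dP G).differentiable (by simp) (c 0)).hasFDerivAt.comp_hasDerivAt (0 : ℝ) h1
    exact this
  have h3 := hP.clm_apply (hQ.clm_apply hPa)
  have h4 : (fun s => G.P (c s).1 (dP G (c s) (G.P (c s).1 a))) =ᶠ[𝓝 0] fun s => 0 := by
    filter_upwards [h2] with s hs
    exact P_dP_P hs.1 hs.2 a
  have h5 := (h3.congr_of_eventuallyEq h4.symm).unique (hasDerivAt_const (0 : ℝ) (0 : Euc N))
  rw [h0] at h5
  rw [← h5, map_add]
  abel

/-- the tangent space of `TS` is invariant under the flow. -/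
lemma TanTS.flow (h : TanTS G q z) (t : ℝ) :
    TanTS G (fl G (q, t)) (fderiv ℝ (fl G) (q, t) (z, 0)) := by
  have hq := h.mem
  obtain ⟨c, h0, h1, h2⟩ := h
  refine ⟨fun s => fl G (c s, t), by simp only [h0], ?_, h2.mono fun s hs => fl_mem G hs t⟩
  have h3 : HasDerivAt (fun s => (c s, t)) (z, (0 : ℝ)) 0 := h1.prodMk (hasDerivAt_const _ _)
  have h4 : DifferentiableAt ℝ (fl G) (c 0, t) := by
    rw [h0]; exact (contDiffAt_fl' G hq t).differentiableAt (by simp)
  have h5 := h4.hasFDerivAt.comp_hasDerivAt (0 : ℝ) h3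
  rw [h0] at h5
  exact h5

/-- all pairs (position, covariant derivative) are tangent to `TS`. -/
lemma tanTS_of {x v a b : Euc N} (hx : x ∈ S) (hv : v ∈ G.T x) (ha : a ∈ G.T x)
    (hb : b ∈ G.T x) : TanTS G (x, v) (a, dP G (x, v) a + b) := by
  obtain ⟨c, h0, h1, h2⟩ := exists_curve G hx ha
  refine ⟨fun s => (c s, G.P (c s) (v + s • b)), ?_, ?_, ?_⟩
  · simp [h0, (P_eq_self G hx).1 hv]
  · refine h1.prodMk ?_
    have hP := hasDerivAt_P_comp G h1
    have h3 : HasDerivAt (fun s : ℝ => v + s • b) b 0 := by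
      simpa using ((hasDerivAt_id (0 : ℝ)).smul_const b).const_add v
    have h4 := hP.clm_apply h3
    refine h4.congr_deriv ?_
    rw [h0, zero_smul, add_zero, (P_eq_self G hx).1 hb, dP_comm hx ha hv]
  · filter_upwards [h2] with s hs
    exact ⟨hs, P_mem G hs⟩

lemma tanTS_of' (hq : q ∈ TS G) {a b : Euc N} (ha : a ∈ G.T q.1)
    (hb : b ∈ G.T q.1) : TanTS G q (a, dP G q a + b) := tanTS_of hq.1 hq.2 ha hb

/-! ### the curvature operator -/

variable (G)

/-- the unprojected curvature operator `w ↦ dP(w)(dP(v) v) - dP(v) (dP(v) w)`. -/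
def Rm0 (q : Euc N × Euc N) : Euc N →L[ℝ] Euc N :=
  (ContinuousLinearMap.apply ℝ (Euc N) (dP G q q.2)) ∘L (fderiv ℝ G.P q.1) - dP G q ∘L dP G q

/-- the curvature operator `R(·, v) v` of the tangent vector `q = (x, v)`. -/
def Rm (q : Euc N × Euc N) : Euc N →L[ℝ] Euc N := G.P q.1 ∘L Rm0 G q ∘L G.P q.1

lemma contDiff_Rm0 : ContDiff ℝ ∞ (Rm0 G) := by
  rw [contDiff_clm_apply_iff]
  intro w
  have h1 : ContDiff ℝ ∞ (fun q : Euc N × Euc N => fderiv ℝ G.P q.1) :=
    (G.contDiff_P.fderiv_right (by simp)).comp contDiff_fst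
  have h2 := contDiff_dP G
  have h3 : ContDiff ℝ ∞ (fun q : Euc N × Euc N => fderiv ℝ G.P q.1 w (dP G q q.2)) :=
    (h1.clm_apply contDiff_const).clm_apply (h2.clm_apply contDiff_snd)
  have h4 : ContDiff ℝ ∞ (fun q : Euc N × Euc N => dP G q (dP G q w)) :=
    h2.clm_apply (h2.clm_apply contDiff_const)
  exact h3.sub h4

lemma contDiff_Rm : ContDiff ℝ ∞ (Rm G) := by
  have h2 : ContDiff ℝ ∞ (fun q : Euc N × Euc N => G.P q.1) := G.contDiff_P.comp contDiff_fst
  exact h2.clm_comp ((contDiff_Rm0 G).clm_comp h2)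

variable {G}

lemma Rm0_apply (q : Euc N × Euc N) (w : Euc N) :
    Rm0 G q w = dP G (q.1, w) (dP G q q.2) - dP G q (dP G q w) := rfl

lemma Rm_apply (q : Euc N × Euc N) (w : Euc N) :
    Rm G q w = G.P q.1 (Rm0 G q (G.P q.1 w)) := rfl

lemma dP_tangent_normal (hq : q ∈ TS G) {w : Euc N} (hw : w ∈ G.T q.1) :
    G.P q.1 (dP G q w) = 0 := by
  have := P_dP_P hq.1 hq.2 w
  rwa [(P_eq_self G hq.1).1 hw] at this

lemma P_Rm0 (hq : q ∈ TS G) {w : Euc N} (hw : w ∈ G.T q.1) :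
    G.P q.1 (Rm0 G q w) = Rm0 G q w := by
  rw [Rm0_apply, map_sub]
  have h1 := dP_tangent_normal hq hq.2
  have h2 := dP_tangent_normal hq hw
  rw [P_dP_normal hq.1 hw h1]
  have h3 : G.P q.1 (dP G q (dP G q w)) = dP G q (dP G q w) := P_dP_normal hq.1 hq.2 h2
  rw [h3]

lemma Rm_tangent (hq : q ∈ TS G) {w : Euc N} (hw : w ∈ G.T q.1) :
    Rm G q w = dP G (q.1, w) (dP G q q.2) - dP G q (dP G q w) := by
  rw [Rm_apply, (P_eq_self G hq.1).1 hw, P_Rm0 hq hw, Rm0_apply]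

lemma Rm_mem (hq : q ∈ TS G) (w : Euc N) : Rm G q w ∈ G.T q.1 := P_mem G hq.1

lemma Rm_P (hq : q ∈ TS G) (w : Euc N) : Rm G q (G.P q.1 w) = Rm G q w := by
  rw [Rm_apply, P_idem G hq.1, ← Rm_apply]

/-- Gauss equation -/
lemma inner_Rm_tangent (hq : q ∈ TS G) {w u : Euc N} (hw : w ∈ G.T q.1) :
    ⟪Rm G q w, u⟫ = ⟪dP G q q.2, dP G (q.1, w) u⟫ - ⟪dP G q w, dP G q u⟫ := by
  rw [Rm_tangent hq hw, inner_sub_left, inner_dP hq.1 hw]
  have : ⟪dP G q (dP G q w), u⟫ = ⟪dP G q w, dP G q u⟫ := inner_dP hq.1 hq.2 _ _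
  rw [this]

/-- the curvature operator is symmetric -/
lemma inner_Rm (hq : q ∈ TS G) (w u : Euc N) : ⟪Rm G q w, u⟫ = ⟪w, Rm G q u⟫ := by
  have h1 : ∀ w u : Euc N, ⟪Rm G q w, u⟫ = ⟪Rm G q (G.P q.1 w), G.P q.1 u⟫ := by
    intro w u
    rw [Rm_P hq, ← inner_P_left G hq.1, (P_eq_self G hq.1).1 (Rm_mem hq w)]
  rw [h1, real_inner_comm (Rm G q u) w, h1 u w,
    inner_Rm_tangent hq (P_mem G hq.1),
    inner_Rm_tangent hq (P_mem G hq.1),
    dP_comm hq.1 (P_mem G hq.1) (P_mem G hq.1),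
    real_inner_comm (dP G q (G.P q.1 w))]

/-- the velocity is in the kernel. -/
lemma Rm_velocity (hq : q ∈ TS G) : Rm G q q.2 = 0 := by
  rw [Rm_tangent hq hq.2]
  exact sub_self _

/-! ### the curvature along a geodesic, in a parallel frame -/

variable (G)

/-- curvature operator of the geodesic of `q` at time `t`, pulled back to time `0`. -/
def Rh (q : Euc N × Euc N) (t : ℝ) : Euc N →L[ℝ] Euc N :=
  PTi G q t ∘L Rm G (fl G (q, t)) ∘L PT G q t

variable {G}

lemma Rh_apply (q : Euc N × Euc N) (t : ℝ) (w : Euc N) :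
    Rh G q t w = PTi G q t (Rm G (fl G (q, t)) (PT G q t w)) := rfl

lemma contDiff_fl_t (hq : q ∈ TS G) : ContDiff ℝ ∞ (fun t => fl G (q, t)) := by
  rw [contDiff_iff_contDiffAt]
  intro t
  have h2 : ContDiffAt ℝ ∞ (fun s : ℝ => (q, s)) t := by fun_prop
  exact ContDiffAt.comp t (contDiffAt_fl' G hq t) h2

lemma contDiff_Rh (hq : q ∈ TS G) : ContDiff ℝ ∞ (Rh G q) :=
  (contDiff_PTi hq).clm_comp (((contDiff_Rm G).comp (contDiff_fl_t hq)).clm_comp (contDiff_PT hq))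

lemma inner_Rh (hq : q ∈ TS G) (t : ℝ) (w u : Euc N) : ⟪Rh G q t w, u⟫ = ⟪w, Rh G q t u⟫ := by
  rw [Rh_apply, Rh_apply, inner_PTi_left, inner_PTi_right, inner_Rm (fl_mem G hq t)]

lemma Rh_mem (hq : q ∈ TS G) (t : ℝ) (w : Euc N) : Rh G q t w ∈ G.T q.1 :=
  PTi_mem hq t (Rm_mem (fl_mem G hq t) _)

lemma Rh_P (hq : q ∈ TS G) (t : ℝ) (w : Euc N) : Rh G q t (G.P q.1 w) = Rh G q t w := by
  rw [Rh_apply, ← P_PT hq, Rm_P (fl_mem G hq t), ← Rh_apply]

lemma Rh_velocity (hq : q ∈ TS G) (t : ℝ) : Rh G q t q.2 = 0 := by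
  rw [Rh_apply, PT_velocity hq, Rm_velocity (fl_mem G hq t), map_zero]


/-! ### Jacobi fields -/

variable (G)

/-- linearised geodesic flow -/
def Dfl (q : Euc N × Euc N) (t : ℝ) (z : Euc N × Euc N) : Euc N × Euc N :=
  fderiv ℝ (fl G) (q, t) (z, 0)

/-- the Jacobi field with initial data `z ∈ T_q TS`. -/
def JF (q z : Euc N × Euc N) (t : ℝ) : Euc N := (Dfl G q t z).1

/-- its ambient derivative -/
def JF' (q z : Euc N × Euc N) (t : ℝ) : Euc N := (Dfl G q t z).2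

variable {G}

lemma Dfl_zero (z : Euc N × Euc N) : Dfl G q 0 z = z :=
  fderiv_flow_zero isOpen_univ (hX1 G) (mem_univ _) z

lemma JF_zero : JF G q z 0 = z.1 := by rw [JF, Dfl_zero]
lemma JF'_zero : JF' G q z 0 = z.2 := by rw [JF', Dfl_zero]

lemma hasDerivAt_Dfl (hq : q ∈ TS G) (t : ℝ) (z : Euc N × Euc N) :
    HasDerivAt (fun s => Dfl G q s z) (fderiv ℝ (X G) (fl G (q, t)) (Dfl G q t z)) t :=
  hasDerivAt_fderiv_flow isOpen_univ (((contDiff_X G).of_le
    Crest.Agent.R241.D3b.two_le).contDiffOn) (complete G hq t) z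

lemma fderiv_X (p z : Euc N × Euc N) :
    fderiv ℝ (X G) p z = (z.2, fderiv ℝ (dP G) p z p.2 + dP G p z.2) := by
  have h1 : HasFDerivAt (dP G) (fderiv ℝ (dP G) p) p :=
    ((contDiff_dP G).differentiable (by simp) p).hasFDerivAt
  have h2 : HasFDerivAt (fun p : Euc N × Euc N => p.2) (ContinuousLinearMap.snd ℝ (Euc N) (Euc N))
      p := hasFDerivAt_snd
  have h3 := h2.prodMk (h1.clm_apply h2)
  have h4 : (fun p : Euc N × Euc N => (p.2, dP G p p.2)) = X G := rfl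
  rw [h4] at h3
  rw [h3.fderiv]
  refine Prod.ext rfl ?_
  simp [add_comm]

lemma hasDerivAt_JF (hq : q ∈ TS G) (t : ℝ) (z : Euc N × Euc N) :
    HasDerivAt (JF G q z) (JF' G q z t) t := by
  have := hda_fst (hasDerivAt_Dfl hq t z)
  rw [fderiv_X] at this
  exact this

lemma hasDerivAt_JF' (hq : q ∈ TS G) (t : ℝ) (z : Euc N × Euc N) :
    HasDerivAt (JF' G q z) (fderiv ℝ (dP G) (fl G (q, t)) (Dfl G q t z) (fl G (q, t)).2 +
      dP G (fl G (q, t)) (JF' G q z t)) t := by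
  have := hda_snd (hasDerivAt_Dfl hq t z)
  rw [fderiv_X] at this
  exact this

lemma JF_mem (h : TanTS G q z) (t : ℝ) : JF G q z t ∈ G.T (fl G (q, t)).1 := (h.flow t).fst_mem

lemma hasDerivAt_PTi (hq : q ∈ TS G) {u : ℝ → Euc N} {u' : Euc N} {t : ℝ}
    (hu : HasDerivAt u u' t) :
    HasDerivAt (fun t => PTi G q t (u t)) (PTi G q t (u' - Om G (fl G (q, t)) (u t))) t := by
  have h1 : HasDerivAt (PTi G q) ((Om G (fl G (q, t)) ∘L PT G q t).adjoint) t := by
    have h2 := (ContinuousLinearMap.adjoint (𝕜 := ℝ) (E := Euc N)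
      (F := Euc N)).toContinuousLinearEquiv.toContinuousLinearMap.hasFDerivAt.comp_hasDerivAt t
      (hasDerivAt_PT hq t)
    exact h2
  have h3 := h1.clm_apply hu
  refine h3.congr_deriv ?_
  refine ext_inner_right ℝ fun b => ?_
  rw [inner_add_left, ContinuousLinearMap.adjoint_inner_left, ContinuousLinearMap.comp_apply,
    inner_PTi_left, inner_PTi_left, inner_sub_left, inner_Om (fl_mem G hq t)]
  ring

/-- **Jacobi equation**, first order part. -/
theorem hasDerivAt_W (h : TanTS G q z) (t : ℝ) :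
    HasDerivAt (fun t => PTi G q t (JF G q z t))
      (PTi G q t (G.P (fl G (q, t)).1 (JF' G q z t))) t := by
  have hq := h.mem
  have h1 := hasDerivAt_PTi hq (hasDerivAt_JF hq t z)
  refine h1.congr_deriv ?_
  congr 1
  have h2 := (h.flow t).snd_eq
  have hm := fl_mem G hq t
  rw [Om_tangent hm (JF_mem h t)]
  have h3 : JF' G q z t = G.P (fl G (q, t)).1 (JF' G q z t) + dP G (fl G (q, t)) (JF G q z t) := h2
  nth_rewrite 1 [h3]
  abel

/-- **Jacobi equation**, second order part. -/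
theorem hasDerivAt_W' (h : TanTS G q z) (t : ℝ) :
    HasDerivAt (fun t => PTi G q t (G.P (fl G (q, t)).1 (JF' G q z t)))
      (- Rh G q t (PTi G q t (JF G q z t))) t := by
  have hq := h.mem
  have hm := fl_mem G hq t
  set p := fl G (q, t) with hp
  set ξ := JF G q z t with hξ
  set η := JF' G q z t with hη
  have hP := hasDerivAt_P_comp G (hda_fst (hasDerivAt_fl G (complete G hq t)))
  have h1 := hasDerivAt_PTi hq (hP.clm_apply (hasDerivAt_JF' hq t z))
  refine h1.congr_deriv ?_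
  have e0 : dP G ((fl G (q, t)).1, (X G (fl G (q, t))).1) = dP G p := rfl
  rw [e0, ← hp, ← hη, Rh_apply, PT_PTi hq, ← map_neg]
  congr 1
  have hξm : ξ ∈ G.T p.1 := JF_mem h t
  have hs := (h.flow t).snd_eq
  have hz1 : (fderiv ℝ (fl G) (q, t) (z, 0)).1 = ξ := rfl
  have hz2 : (fderiv ℝ (fl G) (q, t) (z, 0)).2 = η := rfl
  rw [hz1, hz2, ← hp] at hs
  have h2 := (h.flow t).snd p.2
  rw [hz1, ← hp] at h2
  have hpv : G.P p.1 p.2 = p.2 := (P_eq_self G hm.1).1 hm.2
  have hcomm : dP G (p.1, ξ) p.2 = dP G p ξ := dP_comm hm.1 hξm hm.2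
  rw [hpv, hcomm] at h2
  have hnξ : G.P p.1 (dP G p ξ) = 0 := dP_tangent_normal hm hξm
  have e1 : G.P p.1 (dP G p (dP G p ξ)) = dP G p (dP G p ξ) := P_dP_normal hm.1 hm.2 hnξ
  have e2 : G.P p.1 (dP G p (G.P p.1 η)) = 0 := P_dP_P hm.1 hm.2 η
  have e3 : Om G p (G.P p.1 η) = dP G p (G.P p.1 η) := Om_tangent hm (P_mem G hm.1)
  rw [e3, Rm_tangent hm hξm, map_add]
  have hD : Dfl G q t z = fderiv ℝ (fl G) (q, t) (z, 0) := rfl
  rw [hD]
  have e4 : dP G p η = dP G p (G.P p.1 η) + dP G p (dP G p ξ) := by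
    rw [← map_add, ← hs]
  have e5 : G.P p.1 (dP G p η) = dP G p (dP G p ξ) := by
    rw [e4, map_add, e2, e1, zero_add]
  rw [e5, e4]
  rw [e1] at h2
  have h3 : G.P p.1 (fderiv ℝ (dP G) p (fderiv ℝ (fl G) (q, t) (z, 0)) p.2) =
      -(dP G (p.1, ξ) (dP G p p.2)) - dP G p (dP G p ξ) := by
    rw [eq_sub_iff_add_eq, eq_neg_iff_add_eq_zero, ← h2]
    abel
  rw [h3]
  abel

end Crest.Agent.R208.J
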