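import Crest.Agent.R208.MS1b
import Crest.Agent.R208.SV1
import Crest.Agent.R208.HS1
import Crest.Agent.R208.NB8
import Crest.Agent.R208.MS5
import Crest.Agent.R208.J3
import Crest.Agent.R208.MS2a
import Crest.Agent.R208.NN1b
import Crest.Agent.R208.SV5
import Crest.Agent.R208.NB3

-- ▼ part R208/NG1
section

/-!
R208, block NG (helper131), near the closed geodesics.  Part NG1: pointwise estimates for the
smooth retraction `ρ` (derivative along `S` = orthogonal projection) at a point of a geodesic.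
-/

set_option autoImplicit false

open Set Filter Topology MeasureTheory
open scoped ContDiff RealInnerProductSpace Real
open Crest.GeometryTopology.Submanifold
open Crest.Agent.R241.DDefs Crest.Agent.R241.D Crest.Agent.R241.D2
open Crest.Agent.R208.MS (exists_unif P_self P_mem Retr)

noncomputable section

namespace Crest.Agent.R208.NG

variable {n N : ℕ} {κ : ℝ} {S : Set (Euc N)}

/-- second derivative -/
def D2f (ρ : Euc N → Euc N) (x : Euc N) : Euc N →L[ℝ] Euc N →L[ℝ] Euc N :=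
  fderiv ℝ (fderiv ℝ ρ) x

/-- uniform constants for `ρ` and `G.P` near `S` -/
structure Cst (G : Geo n N κ S) (ρ : Euc N → Euc N) (δ C : ℝ) : Prop where
  pos : 0 < δ
  le1 : δ ≤ 1
  one : 1 ≤ C
  sm : ∀ x ∈ S, ∀ q, ‖q - x‖ < δ → ContDiffAt ℝ ∞ ρ q
  mem : ∀ x ∈ S, ∀ q, ‖q - x‖ < δ → ρ q ∈ S
  eq : ∀ x ∈ S, ρ x = x
  fd : ∀ x ∈ S, fderiv ℝ ρ x = G.P x
  l0 : ∀ x ∈ S, ∀ q, ‖q - x‖ < δ → ‖ρ q - x‖ ≤ C * ‖q - x‖
  t0 : ∀ x ∈ S, ∀ q, ‖q - x‖ < δ → ‖ρ q - x - G.P x (q - x)‖ ≤ C * ‖q - x‖ ^ 2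
  l1 : ∀ x ∈ S, ∀ q, ‖q - x‖ < δ → ‖fderiv ℝ ρ q - G.P x‖ ≤ C * ‖q - x‖
  t1 : ∀ x ∈ S, ∀ q, ‖q - x‖ < δ → ‖fderiv ℝ ρ q - G.P x - D2f ρ x (q - x)‖ ≤ C * ‖q - x‖ ^ 2
  b2 : ∀ x ∈ S, ∀ q, ‖q - x‖ < δ → ‖D2f ρ q‖ ≤ C
  l2 : ∀ x ∈ S, ∀ q, ‖q - x‖ < δ → ‖D2f ρ q - D2f ρ x‖ ≤ C * ‖q - x‖
  tP : ∀ x ∈ S, ∀ q, ‖q - x‖ < δ → ‖G.P q - G.P x - fderiv ℝ G.P x (q - x)‖ ≤ C * ‖q - x‖ ^ 2
  bP : ∀ x ∈ S, ‖fderiv ℝ G.P x‖ ≤ C

/-- Taylor estimate from a Lipschitz derivative -/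
theorem taylor_of_lip {E F : Type*} [NormedAddCommGroup E] [NormedSpace ℝ E]
    [NormedAddCommGroup F] [NormedSpace ℝ F] {f : E → F} {x : E} {δ C : ℝ} (hδ : 0 < δ)
    (hf : ∀ z ∈ Metric.ball x δ, DifferentiableAt ℝ f z)
    (hl : ∀ z ∈ Metric.ball x δ, ‖fderiv ℝ f z - fderiv ℝ f x‖ ≤ C * ‖z - x‖) (hC : 0 ≤ C)
    {q : E} (hq : q ∈ Metric.ball x δ) :
    ‖f q - f x - fderiv ℝ f x (q - x)‖ ≤ C * ‖q - x‖ ^ 2 := by
  have hxb := Metric.mem_ball_self (x := x) hδ
  have hseg : segment ℝ x q ⊆ Metric.ball x δ := (convex_ball x δ).segment_subset hxb hq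
  have h1 : ‖f q - f x - fderiv ℝ f x (q - x)‖ ≤ (C * ‖q - x‖) * ‖q - x‖ := by
    refine (convex_segment x q).norm_image_sub_le_of_norm_fderiv_le' (𝕜 := ℝ) (fun y hy => ?_)
      (fun y hy => ?_) (left_mem_segment ℝ x q) (right_mem_segment ℝ x q)
    · exact hf y (hseg hy)
    · refine (hl y (hseg hy)).trans ?_
      refine mul_le_mul_of_nonneg_left ?_ hC
      obtain ⟨a, b, ha, hb', hab, rfl⟩ := hy
      have h8 : (a • x + b • q) - x = b • (q - x) := by
        have : a = 1 - b := by linarith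
        rw [this]
        module
      rw [h8, norm_smul, Real.norm_of_nonneg hb']
      nlinarith [norm_nonneg (q - x)]
  calc _ ≤ (C * ‖q - x‖) * ‖q - x‖ := h1
    _ = C * ‖q - x‖ ^ 2 := by ring

theorem exists_Cst {G : Geo n N κ S} (hS : IsCompact S) {ρ : Euc N → Euc N} {r K : ℝ}
    (hR : Retr S ρ r K) (hd : ∀ x ∈ S, fderiv ℝ ρ x = G.P x) :
    ∃ δ C, δ ≤ r ∧ Cst G ρ δ C := by
  set O : Set (Euc N) := ⋃ x ∈ S, Metric.ball x r with hOdef
  have hO : IsOpen O := isOpen_biUnion fun x _ => Metric.isOpen_ball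
  have hSO : S ⊆ O := fun x hx => mem_iUnion₂.2 ⟨x, hx, Metric.mem_ball_self hR.r_pos⟩
  have hρ : ContDiffOn ℝ ∞ ρ O := by
    intro q hq
    obtain ⟨x, hx, hqx⟩ := mem_iUnion₂.1 hq
    exact (hR.smooth x hx q (by rwa [Metric.mem_ball, dist_eq_norm] at hqx)).contDiffWithinAt
  have hρ1 : ContDiffOn ℝ ∞ (fderiv ℝ ρ) O := hρ.fderiv_of_isOpen hO (by simp)
  obtain ⟨δ₁, hδ₁, C₁, hC₁, h₁⟩ := exists_unif hS hO hSO hρ
  obtain ⟨δ₂, hδ₂, C₂, hC₂, h₂⟩ := exists_unif hS hO hSO hρ1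
  have hP0 : ContDiffOn ℝ ∞ G.P univ := G.contDiff_P.contDiffOn
  obtain ⟨δ₃, hδ₃, C₃, hC₃, h₃⟩ := exists_unif hS isOpen_univ (subset_univ S) hP0
  have hPd : Continuous (fderiv ℝ G.P) := G.contDiff_P.continuous_fderiv (by simp)
  obtain ⟨C₄, hC₄⟩ := hS.exists_bound_of_continuousOn (f := fderiv ℝ G.P) hPd.continuousOn
  have hcD2 : ContinuousOn (D2f ρ) O := hρ1.continuousOn_fderiv_of_isOpen hO (by simp)
  obtain ⟨C₅, hC₅⟩ := hS.exists_bound_of_continuousOn (f := D2f ρ) (hcD2.mono hSO)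
  set C := C₁ + C₂ + C₃ + |C₄| + |C₅| + 1 with hCdef
  have hn4 := abs_nonneg C₄
  have hn5 := abs_nonneg C₅
  have hc1 : C₁ ≤ C := by rw [hCdef]; linarith
  have hc2 : C₂ ≤ C := by rw [hCdef]; linarith
  have hc3 : C₃ ≤ C := by rw [hCdef]; linarith
  have hc4 : C₄ ≤ C := by rw [hCdef]; linarith [le_abs_self C₄]
  have hc5 : C₅ + C₂ ≤ C := by rw [hCdef]; linarith [le_abs_self C₅]
  set δ := min (min (min r 1) δ₁) (min δ₂ δ₃) with hδdef
  have hδ : 0 < δ := by
    simp only [hδdef, lt_min_iff]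
    exact ⟨⟨⟨hR.r_pos, one_pos⟩, hδ₁⟩, hδ₂, hδ₃⟩
  have hδr : δ ≤ r := ((min_le_left _ _).trans (min_le_left _ _)).trans (min_le_left _ _)
  have hδ1' : δ ≤ 1 := ((min_le_left _ _).trans (min_le_left _ _)).trans (min_le_right _ _)
  have hd1 : δ ≤ δ₁ := (min_le_left _ _).trans (min_le_right _ _)
  have hd2 : δ ≤ δ₂ := (min_le_right _ _).trans (min_le_left _ _)
  have hd3 : δ ≤ δ₃ := (min_le_right _ _).trans (min_le_right _ _)
  have hb : ∀ (ε : ℝ) (x q : Euc N), ‖q - x‖ < δ → δ ≤ ε → q ∈ Metric.ball x ε :=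
    fun ε x q hq hε => by
      rw [Metric.mem_ball, dist_eq_norm]
      exact hq.trans_le hε
  have hdiff : ∀ x ∈ S, ∀ q ∈ Metric.ball x δ, DifferentiableAt ℝ ρ q := fun x hx q hq => by
    refine (hR.smooth x hx q ?_).differentiableAt (by simp)
    rw [Metric.mem_ball, dist_eq_norm] at hq
    exact hq.trans_le hδr
  have hdiff1 : ∀ x ∈ S, ∀ q ∈ Metric.ball x δ, DifferentiableAt ℝ (fderiv ℝ ρ) q :=
    fun x hx q hq => by
      have hqO : q ∈ O := mem_iUnion₂.2 ⟨x, hx, Metric.ball_subset_ball hδr hq⟩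
      exact (hρ1.contDiffAt (hO.mem_nhds hqO)).differentiableAt (by simp)
  refine ⟨δ, C, hδr, hδ, hδ1', by rw [hCdef]; linarith, fun x hx q hq => ?_, fun x hx q hq => ?_,
    hR.eq, hd, fun x hx q hq => ?_, fun x hx q hq => ?_, fun x hx q hq => ?_,
    fun x hx q hq => ?_, fun x hx q hq => ?_, fun x hx q hq => ?_, fun x hx q hq => ?_,
    fun x hx => ?_⟩
  · exact hR.smooth x hx q (hq.trans_le hδr)
  · exact hR.mem x hx q (hq.trans_le hδr)
  · have := (h₁ x hx).2.1 q (hb _ x q hq hd1) x (Metric.mem_ball_self hδ₁)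
    rw [hR.eq x hx] at this
    exact this.trans (mul_le_mul_of_nonneg_right hc1 (norm_nonneg _))
  · have := taylor_of_lip (f := ρ) (x := x) (C := C₁) hδ (fun z hz => hdiff x hx z hz)
      (fun z hz => (h₁ x hx).2.2 z (Metric.ball_subset_ball hd1 hz) x (Metric.mem_ball_self hδ₁))
      (by linarith) (hb _ x q hq le_rfl)
    rw [hR.eq x hx, hd x hx] at this
    exact this.trans (mul_le_mul_of_nonneg_right hc1 (by positivity))
  · have : ‖fderiv ℝ ρ q - fderiv ℝ ρ x‖ ≤ C₁ * ‖q - x‖ :=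
      (h₁ x hx).2.2 q (hb _ x q hq hd1) x (Metric.mem_ball_self hδ₁)
    rw [hd x hx] at this
    exact this.trans (mul_le_mul_of_nonneg_right hc1 (norm_nonneg _))
  · have := taylor_of_lip (f := fderiv ℝ ρ) (x := x) (C := C₂) hδ (fun z hz => hdiff1 x hx z hz)
      (fun z hz => (h₂ x hx).2.2 z (Metric.ball_subset_ball hd2 hz) x (Metric.mem_ball_self hδ₂))
      (by linarith) (hb _ x q hq le_rfl)
    rw [hd x hx] at this
    exact this.trans (mul_le_mul_of_nonneg_right hc2 (by positivity))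
  · have h4 : ‖D2f ρ q - D2f ρ x‖ ≤ C₂ * ‖q - x‖ :=
      (h₂ x hx).2.2 q (hb _ x q hq hd2) x (Metric.mem_ball_self hδ₂)
    have h5 : ‖D2f ρ x‖ ≤ C₅ := hC₅ x hx
    have h6 : D2f ρ q = D2f ρ x + (D2f ρ q - D2f ρ x) := by abel
    rw [h6]
    refine (norm_add_le (D2f ρ x) (D2f ρ q - D2f ρ x)).trans ?_
    have h7 : C₂ * ‖q - x‖ ≤ C₂ * 1 := mul_le_mul_of_nonneg_left (hq.le.trans hδ1') (by linarith)
    linarith
  · have h4 : ‖D2f ρ q - D2f ρ x‖ ≤ C₂ * ‖q - x‖ :=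
      (h₂ x hx).2.2 q (hb _ x q hq hd2) x (Metric.mem_ball_self hδ₂)
    exact h4.trans (mul_le_mul_of_nonneg_right hc2 (norm_nonneg _))
  · have := taylor_of_lip (f := G.P) (x := x) (C := C₃) hδ
      (fun z hz => (G.contDiff_P.differentiable (by simp)).differentiableAt)
      (fun z hz => (h₃ x hx).2.2 z (Metric.ball_subset_ball hd3 hz) x (Metric.mem_ball_self hδ₃))
      (by linarith) (hb _ x q hq le_rfl)
    exact this.trans (mul_le_mul_of_nonneg_right hc3 (by positivity))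
  · exact (hC₄ x hx).trans hc4

variable {G : Geo n N κ S} {ρ : Euc N → Euc N} {δ C : ℝ}

/-- the second derivative of `ρ` in a tangent direction is the derivative of `P` -/
theorem D2_tan (hc : Cst G ρ δ C) {x v : Euc N} (hx : x ∈ S) (hv : v ∈ G.T x) :
    D2f ρ x v = fderiv ℝ G.P x v := by
  obtain ⟨c, c', hc0, hc'0, hev⟩ := G.exists_geod x hx v hv
  have h0 := hev.self_of_nhds
  have hcd : HasDerivAt c v 0 := hc'0 ▸ h0.2.1
  have hx0 : ‖x - x‖ < δ := by simpa using hc.pos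
  have h1 : HasFDerivAt (fderiv ℝ ρ) (D2f ρ x) (c 0) := by
    rw [hc0]
    exact (((hc.sm x hx x hx0).fderiv_right (m := ∞) (by simp)).differentiableAt
      (by simp)).hasFDerivAt
  have h2 : HasFDerivAt G.P (fderiv ℝ G.P x) (c 0) := by
    rw [hc0]
    exact (G.contDiff_P.differentiable (by simp)).differentiableAt.hasFDerivAt
  have h3 : HasDerivAt (fun t => fderiv ℝ ρ (c t)) (D2f ρ x v) 0 := h1.comp_hasDerivAt 0 hcd
  have h4 : HasDerivAt (fun t => G.P (c t)) (fderiv ℝ G.P x v) 0 := h2.comp_hasDerivAt 0 hcd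
  have h5 : HasDerivAt (fun t => fderiv ℝ ρ (c t)) (fderiv ℝ G.P x v) 0 := by
    refine h4.congr_of_eventuallyEq ?_
    filter_upwards [hev] with t ht
    exact hc.fd _ ht.1
  exact h3.unique h5

theorem D2_symm' (hc : Cst G ρ δ C) {x q : Euc N} (hx : x ∈ S) (hq : ‖q - x‖ < δ) (v w : Euc N) :
    D2f ρ q v w = D2f ρ q w v := by
  have := (hc.sm x hx q hq).isSymmSndFDerivAt (by
    rw [minSmoothness_of_isRCLikeNormedField]
    exact WithTop.coe_le_coe.2 le_top)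
  exact this v w

theorem D2_symm (hc : Cst G ρ δ C) {x : Euc N} (hx : x ∈ S) (v w : Euc N) :
    D2f ρ x v w = D2f ρ x w v := D2_symm' hc hx (by simpa using hc.pos) v w

end Crest.Agent.R208.NG
end
end

-- ▼ part R208/NG2
section

/-!
R208, block NG (helper131), part NG2: the pointwise estimate for the derivative of the energy
density along the path `s ↦ ρ (γ + w_s)`.
-/

set_option autoImplicit false

open Set Filter Topology MeasureTheory
open scoped ContDiff RealInnerProductSpace Real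
open Crest.GeometryTopology.Submanifold
open Crest.Agent.R241.DDefs Crest.Agent.R241.D Crest.Agent.R241.D2
open Crest.Agent.R208.MS (exists_unif P_self P_mem Retr)

noncomputable section

namespace Crest.Agent.R208.NG

variable {n N : ℕ} {κ : ℝ} {S : Set (Euc N)} {G : Geo n N κ S} {ρ : Euc N → Euc N} {δ C : ℝ}

theorem norm_P_le {x : Euc N} (hx : x ∈ S) (w : Euc N) : ‖G.P x w‖ ≤ ‖w‖ := by
  rw [G.P_eq x hx]
  exact (Submodule.starProjection_norm_le (G.T x)).trans' le_rfl |> fun h =>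
    (ContinuousLinearMap.le_of_opNorm_le _ h w).trans (by rw [one_mul])

/-- the image of `Dρ` is tangent -/
theorem fdr_mem (hc : Cst G ρ δ C) {x q : Euc N} (hx : x ∈ S) (hq : ‖q - x‖ < δ) (b : Euc N) :
    fderiv ℝ ρ q b ∈ G.T (ρ q) := by
  have hcv : HasDerivAt (fun t : ℝ => q + t • b) b 0 := by
    simpa using ((hasDerivAt_id (0:ℝ)).smul_const b).const_add q
  have hd : HasFDerivAt ρ (fderiv ℝ ρ q) (q + (0:ℝ) • b) := by
    simpa using ((hc.sm x hx q hq).differentiableAt (by simp)).hasFDerivAt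
  have h1 : HasDerivAt (fun t : ℝ => ρ (q + t • b)) (fderiv ℝ ρ q b) 0 :=
    hd.comp_hasDerivAt (0:ℝ) hcv
  have h2 := G.deriv_mem (fun t : ℝ => ρ (q + t • b)) (fderiv ℝ ρ q b) 0 ?_ h1
  · simpa using h2
  · have h3 : Continuous fun t : ℝ => ‖q + t • b - x‖ := by fun_prop
    have h4 : ∀ᶠ t in 𝓝 (0:ℝ), ‖q + t • b - x‖ < δ :=
      h3.continuousAt.eventually_lt_const (by simpa using hq)
    filter_upwards [h4] with t ht
    exact hc.mem x hx _ ht

section pw

variable (G ρ)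

/-- `∂_t (ρ (γ + w)) - γ'` -/
def uu' (x v w w' : Euc N) : Euc N := fderiv ℝ ρ (x + w) (v + w') - v

/-- `∂_s (ρ (γ + w))` -/
def du (x w b : Euc N) : Euc N := fderiv ℝ ρ (x + w) b

/-- `∂_s ∂_t (ρ (γ + w))` -/
def du' (x v w w' b b' : Euc N) : Euc N := D2f ρ (x + w) (v + w') b + fderiv ℝ ρ (x + w) b'

/-- derivative of `P w` along the geodesic -/
def pd (x v w w' : Euc N) : Euc N := fderiv ℝ G.P x v w + G.P x w'

end pw

variable (hc : Cst G ρ δ C) {x v w w' b b' : Euc N} (hx : x ∈ S) (hv : v ∈ G.T x)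
  (hv1 : ‖v‖ ≤ 1)

include hc hx hv1 in
theorem bP_le (w : Euc N) : ‖fderiv ℝ G.P x v w‖ ≤ C * ‖w‖ := by
  have h1 : ‖fderiv ℝ G.P x v‖ ≤ C := by
    have h2 : ‖fderiv ℝ G.P x v‖ ≤ C * ‖v‖ := ContinuousLinearMap.le_of_opNorm_le _ (hc.bP x hx) v
    have := hc.one
    nlinarith
  exact ContinuousLinearMap.le_of_opNorm_le _ h1 w

include hc hx hv hv1 in
theorem uu'_sub (hw : ‖w‖ < δ) : ‖uu' ρ x v w w' - pd G x v w w'‖ ≤ C * ‖w‖ ^ 2 + C * ‖w‖ * ‖w'‖ := by
  have hq : ‖x + w - x‖ < δ := by simpa using hw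
  have h1 := hc.t1 x hx (x + w) hq
  have h2 := hc.l1 x hx (x + w) hq
  simp only [add_sub_cancel_left] at h1 h2
  have e1 : uu' ρ x v w w' - pd G x v w w' =
      (fderiv ℝ ρ (x + w) - G.P x - D2f ρ x w) v + (fderiv ℝ ρ (x + w) - G.P x) w' := by
    have e2 : D2f ρ x w v = fderiv ℝ G.P x v w := by
      rw [D2_symm hc hx w v, D2_tan hc hx hv]
    have e3 : G.P x v = v := P_self hx hv
    simp only [uu', pd, sub_apply, map_add, e2, e3]
    abel
  rw [e1]
  refine (norm_add_le _ _).trans (add_le_add ?_ ?_)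
  · refine (ContinuousLinearMap.le_of_opNorm_le _ h1 v).trans ?_
    have : 0 ≤ C * ‖w‖ ^ 2 := by have := hc.one; positivity
    nlinarith
  · exact ContinuousLinearMap.le_of_opNorm_le _ h2 w'

include hc hx hv1 in
theorem norm_pd_le : ‖pd G x v w w'‖ ≤ C * (‖w‖ + ‖w'‖) := by
  refine (norm_add_le _ _).trans ?_
  have h1 := bP_le hc hx hv1 w
  have h2 := norm_P_le (G := G) hx w'
  have := hc.one
  nlinarith [norm_nonneg w']

include hc hx hv hv1 in
theorem du'_sub (hw : ‖w‖ < δ) : ‖du' ρ x v w w' b b' - pd G x v b b'‖ ≤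
    C * ‖w‖ * ‖b‖ + C * ‖w'‖ * ‖b‖ + C * ‖w‖ * ‖b'‖ := by
  have hq : ‖x + w - x‖ < δ := by simpa using hw
  have h1 := hc.l2 x hx (x + w) hq
  have h2 := hc.l1 x hx (x + w) hq
  have h3 := hc.b2 x hx (x + w) hq
  simp only [add_sub_cancel_left] at h1 h2
  have e1 : du' ρ x v w w' b b' - pd G x v b b' =
      (D2f ρ (x + w) - D2f ρ x) v b + D2f ρ (x + w) w' b + (fderiv ℝ ρ (x + w) - G.P x) b' := by
    have e2 : D2f ρ x v = fderiv ℝ G.P x v := D2_tan hc hx hv
    simp only [du', pd, sub_apply, map_add, e2, add_apply]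
    abel
  have hC := hc.one
  rw [e1]
  refine (norm_add_le _ _).trans (add_le_add ((norm_add_le _ _).trans (add_le_add ?_ ?_)) ?_)
  · have h4 : ‖(D2f ρ (x + w) - D2f ρ x) v‖ ≤ C * ‖w‖ := by
      refine (ContinuousLinearMap.le_of_opNorm_le _ h1 v).trans ?_
      have : 0 ≤ C * ‖w‖ := by positivity
      nlinarith
    exact ContinuousLinearMap.le_of_opNorm_le _ h4 b
  · have h4 : ‖D2f ρ (x + w) w'‖ ≤ C * ‖w'‖ := ContinuousLinearMap.le_of_opNorm_le _ h3 w'
    exact ContinuousLinearMap.le_of_opNorm_le _ h4 b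
  · exact ContinuousLinearMap.le_of_opNorm_le _ h2 b'

include hc hx hv hv1 in
/-- the term with the normal vector `γ'' = II v v` -/
theorem nu_sub (hw : C * ‖w‖ < δ) :
    |⟪fderiv ℝ G.P x v v, du ρ x w b⟫ - ⟪fderiv ℝ G.P x v v, II G x (G.P x w) (G.P x b)⟫| ≤
      5 * C ^ 5 * ‖w‖ ^ 2 * ‖b‖ := by
  have hC := hc.one
  have hw1 : ‖w‖ < δ := by nlinarith [norm_nonneg w]
  have hw2 : ‖w‖ ≤ 1 := hw1.le.trans hc.le1
  have hq : ‖x + w - x‖ < δ := by simpa using hw1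
  set ν := fderiv ℝ G.P x v v with hν
  have hνn : ‖ν‖ ≤ C := by
    have := bP_le hc hx hv1 v
    nlinarith
  set c := ρ (x + w) with hcdef
  have hcS : c ∈ S := hc.mem x hx _ hq
  have h0 := hc.l0 x hx (x + w) hq
  have ht0 := hc.t0 x hx (x + w) hq
  have h2 := hc.l1 x hx (x + w) hq
  simp only [add_sub_cancel_left] at h0 ht0 h2
  have hcx : ‖c - x‖ < δ := h0.trans_lt hw
  have htP := hc.tP x hx c hcx
  set U := du ρ x w b with hU
  have hUT : U ∈ G.T c := fdr_mem hc hx hq b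
  -- `⟨ν, U⟩ = ⟨P(c) ν, U⟩`
  have e1 : ⟪ν, U⟫ = ⟪G.P c ν, U⟫ := by
    rw [inner_P_left G hcS, P_self hcS hUT]
  have e2 : G.P x ν = 0 := II_normal G hx hv hv
  set W := G.P x w with hW
  have hWT : W ∈ G.T x := P_mem hx w
  have hWn : ‖W‖ ≤ ‖w‖ := norm_P_le hx w
  set B := G.P x b with hBdef
  -- error of `P(c) ν`
  have e3 : ‖G.P c ν - fderiv ℝ G.P x W ν‖ ≤ 2 * C ^ 4 * ‖w‖ ^ 2 := by
    have e4 : G.P c ν - fderiv ℝ G.P x W ν =
        (G.P c - G.P x - fderiv ℝ G.P x (c - x)) ν + fderiv ℝ G.P x (c - x - W) ν := by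
      simp only [sub_apply, map_sub, e2]
      abel
    rw [e4]
    have h3 : ‖(G.P c - G.P x - fderiv ℝ G.P x (c - x)) ν‖ ≤ (C * ‖c - x‖ ^ 2) * ‖ν‖ :=
      ContinuousLinearMap.le_of_opNorm_le _ htP ν
    have h4 : ‖fderiv ℝ G.P x (c - x - W) ν‖ ≤ C * ‖c - x - W‖ * ‖ν‖ := by
      have h5 : ‖fderiv ℝ G.P x (c - x - W)‖ ≤ C * ‖c - x - W‖ :=
        ContinuousLinearMap.le_of_opNorm_le _ (hc.bP x hx) _
      exact ContinuousLinearMap.le_of_opNorm_le _ h5 ν
    have h6 : ‖c - x‖ ^ 2 ≤ C ^ 2 * ‖w‖ ^ 2 := by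
      rw [← mul_pow]
      exact pow_le_pow_left₀ (norm_nonneg _) h0 2
    have h7 : (C * ‖c - x‖ ^ 2) * ‖ν‖ ≤ (C * (C ^ 2 * ‖w‖ ^ 2)) * C :=
      mul_le_mul (mul_le_mul_of_nonneg_left h6 (by linarith)) hνn (norm_nonneg _) (by positivity)
    have h8 : C * ‖c - x - W‖ * ‖ν‖ ≤ C * (C * ‖w‖ ^ 2) * C :=
      mul_le_mul (mul_le_mul_of_nonneg_left ht0 (by linarith)) hνn (norm_nonneg _) (by positivity)
    have h9 : C ^ 3 ≤ C ^ 4 := pow_le_pow_right₀ hC (by norm_num)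
    have h10 : C * (C * ‖w‖ ^ 2) * C ≤ C ^ 4 * ‖w‖ ^ 2 := by
      have : C * (C * ‖w‖ ^ 2) * C = C ^ 3 * ‖w‖ ^ 2 := by ring
      rw [this]
      exact mul_le_mul_of_nonneg_right h9 (by positivity)
    calc _ ≤ _ := norm_add_le _ _
      _ ≤ (C * (C ^ 2 * ‖w‖ ^ 2)) * C + C ^ 4 * ‖w‖ ^ 2 :=
          add_le_add (h3.trans h7) ((h4.trans h8).trans h10)
      _ = 2 * C ^ 4 * ‖w‖ ^ 2 := by ring
  have e5 : ‖U - B‖ ≤ C * ‖w‖ * ‖b‖ := by
    have : U - B = (fderiv ℝ ρ (x + w) - G.P x) b := by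
      simp [hU, du, hBdef]
    rw [this]
    exact ContinuousLinearMap.le_of_opNorm_le _ h2 b
  have hBn : ‖B‖ ≤ ‖b‖ := norm_P_le hx b
  have hUn : ‖U‖ ≤ 2 * C * ‖b‖ := by
    have h3 : U = B + (U - B) := by abel
    rw [h3]
    refine (norm_add_le _ _).trans ?_
    have h4 : C * ‖w‖ * ‖b‖ ≤ C * 1 * ‖b‖ :=
      mul_le_mul_of_nonneg_right (mul_le_mul_of_nonneg_left hw2 (by linarith)) (norm_nonneg _)
    nlinarith [norm_nonneg b]
  have e6 : ⟪ν, II G x W B⟫ = ⟪fderiv ℝ G.P x W ν, B⟫ := (L.dP_symm G hx hWT ν B).symm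
  rw [e1, e6]
  have e7 : ⟪G.P c ν, U⟫ - ⟪fderiv ℝ G.P x W ν, B⟫ =
      ⟪G.P c ν - fderiv ℝ G.P x W ν, U⟫ + ⟪fderiv ℝ G.P x W ν, U - B⟫ := by
    rw [inner_sub_left, inner_sub_right]
    ring
  rw [e7]
  have h3 : |⟪G.P c ν - fderiv ℝ G.P x W ν, U⟫| ≤ (2 * C ^ 4 * ‖w‖ ^ 2) * (2 * C * ‖b‖) :=
    (abs_real_inner_le_norm _ _).trans (mul_le_mul e3 hUn (norm_nonneg _) (by positivity))
  have h4 : ‖fderiv ℝ G.P x W ν‖ ≤ C * ‖w‖ * C := by
    have h5 : ‖fderiv ℝ G.P x W‖ ≤ C * ‖W‖ := ContinuousLinearMap.le_of_opNorm_le _ (hc.bP x hx) _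
    refine (ContinuousLinearMap.le_of_opNorm_le _ h5 ν).trans ?_
    exact mul_le_mul (mul_le_mul_of_nonneg_left hWn (by linarith)) hνn (norm_nonneg _)
      (by positivity)
  have h5 : |⟪fderiv ℝ G.P x W ν, U - B⟫| ≤ (C * ‖w‖ * C) * (C * ‖w‖ * ‖b‖) :=
    (abs_real_inner_le_norm _ _).trans (mul_le_mul h4 e5 (norm_nonneg _) (by positivity))
  have h6 : (C * ‖w‖ * C) * (C * ‖w‖ * ‖b‖) ≤ C ^ 5 * ‖w‖ ^ 2 * ‖b‖ := by
    have h7 : C ^ 3 ≤ C ^ 5 := pow_le_pow_right₀ hC (by norm_num)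
    have h8 : (C * ‖w‖ * C) * (C * ‖w‖ * ‖b‖) = C ^ 3 * (‖w‖ ^ 2 * ‖b‖) := by ring
    rw [h8, mul_assoc]
    exact mul_le_mul_of_nonneg_right h7 (by positivity)
  calc _ ≤ _ := abs_add_le _ _
    _ ≤ (2 * C ^ 4 * ‖w‖ ^ 2) * (2 * C * ‖b‖) + C ^ 5 * ‖w‖ ^ 2 * ‖b‖ := add_le_add h3 (h5.trans h6)
    _ = 5 * C ^ 5 * ‖w‖ ^ 2 * ‖b‖ := by ring

include hc hx hv hv1 in
/-- **pointwise estimate** -/
theorem pw (hw : C * ‖w‖ < δ) (hb : ‖b‖ ≤ 1) :
    |(⟪uu' ρ x v w w', du' ρ x v w w' b b'⟫ - ⟪fderiv ℝ G.P x v v, du ρ x w b⟫) -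
      (⟪pd G x v w w', pd G x v b b'⟫ - ⟪fderiv ℝ G.P x v v, II G x (G.P x w) (G.P x b)⟫)| ≤
      9 * C ^ 5 * (‖w‖ + ‖b‖) * (‖w‖ + ‖w'‖ + ‖b‖ + ‖b'‖) ^ 2 := by
  have hC := hc.one
  have hw1 : ‖w‖ < δ := by nlinarith [norm_nonneg w]
  have hw2 : ‖w‖ ≤ 1 := hw1.le.trans hc.le1
  have h1 := uu'_sub (w' := w') hc hx hv hv1 hw1
  have h2 := du'_sub (w' := w') (b := b) (b' := b') hc hx hv hv1 hw1
  have h3 := nu_sub (b := b) hc hx hv hv1 hw
  have h4 := norm_pd_le (w := w) (w' := w') hc hx hv1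
  have h5 := norm_pd_le (w := b) (w' := b') hc hx hv1
  set a := ‖w‖ with ha
  set a' := ‖w'‖ with ha'
  set β := ‖b‖ with hβ
  set β' := ‖b'‖ with hβ'
  have na : 0 ≤ a := norm_nonneg _
  have na' : 0 ≤ a' := norm_nonneg _
  have nβ : 0 ≤ β := norm_nonneg _
  have nβ' : 0 ≤ β' := norm_nonneg _
  set M := a + a' + β + β' with hM
  have nM : 0 ≤ M := by positivity
  -- the first error
  have h1' : ‖uu' ρ x v w w' - pd G x v w w'‖ ≤ C * a * M := by
    refine h1.trans ?_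
    have : C * a ^ 2 + C * a * a' = C * a * (a + a') := by ring
    rw [this]
    exact mul_le_mul_of_nonneg_left (by linarith) (by positivity)
  have h2' : ‖du' ρ x v w w' b b' - pd G x v b b'‖ ≤ C * (a + β) * M := by
    refine h2.trans ?_
    have : C * a * β + C * a' * β + C * a * β' = C * (β * (a + a') + a * β') := by ring
    rw [this, mul_assoc]
    refine mul_le_mul_of_nonneg_left ?_ (by linarith)
    nlinarith [mul_nonneg nβ nβ', mul_nonneg nβ nβ, mul_nonneg na na', mul_nonneg na na,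
      mul_nonneg na nβ]
  have h2'' : ‖du' ρ x v w w' b b'‖ ≤ 3 * C * M := by
    have h6 : du' ρ x v w w' b b' = pd G x v b b' + (du' ρ x v w w' b b' - pd G x v b b') := by
      abel
    rw [h6]
    refine (norm_add_le _ _).trans ?_
    have h7 : C * (a + β) * M ≤ C * 2 * M :=
      mul_le_mul_of_nonneg_right (mul_le_mul_of_nonneg_left (by linarith) (by linarith)) nM
    have h8 : C * (β + β') ≤ C * M := mul_le_mul_of_nonneg_left (by linarith) (by linarith)
    linarith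
  have h4' : ‖pd G x v w w'‖ ≤ C * M :=
    h4.trans (mul_le_mul_of_nonneg_left (by linarith) (by linarith))
  have e1 : (⟪uu' ρ x v w w', du' ρ x v w w' b b'⟫ - ⟪fderiv ℝ G.P x v v, du ρ x w b⟫) -
      (⟪pd G x v w w', pd G x v b b'⟫ - ⟪fderiv ℝ G.P x v v, II G x (G.P x w) (G.P x b)⟫) =
      ⟪uu' ρ x v w w' - pd G x v w w', du' ρ x v w w' b b'⟫ +
      ⟪pd G x v w w', du' ρ x v w w' b b' - pd G x v b b'⟫ -
      (⟪fderiv ℝ G.P x v v, du ρ x w b⟫ -
        ⟪fderiv ℝ G.P x v v, II G x (G.P x w) (G.P x b)⟫) := by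
    rw [inner_sub_left, inner_sub_right]
    ring
  rw [e1]
  have k1 : |⟪uu' ρ x v w w' - pd G x v w w', du' ρ x v w w' b b'⟫| ≤ (C * a * M) * (3 * C * M) :=
    (abs_real_inner_le_norm _ _).trans (mul_le_mul h1' h2'' (norm_nonneg _) (by positivity))
  have k2 : |⟪pd G x v w w', du' ρ x v w w' b b' - pd G x v b b'⟫| ≤
      (C * M) * (C * (a + β) * M) :=
    (abs_real_inner_le_norm _ _).trans (mul_le_mul h4' h2' (norm_nonneg _) (by positivity))
  have k3 : 5 * C ^ 5 * a ^ 2 * β ≤ 5 * C ^ 5 * (a + β) * M ^ 2 := by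
    have : 5 * C ^ 5 * a ^ 2 * β = 5 * C ^ 5 * (β * a ^ 2) := by ring
    rw [this, mul_assoc (5 * C ^ 5)]
    refine mul_le_mul_of_nonneg_left ?_ (by positivity)
    refine mul_le_mul (by linarith) ?_ (by positivity) (by positivity)
    exact pow_le_pow_left₀ na (by linarith) 2
  have k4 : (C * a * M) * (3 * C * M) + (C * M) * (C * (a + β) * M) ≤
      4 * C ^ 5 * (a + β) * M ^ 2 := by
    have h9 : C ^ 2 ≤ C ^ 5 := pow_le_pow_right₀ hC (by norm_num)
    have h10 : (C * a * M) * (3 * C * M) + (C * M) * (C * (a + β) * M) =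
        C ^ 2 * ((4 * a + β) * M ^ 2) := by ring
    have h11 : 4 * C ^ 5 * (a + β) * M ^ 2 = C ^ 5 * ((4 * a + 4 * β) * M ^ 2) := by ring
    rw [h10, h11]
    refine mul_le_mul h9 ?_ (by positivity) (by positivity)
    exact mul_le_mul_of_nonneg_right (by linarith) (by positivity)
  have k5 := abs_sub (⟪uu' ρ x v w w' - pd G x v w w', du' ρ x v w w' b b'⟫ +
      ⟪pd G x v w w', du' ρ x v w w' b b' - pd G x v b b'⟫)
      (⟪fderiv ℝ G.P x v v, du ρ x w b⟫ -
        ⟪fderiv ℝ G.P x v v, II G x (G.P x w) (G.P x b)⟫)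
  have k6 := abs_add_le ⟪uu' ρ x v w w' - pd G x v w w', du' ρ x v w w' b b'⟫
      ⟪pd G x v w w', du' ρ x v w w' b b' - pd G x v b b'⟫
  have k7 : 9 * C ^ 5 * (a + β) * M ^ 2 = 4 * C ^ 5 * (a + β) * M ^ 2 +
    5 * C ^ 5 * (a + β) * M ^ 2 := by ring
  rw [k7]
  linarith

end Crest.Agent.R208.NG
end
end

-- ▼ part R208/NG3
section

/-!
R208, block NG (helper131), part NG3: the energy difference along `s ↦ ρ (γ + w + s b)` is
`s ix(W,B) + s²/2 ix(B,B)` up to `O(η s)`.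
-/

set_option autoImplicit false

open Set Filter Topology MeasureTheory
open scoped ContDiff RealInnerProductSpace Real
open Crest.GeometryTopology.Submanifold
open Crest.Agent.R241.DDefs Crest.Agent.R241.D Crest.Agent.R241.D2
open Crest.Agent.R208.MS (exists_unif P_self P_mem Retr)

noncomputable section

namespace Crest.Agent.R208.NG

variable {n N : ℕ} {κ : ℝ} {S : Set (Euc N)} {G : Geo n N κ S} {ρ : Euc N → Euc N} {δ C : ℝ}

/-- pointwise energy density relative to the geodesic -/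
def ee (G : Geo n N κ S) (ρ : Euc N → Euc N) (x v w w' : Euc N) : ℝ :=
  (1 / 2) * ‖uu' ρ x v w w'‖ ^ 2 - ⟪fderiv ℝ G.P x v v, ρ (x + w) - x⟫

theorem hasDerivAt_ee (hc : Cst G ρ δ C) {x v w w' b b' : Euc N} (hx : x ∈ S) {s : ℝ}
    (hs : ‖w + s • b‖ < δ) :
    HasDerivAt (fun s : ℝ => ee G ρ x v (w + s • b) (w' + s • b'))
      (⟪uu' ρ x v (w + s • b) (w' + s • b'), du' ρ x v (w + s • b) (w' + s • b') b b'⟫ -
        ⟪fderiv ℝ G.P x v v, du ρ x (w + s • b) b⟫) s := by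
  have hq : ‖x + (w + s • b) - x‖ < δ := by simpa using hs
  have h1 : HasDerivAt (fun s : ℝ => x + (w + s • b)) b s := by
    simpa using (((hasDerivAt_id s).smul_const b).const_add w).const_add x
  have h1' : HasDerivAt (fun s : ℝ => v + (w' + s • b')) b' s := by
    simpa using (((hasDerivAt_id s).smul_const b').const_add w').const_add v
  have h2 : HasFDerivAt (fderiv ℝ ρ) (D2f ρ (x + (w + s • b))) (x + (w + s • b)) :=
    (((hc.sm x hx _ hq).fderiv_right (m := ∞) (by simp)).differentiableAt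
      (by simp)).hasFDerivAt
  have h3 : HasDerivAt (fun s : ℝ => fderiv ℝ ρ (x + (w + s • b)))
      (D2f ρ (x + (w + s • b)) b) s := h2.comp_hasDerivAt s h1
  have h4 : HasDerivAt (fun s : ℝ => uu' ρ x v (w + s • b) (w' + s • b'))
      (du' ρ x v (w + s • b) (w' + s • b') b b') s := by
    have h5 := (h3.clm_apply h1').sub_const v
    have h6 : D2f ρ (x + (w + s • b)) b (v + (w' + s • b')) +
        fderiv ℝ ρ (x + (w + s • b)) b' = du' ρ x v (w + s • b) (w' + s • b') b b' := by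
      rw [du', D2_symm' hc hx hq]
    rw [h6] at h5
    exact h5
  have h7 : HasDerivAt (fun s : ℝ => ρ (x + (w + s • b)) - x) (du ρ x (w + s • b) b) s := by
    have h8 : HasFDerivAt ρ (fderiv ℝ ρ (x + (w + s • b))) (x + (w + s • b)) :=
      ((hc.sm x hx _ hq).differentiableAt (by simp)).hasFDerivAt
    exact (h8.comp_hasDerivAt s h1).sub_const x
  have h9 := (h4.norm_sq).const_mul (1 / 2 : ℝ)
  have h10 := (hasDerivAt_const s (fderiv ℝ G.P x v v)).inner ℝ h7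
  refine (h9.sub h10).congr_deriv ?_
  rw [inner_zero_left]
  ring

/-- **pointwise energy difference** -/
theorem ee_diff (hc : Cst G ρ δ C) {x v w w' b b' : Euc N} (hx : x ∈ S) (hv : v ∈ G.T x)
    (hv1 : ‖v‖ ≤ 1) (hη : C * (‖w‖ + ‖b‖) < δ) {s : ℝ} (h0 : 0 ≤ s) (h1 : s ≤ 1) :
    |(ee G ρ x v (w + s • b) (w' + s • b') - ee G ρ x v w w') -
      (s * (⟪pd G x v w w', pd G x v b b'⟫ - ⟪fderiv ℝ G.P x v v, II G x (G.P x w) (G.P x b)⟫) +
       s ^ 2 / 2 * (⟪pd G x v b b', pd G x v b b'⟫ -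
        ⟪fderiv ℝ G.P x v v, II G x (G.P x b) (G.P x b)⟫))| ≤
      72 * C ^ 5 * s * ((‖w‖ + ‖b‖) * (‖w‖ + ‖w'‖ + ‖b‖ + ‖b'‖) ^ 2) := by
  have hC := hc.one
  have hδ1 := hc.le1
  set α := ⟪pd G x v w w', pd G x v b b'⟫ - ⟪fderiv ℝ G.P x v v, II G x (G.P x w) (G.P x b)⟫
    with hα
  set β := ⟪pd G x v b b', pd G x v b b'⟫ - ⟪fderiv ℝ G.P x v v, II G x (G.P x b) (G.P x b)⟫
    with hβ
  set H := (‖w‖ + ‖b‖) * (‖w‖ + ‖w'‖ + ‖b‖ + ‖b'‖) ^ 2 with hH
  have hb1 : ‖b‖ ≤ 1 := by nlinarith [norm_nonneg w, norm_nonneg b]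
  have hn : ∀ σ : ℝ, 0 ≤ σ → σ ≤ 1 → ∀ a c : Euc N, ‖a + σ • c‖ ≤ ‖a‖ + ‖c‖ := by
    intro σ hσ hσ1 a c
    refine (norm_add_le _ _).trans ?_
    rw [norm_smul, Real.norm_of_nonneg hσ]
    nlinarith [norm_nonneg c]
  set f : ℝ → ℝ := fun σ => ee G ρ x v (w + σ • b) (w' + σ • b') - (σ * α + σ ^ 2 / 2 * β) with hf
  set f' : ℝ → ℝ := fun σ => (⟪uu' ρ x v (w + σ • b) (w' + σ • b'),
    du' ρ x v (w + σ • b) (w' + σ • b') b b'⟫ -
        ⟪fderiv ℝ G.P x v v, du ρ x (w + σ • b) b⟫) - (α + σ * β) with hf'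
  have hCle : ∀ σ : ℝ, 0 ≤ σ → σ ≤ 1 → C * ‖w + σ • b‖ < δ := fun σ hσ hσ1 =>
    (mul_le_mul_of_nonneg_left (hn σ hσ hσ1 w b) (by linarith)).trans_lt hη
  have hder : ∀ σ ∈ Icc (0:ℝ) s, HasDerivWithinAt f (f' σ) (Icc 0 s) σ := by
    intro σ hσ
    have hσ1 : σ ≤ 1 := hσ.2.trans h1
    have h2 : ‖w + σ • b‖ < δ := by
      have := hCle σ hσ.1 hσ1
      nlinarith [norm_nonneg (w + σ • b)]
    have h3 := hasDerivAt_ee (G := G) (v := v) (w' := w') (b' := b') hc hx h2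
    have h4 : HasDerivAt (fun σ : ℝ => σ * α + σ ^ 2 / 2 * β) (α + σ * β) σ := by
      have h5 := ((hasDerivAt_id σ).mul_const α).add
        ((((hasDerivAt_id σ).pow 2).div_const 2).mul_const β)
      refine h5.congr_deriv ?_
      simp only [id]
      ring
    exact (h3.sub h4).hasDerivWithinAt
  have hbd : ∀ σ ∈ Icc (0:ℝ) s, ‖f' σ‖ ≤ 72 * C ^ 5 * H := by
    intro σ hσ
    have hσ1 : σ ≤ 1 := hσ.2.trans h1
    have h2 := pw (w := w + σ • b) (w' := w' + σ • b') (b := b) (b' := b') hc hx hv hv1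
      (hCle σ hσ.1 hσ1) hb1
    have h3 : ⟪pd G x v (w + σ • b) (w' + σ • b'), pd G x v b b'⟫ -
        ⟪fderiv ℝ G.P x v v, II G x (G.P x (w + σ • b)) (G.P x b)⟫ = α + σ * β := by
      have e1 : pd G x v (w + σ • b) (w' + σ • b') = pd G x v w w' + σ • pd G x v b b' := by
        simp only [pd, map_add, map_smul, smul_add]
        abel
      have e2 : II G x (G.P x (w + σ • b)) (G.P x b) =
          II G x (G.P x w) (G.P x b) + σ • II G x (G.P x b) (G.P x b) := by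
        simp only [R241.D2.II, map_add, map_smul, add_apply, smul_apply]
      rw [e1, e2, inner_add_left, inner_add_right, real_inner_smul_left, real_inner_smul_right,
        hα, hβ]
      ring
    rw [h3] at h2
    refine h2.trans ?_
    have k1 := hn σ hσ.1 hσ1 w b
    have k2 := hn σ hσ.1 hσ1 w' b'
    have n1 := norm_nonneg w
    have n2 := norm_nonneg w'
    have n3 := norm_nonneg b
    have n4 := norm_nonneg b'
    have k3 : ‖w + σ • b‖ + ‖b‖ ≤ 2 * (‖w‖ + ‖b‖) := by linarith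
    have k4 : ‖w + σ • b‖ + ‖w' + σ • b'‖ + ‖b‖ + ‖b'‖ ≤ 2 * (‖w‖ + ‖w'‖ + ‖b‖ + ‖b'‖) := by
      linarith
    have k5 : (‖w + σ • b‖ + ‖w' + σ • b'‖ + ‖b‖ + ‖b'‖) ^ 2 ≤
        (2 * (‖w‖ + ‖w'‖ + ‖b‖ + ‖b'‖)) ^ 2 := pow_le_pow_left₀ (by positivity) k4 2
    calc 9 * C ^ 5 * (‖w + σ • b‖ + ‖b‖) * (‖w + σ • b‖ + ‖w' + σ • b'‖ + ‖b‖ + ‖b'‖) ^ 2
        = 9 * C ^ 5 * ((‖w + σ • b‖ + ‖b‖) *
          (‖w + σ • b‖ + ‖w' + σ • b'‖ + ‖b‖ + ‖b'‖) ^ 2) := by ring
      _ ≤ 9 * C ^ 5 * ((2 * (‖w‖ + ‖b‖)) * (2 * (‖w‖ + ‖w'‖ + ‖b‖ + ‖b'‖)) ^ 2) :=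
          mul_le_mul_of_nonneg_left (mul_le_mul k3 k5 (by positivity) (by positivity))
            (by positivity)
      _ = 72 * C ^ 5 * H := by rw [hH]; ring
  have hmv := (convex_Icc (0:ℝ) s).norm_image_sub_le_of_norm_hasDerivWithin_le hder hbd
    (left_mem_Icc.2 h0) (right_mem_Icc.2 h0)
  have e3 : f s - f 0 = (ee G ρ x v (w + s • b) (w' + s • b') - ee G ρ x v w w') -
      (s * α + s ^ 2 / 2 * β) := by
    simp only [hf, zero_smul, add_zero]
    ring
  rw [e3, Real.norm_eq_abs, sub_zero, Real.norm_of_nonneg h0] at hmv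
  refine hmv.trans (le_of_eq ?_)
  ring

end Crest.Agent.R208.NG
end
end

-- ▼ part R208/NG4
section

/-!
R208, block NG (helper131), part NG4: the energy of `ρ (γ + u)` and the energy difference
estimate.
-/

set_option autoImplicit false

open Set Filter Topology MeasureTheory
open scoped ContDiff RealInnerProductSpace Real
open Crest.GeometryTopology.Submanifold
open Crest.Agent.R241.DDefs Crest.Agent.R241.D Crest.Agent.R241.D2
open Crest.Agent.R208.MS (exists_unif P_self P_mem Retr En)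

noncomputable section

namespace Crest.Agent.R208.NG

variable {n N : ℕ} {κ : ℝ} {S : Set (Euc N)} {G : Geo n N κ S} {ρ : Euc N → Euc N} {δ C : ℝ}
  {q : Euc N × Euc N}

/-- the geodesic -/
abbrev ga (G : Geo n N κ S) (q : Euc N × Euc N) (t : ℝ) : Euc N := (fl G (q, t)).1

/-- its velocity -/
abbrev ga' (G : Geo n N κ S) (q : Euc N × Euc N) (t : ℝ) : Euc N := (fl G (q, t)).2

theorem hda_ga (hq : q ∈ TS G) (t : ℝ) : HasDerivAt (ga G q) (ga' G q t) t :=
  hda_fst (hasDerivAt_fl G (complete G hq t))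

theorem hda_ga' (hq : q ∈ TS G) (t : ℝ) :
    HasDerivAt (ga' G q) (fderiv ℝ G.P (ga G q t) (ga' G q t) (ga' G q t)) t :=
  hda_snd (hasDerivAt_fl G (complete G hq t))

theorem ga_mem (hq : q ∈ TS G) (t : ℝ) : ga G q t ∈ S := (fl_mem G hq t).1

theorem ga'_mem (hq : q ∈ TS G) (t : ℝ) : ga' G q t ∈ G.T (ga G q t) := (fl_mem G hq t).2

theorem cont_ga (hq : q ∈ TS G) : Continuous (ga G q) :=
  continuous_iff_continuousAt.2 fun t => (hda_ga hq t).continuousAt

theorem cont_ga' (hq : q ∈ TS G) : Continuous (ga' G q) :=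
  continuous_iff_continuousAt.2 fun t => (hda_ga' hq t).continuousAt

theorem cont_fdrho (hc : Cst G ρ δ C) (hq : q ∈ TS G) {u : ℝ → Euc N} (hu : Continuous u)
    (hb : ∀ t, ‖u t‖ < δ) : Continuous fun t => fderiv ℝ ρ (ga G q t + u t) := by
  refine continuous_iff_continuousAt.2 fun t => ?_
  have h1 : ContinuousAt (fderiv ℝ ρ) (ga G q t + u t) :=
    ((hc.sm _ (ga_mem hq t) _ (by simpa using hb t)).fderiv_right (m := ∞)
      (by simp)).continuousAt
  exact ContinuousAt.comp (f := fun t => ga G q t + u t) h1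
    ((cont_ga hq).add hu).continuousAt

theorem cont_rho (hc : Cst G ρ δ C) (hq : q ∈ TS G) {u : ℝ → Euc N} (hu : Continuous u)
    (hb : ∀ t, ‖u t‖ < δ) : Continuous fun t => ρ (ga G q t + u t) := by
  refine continuous_iff_continuousAt.2 fun t => ?_
  have h1 : ContinuousAt ρ (ga G q t + u t) :=
    (hc.sm _ (ga_mem hq t) _ (by simpa using hb t)).continuousAt
  exact ContinuousAt.comp (f := fun t => ga G q t + u t) h1
    ((cont_ga hq).add hu).continuousAt

theorem hda_rho (hc : Cst G ρ δ C) (hq : q ∈ TS G) {u : ℝ → Euc N} {u' : Euc N} {t : ℝ}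
    (hu : HasDerivAt u u' t) (hb : ‖u t‖ < δ) :
    HasDerivAt (fun t => ρ (ga G q t + u t))
      (fderiv ℝ ρ (ga G q t + u t) (ga' G q t + u')) t := by
  have h1 : HasFDerivAt ρ (fderiv ℝ ρ (ga G q t + u t)) (ga G q t + u t) :=
    ((hc.sm _ (ga_mem hq t) _ (by simpa using hb)).differentiableAt (by simp)).hasFDerivAt
  exact h1.comp_hasDerivAt t ((hda_ga hq t).add hu)

/-- **the energy of a loop near a closed geodesic** -/
theorem En_eq (hc : Cst G ρ δ C) (hq : q ∈ TS G) (hq1 : ‖q.2‖ = 1)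
    (hper : fl G (q, 2 * π) = q) {u u' : ℝ → Euc N} (hu : ∀ t, HasDerivAt u (u' t) t)
    (hu' : Continuous u') (hup : u (2 * π) = u 0) (hb : ∀ t, ‖u t‖ < δ) :
    En (fun t => ρ (ga G q t + u t)) =
      π + ∫ t in (0:ℝ)..(2 * π), ee G ρ (ga G q t) (ga' G q t) (u t) (u' t) := by
  have hucont : Continuous u := continuous_iff_continuousAt.2 fun t => (hu t).continuousAt
  have hF := cont_fdrho hc hq hucont hb
  have hg := cont_ga (G := G) hq
  have hg' := cont_ga' (G := G) hq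
  have hR := cont_rho hc hq hucont hb
  set c : ℝ → Euc N := fun t => ρ (ga G q t + u t) with hcd
  set U : ℝ → Euc N := fun t => uu' ρ (ga G q t) (ga' G q t) (u t) (u' t) with hU
  have hUc : Continuous U := (hF.clm_apply (hg'.add hu')).sub hg'
  have hdP : Continuous (fderiv ℝ G.P) := G.contDiff_P.continuous_fderiv (by simp)
  have hgg : Continuous fun t => fderiv ℝ G.P (ga G q t) (ga' G q t) (ga' G q t) :=
    ((hdP.comp hg).clm_apply hg').clm_apply hg'
  have hc0 : ∀ t, HasDerivAt (fun t => c t - ga G q t) (U t) t := fun t =>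
    (hda_rho hc hq (hu t) (hb t)).sub (hda_ga hq t)
  have hg0 : fl G (q, 0) = q := fl_zero G q
  have hga0 : ga G q (2 * π) = ga G q 0 := by rw [ga, ga, hper, hg0]
  have hga0' : ga' G q (2 * π) = ga' G q 0 := by rw [ga', ga', hper, hg0]
  -- integration by parts
  have hip : (∫ t in (0:ℝ)..(2 * π), ⟪ga' G q t, U t⟫) =
      -∫ t in (0:ℝ)..(2 * π),
        ⟪fderiv ℝ G.P (ga G q t) (ga' G q t) (ga' G q t), c t - ga G q t⟫ := by
    have h1 : ∀ t ∈ uIcc (0:ℝ) (2 * π), HasDerivAt (fun t => ⟪ga' G q t, c t - ga G q t⟫)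
        (⟪ga' G q t, U t⟫ +
          ⟪fderiv ℝ G.P (ga G q t) (ga' G q t) (ga' G q t), c t - ga G q t⟫) t :=
      fun t _ => (hda_ga' hq t).inner ℝ (hc0 t)
    have i1 : IntervalIntegrable (fun t => ⟪ga' G q t, U t⟫) volume 0 (2 * π) :=
      (hg'.inner hUc).intervalIntegrable _ _
    have i2 : IntervalIntegrable (fun t =>
        ⟪fderiv ℝ G.P (ga G q t) (ga' G q t) (ga' G q t), c t - ga G q t⟫) volume 0 (2 * π) :=
      (hgg.inner (hR.sub hg)).intervalIntegrable _ _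
    have h2 := intervalIntegral.integral_eq_sub_of_hasDerivAt h1 (i1.add i2)
    rw [intervalIntegral.integral_add i1 i2] at h2
    have h3 : c (2 * π) = c 0 := by simp only [hcd]; rw [hga0, hup]
    simp only [h3, hga0, hga0', sub_self] at h2
    linarith
  have hder : ∀ t, deriv c t = ga' G q t + U t := fun t => by
    rw [(hda_rho hc hq (hu t) (hb t)).deriv]
    simp only [hU, uu']
    abel
  have hn : ∀ t, ‖ga' G q t‖ = 1 := fun t => by rw [ga', norm_fl G hq t, hq1]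
  have e1 : ∀ t, ‖deriv c t‖ ^ 2 = 1 + 2 * ⟪ga' G q t, U t⟫ + ‖U t‖ ^ 2 := fun t => by
    rw [hder t, norm_add_sq_real, hn t]
    ring
  have i3 : IntervalIntegrable (fun t => ⟪ga' G q t, U t⟫) volume 0 (2 * π) :=
    (hg'.inner hUc).intervalIntegrable _ _
  have i4 : IntervalIntegrable (fun t => ‖U t‖ ^ 2) volume 0 (2 * π) :=
    (hUc.norm.pow 2).intervalIntegrable _ _
  have i5 : IntervalIntegrable (fun t =>
      ⟪fderiv ℝ G.P (ga G q t) (ga' G q t) (ga' G q t), c t - ga G q t⟫) volume 0 (2 * π) :=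
    (hgg.inner (hR.sub hg)).intervalIntegrable _ _
  have e2 : (∫ t in (0:ℝ)..(2 * π), ‖deriv c t‖ ^ 2) = 2 * π +
      2 * (∫ t in (0:ℝ)..(2 * π), ⟪ga' G q t, U t⟫) + ∫ t in (0:ℝ)..(2 * π), ‖U t‖ ^ 2 := by
    simp only [e1]
    rw [intervalIntegral.integral_add (((intervalIntegrable_const).add (i3.const_mul 2))) i4,
      intervalIntegral.integral_add intervalIntegrable_const (i3.const_mul 2),
      intervalIntegral.integral_const_mul, intervalIntegral.integral_const]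
    simp
  have e3 : (∫ t in (0:ℝ)..(2 * π), ee G ρ (ga G q t) (ga' G q t) (u t) (u' t)) =
      (1 / 2) * (∫ t in (0:ℝ)..(2 * π), ‖U t‖ ^ 2) -
      ∫ t in (0:ℝ)..(2 * π),
        ⟪fderiv ℝ G.P (ga G q t) (ga' G q t) (ga' G q t), c t - ga G q t⟫ := by
    rw [← intervalIntegral.integral_const_mul, ← intervalIntegral.integral_sub
      (i4.const_mul _) i5]
    rfl
  rw [En, e2, e3, hip]
  ring

/-- projected field and its derivative -/
def PF (G : Geo n N κ S) (q : Euc N × Euc N) (w : ℝ → Euc N) (t : ℝ) : Euc N :=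
  G.P (ga G q t) (w t)

def PF' (G : Geo n N κ S) (q : Euc N × Euc N) (w w' : ℝ → Euc N) (t : ℝ) : Euc N :=
  pd G (ga G q t) (ga' G q t) (w t) (w' t)

theorem hda_PF (hq : q ∈ TS G) {w w' : ℝ → Euc N} {t : ℝ} (hw : HasDerivAt w (w' t) t) :
    HasDerivAt (PF G q w) (PF' G q w w' t) t := by
  have h2 : HasFDerivAt G.P (fderiv ℝ G.P (ga G q t)) (ga G q t) :=
    (G.contDiff_P.differentiable (by simp)).differentiableAt.hasFDerivAt
  exact (h2.comp_hasDerivAt t (hda_ga hq t)).clm_apply hw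

theorem cont_PF' (hq : q ∈ TS G) {w w' : ℝ → Euc N} (hw : Continuous w) (hw' : Continuous w') :
    Continuous (PF' G q w w') := by
  have hdP : Continuous (fderiv ℝ G.P) := G.contDiff_P.continuous_fderiv (by simp)
  exact (((hdP.comp (cont_ga hq)).clm_apply (cont_ga' hq)).clm_apply hw).add
    ((G.contDiff_P.continuous.comp (cont_ga hq)).clm_apply hw')

theorem fld_PF (hq : q ∈ TS G) {w w' : ℝ → Euc N} (hw : ∀ t, HasDerivAt w (w' t) t)
    (hw' : Continuous w') (a b : ℝ) : SV.Fld G q a b (PF G q w) (PF' G q w w') where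
  der t _ := (hda_PF hq (hw t)).hasDerivWithinAt
  cont := (cont_PF' hq (continuous_iff_continuousAt.2 fun t => (hw t).continuousAt)
    hw').continuousOn
  mem t _ := P_mem (ga_mem hq t) _

/-- **energy difference** -/
theorem en_diff (hc : Cst G ρ δ C) (hq : q ∈ TS G) (hq1 : ‖q.2‖ = 1)
    (hper : fl G (q, 2 * π) = q) {w w' b b' : ℝ → Euc N} (hw : ∀ t, HasDerivAt w (w' t) t)
    (hw' : Continuous w') (hwp : w (2 * π) = w 0) (hb : ∀ t, HasDerivAt b (b' t) t)
    (hb' : Continuous b') (hbp : b (2 * π) = b 0) {η : ℝ} (hη : ∀ t, ‖w t‖ + ‖b t‖ ≤ η)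
    (hηδ : C * η < δ) {s : ℝ} (h0 : 0 ≤ s) (h1 : s ≤ 1) :
    |En (fun t => ρ (ga G q t + (w t + s • b t))) - En (fun t => ρ (ga G q t + w t)) -
      (s * SV.ix G q 0 (2 * π) (PF G q w) (PF' G q w w') (PF G q b) (PF' G q b b') +
        s ^ 2 / 2 * SV.ix G q 0 (2 * π) (PF G q b) (PF' G q b b') (PF G q b) (PF' G q b b'))| ≤
      288 * C ^ 5 * η * s *
        ∫ t in (0:ℝ)..(2 * π), (‖w t‖ ^ 2 + ‖w' t‖ ^ 2 + ‖b t‖ ^ 2 + ‖b' t‖ ^ 2) := by
  have hC := hc.one
  have hcw : Continuous w := continuous_iff_continuousAt.2 fun t => (hw t).continuousAt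
  have hcb : Continuous b := continuous_iff_continuousAt.2 fun t => (hb t).continuousAt
  have hη0 : 0 ≤ η := (by positivity : 0 ≤ ‖w 0‖ + ‖b 0‖).trans (hη 0)
  have hηδ' : η < δ := by nlinarith
  have hCη : ∀ t, C * (‖w t‖ + ‖b t‖) < δ := fun t =>
    (mul_le_mul_of_nonneg_left (hη t) (by linarith)).trans_lt hηδ
  have hws : ∀ t, HasDerivAt (fun t => w t + s • b t) (w' t + s • b' t) t := fun t =>
    (hw t).add ((hb t).const_smul s)
  have hbd1 : ∀ t, ‖w t + s • b t‖ < δ := fun t => by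
    refine (norm_add_le _ _).trans_lt ?_
    rw [norm_smul, Real.norm_of_nonneg h0]
    have := hη t
    nlinarith [norm_nonneg (b t)]
  have hbd0 : ∀ t, ‖w t‖ < δ := fun t => by
    have := hη t
    have h3 := norm_nonneg (b t)
    linarith
  have E1 := En_eq hc hq hq1 hper hws (hw'.add (hb'.const_smul s)) (by simp only [hwp, hbp]) hbd1
  have E0 := En_eq hc hq hq1 hper hw hw' hwp hbd0
  have hg := cont_ga (G := G) hq
  have hg' := cont_ga' (G := G) hq
  have hdP : Continuous (fderiv ℝ G.P) := G.contDiff_P.continuous_fderiv (by simp)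
  have hgg : Continuous fun t => fderiv ℝ G.P (ga G q t) (ga' G q t) (ga' G q t) :=
    ((hdP.comp hg).clm_apply hg').clm_apply hg'
  have hee : ∀ u u' : ℝ → Euc N, Continuous u → Continuous u' → (∀ t, ‖u t‖ < δ) →
      Continuous fun t => ee G ρ (ga G q t) (ga' G q t) (u t) (u' t) := by
    intro u u' hu hu' hb
    have k1 := cont_fdrho hc hq hu hb
    have k2 := cont_rho hc hq hu hb
    have k3 : Continuous fun t => uu' ρ (ga G q t) (ga' G q t) (u t) (u' t) :=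
      (k1.clm_apply (hg'.add hu')).sub hg'
    exact ((k3.norm.pow 2).const_mul _).sub (hgg.inner (k2.sub hg))
  have c1 : Continuous fun t => ee G ρ (ga G q t) (ga' G q t) (w t + s • b t)
      (w' t + s • b' t) := hee _ _ (hcw.add (hcb.const_smul s)) (hw'.add (hb'.const_smul s)) hbd1
  have c0 := hee _ _ hcw hw' hbd0
  have hWB := (fld_PF hq hw hw' 0 (2 * π)).intble hq (by positivity) (fld_PF hq hb hb' 0 (2 * π))
  have hBB := (fld_PF hq hb hb' 0 (2 * π)).intble hq (by positivity) (fld_PF hq hb hb' 0 (2 * π))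
  rw [E1, E0]
  have e1 : (π + ∫ t in (0:ℝ)..(2 * π), ee G ρ (ga G q t) (ga' G q t) (w t + s • b t)
      (w' t + s • b' t)) - (π + ∫ t in (0:ℝ)..(2 * π), ee G ρ (ga G q t) (ga' G q t) (w t) (w' t)) -
      (s * SV.ix G q 0 (2 * π) (PF G q w) (PF' G q w w') (PF G q b) (PF' G q b b') +
        s ^ 2 / 2 * SV.ix G q 0 (2 * π) (PF G q b) (PF' G q b b') (PF G q b) (PF' G q b b')) =
      ∫ t in (0:ℝ)..(2 * π), ((ee G ρ (ga G q t) (ga' G q t) (w t + s • b t) (w' t + s • b' t) -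
        ee G ρ (ga G q t) (ga' G q t) (w t) (w' t)) -
        (s * SV.ixd G q (PF G q w) (PF' G q w w') (PF G q b) (PF' G q b b') t +
        s ^ 2 / 2 * SV.ixd G q (PF G q b) (PF' G q b b') (PF G q b) (PF' G q b b') t)) := by
    rw [intervalIntegral.integral_sub ((c1.intervalIntegrable _ _).sub
        (c0.intervalIntegrable _ _)) ((hWB.const_mul s).add (hBB.const_mul (s ^ 2 / 2))),
      intervalIntegral.integral_sub (c1.intervalIntegrable _ _) (c0.intervalIntegrable _ _),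
      intervalIntegral.integral_add (hWB.const_mul s) (hBB.const_mul (s ^ 2 / 2)),
      intervalIntegral.integral_const_mul, intervalIntegral.integral_const_mul]
    simp only [SV.ix]
    ring
  rw [e1, ← Real.norm_eq_abs]
  have hsum : Continuous fun t => ‖w t‖ ^ 2 + ‖w' t‖ ^ 2 + ‖b t‖ ^ 2 + ‖b' t‖ ^ 2 := by
    fun_prop
  refine (intervalIntegral.norm_integral_le_of_norm_le
    (g := fun t => 288 * C ^ 5 * η * s * (‖w t‖ ^ 2 + ‖w' t‖ ^ 2 + ‖b t‖ ^ 2 + ‖b' t‖ ^ 2))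
    (by positivity) (ae_of_all _ fun t _ => ?_)
    ((hsum.const_mul _).intervalIntegrable _ _)).trans
    (le_of_eq (intervalIntegral.integral_const_mul _ _))
  rw [Real.norm_eq_abs]
  have h2 := ee_diff (w' := w' t) (b' := b' t) hc (ga_mem hq t) (ga'_mem hq t)
    (by rw [norm_fl G hq t, hq1]) (hCη t) h0 h1
  refine (le_of_eq ?_).trans (h2.trans ?_)
  · rfl
  · have n1 := norm_nonneg (w t)
    have n2 := norm_nonneg (w' t)
    have n3 := norm_nonneg (b t)
    have n4 := norm_nonneg (b' t)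
    have k1 : (‖w t‖ + ‖w' t‖ + ‖b t‖ + ‖b' t‖) ^ 2 ≤
        4 * (‖w t‖ ^ 2 + ‖w' t‖ ^ 2 + ‖b t‖ ^ 2 + ‖b' t‖ ^ 2) := by
      nlinarith [sq_nonneg (‖w t‖ - ‖w' t‖), sq_nonneg (‖w t‖ - ‖b t‖),
        sq_nonneg (‖w t‖ - ‖b' t‖), sq_nonneg (‖w' t‖ - ‖b t‖), sq_nonneg (‖w' t‖ - ‖b' t‖),
        sq_nonneg (‖b t‖ - ‖b' t‖)]
    have k2 : (‖w t‖ + ‖b t‖) * (‖w t‖ + ‖w' t‖ + ‖b t‖ + ‖b' t‖) ^ 2 ≤
        η * (4 * (‖w t‖ ^ 2 + ‖w' t‖ ^ 2 + ‖b t‖ ^ 2 + ‖b' t‖ ^ 2)) :=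
      mul_le_mul (hη t) k1 (by positivity) hη0
    calc 72 * C ^ 5 * s * ((‖w t‖ + ‖b t‖) * (‖w t‖ + ‖w' t‖ + ‖b t‖ + ‖b' t‖) ^ 2)
        ≤ 72 * C ^ 5 * s * (η * (4 * (‖w t‖ ^ 2 + ‖w' t‖ ^ 2 + ‖b t‖ ^ 2 + ‖b' t‖ ^ 2))) :=
          mul_le_mul_of_nonneg_left k2 (by positivity)
      _ = _ := by ring

end Crest.Agent.R208.NG
end
end

-- ▼ part R208/NG5
section

/-!
R208, block NG (helper131), part NG5: (U3) the energy along the segment from a loop `c` of energy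
`≤ π` near the closed geodesic `ga z` to `ρ (ga z + 2 fd n)`.
-/

set_option autoImplicit false

open Set Filter Topology MeasureTheory
open scoped ContDiff RealInnerProductSpace Real
open Crest.GeometryTopology.Submanifold
open Crest.Agent.R241.DDefs Crest.Agent.R241.D Crest.Agent.R241.D2
open Crest.Agent.R208.MS (exists_unif P_self P_mem Retr En Loop)
open Crest.Agent.R208.NN (Wt fd fd' nuP hasDerivAt_fd continuous_fd' fd_mem fld_fd)
open Crest.Agent.R208.NB (NegB npr)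

noncomputable section

namespace Crest.Agent.R208.NG

variable {n N k K : ℕ} {κ : ℝ} {S : Set (Euc N)} {G : Geo n N κ S} {ρ : Euc N → Euc N} {δ C : ℝ}
  {z : Euc N × Euc N}

/-- deviation from the geodesic -/
def dv (G : Geo n N κ S) (z : Euc N × Euc N) (c : ℝ → Euc N) (t : ℝ) : Euc N := c t - ga G z t

/-- its derivative -/
def dv' (G : Geo n N κ S) (z : Euc N × Euc N) (c : ℝ → Euc N) (t : ℝ) : Euc N :=
  deriv c t - ga' G z t

theorem hda_dv (hz : z ∈ TS G) {c : ℝ → Euc N} (hc : Loop S c) (t : ℝ) :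
    HasDerivAt (dv G z c) (dv' G z c t) t := (hc.hasDerivAt t).sub (hda_ga hz t)

theorem cont_dv' (hz : z ∈ TS G) {c : ℝ → Euc N} (hc : Loop S c) : Continuous (dv' G z c) :=
  hc.continuous_deriv.sub (cont_ga' hz)

theorem cont_dv (hz : z ∈ TS G) {c : ℝ → Euc N} (hc : Loop S c) : Continuous (dv G z c) :=
  continuous_iff_continuousAt.2 fun t => (hda_dv hz hc t).continuousAt

theorem dv_per (hper : fl G (z, 2 * π) = z) {c : ℝ → Euc N} (hc : Loop S c) :
    dv G z c (2 * π) = dv G z c 0 := by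
  have h1 := hc.per 0
  rw [zero_add] at h1
  rw [dv, dv, h1, ga, ga, hper, fl_zero]

/-- size of the deviation -/
theorem norm_dv_sub (hc : Cst G ρ δ C) (hz : z ∈ TS G) {c : ℝ → Euc N} (hL : Loop S c) {t : ℝ}
    (ht : ‖dv G z c t‖ < δ) : ‖dv G z c t - PF G z (dv G z c) t‖ ≤ C * ‖dv G z c t‖ ^ 2 := by
  have h1 := hc.t0 _ (ga_mem hz t) (c t) ht
  rw [hc.eq _ (hL.mem t)] at h1
  exact h1

theorem norm_dv'_sub (hc : Cst G ρ δ C) (hz : z ∈ TS G) (hz1 : ‖z.2‖ = 1) {c : ℝ → Euc N}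
    (hL : Loop S c) {t : ℝ} (ht : ‖dv G z c t‖ < δ) :
    ‖dv' G z c t - PF' G z (dv G z c) (dv' G z c) t‖ ≤
      C * ‖dv G z c t‖ ^ 2 + C * ‖dv G z c t‖ * ‖dv' G z c t‖ := by
  have h1 := uu'_sub (w := dv G z c t) (w' := dv' G z c t) hc (ga_mem hz t) (ga'_mem hz t)
    (by rw [norm_fl G hz t, hz1]) ht
  have e1 : ga G z t + dv G z c t = c t := by simp only [dv]; abel
  have e2 : ga' G z t + dv' G z c t = deriv c t := by simp only [dv']; abel
  have h2 : deriv c t ∈ G.T (c t) :=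
    G.deriv_mem c _ t (Eventually.of_forall hL.mem) (hL.hasDerivAt t)
  have e3 : uu' ρ (ga G z t) (ga' G z t) (dv G z c t) (dv' G z c t) = dv' G z c t := by
    rw [uu', e1, e2, hc.fd _ (hL.mem t), P_self (hL.mem t) h2]
    rfl
  rw [e3] at h1
  exact h1

/-- the deviation is controlled by its tangential part -/
theorem dv_le (hc : Cst G ρ δ C) (hz : z ∈ TS G) (hz1 : ‖z.2‖ = 1) {c : ℝ → Euc N}
    (hL : Loop S c) {t : ℝ} (ht : ‖dv G z c t‖ < δ) (ht4 : C * ‖dv G z c t‖ ≤ 1 / 4) :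
    ‖dv G z c t‖ ^ 2 + ‖dv' G z c t‖ ^ 2 ≤
      8 * (‖PF G z (dv G z c) t‖ ^ 2 + ‖PF' G z (dv G z c) (dv' G z c) t‖ ^ 2) := by
  have h1 := norm_dv_sub hc hz hL ht
  have h2 := norm_dv'_sub hc hz hz1 hL ht
  set a := ‖dv G z c t‖ with ha
  set b := ‖dv' G z c t‖ with hb
  set A := ‖PF G z (dv G z c) t‖ with hA
  set B := ‖PF' G z (dv G z c) (dv' G z c) t‖ with hB
  have n1 : 0 ≤ a := norm_nonneg _
  have n2 : 0 ≤ b := norm_nonneg _
  have n3 : 0 ≤ A := norm_nonneg _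
  have n4 : 0 ≤ B := norm_nonneg _
  have h3 : a ≤ A + C * a ^ 2 := by
    have : a ≤ A + ‖dv G z c t - PF G z (dv G z c) t‖ := by
      rw [ha, hA]
      have := norm_add_le (PF G z (dv G z c) t) (dv G z c t - PF G z (dv G z c) t)
      simpa using this
    linarith
  have h4 : b ≤ B + (C * a ^ 2 + C * a * b) := by
    have : b ≤ B + ‖dv' G z c t - PF' G z (dv G z c) (dv' G z c) t‖ := by
      rw [hb, hB]
      have := norm_add_le (PF' G z (dv G z c) (dv' G z c) t)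
        (dv' G z c t - PF' G z (dv G z c) (dv' G z c) t)
      simpa using this
    linarith
  have h5 : C * a ^ 2 ≤ a / 4 := by
    have : C * a ^ 2 = (C * a) * a := by ring
    rw [this]
    nlinarith
  have h6 : C * a * b ≤ b / 4 := by nlinarith
  have h7 : a + b ≤ 2 * (A + B) := by linarith
  have h8 : (a + b) ^ 2 ≤ (2 * (A + B)) ^ 2 := pow_le_pow_left₀ (by positivity) h7 2
  nlinarith [sq_nonneg (A - B), mul_nonneg n1 n2]

section fdfields

theorem PF_fd (hz : z ∈ TS G) (m : Wt N K) : PF G z (fd G z (nuP K) m) = fd G z (nuP K) m := by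
  funext t
  exact P_self (ga_mem hz t) (fd_mem hz (nuP K) m t)

theorem PF'_fd (hz : z ∈ TS G) (m : Wt N K) :
    PF' G z (fd G z (nuP K) m) (fd' G z (nuP K) m) = fd' G z (nuP K) m := by
  funext t
  have h1 := hda_PF (w := fd G z (nuP K) m) (w' := fd' G z (nuP K) m) hz
    (hasDerivAt_fd hz (nuP K) m t)
  rw [PF_fd hz m] at h1
  exact h1.unique (hasDerivAt_fd hz (nuP K) m t)

end fdfields


variable (h : GT.Bla G k) {δN : ℝ} {PN : Euc N × Euc N → Wt N K →L[ℝ] Wt N K}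
  (H : NegB G (k - 1) (nuP K) δN PN)

/-- energy of the standard loops -/
theorem exists_std (h : GT.Bla G k) {δN : ℝ} {PN : Euc N × Euc N → Wt N K →L[ℝ] Wt N K}
    (H : NegB G (k - 1) (nuP K) δN PN) (hc : Cst G ρ δ C) :
    ∃ r₀ > 0, (∀ z ∈ L.US G, ∀ m : Wt N K, ‖m‖ ≤ r₀ → ∀ t, ‖fd G z (nuP K) m t‖ < δ) ∧
      ∀ z ∈ L.US G, ∀ m : Wt N K, PN z m = m → ‖m‖ ≤ r₀ →
      En (fun t => ρ (ga G z t + fd G z (nuP K) m t)) ≤ π - δN / 4 * ‖m‖ ^ 2 := by
  obtain ⟨Cf, hCf0, hCf⟩ := NB.exists_bound_fd h.bl.cpt G (nuP K : Fin K → ℝ)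
  have hC := hc.one
  have hδ := hc.pos
  have hδN := H.pos_δ
  set B := 288 * C ^ 5 * Cf * (2 * Cf ^ 2 * (2 * π)) with hB
  have hB0 : 0 ≤ B := by positivity
  refine ⟨min (δ / (2 * C * (Cf + 1))) (δN / (4 * (B + 1))), by positivity,
    fun z hz m hm t => ?_, fun z hz m hmm hm => ?_⟩
  · have h1 := (hCf z hz m t).1
    have h2 : ‖m‖ ≤ δ / (2 * C * (Cf + 1)) := hm.trans (min_le_left _ _)
    rw [le_div_iff₀ (by positivity)] at h2
    have h3 := norm_nonneg m
    nlinarith [mul_nonneg h3 hCf0, mul_nonneg (mul_nonneg h3 hCf0) (by linarith : 0 ≤ C - 1),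
      mul_nonneg h3 (by linarith : 0 ≤ C - 1)]
  · have h2 : ‖m‖ ≤ δ / (2 * C * (Cf + 1)) := hm.trans (min_le_left _ _)
    rw [le_div_iff₀ (by positivity)] at h2
    have h2' : ‖m‖ ≤ δN / (4 * (B + 1)) := hm.trans (min_le_right _ _)
    rw [le_div_iff₀ (by positivity)] at h2'
    have h3 := norm_nonneg m
    have hpi : (0:ℝ) ≤ 2 * π := by positivity
    have hfl := NN.fl_two_pi h hz
    have k1 : C * (Cf * ‖m‖) < δ := by
      have e1 : ‖m‖ * (2 * C * (Cf + 1)) = 2 * (C * (Cf * ‖m‖)) + 2 * (C * ‖m‖) := by ring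
      have e2 : 0 ≤ C * (Cf * ‖m‖) := by positivity
      have e3 : 0 ≤ C * ‖m‖ := by positivity
      by_contra hcon
      push Not at hcon
      linarith
    have k2 := en_diff (G := G) (q := z) (w := fun _ => 0) (w' := fun _ => 0)
      (b := fd G z (nuP K) m) (b' := fd' G z (nuP K) m) (η := Cf * ‖m‖) hc hz.1 hz.2 hfl
      (fun t => hasDerivAt_const t 0) continuous_const rfl
      (fun t => hasDerivAt_fd hz.1 (nuP K) m t) (continuous_fd' hz.1 (nuP K) m)
      (NN.fd_two_pi h hz m) (fun t => by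
        rw [norm_zero, zero_add]; exact (hCf z hz m t).1) k1 (s := 1) zero_le_one le_rfl
    have e0 : (fun t => ρ (ga G z t + ((fun _ => (0 : Euc N)) t + (1:ℝ) • fd G z (nuP K) m t))) =
        fun t => ρ (ga G z t + fd G z (nuP K) m t) := by
      funext t; simp
    have e1 : (fun t => ρ (ga G z t + (fun _ => (0 : Euc N)) t)) = ga G z := by
      funext t
      simp only [add_zero]
      exact hc.eq _ (ga_mem hz.1 t)
    have e2 : En (ga G z) = π := by
      have : ∀ t, deriv (ga G z) t = ga' G z t := fun t => (hda_ga hz.1 t).deriv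
      simp only [En, this, norm_fl G hz.1, hz.2]
      simp
    have e3 : PF G z (fun _ => (0 : Euc N)) = 0 := by
      funext t; simp [PF]
    have e4 : PF' G z (fun _ => (0 : Euc N)) (fun _ => (0 : Euc N)) = 0 := by
      funext t; simp [PF', pd]
    have e5 : SV.ix G z 0 (2 * π) (0 : ℝ → Euc N) 0 (fd G z (nuP K) m) (fd' G z (nuP K) m) = 0 := by
      have := SV.ix_smul_left (G := G) (q := z) (a := 0) (b := 2 * π) (A := (0 : ℝ → Euc N))
        (A' := 0) (C := fd G z (nuP K) m) (C' := fd' G z (nuP K) m) 0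
      simpa using this
    rw [e0, e1, e2, e3, e4, PF_fd hz.1, PF'_fd hz.1, e5] at k2
    have k3 := H.ix_neg hz hmm
    have k4 : (∫ t in (0:ℝ)..(2 * π), (‖(fun _ => (0 : Euc N)) t‖ ^ 2 +
        ‖(fun _ => (0 : Euc N)) t‖ ^ 2 + ‖fd G z (nuP K) m t‖ ^ 2 +
        ‖fd' G z (nuP K) m t‖ ^ 2)) ≤ 2 * Cf ^ 2 * (2 * π) * ‖m‖ ^ 2 := by
      have hcf : Continuous (fd G z (nuP K) m) := continuous_iff_continuousAt.2 fun t =>
        (hasDerivAt_fd hz.1 (nuP K) m t).continuousAt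
      have hcf' := continuous_fd' hz.1 (nuP K) m
      have := intervalIntegral.integral_mono_on (a := 0) (b := 2 * π) (μ := volume) hpi
        (f := fun t => (‖(fun _ => (0 : Euc N)) t‖ ^ 2 +
        ‖(fun _ => (0 : Euc N)) t‖ ^ 2 + ‖fd G z (nuP K) m t‖ ^ 2 +
        ‖fd' G z (nuP K) m t‖ ^ 2)) (g := fun _ => 2 * Cf ^ 2 * ‖m‖ ^ 2)
        (by
          refine Continuous.intervalIntegrable ?_ _ _
          fun_prop) intervalIntegrable_const (fun t _ => by
          have l1 := pow_le_pow_left₀ (norm_nonneg _) (hCf z hz m t).1 2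
          have l2 := pow_le_pow_left₀ (norm_nonneg _) (hCf z hz m t).2.1 2
          simp only [norm_zero]
          nlinarith)
      refine this.trans (le_of_eq ?_)
      rw [intervalIntegral.integral_const, smul_eq_mul]
      ring
    have k5 : 288 * C ^ 5 * (Cf * ‖m‖) * 1 * (∫ t in (0:ℝ)..(2 * π),
        (‖(fun _ => (0 : Euc N)) t‖ ^ 2 +
        ‖(fun _ => (0 : Euc N)) t‖ ^ 2 + ‖fd G z (nuP K) m t‖ ^ 2 +
        ‖fd' G z (nuP K) m t‖ ^ 2)) ≤ B * ‖m‖ * ‖m‖ ^ 2 := by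
      refine (mul_le_mul_of_nonneg_left k4 (by positivity)).trans (le_of_eq ?_)
      rw [hB]; ring
    have k6 : B * ‖m‖ * ‖m‖ ^ 2 ≤ δN / 4 * ‖m‖ ^ 2 := by
      refine mul_le_mul_of_nonneg_right ?_ (by positivity)
      nlinarith
    have k7 := (abs_le.1 (k2.trans k5)).2
    nlinarith

end Crest.Agent.R208.NG
end
end

-- ▼ part R208/NG6
section

/-!
R208, block NG (helper131), part NG6: (U3), main theorem: coercivity of the index form gives
`‖w‖_{H¹} ≤ C ‖n‖` for loops of energy `≤ π` near the closed geodesics, and the energy decreases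
along the segment to `ρ (ga z + 2 fd n)`.
-/

set_option autoImplicit false

open Set Filter Topology MeasureTheory
open scoped ContDiff RealInnerProductSpace Real
open Crest.GeometryTopology.Submanifold
open Crest.Agent.R241.DDefs Crest.Agent.R241.D Crest.Agent.R241.D2
open Crest.Agent.R208.MS (exists_unif P_self P_mem Retr En Loop)
open Crest.Agent.R208.NN (Wt fd fd' nuP hasDerivAt_fd continuous_fd' fd_mem fld_fd)
open Crest.Agent.R208.NB (NegB npr)

noncomputable section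

namespace Crest.Agent.R208.NG

variable {n N k K : ℕ} {κ : ℝ} {S : Set (Euc N)} {G : Geo n N κ S} {ρ : Euc N → Euc N} {δ C : ℝ}
  {z : Euc N × Euc N}

/-- the `N`-component of the deviation -/
def nn (G : Geo n N κ S) (K : ℕ) (δN : ℝ) (PN : Euc N × Euc N → Wt N K →L[ℝ] Wt N K)
    (z : Euc N × Euc N) (c : ℝ → Euc N) : Wt N K :=
  npr G (nuP K) δN PN z (PF G z (dv G z c))

/-- coercivity at the loop `c` with base geodesic `z` -/
def Coer (G : Geo n N κ S) (K : ℕ) (δN : ℝ) (PN : Euc N × Euc N → Wt N K →L[ℝ] Wt N K)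
    (c0 C1 : ℝ) (z : Euc N × Euc N) (c : ℝ → Euc N) : Prop :=
  c0 * (∫ t in (0:ℝ)..(2 * π), (‖PF G z (dv G z c) t‖ ^ 2 +
      ‖PF' G z (dv G z c) (dv' G z c) t‖ ^ 2)) ≤
    SV.ix G z 0 (2 * π) (PF G z (dv G z c)) (PF' G z (dv G z c) (dv' G z c))
      (PF G z (dv G z c)) (PF' G z (dv G z c) (dv' G z c)) +
    C1 * ‖nn G K δN PN z c‖ ^ 2

/-- the segment -/
def sg (G : Geo n N κ S) (K : ℕ) (ρ : Euc N → Euc N) (δN : ℝ)
    (PN : Euc N × Euc N → Wt N K →L[ℝ] Wt N K)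
    (z : Euc N × Euc N) (c : ℝ → Euc N) (s t : ℝ) : Euc N :=
  ρ (ga G z t + (dv G z c t + s • ((2:ℝ) • fd G z (nuP K) (nn G K δN PN z c) t - dv G z c t)))

theorem norm_two_sub_sq (x y : Euc N) : ‖(2:ℝ) • x - y‖ ^ 2 ≤ 8 * ‖x‖ ^ 2 + 2 * ‖y‖ ^ 2 := by
  have k2 := norm_sub_le ((2:ℝ) • x) y
  rw [norm_smul, Real.norm_of_nonneg (by norm_num : (0:ℝ) ≤ 2)] at k2
  have k3 := pow_le_pow_left₀ (norm_nonneg _) k2 2
  nlinarith [sq_nonneg (2 * ‖x‖ - ‖y‖)]

theorem aux_s {s : ℝ} (h0 : 0 ≤ s) (h1 : s ≤ 1) : 0 ≤ s - s ^ 2 / 2 := by nlinarith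

theorem aux_F {s X Y : ℝ} (h0 : 0 ≤ s) (hX : X ≤ -Y) (hY : 0 ≤ Y) :
    (s + s ^ 2 / 2) * X ≤ -(s * Y) := by
  have h1 : (s + s ^ 2 / 2) * X ≤ (s + s ^ 2 / 2) * (-Y) :=
    mul_le_mul_of_nonneg_left hX (by positivity)
  have h2 : 0 ≤ s ^ 2 / 2 * Y := by positivity
  linarith

set_option maxHeartbeats 1000000 in
theorem near_energy (h : GT.Bla G k) {δN : ℝ} {PN : Euc N × Euc N → Wt N K →L[ℝ] Wt N K}
    (H : NegB G (k - 1) (nuP K) δN PN) (hc : Cst G ρ δ C) {c0 C1 : ℝ} (hc0 : 0 < c0)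
    (hC1 : 0 ≤ C1) :
    ∃ η₀ > 0, ∃ C₂ ≥ 0, ∀ z ∈ L.US G, ∀ c, Loop S c → (∀ t, ‖dv G z c t‖ ≤ η₀) →
      En c ≤ π → Coer G K δN PN c0 C1 z c →
      (∫ t in (0:ℝ)..(2 * π), (‖dv G z c t‖ ^ 2 + ‖dv' G z c t‖ ^ 2)) ≤
        C₂ * ‖nn G K δN PN z c‖ ^ 2 ∧
      ∀ s, 0 ≤ s → s ≤ 1 →
        En (sg G K ρ δN PN z c s) ≤ En c - δN / 2 * s * ‖nn G K δN PN z c‖ ^ 2 := by
  obtain ⟨Cf, hCf0, hCf⟩ := NB.exists_bound_fd h.bl.cpt G (nuP K : Fin K → ℝ)
  obtain ⟨Cn, hCn0, hCn⟩ := H.exists_bound_npr h.bl.cpt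
  have hC := hc.one
  have hδ := hc.pos
  have hδN := H.pos_δ
  have hpi : (0:ℝ) ≤ 2 * π := by positivity
  set C4 := 2 + 2 * Cf * (Cn * (2 * π)) with hC4
  have hC4' : 2 ≤ C4 := by rw [hC4]; linarith [show 0 ≤ 2 * Cf * (Cn * (2 * π)) by positivity]
  set C2 := 16 * C1 / c0 with hC2
  have hC2' : 0 ≤ C2 := by positivity
  set C5 := 3 * C2 + 16 * Cf ^ 2 * (2 * π) with hC5
  have hC5' : 0 ≤ C5 := by positivity
  set η₀ := min (min (δ / (2 * C * C4)) (1 / (4 * C)))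
    (min (c0 / (2 * 18432 * C ^ 5)) (δN / (2 * (288 * C ^ 5 * C4 * (C5 + 1))))) with hη₀
  have hη0 : 0 < η₀ := by
    rw [hη₀]
    positivity
  have b1 : η₀ * (2 * C * C4) ≤ δ := by
    rw [← le_div_iff₀ (by positivity)]
    exact (min_le_left _ _).trans (min_le_left _ _)
  have b2 : η₀ * (4 * C) ≤ 1 := by
    rw [← le_div_iff₀ (by positivity)]
    exact (min_le_left _ _).trans (min_le_right _ _)
  have b3 : η₀ * (2 * 18432 * C ^ 5) ≤ c0 := by
    rw [← le_div_iff₀ (by positivity)]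
    exact (min_le_right _ _).trans (min_le_left _ _)
  have b4 : η₀ * (2 * (288 * C ^ 5 * C4 * (C5 + 1))) ≤ δN := by
    rw [← le_div_iff₀ (by positivity)]
    exact (min_le_right _ _).trans (min_le_right _ _)
  have b1' : C * (C4 * η₀) < δ := by
    have : 0 < C * (C4 * η₀) := by positivity
    have e : η₀ * (2 * C * C4) = 2 * (C * (C4 * η₀)) := by ring
    linarith
  have b0 : η₀ < δ := by
    have e1 : η₀ ≤ C * (C4 * η₀) := by
      have : 1 ≤ C * C4 := by nlinarith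
      nlinarith
    linarith
  refine ⟨η₀, hη0, C2, hC2', fun z hz c hL hη hE hco => ?_⟩
  have hfl := NN.fl_two_pi h hz
  set w := dv G z c with hw
  set w' := dv' G z c with hw'
  set W := PF G z w with hW
  set W' := PF' G z w w' with hW'
  set m := nn G K δN PN z c with hm
  have hwd : ∀ t, HasDerivAt w (w' t) t := fun t => hda_dv hz.1 hL t
  have hwc : Continuous w := cont_dv hz.1 hL
  have hwc' : Continuous w' := cont_dv' hz.1 hL
  have hwp : w (2 * π) = w 0 := dv_per hfl hL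
  have hWf : SV.Fld G z 0 (2 * π) W W' := fld_PF hz.1 hwd hwc' 0 (2 * π)
  have hWp : W (2 * π) = W 0 := by
    simp only [hW, PF, hwp]
    rw [ga, ga, hfl, fl_zero]
  have hWc : Continuous W := continuous_iff_continuousAt.2 fun t =>
    (hda_PF hz.1 (hwd t)).continuousAt
  have hWc' : Continuous W' := cont_PF' hz.1 hwc hwc'
  -- `ρ (ga + w) = c`
  have hρc : (fun t => ρ (ga G z t + w t)) = c := by
    funext t
    have : ga G z t + w t = c t := by simp only [hw, dv]; abel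
    rw [this, hc.eq _ (hL.mem t)]
  have hgaE : En (ga G z) = π := by
    have : ∀ t, deriv (ga G z) t = ga' G z t := fun t => (hda_ga hz.1 t).deriv
    simp only [En, this, norm_fl G hz.1, hz.2]
    simp
  set HH := ∫ t in (0:ℝ)..(2 * π), (‖w t‖ ^ 2 + ‖w' t‖ ^ 2) with hHH
  set HW := ∫ t in (0:ℝ)..(2 * π), (‖W t‖ ^ 2 + ‖W' t‖ ^ 2) with hHW
  have hHW0 : 0 ≤ HW := intervalIntegral.integral_nonneg hpi fun t _ => by positivity
  have hHle : HH ≤ 8 * HW := by
    rw [hHH, hHW, ← intervalIntegral.integral_const_mul]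
    refine intervalIntegral.integral_mono_on hpi (Continuous.intervalIntegrable (by fun_prop) _ _)
      (Continuous.intervalIntegrable (by fun_prop) _ _) fun t _ => ?_
    refine dv_le hc hz.1 hz.2 hL ((hη t).trans_lt b0) ?_
    have := mul_le_mul_of_nonneg_left (hη t) (by linarith : 0 ≤ C)
    linarith
  -- the index form of `W`
  have hIW : SV.ix G z 0 (2 * π) W W' W W' ≤ 2304 * C ^ 5 * η₀ * HH := by
    have k := en_diff (G := G) (q := z) (w := w) (w' := w') (b := -w) (b' := -w')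
      (η := 2 * η₀) hc hz.1 hz.2 hfl hwd hwc' hwp (fun t => (hwd t).neg) hwc'.neg
      (by simp only [Pi.neg_apply, hwp])
      (fun t => by rw [Pi.neg_apply, norm_neg]; linarith [hη t])
      (lt_of_le_of_lt (mul_le_mul_of_nonneg_left
        (mul_le_mul_of_nonneg_right hC4' hη0.le) (by linarith)) b1')
      (s := 1) zero_le_one le_rfl
    have e0 : (fun t => ρ (ga G z t + (w t + (1:ℝ) • (-w) t))) = ga G z := by
      funext t
      simp only [Pi.neg_apply, one_smul, add_neg_cancel, add_zero]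
      exact hc.eq _ (ga_mem hz.1 t)
    have e1 : PF G z (-w) = (-1 : ℝ) • W := by
      funext t
      simp [PF, hW]
    have e2 : PF' G z (-w) (-w') = (-1 : ℝ) • W' := by
      funext t
      simp only [PF', pd, hW', Pi.neg_apply, map_neg, Pi.smul_apply, neg_smul, one_smul, neg_add]
    have e3 : (∫ t in (0:ℝ)..(2 * π), (‖w t‖ ^ 2 + ‖w' t‖ ^ 2 + ‖(-w) t‖ ^ 2 + ‖(-w') t‖ ^ 2)) =
        2 * HH := by
      rw [hHH, ← intervalIntegral.integral_const_mul]
      refine intervalIntegral.integral_congr fun t _ => ?_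
      simp only [Pi.neg_apply, norm_neg]
      ring
    rw [e0, hρc, hgaE, e1, e2, e3, SV.ix_smul_right, SV.ix_smul_left, SV.ix_smul_right] at k
    rw [← hW, ← hW'] at k
    have k1 := (abs_le.1 k).2
    linarith
  have hHWn : HW ≤ 2 * C1 / c0 * ‖m‖ ^ 2 := by
    have k1 : c0 * HW ≤ SV.ix G z 0 (2 * π) W W' W W' + C1 * ‖m‖ ^ 2 := hco
    have k2 : 2304 * C ^ 5 * η₀ * HH ≤ c0 / 2 * HW := by
      have : 2304 * C ^ 5 * η₀ * HH ≤ 2304 * C ^ 5 * η₀ * (8 * HW) :=
        mul_le_mul_of_nonneg_left hHle (by positivity)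
      refine this.trans ?_
      have e : 2304 * C ^ 5 * η₀ * (8 * HW) = (η₀ * (2 * 18432 * C ^ 5)) / 2 * HW := by ring
      rw [e]
      exact mul_le_mul_of_nonneg_right (by linarith) hHW0
    have k3 : c0 / 2 * HW ≤ C1 * ‖m‖ ^ 2 := by linarith
    have k4 : HW = (2 / c0) * (c0 / 2 * HW) := by field_simp
    rw [k4]
    calc (2 / c0) * (c0 / 2 * HW) ≤ (2 / c0) * (C1 * ‖m‖ ^ 2) :=
          mul_le_mul_of_nonneg_left k3 (by positivity)
      _ = 2 * C1 / c0 * ‖m‖ ^ 2 := by ring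
  have hHHn : HH ≤ C2 * ‖m‖ ^ 2 := by
    calc HH ≤ 8 * HW := hHle
      _ ≤ 8 * (2 * C1 / c0 * ‖m‖ ^ 2) := by linarith
      _ = C2 * ‖m‖ ^ 2 := by rw [hC2]; ring
  refine ⟨hHHn, fun s h0 h1 => ?_⟩
  -- the segment
  obtain ⟨hmm, hVf, hVm, hVV, hWW⟩ := H.decomp h hz hWf hWp (w := m) rfl
  set F := fd G z (nuP K) m with hF
  set F' := fd' G z (nuP K) m with hF'
  set V := W - F with hV
  set V' := W' - F' with hV'
  have hFf : SV.Fld G z 0 (2 * π) F F' := fld_fd hz.1 (nuP K) m 0 (2 * π)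
  have hFc : Continuous F := continuous_iff_continuousAt.2 fun t =>
    (hasDerivAt_fd hz.1 (nuP K) m t).continuousAt
  have hFc' : Continuous F' := continuous_fd' hz.1 (nuP K) m
  have hmn : ‖m‖ ≤ Cn * (2 * π) * η₀ := by
    refine (hCn z hz W hWc.continuousOn).trans ?_
    rw [mul_assoc]
    refine mul_le_mul_of_nonneg_left ?_ hCn0
    have := intervalIntegral.integral_mono_on hpi (f := fun t => ‖W t‖) (g := fun _ => η₀)
      (hWc.norm.intervalIntegrable (μ := volume) 0 (2 * π)) intervalIntegrable_const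
      (fun t _ => (norm_P_le (ga_mem hz.1 t) _).trans (hη t))
    rw [intervalIntegral.integral_const, smul_eq_mul, sub_zero] at this
    exact this
  set b : ℝ → Euc N := fun t => (2:ℝ) • F t - w t with hb
  set b' : ℝ → Euc N := fun t => (2:ℝ) • F' t - w' t with hb'
  have hηb : ∀ t, ‖w t‖ + ‖b t‖ ≤ C4 * η₀ := by
    intro t
    have k1 : ‖b t‖ ≤ 2 * (Cf * ‖m‖) + ‖w t‖ := by
      refine (norm_sub_le _ _).trans ?_
      rw [norm_smul, Real.norm_of_nonneg (by norm_num : (0:ℝ) ≤ 2)]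
      linarith [(hCf z hz m t).1]
    have k2 : Cf * ‖m‖ ≤ Cf * (Cn * (2 * π) * η₀) := mul_le_mul_of_nonneg_left hmn hCf0
    have k3 := hη t
    have k4 : C4 * η₀ = 2 * η₀ + 2 * (Cf * (Cn * (2 * π) * η₀)) := by rw [hC4]; ring
    rw [k4]
    linarith
  have k := en_diff (G := G) (q := z) (w := w) (w' := w') (b := b) (b' := b')
      (η := C4 * η₀) hc hz.1 hz.2 hfl hwd hwc' hwp
      (fun t => ((hasDerivAt_fd hz.1 (nuP K) m t).const_smul (2:ℝ)).sub (hwd t))
      ((hFc'.const_smul (2:ℝ)).sub hwc')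
      (by
        simp only [hb, hwp]
        rw [hF, NN.fd_two_pi h hz m]) hηb b1' h0 h1
  have e1 : PF G z b = F - V := by
    funext t
    have : G.P (ga G z t) (F t) = F t := congrFun (PF_fd hz.1 m) t
    simp only [PF, hb, map_sub, map_smul, this, hV, Pi.sub_apply, hW]
    module
  have e2 : PF' G z b b' = F' - V' := by
    funext t
    have : PF' G z F F' t = F' t := congrFun (PF'_fd hz.1 m) t
    have e3 : PF' G z b b' t = (2:ℝ) • PF' G z F F' t - W' t := by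
      simp only [PF', pd, hb, hb', map_sub, map_smul, hW']
      module
    rw [e3, this]
    simp only [hV', Pi.sub_apply]
    module
  have hWVF : W = V + F := by rw [hV]; abel
  have hWVF' : W' = V' + F' := by rw [hV']; abel
  have hVF : SV.ix G z 0 (2 * π) V V' F F' = 0 := hVm m hmm
  have hFV : SV.ix G z 0 (2 * π) F F' V V' = 0 := by
    rw [SV.ix_symm hpi hz.1 hFf hVf]; exact hVF
  have e3 : SV.ix G z 0 (2 * π) W W' (F - V) (F' - V') =
      SV.ix G z 0 (2 * π) F F' F F' - SV.ix G z 0 (2 * π) V V' V V' := by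
    rw [hWVF, hWVF', SV.ix_add_left hpi hz.1 hVf hFf (hFf.sub hVf),
      SV.ix_sub_right hpi hz.1 hVf hFf hVf, SV.ix_sub_right hpi hz.1 hFf hFf hVf, hVF, hFV]
    ring
  have e4 : SV.ix G z 0 (2 * π) (F - V) (F' - V') (F - V) (F' - V') =
      SV.ix G z 0 (2 * π) F F' F F' + SV.ix G z 0 (2 * π) V V' V V' := by
    rw [SV.ix_sub_left hpi hz.1 hFf hVf (hFf.sub hVf),
      SV.ix_sub_right hpi hz.1 hVf hFf hVf, SV.ix_sub_right hpi hz.1 hFf hFf hVf, hVF, hFV]
    ring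
  have hFF := H.ix_neg hz hmm
  have e5 : (∫ t in (0:ℝ)..(2 * π), (‖w t‖ ^ 2 + ‖w' t‖ ^ 2 + ‖b t‖ ^ 2 + ‖b' t‖ ^ 2)) ≤
      C5 * ‖m‖ ^ 2 := by
    have k1 := intervalIntegral.integral_mono_on (a := 0) (b := 2 * π) (μ := volume) hpi
      (f := fun t => (‖w t‖ ^ 2 + ‖w' t‖ ^ 2 + ‖b t‖ ^ 2 + ‖b' t‖ ^ 2))
      (g := fun t => 3 * (‖w t‖ ^ 2 + ‖w' t‖ ^ 2) + 16 * Cf ^ 2 * ‖m‖ ^ 2)
      (Continuous.intervalIntegrable (by fun_prop) _ _)
      (Continuous.intervalIntegrable (by fun_prop) _ _) (fun t _ => by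
        have k4 := norm_two_sub_sq (F t) (w t)
        have k5 := norm_two_sub_sq (F' t) (w' t)
        have k6 := pow_le_pow_left₀ (norm_nonneg _) (hCf z hz m t).1 2
        have k7 := pow_le_pow_left₀ (norm_nonneg _) (hCf z hz m t).2.1 2
        have k8 : (Cf * ‖m‖) ^ 2 = Cf ^ 2 * ‖m‖ ^ 2 := by ring
        rw [k8] at k6 k7
        simp only [hb, hb']
        linarith)
    refine k1.trans ?_
    rw [intervalIntegral.integral_add (Continuous.intervalIntegrable (by fun_prop) _ _)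
      (Continuous.intervalIntegrable (by fun_prop) _ _), intervalIntegral.integral_const_mul,
      intervalIntegral.integral_const, smul_eq_mul, sub_zero]
    have : C5 * ‖m‖ ^ 2 = 3 * (C2 * ‖m‖ ^ 2) + 2 * π * (16 * Cf ^ 2 * ‖m‖ ^ 2) := by
      rw [hC5]; ring
    rw [this]
    linarith
  have e6 : 288 * C ^ 5 * (C4 * η₀) * s * (∫ t in (0:ℝ)..(2 * π),
      (‖w t‖ ^ 2 + ‖w' t‖ ^ 2 + ‖b t‖ ^ 2 + ‖b' t‖ ^ 2)) ≤ δN / 2 * s * ‖m‖ ^ 2 := by
    refine (mul_le_mul_of_nonneg_left e5 (by positivity)).trans ?_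
    have k1 : 288 * C ^ 5 * (C4 * η₀) * s * (C5 * ‖m‖ ^ 2) =
        (η₀ * (2 * (288 * C ^ 5 * C4 * C5))) / 2 * (s * ‖m‖ ^ 2) := by ring
    have k2 : δN / 2 * s * ‖m‖ ^ 2 = δN / 2 * (s * ‖m‖ ^ 2) := by ring
    rw [k1, k2]
    refine mul_le_mul_of_nonneg_right ?_ (by positivity)
    have k3 : η₀ * (2 * (288 * C ^ 5 * C4 * C5)) ≤ η₀ * (2 * (288 * C ^ 5 * C4 * (C5 + 1))) := by
      refine mul_le_mul_of_nonneg_left ?_ hη0.le
      have k4 : 288 * C ^ 5 * C4 * C5 ≤ 288 * C ^ 5 * C4 * (C5 + 1) :=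
        mul_le_mul_of_nonneg_left (by linarith) (by positivity)
      linarith
    linarith
  have hsg : sg G K ρ δN PN z c s = fun t => ρ (ga G z t + (w t + s • b t)) := rfl
  rw [hρc, e1, e2, e3, e4] at k
  rw [hsg]
  have k9 := (abs_le.1 (k.trans e6)).2
  have k10 : 0 ≤ (s - s ^ 2 / 2) * SV.ix G z 0 (2 * π) V V' V V' :=
    mul_nonneg (aux_s h0 h1) hVV
  have k11 : (s + s ^ 2 / 2) * SV.ix G z 0 (2 * π) F F' F F' ≤ -(s * (δN * ‖m‖ ^ 2)) :=
    aux_F h0 hFF (by positivity)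
  linarith

end Crest.Agent.R208.NG
end
end

-- ▼ part R208/CO1
section

/-!
R208, block CO (helper286), part CO1: an approximate weak solution of the Jacobi equation is
`H^1`-close to a Jacobi field (abstract, in a parallel frame).
-/

set_option autoImplicit false

open Set Filter Topology MeasureTheory
open scoped ContDiff RealInnerProductSpace Real
open Crest.Agent.R208.J

noncomputable section

namespace Crest.Agent.R208.CO

variable {E : Type*} [NormedAddCommGroup E] [InnerProductSpace ℝ E] [CompleteSpace E]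
  {R : ℝ → E →L[ℝ] E} {w w' j j' : ℝ → E} {T : ℝ}

/-- the integral of `R w` -/
def bb (R : ℝ → E →L[ℝ] E) (w : ℝ → E) (t : ℝ) : E := ∫ s in (0:ℝ)..t, R s (w s)

/-- the mean of `w' + bb` on `[0,T]` -/
def mm (R : ℝ → E →L[ℝ] E) (w : ℝ → E) (T : ℝ) : E :=
  (1 / T) • ((w T - w 0) + ∫ s in (0:ℝ)..T, bb R w s)

theorem hasDerivAt_bb (hR : Continuous R) (hw : Continuous w) (t : ℝ) :
    HasDerivAt (bb R w) (R t (w t)) t := by
  have hc : Continuous fun s => R s (w s) := hR.clm_apply hw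
  exact intervalIntegral.integral_hasDerivAt_right (hc.intervalIntegrable _ _)
    hc.aestronglyMeasurable.stronglyMeasurableAtFilter hc.continuousAt

/-- **first step**: the weak equation, tested against fields vanishing at both ends, gives
`w' + ∫ R w - m` small in `L²`. -/
theorem weak (hT : 0 < T) (hR : Continuous R) (hw : ∀ t, HasDerivAt w (w' t) t)
    (hw' : Continuous w') {r : ℝ} {P : E →L[ℝ] E} (hPw : ∀ t, P (w t) = w t)
    (hPw' : ∀ t, P (w' t) = w' t) (hPR : ∀ t u, P (R t u) = R t u)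
    (hweak : ∀ x x' : ℝ → E, (∀ t, HasDerivAt x (x' t) t) → Continuous x' → x 0 = 0 → x T = 0 →
      (∀ t, P (x t) = x t) → (∀ t, P (x' t) = x' t) →
      |∫ t in (0:ℝ)..T, (⟪w' t, x' t⟫ - ⟪R t (w t), x t⟫)| ≤
        r * Real.sqrt (∫ t in (0:ℝ)..T, ‖x' t‖ ^ 2)) :
    ∫ t in (0:ℝ)..T, ‖w' t + bb R w t - mm R w T‖ ^ 2 ≤ r ^ 2 := by
  have hwc : Continuous w := continuous_iff_continuousAt.2 fun t => (hw t).continuousAt
  have hbd : ∀ t, HasDerivAt (bb R w) (R t (w t)) t := hasDerivAt_bb hR hwc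
  have hbc : Continuous (bb R w) := continuous_iff_continuousAt.2 fun t => (hbd t).continuousAt
  have hRw : Continuous fun t => R t (w t) := hR.clm_apply hwc
  set m := mm R w T with hm
  set x' : ℝ → E := fun t => w' t + bb R w t - m with hx'
  have hx'c : Continuous x' := (hw'.add hbc).sub continuous_const
  set x : ℝ → E := fun t => ∫ s in (0:ℝ)..t, x' s with hx
  have hxd : ∀ t, HasDerivAt x (x' t) t := fun t =>
    intervalIntegral.integral_hasDerivAt_right (hx'c.intervalIntegrable _ _)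
      hx'c.aestronglyMeasurable.stronglyMeasurableAtFilter hx'c.continuousAt
  have hxc : Continuous x := continuous_iff_continuousAt.2 fun t => (hxd t).continuousAt
  have hx0 : x 0 = 0 := by simp [hx]
  have hxT : x T = 0 := by
    have e1 : x T = ∫ t in (0:ℝ)..T, (w' t + bb R w t - m) := rfl
    have e2 : IntervalIntegrable (fun t => w' t + bb R w t) volume 0 T :=
      (hw'.add hbc).intervalIntegrable _ _
    rw [e1, intervalIntegral.integral_sub e2
      intervalIntegrable_const, intervalIntegral.integral_add (hw'.intervalIntegrable _ _)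
      (hbc.intervalIntegrable _ _), intervalIntegral.integral_const, sub_zero,
      intervalIntegral.integral_eq_sub_of_hasDerivAt (fun t _ => hw t) (hw'.intervalIntegrable _ _),
      hm, mm, smul_smul, mul_one_div_cancel hT.ne', one_smul, sub_self]
  have hPb : ∀ t, P (bb R w t) = bb R w t := by
    intro t
    unfold bb
    rw [← ContinuousLinearMap.intervalIntegral_comp_comm _ (hRw.intervalIntegrable _ _)]
    congr 1
    funext s
    exact hPR s _
  have hPm : P m = m := by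
    rw [hm, mm, map_smul, map_add, map_sub, hPw, hPw,
      ← ContinuousLinearMap.intervalIntegral_comp_comm _ (hbc.intervalIntegrable _ _)]
    simp_rw [hPb]
  have hPx' : ∀ t, P (x' t) = x' t := by
    intro t
    simp only [hx', map_sub, map_add, hPw', hPb, hPm]
  have hPx : ∀ t, P (x t) = x t := by
    intro t
    simp only [hx]
    rw [← ContinuousLinearMap.intervalIntegral_comp_comm _ (hx'c.intervalIntegrable _ _)]
    simp_rw [hPx']
  have key := hweak x x' hxd hx'c hx0 hxT hPx hPx'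
  -- the integral is `∫ ‖x'‖²`
  have h1 : ∫ t in (0:ℝ)..T, (⟪R t (w t), x t⟫ + ⟪bb R w t, x' t⟫) = 0 := by
    have hd : ∀ t, HasDerivAt (fun t => ⟪bb R w t, x t⟫)
        (⟪R t (w t), x t⟫ + ⟪bb R w t, x' t⟫) t := by
      intro t
      have := (hbd t).inner ℝ (hxd t)
      rw [add_comm]
      exact this
    rw [intervalIntegral.integral_eq_sub_of_hasDerivAt (fun t _ => hd t)
      (Continuous.intervalIntegrable (by fun_prop) _ _), hx0, hxT]
    simp
  have h2 : ∫ t in (0:ℝ)..T, ⟪m, x' t⟫ = 0 := by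
    have hd : ∀ t, HasDerivAt (fun t => ⟪m, x t⟫) (⟪m, x' t⟫) t := by
      intro t
      have := (hasDerivAt_const t m).inner ℝ (hxd t)
      simpa using this
    rw [intervalIntegral.integral_eq_sub_of_hasDerivAt (fun t _ => hd t)
      (Continuous.intervalIntegrable (by fun_prop) _ _), hx0, hxT]
    simp
  have h3 : ∫ t in (0:ℝ)..T, (⟪w' t, x' t⟫ - ⟪R t (w t), x t⟫) = ∫ t in (0:ℝ)..T, ‖x' t‖ ^ 2 := by
    have h4 : ∀ t, ⟪w' t, x' t⟫ - ⟪R t (w t), x t⟫ =
        ‖x' t‖ ^ 2 + ⟪m, x' t⟫ - (⟪R t (w t), x t⟫ + ⟪bb R w t, x' t⟫) := by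
      intro t
      have : w' t = x' t + m - bb R w t := by simp only [hx']; abel
      rw [this, inner_sub_left, inner_add_left, real_inner_self_eq_norm_sq]
      ring
    simp_rw [h4]
    rw [intervalIntegral.integral_sub (Continuous.intervalIntegrable (by fun_prop) _ _)
      (Continuous.intervalIntegrable (by fun_prop) _ _), intervalIntegral.integral_add
      (Continuous.intervalIntegrable (by fun_prop) _ _)
      (Continuous.intervalIntegrable (by fun_prop) _ _), h1, h2]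
    ring
  rw [h3] at key
  set I := ∫ t in (0:ℝ)..T, ‖x' t‖ ^ 2 with hI
  have hI0 : 0 ≤ I := intervalIntegral.integral_nonneg hT.le fun _ _ => by positivity
  rw [abs_of_nonneg hI0] at key
  have hs := Real.mul_self_sqrt hI0
  have hs0 := Real.sqrt_nonneg I
  rcases hs0.eq_or_lt with h0 | h0
  · rw [← h0, mul_zero] at hs
    rw [← hs]; positivity
  · have h5 : Real.sqrt I ≤ r := by
      have : Real.sqrt I * Real.sqrt I ≤ r * Real.sqrt I := by rw [hs]; exact key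
      exact le_of_mul_le_mul_right this h0
    calc I = Real.sqrt I ^ 2 := by rw [sq, hs]
      _ ≤ r ^ 2 := pow_le_pow_left₀ h0.le h5 2

/-- integral Gronwall inequality -/
theorem gron {f : ℝ → ℝ} (hf : Continuous f) (hf0 : ∀ t, 0 ≤ f t) {A K : ℝ} (hK : 0 ≤ K)
    (h : ∀ t ∈ Icc 0 T, f t ≤ A + K * ∫ s in (0:ℝ)..t, f s) {t : ℝ} (ht : t ∈ Icc 0 T) :
    f t ≤ A * (1 + K * T * Real.exp (K * T)) := by
  have hT : 0 ≤ T := ht.1.trans ht.2
  have hA : 0 ≤ A := by
    have := h 0 ⟨le_rfl, hT⟩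
    rw [intervalIntegral.integral_same, mul_zero, add_zero] at this
    exact (hf0 0).trans this
  set F : ℝ → ℝ := fun t => ∫ s in (0:ℝ)..t, f s with hF
  have hFd : ∀ t, HasDerivAt F (f t) t := fun t =>
    intervalIntegral.integral_hasDerivAt_right (hf.intervalIntegrable _ _)
      hf.aestronglyMeasurable.stronglyMeasurableAtFilter hf.continuousAt
  have hF0 : F 0 = 0 := by simp [hF]
  -- `exp (-K t) F t - A t` is decreasing
  have hd : ∀ t, HasDerivAt (fun t => Real.exp (-(K * t)) * F t - A * t)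
      ((-(K) * Real.exp (-(K * t))) * F t + Real.exp (-(K * t)) * f t - A) t := by
    intro t
    have h1 : HasDerivAt (fun t : ℝ => Real.exp (-(K * t))) (-(K) * Real.exp (-(K * t))) t := by
      have h2 : HasDerivAt (fun t : ℝ => -(K * t)) (-K) t := by
        have h2a : HasDerivAt (fun t : ℝ => K * t) K t := by
          simpa using (hasDerivAt_id t).const_mul K
        exact h2a.neg
      have := h2.exp
      refine this.congr_deriv ?_
      ring
    have h3 := (h1.mul (hFd t)).sub ((hasDerivAt_id t).const_mul A)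
    refine h3.congr_deriv ?_
    simp
  have hanti : AntitoneOn (fun t => Real.exp (-(K * t)) * F t - A * t) (Icc 0 T) := by
    refine antitoneOn_of_deriv_nonpos (convex_Icc 0 T)
      (fun t _ => (hd t).continuousAt.continuousWithinAt)
      (fun t _ => (hd t).differentiableAt.differentiableWithinAt) fun t ht => ?_
    rw [interior_Icc] at ht
    rw [(hd t).deriv]
    have h4 := h t ⟨ht.1.le, ht.2.le⟩
    have h5 : Real.exp (-(K * t)) ≤ 1 := by
      rw [Real.exp_le_one_iff]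
      have := ht.1.le
      nlinarith
    have h6 : 0 < Real.exp (-(K * t)) := Real.exp_pos _
    have h7 : Real.exp (-(K * t)) * f t ≤ Real.exp (-(K * t)) * (A + K * F t) :=
      mul_le_mul_of_nonneg_left h4 h6.le
    nlinarith
  have h8 := hanti ⟨le_rfl, hT⟩ ht ht.1
  simp only [hF0, mul_zero, sub_zero] at h8
  have h9 : F t ≤ A * t * Real.exp (K * t) := by
    have h10 : Real.exp (-(K * t)) * F t ≤ A * t := by linarith
    have h11 : Real.exp (K * t) * (Real.exp (-(K * t)) * F t) ≤ Real.exp (K * t) * (A * t) :=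
      mul_le_mul_of_nonneg_left h10 (Real.exp_pos _).le
    rw [← mul_assoc, ← Real.exp_add, add_neg_cancel, Real.exp_zero, one_mul] at h11
    linarith
  have h10 : F t ≤ A * T * Real.exp (K * T) := by
    refine h9.trans ?_
    have h11 : Real.exp (K * t) ≤ Real.exp (K * T) :=
      Real.exp_le_exp.2 (mul_le_mul_of_nonneg_left ht.2 hK)
    have h12 : A * t ≤ A * T := mul_le_mul_of_nonneg_left ht.2 hA
    exact mul_le_mul h12 h11 (Real.exp_pos _).le (mul_nonneg hA hT)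
  refine (h t ht).trans ?_
  have h13 : K * F t ≤ K * (A * T * Real.exp (K * T)) := mul_le_mul_of_nonneg_left h10 hK
  calc A + K * F t ≤ A + K * (A * T * Real.exp (K * T)) := by linarith
    _ = A * (1 + K * T * Real.exp (K * T)) := by ring

/-- **second step**: comparison with the Jacobi field with the initial values `w 0`, `mm` -/
theorem compare (hT : 0 < T) (hR : Continuous R) {M : ℝ} (hM0 : 0 ≤ M)
    (hM : ∀ t ∈ Icc 0 T, ‖R t‖ ≤ M) (hw : ∀ t, HasDerivAt w (w' t) t)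
    (hw' : Continuous w') (hj : IsJac R j j') (hj0 : j 0 = w 0) (hj1 : j' 0 = mm R w T) {r : ℝ}
    (hr : 0 ≤ r) (he : ∫ t in (0:ℝ)..T, ‖w' t + bb R w t - mm R w T‖ ^ 2 ≤ r ^ 2) :
    (∀ t ∈ Icc 0 T, ‖w t - j t‖ ≤
      (Real.sqrt T * (1 + M * T * T * Real.exp (M * T * T))) * r) ∧
    ∫ t in (0:ℝ)..T, ‖w' t - j' t‖ ^ 2 ≤
      (2 + 2 * T * (M * T) ^ 2 * (Real.sqrt T * (1 + M * T * T * Real.exp (M * T * T))) ^ 2)
        * r ^ 2 := by
  have hwc : Continuous w := continuous_iff_continuousAt.2 fun t => (hw t).continuousAt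
  have hjc : Continuous j := continuous_iff_continuousAt.2 fun t => (hj.fst t).continuousAt
  have hj'c : Continuous j' := continuous_iff_continuousAt.2 fun t => (hj.snd t).continuousAt
  have hbd : ∀ t, HasDerivAt (bb R w) (R t (w t)) t := hasDerivAt_bb hR hwc
  have hbc : Continuous (bb R w) := continuous_iff_continuousAt.2 fun t => (hbd t).continuousAt
  set m := mm R w T with hm
  set e : ℝ → E := fun t => w' t + bb R w t - m with he'
  have hec : Continuous e := (hw'.add hbc).sub continuous_const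
  set d : ℝ → E := fun t => w t - j t with hd
  have hdc : Continuous d := hwc.sub hjc
  have hRd : Continuous fun t => R t (d t) := hR.clm_apply hdc
  -- `d' = e - ∫ R d`
  have hd' : ∀ t, w' t - j' t = e t - ∫ s in (0:ℝ)..t, R s (d s) := by
    intro t
    have h1 : j' t = m - ∫ s in (0:ℝ)..t, R s (j s) := by
      have hRj : Continuous fun s => R s (j s) := hR.clm_apply hjc
      have h2 : ∫ s in (0:ℝ)..t, -(R s (j s)) = j' t - j' 0 :=
        intervalIntegral.integral_eq_sub_of_hasDerivAt (fun s _ => hj.snd s)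
          (hRj.neg.intervalIntegrable _ _)
      rw [intervalIntegral.integral_neg, hj1] at h2
      rw [← sub_eq_zero]
      have h3 : j' t - (m - ∫ s in (0:ℝ)..t, R s (j s)) =
        (j' t - m) + ∫ s in (0:ℝ)..t, R s (j s) := by abel
      rw [h3, ← h2, neg_add_cancel]
    have h4 : ∫ s in (0:ℝ)..t, R s (d s) = bb R w t - ∫ s in (0:ℝ)..t, R s (j s) := by
      simp only [hd, map_sub, bb]
      rw [intervalIntegral.integral_sub ((hR.clm_apply hwc).intervalIntegrable _ _)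
        ((hR.clm_apply hjc).intervalIntegrable _ _)]
    rw [h4, h1]
    simp only [he']
    abel
  have hI : ∀ t ∈ Icc 0 T, ‖∫ s in (0:ℝ)..t, R s (d s)‖ ≤ M * ∫ s in (0:ℝ)..t, ‖d s‖ := by
    intro t ht
    have h1 : ‖∫ s in (0:ℝ)..t, R s (d s)‖ ≤ ∫ s in (0:ℝ)..t, M * ‖d s‖ := by
      refine intervalIntegral.norm_integral_le_of_norm_le ht.1 ?_
        (Continuous.intervalIntegrable (by fun_prop) _ _)
      refine Eventually.of_forall fun s hs => ?_
      refine (ContinuousLinearMap.le_opNorm _ _).trans ?_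
      exact mul_le_mul_of_nonneg_right (hM s ⟨hs.1.le, hs.2.trans ht.2⟩) (norm_nonneg _)
    rwa [intervalIntegral.integral_const_mul] at h1
  have heL1 : ∀ t ∈ Icc 0 T, ∫ s in (0:ℝ)..t, ‖e s‖ ≤ Real.sqrt T * r := by
    intro t ht
    have h1 : ∫ s in (0:ℝ)..t, ‖e s‖ ≤ ∫ s in (0:ℝ)..T, ‖e s‖ := by
      refine intervalIntegral.integral_mono_interval le_rfl ht.1 ht.2 ?_
        (Continuous.intervalIntegrable (by fun_prop) _ _)
      exact Eventually.of_forall fun s => norm_nonneg _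
    have h2 := MS.norm_integral_sq_le (f := fun s => ‖e s‖) (by fun_prop) hT.le
    rw [Real.norm_eq_abs, sq_abs] at h2
    simp only [norm_norm, sub_zero] at h2
    have h3 : 0 ≤ ∫ s in (0:ℝ)..T, ‖e s‖ :=
      intervalIntegral.integral_nonneg hT.le fun _ _ => norm_nonneg _
    have h4 : (∫ s in (0:ℝ)..T, ‖e s‖) ^ 2 ≤ (Real.sqrt T * r) ^ 2 := by
      rw [mul_pow, Real.sq_sqrt hT.le]
      exact h2.trans (mul_le_mul_of_nonneg_left he hT.le)
    exact h1.trans (le_of_sq_le_sq h4 (by positivity))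
  have hgr : ∀ t ∈ Icc 0 T, ‖d t‖ ≤ Real.sqrt T * r + M * T * ∫ s in (0:ℝ)..t, ‖d s‖ := by
    intro t ht
    have hdd : ∀ t, HasDerivAt d (w' t - j' t) t := fun t => (hw t).sub (hj.fst t)
    have hc' : Continuous fun t => w' t - j' t := hw'.sub hj'c
    have h1 : d t = ∫ s in (0:ℝ)..t, (w' s - j' s) := by
      rw [intervalIntegral.integral_eq_sub_of_hasDerivAt (fun s _ => hdd s)
        (hc'.intervalIntegrable _ _)]
      simp [hd, hj0]
    have h2 : ‖d t‖ ≤ ∫ s in (0:ℝ)..t, (‖e s‖ + M * ∫ u in (0:ℝ)..t, ‖d u‖) := by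
      rw [h1]
      refine intervalIntegral.norm_integral_le_of_norm_le ht.1 ?_
        (Continuous.intervalIntegrable (by fun_prop) _ _)
      refine Eventually.of_forall fun s hs => ?_
      rw [hd' s]
      refine (norm_sub_le _ _).trans ?_
      have h3 := hI s ⟨hs.1.le, hs.2.trans ht.2⟩
      have h4 : ∫ u in (0:ℝ)..s, ‖d u‖ ≤ ∫ u in (0:ℝ)..t, ‖d u‖ := by
        refine intervalIntegral.integral_mono_interval le_rfl hs.1.le hs.2 ?_
          (Continuous.intervalIntegrable (by fun_prop) _ _)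
        exact Eventually.of_forall fun s => norm_nonneg _
      have h5 := mul_le_mul_of_nonneg_left h4 hM0
      linarith
    rw [intervalIntegral.integral_add (Continuous.intervalIntegrable (by fun_prop) _ _)
      intervalIntegrable_const, intervalIntegral.integral_const, smul_eq_mul, sub_zero] at h2
    have h3 := heL1 t ht
    have h4 : 0 ≤ ∫ u in (0:ℝ)..t, ‖d u‖ :=
      intervalIntegral.integral_nonneg ht.1 fun _ _ => norm_nonneg _
    have h5 : t * (M * ∫ u in (0:ℝ)..t, ‖d u‖) ≤ T * (M * ∫ u in (0:ℝ)..t, ‖d u‖) :=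
      mul_le_mul_of_nonneg_right ht.2 (mul_nonneg hM0 h4)
    linarith
  set C := Real.sqrt T * (1 + M * T * T * Real.exp (M * T * T)) with hC
  have hC0 : 0 ≤ C := by positivity
  have hfin : ∀ t ∈ Icc 0 T, ‖d t‖ ≤ C * r := by
    intro t ht
    have h1 := gron (f := fun t => ‖d t‖) (by fun_prop) (fun _ => norm_nonneg _)
      (A := Real.sqrt T * r) (K := M * T) (by positivity) hgr ht
    refine h1.trans (le_of_eq ?_)
    rw [hC]; ring
  refine ⟨hfin, ?_⟩
  have h1 : ∫ t in (0:ℝ)..T, ‖w' t - j' t‖ ^ 2 ≤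
      ∫ t in (0:ℝ)..T, (2 * ‖e t‖ ^ 2 + 2 * (M * (T * (C * r))) ^ 2) := by
    refine intervalIntegral.integral_mono_on hT.le
      (Continuous.intervalIntegrable (by fun_prop) _ _)
      (Continuous.intervalIntegrable (by fun_prop) _ _) fun t ht => ?_
    rw [hd' t]
    have h2 := hI t ht
    have h3 : ∫ s in (0:ℝ)..t, ‖d s‖ ≤ ∫ s in (0:ℝ)..t, C * r := by
      refine intervalIntegral.integral_mono_on ht.1
        (Continuous.intervalIntegrable (by fun_prop) _ _) intervalIntegrable_const fun s hs => ?_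
      exact hfin s ⟨hs.1, hs.2.trans ht.2⟩
    rw [intervalIntegral.integral_const, smul_eq_mul, sub_zero] at h3
    have h4 : t * (C * r) ≤ T * (C * r) := mul_le_mul_of_nonneg_right ht.2 (by positivity)
    have h5 : ‖∫ s in (0:ℝ)..t, R s (d s)‖ ≤ M * (T * (C * r)) :=
      h2.trans (mul_le_mul_of_nonneg_left (h3.trans h4) hM0)
    have h6 := norm_sub_le (e t) (∫ s in (0:ℝ)..t, R s (d s))
    have h7 : ‖e t - ∫ s in (0:ℝ)..t, R s (d s)‖ ^ 2 ≤
        (‖e t‖ + ‖∫ s in (0:ℝ)..t, R s (d s)‖) ^ 2 := pow_le_pow_left₀ (norm_nonneg _) h6 2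
    have h8 : ‖∫ s in (0:ℝ)..t, R s (d s)‖ ^ 2 ≤ (M * (T * (C * r))) ^ 2 :=
      pow_le_pow_left₀ (norm_nonneg _) h5 2
    nlinarith [sq_nonneg (‖e t‖ - ‖∫ s in (0:ℝ)..t, R s (d s)‖)]
  rw [intervalIntegral.integral_add (Continuous.intervalIntegrable (by fun_prop) _ _)
    intervalIntegrable_const, intervalIntegral.integral_const_mul,
    intervalIntegral.integral_const, smul_eq_mul, sub_zero] at h1
  have h2 : 2 * (∫ t in (0:ℝ)..T, ‖e t‖ ^ 2) ≤ 2 * r ^ 2 := by linarith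
  calc _ ≤ 2 * (∫ t in (0:ℝ)..T, ‖e t‖ ^ 2) + T * (2 * (M * (T * (C * r))) ^ 2) := h1
    _ ≤ 2 * r ^ 2 + T * (2 * (M * (T * (C * r))) ^ 2) := by linarith
    _ = _ := by ring

end Crest.Agent.R208.CO
end
end

-- ▼ part R208/CO2
section

/-!
R208, block CO (helper286), part CO2: the index form of a closed geodesic is non-negative on the
orthogonal complement (for the index form) of a negative space of maximal dimension, and the
Cauchy-Schwarz inequality on that complement.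
-/

set_option autoImplicit false

open Set Filter Topology MeasureTheory Module
open scoped ContDiff RealInnerProductSpace
open Crest.GeometryTopology.Submanifold
open Crest.Agent.R241.DDefs
open Crest.Agent.R241.D2 hiding fd
open Crest.Agent.R208.SV Crest.Agent.R208.NN

noncomputable section

namespace Crest.Agent.R208.CO

variable {n N k K : ℕ} {κ : ℝ} {S : Set (Euc N)} {G : Geo n N κ S} {z : Euc N × Euc N}
  {V V' X X' A A' : ℝ → Euc N}

local notation "π" => Real.pi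

/-- abbreviation: index form on `[0, 2π]` -/
def I2 (G : Geo n N κ S) (z : Euc N × Euc N) (A A' B B' : ℝ → Euc N) : ℝ :=
  ix G z 0 (2 * π) A A' B B'

/-- the squared `H^1` norm -/
def Hn (A A' : ℝ → Euc N) : ℝ := ∫ t in (0:ℝ)..(2 * π), (‖A t‖ ^ 2 + ‖A' t‖ ^ 2)

/-- a periodic field on `[0, 2π]` -/
structure PF (G : Geo n N κ S) (z : Euc N × Euc N) (A A' : ℝ → Euc N) : Prop where
  fld : Fld G z 0 (2 * π) A A'
  per : A (2 * π) = A 0

theorem two_pi_nonneg : (0:ℝ) ≤ 2 * π := by positivity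

theorem PF.add {B B' : ℝ → Euc N} (hA : PF G z A A') (hB : PF G z B B') :
    PF G z (A + B) (A' + B') :=
  ⟨hA.fld.add hB.fld, by rw [Pi.add_apply, Pi.add_apply, hA.per, hB.per]⟩

theorem PF.sub {B B' : ℝ → Euc N} (hA : PF G z A A') (hB : PF G z B B') :
    PF G z (A - B) (A' - B') :=
  ⟨hA.fld.sub hB.fld, by rw [Pi.sub_apply, Pi.sub_apply, hA.per, hB.per]⟩

theorem PF.smul (c : ℝ) (hA : PF G z A A') : PF G z (c • A) (c • A') :=
  ⟨hA.fld.smul c, by rw [Pi.smul_apply, Pi.smul_apply, hA.per]⟩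

theorem pf_fd (h : GT.Bla G k) (hz : z ∈ L.US G) (w : Wt N K) :
    PF G z (fd G z (nuP K) w) (fd' G z (nuP K) w) :=
  ⟨fld_fd hz.1 _ _ _ _, fd_two_pi h hz w⟩

theorem fd_add_fun (ν : Fin K → ℝ) (w w' : Wt N K) :
    fd G z ν (w + w') = fd G z ν w + fd G z ν w' := by
  funext t; simp only [fd, map_add, Pi.add_apply]

theorem fd'_add_fun (ν : Fin K → ℝ) (w w' : Wt N K) :
    fd' G z ν (w + w') = fd' G z ν w + fd' G z ν w' := by
  funext t; simp only [fd', map_add, Pi.add_apply]; abel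

theorem fd_smul_fun (ν : Fin K → ℝ) (c : ℝ) (w : Wt N K) :
    fd G z ν (c • w) = c • fd G z ν w := by
  funext t; simp only [fd, map_smul, Pi.smul_apply]

theorem fd'_smul_fun (ν : Fin K → ℝ) (c : ℝ) (w : Wt N K) :
    fd' G z ν (c • w) = c • fd' G z ν w := by
  funext t; simp only [fd', map_smul, Pi.smul_apply, smul_add]

/-- the functional `w ↦ I(X, fd w)` -/
def fnl (hz : z ∈ TS G) (hX : Fld G z 0 (2 * π) X X') : Wt N K →ₗ[ℝ] ℝ where
  toFun w := I2 G z X X' (fd G z (nuP K) w) (fd' G z (nuP K) w)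
  map_add' w w' := by
    rw [fd_add_fun, fd'_add_fun]
    exact ix_add_right two_pi_nonneg hz hX (fld_fd hz _ _ _ _) (fld_fd hz _ _ _ _)
  map_smul' c w := by
    rw [fd_smul_fun, fd'_smul_fun]
    exact ix_smul_right c

variable {Nz : Submodule ℝ (Wt N K)}

/-- every functional on a negative space is represented by the index form -/
theorem exists_repr (hz : z ∈ L.US G)
    (hneg : ∀ w ∈ Nz, w ≠ 0 → I2 G z (fd G z (nuP K) w) (fd' G z (nuP K) w)
      (fd G z (nuP K) w) (fd' G z (nuP K) w) < 0)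
    (hX : Fld G z 0 (2 * π) X X') :
    ∃ m ∈ Nz, ∀ w ∈ Nz, I2 G z (X - fd G z (nuP K) m) (X' - fd' G z (nuP K) m)
      (fd G z (nuP K) w) (fd' G z (nuP K) w) = 0 := by
  let Φ : Nz →ₗ[ℝ] (Nz →ₗ[ℝ] ℝ) :=
    { toFun := fun m => (fnl hz.1 (fld_fd hz.1 (nuP K) (m : Wt N K) 0 (2 * π))).comp Nz.subtype
      map_add' := fun m m' => by
        ext w
        change I2 G z _ _ _ _ = I2 G z _ _ _ _ + I2 G z _ _ _ _
        rw [Submodule.coe_add, fd_add_fun, fd'_add_fun]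
        exact ix_add_left two_pi_nonneg hz.1 (fld_fd hz.1 _ _ _ _) (fld_fd hz.1 _ _ _ _)
          (fld_fd hz.1 _ _ _ _)
      map_smul' := fun c m => by
        ext w
        change I2 G z _ _ _ _ = c * I2 G z _ _ _ _
        rw [Submodule.coe_smul, fd_smul_fun, fd'_smul_fun]
        exact ix_smul_left c }
  have hinj : Function.Injective Φ := by
    rw [← LinearMap.ker_eq_bot, LinearMap.ker_eq_bot']
    intro m hm
    by_contra hne
    have h1 := hneg m m.2 (fun h0 => hne (Subtype.ext h0))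
    have h2 : Φ m m = 0 := by rw [hm]; rfl
    exact h1.ne h2
  have hsurj : Function.Surjective Φ := by
    have hfin : finrank ℝ (Nz →ₗ[ℝ] ℝ) = finrank ℝ Nz := Subspace.dual_finrank_eq
    exact (LinearMap.injective_iff_surjective_of_finrank_eq_finrank hfin.symm).1 hinj
  obtain ⟨m, hm⟩ := hsurj ((fnl hz.1 hX).comp Nz.subtype)
  refine ⟨m, m.2, fun w hw => ?_⟩
  have h1 : Φ m ⟨w, hw⟩ = (fnl hz.1 hX).comp Nz.subtype ⟨w, hw⟩ := by rw [hm]
  have h2 : I2 G z (fd G z (nuP K) m) (fd' G z (nuP K) m) (fd G z (nuP K) w) (fd' G z (nuP K) w) =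
    I2 G z X X' (fd G z (nuP K) w) (fd' G z (nuP K) w) := h1
  unfold I2 at h2 ⊢
  rw [ix_sub_left two_pi_nonneg hz.1 hX (fld_fd hz.1 _ _ _ _) (fld_fd hz.1 _ _ _ _), h2, sub_self]

/-- **the index form is non-negative on the complement of a maximal negative space** -/
theorem nonneg_orth (h : GT.Bla G k) (hz : z ∈ L.US G) (hdim : finrank ℝ Nz + 1 = k)
    (hneg : ∀ w ∈ Nz, w ≠ 0 → I2 G z (fd G z (nuP K) w) (fd' G z (nuP K) w)
      (fd G z (nuP K) w) (fd' G z (nuP K) w) < 0)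
    (hV : PF G z V V')
    (horth : ∀ w ∈ Nz, I2 G z V V' (fd G z (nuP K) w) (fd' G z (nuP K) w) = 0) :
    0 ≤ I2 G z V V' V V' := by
  -- `l0` is a bijection of `Nz` onto `V0`
  let Λ : Nz →ₗ[ℝ] V0 G z :=
    LinearMap.codRestrict (V0 G z) ((l0 G z (nuP K)).toLinearMap.comp Nz.subtype)
      (fun w => l0_mem _ _)
  have hinj : Function.Injective Λ := by
    rw [← LinearMap.ker_eq_bot, LinearMap.ker_eq_bot']
    intro m hm
    by_contra hne
    have h1 := hneg m m.2 (fun h0 => hne (Subtype.ext h0))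
    have h2 : l0 G z (nuP K) (m : Wt N K) = 0 := congrArg Subtype.val hm
    have h3 : 0 ≤ I2 G z (fd G z (nuP K) (m : Wt N K)) (fd' G z (nuP K) (m : Wt N K))
        (fd G z (nuP K) (m : Wt N K)) (fd' G z (nuP K) (m : Wt N K)) := by
      refine nonneg_per h hz (fld_fd hz.1 _ _ _ _) (fd_two_pi h hz _) ?_
      intro u hu hu0
      have := inner_l0 h hz (nuP K) (m : Wt N K) (mem_V0.2 ⟨hu, hu0⟩)
      rw [h2, inner_zero_right] at this
      exact this.symm
    linarith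
  have hfr : finrank ℝ Nz = finrank ℝ (V0 G z) := by
    have := finrank_V0 h hz
    omega
  have hsurj : Function.Surjective Λ :=
    (LinearMap.injective_iff_surjective_of_finrank_eq_finrank hfr).1 hinj
  set u₀ : Euc N := (V0 G z).starProjection (V 0 + GT.lf G (qq G z) z.1 (V π)) with hu₀
  have hu₀m : u₀ ∈ V0 G z := Submodule.starProjection_apply_mem _ _
  obtain ⟨m, hm⟩ := hsurj ⟨-u₀, (V0 G z).neg_mem hu₀m⟩
  have hm' : l0 G z (nuP K) (m : Wt N K) = -u₀ := congrArg Subtype.val hm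
  have hF := pf_fd (K := K) h hz (m : Wt N K)
  have hsum : 0 ≤ ix G z 0 (2 * π) (V + fd G z (nuP K) (m : Wt N K))
      (V' + fd' G z (nuP K) (m : Wt N K)) (V + fd G z (nuP K) (m : Wt N K))
      (V' + fd' G z (nuP K) (m : Wt N K)) := by
    refine nonneg_per h hz (hV.add hF).fld (hV.add hF).per ?_
    intro u hu hu0
    have huV : u ∈ V0 G z := mem_V0.2 ⟨hu, hu0⟩
    have e1 := inner_l0 h hz (nuP K) (m : Wt N K) huV
    have e2 : ⟪u, u₀⟫ = ⟪u, V 0⟫ + ⟪GT.lf G z.1 (qq G z) u, V π⟫ := by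
      rw [hu₀, ← Submodule.inner_starProjection_left_eq_right,
        Submodule.starProjection_eq_self_iff.2 huV, inner_add_right,
        inner_lf_adj (q := qq G z) h (mem_FF h hz) (mem_V0.1 huV).1]
    rw [hm', inner_neg_right, e2] at e1
    change ⟪u, V 0 + fd G z (nuP K) (m : Wt N K) 0⟫ +
      ⟪GT.lf G z.1 (qq G z) u, V π + fd G z (nuP K) (m : Wt N K) π⟫ = 0
    rw [inner_add_right, inner_add_right]
    linarith
  rw [ix_add_self two_pi_nonneg hz.1 hV.fld hF.fld] at hsum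
  have h1 := horth m m.2
  unfold I2 at h1
  rw [ix_symm two_pi_nonneg hz.1 hV.fld hF.fld] at h1
  have h2 : I2 G z (fd G z (nuP K) (m : Wt N K)) (fd' G z (nuP K) (m : Wt N K))
      (fd G z (nuP K) (m : Wt N K)) (fd' G z (nuP K) (m : Wt N K)) ≤ 0 := by
    by_cases h0 : (m : Wt N K) = 0
    · have e1 : fd G z (nuP K) (m : Wt N K) = (0:ℝ) • fd G z (nuP K) (m : Wt N K) := by
        rw [← fd_smul_fun, h0, smul_zero]
      have e2 : fd' G z (nuP K) (m : Wt N K) = (0:ℝ) • fd' G z (nuP K) (m : Wt N K) := by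
        rw [← fd'_smul_fun, h0, smul_zero]
      unfold I2
      rw [e1, e2]
      rw [ix_smul_left, zero_mul]
    · exact (hneg m m.2 h0).le
  unfold I2 at h2 ⊢
  rw [h1] at hsum
  linarith

end Crest.Agent.R208.CO
end
end

-- ▼ part R208/CO3
section

/-!
R208, block CO (helper286), part CO3: **Cauchy-Schwarz**: a field which is orthogonal (for the
index form) to the negative space and has small index form is an approximate weak solution of the
Jacobi equation.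
-/

set_option autoImplicit false

open Set Filter Topology MeasureTheory Module
open scoped ContDiff RealInnerProductSpace
open Crest.GeometryTopology.Submanifold
open Crest.Agent.R241.DDefs
open Crest.Agent.R241.D2 hiding fd
open Crest.Agent.R208.SV Crest.Agent.R208.NN

noncomputable section

namespace Crest.Agent.R208.CO

variable {n N k K : ℕ} {κ : ℝ} {S : Set (Euc N)} {G : Geo n N κ S} {z : Euc N × Euc N}
  {V V' X X' A A' B B' : ℝ → Euc N} {C₁ C₂ δ : ℝ}

local notation "π" => Real.pi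

/-- pointwise bound of the integrand of the index form -/
def Bd (G : Geo n N κ S) (C₁ : ℝ) : Prop :=
  1 ≤ C₁ ∧ ∀ z ∈ L.US G, ∀ A A' B B' : ℝ → Euc N, ∀ t, |ixd G z A A' B B' t| ≤
    C₁ * (‖A t‖ * ‖B t‖ + ‖A' t‖ * ‖B' t‖)

theorem exists_Bd (hc : IsCompact S) : ∃ C₁, Bd G C₁ := by
  obtain ⟨M, hM⟩ := hc.exists_bound_of_continuousOn
    (f := fun x => fderiv ℝ G.P x) ((G.contDiff_P.continuous_fderiv (by simp)).continuousOn)
  refine ⟨max 1 (M ^ 2), le_max_left _ _, fun z hz A A' B B' t => ?_⟩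
  have hzt := fl_mem G hz.1 t
  have hn : ‖(fl G (z, t)).2‖ = 1 := by rw [norm_fl G hz.1, hz.2]
  have h1 : ∀ u v : Euc N, ‖fderiv ℝ G.P (fl G (z, t)).1 u v‖ ≤ M * ‖u‖ * ‖v‖ := by
    intro u v
    have e1 := (fderiv ℝ G.P (fl G (z, t)).1 u).le_opNorm v
    have e2 := (fderiv ℝ G.P (fl G (z, t)).1).le_opNorm u
    have e3 := hM _ hzt.1
    calc ‖fderiv ℝ G.P (fl G (z, t)).1 u v‖ ≤ ‖fderiv ℝ G.P (fl G (z, t)).1 u‖ * ‖v‖ := e1
      _ ≤ (‖fderiv ℝ G.P (fl G (z, t)).1‖ * ‖u‖) * ‖v‖ :=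
          mul_le_mul_of_nonneg_right e2 (norm_nonneg _)
      _ ≤ (M * ‖u‖) * ‖v‖ := mul_le_mul_of_nonneg_right
          (mul_le_mul_of_nonneg_right e3 (norm_nonneg _)) (norm_nonneg _)
  have hM0 : 0 ≤ M := (norm_nonneg _).trans (hM _ hzt.1)
  unfold ixd
  have e1 : |⟪A' t, B' t⟫| ≤ ‖A' t‖ * ‖B' t‖ := abs_real_inner_le_norm _ _
  have e2 : |⟪(X G (fl G (z, t))).2, II G (fl G (z, t)).1 (A t) (B t)⟫| ≤
      M ^ 2 * (‖A t‖ * ‖B t‖) := by
    refine (abs_real_inner_le_norm _ _).trans ?_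
    have f1 : ‖(Crest.Agent.R241.D2.X G (fl G (z, t))).2‖ ≤ M := by
      have := h1 (fl G (z, t)).2 (fl G (z, t)).2
      rw [hn, mul_one, mul_one] at this
      exact this
    have f2 : ‖II G (fl G (z, t)).1 (A t) (B t)‖ ≤ M * ‖A t‖ * ‖B t‖ := h1 _ _
    calc _ ≤ M * (M * ‖A t‖ * ‖B t‖) := mul_le_mul f1 f2 (norm_nonneg _) hM0
      _ = _ := by ring
  have e3 : |⟪A' t, B' t⟫ - ⟪(Crest.Agent.R241.D2.X G (fl G (z, t))).2,
      II G (fl G (z, t)).1 (A t) (B t)⟫| ≤ ‖A' t‖ * ‖B' t‖ + M ^ 2 * (‖A t‖ * ‖B t‖) :=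
    (abs_sub _ _).trans (add_le_add e1 e2)
  refine e3.trans ?_
  have f1 : M ^ 2 * (‖A t‖ * ‖B t‖) ≤ max 1 (M ^ 2) * (‖A t‖ * ‖B t‖) :=
    mul_le_mul_of_nonneg_right (le_max_right _ _) (by positivity)
  have f2 : ‖A' t‖ * ‖B' t‖ ≤ max 1 (M ^ 2) * (‖A' t‖ * ‖B' t‖) :=
    le_mul_of_one_le_left (by positivity) (le_max_left _ _)
  linarith

theorem Hn_nonneg : 0 ≤ Hn A A' :=
  intervalIntegral.integral_nonneg two_pi_nonneg fun _ _ => by positivity

theorem intble_sq (hA : Fld G z 0 (2 * π) A A') :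
    IntervalIntegrable (fun t => ‖A t‖ ^ 2 + ‖A' t‖ ^ 2) volume 0 (2 * π) := by
  refine ContinuousOn.intervalIntegrable ?_
  rw [uIcc_of_le two_pi_nonneg]
  exact (hA.contX.norm.pow 2).add (hA.cont.norm.pow 2)

/-- weighted bound of the index form -/
theorem abs_I2_le (hbd : Bd G C₁) (hz : z ∈ L.US G) (hA : Fld G z 0 (2 * π) A A')
    (hB : Fld G z 0 (2 * π) B B') {ε : ℝ} (hε : 0 < ε) :
    |I2 G z A A' B B'| ≤ C₁ / (2 * ε) * Hn A A' + C₁ * ε / 2 * Hn B B' := by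
  have hC : 0 ≤ C₁ := zero_le_one.trans hbd.1
  unfold I2 ix
  have h1 : ‖∫ t in (0:ℝ)..(2 * π), ixd G z A A' B B' t‖ ≤
      ∫ t in (0:ℝ)..(2 * π), (C₁ / (2 * ε) * (‖A t‖ ^ 2 + ‖A' t‖ ^ 2) +
        C₁ * ε / 2 * (‖B t‖ ^ 2 + ‖B' t‖ ^ 2)) := by
    refine intervalIntegral.norm_integral_le_of_norm_le two_pi_nonneg ?_
      (((intble_sq hA).const_mul _).add ((intble_sq hB).const_mul _))
    refine Eventually.of_forall fun t _ => ?_
    rw [Real.norm_eq_abs]
    refine (hbd.2 z hz A A' B B' t).trans ?_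
    have key : ∀ a b : ℝ, a * b ≤ 1 / (2 * ε) * a ^ 2 + ε / 2 * b ^ 2 := by
      intro a b
      have e1 : 0 ≤ (a - ε * b) ^ 2 / (2 * ε) := by positivity
      have e2 : (a - ε * b) ^ 2 / (2 * ε) = 1 / (2 * ε) * a ^ 2 - a * b + ε / 2 * b ^ 2 := by
        field_simp
        ring
      linarith
    have e1 := key ‖A t‖ ‖B t‖
    have e2 := key ‖A' t‖ ‖B' t‖
    have e3 : C₁ / (2 * ε) * (‖A t‖ ^ 2 + ‖A' t‖ ^ 2) + C₁ * ε / 2 * (‖B t‖ ^ 2 + ‖B' t‖ ^ 2) =
      C₁ * ((1 / (2 * ε) * ‖A t‖ ^ 2 + ε / 2 * ‖B t‖ ^ 2) +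
        (1 / (2 * ε) * ‖A' t‖ ^ 2 + ε / 2 * ‖B' t‖ ^ 2)) := by ring
    rw [e3]
    exact mul_le_mul_of_nonneg_left (add_le_add e1 e2) hC
  rw [intervalIntegral.integral_add ((intble_sq hA).const_mul _) ((intble_sq hB).const_mul _),
    intervalIntegral.integral_const_mul, intervalIntegral.integral_const_mul] at h1
  exact h1

theorem abs_I2_self_le (hbd : Bd G C₁) (hz : z ∈ L.US G) (hA : Fld G z 0 (2 * π) A A') :
    |I2 G z A A' A A'| ≤ C₁ * Hn A A' := by
  have := abs_I2_le hbd hz hA hA one_pos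
  refine this.trans (le_of_eq ?_)
  ring

/-- `Hn` of the fields `fd w` is bounded -/
def Bf (G : Geo n N κ S) (K : ℕ) (C₂ : ℝ) : Prop :=
  1 ≤ C₂ ∧ ∀ z ∈ L.US G, ∀ w : Wt N K, Hn (fd G z (nuP K) w) (fd' G z (nuP K) w) ≤ C₂ * ‖w‖ ^ 2

theorem exists_Bf (hc : IsCompact S) (K : ℕ) : ∃ C₂, Bf G K C₂ := by
  have hUS := LB.isCompact_US (G := G) hc
  -- bounds of `ev`, `ev'`, `P`, `DP`
  obtain ⟨M, hM⟩ := hc.exists_bound_of_continuousOn
    (f := fun x => fderiv ℝ G.P x) ((G.contDiff_P.continuous_fderiv (by simp)).continuousOn)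
  obtain ⟨M1, hM1⟩ := hc.exists_bound_of_continuousOn
    (f := fun x => G.P x) (G.contDiff_P.continuous.continuousOn)
  obtain ⟨E1, hE1⟩ := (isCompact_Icc (a := (0:ℝ)) (b := 2 * π)).exists_bound_of_continuousOn
    (f := fun t => (ev (nuP K) t : Wt N K →L[ℝ] Euc N)) (contDiff_ev (nuP K)).continuous.continuousOn
  obtain ⟨E2, hE2⟩ := (isCompact_Icc (a := (0:ℝ)) (b := 2 * π)).exists_bound_of_continuousOn
    (f := fun t => (ev' (nuP K) t : Wt N K →L[ℝ] Euc N))
    (contDiff_ev' (nuP K)).continuous.continuousOn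
  refine ⟨max 1 (2 * π * ((M1 * E1) ^ 2 + (M * E1 + M1 * E2) ^ 2)), le_max_left _ _,
    fun z hz w => ?_⟩
  have hpt : ∀ t ∈ Icc (0:ℝ) (2 * π), ‖fd G z (nuP K) w t‖ ^ 2 + ‖fd' G z (nuP K) w t‖ ^ 2 ≤
      ((M1 * E1) ^ 2 + (M * E1 + M1 * E2) ^ 2) * ‖w‖ ^ 2 := by
    intro t ht
    have hzt := fl_mem G hz.1 t
    have hn : ‖(fl G (z, t)).2‖ = 1 := by rw [norm_fl G hz.1, hz.2]
    have a1 := hE1 t ht
    have a2 := hE2 t ht
    have a3 := hM _ hzt.1
    have a4 := hM1 _ hzt.1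
    have hE10 : 0 ≤ E1 := (norm_nonneg _).trans a1
    have hE20 : 0 ≤ E2 := (norm_nonneg _).trans a2
    have hM0 : 0 ≤ M := (norm_nonneg _).trans a3
    have hM10 : 0 ≤ M1 := (norm_nonneg _).trans a4
    have b1 : ‖ev (nuP K) t w‖ ≤ E1 * ‖w‖ :=
      ((ev (nuP K) t).le_opNorm w).trans (mul_le_mul_of_nonneg_right a1 (norm_nonneg _))
    have b2 : ‖ev' (nuP K) t w‖ ≤ E2 * ‖w‖ :=
      ((ev' (nuP K) t).le_opNorm w).trans (mul_le_mul_of_nonneg_right a2 (norm_nonneg _))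
    have c1 : ‖fd G z (nuP K) w t‖ ≤ (M1 * E1) * ‖w‖ := by
      unfold fd
      refine ((G.P _).le_opNorm _).trans ?_
      calc _ ≤ M1 * (E1 * ‖w‖) := mul_le_mul a4 b1 (norm_nonneg _) hM10
        _ = _ := by ring
    have c2 : ‖fd' G z (nuP K) w t‖ ≤ (M * E1 + M1 * E2) * ‖w‖ := by
      unfold fd'
      refine (norm_add_le _ _).trans ?_
      have d1 : ‖fderiv ℝ G.P (fl G (z, t)).1 (fl G (z, t)).2 (ev (nuP K) t w)‖ ≤
          M * (E1 * ‖w‖) := by
        refine (ContinuousLinearMap.le_opNorm _ _).trans ?_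
        have d2 : ‖fderiv ℝ G.P (fl G (z, t)).1 (fl G (z, t)).2‖ ≤ M := by
          have := (fderiv ℝ G.P (fl G (z, t)).1).le_opNorm (fl G (z, t)).2
          rw [hn, mul_one] at this
          exact this.trans a3
        exact mul_le_mul d2 b1 (norm_nonneg _) hM0
      have d3 : ‖G.P (fl G (z, t)).1 (ev' (nuP K) t w)‖ ≤ M1 * (E2 * ‖w‖) :=
        ((G.P _).le_opNorm _).trans (mul_le_mul a4 b2 (norm_nonneg _) hM10)
      linarith
    have c3 := pow_le_pow_left₀ (norm_nonneg _) c1 2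
    have c4 := pow_le_pow_left₀ (norm_nonneg _) c2 2
    calc _ ≤ ((M1 * E1) * ‖w‖) ^ 2 + ((M * E1 + M1 * E2) * ‖w‖) ^ 2 := add_le_add c3 c4
      _ = _ := by ring
  have h1 : Hn (fd G z (nuP K) w) (fd' G z (nuP K) w) ≤
      ∫ t in (0:ℝ)..(2 * π), ((M1 * E1) ^ 2 + (M * E1 + M1 * E2) ^ 2) * ‖w‖ ^ 2 := by
    refine intervalIntegral.integral_mono_on two_pi_nonneg (intble_sq (fld_fd hz.1 _ _ _ _))
      intervalIntegrable_const hpt
  rw [intervalIntegral.integral_const, smul_eq_mul, sub_zero, ← mul_assoc] at h1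
  exact h1.trans (mul_le_mul_of_nonneg_right (le_max_right _ _) (by positivity))

variable {Nz : Submodule ℝ (Wt N K)}

/-- **Cauchy-Schwarz on the complement** -/
theorem cs (h : GT.Bla G k) (hbd : Bd G C₁) (hbf : Bf G K C₂) (hz : z ∈ L.US G)
    (hdim : finrank ℝ Nz + 1 = k) (hδ : 0 < δ)
    (hneg : ∀ w ∈ Nz, I2 G z (fd G z (nuP K) w) (fd' G z (nuP K) w)
      (fd G z (nuP K) w) (fd' G z (nuP K) w) ≤ -(δ * ‖w‖ ^ 2))
    (hA : PF G z A A')
    (horth : ∀ w ∈ Nz, I2 G z A A' (fd G z (nuP K) w) (fd' G z (nuP K) w) = 0)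
    (hX : PF G z X X') :
    I2 G z A A' X X' ^ 2 ≤ I2 G z A A' A A' * ((C₁ + C₁ ^ 2 * C₂ / δ) * Hn X X') := by
  have hC1 : 1 ≤ C₁ := hbd.1
  have hC2 : 1 ≤ C₂ := hbf.1
  have hneg' : ∀ w ∈ Nz, w ≠ 0 → I2 G z (fd G z (nuP K) w) (fd' G z (nuP K) w)
      (fd G z (nuP K) w) (fd' G z (nuP K) w) < 0 := by
    intro w hw hw0
    have h1 := hneg w hw
    have h2 : 0 < ‖w‖ := norm_pos_iff.2 hw0
    have : 0 < δ * ‖w‖ ^ 2 := by positivity
    linarith
  obtain ⟨m, hm, hmo⟩ := exists_repr (K := K) hz hneg' hX.fld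
  set F := fd G z (nuP K) m with hF
  set F' := fd' G z (nuP K) m with hF'
  have hFp : PF G z F F' := pf_fd h hz m
  have hFf := hFp.fld
  set Y := X - F with hY
  set Y' := X' - F' with hY'
  have hYp : PF G z Y Y' := hX.sub hFp
  -- `I(X, F) = I(F, F)`
  have hXF : I2 G z X X' F F' = I2 G z F F' F F' := by
    have h1 := hmo m hm
    unfold I2 at h1 ⊢
    rw [ix_sub_left two_pi_nonneg hz.1 hX.fld hFf hFf] at h1
    linarith
  have hYY : I2 G z Y Y' Y Y' = I2 G z X X' X X' - I2 G z F F' F F' := by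
    have h1 : I2 G z Y Y' Y Y' = I2 G z X X' X X' - 2 * I2 G z F F' X X' + I2 G z F F' F F' :=
      ix_sub_self two_pi_nonneg hz.1 hX.fld hFf
    have h2 : I2 G z F F' X X' = I2 G z X X' F F' :=
      ix_symm two_pi_nonneg hz.1 hFf hX.fld
    rw [h1, h2, hXF]; ring
  have hAY : I2 G z A A' X X' = I2 G z A A' Y Y' := by
    have h1 : I2 G z A A' Y Y' = I2 G z A A' X X' - I2 G z A A' F F' :=
      ix_sub_right two_pi_nonneg hz.1 hA.fld hX.fld hFf
    rw [h1, horth m hm, sub_zero]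
  -- bound of `I(Y, Y)`
  have hHX : 0 ≤ Hn X X' := Hn_nonneg
  have hFbound : -(I2 G z F F' F F') ≤ C₁ ^ 2 * C₂ / δ * Hn X X' := by
    have hε : 0 < δ / (C₁ * C₂) := by positivity
    have h1 := abs_I2_le hbd hz hX.fld hFf hε
    rw [hXF] at h1
    have h2 := hbf.2 z hz m
    have h3 := hneg m hm
    have h4 : -(I2 G z F F' F F') ≤ |I2 G z F F' F F'| := neg_le_abs _
    have h5 : C₁ / (2 * (δ / (C₁ * C₂))) * Hn X X' = C₁ ^ 2 * C₂ / (2 * δ) * Hn X X' := by
      field_simp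
    have h6 : C₁ * (δ / (C₁ * C₂)) / 2 * Hn F F' ≤ C₁ * (δ / (C₁ * C₂)) / 2 * (C₂ * ‖m‖ ^ 2) :=
      mul_le_mul_of_nonneg_left h2 (by positivity)
    have h7 : C₁ * (δ / (C₁ * C₂)) / 2 * (C₂ * ‖m‖ ^ 2) = δ / 2 * ‖m‖ ^ 2 := by
      field_simp
    have h8 : -(I2 G z F F' F F') ≤ C₁ ^ 2 * C₂ / (2 * δ) * Hn X X' + δ / 2 * ‖m‖ ^ 2 := by
      rw [← h5]; linarith
    have h9 : C₁ ^ 2 * C₂ / δ * Hn X X' = 2 * (C₁ ^ 2 * C₂ / (2 * δ) * Hn X X') := by
      field_simp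
    rw [h9]
    linarith
  have hYYb : I2 G z Y Y' Y Y' ≤ (C₁ + C₁ ^ 2 * C₂ / δ) * Hn X X' := by
    have h1 := abs_I2_self_le hbd hz hX.fld
    have h2 := le_abs_self (I2 G z X X' X X')
    rw [hYY, add_mul]
    linarith
  -- discriminant
  have hdisc : I2 G z A A' Y Y' ^ 2 ≤ I2 G z A A' A A' * I2 G z Y Y' Y Y' := by
    have hq : ∀ s : ℝ, 0 ≤ I2 G z Y Y' Y Y' * (s * s) + (2 * I2 G z A A' Y Y') * s +
        I2 G z A A' A A' := by
      intro s
      have hsum := hA.add (hYp.smul s)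
      have h1 := nonneg_orth h hz hdim hneg' hsum ?_
      · have h2 : I2 G z (A + s • Y) (A' + s • Y') (A + s • Y) (A' + s • Y') =
            I2 G z A A' A A' + 2 * I2 G z (s • Y) (s • Y') A A' +
              I2 G z (s • Y) (s • Y') (s • Y) (s • Y') :=
          ix_add_self two_pi_nonneg hz.1 hA.fld (hYp.smul s).fld
        have h3 : I2 G z (s • Y) (s • Y') A A' = s * I2 G z Y Y' A A' := ix_smul_left s
        have h4 : I2 G z (s • Y) (s • Y') (s • Y) (s • Y') = s * (s * I2 G z Y Y' Y Y') := by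
          have e1 : I2 G z (s • Y) (s • Y') (s • Y) (s • Y') =
            s * I2 G z Y Y' (s • Y) (s • Y') := ix_smul_left s
          have e2 : I2 G z Y Y' (s • Y) (s • Y') = s * I2 G z Y Y' Y Y' := ix_smul_right s
          rw [e1, e2]
        have h5 : I2 G z Y Y' A A' = I2 G z A A' Y Y' :=
          ix_symm two_pi_nonneg hz.1 hYp.fld hA.fld
        rw [h2, h3, h4, h5] at h1
        linarith
      · intro w hw
        have e1 : I2 G z (A + s • Y) (A' + s • Y') (fd G z (nuP K) w) (fd' G z (nuP K) w) =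
            I2 G z A A' (fd G z (nuP K) w) (fd' G z (nuP K) w) +
              I2 G z (s • Y) (s • Y') (fd G z (nuP K) w) (fd' G z (nuP K) w) :=
          ix_add_left two_pi_nonneg hz.1 hA.fld (hYp.smul s).fld (fld_fd hz.1 _ _ _ _)
        have e2 : I2 G z (s • Y) (s • Y') (fd G z (nuP K) w) (fd' G z (nuP K) w) =
            s * I2 G z Y Y' (fd G z (nuP K) w) (fd' G z (nuP K) w) := ix_smul_left s
        rw [e1, e2, horth w hw, hmo w hw, mul_zero, add_zero]
    have h1 := discrim_le_zero hq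
    unfold discrim at h1
    nlinarith
  have hAA : 0 ≤ I2 G z A A' A A' := nonneg_orth h hz hdim hneg' hA horth
  rw [hAY]
  exact hdisc.trans (mul_le_mul_of_nonneg_left hYYb hAA)

end Crest.Agent.R208.CO
end
end

-- ▼ part R208/CO4
section

/-!
R208, block CO (helper286), part CO4: test fields in the parallel frame.
-/

set_option autoImplicit false

open Set Filter Topology MeasureTheory Module
open scoped ContDiff RealInnerProductSpace
open Crest.GeometryTopology.Submanifold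
open Crest.Agent.R241.DDefs
open Crest.Agent.R241.D2 hiding fd
open Crest.Agent.R208.SV Crest.Agent.R208.NN Crest.Agent.R208.J
open Crest.Agent.R208.NB (pf pf' hasDerivAt_pf continuous_pf' pf_mem der_split)

noncomputable section

namespace Crest.Agent.R208.CO

variable {n N k K : ℕ} {κ : ℝ} {S : Set (Euc N)} {G : Geo n N κ S} {z : Euc N × Euc N}
  {A A' B B' x x' : ℝ → Euc N}

local notation "π" => Real.pi

/-- a `C¹` tangent field along the whole geodesic -/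
structure TF (G : Geo n N κ S) (z : Euc N × Euc N) (A A' : ℝ → Euc N) : Prop where
  der : ∀ t, HasDerivAt A (A' t) t
  cont : Continuous A'
  mem : ∀ t, A t ∈ G.T (fl G (z, t)).1

theorem TF.fld (h : TF G z A A') (a b : ℝ) : Fld G z a b A A' :=
  ⟨fun t _ => (h.der t).hasDerivWithinAt, h.cont.continuousOn, fun t _ => h.mem t⟩

theorem TF.add (hA : TF G z A A') (hB : TF G z B B') : TF G z (A + B) (A' + B') :=
  ⟨fun t => (hA.der t).add (hB.der t), hA.cont.add hB.cont,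
    fun t => Submodule.add_mem _ (hA.mem t) (hB.mem t)⟩

theorem TF.sub (hA : TF G z A A') (hB : TF G z B B') : TF G z (A - B) (A' - B') :=
  ⟨fun t => (hA.der t).sub (hB.der t), hA.cont.sub hB.cont,
    fun t => Submodule.sub_mem _ (hA.mem t) (hB.mem t)⟩

theorem TF.continuous (hA : TF G z A A') : Continuous A :=
  continuous_iff_continuousAt.2 fun t => (hA.der t).continuousAt

/-- the test field of a curve `x` in the parallel frame -/
def tX (G : Geo n N κ S) (z : Euc N × Euc N) (x : ℝ → Euc N) (t : ℝ) : Euc N := PT G z t (x t)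

/-- its derivative -/
def tX' (G : Geo n N κ S) (z : Euc N × Euc N) (x x' : ℝ → Euc N) (t : ℝ) : Euc N :=
  Om G (fl G (z, t)) (PT G z t (x t)) + PT G z t (x' t)

theorem TF_tX (hz : z ∈ TS G) (hx : ∀ t, HasDerivAt x (x' t) t) (hx' : Continuous x')
    (hm : ∀ t, G.P z.1 (x t) = x t) : TF G z (tX G z x) (tX' G z x x') := by
  have hxc : Continuous x := continuous_iff_continuousAt.2 fun t => (hx t).continuousAt
  have hPTc : Continuous (PT G z) := (contDiff_PT hz).continuous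
  refine ⟨fun t => ?_, ?_, fun t => PT_mem hz t ((P_eq_self G hz.1).2 (hm t))⟩
  · have h1 := (hasDerivAt_PT hz t).clm_apply (hx t)
    refine h1.congr_deriv ?_
    rfl
  · exact (((contDiff_Om (G := G)).continuous.comp (continuous_fl hz)).clm_apply
      (hPTc.clm_apply hxc)).add (hPTc.clm_apply hx')

theorem pf_tX (hz : z ∈ TS G) : pf G z (tX G z x) = x := by
  funext t
  exact PTi_PT hz t _

theorem pf'_tX (hz : z ∈ TS G) (hx : ∀ t, HasDerivAt x (x' t) t) (hx' : Continuous x')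
    (hm : ∀ t, G.P z.1 (x t) = x t) : pf' G z (tX' G z x x') = x' := by
  funext t
  have hT := TF_tX hz hx hx' hm
  have h1 := hasDerivAt_pf hz hT.der hT.mem t
  rw [pf_tX hz] at h1
  exact h1.unique (hx t)

theorem pf_add (t : ℝ) : pf G z (A + B) t = pf G z A t + pf G z B t := by
  simp only [pf, Pi.add_apply, map_add]

theorem pf'_add (t : ℝ) : pf' G z (A' + B') t = pf' G z A' t + pf' G z B' t := by
  simp only [pf', Pi.add_apply, map_add]

theorem pf_sub (t : ℝ) : pf G z (A - B) t = pf G z A t - pf G z B t := by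
  simp only [pf, Pi.sub_apply, map_sub]

theorem pf'_sub (t : ℝ) : pf' G z (A' - B') t = pf' G z A' t - pf' G z B' t := by
  simp only [pf', Pi.sub_apply, map_sub]

/-- the polarised index form in the parallel frame -/
theorem ixd_pair (hz : z ∈ TS G) (hA : TF G z A A') (hB : TF G z B B') (t : ℝ) :
    ixd G z A A' B B' t = ⟪pf' G z A' t, pf' G z B' t⟫ - ⟪Rh G z t (pf G z A t), pf G z B t⟫ := by
  have hS := hA.add hB
  have e1 := NB.ixd_eq hz hS.der hS.mem t
  have e2 := NB.ixd_eq hz hA.der hA.mem t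
  have e3 := NB.ixd_eq hz hB.der hB.mem t
  have e4 : ixd G z B B' A A' t = ixd G z A A' B B' t := by
    unfold ixd
    rw [real_inner_comm, II_comm (fl_mem G hz t).1 (hB.mem t) (hA.mem t)]
  rw [ixd_add_left, ixd_add_right, ixd_add_right, e2, e3, e4, pf_add, pf'_add, map_add,
    norm_add_sq_real] at e1
  simp only [inner_add_left, inner_add_right] at e1
  have e5 : ⟪Rh G z t (pf G z B t), pf G z A t⟫ = ⟪Rh G z t (pf G z A t), pf G z B t⟫ := by
    rw [inner_Rh hz, real_inner_comm]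
  rw [e5] at e1
  linarith

theorem I2_pair (hz : z ∈ TS G) (hA : TF G z A A') (hB : TF G z B B') :
    I2 G z A A' B B' = ∫ t in (0:ℝ)..(2 * π),
      (⟪pf' G z A' t, pf' G z B' t⟫ - ⟪Rh G z t (pf G z A t), pf G z B t⟫) :=
  intervalIntegral.integral_congr fun t _ => ixd_pair hz hA hB t

/-- bounds for the tensors along geodesics -/
structure BT (G : Geo n N κ S) (M : ℝ) : Prop where
  one : 1 ≤ M
  Om : ∀ q ∈ L.US G, ‖J.Om G q‖ ≤ M
  Rm : ∀ q ∈ L.US G, ‖J.Rm G q‖ ≤ M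
  dP : ∀ q ∈ L.US G, ‖J.dP G q‖ ≤ M

theorem exists_BT (hc : IsCompact S) (G : Geo n N κ S) : ∃ M, BT G M := by
  have hUS := LB.isCompact_US (G := G) hc
  obtain ⟨M1, h1⟩ := hUS.exists_bound_of_continuousOn
    (f := fun q => J.Om G q) (contDiff_Om (G := G)).continuous.continuousOn
  obtain ⟨M2, h2⟩ := hUS.exists_bound_of_continuousOn
    (f := fun q => J.Rm G q) (contDiff_Rm (G := G)).continuous.continuousOn
  obtain ⟨M3, h3⟩ := hUS.exists_bound_of_continuousOn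
    (f := fun q => J.dP G q) (contDiff_dP (G := G)).continuous.continuousOn
  refine ⟨max 1 (max M1 (max M2 M3)), le_max_left _ _, fun q hq => ?_, fun q hq => ?_,
    fun q hq => ?_⟩
  · exact (h1 q hq).trans ((le_max_left _ _).trans (le_max_right _ _))
  · exact (h2 q hq).trans ((le_max_left _ _).trans ((le_max_right _ _).trans (le_max_right _ _)))
  · exact (h3 q hq).trans ((le_max_right _ _).trans ((le_max_right _ _).trans (le_max_right _ _)))

theorem fl_US (hz : z ∈ L.US G) (t : ℝ) : fl G (z, t) ∈ L.US G :=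
  ⟨fl_mem G hz.1 t, by rw [norm_fl G hz.1, hz.2]⟩

variable {M : ℝ}

theorem norm_Rh_le (hM : BT G M) (hz : z ∈ L.US G) (t : ℝ) : ‖Rh G z t‖ ≤ M := by
  refine ContinuousLinearMap.opNorm_le_bound _ (zero_le_one.trans hM.one) fun u => ?_
  rw [Rh_apply, norm_PTi hz.1]
  refine (ContinuousLinearMap.le_opNorm _ _).trans ?_
  rw [norm_PT hz.1]
  exact mul_le_mul_of_nonneg_right (hM.Rm _ (fl_US hz t)) (norm_nonneg _)

/-- `Hn` of a test field -/
theorem Hn_tX_le (hM : BT G M) (hz : z ∈ L.US G) (hx : ∀ t, HasDerivAt x (x' t) t)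
    (hx' : Continuous x') (h0 : x 0 = 0) :
    Hn (tX G z x) (tX' G z x x') ≤ ((1 + 2 * M ^ 2) * (2 * π) ^ 2 + 2) *
      ∫ t in (0:ℝ)..(2 * π), ‖x' t‖ ^ 2 := by
  have hxc : Continuous x := continuous_iff_continuousAt.2 fun t => (hx t).continuousAt
  have hM0 : 0 ≤ M := zero_le_one.trans hM.one
  set I := ∫ t in (0:ℝ)..(2 * π), ‖x' t‖ ^ 2 with hI
  have hpt : ∀ t ∈ Icc (0:ℝ) (2 * π), ‖tX G z x t‖ ^ 2 + ‖tX' G z x x' t‖ ^ 2 ≤
      (1 + 2 * M ^ 2) * (2 * π * I) + 2 * ‖x' t‖ ^ 2 := by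
    intro t ht
    have e1 : ‖tX G z x t‖ = ‖x t‖ := norm_PT hz.1 t _
    have e2 : ‖x t‖ ^ 2 ≤ 2 * π * I := MS.norm_sq_le_of_zero hx' hx h0 ht
    have e3 : ‖tX' G z x x' t‖ ≤ M * ‖x t‖ + ‖x' t‖ := by
      refine (norm_add_le _ _).trans (add_le_add ?_ (norm_PT hz.1 t _).le)
      refine (ContinuousLinearMap.le_opNorm _ _).trans ?_
      rw [norm_PT hz.1]
      exact mul_le_mul_of_nonneg_right (hM.Om _ (fl_US hz t)) (norm_nonneg _)
    have e4 : ‖tX' G z x x' t‖ ^ 2 ≤ (M * ‖x t‖ + ‖x' t‖) ^ 2 :=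
      pow_le_pow_left₀ (norm_nonneg _) e3 2
    rw [e1]
    have e5 : (M * ‖x t‖ + ‖x' t‖) ^ 2 ≤ 2 * M ^ 2 * ‖x t‖ ^ 2 + 2 * ‖x' t‖ ^ 2 := by
      nlinarith [sq_nonneg (M * ‖x t‖ - ‖x' t‖)]
    have e6 : (1 + 2 * M ^ 2) * ‖x t‖ ^ 2 ≤ (1 + 2 * M ^ 2) * (2 * π * I) :=
      mul_le_mul_of_nonneg_left e2 (by positivity)
    nlinarith
  have hint : IntervalIntegrable (fun t => ‖x' t‖ ^ 2) volume 0 (2 * π) :=
    (hx'.norm.pow 2).intervalIntegrable _ _
  have hint2 : IntervalIntegrable (fun t => (1 + 2 * M ^ 2) * (2 * π * I) + 2 * ‖x' t‖ ^ 2)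
      volume 0 (2 * π) := (intervalIntegrable_const).add (hint.const_mul 2)
  unfold Hn
  have hpi := Real.pi_pos
  by_cases hni : IntervalIntegrable (fun t => ‖tX G z x t‖ ^ 2 + ‖tX' G z x x' t‖ ^ 2) volume 0
      (2 * π)
  · refine (intervalIntegral.integral_mono_on two_pi_nonneg hni hint2 hpt).trans ?_
    rw [intervalIntegral.integral_add intervalIntegrable_const (hint.const_mul 2),
      intervalIntegral.integral_const, intervalIntegral.integral_const_mul]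
    rw [smul_eq_mul, sub_zero, ← hI]
    nlinarith
  · rw [intervalIntegral.integral_undef hni]
    have : 0 ≤ I := intervalIntegral.integral_nonneg two_pi_nonneg fun _ _ => by positivity
    positivity

end Crest.Agent.R208.CO
end
end

-- ▼ part R208/CO5
section

/-!
R208, block CO (helper286), part CO5: coercivity of the index form of a closed geodesic modulo the
periodic Jacobi fields, on the complement of a maximal negative space.
-/

set_option autoImplicit false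

open Set Filter Topology MeasureTheory Module
open scoped ContDiff RealInnerProductSpace
open Crest.GeometryTopology.Submanifold
open Crest.Agent.R241.DDefs
open Crest.Agent.R241.D2 hiding fd
open Crest.Agent.R208.FI (Tan)
open Crest.Agent.R208.SV Crest.Agent.R208.NN Crest.Agent.R208.J
open Crest.Agent.R208.NB (pf pf' hasDerivAt_pf continuous_pf' pf_mem der_split)

noncomputable section

namespace Crest.Agent.R208.CO

variable {n N k K : ℕ} {κ : ℝ} {S : Set (Euc N)} {G : Geo n N κ S} {z : Euc N × Euc N}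
  {A A' B B' x x' : ℝ → Euc N} {M C₁ C₂ δ : ℝ} {Nz : Submodule ℝ (Wt N K)}

local notation "π" => Real.pi

/-- `Hn` in terms of the parallel frame -/
theorem Hn_le_frame (hM : BT G M) (hz : z ∈ L.US G) (hA : TF G z A A') {r₁ r₂ : ℝ}
    (h1 : ∀ t ∈ Icc (0:ℝ) (2 * π), ‖pf G z A t‖ ≤ r₁)
    (h2 : ∫ t in (0:ℝ)..(2 * π), ‖pf' G z A' t‖ ^ 2 ≤ r₂) :
    Hn A A' ≤ (1 + 2 * M ^ 2) * (2 * π) * r₁ ^ 2 + 2 * r₂ := by
  have hM0 : 0 ≤ M := zero_le_one.trans hM.one
  have hpi := Real.pi_pos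
  have hpt : ∀ t ∈ Icc (0:ℝ) (2 * π), ‖A t‖ ^ 2 + ‖A' t‖ ^ 2 ≤
      (1 + 2 * M ^ 2) * r₁ ^ 2 + 2 * ‖pf' G z A' t‖ ^ 2 := by
    intro t ht
    have e1 : ‖A t‖ ≤ r₁ := by
      have := h1 t ht
      rwa [pf, norm_PTi hz.1] at this
    have e2 : ‖pf' G z A' t‖ = ‖G.P (fl G (z, t)).1 (A' t)‖ := by rw [pf', norm_PTi hz.1]
    have e3 : ‖A' t‖ ≤ ‖pf' G z A' t‖ + M * ‖A t‖ := by
      rw [e2]
      conv_lhs => rw [der_split hz.1 hA.der hA.mem t]
      refine (norm_add_le _ _).trans (add_le_add le_rfl ?_)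
      refine (ContinuousLinearMap.le_opNorm _ _).trans ?_
      exact mul_le_mul_of_nonneg_right (hM.dP _ (fl_US hz t)) (norm_nonneg _)
    have e4 : ‖A' t‖ ^ 2 ≤ (‖pf' G z A' t‖ + M * ‖A t‖) ^ 2 :=
      pow_le_pow_left₀ (norm_nonneg _) e3 2
    have e5 : (‖pf' G z A' t‖ + M * ‖A t‖) ^ 2 ≤ 2 * ‖pf' G z A' t‖ ^ 2 +
        2 * M ^ 2 * ‖A t‖ ^ 2 := by
      nlinarith [sq_nonneg (M * ‖A t‖ - ‖pf' G z A' t‖)]
    have e6 : ‖A t‖ ^ 2 ≤ r₁ ^ 2 := pow_le_pow_left₀ (norm_nonneg _) e1 2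
    have e7 : (1 + 2 * M ^ 2) * ‖A t‖ ^ 2 ≤ (1 + 2 * M ^ 2) * r₁ ^ 2 :=
      mul_le_mul_of_nonneg_left e6 (by positivity)
    nlinarith
  have hc : Continuous (pf' G z A') := continuous_pf' hz.1 hA.cont
  have hint : IntervalIntegrable (fun t => ‖pf' G z A' t‖ ^ 2) volume 0 (2 * π) :=
    (hc.norm.pow 2).intervalIntegrable _ _
  have hint1 : IntervalIntegrable (fun t => ‖A t‖ ^ 2 + ‖A' t‖ ^ 2) volume 0 (2 * π) :=
    ((hA.continuous.norm.pow 2).add (hA.cont.norm.pow 2)).intervalIntegrable _ _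
  unfold Hn
  refine (intervalIntegral.integral_mono_on two_pi_nonneg hint1
    (intervalIntegrable_const.add (hint.const_mul 2)) hpt).trans ?_
  rw [intervalIntegral.integral_add intervalIntegrable_const (hint.const_mul 2),
    intervalIntegral.integral_const, intervalIntegral.integral_const_mul]
  rw [smul_eq_mul, sub_zero]
  nlinarith

/-- the Jacobi field of `Tan US` with given initial data -/
theorem jac_data (h : GT.Bla G k) (hz : z ∈ L.US G) {a m : Euc N} (ha : a ∈ G.T z.1)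
    (hm : m ∈ G.T z.1) (hm0 : ⟪m, z.2⟫ = 0) :
    ((a, dP G z a + m) : Euc N × Euc N) ∈ Tan (L.US G) z ∧
      TF G z (jf G z (a, dP G z a + m)) (jf' G z (a, dP G z a + m)) ∧
      pf G z (jf G z (a, dP G z a + m)) = Wj G z a m ∧
      pf' G z (jf' G z (a, dP G z a + m)) = Wj' G z a m := by
  have hT := tanTS_of' hz.1 ha hm
  have hmem : ((a, dP G z a + m) : Euc N × Euc N) ∈ Tan (L.US G) z := by
    refine (LB.mem_Tan_US (FV.sub_S h.bl) hz).2 ⟨ha, ?_, ?_⟩
    · change dP G z a + m - G.P z.1 (dP G z a + m) = _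
      rw [map_add, dP_tangent_normal hz.1 ha, (P_eq_self G hz.1.1).1 hm, zero_add,
        add_sub_cancel_right]
      exact (dP_comm hz.1.1 ha hz.1.2).symm ▸ rfl
    · change ⟪z.2, dP G z a + m⟫ = 0
      rw [inner_add_right, real_inner_comm m z.2, hm0, add_zero]
      have e1 : G.P z.1 (dP G z a) = 0 := dP_tangent_normal hz.1 ha
      rw [← (P_eq_self G hz.1.1).1 hz.1.2, inner_P_left G hz.1.1, e1, inner_zero_right]
  have hTT := tanTS_of_Tan h hz hmem
  have hfld : TF G z (jf G z (a, dP G z a + m)) (jf' G z (a, dP G z a + m)) := by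
    refine ⟨hasDerivAt_jf hz.1 _, ?_, ?_⟩
    · have h1 : Continuous fun t => L.dfl G z t (a, dP G z a + m) :=
        continuous_iff_continuousAt.2 fun t => (L.hasDerivAt_dfl hz.1 _ t).continuousAt
      exact continuous_snd.comp h1
    · intro t
      exact (fld_jf hTT t t).mem t ⟨le_rfl, le_rfl⟩
  have hpf : pf G z (jf G z (a, dP G z a + m)) = Wj G z a m := by
    funext t
    unfold pf Wj jf JF Dfl
    rw [L.dfl_apply hz.1]
  refine ⟨hmem, hfld, hpf, ?_⟩
  funext t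
  have h1 := hasDerivAt_pf hz.1 hfld.der hfld.mem t
  rw [hpf] at h1
  exact h1.unique ((isJac_Wj hz.1 ha hm).fst t)

/-- the mean lies in the tangent space -/
theorem P_mm {E : Type*} [NormedAddCommGroup E] [InnerProductSpace ℝ E] [CompleteSpace E]
    {R : ℝ → E →L[ℝ] E} {w : ℝ → E} {T : ℝ} {P : E →L[ℝ] E} (hR : Continuous R)
    (hwc : Continuous w) (hPw : ∀ t, P (w t) = w t) (hPR : ∀ t u, P (R t u) = R t u) :
    P (mm R w T) = mm R w T := by
  have hRw : Continuous fun t => R t (w t) := hR.clm_apply hwc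
  have hbc : Continuous (bb R w) :=
    continuous_iff_continuousAt.2 fun t => (hasDerivAt_bb hR hwc t).continuousAt
  have hPb : ∀ t, P (bb R w t) = bb R w t := by
    intro t
    unfold bb
    rw [← ContinuousLinearMap.intervalIntegral_comp_comm _ (hRw.intervalIntegrable _ _)]
    congr 1
    funext s
    exact hPR s _
  rw [mm, map_smul, map_add, map_sub, hPw, hPw,
    ← ContinuousLinearMap.intervalIntegral_comp_comm _ (hbc.intervalIntegrable _ _)]
  simp_rw [hPb]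

/-- the constants -/
def ca (M : ℝ) : ℝ :=
  Real.sqrt (2 * π) * (1 + M * (2 * π) * (2 * π) * Real.exp (M * (2 * π) * (2 * π)))

def cb (M : ℝ) : ℝ := 2 + 2 * (2 * π) * (M * (2 * π)) ^ 2 * ca M ^ 2

def cr (M C₁ C₂ δ : ℝ) : ℝ := (C₁ + C₁ ^ 2 * C₂ / δ) * ((1 + 2 * M ^ 2) * (2 * π) ^ 2 + 2)

def CC (M C₁ C₂ δ : ℝ) : ℝ :=
  ((1 + 2 * M ^ 2) * (2 * π) * (4 * ca M ^ 2) + 4 * cb M + 4 * ca M ^ 2) * cr M C₁ C₂ δ

/-- **the weak Jacobi equation for a field in the complement** -/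
theorem weak_frame (h : GT.Bla G k) (hM : BT G M) (hbd : Bd G C₁) (hbf : Bf G K C₂) (hδ : 0 < δ)
    (hz : z ∈ L.US G) (hdim : finrank ℝ Nz + 1 = k)
    (hneg : ∀ w ∈ Nz, I2 G z (fd G z (nuP K) w) (fd' G z (nuP K) w)
      (fd G z (nuP K) w) (fd' G z (nuP K) w) ≤ -(δ * ‖w‖ ^ 2))
    (hA : TF G z A A') (hper : A (2 * π) = A 0)
    (horth : ∀ w ∈ Nz, I2 G z A A' (fd G z (nuP K) w) (fd' G z (nuP K) w) = 0)
    (h0 : 0 ≤ I2 G z A A' A A') :
    ∫ t in (0:ℝ)..(2 * π), ‖pf' G z A' t + bb (Rh G z) (pf G z A) t -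
      mm (Rh G z) (pf G z A) (2 * π)‖ ^ 2 ≤
      Real.sqrt (I2 G z A A' A A' * cr M C₁ C₂ δ) ^ 2 := by
  have hPF : PF G z A A' := ⟨hA.fld _ _, hper⟩
  refine weak (P := G.P z.1) (by positivity) (contDiff_Rh hz.1).continuous
    (hasDerivAt_pf hz.1 hA.der hA.mem) (continuous_pf' hz.1 hA.cont)
    (fun t => (P_eq_self G hz.1.1).1 (pf_mem hz.1 hA.mem t)) (fun t => ?_)
    (fun t u => (P_eq_self G hz.1.1).1 (Rh_mem hz.1 t u)) ?_
  · exact (P_eq_self G hz.1.1).1 (PTi_mem hz.1 t (P_mem G (fl_mem G hz.1 t).1))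
  · intro x x' hx hx' hx0 hxT hPx hPx'
    have hT := TF_tX hz.1 hx hx' hPx
    have hXP : PF G z (tX G z x) (tX' G z x x') := by
      refine ⟨hT.fld _ _, ?_⟩
      unfold tX
      rw [hxT, hx0, map_zero, map_zero]
    have e1 := I2_pair hz.1 hA hT
    rw [pf_tX hz.1, pf'_tX hz.1 hx hx' hPx] at e1
    rw [← e1]
    have e2 := cs h hbd hbf hz hdim hδ hneg hPF horth hXP
    have e3 := Hn_tX_le hM hz hx hx' hx0
    set I := ∫ t in (0:ℝ)..(2 * π), ‖x' t‖ ^ 2 with hI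
    have hI0 : 0 ≤ I := intervalIntegral.integral_nonneg two_pi_nonneg fun _ _ => by positivity
    have hC1 : 0 < C₁ := zero_lt_one.trans_le hbd.1
    have hC2 : 0 < C₂ := zero_lt_one.trans_le hbf.1
    rw [← Real.sqrt_mul' _ hI0]
    refine Real.abs_le_sqrt (e2.trans ?_)
    unfold cr
    calc I2 G z A A' A A' * ((C₁ + C₁ ^ 2 * C₂ / δ) * Hn (tX G z x) (tX' G z x x'))
        ≤ I2 G z A A' A A' * ((C₁ + C₁ ^ 2 * C₂ / δ) *
          (((1 + 2 * M ^ 2) * (2 * π) ^ 2 + 2) * I)) := by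
          refine mul_le_mul_of_nonneg_left (mul_le_mul_of_nonneg_left e3 (by positivity)) h0
      _ = _ := by ring

/-- **coercivity** of the index form modulo periodic Jacobi fields, on the complement of a maximal
negative space -/
theorem coer (h : GT.Bla G k) (hM : BT G M) (hbd : Bd G C₁) (hbf : Bf G K C₂) (hδ : 0 < δ)
    (hz : z ∈ L.US G) (hdim : finrank ℝ Nz + 1 = k)
    (hneg : ∀ w ∈ Nz, I2 G z (fd G z (nuP K) w) (fd' G z (nuP K) w)
      (fd G z (nuP K) w) (fd' G z (nuP K) w) ≤ -(δ * ‖w‖ ^ 2))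
    (hA : TF G z A A') (hper : A (2 * π) = A 0)
    (horth : ∀ w ∈ Nz, I2 G z A A' (fd G z (nuP K) w) (fd' G z (nuP K) w) = 0)
    (h0 : 0 ≤ I2 G z A A' A A') :
    ∃ ξ ∈ Tan (L.US G) z, TF G z (jf G z ξ) (jf' G z ξ) ∧
      Hn (A - jf G z ξ) (A' - jf' G z ξ) ≤ CC M C₁ C₂ δ * I2 G z A A' A A' := by
  have hpi := Real.pi_pos
  have hM0 : 0 ≤ M := zero_le_one.trans hM.one
  have hC1 : 0 < C₁ := zero_lt_one.trans_le hbd.1
  have hC2 : 0 < C₂ := zero_lt_one.trans_le hbf.1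
  have hRc : Continuous (Rh G z) := (contDiff_Rh hz.1).continuous
  have hwd := hasDerivAt_pf hz.1 hA.der hA.mem
  have hwc : Continuous (pf G z A) := continuous_iff_continuousAt.2 fun t => (hwd t).continuousAt
  have hw'c : Continuous (pf' G z A') := continuous_pf' hz.1 hA.cont
  have hPw : ∀ t, G.P z.1 (pf G z A t) = pf G z A t :=
    fun t => (P_eq_self G hz.1.1).1 (pf_mem hz.1 hA.mem t)
  have hPR : ∀ t u, G.P z.1 (Rh G z t u) = Rh G z t u :=
    fun t u => (P_eq_self G hz.1.1).1 (Rh_mem hz.1 t u)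
  set m := mm (Rh G z) (pf G z A) (2 * π) with hm
  have hmT : m ∈ G.T z.1 := (P_eq_self G hz.1.1).2 (P_mm hRc hwc hPw hPR)
  have haT : A 0 ∈ G.T z.1 := by
    have := hA.mem 0
    rwa [fl_zero] at this
  have hz1 : ⟪z.2, z.2⟫ = (1:ℝ) := by rw [real_inner_self_eq_norm_sq, hz.2, one_pow]
  set c := ⟪m, z.2⟫ with hc
  set m₁ := m - c • z.2 with hm₁
  have hm₁T : m₁ ∈ G.T z.1 := Submodule.sub_mem _ hmT (Submodule.smul_mem _ _ hz.1.2)
  have hm₁0 : ⟪m₁, z.2⟫ = 0 := by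
    rw [hm₁, inner_sub_left, inner_smul_left, hz1, ← hc]; simp
  obtain ⟨hξ, hTF, hj, hj'⟩ := jac_data h hz haT hm₁T hm₁0
  refine ⟨_, hξ, hTF, ?_⟩
  set ξ : Euc N × Euc N := (A 0, dP G z (A 0) + m₁) with hξd
  have he := weak_frame h hM hbd hbf hδ hz hdim hneg hA hper horth h0
  set r := Real.sqrt (I2 G z A A' A A' * cr M C₁ C₂ δ) with hr
  have hr0 : 0 ≤ r := Real.sqrt_nonneg _
  have hJac := (isJac_Wj hz.1 haT hm₁T).add ((NB.isJac_lin hz.1).smul c)
  have hj00 : Wj G z (A 0) m₁ 0 + c • ((0:ℝ) • z.2) = pf G z A 0 := by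
    rw [Wj_zero, pf, PTi_zero_apply, zero_smul, smul_zero, add_zero]
  have hj10 : Wj' G z (A 0) m₁ 0 + c • z.2 = m := by
    rw [Wj'_zero hz.1 haT hm₁T, hm₁, sub_add_cancel]
  obtain ⟨k1, k2⟩ := compare (T := 2 * π) (by positivity) hRc hM0
    (fun t _ => norm_Rh_le hM hz t) hwd hw'c hJac hj00 hj10 hr0 he
  have k1' : ∀ t ∈ Icc (0:ℝ) (2 * π), ‖pf G z A t - (Wj G z (A 0) m₁ t + c • (t • z.2))‖ ≤
      ca M * r := k1
  have k2' : ∫ t in (0:ℝ)..(2 * π), ‖pf' G z A' t - (Wj' G z (A 0) m₁ t + c • z.2)‖ ^ 2 ≤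
      cb M * r ^ 2 := k2
  -- the tangential part
  have hcle : 2 * π * |c| ≤ ca M * r := by
    have e1 := k1' (2 * π) ⟨by positivity, le_rfl⟩
    have e2 : pf G z A (2 * π) = Wj G z (A 0) m₁ (2 * π) := by
      rw [← hj, pf, pf, hper]
      unfold jf
      rw [dfl_two_pi h hz hξ]
    rw [e2, sub_add_cancel_left, norm_neg, norm_smul, norm_smul, hz.2, mul_one, Real.norm_eq_abs,
      Real.norm_eq_abs, abs_of_pos (by positivity : (0:ℝ) < 2 * π)] at e1
    linarith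
  have f1 : ∀ t ∈ Icc (0:ℝ) (2 * π), ‖pf G z (A - jf G z ξ) t‖ ≤ 2 * (ca M * r) := by
    intro t ht
    have e1 := k1' t ht
    have e2 : pf G z (A - jf G z ξ) t = (pf G z A t - (Wj G z (A 0) m₁ t + c • (t • z.2))) +
        c • (t • z.2) := by
      rw [pf_sub, hj]; abel
    rw [e2]
    refine (norm_add_le _ _).trans ?_
    have e3 : ‖c • (t • z.2)‖ ≤ ca M * r := by
      rw [norm_smul, norm_smul, hz.2, mul_one, Real.norm_eq_abs, Real.norm_eq_abs,
        abs_of_nonneg ht.1]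
      calc |c| * t ≤ |c| * (2 * π) := mul_le_mul_of_nonneg_left ht.2 (abs_nonneg _)
        _ = 2 * π * |c| := by ring
        _ ≤ _ := hcle
    linarith
  have hcac : Continuous (fun t => pf' G z A' t - (Wj' G z (A 0) m₁ t + c • z.2)) := by
    have hWc : Continuous (Wj' G z (A 0) m₁) :=
      continuous_iff_continuousAt.2 fun t => ((isJac_Wj hz.1 haT hm₁T).snd t).continuousAt
    exact hw'c.sub (hWc.add continuous_const)
  have f2 : ∫ t in (0:ℝ)..(2 * π), ‖pf' G z (A' - jf' G z ξ) t‖ ^ 2 ≤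
      2 * (cb M * r ^ 2) + 2 * (ca M * r) ^ 2 := by
    have hc1 : Continuous (pf' G z (A' - jf' G z ξ)) :=
      continuous_pf' hz.1 (hA.cont.sub hTF.cont)
    have hi : IntervalIntegrable (fun t => ‖pf' G z A' t - (Wj' G z (A 0) m₁ t + c • z.2)‖ ^ 2)
        volume 0 (2 * π) := (hcac.norm.pow 2).intervalIntegrable _ _
    have e1 : ∫ t in (0:ℝ)..(2 * π), ‖pf' G z (A' - jf' G z ξ) t‖ ^ 2 ≤
        ∫ t in (0:ℝ)..(2 * π), (2 * ‖pf' G z A' t - (Wj' G z (A 0) m₁ t + c • z.2)‖ ^ 2 +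
          2 * c ^ 2) := by
      refine intervalIntegral.integral_mono_on two_pi_nonneg
        ((hc1.norm.pow 2).intervalIntegrable _ _)
        ((hi.const_mul 2).add intervalIntegrable_const) fun t _ => ?_
      have e2 : pf' G z (A' - jf' G z ξ) t = (pf' G z A' t - (Wj' G z (A 0) m₁ t + c • z.2)) +
          c • z.2 := by
        rw [pf'_sub, hj']; abel
      have e3 : ‖c • z.2‖ = |c| := by rw [norm_smul, hz.2, mul_one, Real.norm_eq_abs]
      have e4 := norm_add_le (pf' G z A' t - (Wj' G z (A 0) m₁ t + c • z.2)) (c • z.2)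
      rw [← e2, e3] at e4
      have e5 := pow_le_pow_left₀ (norm_nonneg _) e4 2
      have e6 := sq_abs c
      nlinarith [sq_nonneg (‖pf' G z A' t - (Wj' G z (A 0) m₁ t + c • z.2)‖ - |c|)]
    refine e1.trans ?_
    rw [intervalIntegral.integral_add (hi.const_mul 2) intervalIntegrable_const,
      intervalIntegral.integral_const_mul, intervalIntegral.integral_const, smul_eq_mul, sub_zero]
    have e7 : 2 * π * (2 * c ^ 2) ≤ 2 * (ca M * r) ^ 2 := by
      have e8 : (2 * π * |c|) ^ 2 ≤ (ca M * r) ^ 2 := pow_le_pow_left₀ (by positivity) hcle 2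
      have e9 : (2 * π * |c|) ^ 2 = (2 * π) ^ 2 * c ^ 2 := by rw [mul_pow, sq_abs]
      have e10 : 2 * π ≤ (2 * π) ^ 2 := by nlinarith [Real.pi_gt_three]
      nlinarith [sq_nonneg c, mul_le_mul_of_nonneg_right e10 (sq_nonneg c)]
    linarith
  have hfin := Hn_le_frame hM hz (hA.sub hTF) f1 f2
  have hcr : 0 ≤ cr M C₁ C₂ δ := by unfold cr; positivity
  have hr2 : r ^ 2 = I2 G z A A' A A' * cr M C₁ C₂ δ := Real.sq_sqrt (mul_nonneg h0 hcr)
  refine hfin.trans (le_of_eq ?_)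
  unfold CC
  have : (2 * (ca M * r)) ^ 2 = 4 * ca M ^ 2 * r ^ 2 := by ring
  rw [this, mul_pow, hr2]
  ring

end Crest.Agent.R208.CO
end
end

-- ▼ part R208/CO6

/-!
R208, block CO (helper286), part CO6 = (U2): for `C¹` periodic tangent fields `A` along the closed
geodesic of `z`, `L²`-orthogonal to all periodic Jacobi fields,
`c₀ ‖A‖²_{H¹} ≤ ix(A,A) + C ‖n(A)‖²`, where `n(A) = npr z A` is the negative part.
-/

set_option autoImplicit false

open Set Filter Topology MeasureTheory Module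
open scoped ContDiff RealInnerProductSpace
open Crest.GeometryTopology.Submanifold
open Crest.Agent.R241.DDefs
open Crest.Agent.R241.D2 hiding fd
open Crest.Agent.R208.FI (Tan)
open Crest.Agent.R208.SV Crest.Agent.R208.NN Crest.Agent.R208.J
open Crest.Agent.R208.NB (NegB npr)

noncomputable section

namespace Crest.Agent.R208.CO

variable {n N k K : ℕ} {κ : ℝ} {S : Set (Euc N)} {G : Geo n N κ S} {z : Euc N × Euc N}
  {A A' B B' : ℝ → Euc N} {M C₁ C₂ δ : ℝ} {PN : Euc N × Euc N → Wt N K →L[ℝ] Wt N K}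

local notation "π" => Real.pi

theorem TF_fd (hz : z ∈ TS G) (ν : Fin K → ℝ) (w : Wt N K) :
    TF G z (fd G z ν w) (fd' G z ν w) :=
  ⟨hasDerivAt_fd hz ν w, continuous_fd' hz ν w, fun t => fd_mem hz ν w t⟩

/-- coercivity for the negative bundle `PN`: distance to the periodic Jacobi fields -/
theorem coer_NegB (h : GT.Bla G k) (hc : IsCompact S) (H : NegB G (k - 1) (nuP K) δ PN) :
    ∃ C : ℝ, 1 ≤ C ∧ ∀ z ∈ L.US G, ∀ A A', TF G z A A' → A (2 * π) = A 0 →
      (∀ m, PN z m = m → I2 G z A A' (fd G z (nuP K) m) (fd' G z (nuP K) m) = 0) →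
      ∃ ξ ∈ Tan (L.US G) z, TF G z (jf G z ξ) (jf' G z ξ) ∧
        Hn (A - jf G z ξ) (A' - jf' G z ξ) ≤ C * I2 G z A A' A A' := by
  obtain ⟨M, hM⟩ := exists_BT hc G
  obtain ⟨C₁, hbd⟩ := exists_Bd (G := G) hc
  obtain ⟨C₂, hbf⟩ := exists_Bf (G := G) hc K
  refine ⟨max 1 (CC M C₁ C₂ δ), le_max_left _ _, fun z hz A A' hA hper horth => ?_⟩
  have h0 : 0 ≤ I2 G z A A' A A' := H.compl_nonneg h hz (hA.fld _ _) hper horth
  have hmem : ∀ w ∈ LinearMap.range (PN z : Wt N K →ₗ[ℝ] Wt N K), PN z w = w := by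
    rintro w ⟨u, rfl⟩
    exact H.idem z u
  have hk := finrank_V0 h hz
  have hdim : finrank ℝ (LinearMap.range (PN z : Wt N K →ₗ[ℝ] Wt N K)) + 1 = k := by
    rw [H.rank z hz]; omega
  obtain ⟨ξ, hξ, hTF, hle⟩ := coer h hM hbd hbf H.pos_δ hz hdim
    (fun w hw => H.ix_neg hz (hmem w hw)) hA hper (fun w hw => horth w (hmem w hw)) h0
  exact ⟨ξ, hξ, hTF, hle.trans (mul_le_mul_of_nonneg_right (le_max_right _ _) h0)⟩

theorem intble_normsq (hA : TF G z A A') : IntervalIntegrable (fun t => ‖A t‖ ^ 2) volume 0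
    (2 * π) := (hA.continuous.norm.pow 2).intervalIntegrable _ _

theorem intble_normsq' (hA : TF G z A A') : IntervalIntegrable (fun t => ‖A' t‖ ^ 2) volume 0
    (2 * π) := (hA.cont.norm.pow 2).intervalIntegrable _ _

theorem Hn_eq (hA : TF G z A A') : Hn A A' = (∫ t in (0:ℝ)..(2 * π), ‖A t‖ ^ 2) +
    ∫ t in (0:ℝ)..(2 * π), ‖A' t‖ ^ 2 :=
  intervalIntegral.integral_add (intble_normsq hA) (intble_normsq' hA)

/-- Gårding -/
theorem garding (hbd : Bd G C₁) (hz : z ∈ L.US G) (hA : TF G z A A') :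
    ∫ t in (0:ℝ)..(2 * π), ‖A' t‖ ^ 2 ≤ I2 G z A A' A A' +
      C₁ * ∫ t in (0:ℝ)..(2 * π), ‖A t‖ ^ 2 := by
  have hfl := hA.fld 0 (2 * π)
  have hi : IntervalIntegrable (fun t => ixd G z A A' A A' t) volume 0 (2 * π) :=
    hfl.intble hz.1 two_pi_nonneg hfl
  unfold I2 ix
  rw [← intervalIntegral.integral_const_mul, ← intervalIntegral.integral_add hi
    ((intble_normsq hA).const_mul _)]
  refine intervalIntegral.integral_mono_on two_pi_nonneg (intble_normsq' hA)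
    (hi.add ((intble_normsq hA).const_mul _)) fun t _ => ?_
  have h1 := hbd.2 z hz A (fun _ => 0) A (fun _ => 0) t
  have h2 : ixd G z A A' A A' t = ‖A' t‖ ^ 2 + ixd G z A (fun _ => 0) A (fun _ => 0) t := by
    unfold ixd
    rw [real_inner_self_eq_norm_sq, inner_zero_left]
    ring
  rw [norm_zero, mul_zero, add_zero] at h1
  have h3 := neg_abs_le (ixd G z A (fun _ => 0) A (fun _ => 0) t)
  rw [h2]
  nlinarith

/-- **(U2)** -/
theorem U2 (h : GT.Bla G k) (hc : IsCompact S) (H : NegB G (k - 1) (nuP K) δ PN) :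
    ∃ c₀ C : ℝ, 0 < c₀ ∧ 0 ≤ C ∧ ∀ z ∈ L.US G, ∀ A A', TF G z A A' → A (2 * π) = A 0 →
      (∀ ξ ∈ Tan (L.US G) z, ∫ t in (0:ℝ)..(2 * π), ⟪A t, jf G z ξ t⟫ = 0) →
      c₀ * Hn A A' ≤ ix G z 0 (2 * π) A A' A A' + C * ‖npr G (nuP K) δ PN z A‖ ^ 2 := by
  obtain ⟨C₁, hbd⟩ := exists_Bd (G := G) hc
  obtain ⟨C₂, hbf⟩ := exists_Bf (G := G) hc K
  obtain ⟨Q, hQ1, hQ⟩ := coer_NegB h hc H
  have hC1 : 0 < C₁ := zero_lt_one.trans_le hbd.1
  have hC2 : 0 < C₂ := zero_lt_one.trans_le hbf.1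
  have hQ0 : 0 < Q := zero_lt_one.trans_le hQ1
  refine ⟨1 / (1 + 2 * (1 + C₁) * Q), (1 / (1 + 2 * (1 + C₁) * Q)) * ((1 + C₁) *
    (2 * C₂ + 2 * Q * (C₁ * C₂))), by positivity, by positivity, fun z hz A A' hA hper hJ => ?_⟩
  set w := npr G (nuP K) δ PN z A with hw
  obtain ⟨hw1, hBf, horth, hB0, hsplit⟩ := H.decomp h hz (hA.fld _ _) hper hw.symm
  have hF := TF_fd hz.1 (nuP K) w
  have hB := hA.sub hF
  have hBper : (A - fd G z (nuP K) w) (2 * π) = (A - fd G z (nuP K) w) 0 := by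
    rw [Pi.sub_apply, Pi.sub_apply, hper, fd_two_pi h hz]
  obtain ⟨ξ, hξ, hTJ, hle⟩ := hQ z hz _ _ hB hBper horth
  have hJξ := hJ ξ hξ
  -- `L²` estimate
  have hE := hB.sub hTJ
  set IB := I2 G z (A - fd G z (nuP K) w) (A' - fd' G z (nuP K) w) (A - fd G z (nuP K) w)
    (A' - fd' G z (nuP K) w) with hIB
  set IF := I2 G z (fd G z (nuP K) w) (fd' G z (nuP K) w) (fd G z (nuP K) w)
    (fd' G z (nuP K) w) with hIF
  have hsplit' : I2 G z A A' A A' = IB + IF := hsplit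
  have hFn : Hn (fd G z (nuP K) w) (fd' G z (nuP K) w) ≤ C₂ * ‖w‖ ^ 2 := hbf.2 z hz w
  have hIFle : |IF| ≤ C₁ * (C₂ * ‖w‖ ^ 2) :=
    (abs_I2_self_le hbd hz (hF.fld _ _)).trans (mul_le_mul_of_nonneg_left hFn hC1.le)
  have hL2 : ∫ t in (0:ℝ)..(2 * π), ‖A t‖ ^ 2 ≤ 2 * (C₂ * ‖w‖ ^ 2) + 2 * (Q * IB) := by
    have hAc := hA.continuous
    have hJc := hTJ.continuous
    have hFc := hF.continuous
    have hEc := hE.continuous
    have e1 : ∫ t in (0:ℝ)..(2 * π), ‖A t‖ ^ 2 ≤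
        ∫ t in (0:ℝ)..(2 * π), ‖A t - jf G z ξ t‖ ^ 2 := by
      have e2 : ∫ t in (0:ℝ)..(2 * π), ‖A t - jf G z ξ t‖ ^ 2 =
          (∫ t in (0:ℝ)..(2 * π), ‖A t‖ ^ 2) - 2 * (∫ t in (0:ℝ)..(2 * π), ⟪A t, jf G z ξ t⟫) +
            ∫ t in (0:ℝ)..(2 * π), ‖jf G z ξ t‖ ^ 2 := by
        simp_rw [norm_sub_sq_real]
        rw [intervalIntegral.integral_add (Continuous.intervalIntegrable (by fun_prop) _ _)
          (Continuous.intervalIntegrable (by fun_prop) _ _), intervalIntegral.integral_sub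
          (Continuous.intervalIntegrable (by fun_prop) _ _)
          (Continuous.intervalIntegrable (by fun_prop) _ _), intervalIntegral.integral_const_mul]
      rw [e2, hJξ]
      have e3 : 0 ≤ ∫ t in (0:ℝ)..(2 * π), ‖jf G z ξ t‖ ^ 2 :=
        intervalIntegral.integral_nonneg two_pi_nonneg fun _ _ => by positivity
      linarith
    have e4 : ∫ t in (0:ℝ)..(2 * π), ‖A t - jf G z ξ t‖ ^ 2 ≤
        ∫ t in (0:ℝ)..(2 * π), (2 * ‖fd G z (nuP K) w t‖ ^ 2 +
          2 * ‖(A - fd G z (nuP K) w - jf G z ξ) t‖ ^ 2) := by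
      refine intervalIntegral.integral_mono_on two_pi_nonneg
        (Continuous.intervalIntegrable (by fun_prop) _ _)
        (Continuous.intervalIntegrable (by fun_prop) _ _) fun t _ => ?_
      have e5 : A t - jf G z ξ t = fd G z (nuP K) w t + (A - fd G z (nuP K) w - jf G z ξ) t := by
        simp only [Pi.sub_apply]; abel
      rw [e5]
      have e6 := norm_add_le (fd G z (nuP K) w t) ((A - fd G z (nuP K) w - jf G z ξ) t)
      have e7 := pow_le_pow_left₀ (norm_nonneg _) e6 2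
      nlinarith [sq_nonneg (‖fd G z (nuP K) w t‖ - ‖(A - fd G z (nuP K) w - jf G z ξ) t‖)]
    rw [intervalIntegral.integral_add (Continuous.intervalIntegrable (by fun_prop) _ _)
      (Continuous.intervalIntegrable (by fun_prop) _ _), intervalIntegral.integral_const_mul,
      intervalIntegral.integral_const_mul] at e4
    have e8 := Hn_eq hF
    have e9 := Hn_eq hE
    have e10 : 0 ≤ ∫ t in (0:ℝ)..(2 * π), ‖fd' G z (nuP K) w t‖ ^ 2 :=
      intervalIntegral.integral_nonneg two_pi_nonneg fun _ _ => by positivity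
    have e11 : 0 ≤ ∫ t in (0:ℝ)..(2 * π), ‖(A' - fd' G z (nuP K) w - jf' G z ξ) t‖ ^ 2 :=
      intervalIntegral.integral_nonneg two_pi_nonneg fun _ _ => by positivity
    linarith
  have hg := garding hbd hz hA
  have hHn := Hn_eq hA
  have hIF1 := (abs_le.1 hIFle).1
  have key : Hn A A' ≤ (1 + 2 * (1 + C₁) * Q) * I2 G z A A' A A' +
      ((1 + C₁) * (2 * C₂ + 2 * Q * (C₁ * C₂))) * ‖w‖ ^ 2 := by
    have e1 : Hn A A' ≤ I2 G z A A' A A' + (1 + C₁) * (2 * (C₂ * ‖w‖ ^ 2) + 2 * (Q * IB)) := by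
      have := mul_le_mul_of_nonneg_left hL2 (by positivity : 0 ≤ 1 + C₁)
      rw [hHn]
      nlinarith
    have e2 : IB ≤ I2 G z A A' A A' + C₁ * (C₂ * ‖w‖ ^ 2) := by rw [hsplit']; linarith
    have e3 : (1 + C₁) * (2 * (C₂ * ‖w‖ ^ 2) + 2 * (Q * IB)) ≤
        (1 + C₁) * (2 * (C₂ * ‖w‖ ^ 2) + 2 * (Q * (I2 G z A A' A A' + C₁ * (C₂ * ‖w‖ ^ 2)))) := by
      have := mul_le_mul_of_nonneg_left e2 hQ0.le
      exact mul_le_mul_of_nonneg_left (by linarith) (by positivity)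
    refine (e1.trans (add_le_add le_rfl e3)).trans (le_of_eq ?_)
    ring
  have hpos : 0 < 1 + 2 * (1 + C₁) * Q := by positivity
  have e := mul_le_mul_of_nonneg_left key (by positivity : 0 ≤ 1 / (1 + 2 * (1 + C₁) * Q))
  refine e.trans (le_of_eq ?_)
  change _ = I2 G z A A' A A' + _
  field_simp

end Crest.Agent.R208.CO
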