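import Crest.Agent.R208.TI4

/-! Row 208, block (X0) (helper595).  TI5: the cohomology of `F` in even degrees `< n - 1`, and the
same statements in the rings `H X`. -/

set_option autoImplicit false
set_option linter.unusedSectionVars false

open MeasureTheory Set Filter Topology Module
open scoped ContDiff RealInnerProductSpace
open Crest.GeometryTopology.Submanifold
open Crest.Agent.R241.DDefs
open Crest.Agent.R241.D2
open Crest.Agent.R208.F Crest.Agent.R208.FI Crest.Agent.R208.CW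

noncomputable section

namespace Crest.Agent.R208.T

variable {n N k : ℕ} {κ : ℝ} {S : Set (Euc N)} {G : Geo n N κ S} {p : Euc N}
  {ι : Type} [Fintype ι] [DecidableEq ι] {W : Euc N × Euc N → (ι × Fin 2 → Fin N) → ℝ}
  {x : Euc N → Ext (Euc N)}

/-- restriction of the orientation to the fibre `C_p` (second projection) -/
theorem OR_Cut (h : GT.Bla G k) (hp : p ∈ S) (hW : OR (GT.FF S) (FV.PVB h) W) :
    OR (GP.Cut S p) (FV.PC h p) (fun q => W (q, p)) :=
  GP.OR.comp hW (f := fun q => (q, p)) (fun _ _ => contDiffAt_id.prodMk contDiffAt_const)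
    fun _ hq => FV.Cut_swap hp hq

theorem exists_OR_FF (h : GT.Bla G k) (hk : 2 ≤ k) (hn : 3 ≤ n) (hι : 2 * Fintype.card ι = k) :
    ∃ W : Euc N × Euc N → (ι × Fin 2 → Fin N) → ℝ, OR (GT.FF S) (FV.PVB h) W :=
  GP.exists_OR_V h.bl h.ty hk hn (FV.sub_S h.bl) hι

theorem pb2_FF (h : GT.Bla G k) (hk : 2 ≤ k) (hkn : k < n)
    (hι : 2 * Fintype.card ι = k) (hW : OR (GT.FF S) (FV.PVB h) W) :
    PB2 (GT.FF S) (FV.PVB h) k (eR (FV.PVB h) W) := by
  have : Nonempty ι := Fintype.card_pos_iff.1 (by omega)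
  have := pb2_of_OR (FV.sub_FF' h (d := 2 * n - k) (by omega)) (FV.preconn_FF' h (by omega)) hW
  rwa [hι] at this


theorem pb1_S (h : GT.Bla G k) (hk : 2 ≤ k) (hne : Even n) : PB1 S G.P n := by
  obtain ⟨m, hm⟩ := hne
  have hn1 := h.bl.hn
  have hι : 2 * Fintype.card (Fin m) = n := by rw [Fintype.card_fin]; omega
  obtain ⟨Wt, hW⟩ := GP.exists_OR_S (G := G) h.bl h.ty hk hι
  have : Nonempty (Fin m) := ⟨⟨0, by omega⟩⟩
  have hc : IsPreconnected S := h.bl.conn.isPreconnected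
  have := pb1_of_OR (FV.sub_S h.bl) hc hW
  rwa [hι] at this

/-- **(I5)** closed forms of even degree `< n - 1` on `F` -/
theorem FF_classes (h : GT.Bla G k) (hk : 2 ≤ k) (hkn : k < n) (hke : Even k) (hne : Even n)
    (hp : p ∈ S) (hι : 2 * Fintype.card ι = k) (hW : OR (GT.FF S) (FV.PVB h) W)
    (sx : Sm S x) (cx : Cl S x) (dx : Hom k x)
    (ex : Eqv (GP.Cut S p) x (eR (FV.PC h p) (fun q => W (q, p)))) (j : ℕ)
    (b : Euc N × Euc N → Ext (Euc N × Euc N)) (hj : Even j) (hjn : j + 1 < n)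
    (hb : Sm (GT.FF S) b) (hc : Cl (GT.FF S) b) (hd : Hom j b) :
    ∃ f : ℕ → ℝ, (¬ k ∣ j → ∀ a, f a = 0) ∧
      Coh (GT.FF S) b (∑ a ∈ Finset.range (j / k + 1),
        f a • (F.pull Prod.fst x ^ a * eR (FV.PVB h) W ^ (j / k - a))) :=
  F_classes (S := S) (PS := G.P) (PX := FV.PVB h) (π₁ := Prod.fst) (fS := FV.dn) (gS := FV.up G)
    (FV.sub_FF' h (d := 2 * n - k) (by omega)) (FV.preconn_FF' h (by omega))
    ⟨fun _ _ => contDiffAt_fst, fun _ hz => hz.1⟩ (FV.smap_dn h) (FV.smap_up h)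
    (fun _ hz => FV.up_dn h hz) (fun _ _ => rfl) (pb1_S h hk hne) (pb2_FF h hk hkn hι hW) (by omega)
    hke sx cx dx hW.ec_eR.sm hW.ec_eR.cl
    (fun i a h1 h2 sa ca da => S_classes h hk hkn hp hι (OR_Cut h hp hW) sx cx dx ex i a h1 h2 sa ca
      da) j b hj hjn hb hc hd

/-! ### the same in `H X` -/
section ring

theorem HD_zero_eq {E : Type*} [NormedAddCommGroup E] [NormedSpace ℝ E] [FiniteDimensional ℝ E]
    {X : Set E} {d : ℕ} (hX : Sub d X) (hc : IsPreconnected X) {c : CW.H X} (h : c ∈ HD X 0) :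
    ∃ z : ℂ, c = z • 1 := by
  obtain ⟨C, hC⟩ := HD_span (j := 0) (Finset.univ : Finset (Fin 1)) (w := fun _ => 1)
    (fun _ => EC.one) (fun b sb cb db => by
      obtain ⟨c, hc⟩ := const_of_closed hX hc sb cb db
      refine ⟨fun _ => c, Coh.of_eqv (Eqv.of_eq fun y hy => ?_)⟩
      rw [hc y hy, Fin.sum_univ_one, Pi.smul_apply, Pi.one_apply,
        Algebra.algebraMap_eq_smul_one]) h
  exact ⟨C 0, by rw [hC, Fin.sum_univ_one, rcl_one]⟩


/-- (I4) in `H S` -/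
theorem S_HD {W : Euc N → (ι × Fin 2 → Fin N) → ℝ} (h : GT.Bla G k) (hk : 2 ≤ k) (hkn : k < n)
    (hp : p ∈ S) (hι : 2 * Fintype.card ι = k) (hW : OR (GP.Cut S p) (FV.PC h p) W)
    (hx : EC S x) (dx : Hom k x) (ex : Eqv (GP.Cut S p) x (eR (FV.PC h p) W)) {j : ℕ}
    (hjn : 2 * j < n) {c : CW.H S} (hc : c ∈ HD S (2 * j)) :
    (∃ z : ℂ, c = z • rcl hx ^ (2 * j / k)) ∧ (¬ k ∣ 2 * j → c = 0) := by
  rcases Nat.eq_zero_or_pos j with rfl | hj
  · obtain ⟨z, hz⟩ := HD_zero_eq (FV.sub_S h.bl) h.bl.conn.isPreconnected hc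
    refine ⟨⟨z, ?_⟩, fun h => absurd (dvd_zero k) h⟩
    rw [hz, mul_zero, Nat.zero_div, pow_zero]
  constructor
  · obtain ⟨C, hC⟩ := HD_span (Finset.univ : Finset (Fin 1))
      (w := fun _ => x ^ (2 * j / k)) (fun _ => hx.pow _)
      (fun b sb cb db => by
        obtain ⟨c, -, hc⟩ := S_classes h hk hkn hp hι hW hx.sm hx.cl dx ex (2 * j) b (by omega)
          hjn sb cb db
        exact ⟨fun _ => c, by rw [Fin.sum_univ_one]; exact hc⟩) hc
    refine ⟨C 0, ?_⟩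
    rw [hC, Fin.sum_univ_one, rcl_pow]
  · intro hd
    have h0 := HD_eq_bot (X := S) (j := j) fun b sb cb db => by
      obtain ⟨c, hc0, hc⟩ := S_classes h hk hkn hp hι hW hx.sm hx.cl dx ex (2 * j) b (by omega)
          hjn sb cb db
      rwa [hc0 hd, zero_smul] at hc
    rw [h0] at hc
    exact (Submodule.mem_bot ℂ).1 hc

theorem smap_fst_FF : SMap (GT.FF S) S (Prod.fst : Euc N × Euc N → Euc N) :=
  ⟨fun _ _ => contDiffAt_fst, fun _ hz => hz.1⟩

theorem smap_snd_FF : SMap (GT.FF S) S (Prod.snd : Euc N × Euc N → Euc N) :=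
  ⟨fun _ _ => contDiffAt_snd, fun _ hz => hz.2.1⟩


end ring

end Crest.Agent.R208.T
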