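import Crest.Agent.R208.TX5
import Crest.Agent.R208.TI5
import Crest.Agent.R208.FG1d
import Crest.Agent.R208.GP2e

-- ▼ part R208/TX6
section

/-! Row 208, block T (helper316).  TX6: (X1a) `k ∣ n`, `∫_{C_p} e^(m-1) ≠ 0`, and (X1b)
`snd^* x ~ fst^* x - ε` on `F`. -/

set_option autoImplicit false
set_option linter.unusedSectionVars false

open MeasureTheory Set Filter Topology Module
open scoped ContDiff RealInnerProductSpace
open Crest.GeometryTopology.Submanifold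
open Crest.Agent.R241.DDefs
open Crest.Agent.R241.D2
open Crest.Agent.R208.F Crest.Agent.R208.FI Crest.Agent.R208.CW

noncomputable section

namespace Crest.Agent.R208.T

universe u u' w w'

section classes
variable {E : Type u} {E₂ : Type u'} {H₂ : Type w'}
  [NormedAddCommGroup E] [NormedSpace ℝ E] [FiniteDimensional ℝ E]
  [NormedAddCommGroup E₂] [NormedSpace ℝ E₂] [FiniteDimensional ℝ E₂]
  [NormedAddCommGroup H₂] [InnerProductSpace ℝ H₂] [FiniteDimensional ℝ H₂]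
  {S C : Set E} {X : Set E₂} {PX : E₂ → H₂ →L[ℝ] H₂} {p : E}
  {π₁ π₂ : E₂ → E} {ιC : E → E₂} {n k d j : ℕ} {ep : E₂ → Ext E₂} {x e : E → Ext E}

/-- restriction of `π₁^* x`, `π₂^* x` to the fibre `C` of `π₂` -/
theorem restr_class (hπ₁ : SMap X S π₁) (hπ₂ : SMap X S π₂) (hk : 1 ≤ k)
    (dx : Hom k x) (hι : SMap C X ιC) (hCS : C ⊆ S) (hι1 : ∀ q ∈ C, π₁ (ιC q) = q)
    (hι2 : ∀ q ∈ C, π₂ (ιC q) = p) :
    Eqv C (F.pull ιC (F.pull π₁ x)) x ∧ Eqv C (F.pull ιC (F.pull π₂ x)) 0 := by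
  constructor
  · exact (eqv_pull_pull hι hπ₁ ⟨fun _ _ => contDiffAt_id, fun q hq => hCS hq⟩ hι1 x).trans
        (Eqv.of_eq fun q _ => F.pull_id x q)
  · rcases C.eq_empty_or_nonempty with hC | ⟨q₀, hq₀⟩
    · exact Eqv.of_eq fun q hq => by rw [hC] at hq; exact hq.elim
    · have hp : p ∈ S := by rw [← hι2 q₀ hq₀]; exact hπ₂.maps (hι.maps hq₀)
      refine (eqv_pull_pull (k := fun _ => p) hι hπ₂ ⟨fun _ _ => contDiffAt_const, fun q _ => hp⟩
        hι2 x).trans ?_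
      rw [pull_const_map hk dx]; exact Eqv.refl _

/-- **(X1b)** the class of the second projection; the fibre over `p` is a fibre of `π₂` -/
theorem snd_class' (hπ₁ : SMap X S π₁) (hπ₂ : SMap X S π₂) (hk : 1 ≤ k)
    (sx : Sm S x) (cx : Cl S x) (dx : Hom k x)
    (hF : ∀ b, Sm X b → Cl X b → Hom k b → ∃ s t : ℝ, Coh X b (s • F.pull π₁ x + t • ep))
    (hι : SMap C X ιC) (hCS : C ⊆ S) (hι1 : ∀ q ∈ C, π₁ (ιC q) = q) (hι2 : ∀ q ∈ C, π₂ (ιC q) = p)
    (hε : Coh C (F.pull ιC ep) e) (hxC : Coh C x e) (hne : ¬ Coh C e 0)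
    (hsph : Coh (Sph X PX) (F.pull Prod.fst ep) 0)
    (hhom : Coh (Sph X PX) (F.pull Prod.fst (F.pull π₁ x)) (F.pull Prod.fst (F.pull π₂ x)))
    (hxU : ¬ Coh (Sph X PX) (F.pull Prod.fst (F.pull π₁ x)) 0) :
    Coh X (F.pull π₂ x) (F.pull π₁ x - ep) := by
  obtain ⟨s, t, hst⟩ := hF (F.pull π₂ x) (sx.pull hπ₂) (cx.pull hπ₂ sx) dx.pull
  obtain ⟨a2, a3⟩ := restr_class hπ₁ hπ₂ hk dx hι hCS hι1 hι2
  have hs : s = 1 := by
    have a1 := hst.pull (smap_fstS (X := X) (P := PX))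
    rw [pull_add', pull_smul', pull_smul'] at a1
    have a2 := (Coh.refl (X := Sph X PX) (s • F.pull Prod.fst (F.pull π₁ x))).add (hsph.smul t)
    rw [smul_zero, add_zero] at a2
    have a3 := (hhom.trans (a1.trans a2)).sub (Coh.refl (s • F.pull Prod.fst (F.pull π₁ x)))
    rw [sub_self] at a3
    by_contra hne'
    refine hxU ?_
    have a6 : (F.pull Prod.fst (F.pull π₁ x) : E₂ × H₂ → Ext (E₂ × H₂)) -
        s • F.pull Prod.fst (F.pull π₁ x) = (1 - s) • F.pull Prod.fst (F.pull π₁ x) := by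
      rw [sub_smul, one_smul]
    rw [a6] at a3
    exact a3.smul_zero_of_ne (sub_ne_zero.2 (Ne.symm hne'))
  -- restriction to `C`
  have ht : t = -1 := by
    have a1 := hst.pull hι
    rw [pull_add', pull_smul', pull_smul', hs, one_smul] at a1
    have a4 : Coh C 0 ((1 + t) • e) := by
      refine (Coh.of_eqv a3.symm).trans (a1.trans ?_)
      have := ((Coh.of_eqv a2).trans hxC).add (hε.smul t)
      rwa [add_smul, one_smul]
    by_contra hne'
    refine hne ?_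
    exact a4.symm.smul_zero_of_ne (by
      intro h; exact hne' (by linarith))
  rw [hs, ht, one_smul, neg_smul, one_smul, ← sub_eq_add_neg] at hst
  exact hst


end classes

/-! ### (X1a) -/
section a
variable {n N k : ℕ} {κ : ℝ} {S : Set (Euc N)} {G : Geo n N κ S} {p : Euc N}
  {ι : Type} [Fintype ι] [DecidableEq ι]

/-- the cut locus is oriented by a smooth form of top degree -/
theorem exists_ori_Cut (h : GT.Bla G k) (hk : 2 ≤ k) (hkn : k < n) (hp : p ∈ S) :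
    ∃ o : Euc N → Ext (Euc N), Ori (n - k) (GP.Cut S p) o ∧ Sm (GP.Cut S p) o ∧
      Hom (n - k) o := by
  obtain ⟨w, hw, hwe⟩ := FG.exists_orient_TC h hk hkn
  have hF : ∀ q ∈ GP.Cut S p, (p, q) ∈ GT.FF S := fun q hq => ⟨hp, hq.1, hq.2⟩
  have hs : ∀ q ∈ GP.Cut S p, ContDiffAt ℝ ∞ (fun q => w (p, q)) q := fun q hq =>
    (hw _ (hF q hq)).comp q (contDiffAt_const.prodMk contDiffAt_id)
  refine ⟨fun q => GP.fm (n - k) N (w (p, q)), ?_, ?_, fun q => GP.isDeg_fm _⟩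
  · refine GP.ori_of_field (FV.clo_Cut h hp)
      (fun q hq => (hs q hq).continuousAt.continuousWithinAt) fun q hq => ?_
    obtain ⟨e, h1, h2, h3⟩ := hwe _ (hF q hq)
    refine ⟨e, h1, fun a => ?_, h3⟩
    rw [FV.Tan_Cut h (hF q hq)]
    exact h2 a
  · exact fun q hq => (GP.fmL (n - k) N).contDiff.contDiffAt.comp q (hs q hq)

/-- **(X1a)** -/
theorem X1a {W : Euc N → (ι × Fin 2 → Fin N) → ℝ} (h : GT.Bla G k) (hk : 2 ≤ k) (hkn : k < n)
    (hp : p ∈ S) (hι : 2 * Fintype.card ι = k) (hW : OR (GP.Cut S p) (FV.PC h p) W)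
    {o : Euc N → Ext (Euc N)} (ho : Ori (n - k) (GP.Cut S p) o) :
    ∃ m : ℕ, 1 ≤ m ∧ n = k * (m + 1) ∧
      J (n - k) (GP.Cut S p) o (eR (FV.PC h p) W ^ m) ≠ 0 := by
  obtain ⟨o₁, h1, h2, h3⟩ := exists_ori_Cut h hk hkn hp
  have hC := FV.clo_Cut h hp
  have hc := cl_of_top hC.sub h3
  obtain ⟨c, hc0, hcoh⟩ := Cut_classes h hk hkn hp hι hW (n - k) h2 hc h3
  have hpos : 0 < J (n - k) (GP.Cut S p) o₁ o₁ := J_pos hC h1 (FV.nonempty_Cut h.bl h.ty hp)
  -- the integral with respect to `o`: a nowhere zero multiple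
  have hne1 : ¬ Coh (GP.Cut S p) o₁ 0 := fun h0 => by
    rw [J_exact hC h1 h0] at hpos; exact lt_irrefl _ hpos
  have hcne : c ≠ 0 := by
    rintro rfl
    rw [zero_smul] at hcoh
    exact hne1 hcoh
  have hdvd : k ∣ n - k := by
    by_contra hnd
    exact hcne (hc0 hnd)
  obtain ⟨m, hm⟩ := hdvd
  have hm1 : 1 ≤ m := by
    rcases Nat.eq_zero_or_pos m with rfl | hm0
    · rw [mul_zero] at hm; omega
    · exact hm0
  refine ⟨m, hm1, by rw [mul_add, mul_one, ← hm]; omega, ?_⟩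
  have hq : (n - k) / k = m := by rw [hm]; exact Nat.mul_div_cancel_left m (by omega)
  rw [hq] at hcoh
  intro hJ
  -- `o₁` has non-zero integral for `o` as well
  have hpos' : J (n - k) (GP.Cut S p) o o₁ ≠ 0 := by
    rcases J_ori_connected hC h1 ho (FV.preconn_Cut h.bl h.ty (by omega) hp) with h4 | h4
    · rw [h4]; exact hpos.ne'
    · rw [h4]; exact neg_ne_zero.2 hpos.ne'
  have e1 := J_coh hC ho h2 ((hW.ec_eR.sm.pow m).smul c) hcoh
  rw [J_smulT, hJ, mul_zero] at e1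
  exact hpos' e1

end a

end Crest.Agent.R208.T
end
end

-- ▼ part R208/TX6b

/-! Row 208, block T (helper316).  TX6b: (X1b) `snd^* x ~ fst^* x - ε` on `F`. -/

set_option autoImplicit false
set_option linter.unusedSectionVars false

open MeasureTheory Set Filter Topology Module
open scoped ContDiff RealInnerProductSpace
open Crest.GeometryTopology.Submanifold
open Crest.Agent.R241.DDefs
open Crest.Agent.R241.D2
open Crest.Agent.R208.F Crest.Agent.R208.FI Crest.Agent.R208.CW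

noncomputable section

namespace Crest.Agent.R208.T

variable {n N k m : ℕ} {κ : ℝ} {S : Set (Euc N)} {G : Geo n N κ S} {p : Euc N}
  {ι : Type} [Fintype ι] [DecidableEq ι] {W : Euc N × Euc N → (ι × Fin 2 → Fin N) → ℝ}
  {x : Euc N → Ext (Euc N)}

theorem cl_zero {E : Type*} [NormedAddCommGroup E] [NormedSpace ℝ E] [FiniteDimensional ℝ E]
    {X : Set E} : Cl X (0 : E → Ext E) := resZero_iff.2 (by rw [d_zero']; exact Eqv.refl _)

theorem Coh.powT {E : Type*} [NormedAddCommGroup E] [NormedSpace ℝ E] [FiniteDimensional ℝ E]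
    {X : Set E} {a b : E → Ext E} (ha : Sm X a) (ca : Cl X a) (hb : Sm X b) (cb : Cl X b)
    (h : Coh X a b) (m : ℕ) : Coh X (a ^ m) (b ^ m) := by
  induction m with
  | zero => rw [pow_zero, pow_zero]; exact Coh.refl _
  | succ m ih =>
    rw [pow_succ, pow_succ]
    exact Coh.mul (ha.pow m) (Cl.pow ha ca m) hb cb ih h

/-- naturality of the real Euler form -/
theorem eqv_pull_eR {E E' : Type*} [NormedAddCommGroup E] [NormedSpace ℝ E] [FiniteDimensional ℝ E]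
    [NormedAddCommGroup E'] [NormedSpace ℝ E'] [FiniteDimensional ℝ E']
    {ι n : Type*} [Fintype ι] [DecidableEq ι] [Fintype n] [DecidableEq n]
    {X : Set E'} {Y : Set E} {P : E → EuclideanSpace ℝ n →L[ℝ] EuclideanSpace ℝ n}
    {W : E → (ι × Fin 2 → n) → ℝ} (h : OR Y P W) {f : E' → E} (hf : SMap X Y f) :
    Eqv X (F.pull f (eR P W)) (eR (fun y => P (f y)) (fun y => W (f y))) :=
  Eqv.of_eq fun x hx => by
    have h1 := pullC_ef (f := f) (P := fun y => mtx (P y)) (W := wC W) (hf.c2 hx)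
      (((OR.of h).sP _ (hf.maps hx)).of_le one_le_inf)
    exact congrArg Cx.re h1

/-- the Euler form is not exact on the cut locus -/
theorem euler_ne {W : Euc N → (ι × Fin 2 → Fin N) → ℝ} (h : GT.Bla G k) (hk : 2 ≤ k) (hkn : k < n)
    (hp : p ∈ S) (hι : 2 * Fintype.card ι = k) (hW : OR (GP.Cut S p) (FV.PC h p) W) :
    ¬ Coh (GP.Cut S p) (eR (FV.PC h p) W) 0 := by
  intro h0
  obtain ⟨o, ho, -, -⟩ := exists_ori_Cut h hk hkn hp
  obtain ⟨m, hm1, -, hJ⟩ := X1a h hk hkn hp hι hW ho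
  refine hJ (J_exact (FV.clo_Cut h hp) ho ?_)
  have := Coh.powT hW.ec_eR.sm hW.ec_eR.cl Sm.zero cl_zero h0 m
  rwa [zero_pow (by omega)] at this

/-- forms of degree `< n` on `S` which are exact on the unit tangent bundle -/
theorem low_S (h : GT.Bla G k) (hk : 2 ≤ k) (hne : Even n) {j : ℕ} {b : Euc N → Ext (Euc N)}
    (hb : Sm S b) (hc : Cl S b) (hd : Hom j b) (hj : j < n)
    (h0 : Coh (Sph S G.P) (F.pull Prod.fst b) 0) : Coh S b 0 := by
  obtain ⟨m, hm⟩ := hne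
  have hn1 := h.bl.hn
  have hι : 2 * Fintype.card (Fin m) = n := by rw [Fintype.card_fin]; omega
  obtain ⟨Wt, hW⟩ := GP.exists_OR_S (G := G) h.bl h.ty hk hι
  have : Nonempty (Fin m) := ⟨⟨0, by omega⟩⟩
  exact gysin_low_all (FV.sub_S h.bl) h.bl.conn.isPreconnected hW hb hc hd (by rw [hι]; exact hj) h0

/-- from `Sph F V` to the unit tangent bundle -/
theorem coh_up (h : GT.Bla G k) {b : Euc N → Ext (Euc N)}
    (h0 : Coh (Sph (GT.FF S) (FV.PVB h)) (F.pull Prod.fst (F.pull Prod.fst b)) 0) :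
    Coh (Sph S G.P) (F.pull Prod.fst b) 0 := by
  have h1 := h0.pull (FV.smap_up h)
  rw [pull_zero'] at h1
  have e1 : Eqv (Sph (GT.FF S) (FV.PVB h)) (F.pull Prod.fst (F.pull Prod.fst b))
      (F.pull (fun z : (Euc N × Euc N) × Euc N => z.1.1) b) :=
    eqv_pull_pull smap_fstS smap_fst_FF (smap_fst_FF.comp smap_fstS) (fun _ _ => rfl) b
  have e2 : Eqv (Sph S G.P) (F.pull (FV.up G) (F.pull (fun z : (Euc N × Euc N) × Euc N => z.1.1) b))
      (F.pull Prod.fst b) :=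
    eqv_pull_pull (FV.smap_up h) (smap_fst_FF.comp smap_fstS) smap_fstS (fun _ _ => rfl) b
  exact (Coh.of_eqv ((e1.pull (FV.smap_up h)).trans e2).symm).trans h1

/-- the two projections of the unit tangent bundle are homotopic -/
theorem coh_geod (h : GT.Bla G k) {b : Euc N → Ext (Euc N)} (hb : Sm S b) (hc : Cl S b) :
    Coh (Sph (GT.FF S) (FV.PVB h)) (F.pull Prod.fst (F.pull Prod.fst b))
      (F.pull Prod.fst (F.pull Prod.snd b)) := by
  let Fh : ((Euc N × Euc N) × Euc N) × ℝ → Euc N := fun z => Exp G z.1.1.1 ((z.2 * Real.pi) • z.1.2)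
  have hU : ∀ z ∈ Sph (GT.FF S) (FV.PVB h), z.1.1 ∈ S ∧ z.2 ∈ G.T z.1.1 := fun z hz =>
    ((FV.mem_Sph_F h).1 hz).1.1
  have hF : ∀ z ∈ Sph (GT.FF S) (FV.PVB h), ∀ t ∈ Icc (0 : ℝ) 1, ContDiffAt ℝ ∞ Fh (z, t) := by
    intro z hz t _
    have h1 : ContDiffAt ℝ ∞ (fun q : Euc N × Euc N => Exp G q.1 q.2)
        (z.1.1, (t * Real.pi) • z.2) :=
      contDiffAt_Exp G (hU z hz).1 ((G.T _).smul_mem _ (hU z hz).2)
    have h2 : ContDiffAt ℝ ∞ (fun z : ((Euc N × Euc N) × Euc N) × ℝ =>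
        (z.1.1.1, (z.2 * Real.pi) • z.1.2)) (z, t) := by fun_prop
    exact ContDiffAt.comp (g := fun q : Euc N × Euc N => Exp G q.1 q.2) (z, t) h1 h2
  have hm : ∀ z ∈ Sph (GT.FF S) (FV.PVB h), ∀ t ∈ Icc (0 : ℝ) 1, Fh (z, t) ∈ S := fun z hz t _ =>
    Exp_mem G (hU z hz).1 ((G.T _).smul_mem _ (hU z hz).2)
  have key := coh_homotopy hF hm hb hc
  have s1 : SMap (Sph (GT.FF S) (FV.PVB h)) S (fun y => Fh (y, 1)) :=
    ⟨fun z hz => ContDiffAt.comp (g := Fh) z (hF z hz 1 (by simp))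
        (contDiffAt_id.prodMk contDiffAt_const),
      fun z hz => hm z hz 1 (by simp)⟩
  have s0 : SMap (Sph (GT.FF S) (FV.PVB h)) S (fun y => Fh (y, 0)) :=
    ⟨fun z hz => ContDiffAt.comp (g := Fh) z (hF z hz 0 (by simp))
        (contDiffAt_id.prodMk contDiffAt_const),
      fun z hz => hm z hz 0 (by simp)⟩
  have e1 : Eqv (Sph (GT.FF S) (FV.PVB h)) (F.pull Prod.fst (F.pull Prod.snd b))
      (F.pull (fun y => Fh (y, 1)) b) :=
    eqv_pull_pull smap_fstS smap_snd_FF s1 (fun z hz => by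
      have h2 := ((FV.mem_Sph_F h).1 hz).2
      have h3 : (FV.phi G (FV.dn z)).2 = z.1.2 := by rw [h2]
      change z.1.2 = Exp G z.1.1 (((1 : ℝ) * Real.pi) • z.2)
      rw [← h3, one_mul]; rfl) b
  have e0 : Eqv (Sph (GT.FF S) (FV.PVB h)) (F.pull Prod.fst (F.pull Prod.fst b))
      (F.pull (fun y => Fh (y, 0)) b) :=
    eqv_pull_pull smap_fstS smap_fst_FF s0 (fun z hz => by
      change z.1.1 = Exp G z.1.1 (((0 : ℝ) * Real.pi) • z.2)
      rw [zero_mul, zero_smul, Exp_zero G (hU z hz).1]) b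
  exact (Coh.of_eqv e0).trans (key.symm.trans (Coh.of_eqv e1.symm))

/-- the facts on `x = xM` -/
structure XM (h : GT.Bla G k) (m : ℕ) (W : Euc N × Euc N → (ι × Fin 2 → Fin N) → ℝ) (p : Euc N)
    (x : Euc N → Ext (Euc N)) : Prop where
  hk : 2 ≤ k
  hι : 2 * Fintype.card ι = k
  hW : OR (GT.FF S) (FV.PVB h) W
  hp : p ∈ S
  hm : 2 ≤ m
  hn : n = k * m
  sx : Sm S x
  cx : Cl S x
  dx : Hom k x
  ex : Eqv (GP.Cut S p) x (eR (FV.PC h p) (fun q => W (q, p)))

theorem XM.hke {h : GT.Bla G k} (D : XM h m W p x) : Even k :=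
  ⟨Fintype.card ι, by rw [← D.hι]; ring⟩

theorem XM.hne {h : GT.Bla G k} (D : XM h m W p x) : Even n := by rw [D.hn]; exact D.hke.mul_right m

theorem XM.two_k {h : GT.Bla G k} (D : XM h m W p x) : 2 * k ≤ n := by
  have h1 := D.hn
  have h2 := D.hm
  rw [h1, mul_comm 2 k]
  exact Nat.mul_le_mul_left k h2

theorem XM.hkn {h : GT.Bla G k} (D : XM h m W p x) : k < n := by
  have h1 := D.two_k
  have h2 := D.hk
  omega

/-- existence, from an orientation of `V` and a base point -/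
theorem exists_XM (h : GT.Bla G k) (hk : 2 ≤ k) (hkn : k < n) (hι : 2 * Fintype.card ι = k)
    (hW : OR (GT.FF S) (FV.PVB h) W) (hp : p ∈ S) :
    ∃ m x, XM h m W p x := by
  obtain ⟨x, h1, h2, h3, h4⟩ := exists_xM h hk hp hι (OR_Cut h hp hW)
  obtain ⟨o, ho, -, -⟩ := exists_ori_Cut h hk hkn hp
  obtain ⟨m, hm1, hm2, -⟩ := X1a h hk hkn hp hι (OR_Cut h hp hW) ho
  exact ⟨m + 1, x, hk, hι, hW, hp, by omega, hm2, h1, h2, h3, h4⟩

/-- `x` is not exact on `S` -/
theorem XM.x_ne {h : GT.Bla G k} (D : XM h m W p x) : ¬ Coh S x 0 := by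
  intro h0
  refine euler_ne h D.hk D.hkn D.hp D.hι (OR_Cut h D.hp D.hW) ?_
  exact (Coh.of_eqv D.ex.symm).trans (h0.mono fun _ hq => hq.1)

/-- `x` is not exact on the unit tangent bundle -/
theorem XM.x_ne_US {h : GT.Bla G k} (D : XM h m W p x) :
    ¬ Coh (Sph (GT.FF S) (FV.PVB h)) (F.pull Prod.fst (F.pull Prod.fst x)) 0 := fun h0 =>
  D.x_ne (low_S h D.hk D.hne D.sx D.cx D.dx D.hkn (coh_up h h0))

/-- the Euler form is exact on the sphere bundle -/
theorem euler_exact_FF (h : GT.Bla G k) (hk : 2 ≤ k) (hι : 2 * Fintype.card ι = k)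
    (hW : OR (GT.FF S) (FV.PVB h) W) :
    Coh (Sph (GT.FF S) (FV.PVB h)) (F.pull Prod.fst (eR (FV.PVB h) W)) 0 := by
  have : Nonempty ι := Fintype.card_pos_iff.1 (by omega)
  have hle := h.ty.le
  have h1 := euler_sph (csf_thomF (FV.sub_FF' h (d := 2 * n - k) (by omega)) hW) (by norm_num)
    (thomF_zero hW)
  rw [pull_smul'] at h1
  exact h1.smul_zero_of_ne two_ne_zero

set_option maxHeartbeats 1000000 in
/-- **(X1b)** -/
theorem XM.snd_class {h : GT.Bla G k} (D : XM h m W p x) :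
    Coh (GT.FF S) (F.pull Prod.snd x) (F.pull Prod.fst x - eR (FV.PVB h) W) := by
  have hk := D.hk
  have h2k := D.two_k
  have hWp := OR_Cut h D.hp D.hW
  have he : Eqv (GP.Cut S p) (F.pull (fun q : Euc N => (q, p)) (eR (FV.PVB h) W))
      (eR (FV.PC h p) (fun q => W (q, p))) :=
    eqv_pull_eR D.hW (FV.smap_Cut D.hp)
  refine snd_class' (PX := FV.PVB h) (ιC := fun q => (q, p)) (C := GP.Cut S p) (p := p)
    smap_fst_FF smap_snd_FF (by omega) D.sx D.cx D.dx ?_ (FV.smap_Cut D.hp)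
    (fun _ hq => hq.1) (fun _ _ => rfl) (fun _ _ => rfl) (Coh.of_eqv he) (Coh.of_eqv D.ex)
    (euler_ne h hk D.hkn D.hp D.hι hWp) (euler_exact_FF h hk D.hι D.hW)
    (coh_geod h D.sx D.cx) D.x_ne_US
  intro b sb cb db
  obtain ⟨f, -, hf⟩ := FF_classes h hk D.hkn D.hke D.hne D.hp D.hι D.hW D.sx D.cx D.dx D.ex k b
    D.hke (by omega) sb cb db
  refine ⟨f 1, f 0, ?_⟩
  rw [Nat.div_self (by omega), Finset.sum_range_succ, Finset.sum_range_one] at hf
  simpa [add_comm] using hf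


end Crest.Agent.R208.T
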