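import Crest.Agent.R208.CH3c
import Crest.Agent.R208.FI2d
import Crest.Agent.R208.GP2e
import Crest.Agent.R208.J3
import Crest.Agent.R208.RS1
import Crest.Agent.R208.FG1
import Crest.Agent.R208.FV5
import Crest.Agent.R208.TI4
import Crest.Agent.R208.T1
import Crest.Agent.R208.CM6b
import Crest.Agent.R208.SN8
import Crest.Agent.R208.SO1
import Crest.Agent.R208.TX6b
import Crest.Agent.R208.QS1
import Crest.Agent.R208.CH3
import Crest.Agent.R208.EP6
import Crest.Agent.R208.SN10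
import Crest.Agent.R208.CQ1
import Crest.Agent.R208.ZH3b
import Crest.Agent.R208.TX9

-- ▼ part R208/CH3d
section

/-! Row 208, block CH (helper305), part CH3d: **the sweep theorem** (Stokes recursion). -/

set_option autoImplicit false
set_option linter.unusedSectionVars false

open MeasureTheory MeasureTheory.Measure Set Filter Topology Module
open scoped ContDiff RealInnerProductSpace
open Crest.Agent.R208.F Crest.Agent.R208.FI

noncomputable section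

namespace Crest.Agent.R208.CH

open HW (U SU)

section circle
variable {E E' V : Type*} [NormedAddCommGroup E] [NormedSpace ℝ E] [FiniteDimensional ℝ E]
  [NormedAddCommGroup E'] [NormedSpace ℝ E'] [FiniteDimensional ℝ E']
  [NormedAddCommGroup V] [NormedSpace ℝ V] [FiniteDimensional ℝ V]
  {X : Set E} {Z : Set V} {B : Set E'} {π : E → E'} {g : V → E'} {χ : V → ℝ}
  {R : E × ℝ → E} {n d ρ : ℕ} {O : Set E} {φ : ℝ → E → E} {al : E → Ext E} {Fc : E' → Ext E'}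
  {oZ : V → Ext V}

/-- circle action on the lift -/
def phW (φ : ℝ → E → E) (t : ℝ) (w : E × V) : E × V := (φ t w.1, w.2)

theorem cir_W (h : CB n X φ B π al Fc) : CM.Cir (FG.FP X Z π g) (phW (V := V) φ) where
  smooth := fun t w hw => by
    have h0 : ContDiffAt ℝ ∞ (fun q : ℝ × (E × V) => (q.1, q.2.1)) (t, w) :=
      (contDiff_fst.prodMk (contDiff_fst.comp contDiff_snd)).contDiffAt
    have h2 : ContDiffAt ℝ ∞ (fun q : ℝ × (E × V) => φ q.1 q.2.1) (t, w) :=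
      ContDiffAt.comp (g := fun q : ℝ × E => φ q.1 q.2)
        (f := fun q : ℝ × (E × V) => (q.1, q.2.1)) (t, w) (h.cir.smooth t _ hw.1) h0
    exact h2.prodMk (contDiff_snd.comp contDiff_snd).contDiffAt
  maps := fun t w hw => ⟨h.cir.maps t hw.1, hw.2.1, by
    show π (φ t w.1) = g w.2
    rw [h.inv _ hw.1, hw.2.2]⟩
  zero := fun w hw => Prod.ext (h.cir.zero _ hw.1) rfl
  add := fun s t w hw => Prod.ext (h.cir.add s t _ hw.1) rfl
  per := fun w hw => Prod.ext (h.cir.per _ hw.1) rfl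
  free := fun t w hw e => h.cir.free t _ hw.1 (congrArg Prod.fst e)

theorem gen_W (h : CB n X φ B π al Fc) {w : E × V} (hw : w ∈ FG.FP X Z π g) :
    CM.gen (phW φ) w = (CM.gen φ w.1, 0) := by
  have h1 : HasDerivAt (fun t => φ t w.1) (CM.gen φ w.1) 0 := by
    have := h.cir.hasDerivAt hw.1 0
    rwa [h.cir.zero _ hw.1] at this
  have h2 : HasDerivAt (fun t => phW φ t w) (CM.gen φ w.1, (0 : V)) 0 :=
    h1.prodMk (hasDerivAt_const (0 : ℝ) w.2)
  exact h2.deriv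

theorem cont_fst (h : CB n X φ B π al Fc) :
    ContinuousOn (F.pull (Prod.fst : E × V → E) al) (FG.FP X Z π g) :=
  FG.cont_pull_fst (fun _ hz => hz.1) fun x hx => (h.sm x hx).continuousAt.continuousWithinAt

theorem al_W (h : CB n X φ B π al Fc) {w : E × V} (hw : w ∈ FG.FP X Z π g) :
    evA (E × V) 1 (F.pull (Prod.fst : E × V → E) al w) (fun _ => CM.gen (phW φ) w) = 1 := by
  rw [F.pull, evA_pb, gen_W h hw, ← h.one _ hw.1]
  congr 1
  funext i
  rw [fderiv_fst]; rfl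

/-- orientation form of the lift -/
def oW (al : E → Ext E) (oZ : V → Ext V) (w : E × V) : Ext (E × V) :=
  F.pull (Prod.fst : E × V → E) al w * F.pull (Prod.snd : E × V → V) oZ w

theorem J_W (h : CB n X φ B π al Fc) (hZ : Clo d Z) (hg : CW.SMap Z B g) (ho : Ori d Z oZ)
    {η : V → Ext V} (hη : ContinuousOn η Z) :
    Ori (d + 1) (FG.FP X Z π g) (oW al oZ) ∧
      J (d + 1) (FG.FP X Z π g) (oW al oZ) (fun w => F.pull (Prod.fst : E × V → E) al w *
        F.pull (Prod.snd : E × V → V) η w) = 2 * Real.pi * J d Z oZ η :=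
  CM.J_fib (cir_W h) (FG.bc_subm h.subm ⟨hZ, hg.smooth, hg.maps⟩) (fun _ _ _ => rfl)
    (fun x hx y hy e => by
      have h1 : π y.1 = π x.1 := by
        rw [hx.2.2, hy.2.2]
        exact congrArg g e
      obtain ⟨t, ht⟩ := h.fib _ hx.1 _ hy.1 h1
      exact ⟨t, Prod.ext ht e⟩)
    (fun b hb => by
      obtain ⟨x, hx, hxb⟩ := h.sur _ (hg.maps hb)
      exact ⟨(x, b), ⟨hx, hb, hxb⟩, rfl⟩)
    (cont_fst h) (fun x _ => (h.hom x.1).pb _) (fun x hx => al_W h hx) ho hη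

theorem hom_oW (hh : T.Hom 1 al) (ho : T.Hom d oZ) : T.Hom (1 + d) (oW al oZ) :=
  fun w => T.isDeg_mul (hh.pull w) (ho.pull w)

/-- orientation form of the swept manifold -/
def oS (al : E → Ext E) (oZ : V → Ext V) (y : (E × V) × U 0) : Ext ((E × V) × U 0) :=
  b0' y * F.pull (Prod.fst : (E × V) × U 0 → E × V) (oW al oZ) y

theorem clo_W (h : CB n X φ B π al Fc) (hZ : Clo d Z) (hg : CW.SMap Z B g) :
    Clo (d + 1) (FG.FP X Z π g) := by
  have := FG.bc_clo h.subm ⟨hZ, hg.smooth, hg.maps⟩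
  rwa [add_comm 1 d] at this

theorem ori_S (h : CB n X φ B π al Fc) (hZ : Clo d Z) (hg : CW.SMap Z B g) (ho : Ori d Z oZ) :
    Ori (d + 1 + 1) (ZS X Z π g) (oS al oZ) := by
  have hW := (J_W h hZ hg ho (η := fun _ => 0) continuousOn_const).1
  refine (CM.J_fib (cir_rc (FG.FP X Z π g)) (subm_rc (clo_W h hZ hg)) (fun _ _ _ => rfl)
    (fun x hx y hy e => ?_) (fun b hb => ?_)
    (fun x hx => ((sm_b0' (ZS X Z π g)) x hx).continuousAt.continuousWithinAt)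
    (fun x _ => hom_b0' x) (fun x hx => b0'_gen hx.2) hW
    (η := fun _ => 0) continuousOn_const).1
  · have hx2 := hx.2
    have hy2 := hy.2
    rw [← range_rt] at hx2 hy2
    obtain ⟨s, hs⟩ := hx2
    obtain ⟨t, ht⟩ := hy2
    refine ⟨t + -s, Prod.ext e ?_⟩
    show y.2 = HW.rt 0 (t + -s) x.2
    rw [← hs, ← ht]
    show HW.rt 0 t u1 = HW.rt 0 (t + -s) (HW.rt 0 s u1)
    rw [← HW.rt_add, neg_add_cancel_right]
  · refine ⟨(b, u1), ⟨hb, ?_⟩, rfl⟩
    rw [← range_rt]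
    exact ⟨0, by show HW.rt 0 0 u1 = u1; rw [HW.rt_zero]; rfl⟩

/-! ### Stokes -/

theorem evA_io_zero {W : Type*} [AddCommGroup W] [Module ℝ W] [FiniteDimensional ℝ W]
    {l : Module.Dual ℝ W} {S : Submodule ℝ W} (hl : ∀ v ∈ S, l v = 0) {q : ℕ} (c : Ext W)
    (w : Fin (q + 1) → W) (hw : ∀ i, w i ∈ S) : evA W (q + 1) (io l * c) w = 0 := by
  rw [evA_io_mul]
  refine Finset.sum_eq_zero fun i _ => ?_
  rw [hl _ (hw i)]; ring

/-- the form on the swept manifold which remains after Stokes -/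
def rS (χ : V → ℝ) (β : E → Ext E) (y : (E × V) × U 0) : Ext ((E × V) × U 0) :=
  F.pull (Prod.snd : (E × V) × U 0 → U 0) ek y *
    F.pull (Prod.fst : (E × V) × U 0 → E × V)
      (fun w => χ w.2 • F.pull (Prod.fst : E × V → E) β w) y

theorem rS_eq (β : E → Ext E) (y : (E × V) × U 0) :
    rS χ β y = ((1 - tt y.2) * χ y.1.2) •
      (io ((fderiv ℝ kk y.2 : U 0 →ₗ[ℝ] ℝ) ∘ₗ LinearMap.snd ℝ (E × V) (U 0)) *
        pb (LinearMap.fst ℝ E V ∘ₗ LinearMap.fst ℝ (E × V) (U 0)) (β y.1.1)) := by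
  have h1 : F.pull (Prod.snd : (E × V) × U 0 → U 0) ek y = (1 - tt y.2) •
      io ((fderiv ℝ kk y.2 : U 0 →ₗ[ℝ] ℝ) ∘ₗ LinearMap.snd ℝ (E × V) (U 0)) := by
    rw [FG.pull_snd_apply, ek, map_smul, pb_io]; rfl
  have h2 : F.pull (Prod.fst : (E × V) × U 0 → E × V)
      (fun w => χ w.2 • F.pull (Prod.fst : E × V → E) β w) y =
      χ y.1.2 • pb (LinearMap.fst ℝ E V ∘ₗ LinearMap.fst ℝ (E × V) (U 0)) (β y.1.1) := by
    rw [FG.pull_fst_apply, map_smul, FG.pull_fst_apply, pb_comp]; rfl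
  rw [rS, h1, h2, smul_mul_smul_comm]

theorem key_stokes (h : CB n X φ B π al Fc) (hZ : Clo d Z) (hg : CW.SMap Z B g)
    (ht : Thn d Z g χ) (hR : DfmO X (Prod.fst '' FG.FP X Z π g) ρ R O) (hρ : ρ ≤ d)
    (β : E → Ext E) {y : (E × V) × U 0} (hy : y ∈ ZS X Z π g)
    (w : Fin (d + 1 + 1) → (E × V) × U 0) (hw : ∀ i, w i ∈ Tan (ZS X Z π g) y) :
    evA _ (d + 1 + 1) (io ((fderiv ℝ (cS χ) y : ((E × V) × U 0) →L[ℝ] ℝ) :
      Module.Dual ℝ ((E × V) × U 0)) * F.pull (GS R) β y) w =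
    evA _ (d + 1 + 1) (rS χ β y) w := by
  have hχ := ht.1 _ hy.1.2.1
  have e0 : F.pull (GS R) β y = pb (fderiv ℝ (GS (V := V) R) y : _ →ₗ[ℝ] E) (β (GS R y)) := rfl
  rw [rS_eq]
  rcases circle_cases hy.2 with hA | hB | hC | hD
  · -- `t = 0`
    have hG : GS R y = y.1.1 := by
      rw [GS, tt_zero hA.le]; exact hR.zero _ (mem_K hy hR) 0 le_rfl
    rw [tt_zero hA.le, sub_zero, one_mul, e0, hG]
    set A1 : ((E × V) × U 0) →ₗ[ℝ] E := LinearMap.fst ℝ E V ∘ₗ LinearMap.fst ℝ (E × V) (U 0)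
      with hA1
    set l1 : Module.Dual ℝ ((E × V) × U 0) := (fderiv ℝ χ y.1.2 : V →ₗ[ℝ] ℝ) ∘ₗ
      LinearMap.snd ℝ E V ∘ₗ LinearMap.fst ℝ (E × V) (U 0) with hl1
    set l2 : Module.Dual ℝ ((E × V) × U 0) := (fderiv ℝ kk y.2 : U 0 →ₗ[ℝ] ℝ) ∘ₗ
      LinearMap.snd ℝ (E × V) (U 0) with hl2
    rw [io_mul_pb]
    have h1 := evA_congr_on (n := d + 1 + 1) (S := Tan (ZS X Z π g) y)
      (A := (fderiv ℝ (GS (V := V) R) y : _ →ₗ[ℝ] E).prod
        ((fderiv ℝ (cS χ) y : ((E × V) × U 0) →L[ℝ] ℝ) : Module.Dual ℝ ((E × V) × U 0)))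
      (B := A1.prod (kk y.2 • l1 + χ y.1.2 • l2)) (fun v hv => by
        refine Prod.ext (fderiv_GS_A hy hR hA hv) ?_
        exact fderiv_cS hχ v)
      (io (LinearMap.snd ℝ E ℝ) * pb (LinearMap.fst ℝ E ℝ) (β y.1.1)) w hw
    rw [h1, ← io_mul_pb, map_add, map_smul, map_smul, add_mul, smul_mul_assoc, smul_mul_assoc,
      map_add, map_smul, map_smul, AlternatingMap.add_apply, AlternatingMap.smul_apply,
      AlternatingMap.smul_apply]
    have h2 : evA _ (d + 1 + 1) (io l1 * pb A1 (β y.1.1)) w = 0 := by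
      rw [io_mul_pb]
      refine evA_zero_of_rank _ (Tan (ZS X Z π g) y) ?_ _ w hw
      have h3 : (Tan (ZS X Z π g) y).map (A1.prod l1) ≤
          (Tan (FG.FP X Z π g) y.1).map ((LinearMap.fst ℝ E V).prod
            ((fderiv ℝ χ y.1.2 : V →ₗ[ℝ] ℝ) ∘ₗ LinearMap.snd ℝ E V)) := by
        rintro _ ⟨v, hv, rfl⟩
        exact ⟨v.1, (tan_ZS hv).1, rfl⟩
      have h4 := (Submodule.finrank_mono h3).trans (Submodule.finrank_map_le _ _)
      rw [(clo_W h hZ hg).finrank_Tan hy.1] at h4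
      omega
    rw [h2, smul_zero, zero_add]
  · -- `t = 1`
    rw [tt_one hB.le, sub_self, zero_mul, zero_smul, map_zero, AlternatingMap.zero_apply, e0,
      io_mul_pb]
    exact evA_zero_of_rank _ (Tan (ZS X Z π g) y)
      (lt_of_le_of_lt (rank_B (χ := χ) hy hR hB) (by omega)) _ w hw
  · -- `kk = 1`
    have hz : io ((fderiv ℝ kk y.2 : U 0 →ₗ[ℝ] ℝ) ∘ₗ LinearMap.snd ℝ (E × V) (U 0)) = 0 := by
      rw [(kk_ev_one hC).2]
      have : ((0 : U 0 →L[ℝ] ℝ) : U 0 →ₗ[ℝ] ℝ) ∘ₗ LinearMap.snd ℝ (E × V) (U 0) = 0 := by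
        ext <;> rfl
      rw [this, map_zero]
    rw [hz, zero_mul, smul_zero, map_zero, AlternatingMap.zero_apply]
    rcases ht.2 _ hy.1.2.1 with ⟨-, h2⟩ | h1
    · refine evA_io_zero (S := Tan (ZS X Z π g) y) (fun v hv => ?_) _ w hw
      show fderiv ℝ (cS (E := E) χ) y v = 0
      rw [fderiv_cS hχ, (kk_ev_one hC).2, h2 _ (tan_ZS hv).2.2.2]
      simp
    · rw [e0, io_mul_pb]
      exact evA_zero_of_rank _ (Tan (ZS X Z π g) y)
        (lt_of_le_of_lt (rank_C h.subm hg hy hχ hR hC h1) (by omega)) _ w hw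
  · -- `kk = 0`
    have hz : io ((fderiv ℝ kk y.2 : U 0 →ₗ[ℝ] ℝ) ∘ₗ LinearMap.snd ℝ (E × V) (U 0)) = 0 := by
      rw [(kk_ev_zero hD).2]
      have : ((0 : U 0 →L[ℝ] ℝ) : U 0 →ₗ[ℝ] ℝ) ∘ₗ LinearMap.snd ℝ (E × V) (U 0) = 0 := by
        ext <;> rfl
      rw [this, map_zero]
    rw [hz, zero_mul, smul_zero, map_zero, AlternatingMap.zero_apply]
    refine evA_io_zero (S := Tan (ZS X Z π g) y) (fun v hv => ?_) _ w hw
    show fderiv ℝ (cS (E := E) χ) y v = 0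
    rw [fderiv_cS hχ, (kk_ev_zero hD).1, (kk_ev_zero hD).2]
    simp

theorem smap_GS (hR : DfmO X (Prod.fst '' FG.FP X Z π g) ρ R O) :
    CW.SMap (ZS X Z π g) X (GS R) :=
  ⟨fun _ hy => contDiffAt_GS (hR.sm _ (mem_K hy hR) _), fun _ hy => GS_mem hy hR⟩

set_option maxHeartbeats 1000000 in
/-- **the recursion**: `∫_{Z⁺} χ⁺ g⁺^*(Fc ∧ om) = 2π ∫_Z χ g^* om`. -/
theorem sweep_J (h : CB n X φ B π al Fc) (hZ : Clo d Z) (hg : CW.SMap Z B g) (ho : Ori d Z oZ)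
    (hoZ : T.Hom d oZ) (ht : Thn d Z g χ)
    (hR : DfmO X (Prod.fst '' FG.FP X Z π g) ρ R O) (hρ : ρ ≤ d) {om : E' → Ext E'}
    (hs : T.Sm B om) (hc : T.Cl B om) (hd : T.Hom d om) :
    J (d + 1 + 1) (ZS X Z π g) (oS al oZ) (fun y => cS χ y • F.pull (gS π R) (Fc * om) y) =
      2 * Real.pi * J d Z oZ (fun x => χ x • F.pull g om x) := by
  have hS : Clo (d + 1 + 1) (ZS X Z π g) := clo_ZS h.subm hZ hg
  have hoS := ori_S h hZ hg ho
  have hπ : CW.SMap X B π := ⟨h.subm.smooth, h.subm.mapsTo⟩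
  set b : E → Ext E := al * F.pull π om with hb
  have sb : T.Sm X b := h.sm.mul (hs.pull hπ)
  have hGS := smap_GS hR
  -- (1)
  have e1 : T.Eqv (ZS X Z π g) (F.pull (gS π R) (Fc * om)) (F.d (F.pull (GS R) b)) := by
    have h1 : T.Eqv X (F.pull π (Fc * om)) (F.d b) := by
      rw [T.pull_mul']
      have h2 := T.d_mul_eqv h.sm (hs.pull hπ)
      have h3 : T.Eqv X (F.d (F.pull π om)) 0 := T.resZero_iff.1 (hc.pull hπ hs)
      have h4 := (T.Eqv.refl (X := X) (F.d al * F.pull π om)).add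
        ((T.Eqv.refl (X := X) (fun x => F.inv (al x))).mul h3)
      rw [mul_zero, add_zero] at h4
      exact (h.curv.symm.mul (T.Eqv.refl _)).trans (h2.trans h4).symm
    have h5 : T.Eqv (ZS X Z π g) (F.pull (GS R) (F.pull π (Fc * om)))
        (F.pull (gS π R) (Fc * om)) :=
      T.eqv_pull_pull hGS hπ (smap_gS h.subm hR) (fun _ _ => rfl) _
    exact h5.symm.trans ((h1.pull hGS).trans (T.d_pull_eqv hGS sb).symm)
  rw [J_eqv' hS e1 (cS χ)]
  -- (2) Stokes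
  rw [J_cut_d hS hoS (fun y hy => contDiffAt_cS (ht.1 _ hy.1.2.1)) (sb.pull hGS)]
  have e2 : J (d + 1 + 1) (ZS X Z π g) (oS al oZ) (fun y =>
      io ((fderiv ℝ (cS χ) y : ((E × V) × U 0) →L[ℝ] ℝ) :
        Module.Dual ℝ ((E × V) × U 0)) * F.pull (GS R) b y) =
      J (d + 1 + 1) (ZS X Z π g) (oS al oZ) (rS χ b) :=
    J_congr hS fun y hy w hw => key_stokes h hZ hg ht hR hρ b hy w hw
  rw [e2]
  -- (3) fibre integration
  have hW := clo_W h hZ hg
  have hsub := subm_rc hW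
  obtain ⟨hoW, hJW⟩ := J_W h hZ hg ho
    (η := fun z => χ z • F.pull g om z) (fun x hx =>
      ((ht.1 x hx).continuousAt.smul (contDiffAt_pull (n := ∞) (m := ∞) (hg.smooth x hx)
        (by simp) (hs _ (hg.maps hx))).continuousAt).continuousWithinAt)
  have hbd : T.Hom (1 + d) b := h.hom.mul hd.pull
  set Om : E × V → Ext (E × V) := fun w => χ w.2 • F.pull (Prod.fst : E × V → E) b w with hOm
  have hOmc : ContinuousOn Om (FG.FP X Z π g) := by
    have h2 : ContinuousOn (F.pull (Prod.fst : E × V → E) b) (FG.FP X Z π g) :=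
      FG.cont_pull_fst (X := X) (fun _ hz => hz.1)
        fun x hx => (sb x hx).continuousAt.continuousWithinAt
    have h1 : ContinuousOn (fun w : E × V => χ w.2) (FG.FP X Z π g) := fun w hw =>
      (ContinuousAt.comp (g := χ) (f := fun w : E × V => w.2) (ht.1 _ hw.2.1).continuousAt
        continuousAt_snd).continuousWithinAt
    exact h1.smul h2
  have e3 := fibre_integration hsub (oV := b0') (oX := oW al oZ) (η := F.pull Prod.snd ek)
    (om := Om) (fun y hy => ((sm_b0' (ZS X Z π g)) y hy).continuousAt.continuousWithinAt)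
    (by rw [add_comm 1 (d + 1)]; exact hoS)
    (fun w _ q hq => hom_oW h.hom hoZ w q (by omega))
    (fun y _ => (contDiffAt_pull (n := ∞) (m := ∞) contDiffAt_snd (by simp)
      contDiff_ek.contDiffAt).continuousAt.continuousWithinAt) hOmc
    (fun w _ q hq => (hbd.pull w).smul _ q (by omega))
  rw [add_comm 1 (d + 1)] at e3
  have e4 : J (d + 1 + 1) (ZS X Z π g) (oS al oZ) (rS χ b) = _ := e3
  rw [e4]
  have e5 : J (d + 1) (FG.FP X Z π g) (oW al oZ) (fun w =>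
      J 1 (FG.FP X Z π g ×ˢ SU 0 ∩ (Prod.fst : (E × V) × U 0 → E × V) ⁻¹' {w}) b0'
        (F.pull Prod.snd ek) • Om w) =
      J (d + 1) (FG.FP X Z π g) (oW al oZ) (fun w => (-1 : ℝ) • Om w) :=
    J_congr' hW fun w hw => by rw [J_fibre_ek hW hw]
  rw [e5, J_smul]
  have e6 : J (d + 1) (FG.FP X Z π g) (oW al oZ) Om = J (d + 1) (FG.FP X Z π g) (oW al oZ)
      (fun w => F.pull (Prod.fst : E × V → E) al w *
        F.pull (Prod.snd : E × V → V) (fun z => χ z • F.pull g om z) w) := by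
    have hfst : CW.SMap (FG.FP X Z π g) X (Prod.fst : E × V → E) :=
      ⟨fun _ _ => contDiffAt_fst, fun _ hz => hz.1⟩
    have hsnd : CW.SMap (FG.FP X Z π g) Z (Prod.snd : E × V → V) :=
      ⟨fun _ _ => contDiffAt_snd, fun _ hz => hz.2.1⟩
    have hcomp : CW.SMap (FG.FP X Z π g) B (fun w : E × V => π w.1) :=
      ⟨fun w hw => ContDiffAt.comp w (h.subm.smooth _ hw.1) contDiffAt_fst,
        fun w hw => h.subm.mapsTo hw.1⟩
    have h1 : T.Eqv (FG.FP X Z π g) (F.pull Prod.fst (F.pull π om))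
        (F.pull Prod.snd (F.pull g om)) :=
      (T.eqv_pull_pull hfst hπ hcomp (fun _ _ => rfl) om).trans
        (T.eqv_pull_pull hsnd hg hcomp (fun w hw => hw.2.2.symm) om).symm
    have h2 : T.Eqv (FG.FP X Z π g) (F.pull (Prod.fst : E × V → E) b)
        (F.pull Prod.fst al * F.pull Prod.snd (F.pull g om)) := by
      rw [hb, T.pull_mul']
      exact (T.Eqv.refl _).mul h1
    rw [J_eqv' hW h2 (fun w => χ w.2)]
    refine J_congr' hW fun w _ => ?_
    rw [Pi.mul_apply, FG.pull_snd_apply (fun z => χ z • F.pull g om z), map_smul,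
      mul_smul_comm, FG.pull_snd_apply]
  rw [e6, hJW]
  ring

/-- **THE SWEEP**: a deformation of small final rank raises a thin chain by two dimensions and
multiplies its periods by the curvature. -/
theorem sweep {E E' : Type} [NormedAddCommGroup E] [NormedSpace ℝ E] [FiniteDimensional ℝ E]
    [NormedAddCommGroup E'] [NormedSpace ℝ E'] [FiniteDimensional ℝ E'] {X : Set E} {B : Set E'}
    {π : E → E'} {φ : ℝ → E → E} {al : E → Ext E} {Fc : E' → Ext E'} {n d ρ : ℕ}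
    {R : E × ℝ → E} (h : CB n X φ B π al Fc) (c : Chn B d)
    (hR : Dfm X (Prod.fst '' lft X π c) ρ R) (hρ : ρ ≤ d) :
    ∃ c' : Chn B (d + 2), ∀ om, T.Sm B om → T.Cl B om → T.Hom d om →
      c'.I (Fc * om) = 2 * Real.pi * c.I om := by
  obtain ⟨O, hO⟩ := hR.exO
  refine ⟨{ V := (E × c.V) × U 0
            Z := ZS X c.Z π c.g
            g := gS π R
            χ := cS c.χ
            o := oS al c.o
            clo := clo_ZS h.subm c.clo c.sm
            ori := ori_S h c.clo c.sm c.ori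
            hom := fun y => ?_
            sm := smap_gS h.subm hO
            thn := thn_sweep h.subm c.sm c.clo c.thn hO hρ }, fun om hs hc hd => ?_⟩
  · have := T.isDeg_mul (hom_b0' y)
      ((hom_oW h.hom c.hom).pull (f := (Prod.fst : (E × c.V) × U 0 → E × c.V)) y)
    rwa [show 1 + (1 + d) = d + 2 by omega] at this
  · exact sweep_J h c.clo c.sm c.ori c.hom c.thn hO hρ hs hc hd

end circle

end Crest.Agent.R208.CH
end
end

-- ▼ part R208/QO1
section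

/-! Row 208, block Q (helper595).  QO1: smooth images of submanifolds of small dimension (Hausdorff
dimension): a `d`-dimensional submanifold does not fill an open set of dimension `> d`. -/

set_option autoImplicit false
set_option linter.unusedSectionVars false

open MeasureTheory Set Filter Topology Module
open scoped ContDiff NNReal ENNReal
open Crest.Agent.R208.F Crest.Agent.R208.FI

noncomputable section

namespace Crest.Agent.R208.QO

variable {E F : Type*} [NormedAddCommGroup E] [NormedSpace ℝ E] [FiniteDimensional ℝ E]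
  [NormedAddCommGroup F] [NormedSpace ℝ F] [FiniteDimensional ℝ F] {X A : Set E} {d : ℕ}
  {f : E → F}

theorem dimH_image_le' {s : Set E} (hf : ∀ x ∈ s, ContDiffAt ℝ 1 f x) :
    dimH (f '' s) ≤ dimH s := by
  refine dimH_image_le_of_locally_lipschitzOn fun x hx => ?_
  obtain ⟨K, t, ht, hK⟩ := (hf x hx).exists_lipschitzOnWith
  exact ⟨K, t, mem_nhdsWithin_of_mem_nhds ht, hK⟩

theorem dimH_sub (hX : Sub d X) : dimH X ≤ d := by
  by_contra hlt
  obtain ⟨x, hx, h⟩ := exists_mem_nhdsWithin_lt_dimH_of_lt_dimH (not_le.1 hlt)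
  obtain ⟨f, W, O, ℓ, h1, h2⟩ := hX.exists_loc hx
  have h3 : f '' W ∈ 𝓝[X] x := by
    rw [h1.img]
    exact inter_mem self_mem_nhdsWithin (mem_nhdsWithin_of_mem_nhds (h1.oO.mem_nhds h2))
  have h4 := h _ h3
  have h5 : dimH (f '' W) ≤ dimH W :=
    dimH_image_le' fun w hw => (h1.fC' hw).of_le (by exact_mod_cast le_top)
  have h6 : dimH W ≤ (d : ℝ≥0∞) := by
    refine (dimH_mono (subset_univ W)).trans ?_
    rw [Real.dimH_univ_eq_finrank]
    simp
  exact absurd (h4.trans_le (h5.trans h6)) (lt_irrefl _)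

/-- the smooth image of a subset of a `d`-dimensional submanifold has dimension `≤ d` -/
theorem dimH_image_sub (hX : Sub d X) (hA : A ⊆ X) (hf : ∀ x ∈ A, ContDiffAt ℝ 1 f x) :
    dimH (f '' A) ≤ d :=
  (dimH_image_le' hf).trans ((dimH_mono hA).trans (dimH_sub hX))

/-- **a smooth map from something of smaller dimension misses a point of every open set** -/
theorem dense_compl (hX : Sub d X) (hA : A ⊆ X) (hf : ∀ x ∈ A, ContDiffAt ℝ 1 f x)
    (hd : d < finrank ℝ F) : Dense (f '' A)ᶜ := by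
  refine dense_compl_of_dimH_lt_finrank ((dimH_image_sub hX hA hf).trans_lt ?_)
  exact_mod_cast hd

/-- finitely many such images -/
theorem exists_notMem (hX : Sub d X) (hA : A ⊆ X) (hf : ∀ x ∈ A, ContDiffAt ℝ 1 f x)
    (hd : d < finrank ℝ F) {O : Set F} (hO : IsOpen O) (hne : O.Nonempty) :
    ∃ a ∈ O, a ∉ f '' A := by
  obtain ⟨a, ha, hb⟩ := (dense_compl hX hA hf hd).inter_open_nonempty O hO hne
  exact ⟨a, ha, hb⟩

/-- two of them -/
theorem exists_notMem₂ {E' : Type*} [NormedAddCommGroup E'] [NormedSpace ℝ E']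
    [FiniteDimensional ℝ E'] {X' A' : Set E'} {d' : ℕ} {f' : E' → F}
    (hX : Sub d X) (hA : A ⊆ X) (hf : ∀ x ∈ A, ContDiffAt ℝ 1 f x) (hd : d < finrank ℝ F)
    (hX' : Sub d' X') (hA' : A' ⊆ X') (hf' : ∀ x ∈ A', ContDiffAt ℝ 1 f' x)
    (hd' : d' < finrank ℝ F) : ∃ a, a ∉ f '' A ∧ a ∉ f' '' A' := by
  have h : dimH (f '' A ∪ f' '' A') < (finrank ℝ F : ℕ) := by
    rw [dimH_union, max_lt_iff]
    exact ⟨(dimH_image_sub hX hA hf).trans_lt (by exact_mod_cast hd),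
      (dimH_image_sub hX' hA' hf').trans_lt (by exact_mod_cast hd')⟩
  have h2 := dense_compl_of_dimH_lt_finrank h
  obtain ⟨a, ha⟩ := h2.nonempty
  exact ⟨a, fun h => ha (Or.inl h), fun h => ha (Or.inr h)⟩

/-- a smooth map from `W` (dimension `D`) to an `n`-dimensional submanifold, `D < n`, misses a
point -/
theorem exists_missed {S : Set F} {n : ℕ} (hS : Sub n S) (hne : S.Nonempty) (hX : Sub d X)
    (hf : ∀ x ∈ X, ContDiffAt ℝ 1 f x) (hd : d < n) : ∃ q ∈ S, q ∉ f '' X := by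
  obtain ⟨s, hs⟩ := hne
  obtain ⟨g, W, O, ℓ, h1, h2⟩ := hS.exists_loc hs
  have hW : W.Nonempty := ⟨ℓ s, h1.maps s h2⟩
  obtain ⟨a, ha, hna⟩ := exists_notMem (f := fun x => ℓ (f x)) (A := {x ∈ X | f x ∈ O}) hX
    (fun x hx => hx.1) (fun x hx => ((h1.lC' hx.2).of_le (by exact_mod_cast le_top)).comp x
      (hf x hx.1)) (by rw [finrank_euclideanSpace_fin]; exact hd) h1.oW hW
  refine ⟨g a, (h1.mem ha).1, ?_⟩
  rintro ⟨x, hx, hxa⟩
  refine hna ⟨x, ⟨hx, by rw [hxa]; exact (h1.mem ha).2⟩, ?_⟩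
  change ℓ (f x) = a
  rw [hxa, h1.inv a ha]

end Crest.Agent.R208.QO
end
end

-- ▼ part R208/QO2
section

/-! Row 208, block Q (helper595).  QO2: pointwise deformation of unit tangent vectors along radial
geodesics (parallel transport) followed by a rotation to a given unit vector. -/

set_option autoImplicit false
set_option linter.unusedSectionVars false

open MeasureTheory Set Filter Topology Module
open scoped ContDiff RealInnerProductSpace
open Crest.GeometryTopology.Submanifold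
open Crest.Agent.R241.DDefs
open Crest.Agent.R241.D2
open Crest.Agent.R208.F Crest.Agent.R208.FI
open Crest.Agent.R208.L (US)
open Crest.Agent.R208.J (PT PTi)

noncomputable section

namespace Crest.Agent.R208.QO

variable {n N : ℕ} {κ : ℝ} {S : Set (Euc N)} {G : Geo n N κ S}

/-- normalisation -/
def nrm {H : Type*} [NormedAddCommGroup H] [NormedSpace ℝ H] (v : H) : H := ‖v‖⁻¹ • v

theorem norm_nrm {H : Type*} [NormedAddCommGroup H] [NormedSpace ℝ H] {v : H} (h : v ≠ 0) :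
    ‖nrm v‖ = 1 := by
  rw [nrm, norm_smul, norm_inv, norm_norm, inv_mul_cancel₀ (norm_ne_zero_iff.2 h)]

theorem nrm_of_one {H : Type*} [NormedAddCommGroup H] [NormedSpace ℝ H] {v : H} (h : ‖v‖ = 1) :
    nrm v = v := by rw [nrm, h, inv_one, one_smul]

theorem contDiffAt_nrm {H : Type*} [NormedAddCommGroup H] [InnerProductSpace ℝ H] {v : H}
    (h : v ≠ 0) : ContDiffAt ℝ ∞ (nrm (H := H)) v :=
  ((contDiffAt_norm ℝ h).inv (norm_ne_zero_iff.2 h)).smul contDiffAt_id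

/-- first cut-off: `0` for `t ≤ 0`, `1` for `t ≥ 1/2` -/
def lam (t : ℝ) : ℝ := Real.smoothTransition (2 * t)
/-- second cut-off: `0` for `t ≤ 1/2`, `1` for `t ≥ 1` -/
def muu (t : ℝ) : ℝ := Real.smoothTransition (2 * t - 1)

theorem contDiff_lam : ContDiff ℝ ∞ lam := Real.smoothTransition.contDiff.comp (by fun_prop)
theorem contDiff_muu : ContDiff ℝ ∞ muu := Real.smoothTransition.contDiff.comp (by fun_prop)
theorem lam_zero {t : ℝ} (h : t ≤ 0) : lam t = 0 := Real.smoothTransition.zero_of_nonpos (by linarith)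
theorem lam_one {t : ℝ} (h : 1 / 2 ≤ t) : lam t = 1 := Real.smoothTransition.one_of_one_le (by linarith)
theorem muu_zero {t : ℝ} (h : t ≤ 1 / 2) : muu t = 0 :=
  Real.smoothTransition.zero_of_nonpos (by linarith)
theorem muu_one {t : ℝ} (h : 1 ≤ t) : muu t = 1 := Real.smoothTransition.one_of_one_le (by linarith)
theorem muu_nonneg (t : ℝ) : 0 ≤ muu t := Real.smoothTransition.nonneg _
theorem muu_le_one (t : ℝ) : muu t ≤ 1 := Real.smoothTransition.le_one _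

/-- the vector at the other end of the radial geodesic -/
def ue (G : Geo n N κ S) (Γ : Euc N → Euc N × Euc N) (z : Euc N × Euc N) : Euc N :=
  PTi G (Γ z.1) 1 z.2

/-- the vector of the deformation before normalisation -/
def cc (G : Geo n N κ S) (Γ : Euc N → Euc N × Euc N) (e : Euc N × Euc N → Euc N)
    (ζ : (Euc N × Euc N) × ℝ) : Euc N :=
  (1 - muu ζ.2) • PT G (Γ ζ.1.1) (1 - lam ζ.2) (ue G Γ ζ.1) + muu ζ.2 • e ζ.1

/-- the deformation -/
def RR (G : Geo n N κ S) (Γ : Euc N → Euc N × Euc N) (e : Euc N × Euc N → Euc N)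
    (ζ : (Euc N × Euc N) × ℝ) : Euc N × Euc N :=
  ((fl G (Γ ζ.1.1, 1 - lam ζ.2)).1, nrm (cc G Γ e ζ))

/-- hypotheses: `Γ x` is the initial vector of a geodesic which is at `x` at time one -/
structure Rad (G : Geo n N κ S) (Γ : Euc N → Euc N × Euc N) (x : Euc N) : Prop where
  sm : ContDiffAt ℝ ∞ Γ x
  mem : Γ x ∈ TS G
  ex : Exp G (Γ x).1 (Γ x).2 = x

theorem Rad.norm_ue {Γ : Euc N → Euc N × Euc N} {z : Euc N × Euc N} (h : Rad G Γ z.1)
    (hz : z ∈ US G) : ‖ue G Γ z‖ = 1 := by rw [ue, J.norm_PTi h.mem]; exact hz.2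

theorem Rad.ue_mem {Γ : Euc N → Euc N × Euc N} {z : Euc N × Euc N} (h : Rad G Γ z.1)
    (hz : z ∈ US G) : ue G Γ z ∈ G.T (Γ z.1).1 := by
  refine J.PTi_mem h.mem 1 ?_
  have h1 : (fl G (Γ z.1, 1)).1 = z.1 := h.ex
  rw [h1]; exact hz.1.2

theorem Rad.contDiffAt_ue {Γ : Euc N → Euc N × Euc N} {z : Euc N × Euc N} (h : Rad G Γ z.1) :
    ContDiffAt ℝ ∞ (ue G Γ) z := by
  have h1 : ContDiffAt ℝ ∞ (fun y : Euc N × Euc N => Γ y.1) z := h.sm.comp z contDiffAt_fst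
  have h2 := ContDiffAt.comp (g := fun y : (Euc N × Euc N) × ℝ => PTi G y.1 y.2)
    (f := fun y : Euc N × Euc N => (Γ y.1, (1 : ℝ))) z (J.contDiffAt_PTi h.mem 1)
    (h1.prodMk contDiffAt_const)
  exact h2.clm_apply contDiffAt_snd

section stage
variable {Γ : Euc N → Euc N × Euc N} {e : Euc N × Euc N → Euc N} {z : Euc N × Euc N}

theorem cc_early {t : ℝ} (ht : t ≤ 1 / 2) :
    cc G Γ e (z, t) = PT G (Γ z.1) (1 - lam t) (ue G Γ z) := by
  rw [cc, muu_zero ht, sub_zero, one_smul, zero_smul, add_zero]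

theorem cc_late {t : ℝ} (ht : 1 / 2 ≤ t) :
    cc G Γ e (z, t) = (1 - muu t) • ue G Γ z + muu t • e z := by
  rw [cc, lam_one ht, sub_self, J.PT_zero]; rfl

theorem comb_ne {H : Type*} [NormedAddCommGroup H] [NormedSpace ℝ H] {u v : H} {m : ℝ}
    (hu : ‖u‖ = 1) (hv : ‖v‖ = 1) (h : u + v ≠ 0) (h0 : 0 ≤ m) (h1 : m ≤ 1) :
    (1 - m) • u + m • v ≠ 0 := by
  intro h2
  have h3 : (1 - m) • u = -(m • v) := eq_neg_of_add_eq_zero_left h2
  have h4 := congrArg norm h3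
  rw [norm_neg, norm_smul, norm_smul, hu, hv, mul_one, mul_one, Real.norm_of_nonneg h0,
    Real.norm_of_nonneg (by linarith)] at h4
  have h5 : m = 1 / 2 := by linarith
  subst h5
  apply h
  have h6 : (1 / 2 : ℝ) • (u + v) = 0 := by
    rw [smul_add]
    rw [show (1 - 1 / 2 : ℝ) = 1 / 2 by norm_num] at h2
    exact h2
  exact (smul_eq_zero.1 h6).resolve_left (by norm_num)

theorem cc_ne (h : Rad G Γ z.1) (hz : z ∈ US G) (he1 : ‖e z‖ = 1) (hne : ue G Γ z + e z ≠ 0)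
    (t : ℝ) : cc G Γ e (z, t) ≠ 0 := by
  rcases le_total t (1 / 2) with ht | ht
  · rw [cc_early ht, ← norm_ne_zero_iff, J.norm_PT h.mem, h.norm_ue hz]; exact one_ne_zero
  · rw [cc_late ht]
    exact comb_ne (h.norm_ue hz) he1 hne (muu_nonneg t) (muu_le_one t)

theorem RR_mem (h : Rad G Γ z.1) (hz : z ∈ US G) (he : e z ∈ G.T (Γ z.1).1) (he1 : ‖e z‖ = 1)
    (hne : ue G Γ z + e z ≠ 0) (t : ℝ) : RR G Γ e (z, t) ∈ US G := by
  refine ⟨⟨(fl_mem G h.mem _).1, ?_⟩, norm_nrm (cc_ne h hz he1 hne t)⟩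
  change nrm (cc G Γ e (z, t)) ∈ G.T (fl G (Γ z.1, 1 - lam t)).1
  refine (G.T _).smul_mem _ ?_
  rcases le_total t (1 / 2) with ht | ht
  · rw [cc_early ht]
    exact J.PT_mem h.mem _ (h.ue_mem hz)
  · rw [cc_late ht, lam_one ht, sub_self, fl_zero]
    exact (G.T _).add_mem ((G.T _).smul_mem _ (h.ue_mem hz)) ((G.T _).smul_mem _ he)

theorem RR_zero (h : Rad G Γ z.1) (hz : z ∈ US G) {t : ℝ} (ht : t ≤ 0) : RR G Γ e (z, t) = z := by
  have h1 : (fl G (Γ z.1, 1)).1 = z.1 := h.ex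
  refine Prod.ext ?_ ?_
  · change (fl G (Γ z.1, 1 - lam t)).1 = z.1
    rw [lam_zero ht, sub_zero, h1]
  · change nrm (cc G Γ e (z, t)) = z.2
    rw [cc_early (by linarith), lam_zero ht, sub_zero, ue, J.PT_PTi h.mem]
    exact nrm_of_one hz.2

theorem RR_one (he1 : ‖e z‖ = 1) {t : ℝ} (ht : 1 ≤ t) :
    RR G Γ e (z, t) = ((Γ z.1).1, e z) := by
  refine Prod.ext ?_ ?_
  · change (fl G (Γ z.1, 1 - lam t)).1 = (Γ z.1).1
    rw [lam_one (by linarith), sub_self, fl_zero]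
  · change nrm (cc G Γ e (z, t)) = e z
    rw [cc_late (by linarith), muu_one ht, sub_self, zero_smul, zero_add, one_smul]
    exact nrm_of_one he1

theorem contDiffAt_RR (h : Rad G Γ z.1) (hz : z ∈ US G) (hs : ContDiffAt ℝ ∞ e z)
    (he1 : ‖e z‖ = 1) (hne : ue G Γ z + e z ≠ 0) (t : ℝ) : ContDiffAt ℝ ∞ (RR G Γ e) (z, t) := by
  have a0 : ContDiffAt ℝ ∞ (fun y : (Euc N × Euc N) × ℝ => y.1.1) (z, t) := by fun_prop
  have a1 : ContDiffAt ℝ ∞ (fun y : (Euc N × Euc N) × ℝ => Γ y.1.1) (z, t) :=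
    ContDiffAt.comp (g := Γ) (z, t) h.sm a0
  have a2 : ContDiffAt ℝ ∞ (fun y : (Euc N × Euc N) × ℝ => 1 - lam y.2) (z, t) :=
    contDiffAt_const.sub (contDiff_lam.contDiffAt.comp _ contDiffAt_snd)
  have a3 : ContDiffAt ℝ ∞ (fun y : (Euc N × Euc N) × ℝ => muu y.2) (z, t) :=
    contDiff_muu.contDiffAt.comp _ contDiffAt_snd
  have b1 : ContDiffAt ℝ ∞ (fun y : (Euc N × Euc N) × ℝ => fl G (Γ y.1.1, 1 - lam y.2)) (z, t) :=
    ContDiffAt.comp (g := fl G) (z, t) (contDiffAt_fl' G h.mem (1 - lam t)) (a1.prodMk a2)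
  have b2 : ContDiffAt ℝ ∞ (fun y : (Euc N × Euc N) × ℝ => PT G (Γ y.1.1) (1 - lam y.2)) (z, t) :=
    ContDiffAt.comp (g := fun y : (Euc N × Euc N) × ℝ => PT G y.1 y.2) (z, t)
      (J.contDiffAt_PT h.mem (1 - lam t)) (a1.prodMk a2)
  have b3 : ContDiffAt ℝ ∞ (fun y : (Euc N × Euc N) × ℝ => ue G Γ y.1) (z, t) :=
    ContDiffAt.comp (g := ue G Γ) (z, t) h.contDiffAt_ue contDiffAt_fst
  have b4 : ContDiffAt ℝ ∞ (fun y : (Euc N × Euc N) × ℝ => e y.1) (z, t) :=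
    ContDiffAt.comp (g := e) (z, t) hs contDiffAt_fst
  have c1 : ContDiffAt ℝ ∞ (cc G Γ e) (z, t) :=
    ((contDiffAt_const.sub a3).smul (b2.clm_apply b3)).add (a3.smul b4)
  exact b1.fst.prodMk (ContDiffAt.comp (g := nrm) (z, t)
    (contDiffAt_nrm (cc_ne h hz he1 hne t)) c1)

end stage

/-- **the pointwise two stage deformation**: from `z` to `(Γ z.1).1, e z`, near a set `K` -/
theorem two_stage {Γ : Euc N → Euc N × Euc N} {D : Set (Euc N)} (hD : IsOpen D)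
    (hΓ : ∀ x ∈ S ∩ D, Rad G Γ x) {e : Euc N × Euc N → Euc N} {A : Set (Euc N × Euc N)}
    (hA : IsOpen A) (he : ∀ z ∈ A ∩ US G, z.1 ∈ D → ContDiffAt ℝ ∞ e z ∧ e z ∈ G.T (Γ z.1).1 ∧
      ‖e z‖ = 1) {K : Set (Euc N × Euc N)} (hK : K ⊆ US G) (hKA : K ⊆ A) (hKD : ∀ z ∈ K, z.1 ∈ D)
    (hKe : ∀ z ∈ K, ue G Γ z + e z ≠ 0) :
    ∃ (U : Set (Euc N × Euc N)) (R : (Euc N × Euc N) × ℝ → Euc N × Euc N), IsOpen U ∧ K ⊆ U ∧
      U ⊆ A ∧ (∀ z ∈ U, z.1 ∈ D) ∧
      (∀ z ∈ U ∩ US G, ∀ t, ContDiffAt ℝ ∞ R (z, t)) ∧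
      (∀ z ∈ U ∩ US G, ∀ t, R (z, t) ∈ US G) ∧
      (∀ z ∈ U ∩ US G, ∀ t ≤ 0, R (z, t) = z) ∧
      (∀ z ∈ U ∩ US G, ∀ t, 1 ≤ t → R (z, t) = ((Γ z.1).1, e z)) := by
  set B : Set (Euc N × Euc N) := {z | z ∈ A ∧ z.1 ∈ D ∧ (z ∈ US G → ue G Γ z + e z ≠ 0)} with hB
  have hKB : K ⊆ interior B := by
    intro z hz
    rw [mem_interior_iff_mem_nhds]
    have hzU := hK hz
    have h1 : ∀ᶠ y in 𝓝 z, y ∈ A := hA.mem_nhds (hKA hz)
    have h2 : ∀ᶠ y : Euc N × Euc N in 𝓝 z, y.1 ∈ D :=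
      (hD.preimage continuous_fst).mem_nhds (hKD z hz)
    have hr := hΓ z.1 ⟨hzU.1.1, hKD z hz⟩
    have hc : ContinuousAt (fun y => ue G Γ y + e y) z :=
      (hr.contDiffAt_ue.add (he z ⟨hKA hz, hzU⟩ (hKD z hz)).1).continuousAt
    have h3 : ∀ᶠ y in 𝓝 z, ue G Γ y + e y ≠ 0 := hc.eventually_ne (hKe z hz)
    filter_upwards [h1, h2, h3] with y y1 y2 y3
    exact ⟨y1, y2, fun _ => y3⟩
  have hprop : ∀ z ∈ interior B ∩ US G, Rad G Γ z.1 ∧ ContDiffAt ℝ ∞ e z ∧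
      e z ∈ G.T (Γ z.1).1 ∧ ‖e z‖ = 1 ∧ ue G Γ z + e z ≠ 0 := by
    intro z hz
    obtain ⟨b1, b2, b3⟩ := interior_subset hz.1
    obtain ⟨c1, c2, c3⟩ := he z ⟨b1, hz.2⟩ b2
    exact ⟨hΓ z.1 ⟨hz.2.1.1, b2⟩, c1, c2, c3, b3 hz.2⟩
  refine ⟨interior B, RR G Γ e, isOpen_interior, hKB, fun z hz => (interior_subset hz).1,
    fun z hz => (interior_subset hz).2.1, fun z hz t => ?_, fun z hz t => ?_, fun z hz t ht => ?_,
    fun z hz t ht => ?_⟩
  · obtain ⟨a, b, c, d, f⟩ := hprop z hz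
    exact contDiffAt_RR a hz.2 b d f t
  · obtain ⟨a, b, c, d, f⟩ := hprop z hz
    exact RR_mem a hz.2 c d f t
  · exact RR_zero (hprop z hz).1 hz.2 ht
  · exact RR_one (hprop z hz).2.2.2.1 ht

end Crest.Agent.R208.QO
end
end

-- ▼ part R208/QI1
section

/-! Row 208, block Q (helper198).  QI1 = (Q-in): a family of unit tangent vectors of dimension
`D < k` is contracted, pointwise, to one unit tangent vector `z₀`. -/

set_option autoImplicit false
set_option linter.unusedSectionVars false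

open MeasureTheory Set Filter Topology Module
open scoped ContDiff RealInnerProductSpace
open Crest.GeometryTopology.Submanifold
open Crest.Agent.R241.DDefs
open Crest.Agent.R241.D2
open Crest.Agent.R208.F Crest.Agent.R208.FI
open Crest.Agent.R208.L (US)
open Crest.Agent.R208.QO

noncomputable section

namespace Crest.Agent.R208.QI

variable {n N k D : ℕ} {κ : ℝ} {S : Set (Euc N)} {G : Geo n N κ S}
  {E' : Type*} [NormedAddCommGroup E'] [NormedSpace ℝ E'] [FiniteDimensional ℝ E']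

/-- **a generic point is at distance `< π` from a `D`-dimensional family of points, `D < k`** -/
theorem exists_near (h : GT.Bla G k) {W : Set E'} (hW : Sub D W) {g : E' → Euc N}
    (hg : ∀ w ∈ W, ContDiffAt ℝ ∞ g w) (hgS : ∀ w ∈ W, g w ∈ S) (hD : D < k) :
    ∃ q ∈ S, ∀ w ∈ W, intrinsicDist S q (g w) < Real.pi := by
  have hkn := h.ty.le
  have hS := FV.sub_S h.bl
  have hdat : FG.FPD ((n - k) + n) D n (GT.FF S) W S Prod.fst g :=
    { hX := FV.sub_FF' h (by omega)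
      hX' := hW
      hY := hS
      hf := fun _ _ => contDiffAt_fst
      hf' := hg
      hm := fun z hz => hz.1
      hm' := hgS
      hs := (FV.subm_fst h).sub }
  obtain ⟨q, hq, hqn⟩ := exists_missed (S := S) (f := fun z : (Euc N × Euc N) × E' => z.1.2) hS
    h.bl.conn.nonempty hdat.sub (fun z _ => by fun_prop) (by omega)
  refine ⟨q, hq, fun w hw => lt_of_le_of_ne (h.bl.dist_le q hq _ (hgS w hw)) fun he => hqn ?_⟩
  have h1 : (q, g w) ∈ GT.FF S := ⟨hq, hgS w hw, he⟩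
  exact ⟨((g w, q), w), ⟨GT.FF_symm h1, hw, rfl⟩, rfl⟩

/-- a unit vector opposite to no member of a family of dimension `D < n - 1` -/
theorem exists_unit (G : Geo n N κ S) {q : Euc N} (hq : q ∈ S) {W : Set E'} (hW : Sub D W)
    {u : E' → Euc N} (hu : ∀ w ∈ W, ContDiffAt ℝ ∞ u w) (hD : D + 1 < n) :
    ∃ e ∈ G.T q, ‖e‖ = 1 ∧ ∀ w ∈ W, u w + e ≠ 0 := by
  obtain ⟨b, hb⟩ := exists_frame G hq
  obtain ⟨L, hL⟩ := b.toLinearMap.exists_leftInverse_of_injective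
    (LinearMap.ker_eq_bot.2 b.injective)
  set Lc : Euc N →L[ℝ] Euc n := LinearMap.toContinuousLinearMap L with hLc
  have hLb : ∀ a, Lc (b a) = a := fun a => LinearMap.congr_fun hL a
  have hX : Sub (D + 1) (W ×ˢ (univ : Set ℝ)) :=
    hW.prod (sub_open (n := 1) (finrank_self ℝ) isOpen_univ)
  have hne : ({0}ᶜ : Set (Euc n)).Nonempty := by
    have : Nontrivial (Euc n) := by
      apply Module.nontrivial_of_finrank_pos (R := ℝ)
      rw [finrank_euclideanSpace_fin]; omega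
    exact nonempty_compl_of_nontrivial 0
  obtain ⟨a, ha0, ha⟩ := exists_notMem (f := fun y : E' × ℝ => -(y.2 • Lc (u y.1))) hX
    Subset.rfl (fun y hy => by
      have b1 : ContDiffAt ℝ ∞ (fun y : E' × ℝ => u y.1) y :=
        ContDiffAt.comp (g := u) y (hu _ hy.1) contDiffAt_fst
      have b2 : ContDiffAt ℝ ∞ (fun y : E' × ℝ => Lc (u y.1)) y :=
        Lc.contDiff.contDiffAt.comp y b1
      exact ((contDiffAt_snd.smul b2).neg).of_le (by exact_mod_cast le_top))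
    (by rw [finrank_euclideanSpace_fin]; exact hD) isOpen_compl_singleton hne
  have ha0' : b a ≠ 0 := fun h0 => ha0 (by
    have := hLb a
    rw [h0, map_zero] at this
    exact this.symm)
  refine ⟨nrm (b a), (G.T q).smul_mem _ (frame_mem hb a), norm_nrm ha0', fun w hw h0 => ?_⟩
  refine ha ⟨(w, ‖b a‖), ⟨hw, mem_univ _⟩, ?_⟩
  change -(‖b a‖ • Lc (u w)) = a
  have e1 : u w = -nrm (b a) := eq_neg_of_add_eq_zero_left h0
  rw [e1, nrm, map_neg, smul_neg, neg_neg, map_smul, smul_smul,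
    mul_inv_cancel₀ (norm_ne_zero_iff.2 ha0'), one_smul, hLb]

/-- radial geodesics from a point `q`, away from the cut locus of `q` -/
theorem exists_rad (h : GT.Bla G k) {q : Euc N} (hq : q ∈ S) :
    ∃ Γ : Euc N → Euc N × Euc N, (∀ x, (Γ x).1 = q) ∧ ∀ x ∈ S ∩ (GP.Cut S q)ᶜ, Rad G Γ x := by
  obtain ⟨sg, s1, s2, -, -⟩ := RS.exists_sg h.bl
  refine ⟨fun x => (q, sg q x), fun _ => rfl, fun x hx => ?_⟩
  have hlt : intrinsicDist S q x < Real.pi :=
    lt_of_le_of_ne (h.bl.dist_le q hq x hx.1) fun he => hx.2 ⟨hx.1, he⟩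
  obtain ⟨a1, a2, a3⟩ := s1 q hq x hx.1
  refine ⟨contDiffAt_const.prodMk ?_, ⟨hq, a1⟩, a3⟩
  exact ContDiffAt.comp (g := fun p : Euc N × Euc N => sg p.1 p.2)
    (f := fun y : Euc N => (q, y)) x (s2 q hq x hx.1 hlt) (contDiffAt_const.prodMk contDiffAt_id)

/-- **(Q-in)** -/
theorem q_in (h : GT.Bla G k) {W : Set E'} (hW : Sub D W) {f : E' → Euc N × Euc N}
    (hf : ∀ w ∈ W, ContDiffAt ℝ ∞ f w) (hfU : ∀ w ∈ W, f w ∈ US G) (hD : D < k)
    (hD' : D + 1 < n) :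
    ∃ q ∈ S, ∃ z₀ ∈ US G, z₀.1 = q ∧
    ∃ (U : Set (Euc N × Euc N)) (R : (Euc N × Euc N) × ℝ → Euc N × Euc N),
      IsOpen U ∧ f '' W ⊆ U ∧
      (∀ z ∈ U ∩ US G, intrinsicDist S q z.1 < Real.pi) ∧
      (∀ z ∈ U ∩ US G, ∀ t, ContDiffAt ℝ ∞ R (z, t)) ∧
      (∀ z ∈ U ∩ US G, ∀ t, R (z, t) ∈ US G) ∧
      (∀ z ∈ U ∩ US G, ∀ t ≤ 0, R (z, t) = z) ∧
      (∀ z ∈ U ∩ US G, ∀ t, 1 ≤ t → R (z, t) = z₀) := by
  obtain ⟨q, hq, hqW⟩ := exists_near h hW (g := fun w => (f w).1) (fun w hw => (hf w hw).fst)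
    (fun w hw => (hfU w hw).1.1) hD
  obtain ⟨Γ, hΓq, hrad⟩ := exists_rad h hq
  have hnot : ∀ w ∈ W, (f w).1 ∈ S ∩ (GP.Cut S q)ᶜ := fun w hw =>
    ⟨(hfU w hw).1.1, fun h0 => (hqW w hw).ne h0.2⟩
  obtain ⟨e, he, he1, hew⟩ := exists_unit G hq hW (u := fun w => ue G Γ (f w))
    (fun w hw => ContDiffAt.comp (g := ue G Γ) w (hrad _ (hnot w hw)).contDiffAt_ue (hf w hw)) hD'
  obtain ⟨U, R, hU, hKU, -, hUD, r1, r2, r3, r4⟩ := two_stage (G := G) (Γ := Γ)
    (D := (GP.Cut S q)ᶜ) (GP.isClosed_Cut h.bl hq).isClosed.isOpen_compl hrad (e := fun _ => e)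
    (A := univ) isOpen_univ
    (fun z hz hzD => ⟨contDiffAt_const, by rw [hΓq]; exact he, he1⟩)
    (K := f '' W) (by rintro _ ⟨w, hw, rfl⟩; exact hfU w hw) (subset_univ _)
    (by rintro _ ⟨w, hw, rfl⟩; exact (hnot w hw).2)
    (by rintro _ ⟨w, hw, rfl⟩; exact hew w hw)
  refine ⟨q, hq, (q, e), ⟨⟨hq, he⟩, he1⟩, rfl, U, R, hU, hKU, fun z hz => ?_, r1, r2, r3,
    fun z hz t ht => ?_⟩
  · exact lt_of_le_of_ne (h.bl.dist_le q hq _ hz.2.1.1) fun h0 => hUD z hz.1 ⟨hz.2.1.1, h0⟩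
  · rw [r4 z hz t ht, hΓq]

end Crest.Agent.R208.QI
end
end

-- ▼ part R208/QO3
section

/-! Row 208, block Q (helper595).  QO3 = (Q-out): a family of unit tangent vectors of dimension
`D < n - 1` is pushed, pointwise, into the image of a section over a cut locus. -/

set_option autoImplicit false
set_option linter.unusedSectionVars false

open MeasureTheory Set Filter Topology Module
open scoped ContDiff RealInnerProductSpace
open Crest.GeometryTopology.Submanifold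
open Crest.Agent.R241.DDefs
open Crest.Agent.R241.D2
open Crest.Agent.R208.F Crest.Agent.R208.FI
open Crest.Agent.R208.L (US)
open Crest.Agent.R208.J (PT PTi)

noncomputable section

namespace Crest.Agent.R208.QO

variable {n N k D : ℕ} {κ : ℝ} {S : Set (Euc N)} {G : Geo n N κ S}
  {E' : Type*} [NormedAddCommGroup E'] [NormedSpace ℝ E'] [FiniteDimensional ℝ E']

theorem le_N (G : Geo n N κ S) {x : Euc N} (hx : x ∈ S) : n ≤ N := by
  have h1 := Submodule.finrank_le (G.T x)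
  rwa [G.finrank_T x hx, finrank_euclideanSpace_fin] at h1

/-- the complementary field `1 - P` pulled back along a map to `S` -/
theorem pfield_co (G : Geo n N κ S) {X : Set E'} {g : E' → Euc N} (hg : ∀ x ∈ X, ContDiffAt ℝ ∞ g x)
    (hm : MapsTo g X S) : PField X (N - n) (fun x => 1 - G.P (g x)) := by
  have h1 : PField X n (fun x => G.P (g x)) :=
    ⟨fun x hx => G.contDiff_P.contDiffAt.comp x (hg x hx),
      fun x hx v => (LB.pfield G).idem _ (hm hx) v, fun x hx => (LB.pfield G).rank _ (hm hx)⟩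
  have h2 := T.pfield_compl h1
  rwa [finrank_euclideanSpace_fin] at h2

theorem rad_tube (h : GT.Bla G k) {q : Euc N} (hq : q ∈ S) {Gt : Euc N → Euc N × Euc N}
    (hG : T.Tube S (GP.Cut S q) q (FV.PC h q) Real.pi (GP.Psi G) Gt) {x : Euc N}
    (hx : x ∈ S ∩ {q}ᶜ) : Rad G Gt x ∧ (Gt x).1 ∈ GP.Cut S q := by
  have h1 := hG.sG.maps hx
  have h2 := h1.1.2
  have hF : ((Gt x).1, q) ∈ GT.FF S := FV.Cut_swap hq h1.1.1
  have h3 : (Gt x).2 ∈ FV.Vl G ((Gt x).1, q) :=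
    (FV.PV_eq_self h.bl h.ty (FV.sub_S h.bl) hF).1 h2
  exact ⟨⟨hG.sG.smooth x hx, ⟨h1.1.1.1, FV.Vl_le h.ty hF h3⟩, hG.ΨG x hx⟩, h1.1.1⟩

/-- **(Q-out)** -/
theorem q_out (h : GT.Bla G k) {W : Set E'} (hW : Sub D W) {f : E' → Euc N × Euc N}
    (hf : ∀ w ∈ W, ContDiffAt ℝ ∞ f w) (hfU : ∀ w ∈ W, f w ∈ US G) (hD : D + 1 < n) :
    ∃ q ∈ S, ∃ (U : Set (Euc N × Euc N)) (R : (Euc N × Euc N) × ℝ → Euc N × Euc N)
      (g : Euc N × Euc N → Euc N) (sec : Euc N → Euc N × Euc N),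
      IsOpen U ∧ f '' W ⊆ U ∧
      (∀ z ∈ U ∩ US G, ∀ t, ContDiffAt ℝ ∞ R (z, t)) ∧
      (∀ z ∈ U ∩ US G, ∀ t, R (z, t) ∈ US G) ∧
      (∀ z ∈ U ∩ US G, ∀ t ≤ 0, R (z, t) = z) ∧
      (∀ z ∈ U ∩ US G, ∀ t, 1 ≤ t → R (z, t) = sec (g z)) ∧
      (∀ z ∈ U ∩ US G, ContDiffAt ℝ ∞ g z ∧ g z ∈ GP.Cut S q) ∧
      (∀ c ∈ GP.Cut S q, ContDiffAt ℝ ∞ sec c ∧ sec c ∈ US G ∧ (sec c).1 = c) := by
  have hne : S.Nonempty := h.bl.conn.nonempty
  have hS := FV.sub_S h.bl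
  -- generic base point
  obtain ⟨q, hq, hqW⟩ := exists_missed (f := fun w => (f w).1) hS hne hW
    (fun w hw => ((hf w hw).fst).of_le (by exact_mod_cast le_top)) (by omega)
  obtain ⟨Gt, hG, -⟩ := T.exists_Tube' h hq
  have hrad := fun x hx => rad_tube h hq hG (x := x) hx
  have hnot : ∀ w ∈ W, (f w).1 ∈ S ∩ {q}ᶜ := fun w hw =>
    ⟨(hfU w hw).1.1, fun h0 => hqW ⟨w, hw, h0⟩⟩
  have hnN : n ≤ N := le_N G hq
  have hk1 := h.ty.one_le
  have hkn := h.ty.le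
  -- generic vector
  have hP1 : PField (GP.Cut S q) (N - n) (fun x => 1 - G.P x) :=
    pfield_co G (fun _ _ => contDiffAt_id) (fun x hx => hx.1)
  have sX1 := hP1.sub_tot (FV.sub_Cut h hq)
  have hgt : ∀ y ∈ W ×ˢ (univ : Set ℝ), ContDiffAt ℝ ∞ (fun y : E' × ℝ => (Gt (f y.1).1).1) y := by
    intro y hy
    have a1 : ContDiffAt ℝ ∞ (fun y : E' × ℝ => (f y.1).1) y :=
      ((hf y.1 hy.1).comp y contDiffAt_fst).fst
    exact (ContDiffAt.comp (g := Gt) y (hrad _ (hnot y.1 hy.1)).1.sm a1).fst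
  have hP2 : PField (W ×ˢ (univ : Set ℝ)) (N - n) (fun y => 1 - G.P (Gt (f y.1).1).1) :=
    pfield_co G hgt (fun y hy => (hrad _ (hnot y.1 hy.1)).2.1)
  have sX2 := hP2.sub_tot (hW.prod (sub_open (n := 1) (finrank_self ℝ) isOpen_univ))
  obtain ⟨a, ha1, ha2⟩ := exists_notMem₂ (f := fun z : Euc N × Euc N => z.2)
    (f' := fun ζ : (E' × ℝ) × Euc N => ζ.2 - ζ.1.2 • ue G Gt (f ζ.1.1)) sX1 Subset.rfl
    (fun _ _ => contDiffAt_snd) (by rw [finrank_euclideanSpace_fin]; omega) sX2 Subset.rfl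
    (fun ζ hζ => by
      have b1 : ContDiffAt ℝ ∞ (fun ζ : (E' × ℝ) × Euc N => f ζ.1.1) ζ :=
        ContDiffAt.comp (g := f) ζ (hf _ hζ.1.1) (by fun_prop)
      have b2 : ContDiffAt ℝ ∞ (fun ζ : (E' × ℝ) × Euc N => ue G Gt (f ζ.1.1)) ζ :=
        ContDiffAt.comp (g := ue G Gt) ζ (hrad _ (hnot _ hζ.1.1)).1.contDiffAt_ue b1
      have b3 : ContDiffAt ℝ ∞ (fun ζ : (E' × ℝ) × Euc N => ζ.1.2) ζ := by fun_prop
      exact ((contDiffAt_snd.sub (b3.smul b2))).of_le (by exact_mod_cast le_top))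
    (by rw [finrank_euclideanSpace_fin]; omega)
  have hPa : ∀ c ∈ GP.Cut S q, G.P c a ≠ 0 := by
    intro c hc h0
    refine ha1 ⟨(c, a), ⟨hc, ?_⟩, rfl⟩
    change a - G.P c a = a
    rw [h0, sub_zero]
  set e : Euc N × Euc N → Euc N := fun z => nrm (G.P (Gt z.1).1 a) with he
  have hemem : ∀ {c : Euc N}, c ∈ S → nrm (G.P c a) ∈ G.T c := fun hc =>
    (G.T _).smul_mem _ (P_mem G hc)
  have hKe : ∀ z ∈ f '' W, ue G Gt z + e z ≠ 0 := by
    rintro _ ⟨w, hw, rfl⟩ h0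
    set y := (Gt (f w).1).1 with hy
    have hyS : y ∈ GP.Cut S q := (hrad _ (hnot w hw)).2
    have hr := hPa y hyS
    have e1 : G.P y a = ‖G.P y a‖ • e (f w) := by
      change G.P y a = ‖G.P y a‖ • (‖G.P y a‖⁻¹ • G.P y a)
      rw [smul_smul, mul_inv_cancel₀ (norm_ne_zero_iff.2 hr), one_smul]
    have e2 : e (f w) = - ue G Gt (f w) := (neg_eq_of_add_eq_zero_right h0).symm
    refine ha2 ⟨((w, ‖G.P y a‖), a - G.P y a), ⟨⟨hw, mem_univ _⟩, ?_⟩, ?_⟩
    · change (a - G.P y a) - G.P y (a - G.P y a) = a - G.P y a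
      rw [map_sub, (LB.pfield G).idem y hyS.1 a, sub_self, sub_zero]
    · change (a - G.P y a) - ‖G.P y a‖ • ue G Gt (f w) = a
      rw [e2, smul_neg] at e1
      rw [neg_eq_iff_eq_neg.1 e1.symm]
      abel
  obtain ⟨U, R, hU, hKU, -, hUD, r1, r2, r3, r4⟩ := two_stage (G := G) (Γ := Gt) (D := {q}ᶜ)
    isOpen_compl_singleton (fun x hx => (hrad x hx).1) (e := e) (A := univ) isOpen_univ
    (fun z hz hzD => by
      have hzS : z.1 ∈ S ∩ {q}ᶜ := ⟨hz.2.1.1, hzD⟩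
      have hC := (hrad _ hzS).2
      have b1 : ContDiffAt ℝ ∞ (fun z : Euc N × Euc N => G.P (Gt z.1).1 a) z :=
        (G.contDiff_P.contDiffAt.comp z
          (ContDiffAt.comp (g := Gt) z (hrad _ hzS).1.sm contDiffAt_fst).fst).clm_apply
          contDiffAt_const
      exact ⟨ContDiffAt.comp (g := nrm) z (contDiffAt_nrm (hPa _ hC)) b1, hemem hC.1,
        norm_nrm (hPa _ hC)⟩)
    (K := f '' W) (by rintro _ ⟨w, hw, rfl⟩; exact hfU w hw) (subset_univ _)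
    (by rintro _ ⟨w, hw, rfl⟩; exact (hnot w hw).2) hKe
  refine ⟨q, hq, U, R, fun z => (Gt z.1).1, fun c => (c, nrm (G.P c a)), hU, hKU, r1, r2, r3,
    r4, fun z hz => ?_, fun c hc => ⟨?_, ⟨⟨hc.1, hemem hc.1⟩, norm_nrm (hPa c hc)⟩, rfl⟩⟩
  · have hzS : z.1 ∈ S ∩ {q}ᶜ := ⟨hz.2.1.1, hUD z hz.1⟩
    exact ⟨(ContDiffAt.comp (g := Gt) z (hrad _ hzS).1.sm contDiffAt_fst).fst, (hrad _ hzS).2⟩
  · have b1 : ContDiffAt ℝ ∞ (fun c : Euc N => G.P c a) c :=
      G.contDiff_P.contDiffAt.clm_apply contDiffAt_const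
    exact contDiffAt_id.prodMk (ContDiffAt.comp (g := nrm) c (contDiffAt_nrm (hPa c hc)) b1)

end Crest.Agent.R208.QO
end
end

-- ▼ part R208/CS1
section

/-! Row 208, block Q, part CH5 (helper423), CS1: the deformations of `US G` as sweeps, the starting
chains. -/

set_option autoImplicit false
set_option linter.unusedSectionVars false
set_option linter.unusedVariables false

open MeasureTheory Set Filter Topology Module
open scoped ContDiff RealInnerProductSpace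
open Crest.GeometryTopology.Submanifold
open Crest.Agent.R241.DDefs
open Crest.Agent.R241.D2
open Crest.Agent.R208.F Crest.Agent.R208.FI
open Crest.Agent.R208.CW (SMap)
open Crest.Agent.R208.T (Sm Cl Eqv Coh eqv_iff Hom)
open Crest.Agent.R208.L (US)
open Crest.Agent.R208.LB (al)
open Crest.Agent.R208.CH
open Crest.Agent.R208.CM (gf MM jj Quo Emb Curv)

noncomputable section

namespace Crest.Agent.R208.CS

/-! ### the bundle `US G → B` -/

variable {n N k m : ℕ} {κ : ℝ} {S : Set (Euc N)} {G : Geo n N κ S}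
  {g : Euc N × Euc N → Fin m → ℂ} {Fc : MM m → Ext (MM m)}

theorem cb_US (hB : Bl n N κ S G Real.pi) (hper : HS.Per G) (hg : Emb (US G) (gf G) g)
    (hc : Curv (US G) g (al (N := N)) Fc) :
    CB (2 * (n - 1)) (US G) (gf G) (Quo (US G) g) (jj g) (al (N := N)) Fc where
  cir := CM.cir_US hB hper
  subm := hg.subm_jj (CM.cir_US hB hper) (CM.clo_US' hB)
  inv x hx t := hg.jj_act hx t
  fib x hx y hy e := (hg.jj_eq_iff hx hy).1 e.symm
  sur := fun _ ⟨x, hx, e⟩ => ⟨x, hx, e⟩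
  sm := (CM.conn_al (FV.sub_S hB)).sm
  hom := (CM.conn_al (G := G) (FV.sub_S hB)).hom
  one x hx := (CM.conn_al (FV.sub_S hB)).evA_gen hx
  smF := hc.sm
  curv := hc.pull.symm

theorem clo_lft {E E' : Type} [NormedAddCommGroup E] [NormedSpace ℝ E] [FiniteDimensional ℝ E]
    [NormedAddCommGroup E'] [NormedSpace ℝ E'] [FiniteDimensional ℝ E']
    {n : ℕ} {X : Set E} {φ : ℝ → E → E} {B : Set E'} {π : E → E'} {a : E → Ext E}
    {Fc : E' → Ext E'} (h : CB n X φ B π a Fc) {d : ℕ} (c : Chn B d) :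
    Clo (1 + d) (lft X π c) := FG.bc_clo h.subm ⟨c.clo, c.sm.smooth, c.sm.maps⟩

/-! ### the chain of a point -/

section pt
variable {E' : Type} [NormedAddCommGroup E'] [NormedSpace ℝ E'] [FiniteDimensional ℝ E']
  {B : Set E'} {b : E'}

/-- the chain of one point -/
def pt (hb : b ∈ B) : Chn B 0 where
  V := ℝ
  Z := {0}
  g := fun _ => b
  χ := fun _ => 1
  o := 1
  clo := SN.clo_point 0
  ori := SN.ori_point 0
  hom := fun _ => T.isDeg_one
  sm := ⟨fun _ _ => contDiffAt_const, fun _ _ => hb⟩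
  thn := Thn.one _

theorem I_pt (hb : b ∈ B) : (pt hb).I 1 = 1 := by
  have h1 : (fun x => (pt hb).χ x • F.pull (pt hb).g (1 : E' → Ext E') x) = (1 : ℝ → Ext ℝ) := by
    funext x
    have h2 : F.pull (pt hb).g (1 : E' → Ext E') x = 1 := map_one _
    rw [h2]
    exact one_smul ℝ _
  rw [Chn.I, h1]
  exact SN.J_point (0 : ℝ)

end pt

/-! ### the two sweeps -/

section sweeps
variable {E' : Type} [NormedAddCommGroup E'] [NormedSpace ℝ E'] [FiniteDimensional ℝ E']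
  {B : Set E'} {π : Euc N × Euc N → E'} {F₀ : E' → Ext E'} {a : Euc N × Euc N → Ext (Euc N × Euc N)}
  {nB d : ℕ}

/-- inward sweep -/
theorem step_in (h : GT.Bla G k) (hC : CB nB (US G) (gf G) B π a F₀) (c : Chn B d)
    (hd : d + 1 < k) (hd' : d + 2 < n) :
    ∃ c' : Chn B (d + 2), ∀ om, Sm B om → Cl B om → Hom d om →
      c'.I (F₀ * om) = 2 * Real.pi * c.I om := by
  obtain ⟨q, hq, z₀, hz₀, hzq, O, R, hO, hK, -, r1, r2, r3, r4⟩ := QI.q_in h
    (clo_lft hC c).sub (f := Prod.fst) (fun w _ => contDiffAt_fst) (fun w hw => hw.1)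
    (by omega) (by omega)
  refine sweep hC c (Dfm.of (C := ({0} : Set ℝ)) (g := fun _ => (0 : ℝ)) (sec := fun _ => z₀)
    (SN.clo_point 0).sub hO hK r1 r2 r3 r4 (fun z _ => ⟨contDiffAt_const, rfl⟩)
    (fun c _ => contDiffAt_const)) (Nat.zero_le _)

/-- outward sweep -/
theorem step_out (h : GT.Bla G k) (hC : CB nB (US G) (gf G) B π a F₀) (c : Chn B d)
    (hd : n - k ≤ d) (hd' : d + 2 < n) :
    ∃ c' : Chn B (d + 2), ∀ om, Sm B om → Cl B om → Hom d om →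
      c'.I (F₀ * om) = 2 * Real.pi * c.I om := by
  obtain ⟨q, hq, O, R, g, sec, hO, hK, r1, r2, r3, r4, r5, r6⟩ := QO.q_out h
    (clo_lft hC c).sub (f := Prod.fst) (fun w _ => contDiffAt_fst) (fun w hw => hw.1)
    (by omega)
  exact sweep hC c (Dfm.of (FV.sub_Cut h hq) hO hK r1 r2 r3 r4 r5 fun c hc => (r6 c hc).1) hd

/-- **start 1**: the chains over which `F₀ ^ j` has integral `(2π) ^ j`, `2 j ≤ k` -/
theorem start_in (h : GT.Bla G k) (hC : CB nB (US G) (gf G) B π a F₀) (cF : Cl B F₀)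
    (h2 : Hom 2 F₀) (hne : B.Nonempty) :
    ∀ j : ℕ, 2 * j ≤ k → 2 * j < n → ∃ c : Chn B (2 * j), c.I (F₀ ^ j) = (2 * Real.pi) ^ j := by
  intro j
  induction j with
  | zero =>
    intro _ _
    obtain ⟨b, hb⟩ := hne
    exact ⟨pt hb, by rw [pow_zero, pow_zero, I_pt]⟩
  | succ j ih =>
    intro h1 h3
    obtain ⟨c, hc⟩ := ih (by omega) (by omega)
    obtain ⟨c', hc'⟩ := step_in h hC c (by omega) (by omega)
    refine ⟨c', ?_⟩
    rw [pow_succ', hc' _ (T.Sm.pow hC.smF j) (T.Cl.pow hC.smF cF j) (T.Hom.pow h2 j), hc]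
    ring

end sweeps

end Crest.Agent.R208.CS
end
end

-- ▼ part R208/CS2
section

/-! Row 208, block Q, part CH5 (helper423), CS2: the chain over a cut locus, the two 12-chains. -/

set_option autoImplicit false
set_option linter.unusedSectionVars false
set_option linter.unusedVariables false

open MeasureTheory Set Filter Topology Module
open scoped ContDiff RealInnerProductSpace
open Crest.GeometryTopology.Submanifold
open Crest.Agent.R241.DDefs
open Crest.Agent.R241.D2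
open Crest.Agent.R208.F Crest.Agent.R208.FI
open Crest.Agent.R208.CW (SMap)
open Crest.Agent.R208.T (Sm Cl Eqv Coh eqv_iff Hom)
open Crest.Agent.R208.L (US)
open Crest.Agent.R208.LB (al)
open Crest.Agent.R208.CH
open Crest.Agent.R208.CM (gf MM jj Quo Emb Curv)

noncomputable section

namespace Crest.Agent.R208.CS

variable {n N k m : ℕ} {κ : ℝ} {S : Set (Euc N)} {G : Geo n N κ S}
  {E' : Type} [NormedAddCommGroup E'] [NormedSpace ℝ E'] [FiniteDimensional ℝ E']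
  {B : Set E'} {π : Euc N × Euc N → E'} {F₀ x₀ : E' → Ext E'}
  {a : Euc N × Euc N → Ext (Euc N × Euc N)} {nB d : ℕ} {q : Euc N}
  {sec : Euc N → Euc N × Euc N} {o x : Euc N → Ext (Euc N)}

theorem exists_sec (h : GT.Bla G k) (hn : 1 < n) : ∃ q ∈ S, ∃ sec : Euc N → Euc N × Euc N,
    ∀ c ∈ GP.Cut S q, ContDiffAt ℝ ∞ sec c ∧ sec c ∈ US G ∧ (sec c).1 = c := by
  obtain ⟨q, hq, O, R, g, sec, -, -, -, -, -, -, -, r6⟩ := QO.q_out h (W := (∅ : Set ℝ)) (D := 0)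
    (fun x hx => hx.elim) (f := fun _ => 0) (fun w hw => hw.elim) (fun w hw => hw.elim) hn
  exact ⟨q, hq, sec, r6⟩

/-- the chain `π ∘ sec` over the cut locus of `q` -/
def cutC (h : GT.Bla G k) (hC : CB nB (US G) (gf G) B π a F₀) (hq : q ∈ S)
    (hsec : ∀ c ∈ GP.Cut S q, ContDiffAt ℝ ∞ sec c ∧ sec c ∈ US G ∧ (sec c).1 = c)
    (ho : Ori (n - k) (GP.Cut S q) o) (hd : Hom (n - k) o) : Chn B (n - k) where
  V := Euc N
  Z := GP.Cut S q
  g := fun c => π (sec c)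
  χ := fun _ => 1
  o := o
  clo := FV.clo_Cut h hq
  ori := ho
  hom := hd
  sm := ⟨fun c hc => ContDiffAt.comp (g := π) c (hC.subm.smooth _ (hsec c hc).2.1) (hsec c hc).1,
    fun c hc => hC.subm.mapsTo (hsec c hc).2.1⟩
  thn := Thn.one _

section cut
variable (h : GT.Bla G k) (hC : CB nB (US G) (gf G) B π a F₀) (hq : q ∈ S)
    (hsec : ∀ c ∈ GP.Cut S q, ContDiffAt ℝ ∞ sec c ∧ sec c ∈ US G ∧ (sec c).1 = c)
    (ho : Ori (n - k) (GP.Cut S q) o) (hd : Hom (n - k) o)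

theorem cutC_I (om : E' → Ext E') : (cutC h hC hq hsec ho hd).I om =
    J (n - k) (GP.Cut S q) o (F.pull (fun c => π (sec c)) om) := by
  have h1 : (fun x => (cutC h hC hq hsec ho hd).χ x • F.pull (cutC h hC hq hsec ho hd).g om x) =
      F.pull (fun c => π (sec c)) om := funext fun x => one_smul ℝ _
  rw [Chn.I, h1]
  rfl

theorem smap_sec (hsec : ∀ c ∈ GP.Cut S q, ContDiffAt ℝ ∞ sec c ∧ sec c ∈ US G ∧ (sec c).1 = c) :
    SMap (GP.Cut S q) (US G) sec := ⟨fun c hc => (hsec c hc).1, fun c hc => (hsec c hc).2.1⟩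

theorem smap_pi (hC : CB nB (US G) (gf G) B π a F₀) : SMap (US G) B π :=
  ⟨hC.subm.smooth, hC.subm.mapsTo⟩

theorem eqv_pull_comp (hC : CB nB (US G) (gf G) B π a F₀)
    (hsec : ∀ c ∈ GP.Cut S q, ContDiffAt ℝ ∞ sec c ∧ sec c ∈ US G ∧ (sec c).1 = c)
    (om : E' → Ext E') :
    Eqv (GP.Cut S q) (F.pull (fun c => π (sec c)) om) (F.pull sec (F.pull π om)) :=
  Eqv.of_eq fun c hc => (F.pull_comp ((hsec c hc).1.differentiableAt (by simp))
    ((hC.subm.smooth _ (hsec c hc).2.1).differentiableAt (by simp))).symm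

include h hq in
/-- powers of the curvature integrate to zero -/
theorem cutC_pow {j : ℕ} : (cutC h hC hq hsec ho hd).I (F₀ ^ (j + 1)) = 0 := by
  have sS := smap_sec (G := G) hsec
  have sP := smap_pi hC
  rw [cutC_I]
  set A := F.pull sec a with hA
  have sA : Sm (GP.Cut S q) A := hC.sm.pull sS
  have h1 : Eqv (GP.Cut S q) (F.pull (fun c => π (sec c)) F₀) (F.d A) :=
    (eqv_pull_comp hC hsec F₀).trans (((Eqv.pull sS hC.curv.symm)).trans
      (T.d_pull_eqv sS hC.sm).symm)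
  have h2 : Eqv (GP.Cut S q) (F.pull (fun c => π (sec c)) (F₀ ^ (j + 1))) (F.d A ^ (j + 1)) := by
    rw [T.pull_pow']
    exact T.Eqv.pow h1 _
  have sdA : Sm (GP.Cut S q) (F.d A) := sA.d
  have cdA : Cl (GP.Cut S q) (F.d A) := T.d_d' sA
  rw [SO.J_eqv (FV.clo_Cut h hq) h2]
  refine SO.J_coh_zero (FV.clo_Cut h hq) ho (T.Sm.pow sdA _) ?_
  rw [pow_succ]
  have h3 : Coh (GP.Cut S q) (F.d A) 0 := SO.coh_d_zero sA
  have h4 := T.Coh.mul_left (T.Sm.pow sdA j) (T.Cl.pow sdA cdA j) h3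
  rwa [mul_zero] at h4

include h hq in
/-- a class of `B` whose lift comes from `S` -/
theorem cutC_x (sx : Sm S x) (sx0 : Sm B x₀)
    (hx0 : Coh (US G) (F.pull π x₀) (F.pull Prod.fst x)) :
    (cutC h hC hq hsec ho hd).I x₀ = J (n - k) (GP.Cut S q) o x := by
  have sS := smap_sec (G := G) hsec
  have sP := smap_pi hC
  have sC : SMap (GP.Cut S q) S (fun c => c) := ⟨fun _ _ => contDiffAt_id, fun c hc => hc.1⟩
  rw [cutC_I]
  have sxC : Sm (GP.Cut S q) x := fun c hc => sx c hc.1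
  refine SO.J_coh (FV.clo_Cut h hq) ho ?_ sxC ?_
  · exact sx0.pull ⟨fun c hc => ContDiffAt.comp (g := π) c (hC.subm.smooth _ (hsec c hc).2.1)
      (hsec c hc).1, fun c hc => hC.subm.mapsTo (hsec c hc).2.1⟩
  · refine (Coh.of_eqv (eqv_pull_comp hC hsec x₀)).trans ((hx0.pull sS).trans (Coh.of_eqv ?_))
    have sF : SMap (US G) S Prod.fst := ⟨fun _ _ => contDiffAt_fst, fun z hz => hz.1.1⟩
    exact (T.eqv_pull_pull sS sF sC (fun c hc => (hsec c hc).2.2) x).trans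
      (Eqv.of_eq fun c _ => F.pull_id x c)

end cut

/-- two outward sweeps -/
theorem out_two (h : GT.Bla G k) (hC : CB nB (US G) (gf G) B π a F₀) (cF : Cl B F₀)
    (h2 : Hom 2 F₀) (c : Chn B d) (hd : n - k ≤ d) (hd' : d + 4 < n) :
    ∃ c' : Chn B (d + 4), ∀ om, Sm B om → Cl B om → Hom d om →
      c'.I (F₀ ^ 2 * om) = (2 * Real.pi) ^ 2 * c.I om := by
  obtain ⟨c₁, h₁⟩ := step_out h hC c hd (by omega)
  obtain ⟨c₂, h₂⟩ := step_out h hC c₁ (by omega) (by omega)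
  refine ⟨c₂, fun om s1 s2 s3 => ?_⟩
  rw [sq F₀, mul_assoc, h₂ _ (hC.smF.mul s1) (Cl.mul hC.smF s1 cF s2)
    (by rw [add_comm]; exact h2.mul s3), h₁ om s1 s2 s3]
  ring

/-- **THE CHAINS OF BLOCK Q** for `(k, n) = (8, 16)` -/
theorem chains (h : GT.Bla G 8) (hn : n = 16) (hC : CB nB (US G) (gf G) B π a F₀) (cF : Cl B F₀)
    (h2 : Hom 2 F₀) (hne : B.Nonempty) (sx0 : Sm B x₀)
    (sx : Sm S x) (hx0 : Coh (US G) (F.pull π x₀) (F.pull Prod.fst x)) :
    (∃ (c8 : Chn B 8) (c12 : Chn B 12), c8.I (F₀ ^ 4) = (2 * Real.pi) ^ 4 ∧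
      c12.I (F₀ ^ 6) = (2 * Real.pi) ^ 6 ∧
      ∀ om, Sm B om → Cl B om → Hom 8 om → c12.I (F₀ ^ 2 * om) = (2 * Real.pi) ^ 2 * c8.I om) ∧
    ∃ q ∈ S, ∃ o, Ori 8 (GP.Cut S q) o ∧ Sm (GP.Cut S q) o ∧ Hom 8 o ∧
      ∃ (c8 : Chn B 8) (c12 : Chn B 12), c8.I x₀ = J 8 (GP.Cut S q) o x ∧ c8.I (F₀ ^ 4) = 0 ∧
        c12.I (F₀ ^ 6) = 0 ∧
        ∀ om, Sm B om → Cl B om → Hom 8 om →
          c12.I (F₀ ^ 2 * om) = (2 * Real.pi) ^ 2 * c8.I om := by
  subst hn
  have e6 : F₀ ^ 6 = F₀ ^ 2 * F₀ ^ 4 := by rw [← pow_add]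
  have s4 := T.Sm.pow hC.smF 4
  have c4 := T.Cl.pow hC.smF cF 4
  have d4 : Hom 8 (F₀ ^ 4) := T.Hom.pow h2 4
  constructor
  · obtain ⟨c8, h8⟩ := start_in h hC cF h2 hne 4 (by norm_num) (by norm_num)
    obtain ⟨c12, h12⟩ := out_two h hC cF h2 c8 (by norm_num) (by norm_num)
    refine ⟨c8, c12, h8, ?_, h12⟩
    rw [e6, h12 _ s4 c4 d4, h8]
    ring
  · obtain ⟨q, hq, sec, hsec⟩ := exists_sec h (by norm_num)
    obtain ⟨o, ho, so, hd⟩ := T.exists_ori_Cut h (by norm_num) (by norm_num) hq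
    obtain ⟨c12, h12⟩ := out_two h hC cF h2 (cutC h hC hq hsec ho hd) (by norm_num)
      (by norm_num)
    refine ⟨q, hq, o, ho, so, hd, cutC h hC hq hsec ho hd, c12,
      cutC_x h hC hq hsec ho hd sx sx0 hx0, cutC_pow h hC hq hsec ho hd (j := 3), ?_, h12⟩
    rw [e6]
    refine (h12 _ s4 c4 d4).trans ?_
    rw [cutC_pow h hC hq hsec ho hd (j := 3), mul_zero]

end Crest.Agent.R208.CS
end
end

-- ▼ part R208/QS2
section

/-! Row 208, block Q (helper586), part QS2: **integrality of Chern numbers of thin chains**. -/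

set_option autoImplicit false
set_option linter.unusedSectionVars false

open MeasureTheory MeasureTheory.Measure Set Filter Topology Module
open scoped ContDiff RealInnerProductSpace
open Crest.Agent.R208.F Crest.Agent.R208.FI Crest.Agent.R208.CW Crest.Agent.R208.FG
open Crest.Agent.R208.T (Sm Cl Hom Coh Eqv eR OR EC)
open Crest.Agent.R208.EP Crest.Agent.R208.EW Crest.Agent.R208.CM

noncomputable section

namespace Crest.Agent.R208.QS

variable {E' : Type} [NormedAddCommGroup E'] [NormedSpace ℝ E'] [FiniteDimensional ℝ E']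
  {p ι : Type} [Fintype p] [DecidableEq p] [Fintype ι] [DecidableEq ι]
  {B : Set E'} {N : E' → EuclideanSpace ℝ p →L[ℝ] EuclideanSpace ℝ p} {b s : ℕ}

/-- the map of the product chain -/
def fP {d : ℕ} (c : CH.Chn B d) (z : c.V × MM (1 + 1)) : E' × MM (1 + 1) := (c.g z.1, z.2)

/-- the cut off of the product chain -/
def cP {d : ℕ} (c : CH.Chn B d) (z : c.V × MM (1 + 1)) : ℝ := c.χ z.1

/-- the orientation of the product chain -/
def oP {d : ℕ} (c : CH.Chn B d) (z : c.V × MM (1 + 1)) : Ext (c.V × MM (1 + 1)) :=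
  F.pull Prod.fst c.o z * F.pull Prod.snd (Fk 1) z

theorem clo_P {d : ℕ} (c : CH.Chn B d) : Clo (d + 2) (c.Z ×ˢ CPk 1) := c.clo.prod (clo_CPk (k := 1))

theorem isDeg_Fk : ∀ x, IsDeg 2 (Fk 1 x) := curv_SU.hom

theorem ori_P {d : ℕ} (c : CH.Chn B d) : Ori (d + 2) (c.Z ×ˢ CPk 1) (oP c) :=
  ori_prod c.clo c.ori (clo_CPk (k := 1)) ori_CP1 isDeg_Fk

theorem smap_P {d : ℕ} (c : CH.Chn B d) : SMap (c.Z ×ˢ CPk 1) (B ×ˢ CPk 1) (fP c) :=
  smap_prod c.sm

theorem thn_P {d : ℕ} (c : CH.Chn B d) (hB : Clo b B) :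
    CH.Thn (d + 2) (c.Z ×ˢ CPk 1) (fP c) (cP c) :=
  thn_prod c.thn c.sm hB (clo_CPk (k := 1))

/-- the integral of `a × F` over the product chain -/
theorem J_P {d : ℕ} (c : CH.Chn B d) {a : E' → Ext E'} (ha : Sm B a) (hd : Hom d a) :
    J (d + 2) (c.Z ×ˢ CPk 1) (oP c)
      (fun z => cP c z • F.pull (fP c) (F.pull Prod.fst a * F.pull Prod.snd (Fk 1)) z) =
      2 * Real.pi * c.I a := by
  have hX := clo_P c
  have hf := smap_P c
  have e1 : Eqv (c.Z ×ˢ CPk 1) (F.pull (fP c) (F.pull Prod.fst a * F.pull Prod.snd (Fk 1)))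
      (F.pull Prod.fst (F.pull c.g a) * F.pull Prod.snd (Fk 1)) := by
    rw [T.pull_mul']
    refine Eqv.mul ?_ ?_
    · have h1 : Eqv (c.Z ×ˢ CPk 1) (F.pull (fP c) (F.pull Prod.fst a))
          (F.pull (fun z : c.V × MM (1 + 1) => c.g z.1) a) :=
        T.eqv_pull_pull hf (smap_fst' (k := 1)) (c.sm.comp smap_fst') (fun _ _ => rfl) a
      have h2 : Eqv (c.Z ×ˢ CPk 1) (F.pull Prod.fst (F.pull c.g a))
          (F.pull (fun z : c.V × MM (1 + 1) => c.g z.1) a) :=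
        T.eqv_pull_pull smap_fst' c.sm (c.sm.comp smap_fst') (fun _ _ => rfl) a
      exact h1.trans h2.symm
    · exact T.eqv_pull_pull hf (smap_snd' (k := 1)) smap_snd' (fun _ _ => rfl) _
  rw [CH.J_eqv' hX e1]
  have e2 : (fun z => cP c z • (F.pull Prod.fst (F.pull c.g a) * F.pull Prod.snd (Fk 1) :
      c.V × MM (1 + 1) → Ext (c.V × MM (1 + 1))) z) =
      fun z : c.V × MM (1 + 1) => F.pull Prod.fst (fun x => c.χ x • F.pull c.g a x) z * F.pull Prod.snd (Fk 1) z := by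
    funext z
    rw [Pi.mul_apply, ← smul_mul_assoc]
    congr 1
    exact (map_smul _ _ _).symm
  rw [e2]
  have hs : ∀ z ∈ c.Z, ContDiffAt ℝ ∞ (fun x => c.χ x • F.pull c.g a x) z := fun z hz =>
    (c.thn.1 z hz).smul (ha.pull c.sm z hz)
  have h3 := J_prod c.clo c.ori (clo_CPk (k := 1)) ori_CP1 isDeg_Fk isPreconnected_CPk nonempty_CPk
    (η := fun x => c.χ x • F.pull c.g a x) (fun z hz => (hs z hz).of_le (by simp))
    (fun x => (hd.pull x).smul _) (curv_SU (k := 1)).sm.contOn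
    (fun x _ q hq => isDeg_Fk x q (by omega))
  rw [J_CP1] at h3
  exact h3.trans (mul_comm _ _)

/-- **integrality of the top Chern number**, `N` of odd rank `2 s + 1`, from thin Euler
integrality -/
theorem int_cR (hB : Clo b B) (hBc : IsPreconnected B) (hN : PField B (2 * s + 1) N)
    (hs : ∀ x ∈ B, ∀ u v, ⟪N x u, v⟫ = ⟪u, N x v⟫) (hι : Fintype.card ι = 2 * s + 1)
    {d : ℕ} (hd : d = 2 * (2 * s)) (c : CH.Chn B d)
    (hIT : ∃ z : ℤ, J (d + 2) (c.Z ×ˢ CPk 1) (oP c)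
      (fun z => cP c z • F.pull (fP c) (eR (NLp N) (WNp ι N)) z) = XF.tau ι * z) :
    ∃ z : ℤ, c.I (cR (2 * s) N) = (2 * Real.pi) ^ (2 * s) * z := by
  obtain ⟨z, hz⟩ := hIT
  obtain ⟨ε, hε, hc⟩ := coh_NLp (ι := ι) hB.sub hBc hN hs hι
  have hI := idF_of_pfield hN
  have hsm : Sm B (cR (2 * s) N) := (ec_cfr hB.sub hI (2 * s)).sm
  have hom : Hom d (cR (2 * s) N) := by rw [hd]; exact hom_cfr (2 * s)
  have hor : OR (ι := ι) (B ×ˢ CPk 1) (NLp N) (WNp ι N) := or_NLp hN hs hι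
  have h1 := (thn_P c hB).J_coh (clo_P c) (ori_P c) (smap_P c) (CM.sm_eR hor)
    (((hsm.pull (smap_fst' (k := 1))).mul ((curv_SU (k := 1)).sm.pull (smap_snd' (Y := B)))).smul _)
    hc
  rw [hz] at h1
  set K : ℝ := ε * (2 ^ (2 * s + 1) * (Nat.factorial (2 * s + 1))) with hK
  have h2 : (fun x => cP c x • F.pull (fP c) (K • (F.pull Prod.fst (cR (2 * s) N)
      * F.pull Prod.snd (Fk 1))) x) = fun x => K • (cP c x • F.pull (fP c)
        (F.pull Prod.fst (cR (2 * s) N) * F.pull Prod.snd (Fk 1)) x) := by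
    funext x
    rw [T.pull_smul', Pi.smul_apply, smul_comm]
  rw [h2, J_smul, J_P c hsm hom] at h1
  have hK0 : K ≠ 0 := by
    rw [hK]
    have : (ε : ℝ) ≠ 0 := by rcases hε with h | h <;> rw [h] <;> norm_num
    positivity
  have hpi := Real.pi_pos
  have htau : XF.tau ι = K * (2 * Real.pi) * ((2 * Real.pi) ^ (2 * s) * ε) := by
    have e1 : ε * ε = 1 := by rcases hε with h | h <;> rw [h] <;> norm_num
    rw [XF.tau, hι, hK, show (4 * Real.pi : ℝ) = 2 * (2 * Real.pi) by ring, mul_pow,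
      pow_succ (2 * Real.pi)]
    linear_combination (-(2 ^ (2 * s + 1) * ((2 * Real.pi) ^ (2 * s) * (2 * Real.pi)) *
      ((2 * s + 1).factorial : ℝ))) * e1
  rw [htau] at h1
  obtain ⟨w, hw⟩ : ∃ w : ℤ, (w : ℝ) = ε * z := by
    rcases hε with h | h
    · exact ⟨z, by rw [h, one_mul]⟩
    · exact ⟨-z, by rw [h]; push_cast; ring⟩
  refine ⟨w, ?_⟩
  have hne : K * (2 * Real.pi) ≠ 0 := mul_ne_zero hK0 (by positivity)
  apply mul_left_cancel₀ hne
  rw [hw]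
  linear_combination -h1

end Crest.Agent.R208.QS
end
end

-- ▼ part R208/QS3
section

/-! Row 208, block Q (helper586), part QS3: **assembly of block Q for `k = 8`**: `β ∈ ℤ`,
`2 n₀ ∈ ℤ`, `α + β n₀ ∈ ℤ`. -/

set_option autoImplicit false
set_option linter.unusedSectionVars false

open MeasureTheory MeasureTheory.Measure Set Filter Topology Module
open scoped ContDiff RealInnerProductSpace
open Crest.Agent.R208.F Crest.Agent.R208.FI Crest.Agent.R208.CW Crest.Agent.R208.FG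
open Crest.Agent.R208.T (Sm Cl Hom Coh Eqv eR OR EC rcl)
open Crest.Agent.R208.EP Crest.Agent.R208.EW Crest.Agent.R208.CM

noncomputable section

namespace Crest.Agent.R208.QS

/-- signs do not matter -/
theorem int_of_abs {α β n₀ : ℝ} {A X : ℝ} (hA : |A| = 1) (hX : |X| = |n₀|)
    (hβ : ∃ n : ℤ, β = n) (hn : ∃ n : ℤ, 2 * n₀ = n) (h : ∃ n : ℤ, α * A + β * X = n) :
    ∃ n : ℤ, α + β * n₀ = n := by
  obtain ⟨b, rfl⟩ := hβ
  obtain ⟨m, hm⟩ := hn
  obtain ⟨z, hz⟩ := h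
  have hA' : A = 1 ∨ A = -1 := by
    rcases abs_cases A with ⟨h, _⟩ | ⟨h, _⟩
    · left; linarith
    · right; linarith
  have hX' : X = n₀ ∨ X = -n₀ := abs_eq_abs.1 hX
  rcases hA' with rfl | rfl <;> rcases hX' with rfl | rfl
  · exact ⟨z, by linarith⟩
  · exact ⟨z + b * m, by push_cast; rw [← hm]; linarith⟩
  · exact ⟨-z + b * m, by push_cast; rw [← hm]; linarith⟩
  · exact ⟨-z, by push_cast; linarith⟩

section q8
variable {E' : Type} [NormedAddCommGroup E'] [NormedSpace ℝ E'] [FiniteDimensional ℝ E']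
  {p ι : Type} [Fintype p] [DecidableEq p] [Fintype ι] [DecidableEq ι]
  {B : Set E'} {N : E' → EuclideanSpace ℝ p →L[ℝ] EuclideanSpace ℝ p} {b : ℕ}
  {Fc x0 : E' → Ext E'} {α β τ : ℝ}

/-- value of the Chern form on a chain -/
theorem I_cR (c : CH.Chn B 12) (hB : Sub b B) (hN : PField B 7 N) (sF : Sm B Fc) (sx : Sm B x0)
    (hp3 : Coh B (cR 6 N) (α • Fc ^ 6 + (β * (2 * Real.pi) ^ 4 / τ) • (Fc ^ 2 * x0))) :
    c.I (cR 6 N) = α * c.I (Fc ^ 6) + (β * (2 * Real.pi) ^ 4 / τ) * c.I (Fc ^ 2 * x0) := by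
  have h1 : Sm B (cR 6 N) := (ec_cfr hB (idF_of_pfield hN) 6).sm
  have s1 : Sm B (α • Fc ^ 6) := (sF.pow 6).smul _
  have s2 : Sm B ((β * (2 * Real.pi) ^ 4 / τ) • (Fc ^ 2 * x0)) := ((sF.pow 2).mul sx).smul _
  rw [c.I_coh h1 (s1.add s2) hp3, c.I_add s1 s2, c.I_smul, c.I_smul]

/-- **block Q**, `k = 8` -/
theorem block_q (hB : Clo b B) (hBc : IsPreconnected B) (hN : PField B 7 N)
    (hs : ∀ x ∈ B, ∀ u v, ⟪N x u, v⟫ = ⟪u, N x v⟫) (hι : Fintype.card ι = 7)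
    (sF : Sm B Fc) (sx : Sm B x0) (hτ : 0 < τ)
    (hp3 : Coh B (cR 6 N) (α • Fc ^ 6 + (β * (2 * Real.pi) ^ 4 / τ) • (Fc ^ 2 * x0)))
    {c₁ c₂ : CH.Chn B 12} {c₈ : CH.Chn B 8}
    (IT : ∀ c : CH.Chn B 12, ∃ z : ℤ, J 14 (c.Z ×ˢ CPk 1) (oP c)
      (fun z => cP c z • F.pull (fP c) (eR (NLp N) (WNp ι N)) z) = XF.tau ι * z)
    (h1 : |c₁.I (Fc ^ 6)| = (2 * Real.pi) ^ 6)
    (h1' : |c₁.I (Fc ^ 2 * x0)| = (2 * Real.pi) ^ 2 * |c₈.I x0|)
    (h2 : c₂.I (Fc ^ 6) = 0) (h2' : |c₂.I (Fc ^ 2 * x0)| = (2 * Real.pi) ^ 2 * τ)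
    (hn0 : ∃ z : ℤ, 2 * c₈.I x0 = τ * z) :
    (∃ n : ℤ, β = n) ∧ ∃ n₀ : ℝ, (∃ n : ℤ, 2 * n₀ = n) ∧ ∃ n : ℤ, α + β * n₀ = n := by
  have hpi : (0 : ℝ) < 2 * Real.pi := by positivity
  have hp6 : ((2 * Real.pi) ^ 6 : ℝ) ≠ 0 := by positivity
  have hτ0 : τ ≠ 0 := hτ.ne'
  obtain ⟨z1, hz1⟩ := int_cR (s := 3) hB hBc hN hs hι (by norm_num) c₁ (IT c₁)
  obtain ⟨z2, hz2⟩ := int_cR (s := 3) hB hBc hN hs hι (by norm_num) c₂ (IT c₂)
  have e1 : c₁.I (cR 6 N) = _ := I_cR c₁ hB.sub hN sF sx hp3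
  have e2 : c₂.I (cR 6 N) = _ := I_cR c₂ hB.sub hN sF sx hp3
  rw [show (2 * 3 : ℕ) = 6 from rfl] at hz1 hz2
  rw [e1] at hz1
  rw [e2, h2, mul_zero, zero_add] at hz2
  have hβ : ∃ n : ℤ, β = n := by
    have h3 : c₂.I (Fc ^ 2 * x0) = (2 * Real.pi) ^ 2 * τ ∨
        c₂.I (Fc ^ 2 * x0) = -((2 * Real.pi) ^ 2 * τ) := by
      rcases abs_cases (c₂.I (Fc ^ 2 * x0)) with ⟨h, _⟩ | ⟨h, _⟩
      · left; linarith
      · right; linarith
    rcases h3 with h3 | h3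
    · refine ⟨z2, ?_⟩
      rw [h3] at hz2
      have : β * (2 * Real.pi) ^ 6 = (2 * Real.pi) ^ 6 * z2 := by
        rw [← hz2]; field_simp
      apply mul_right_cancel₀ hp6
      rw [this]; ring
    · refine ⟨-z2, ?_⟩
      rw [h3] at hz2
      have : -(β * (2 * Real.pi) ^ 6) = (2 * Real.pi) ^ 6 * z2 := by
        rw [← hz2]; field_simp
      apply mul_right_cancel₀ hp6
      push_cast
      linear_combination -this
  obtain ⟨zn, hzn⟩ := hn0
  have hn : ∃ n : ℤ, 2 * (c₈.I x0 / τ) = n := ⟨zn, by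
    rw [← mul_div_assoc, hzn]; field_simp⟩
  refine ⟨hβ, c₈.I x0 / τ, hn, ?_⟩
  refine int_of_abs (A := c₁.I (Fc ^ 6) / (2 * Real.pi) ^ 6)
    (X := c₁.I (Fc ^ 2 * x0) / ((2 * Real.pi) ^ 2 * τ)) ?_ ?_ hβ hn ⟨z1, ?_⟩
  · rw [abs_div, h1, abs_of_pos (by positivity)]
    exact div_self hp6
  · rw [abs_div, h1', abs_div, abs_of_pos (show 0 < (2 * Real.pi) ^ 2 * τ by positivity),
      abs_of_pos hτ]
    field_simp
  · apply mul_left_cancel₀ hp6
    rw [← hz1]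
    field_simp

end q8

end Crest.Agent.R208.QS
end
end

-- ▼ part R208/CQ2

/-! Row 208, block Q (helper423), part CQ2: **the instance of block Q for `(k, n) = (8, 16)`**:
the fields `hβ`, `hn`, `hα` of the endgame `ZA.bound`. -/

set_option autoImplicit false
set_option linter.unusedSectionVars false
set_option linter.unusedVariables false

open MeasureTheory Set Filter Topology Module
open scoped ContDiff RealInnerProductSpace
open Crest.GeometryTopology.Submanifold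
open Crest.Agent.R241.DDefs
open Crest.Agent.R241.D2
open Crest.Agent.R208.F Crest.Agent.R208.FI
open Crest.Agent.R208.CW (SMap)
open Crest.Agent.R208.T (Sm Cl Eqv Coh eqv_iff Hom OR eR)
open Crest.Agent.R208.L (US)
open Crest.Agent.R208.LB (al)
open Crest.Agent.R208.CM (gf MM jj Quo Emb Curv)
open Crest.Agent.R208.EW (cR)
open Crest.Agent.R208.EP (NLp WNp CPk)

noncomputable section

namespace Crest.Agent.R208.CQ

/-- the sign of `ν` does not matter -/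
theorem fields_of {α β τ ν β₁ P : ℝ} (hP : 0 < P) (hτ : 0 < τ) (hν : |ν| * τ = 12 * P)
    (hb : β * P / τ = β₁)
    (h : (∃ n : ℤ, β = n) ∧ ∃ n₀ : ℝ, (∃ n : ℤ, 2 * n₀ = n) ∧ ∃ n : ℤ, α + β * n₀ = n) :
    ∃ n₀ : ℝ, (∃ n : ℤ, 12 * β₁ / ν = n) ∧ (∃ n : ℤ, 2 * n₀ = n) ∧
      ∃ n : ℤ, α + 12 * β₁ / ν * n₀ = n := by
  have hν0 : ν ≠ 0 := by
    rintro rfl
    rw [abs_zero, zero_mul] at hν
    linarith
  have hβ1 : β₁ * τ = β * P := by rw [← hb]; field_simp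
  obtain ⟨⟨b, hb'⟩, n₀, ⟨z, hz⟩, w, hw⟩ := h
  have key : 12 * β₁ / ν = β ∨ 12 * β₁ / ν = -β := by
    rcases abs_cases ν with ⟨h1, _⟩ | ⟨h1, _⟩
    · left
      rw [h1] at hν
      rw [div_eq_iff hν0]
      have : (12 * β₁ - β * ν) * τ = 0 := by
        have e : (12 * β₁ - β * ν) * τ = 12 * (β₁ * τ) - β * (ν * τ) := by ring
        rw [e, hβ1, hν]; ring
      rcases mul_eq_zero.1 this with h2 | h2
      · linarith
      · exact absurd h2 hτ.ne'
    · right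
      rw [h1] at hν
      rw [div_eq_iff hν0]
      have : (12 * β₁ + β * ν) * τ = 0 := by
        have e : (12 * β₁ + β * ν) * τ = 12 * (β₁ * τ) - β * (-ν * τ) := by ring
        rw [e, hβ1, hν]; ring
      rcases mul_eq_zero.1 this with h2 | h2
      · linarith
      · exact absurd h2 hτ.ne'
  rcases key with h1 | h1
  · exact ⟨n₀, ⟨b, by rw [h1, hb']⟩, ⟨z, hz⟩, ⟨w, by rw [h1, hw]⟩⟩
  · refine ⟨-n₀, ⟨-b, by rw [h1, hb']; push_cast; ring⟩, ⟨-z, by push_cast; linarith⟩, ⟨w, ?_⟩⟩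
    rw [h1, ← hw]; ring

variable {n N k m : ℕ} {κ : ℝ} {S : Set (Euc N)} {G : Geo n N κ S}
  {ι : Type} [Fintype ι] [DecidableEq ι] {W : Euc N × Euc N → (ι × Fin 2 → Fin N) → ℝ}
  {p₀ : Euc N} {x : Euc N → Ext (Euc N)}
  {g : Euc N × Euc N → Fin m → ℂ} {Fc x0 : MM m → Ext (MM m)}
  {pt : Type} [Fintype pt] [DecidableEq pt] {κ₇ : Type} [Fintype κ₇] [DecidableEq κ₇]
  {P' : MM m → EuclideanSpace ℝ pt →L[ℝ] EuclideanSpace ℝ pt} {α β₁ ν : ℝ}

/-- **block Q**, the instance over the manifold of geodesics. -/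
theorem fields {h : GT.Bla G 8} (D : T.XM h 2 W p₀ x) (hper : HS.Per G)
    (hg : Emb (US G) (gf G) g) (hc : Curv (US G) g (al (N := N)) Fc)
    (hN : PField (Quo (US G) g) 7 P')
    (hs : ∀ y ∈ Quo (US G) g, ∀ u v, ⟪P' y u, v⟫ = ⟪u, P' y v⟫)
    (h7 : Fintype.card κ₇ = 7)
    (sx0 : Sm (Quo (US G) g) x0) (cx0 : Cl (Quo (US G) g) x0) (dx0 : Hom 8 x0) (hx0 : Coh (US G) (F.pull (jj g) x0) (F.pull Prod.fst x))
    (hν : |ν| * XF.tau ι = 12 * (2 * Real.pi) ^ 4)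
    (hp3 : Coh (Quo (US G) g) (cR 6 P') (α • Fc ^ 6 + β₁ • (x0 * Fc ^ 2)))
    (IT : ∀ c : CH.Chn (Quo (US G) g) 12, ∃ z : ℤ, J 14 (c.Z ×ˢ CPk 1) (QS.oP c)
      (fun z => QS.cP c z • F.pull (QS.fP c) (eR (NLp P') (WNp κ₇ P')) z) = XF.tau κ₇ * z)
    (hn0 : ∀ c : CH.Chn (Quo (US G) g) 8, ∃ z : ℤ, 2 * c.I x0 = XF.tau ι * z) :
    ∃ n₀ : ℝ, (∃ n : ℤ, 12 * β₁ / ν = n) ∧ (∃ n : ℤ, 2 * n₀ = n) ∧
      ∃ n : ℤ, α + 12 * β₁ / ν * n₀ = n := by
  have hn : n = 16 := by rw [D.hn]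
  have hC := CS.cb_US h.bl hper hg hc
  have hτ := XF.tau_pos ι
  have hP4 : (0 : ℝ) < (2 * Real.pi) ^ 4 := by positivity
  have hne : (Quo (US G) g).Nonempty := by
    obtain ⟨z, hz⟩ := T.nonempty_UST h D.hp
    exact ⟨jj g z, z, hz, rfl⟩
  have hB := ZG.clo_B h hper hg
  have hBc := ZG.preconn_B h (by omega) hg
  obtain ⟨⟨c8, c12, -, a2, a3⟩, q, hq, o, ho, so, dO, c8', c12', b1, b2, b3, b4⟩ :=
    CS.chains h hn hC hc.cl hc.hom hne sx0 D.sx hx0
  have hJ : |J 8 (GP.Cut S q) o x| = XF.tau ι := by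
    have := J_Cut_val D hq (o := o) (by rw [hn]; exact ho)
    rwa [hn] at this
  refine fields_of hP4 hτ hν (β := β₁ * XF.tau ι / (2 * Real.pi) ^ 4) ?_ ?_
  · field_simp
  · refine QS.block_q (ι := κ₇) (b := 2 * (n - 1)) (c₁ := c12) (c₂ := c12') (c₈ := c8) hB hBc hN hs
      h7 hC.smF sx0 hτ ?_ IT ?_ ?_ b3 ?_ (hn0 c8)
    · have e1 : β₁ * XF.tau ι / (2 * Real.pi) ^ 4 * (2 * Real.pi) ^ 4 / XF.tau ι = β₁ := by
        field_simp
      have e2 : Fc ^ 2 * x0 = x0 * Fc ^ 2 := by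
        have := (T.Hom.commute (hc.hom.mul hc.hom) ⟨2, rfl⟩ x0).eq
        rwa [← sq] at this
      rw [e1, e2]
      exact hp3
    · rw [a2, abs_of_pos (by positivity)]
    · rw [a3 x0 sx0 cx0 dx0, abs_mul, abs_of_pos (by positivity)]
    · rw [b4 x0 sx0 cx0 dx0, b1, abs_mul, abs_of_pos (by positivity), hJ]

end Crest.Agent.R208.CQ
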