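import Crest.Agent.R208.CH3
import Crest.Agent.R208.QS1
import Crest.Agent.R208.TX9
import Crest.Agent.R208.SO3
import Crest.Agent.R208.FG1d
import Crest.Agent.R208.SB5

-- ▼ part R208/QT1
section

/-! Row 208, block Q (helper586), part QT1: operations on thin chains (change of the target, base
change along a fibration). -/

set_option autoImplicit false
set_option linter.unusedSectionVars false

open MeasureTheory MeasureTheory.Measure Set Filter Topology Module
open scoped ContDiff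
open Crest.Agent.R208.F Crest.Agent.R208.FI Crest.Agent.R208.CW Crest.Agent.R208.FG
open Crest.Agent.R208.T (Sm Cl Hom Coh Eqv)

noncomputable section

namespace Crest.Agent.R208.QT

variable {E E' E'' A : Type} [NormedAddCommGroup E] [NormedSpace ℝ E] [FiniteDimensional ℝ E]
  [NormedAddCommGroup E'] [NormedSpace ℝ E'] [FiniteDimensional ℝ E']
  [NormedAddCommGroup E''] [NormedSpace ℝ E''] [FiniteDimensional ℝ E'']
  [NormedAddCommGroup A] [NormedSpace ℝ A] [FiniteDimensional ℝ A]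
  {K : Set E'} {K' : Set E''} {v : E' → E''} {d r b t : ℕ}

theorem thn_comp {V : Type*} [NormedAddCommGroup V] [NormedSpace ℝ V] [FiniteDimensional ℝ V]
    {Z : Set V} {g : V → E'} {χ : V → ℝ} (h : CH.Thn d Z g χ) (hg : SMap Z K g)
    (hv : SMap K K' v) : CH.Thn d Z (fun x => v (g x)) χ := by
  refine ⟨h.1, fun x hx => (h.2 x hx).imp id fun h1 => ?_⟩
  have hgd : DifferentiableAt ℝ g x := (hg.smooth x hx).differentiableAt (by simp)
  have hvd : DifferentiableAt ℝ v (g x) := (hv.smooth _ (hg.maps hx)).differentiableAt (by simp)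
  have e1 : ((fderiv ℝ (fun x => v (g x)) x).prod (fderiv ℝ χ x) : V →ₗ[ℝ] E'' × ℝ) =
      ((fderiv ℝ v (g x) : E' →ₗ[ℝ] E'').prodMap LinearMap.id) ∘ₗ
        ((fderiv ℝ g x).prod (fderiv ℝ χ x) : V →ₗ[ℝ] E' × ℝ) := by
    rw [fderiv_fun_comp x hvd hgd]
    rfl
  rw [e1, Submodule.map_comp]
  exact (Submodule.finrank_map_le _ _).trans_lt h1

/-- composition of a thin chain with a smooth map of the targets -/
def mapC (hv : SMap K K' v) (c : CH.Chn K d) : CH.Chn K' d where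
  V := c.V
  Z := c.Z
  g := fun x => v (c.g x)
  χ := c.χ
  o := c.o
  clo := c.clo
  ori := c.ori
  hom := c.hom
  sm := hv.comp c.sm
  thn := thn_comp c.thn c.sm hv

theorem mapC_I (hv : SMap K K' v) (c : CH.Chn K d) (w : E'' → Ext E'') :
    (mapC hv c).I w = c.I (F.pull v w) := by
  refine J_congr' c.clo fun x hx => ?_
  have hgd : DifferentiableAt ℝ c.g x := (c.sm.smooth x hx).differentiableAt (by simp)
  have hvd : DifferentiableAt ℝ v (c.g x) :=
    (hv.smooth _ (c.sm.maps hx)).differentiableAt (by simp)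
  change c.χ x • F.pull (v ∘ c.g) w x = c.χ x • F.pull c.g (F.pull v w) x
  rw [F.pull_comp hgd hvd]

theorem I_eqv (c : CH.Chn K d) {a a' : E' → Ext E'} (h : Eqv K a a') : c.I a = c.I a' :=
  CH.J_eqv' c.clo (h.pull c.sm) c.χ

theorem I_zero (c : CH.Chn K d) : c.I 0 = 0 := by
  have := c.I_smul 0 0
  rwa [zero_smul, zero_mul] at this

/-- forms of too large degree -/
theorem I_gt (c : CH.Chn K d) {a : E' → Ext E'} {q : ℕ} (ha : Hom q a) (hq : d < q) :
    c.I a = 0 := by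
  have h1 : Eqv c.Z (F.pull c.g a) 0 := by
    refine T.eqv_iff.2 fun x hx => ?_
    have h2 : IsDeg q (pb (Tan c.Z x).subtype (F.pull c.g a x)) := ((ha.pull x).pb _)
    have h3 : finrank ℝ (Tan c.Z x) = d := c.clo.finrank_Tan hx
    rw [h2.eq_zero (by omega)]
    simp
  have h4 := CH.J_eqv' (oX := c.o) c.clo h1 c.χ
  refine h4.trans ?_
  have h5 : (fun x => c.χ x • (0 : c.V → Ext c.V) x) = fun x => (0 : ℝ) • c.o x := by
    funext x; simp
  rw [h5, J_smul, zero_mul]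

/-! ### base change -/
section bc
variable {X : Set E} {Y : Set A} {f : E → A} {oV η : E → Ext E} {oY : A → Ext A} {u : E' → A}

theorem bc_of (hu : SMap K Y u) (c : CH.Chn K d) : BC d c.Z Y (fun z => u (c.g z)) :=
  ⟨c.clo, (hu.comp c.sm).smooth, (hu.comp c.sm).maps⟩

/-- base change of a thin chain along a fibration -/
def bcC (h : OSubm r b X Y f oV oY) (hV : ∀ x, IsDeg r (oV x)) (hT : Clo t K) (hu : SMap K Y u)
    (c : CH.Chn K d) : CH.Chn (FP X K f u) (r + d) where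
  V := E × c.V
  Z := FP X c.Z f (fun z => u (c.g z))
  g := fun z => (z.1, c.g z.2)
  χ := fun z => c.χ z.2
  o := fun z => F.pull Prod.fst oV z * F.pull Prod.snd c.o z
  clo := bc_clo h.subm (bc_of hu c)
  ori := (bc_ori h (bc_of hu c) c.ori c.hom).tot
  hom := fun z => T.isDeg_mul ((hV z.1).pb _) ((c.hom z.2).pb _)
  sm := ⟨fun z hz => contDiffAt_fst.prodMk ((c.sm.smooth _ hz.2.1).comp z contDiffAt_snd),
    fun z hz => ⟨hz.1, c.sm.maps hz.2.1, hz.2.2⟩⟩
  thn := by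
    rw [add_comm]
    refine CH.Thn.of_fibre (X := c.Z) (g := c.g) (χ := c.χ) (p := Prod.snd) (π := Prod.snd)
      (bc_subm h.subm ⟨hT, hu.smooth, hu.maps⟩) c.thn
      (fun x hx => (c.sm.smooth x hx).differentiableAt (by simp)) (fun _ _ => contDiffAt_snd)
      (fun _ hz => hz.2.1) (fun z hz => ?_) (fun z hz => ⟨hz.1, c.sm.maps hz.2.1, hz.2.2⟩)
      (fun _ _ => rfl)
    have h1 : DifferentiableAt ℝ (fun z : E × c.V => c.g z.2) z :=
      ((c.sm.smooth z.2 hz.2.1).comp z contDiffAt_snd).differentiableAt (by simp)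
    exact differentiableAt_fst.prodMk h1

/-- **fibre integration for chains** -/
theorem bcC_I (h : OSubm r b X Y f oV oY) (hV : ∀ x, IsDeg r (oV x)) (hT : Clo t K)
    (hu : SMap K Y u) (c : CH.Chn K d) (hYc : IsPreconnected Y)
    (hη : Sm X η) (hcl : Cl X η) {w : E' → Ext E'} (hw : Sm K w) {q : ℕ} (hwd : Hom q w)
    (hq : d ≤ q) {y : A} (hy : y ∈ Y) :
    (bcC h hV hT hu c).I (F.pull Prod.fst η * F.pull Prod.snd w) =
      J r (X ∩ f ⁻¹' {y}) oV η * c.I w := by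
  have h' := bc_of hu c
  have h1 := bc_ori h h' c.ori c.hom
  have hsm : SMap (FP X c.Z f (fun z => u (c.g z))) (FP X K f u)
      (fun z : E × c.V => (z.1, c.g z.2)) := (bcC h hV hT hu c).sm
  -- the integrand
  have e1 : Eqv (FP X c.Z f (fun z => u (c.g z)))
      (F.pull (fun z : E × c.V => (z.1, c.g z.2)) (F.pull Prod.fst η * F.pull Prod.snd w))
      (F.pull Prod.fst η * F.pull Prod.snd (F.pull c.g w)) := by
    rw [T.pull_mul']
    refine Eqv.mul ?_ ?_
    · exact T.eqv_pull_pull hsm smap_FP_fst smap_FP_fst (fun _ _ => rfl) _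
    · have hk : SMap (FP X c.Z f (fun z => u (c.g z))) K (fun z : E × c.V => c.g z.2) :=
        c.sm.comp smap_FP_snd
      exact (T.eqv_pull_pull hsm smap_FP_snd hk (fun _ _ => rfl) _).trans
        (T.eqv_pull_pull smap_FP_snd c.sm hk (fun _ _ => rfl) _).symm
  have e2 := CH.J_eqv' (oX := (bcC h hV hT hu c).o) (bcC h hV hT hu c).clo e1
    (bcC h hV hT hu c).χ
  refine e2.trans ?_
  set om : c.V → Ext c.V := fun x => c.χ x • F.pull c.g w x with hom
  have e3 : (fun z : E × c.V => (bcC h hV hT hu c).χ z •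
      (F.pull Prod.fst η * F.pull Prod.snd (F.pull c.g w) : E × c.V → Ext (E × c.V)) z) =
      fun z : E × c.V => F.pull Prod.fst η z * F.pull Prod.snd om z := by
    funext z
    rw [Pi.mul_apply, ← mul_smul_comm]
    congr 1
    exact (map_smul _ _ _).symm
  refine (congrArg (J (r + d) (FP X c.Z f (fun z => u (c.g z))) (bcC h hV hT hu c).o) e3).trans ?_
  have homc : ContinuousOn om c.Z := c.cont hw
  have hom0 : ∀ x ∈ c.Z, ∀ q' < d, evA c.V q' (om x) = 0 := fun x _ q' hq' => by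
    have : IsDeg q (om x) := (hwd.pull x).smul _
    exact this q' (by omega)
  have hη1 : ∀ z ∈ FP X c.Z f (fun z => u (c.g z)), ContinuousAt (F.pull
      (Prod.fst : E × c.V → E) η) z := fun z hz =>
    (contDiffAt_pull (contDiffAt_fst (n := ∞)) (m := ∞) (by simp) (hη _ hz.1)).continuousAt
  have h3 := fibre_integration h1.subm h1.cV h1.tot h1.low
    (η := F.pull (Prod.fst : E × c.V → E) η)
    (fun z hz => (hη1 z hz).continuousWithinAt) homc hom0
  refine h3.trans ?_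
  rw [← show J d c.Z c.o om = c.I w from rfl, ← J_smul]
  refine J_congr' c.clo fun x hx => ?_
  congr 1
  have h2 : J r (FP X c.Z f (fun z => u (c.g z)) ∩ Prod.snd ⁻¹' {x}) (F.pull Prod.fst oV)
      (F.pull Prod.fst η) = J r (X ∩ f ⁻¹' {u (c.g x)}) oV η :=
    J_pull (h1.subm.clo_fibre x) (h.subm.clo_fibre _) (fun z _ => differentiableAt_fst)
      (bc_bij hx) (h.fib _) (fun z hz => ((hη z hz.1).continuousAt).continuousWithinAt)
  rw [h2]
  exact h.subm.const hYc h.base h.cV h.tot h.low (fun z hz => (hη z hz).of_le (by simp))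
    (T.resZero_iff.2 (T.resZero_iff.1 hcl)) (h'.maps hx) hy

end bc

/-- a closed manifold as a chain -/
def idC {X : Set E} {o : E → Ext E} (hX : Clo d X) (ho : Ori d X o) (hd : Hom d o) :
    CH.Chn X d where
  V := E
  Z := X
  g := fun x => x
  χ := fun _ => 1
  o := o
  clo := hX
  ori := ho
  hom := hd
  sm := ⟨fun _ _ => contDiffAt_id, fun _ h => h⟩
  thn := CH.Thn.one _

theorem idC_I {X : Set E} {o : E → Ext E} (hX : Clo d X) (ho : Ori d X o) (hd : Hom d o)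
    (w : E → Ext E) : (idC hX ho hd).I w = J d X o w := by
  refine J_congr' hX fun x _ => ?_
  change (1 : ℝ) • F.pull (fun x : E => x) w (x : E) = w (x : E)
  rw [one_smul]
  exact F.pull_id w x

end Crest.Agent.R208.QT
end
end

-- ▼ part R208/QT2
section

/-! Row 208, block Q (helper586), part QT2: **pushing the top class through the cut loci**:
integrals over the base change of a chain along `F → S`. -/

set_option autoImplicit false
set_option linter.unusedSectionVars false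

open MeasureTheory Set Filter Topology Module
open scoped ContDiff RealInnerProductSpace
open Crest.GeometryTopology.Submanifold
open Crest.Agent.R241.DDefs
open Crest.Agent.R241.D2
open Crest.Agent.R208.F Crest.Agent.R208.FI Crest.Agent.R208.CW Crest.Agent.R208.FG
open Crest.Agent.R208.T (Sm Cl Hom Coh Eqv eR OR)
open Crest.Agent.R208.SO (CF2)

noncomputable section

namespace Crest.Agent.R208.QT

section gen
variable {E' : Type} [NormedAddCommGroup E'] [NormedSpace ℝ E'] [FiniteDimensional ℝ E']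
  {K : Set E'} {d : ℕ}

theorem I_sum (c : CH.Chn K d) {α : Type*} (s : Finset α) {a : α → E' → Ext E'}
    (h : ∀ i ∈ s, Sm K (a i)) : Sm K (∑ i ∈ s, a i) ∧ c.I (∑ i ∈ s, a i) = ∑ i ∈ s, c.I (a i) := by
  classical
  induction s using Finset.induction_on with
  | empty => rw [Finset.sum_empty, Finset.sum_empty]; exact ⟨Sm.zero, I_zero c⟩
  | insert j s hj ih =>
    obtain ⟨h1, h2⟩ := ih fun i hi => h i (Finset.mem_insert_of_mem hi)
    have h3 := h j (Finset.mem_insert_self _ _)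
    rw [Finset.sum_insert hj, Finset.sum_insert hj]
    exact ⟨h3.add h1, by rw [c.I_add h3 h1, h2]⟩

theorem pull_sum' {E₁ : Type} [NormedAddCommGroup E₁] [NormedSpace ℝ E₁] [FiniteDimensional ℝ E₁]
    (f : E₁ → E') {α : Type*} (s : Finset α) (a : α → E' → Ext E') :
    F.pull f (∑ i ∈ s, a i) = ∑ i ∈ s, F.pull f (a i) := by
  funext z
  simp only [F.pull, Finset.sum_apply, _root_.map_sum]

end gen

attribute [local irreducible] bcC

/-! ### one term -/
section term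
variable {E E' A : Type} [NormedAddCommGroup E] [NormedSpace ℝ E] [FiniteDimensional ℝ E]
  [NormedAddCommGroup E'] [NormedSpace ℝ E'] [FiniteDimensional ℝ E']
  [NormedAddCommGroup A] [NormedSpace ℝ A] [FiniteDimensional ℝ A]
  {K : Set E'} {d r b t : ℕ} {X : Set E} {Y : Set A} {f : E → A} {oV : E → Ext E}
  {oY x : A → Ext A} {u : E' → A} {η : E → Ext E} {w : E' → Ext E'} {q k : ℕ}

/-- `∫ (f^*x)^j η w` over a base change -/
theorem bc_term (hO : OSubm r b X Y f oV oY) (hV : ∀ x, IsDeg r (oV x)) (hK : Clo t K)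
    (hu : SMap K Y u) (hf : SMap X Y f) (c : CH.Chn K d) (hYc : IsPreconnected Y)
    (hx : CF2 Y k x) (sη : Sm X η) (cη : Cl X η) (sw : Sm K w) (hw : Hom q w) (j : ℕ)
    (hq : d ≤ k * j + q) {y : A} (hy : y ∈ Y) :
    (bcC hO hV hK hu c).I (F.pull Prod.fst (F.pull f x ^ j * η) * F.pull Prod.snd w) =
      J r (X ∩ f ⁻¹' {y}) oV η * c.I (F.pull u x ^ j * w) := by
  have h1S : SMap (FP X K f u) X Prod.fst := smap_FP_fst
  have h2S : SMap (FP X K f u) K Prod.snd := smap_FP_snd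
  have su : Sm K (F.pull u x) := hx.sm.pull hu
  have hk : SMap (FP X K f u) Y (fun z : E × E' => f z.1) := hf.comp h1S
  have hxu1 : Eqv (FP X K f u) (F.pull Prod.fst (F.pull f x))
      (F.pull (fun z : E × E' => f z.1) x) := T.eqv_pull_pull h1S hf hk (fun _ _ => rfl) x
  have hxu2 : Eqv (FP X K f u) (F.pull Prod.snd (F.pull u x))
      (F.pull (fun z : E × E' => f z.1) x) :=
    T.eqv_pull_pull h2S hu hk (fun z hz => hz.2.2.symm) x
  have hxu := hxu1.trans hxu2.symm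
  have hdj : Hom (k * j) (F.pull f x ^ j) := (T.Hom.pull (f := f) hx.hom).pow j
  have e3 : F.pull Prod.fst (F.pull f x ^ j * η) * F.pull Prod.snd w =
      F.pull Prod.fst η * (F.pull Prod.fst (F.pull f x) ^ j *
        (F.pull Prod.snd w : E × E' → Ext (E × E'))) := by
    rw [SO.ev_comm hdj (hx.even.mul_right _), T.pull_mul',
      T.pull_pow' (Prod.fst : E × E' → E) (F.pull f x), mul_assoc]
  have e4 : Eqv (FP X K f u) (F.pull Prod.fst η * (F.pull Prod.fst (F.pull f x) ^ j *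
        F.pull Prod.snd w)) (F.pull Prod.fst η * F.pull Prod.snd (F.pull u x ^ j * w)) := by
    refine (Eqv.refl _).mul ?_
    rw [T.pull_mul', T.pull_pow' (Prod.snd : E × E' → E')]
    exact (hxu.pow _).mul (Eqv.refl _)
  rw [e3, I_eqv (bcC hO hV hK hu c) e4]
  exact bcC_I hO hV hK hu c hYc sη cη ((su.pow _).mul sw)
    (((T.Hom.pull (f := u) hx.hom).pow j).mul hw) hq hy

end term

variable {n N k m : ℕ} {κ : ℝ} {S : Set (Euc N)} {G : Geo n N κ S} {p : Euc N}
  {ι : Type} [Fintype ι] [DecidableEq ι] {W : Euc N × Euc N → (ι × Fin 2 → Fin N) → ℝ}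
  {x : Euc N → Ext (Euc N)} {h : GT.Bla G k} {oS : Euc N → Ext (Euc N)}
  {oV : Euc N × Euc N → Ext (Euc N × Euc N)}
  {E' : Type} [NormedAddCommGroup E'] [NormedSpace ℝ E'] [FiniteDimensional ℝ E']
  {K : Set E'} {u : E' → Euc N} {t d q : ℕ} {w : E' → Ext E'}

theorem cf2_x (M : T.XM h m W p x) : CF2 S k x := ⟨M.sx, M.cx, M.dx, M.hke⟩

/-- `x₂^m ~ - Σ x₁^(i+1) x₂^(m-i-1)` -/
theorem top_rel (M : T.XM h m W p x) : Coh (GT.FF S) (F.pull Prod.snd x ^ m)
    ((-1 : ℝ) • ∑ i ∈ Finset.range m,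
      (F.pull Prod.fst x ^ (i + 1) * F.pull Prod.snd x ^ (m - (i + 1)) :
        Euc N × Euc N → Ext (Euc N × Euc N))) := by
  have h0 := M.hm_zero
  rw [Finset.sum_range_succ'] at h0
  have h2 := h0.add (Coh.refl ((-1 : ℝ) • ∑ i ∈ Finset.range m,
    (F.pull Prod.fst x ^ (i + 1) * F.pull Prod.snd x ^ (m - (i + 1)) :
        Euc N × Euc N → Ext (Euc N × Euc N))))
  rw [zero_add] at h2
  convert h2 using 1
  rw [pow_zero, one_mul, Nat.sub_zero, neg_one_smul]
  abel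

/-- **(PUSH)** -/
theorem push (M : T.XM h m W p x) (hO : OSubm (n - k) n (GT.FF S) S Prod.fst oV oS)
    (hV : ∀ z, IsDeg (n - k) (oV z)) (hK : Clo t K) (hu : SMap K S u) (c : CH.Chn K d)
    (sw : Sm K w) (cw : Cl K w) (hw : Hom q w) (hq : q + k = d) :
    (bcC hO hV hK hu c).I (F.pull Prod.fst (F.pull Prod.snd (x ^ m)) * F.pull Prod.snd w) =
      -(J (n - k) (GT.FF S ∩ Prod.fst ⁻¹' {p}) oV (F.pull Prod.snd x ^ (m - 1)) *
        c.I (F.pull u x * w)) := by
  have hk := M.hk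
  have hm := M.hm
  have h1S : SMap (FP (GT.FF S) K Prod.fst u) (GT.FF S) Prod.fst := smap_FP_fst
  have h2S : SMap (FP (GT.FF S) K Prod.fst u) K Prod.snd := smap_FP_snd
  have f1 : SMap (GT.FF S) S (Prod.fst : Euc N × Euc N → Euc N) := FG.smap_fst
  have f2 : SMap (GT.FF S) S (Prod.snd : Euc N × Euc N → Euc N) := FG.smap_snd
  have s1 : Sm (GT.FF S) (F.pull Prod.fst x) := M.sx.pull f1
  have s2 : Sm (GT.FF S) (F.pull Prod.snd x) := M.sx.pull f2
  have c2 : Cl (GT.FF S) (F.pull Prod.snd x) := M.cx.pull f2 M.sx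
  have sw' : Sm (FP (GT.FF S) K Prod.fst u)
    (F.pull (Prod.snd : (Euc N × Euc N) × E' → E') w) := sw.pull h2S
  have cw' : Cl (FP (GT.FF S) K Prod.fst u)
    (F.pull (Prod.snd : (Euc N × Euc N) × E' → E') w) := cw.pull h2S sw
  let a : ℕ → Euc N × Euc N → Ext (Euc N × Euc N) := fun i =>
    F.pull Prod.fst x ^ (i + 1) * F.pull Prod.snd x ^ (m - (i + 1))
  have sa : ∀ i, Sm (GT.FF S) (a i) := fun i => (s1.pow _).mul (s2.pow _)
  have e0 : F.pull (Prod.snd : Euc N × Euc N → Euc N) (x ^ m) = F.pull Prod.snd x ^ m :=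
    T.pull_pow' _ _ _
  have hs : ∀ s : Finset ℕ, Sm (GT.FF S) (∑ i ∈ s, a i) := by
    intro s
    induction s using Finset.induction_on with
    | empty => rw [Finset.sum_empty]; exact Sm.zero
    | insert j s hj ih => rw [Finset.sum_insert hj]; exact (sa j).add ih
  have sS : Sm (GT.FF S) ((-1 : ℝ) • ∑ i ∈ Finset.range m, a i) := (hs _).smul _
  have h3 : Coh (FP (GT.FF S) K Prod.fst u)
      (F.pull Prod.fst (F.pull Prod.snd x ^ m) * F.pull Prod.snd w)
      (F.pull Prod.fst ((-1 : ℝ) • ∑ i ∈ Finset.range m, a i) * F.pull Prod.snd w) :=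
    Coh.mul_right sw' cw' ((top_rel M).pull h1S)
  rw [e0, (bcC hO hV hK hu c).I_coh (((s2.pow m).pull h1S).mul sw') ((sS.pull h1S).mul sw') h3]
  have e1 : F.pull Prod.fst ((-1 : ℝ) • ∑ i ∈ Finset.range m, a i) * F.pull Prod.snd w =
      (-1 : ℝ) • ∑ i ∈ Finset.range m, (F.pull Prod.fst (a i) * F.pull Prod.snd w :
        (Euc N × Euc N) × E' → Ext ((Euc N × Euc N) × E')) := by
    rw [T.pull_smul', pull_sum', smul_mul_assoc, Finset.sum_mul]
  rw [e1, (bcC hO hV hK hu c).I_smul, (I_sum (bcC hO hV hK hu c) (Finset.range m)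
    (fun i _ => ((sa i).pull h1S).mul sw')).2]
  have key : ∀ i, (bcC hO hV hK hu c).I (F.pull Prod.fst (a i) * F.pull Prod.snd w) =
      J (n - k) (GT.FF S ∩ Prod.fst ⁻¹' {p}) oV (F.pull Prod.snd x ^ (m - (i + 1))) *
        c.I (F.pull u x ^ (i + 1) * w) := fun i =>
    bc_term hO hV hK hu f1 c h.bl.conn.isPreconnected (cf2_x M) (s2.pow _) (T.Cl.pow s2 c2 _) sw hw
      (i + 1) (by
        rw [← hq, add_comm q k]
        exact Nat.add_le_add_right (Nat.le_mul_of_pos_right k (by omega)) q) M.hp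
  rw [Finset.sum_congr rfl fun i _ => key i, Finset.sum_eq_single 0]
  · rw [zero_add, pow_one, neg_one_mul]
  · intro i _ hi
    have hgt : d < k * (i + 1) + q := by
      have : 1 ≤ i := Nat.one_le_iff_ne_zero.2 hi
      nlinarith
    rw [I_gt c (((T.Hom.pull (f := u) M.dx).pow (i + 1)).mul hw) hgt, mul_zero]
  · intro h0
    exact absurd (Finset.mem_range.2 (by omega)) h0

end Crest.Agent.R208.QT
end
end

-- ▼ part R208/QT3

/-! Row 208, block Q (helper586), part QT3: integrality of thin chains with a target; **(n0)**: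
`2 ∫_c x₀ ∈ τ ℤ` for every thin `k`-chain of the manifold of geodesics. -/

set_option autoImplicit false
set_option linter.unusedSectionVars false

open MeasureTheory Set Filter Topology Module
open scoped ContDiff RealInnerProductSpace
open Crest.GeometryTopology.Submanifold
open Crest.Agent.R241.DDefs
open Crest.Agent.R241.D2
open Crest.Agent.R208.F Crest.Agent.R208.FI Crest.Agent.R208.CW Crest.Agent.R208.FG
open Crest.Agent.R208.T (Sm Cl Hom Coh Eqv eR OR Sph)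
open Crest.Agent.R208.SO (CF2)
open Crest.Agent.R208.SB (OddB)

noncomputable section

namespace Crest.Agent.R208.QT

/-- integrality of thin chains with a target (631's `IM.int_thin`) -/
def IntM : Prop := ∀ {n ι : Type} [Fintype n] [DecidableEq n] [Fintype ι] [DecidableEq ι]
  [Nonempty ι] {E E₁ E₂ : Type} [NormedAddCommGroup E] [NormedSpace ℝ E] [FiniteDimensional ℝ E]
  [NormedAddCommGroup E₁] [NormedSpace ℝ E₁] [FiniteDimensional ℝ E₁]
  [NormedAddCommGroup E₂] [NormedSpace ℝ E₂] [FiniteDimensional ℝ E₂]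
  {X : Set E} {Y : Set E₁} {M : Set E₂} {P : E₁ → EuclideanSpace ℝ n →L[ℝ] EuclideanSpace ℝ n}
  {W : E₁ → (ι × Fin 2 → n) → ℝ} {f : E → E₁} {g : E → E₂} {χ : E → ℝ} {d m : ℕ}
  {oX : E → Ext E} {oM : E₂ → Ext E₂},
  Sub d Y → IsPreconnected Y → OR Y P W → Clo (2 * Fintype.card ι + m) X →
  Ori (2 * Fintype.card ι + m) X oX → SMap X Y f → Clo m M → IsPreconnected M → Ori m M oM →
  SMap X M g → CH.Thin (2 * Fintype.card ι + m) X (fun x => (f x, g x)) χ →
  ∃ z : ℤ, ∀ μ : E₂ → Ext E₂, Sm M μ → Hom m μ →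
    J (2 * Fintype.card ι + m) X oX (fun x => χ x • (F.pull f (eR P W) x * F.pull g μ x)) =
      XF.tau ι * z * J m M oM μ

section gen
variable {n ι : Type} [Fintype n] [DecidableEq n] [Fintype ι] [DecidableEq ι] [Nonempty ι]
  {E' E₁ E₂ : Type} [NormedAddCommGroup E'] [NormedSpace ℝ E'] [FiniteDimensional ℝ E']
  [NormedAddCommGroup E₁] [NormedSpace ℝ E₁] [FiniteDimensional ℝ E₁]
  [NormedAddCommGroup E₂] [NormedSpace ℝ E₂] [FiniteDimensional ℝ E₂]
  {K : Set E'} {Y : Set E₁} {M : Set E₂} {P : E₁ → EuclideanSpace ℝ n →L[ℝ] EuclideanSpace ℝ n}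
  {W : E₁ → (ι × Fin 2 → n) → ℝ} {φ : E' → E₁} {g : E' → E₂} {d dd m : ℕ}
  {oM : E₂ → Ext E₂}

/-- **integrality over a chain** -/
theorem int_chain (IT : IntM) (hY : Sub d Y) (hYc : IsPreconnected Y) (h : OR Y P W)
    (hdd : dd = 2 * Fintype.card ι + m) (c : CH.Chn K dd)
    (hφ : SMap K Y φ) (hM : Clo m M) (hMc : IsPreconnected M) (hoM : Ori m M oM)
    (hg : SMap K M g) : ∃ z : ℤ, ∀ μ : E₂ → Ext E₂, Sm M μ → Hom m μ →
      c.I (F.pull φ (eR P W) * F.pull g μ) = XF.tau ι * z * J m M oM μ := by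
  subst hdd
  have hφ' : SMap c.Z Y (fun x => φ (c.g x)) := hφ.comp c.sm
  have hg' : SMap c.Z M (fun x => g (c.g x)) := hg.comp c.sm
  have hT : CH.Thin (2 * Fintype.card ι + m) c.Z (fun x => (φ (c.g x), g (c.g x))) c.χ :=
    c.thn.thin_comp (φ := fun y => (φ y, g y))
      (fun x hx => (c.sm.smooth x hx).differentiableAt (by simp))
      (fun x hx => ((hφ.smooth _ (c.sm.maps hx)).differentiableAt (by simp)).prodMk
        ((hg.smooth _ (c.sm.maps hx)).differentiableAt (by simp)))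
  obtain ⟨z, hz⟩ := IT hY hYc h c.clo c.ori hφ' hM hMc hoM hg' hT
  refine ⟨z, fun μ hμ dμ => ?_⟩
  rw [← hz μ hμ dμ]
  refine J_congr' c.clo fun x hx => ?_
  congr 1
  have e1 := F.pull_comp (om := eR P W)
    ((c.sm.smooth x hx).differentiableAt (by simp) : DifferentiableAt ℝ c.g x)
    ((hφ.smooth _ (c.sm.maps hx)).differentiableAt (by simp))
  have e2 := F.pull_comp (om := μ)
    ((c.sm.smooth x hx).differentiableAt (by simp) : DifferentiableAt ℝ c.g x)
    ((hg.smooth _ (c.sm.maps hx)).differentiableAt (by simp))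
  change F.pull c.g (F.pull φ (eR P W) * F.pull g μ) x =
    F.pull (φ ∘ c.g) (eR P W) x * F.pull (g ∘ c.g) μ x
  rw [← e1, ← e2]
  exact map_mul _ _ _

end gen

section J0
variable {E : Type*} [NormedAddCommGroup E] [NormedSpace ℝ E] [FiniteDimensional ℝ E]

theorem J_hom_ne {X : Set E} {d q : ℕ} {o η : E → Ext E} (hX : Clo d X) (h : Hom q η)
    (hq : d ≠ q) : J d X o η = 0 :=
  J_eq_zero hX fun x _ w _ => by rw [h x d hq]; rfl

end J0

attribute [local irreducible] bcC mapC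

/-! ### sphere bundles -/
section sph
variable {E₁ : Type} [NormedAddCommGroup E₁] [NormedSpace ℝ E₁] [FiniteDimensional ℝ E₁]
  {n₁ ι₁ : Type} [Fintype n₁] [DecidableEq n₁] [Fintype ι₁] [DecidableEq ι₁] [Nonempty ι₁]
  {B : Set E₁} {P' : E₁ → EuclideanSpace ℝ n₁ →L[ℝ] EuclideanSpace ℝ n₁}
  {oP' : E₁ → Ext (EuclideanSpace ℝ n₁)} {oB w : E₁ → Ext E₁}
  {η : E₁ × EuclideanSpace ℝ n₁ → Ext (E₁ × EuclideanSpace ℝ n₁)} {r b d q : ℕ}

/-- the part of the sphere bundle over a chain -/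
def sphC (ob : OddB ι₁ B r P' oP') (hB : Clo b B) (hoB : Ori b B oB) (dB : ∀ z, IsDeg b (oB z))
    (c : CH.Chn B d) : CH.Chn (Sph B P') (r + d) :=
  mapC (K := FP (Sph B P') B Prod.fst (fun y => y)) (v := Prod.fst) smap_FP_fst
    (bcC (SB.osubm_Sph hB ob.pf ob.op hoB dB) (SB.isDeg_oV ob.op) hB (SMap.id B) c)

theorem sphC_I (ob : OddB ι₁ B r P' oP') (hB : Clo b B) (hBc : IsPreconnected B)
    (hoB : Ori b B oB) (dB : ∀ z, IsDeg b (oB z)) (c : CH.Chn B d) (sη : Sm (Sph B P') η)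
    (cη : Cl (Sph B P') η) (sw : Sm B w) (hw : Hom q w) (hq : d ≤ q) {y : E₁} (hy : y ∈ B) :
    (sphC ob hB hoB dB c).I (η * F.pull Prod.fst w) =
      J r (Sph B P' ∩ Prod.fst ⁻¹' {y}) (SB.oV oP') η * c.I w := by
  rw [sphC, mapC_I, T.pull_mul']
  have h1 : SMap (FP (Sph B P') B Prod.fst (fun y => y)) (Sph B P')
    (Prod.fst : (E₁ × EuclideanSpace ℝ n₁) × E₁ → _) := smap_FP_fst
  have h2 : SMap (FP (Sph B P') B Prod.fst (fun y => y)) B
    (Prod.snd : (E₁ × EuclideanSpace ℝ n₁) × E₁ → _) := smap_FP_snd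
  have h3 : SMap (Sph B P') B (Prod.fst : E₁ × EuclideanSpace ℝ n₁ → E₁) :=
    ⟨fun _ _ => contDiffAt_fst, fun z hz => hz.1.1⟩
  have e1 : Eqv (FP (Sph B P') B Prod.fst (fun y => y))
      (F.pull (Prod.fst : (E₁ × EuclideanSpace ℝ n₁) × E₁ → _) (F.pull Prod.fst w))
      (F.pull (Prod.snd : (E₁ × EuclideanSpace ℝ n₁) × E₁ → _) w) :=
    T.eqv_pull_pull h1 h3 h2 (fun z hz => hz.2.2) w
  rw [I_eqv _ ((Eqv.refl _).mul e1)]
  exact bcC_I (SB.osubm_Sph hB ob.pf ob.op hoB dB) (SB.isDeg_oV ob.op) hB (SMap.id B) c hBc sη cη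
    sw hw hq hy

theorem smap_fstB : SMap (Sph B P') B (Prod.fst : E₁ × EuclideanSpace ℝ n₁ → E₁) :=
  ⟨fun _ _ => contDiffAt_fst, fun _ hz => hz.1.1⟩

theorem cf2_one {E : Type*} [NormedAddCommGroup E] [NormedSpace ℝ E] [FiniteDimensional ℝ E]
    (X : Set E) : CF2 X 0 (1 : E → Ext E) :=
  ⟨T.EC.one.sm, T.EC.one.cl, fun _ => T.isDeg_one, ⟨0, rfl⟩⟩

/-- `∫ (x₀ + l e w) w` over the part of the sphere bundle over a chain -/
theorem I_AW {A W' : E₁ × EuclideanSpace ℝ n₁ → Ext (E₁ × EuclideanSpace ℝ n₁)}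
    {e x0 p3 : E₁ → Ext E₁} {l : ℝ} (ob : OddB ι₁ B r P' oP') (hB : Clo b B)
    (hBc : IsPreconnected B) (hoB : Ori b B oB) (dB : ∀ z, IsDeg b (oB z)) (c : CH.Chn B d)
    (hr : 0 < r) (he : CF2 B 2 e) (hx : CF2 B d x0) (hp : CF2 B (2 * r) p3) (hdr : d ≤ 2 + 2 * r)
    (hW : CF2 (Sph B P') r W') (h2 : Coh (Sph B P') (W' * W') (F.pull Prod.fst p3))
    (sA : Sm (Sph B P') A)
    (h3 : Coh (Sph B P') A (F.pull Prod.fst x0 + l • (F.pull Prod.fst e * W'))) {y : E₁}
    (hy : y ∈ B) : (sphC ob hB hoB dB c).I (A * W') =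
      J r (Sph B P' ∩ Prod.fst ⁻¹' {y}) (SB.oV oP') W' * c.I x0 := by
  have sρ : SMap (Sph B P') B (Prod.fst : E₁ × EuclideanSpace ℝ n₁ → E₁) := smap_fstB
  have ex : CF2 (Sph B P') d (F.pull Prod.fst x0) := hx.pull sρ
  have ee : CF2 (Sph B P') 2 (F.pull Prod.fst e) := he.pull sρ
  have ep : CF2 (Sph B P') (2 * r) (F.pull Prod.fst p3) := hp.pull sρ
  have e1 : (F.pull Prod.fst x0 + l • (F.pull Prod.fst e * W')) * W' =
      W' * F.pull Prod.fst x0 + l • (F.pull Prod.fst e * (W' * W')) := by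
    rw [add_mul, smul_mul_assoc, mul_assoc, hW.comm (F.pull Prod.fst x0)]
  have c1 : Coh (Sph B P') (A * W') (W' * F.pull Prod.fst x0 +
      l • (1 * F.pull Prod.fst (e * p3))) := by
    refine (Coh.mul_right hW.sm hW.cl h3).trans ?_
    rw [e1, one_mul, T.pull_mul']
    exact (Coh.refl _).add ((T.Coh.mul_left ee.sm ee.cl h2).smul l)
  have s1 : Sm (Sph B P') (W' * F.pull Prod.fst x0) := hW.sm.mul ex.sm
  have s2 : Sm (Sph B P') (1 * F.pull Prod.fst (e * p3)) :=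
    (cf2_one _).sm.mul ((he.sm.mul hp.sm).pull sρ)
  rw [(sphC ob hB hoB dB c).I_coh (sA.mul hW.sm) (s1.add (s2.smul l)) c1,
    (sphC ob hB hoB dB c).I_add s1 (s2.smul l), (sphC ob hB hoB dB c).I_smul,
    sphC_I ob hB hBc hoB dB c hW.sm hW.cl hx.sm hx.hom le_rfl hy,
    sphC_I ob hB hBc hoB dB c (cf2_one _).sm (cf2_one _).cl (he.sm.mul hp.sm)
      (he.hom.mul hp.hom) hdr hy]
  have h0 : J r (Sph B P' ∩ Prod.fst ⁻¹' {y}) (SB.oV oP')
      (1 : E₁ × EuclideanSpace ℝ n₁ → Ext (E₁ × EuclideanSpace ℝ n₁)) = 0 := by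
    refine J_hom_ne ?_ (cf2_one (Sph B P')).hom hr.ne'
    rw [SB.OddB.fibre_eq hy]
    exact ob.clo_fibre hy
  rw [h0, zero_mul, mul_zero, add_zero]

end sph

/-! ### (n0) -/
section n0
variable {n N k m : ℕ} {κ : ℝ} {S : Set (Euc N)} {G : Geo n N κ S} {p : Euc N}
  {ι : Type} [Fintype ι] [DecidableEq ι] {W : Euc N × Euc N → (ι × Fin 2 → Fin N) → ℝ}
  {x : Euc N → Ext (Euc N)} {h : GT.Bla G k} {oS : Euc N → Ext (Euc N)}
  {oV : Euc N × Euc N → Ext (Euc N × Euc N)}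
  {E₁ : Type} [NormedAddCommGroup E₁] [NormedSpace ℝ E₁] [FiniteDimensional ℝ E₁]
  {n₁ ι₁ : Type} [Fintype n₁] [DecidableEq n₁] [Fintype ι₁] [DecidableEq ι₁] [Nonempty ι₁]
  {B : Set E₁} {P' : E₁ → EuclideanSpace ℝ n₁ →L[ℝ] EuclideanSpace ℝ n₁}
  {oP' : E₁ → Ext (EuclideanSpace ℝ n₁)} {oB e x0 p3 : E₁ → Ext E₁}
  {fY : E₁ × EuclideanSpace ℝ n₁ → Euc N} {l : ℝ} {r b : ℕ}

/-- **(n0)** -/
theorem n0 (IT : IntM) (M : T.XM h m W p x) (hO : OSubm (n - k) n (GT.FF S) S Prod.fst oV oS)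
    (hV : ∀ z, IsDeg (n - k) (oV z))
    (hJ0 : J (n - k) (GT.FF S ∩ Prod.fst ⁻¹' {p}) oV (F.pull Prod.snd x ^ (m - 1)) ≠ 0)
    (hJ : |J n S oS (x ^ m)| = XF.tau ι *
      |J (n - k) (GT.FF S ∩ Prod.fst ⁻¹' {p}) oV (F.pull Prod.snd x ^ (m - 1))|)
    (ob : OddB ι₁ B r P' oP') (hrk : r + 2 = k) (hB : Clo b B) (hBc : IsPreconnected B)
    (hne : B.Nonempty) (hYc : IsPreconnected (Sph B P'))
    (hoB : Ori b B oB) (dB : ∀ z, IsDeg b (oB z)) (he : CF2 B 2 e) (hx : CF2 B k x0)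
    (hp : CF2 B (2 * r) p3)
    (h2 : Coh (Sph B P') (OddB.eV ι₁ ob.hr P' oP' * OddB.eV ι₁ ob.hr P' oP')
      (F.pull Prod.fst p3)) (sfY : SMap (Sph B P') S fY)
    (h3 : Coh (Sph B P') (F.pull fY x)
      (F.pull Prod.fst x0 + l • (F.pull Prod.fst e * OddB.eV ι₁ ob.hr P' oP')))
    (c : CH.Chn B k) : ∃ z : ℤ, 2 * c.I x0 = XF.tau ι * z := by
  obtain ⟨y, hy⟩ := hne
  have hk := M.hk
  have hkn := M.hkn
  have hY : Clo (r + b) (Sph B P') := SB.clo_Sph hB ob.pf
  have hcι : 0 < Fintype.card ι₁ := Fintype.card_pos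
  have hr := ob.hr
  set w := OddB.eV ι₁ ob.hr P' oP' with hw
  have hW : CF2 (Sph B P') r w := ⟨ob.ec_eV.sm, ob.ec_eV.cl, OddB.hom_eV ob.hr,
    by rw [hr]; exact even_two_mul _⟩
  set c₁ := sphC ob hB hoB dB c with hc₁
  set c₂ := bcC hO hV hY sfY c₁ with hc₂
  have s1F : SMap (FP (GT.FF S) (Sph B P') Prod.fst fY) (GT.FF S)
    (Prod.fst : (Euc N × Euc N) × (E₁ × EuclideanSpace ℝ n₁) → _) := smap_FP_fst
  have s2F : SMap (FP (GT.FF S) (Sph B P') Prod.fst fY) (Sph B P')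
    (Prod.snd : (Euc N × Euc N) × (E₁ × EuclideanSpace ℝ n₁) → _) := smap_FP_snd
  have s12 : SMap (FP (GT.FF S) (Sph B P') Prod.fst fY) S
    (fun z : (Euc N × Euc N) × (E₁ × EuclideanSpace ℝ n₁) => z.1.2) := FG.smap_snd.comp s1F
  obtain ⟨z, hz⟩ := int_chain IT hY.sub hYc ob.orv (m := n)
    (show n - k + (r + k) = 2 * Fintype.card ι₁ + n by omega) c₂ s2F (GP.clo_S h.bl)
    h.bl.conn.isPreconnected hO.base s12
  have hz' := hz (x ^ m) (M.sx.pow m) (by rw [M.hn]; exact M.dx.pow m)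
  have hpush := push (q := r) M hO hV hY sfY c₁ hW.sm hW.cl hW.hom rfl
  have e1 : c₂.I (F.pull Prod.snd w * F.pull (fun z => z.1.2) (x ^ m)) =
      c₂.I (F.pull Prod.fst (F.pull Prod.snd (x ^ m)) * F.pull Prod.snd w) := by
    have h4 : Eqv (FP (GT.FF S) (Sph B P') Prod.fst fY)
        (F.pull (Prod.fst : (Euc N × Euc N) × (E₁ × EuclideanSpace ℝ n₁) → _)
          (F.pull Prod.snd (x ^ m)))
        (F.pull (fun z : (Euc N × Euc N) × (E₁ × EuclideanSpace ℝ n₁) => z.1.2) (x ^ m)) :=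
      T.eqv_pull_pull s1F FG.smap_snd s12 (fun _ _ => rfl) _
    have h5 : CF2 (FP (GT.FF S) (Sph B P') Prod.fst fY) r
      (F.pull (Prod.snd : (Euc N × Euc N) × (E₁ × EuclideanSpace ℝ n₁) → _) w) := hW.pull s2F
    rw [h5.comm]
    exact (I_eqv c₂ (h4.mul (Eqv.refl _))).symm
  have hz2 : c₂.I (F.pull Prod.snd w * F.pull (fun z => z.1.2) (x ^ m)) =
      XF.tau ι₁ * z * J n S oS (x ^ m) := hz'
  rw [e1, hpush, I_AW ob hB hBc hoB dB c (by omega) he hx hp (by omega) hW h2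
    (M.sx.pull sfY) h3 hy, ob.J_fibre' hy] at hz2
  set a := J (n - k) (GT.FF S ∩ Prod.fst ⁻¹' {p}) oV (F.pull Prod.snd x ^ (m - 1)) with ha
  have ht := XF.tau_pos ι₁
  have ha' : J n S oS (x ^ m) = XF.tau ι * a ∨ J n S oS (x ^ m) = -(XF.tau ι * a) := by
    have h6 := XF.tau_pos ι
    rw [← abs_of_pos h6, ← abs_mul] at hJ
    exact abs_eq_abs.1 hJ
  rcases ha' with h7 | h7
  · refine ⟨-z, ?_⟩
    rw [h7] at hz2
    apply mul_left_cancel₀ (mul_ne_zero ht.ne' hJ0)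
    push_cast
    linear_combination -hz2
  · refine ⟨z, ?_⟩
    rw [h7] at hz2
    apply mul_left_cancel₀ (mul_ne_zero ht.ne' hJ0)
    linear_combination -hz2

end n0

end Crest.Agent.R208.QT
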