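import Crest.Agent.R208.CH1
import Crest.Agent.R208.LB1
import Crest.Agent.R208.SN6
import Crest.Agent.R208.CM5
import Crest.Agent.R208.T1
import Crest.Agent.R208.THB3
import Crest.Agent.R208.CH2
import Crest.Agent.R208.SN7
import Crest.Agent.R208.XF0
import Crest.Agent.R208.T2d
import Crest.Agent.R208.THD3
import Crest.Agent.R208.SN8
import Crest.Agent.R208.CQ2
import Crest.Agent.R208.QT3

-- ▼ part R208/IM1
section

/-! Row 208, block IM (helper631).  IM1: the thinness of a chain (`CH.Thin`) in terms of kernel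
vectors. -/

set_option autoImplicit false
set_option linter.unusedSectionVars false

open Set Filter Topology Module
open scoped ContDiff
open Crest.Agent.R208.F Crest.Agent.R208.FI Crest.Agent.R208.CH

noncomputable section

namespace Crest.Agent.R208.IM

section alg
variable {E F' : Type*} [AddCommGroup E] [Module ℝ E] [AddCommGroup F'] [Module ℝ F']

/-- a form pulled back by a map with a kernel vector is zero in top degree -/
theorem evA_pb_ker {V : Submodule ℝ E} {n : ℕ} [FiniteDimensional ℝ V] (hV : finrank ℝ V = n)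
    {A : E →ₗ[ℝ] F'} {w0 : E}
    (h0V : w0 ∈ V) (h0 : w0 ≠ 0) (hA : A w0 = 0) (c : Ext F') (w : Fin n → E)
    (hw : ∀ i, w i ∈ V) : evA E n (pb A c) w = 0 := by
  rw [evA_pb]
  refine AlternatingMap.map_linearDependent _ _ fun hli => ?_
  have h1 : LinearIndependent ℝ w := hli.of_comp A
  set w' : Fin n → V := fun i => ⟨w i, hw i⟩ with hw'
  have h2 : LinearIndependent ℝ w' := by
    refine LinearIndependent.of_comp V.subtype ?_
    exact h1
  have h3 := h2.span_eq_top_of_card_eq_finrank' (by rw [Fintype.card_fin, hV])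
  have h4 : (⟨w0, h0V⟩ : V) ∈ Submodule.span ℝ (Set.range w') := by rw [h3]; trivial
  obtain ⟨a, ha⟩ := (Submodule.mem_span_range_iff_exists_fun ℝ).1 h4
  have h5 : w0 = ∑ i, a i • w i := by
    have := congrArg V.subtype ha
    rw [map_sum] at this
    simpa [hw'] using this.symm
  have h6 : ∑ i, a i • A (w i) = 0 := by
    rw [← hA, h5, map_sum]; simp
  have h7 := Fintype.linearIndependent_iff.1 hli a h6
  apply h0
  rw [h5]
  exact Finset.sum_eq_zero fun i _ => by rw [h7 i, zero_smul]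

/-- dual covectors of a linearly independent family -/
theorem exists_dual {n : ℕ} {v : Fin n → F'} (h : LinearIndependent ℝ v) :
    ∃ l : Fin n → Module.Dual ℝ F', ∀ i j, l j (v i) = if i = j then 1 else 0 := by
  classical
  obtain ⟨L, hL⟩ := LinearMap.exists_leftInverse_of_injective (Fintype.linearCombination ℝ v)
    (LinearMap.ker_eq_bot.2 (linearIndependent_iff_injective_fintypeLinearCombination.1 h))
  refine ⟨fun j => LinearMap.proj j ∘ₗ L, fun i j => ?_⟩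
  have h1 : Fintype.linearCombination ℝ v (Pi.single i 1) = v i := by
    rw [Fintype.linearCombination_apply_single, one_smul]
  have h2 := congrArg (fun A => A (Pi.single i 1)) hL
  simp only [LinearMap.comp_apply, LinearMap.id_apply] at h2
  rw [h1] at h2
  show (L (v i)) j = _
  rw [h2, Pi.single_apply]
  simp only [eq_comm]

theorem exists_ker {V : Submodule ℝ E} {n : ℕ} [FiniteDimensional ℝ V] (hV : finrank ℝ V = n)
    {A : E →ₗ[ℝ] F'}
    (h : ∀ c : Ext F', ∀ w : Fin n → E, (∀ i, w i ∈ V) → evA E n (pb A c) w = 0) :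
    ∃ w ∈ V, w ≠ 0 ∧ A w = 0 := by
  by_contra hcon
  push Not at hcon
  let b := Module.finBasisOfFinrankEq ℝ V hV
  have h1 : LinearIndependent ℝ (fun i => A (b i : E)) := by
    have h2 : LinearIndependent ℝ (⇑(A ∘ₗ V.subtype) ∘ b) := by
      refine b.linearIndependent.map' _ (LinearMap.ker_eq_bot'.2 fun v hv => ?_)
      by_contra hv0
      exact hcon v v.2 (fun h0 => hv0 (Subtype.ext h0)) hv
    exact h2
  obtain ⟨l, hl⟩ := exists_dual h1
  have h2 := h (ExteriorAlgebra.ιMulti ℝ n l) (fun i => (b i : E)) (fun i => (b i).2)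
  rw [evA_pb, evA_iMulti] at h2
  have h3 : (Matrix.of fun i j => l j (A (b i : E))) = (1 : Matrix (Fin n) (Fin n) ℝ) := by
    ext i j
    rw [Matrix.of_apply, hl, Matrix.one_apply]
  rw [h3, Matrix.det_one] at h2
  exact one_ne_zero h2

theorem exists_ker_bd {V : Submodule ℝ E} {n : ℕ} [FiniteDimensional ℝ V] (hV : finrank ℝ V = n)
    {A : E →ₗ[ℝ] F'} {ℓ : Module.Dual ℝ E}
    (h : ∀ c : Ext F', ∀ w : Fin n → E, (∀ i, w i ∈ V) → evA E n (io ℓ * pb A c) w = 0) :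
    (∀ w ∈ V, ℓ w = 0) ∨ ∃ w ∈ V, w ≠ 0 ∧ ℓ w = 0 ∧ A w = 0 := by
  by_contra hcon
  push Not at hcon
  obtain ⟨⟨u, huV, hu⟩, hcon⟩ := hcon
  set V0 : Submodule ℝ V := LinearMap.ker (ℓ ∘ₗ V.subtype) with hV0
  have hr : finrank ℝ (LinearMap.range (ℓ ∘ₗ V.subtype)) = 1 := by
    have : LinearMap.range (ℓ ∘ₗ V.subtype) = ⊤ := by
      rw [LinearMap.range_eq_top]
      intro y
      refine ⟨(y / ℓ u) • ⟨u, huV⟩, ?_⟩
      show ℓ ((y / ℓ u) • u) = y
      rw [map_smul, smul_eq_mul, div_mul_cancel₀ _ hu]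
    rw [this, finrank_top, Module.finrank_self]
  have hk := (ℓ ∘ₗ V.subtype).finrank_range_add_finrank_ker
  rw [hr, hV] at hk
  obtain ⟨m, rfl⟩ : ∃ m, n = m + 1 := ⟨finrank ℝ V0, by rw [← hk]; ring⟩
  have hm : finrank ℝ V0 = m := by
    have h0 : finrank ℝ V0 = finrank ℝ (LinearMap.ker (ℓ ∘ₗ V.subtype)) := rfl
    omega
  let b := Module.finBasisOfFinrankEq ℝ V0 hm
  have hbℓ : ∀ i, ℓ ((b i : V) : E) = 0 := fun i => (b i).2
  have h1 : LinearIndependent ℝ (fun i => A ((b i : V) : E)) := by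
    have h2 : LinearIndependent ℝ (⇑(A ∘ₗ V.subtype ∘ₗ V0.subtype) ∘ b) := by
      refine b.linearIndependent.map' _ (LinearMap.ker_eq_bot'.2 fun v hv => ?_)
      by_contra hv0
      refine hcon ((v : V) : E) (v : V).2 (fun h0 => hv0 (Subtype.ext (Subtype.ext h0))) ?_ hv
      exact v.2
    exact h2
  obtain ⟨l, hl⟩ := exists_dual h1
  have h2 := h (ExteriorAlgebra.ιMulti ℝ m l) (Fin.cons u fun i => ((b i : V) : E)) (fun i => by
    refine Fin.cases ?_ (fun i => ?_) i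
    · exact huV
    · exact (b i : V).2)
  rw [evA_io_mul, Fin.sum_univ_succ] at h2
  rw [Finset.sum_eq_zero (s := Finset.univ) (f := fun i : Fin m => _) (fun i _ => by
    rw [Fin.cons_succ, hbℓ, mul_zero, zero_mul]), add_zero] at h2
  simp only [Fin.val_zero, pow_zero, one_mul, Fin.cons_zero, Fin.succAbove_zero, Fin.cons_succ]
    at h2
  rw [evA_pb, evA_iMulti] at h2
  have h3 : (Matrix.of fun i j => l j (A ((b i : V) : E))) = (1 : Matrix (Fin m) (Fin m) ℝ) := by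
    ext i j
    rw [Matrix.of_apply, hl, Matrix.one_apply]
  rw [h3, Matrix.det_one, mul_one] at h2
  exact hu h2

theorem evA_io_pb_ker {V : Submodule ℝ E} {n : ℕ} [FiniteDimensional ℝ V]
    (hV : finrank ℝ V = n) {A : E →ₗ[ℝ] F'} {ℓ : Module.Dual ℝ E}
    (h : (∀ w ∈ V, ℓ w = 0) ∨ ∃ w ∈ V, w ≠ 0 ∧ ℓ w = 0 ∧ A w = 0) (c : Ext F') (w : Fin n → E)
    (hw : ∀ i, w i ∈ V) : evA E n (io ℓ * pb A c) w = 0 := by
  rcases h with h | ⟨w0, h0V, h0, h1, h2⟩
  · exact LB.evA_io_mul_zero n ℓ _ w fun i => h _ (hw i)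
  · have e : io ℓ * pb A c = pb (ℓ.prod A) (io (LinearMap.fst ℝ ℝ F') *
        pb (LinearMap.snd ℝ ℝ F') c) := by
      rw [map_mul, pb_io, pb_comp]
      rfl
    rw [e]
    exact evA_pb_ker hV h0V h0 (Prod.ext h1 h2) _ w hw

end alg

variable {E E' : Type*} [NormedAddCommGroup E] [NormedSpace ℝ E] [FiniteDimensional ℝ E]
  [NormedAddCommGroup E'] [NormedSpace ℝ E'] [FiniteDimensional ℝ E']
  {n : ℕ} {X : Set E} {f : E → E'} {χ : E → ℝ}

/-- **kernel criterion** for thinness -/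
theorem thin_of_ker (hX : Sub n X) (hχ : ∀ x ∈ X, ContDiffAt ℝ ∞ χ x)
    (h1 : ∀ x ∈ X, χ x ≠ 0 → χ x ≠ 1 → ∃ w ∈ Tan X x, w ≠ 0 ∧ fderiv ℝ f x w = 0)
    (h2 : ∀ x ∈ X, (∀ w ∈ Tan X x, fderiv ℝ χ x w = 0) ∨
      ∃ w ∈ Tan X x, w ≠ 0 ∧ fderiv ℝ χ x w = 0 ∧ fderiv ℝ f x w = 0) : Thin n X f χ where
  smooth := hχ
  top := by
    intro x hx h0 h1' c w hw
    obtain ⟨w0, hw0, hne, hk⟩ := h1 x hx h0 h1'
    exact evA_pb_ker (hX.finrank_Tan hx) hw0 hne hk c w hw
  bd := by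
    intro x hx c w hw
    exact evA_io_pb_ker (hX.finrank_Tan hx) (h2 x hx) c w hw

theorem thin_ker1 (hX : Sub n X) (h : Thin n X f χ) {x : E} (hx : x ∈ X) (h0 : χ x ≠ 0)
    (h1 : χ x ≠ 1) : ∃ w ∈ Tan X x, w ≠ 0 ∧ fderiv ℝ f x w = 0 :=
  exists_ker (hX.finrank_Tan hx) (h.top x hx h0 h1)

theorem thin_ker2 (hX : Sub n X) (h : Thin n X f χ) {x : E} (hx : x ∈ X) :
    (∀ w ∈ Tan X x, fderiv ℝ χ x w = 0) ∨
      ∃ w ∈ Tan X x, w ≠ 0 ∧ fderiv ℝ χ x w = 0 ∧ fderiv ℝ f x w = 0 :=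
  exists_ker_bd (hX.finrank_Tan hx) (h.bd x hx)

end Crest.Agent.R208.IM
end
end

-- ▼ part R208/IM2
section

/-! Row 208, block IM (helper631).  IM2: forms on the sphere bundle `SB X Q` which are pulled back
to the upper hemisphere, and their fibre integrals. -/

set_option autoImplicit false
set_option linter.unusedSectionVars false

open MeasureTheory Set Filter Topology Module Matrix
open scoped ContDiff RealInnerProductSpace
open Crest.Agent.R208.F Crest.Agent.R208.FI Crest.Agent.R208.CW Crest.Agent.R208.T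
open Crest.Agent.R208.SN

noncomputable section

namespace Crest.Agent.R208.IM

section up
variable {E E₁ H : Type*} [NormedAddCommGroup E] [NormedSpace ℝ E] [FiniteDimensional ℝ E]
  [NormedAddCommGroup E₁] [NormedSpace ℝ E₁] [FiniteDimensional ℝ E₁]
  [NormedAddCommGroup H] [InnerProductSpace ℝ H] [FiniteDimensional ℝ H]
  {X : Set E} {Y : Set E₁} {Q : E → H →L[ℝ] H} {f : E → E₁} {R R₀ : ℝ}
  {Θ Θ' : E₁ × H → Ext (E₁ × H)}

/-- `(x, u, s) ↦ (f x, R u)` -/
def kf (f : E → E₁) (R : ℝ) (z : (E × H) × ℝ) : E₁ × H := (f z.1.1, R • z.1.2)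

/-- the form on the upper hemisphere -/
def up (f : E → E₁) (R : ℝ) (Θ : E₁ × H → Ext (E₁ × H)) (z : (E × H) × ℝ) :
    Ext ((E × H) × ℝ) := if 0 < z.2 then F.pull (kf f R) Θ z else 0

theorem up_near_pos (f : E → E₁) (R : ℝ) (Θ : E₁ × H → Ext (E₁ × H)) {z : (E × H) × ℝ}
    (hz : 0 < z.2) : up f R Θ =ᶠ[𝓝 z] F.pull (kf f R) Θ := by
  have ho : IsOpen {z : (E × H) × ℝ | 0 < z.2} := isOpen_lt continuous_const continuous_snd
  filter_upwards [ho.mem_nhds hz] with y hy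
  exact if_pos hy

theorem up_near_neg (hR : 2 * R₀ < |R|) (hR₀ : 0 ≤ R₀) (hΘ : ∀ z, R₀ < ‖z.2‖ → Θ z = 0)
    {z : (E × H) × ℝ} (hz : z ∈ SB X Q) (h0 : z.2 ≤ 0) : up f R Θ =ᶠ[𝓝 z] fun _ => 0 := by
  rcases lt_or_eq_of_le h0 with h1 | h1
  · have ho : IsOpen {z : (E × H) × ℝ | z.2 < 0} := isOpen_lt continuous_snd continuous_const
    filter_upwards [ho.mem_nhds h1] with y hy
    exact if_neg (not_lt.2 (le_of_lt hy))
  · have h2 := (SB_iff.1 hz).2.2
    rw [h1, mul_zero, add_zero, real_inner_self_eq_norm_sq] at h2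
    have h3 : ‖z.1.2‖ = 1 := by
      have := norm_nonneg z.1.2
      nlinarith
    have ho : IsOpen {z : (E × H) × ℝ | R₀ < ‖R • z.1.2‖} :=
      isOpen_lt continuous_const (by fun_prop)
    have h4 : R₀ < ‖R • z.1.2‖ := by
      rw [norm_smul, h3, Real.norm_eq_abs]; linarith
    filter_upwards [ho.mem_nhds h4] with y hy
    by_cases h5 : 0 < y.2
    · rw [up, if_pos h5]
      have h6 : Θ (kf f R y) = 0 := hΘ (kf f R y) hy
      rw [F.pull, h6, map_zero]
    · rw [up, if_neg h5]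

/-- near a point of positive height the support condition gives `|u|` small -/
theorem sm_up (hR : 2 * R₀ < |R|) (hR₀ : 0 ≤ R₀) (hΘ : ∀ z, R₀ < ‖z.2‖ → Θ z = 0)
    (hs : ∀ z ∈ SB X Q, ContDiffAt ℝ ∞ (F.pull (kf f R) Θ) z) : Sm (SB X Q) (up f R Θ) := by
  intro z hz
  rcases lt_or_ge 0 z.2 with h | h
  · exact (hs z hz).congr_of_eventuallyEq (up_near_pos f R Θ h)
  · exact contDiffAt_const.congr_of_eventuallyEq (up_near_neg hR hR₀ hΘ hz h)

theorem d_up (hR : 2 * R₀ < |R|) (hR₀ : 0 ≤ R₀) (hΘ : ∀ z, R₀ < ‖z.2‖ → Θ z = 0)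
    {z : (E × H) × ℝ} (hz : z ∈ SB X Q) :
    F.d (E := (E × H) × ℝ) (up f R Θ) z =
      if 0 < z.2 then F.d (E := (E × H) × ℝ) (F.pull (kf f R) Θ) z else 0 := by
  split_ifs with h
  · exact F.d_congr (up_near_pos f R Θ h)
  · rw [F.d_congr (up_near_neg hR hR₀ hΘ hz (not_lt.1 h)), F.d_const]


end up

section fibre
variable {n ι : Type*} [Fintype n] [DecidableEq n] [Fintype ι] [DecidableEq ι]
  {E E₁ : Type*} [NormedAddCommGroup E] [NormedSpace ℝ E] [FiniteDimensional ℝ E]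
  [NormedAddCommGroup E₁] [NormedSpace ℝ E₁] [FiniteDimensional ℝ E₁]
  {X : Set E} {Q : E → EuclideanSpace ℝ n →L[ℝ] EuclideanSpace ℝ n}
  {W : E → (ι × Fin 2 → n) → ℝ} {φ : E → E₁} {R R₀ : ℝ} {d : ℕ}
  {Θ : E₁ × EuclideanSpace ℝ n → Ext (E₁ × EuclideanSpace ℝ n)}

/-- the linear model of the fibre -/
def iE (q : E₁) (R : ℝ) (f : Matrix n (ι × Fin 2) ℝ) (a : Eu (Fintype.card ι * 2)) :
    E₁ × EuclideanSpace ℝ n := (q, R • fA f a)

/-- the vertical orientation form is positive at the pole -/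
theorem top_oVf_pos {x : E} {f : Matrix n (ι × Fin 2) ℝ}
    (hf : fᵀ * f = 1) (hWf : ∀ I, W x I = (f.submatrix I id).det) :
    0 < top (Fintype.card ι * 2) (F.pull (jj f x) (oVf W) (0 : Eu (Fintype.card ι * 2))) := by
  classical
  have hd : HasFDerivAt (jj f x : Eu (Fintype.card ι * 2) → (E × EuclideanSpace ℝ n) × ℝ)
      (((0 : Eu (Fintype.card ι * 2) →L[ℝ] E).prod (fA f)).prod
        (0 : Eu (Fintype.card ι * 2) →L[ℝ] ℝ)) 0 := by
    have h1 : HasFDerivAt (fun a : Eu (Fintype.card ι * 2) => Real.sqrt (1 - ‖a‖ ^ 2))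
        (0 : Eu (Fintype.card ι * 2) →L[ℝ] ℝ) 0 := by
      have h2 : HasFDerivAt (fun a : Eu (Fintype.card ι * 2) => (1 : ℝ) - ‖a‖ ^ 2)
          (0 : Eu (Fintype.card ι * 2) →L[ℝ] ℝ) 0 := by
        have h3 := ((hasStrictFDerivAt_norm_sq (0 : Eu (Fintype.card ι * 2))).hasFDerivAt).const_sub
          (1 : ℝ)
        refine h3.congr_fderiv ?_
        ext w; simp
      have h4 := h2.sqrt (by simp)
      refine h4.congr_fderiv ?_
      simp
    exact ((hasFDerivAt_const x _).prodMk (fA f).hasFDerivAt).prodMk h1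
  have hj : jj f x (0 : Eu (Fintype.card ι * 2)) = ((x, 0), 1) := by
    show ((x, fA f 0), Real.sqrt (1 - ‖(0 : Eu (Fintype.card ι * 2))‖ ^ 2)) = _
    simp
  have e0 : top (Fintype.card ι * 2) (F.pull (jj f x) (oVf W) (0 : Eu (Fintype.card ι * 2)))
      = evA _ (Fintype.card ι * 2) (oVf W ((x, 0), 1)) (fun i =>
        (((0 : E), fA f (sb (Fintype.card ι * 2) i)), (0 : ℝ))) := by
    rw [F.pull, top_pb, hj, hd.fderiv]
    rfl
  rw [e0, oVf, ← evA_ii, volW_frame hWf]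
  set l : Fin (Fintype.card ι * 2 + 1) → Module.Dual ℝ ((E × EuclideanSpace ℝ n) × ℝ) :=
    Fin.append (fun k => eta f ((kFin ι).symm k) ∘ₗ p2) (fun _ : Fin 1 => p3) with hl
  have h1 : pb p2 ((Fintype.card (Equiv.Perm (ι × Fin 2)) : ℝ) • Xi f) *
      io (p3 (E := E) (n := n))
      = (Fintype.card (Equiv.Perm (ι × Fin 2)) : ℝ) •
        ExteriorAlgebra.ιMulti ℝ (Fintype.card ι * 2 + 1) l := by
    rw [map_smul, smul_mul_assoc, Xi, pb_iMulti]
    congr 1
    have e1 : io (p3 (E := E) (n := n)) = ExteriorAlgebra.ιMulti ℝ 1 (fun _ : Fin 1 => p3) := by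
      rw [ExteriorAlgebra.ιMulti_apply]; simp
    rw [e1, ExteriorAlgebra.ιMulti_mul_ιMulti]
  rw [h1, map_smul, AlternatingMap.smul_apply, evA_iMulti, smul_eq_mul]
  have hc0 : (0 : ℝ) < (Fintype.card (Equiv.Perm (ι × Fin 2)) : ℝ) := by
    exact_mod_cast Fintype.card_pos
  refine mul_pos hc0 ?_
  -- the determinant
  have hM : (Matrix.of fun i j => l j (Matrix.vecCons (rad ((x, (0 : EuclideanSpace ℝ n)), (1 : ℝ)))
      (fun i => (((0 : E), fA f (sb (Fintype.card ι * 2) i)), (0 : ℝ))) i)).det = (-1) ^ (Fintype.card ι * 2) := by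
    rw [Matrix.det_succ_row_zero, Finset.sum_eq_single (Fin.last (Fintype.card ι * 2))]
    · have h2 : l (Fin.last (Fintype.card ι * 2)) (rad ((x, (0 : EuclideanSpace ℝ n)), (1 : ℝ))) = 1 := by
        have : (Fin.last (Fintype.card ι * 2) : Fin ((Fintype.card ι * 2) + 1)) = Fin.natAdd (Fintype.card ι * 2) (0 : Fin 1) := by
          ext; simp
        rw [hl, this, Fin.append_right]
        rfl
      have h3 : (Matrix.submatrix (Matrix.of fun i j => l j (Matrix.vecCons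
          (rad ((x, (0 : EuclideanSpace ℝ n)), (1 : ℝ)))
          (fun i => (((0 : E), fA f (sb (Fintype.card ι * 2) i)), (0 : ℝ))) i)) Fin.succ (Fin.last (Fintype.card ι * 2)).succAbove)
          = (1 : Matrix (Fin (Fintype.card ι * 2)) (Fin (Fintype.card ι * 2)) ℝ) := by
        ext i j
        rw [Matrix.submatrix_apply, Matrix.of_apply, Matrix.cons_val_succ, Fin.succAbove_last]
        have : (Fin.castSucc j : Fin ((Fintype.card ι * 2) + 1)) = Fin.castAdd 1 j := rfl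
        rw [hl, this, Fin.append_left, Matrix.one_apply]
        show eta f ((kFin ι).symm j) (fA f (sb (Fintype.card ι * 2) i)) = _
        rw [eta_apply]
        have h4 := congrArg (fun v => v j) (fL_fA hf (sb (Fintype.card ι * 2) i))
        simp only [fL_apply] at h4
        rw [h4]
        simp [sb, eq_comm]
      rw [h3, Matrix.det_one, mul_one, Matrix.of_apply, Matrix.cons_val_zero, h2, mul_one]
      simp
    · intro j _ hj
      have h2 : l j (rad ((x, (0 : EuclideanSpace ℝ n)), (1 : ℝ))) = 0 := by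
        obtain ⟨j', rfl⟩ : ∃ j' : Fin (Fintype.card ι * 2), j = Fin.castAdd 1 j' :=
          ⟨j.castPred hj, (Fin.castSucc_castPred j hj).symm⟩
        rw [hl, Fin.append_left]
        show eta f ((kFin ι).symm j') (0 : EuclideanSpace ℝ n) = 0
        rw [map_zero]
      rw [Matrix.of_apply, Matrix.cons_val_zero, h2, mul_zero, zero_mul]
    · intro h; exact absurd (Finset.mem_univ _) h
  rw [hM, mul_comm, pow_mul]
  norm_num

theorem hasFDerivAt_iE (q : E₁) (R : ℝ) (f : Matrix n (ι × Fin 2) ℝ)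
    (a : Eu (Fintype.card ι * 2)) : HasFDerivAt (iE q R f)
      ((ContinuousLinearMap.inr ℝ E₁ (EuclideanSpace ℝ n)).comp (R • fA f)) a := by
  have : HasFDerivAt (fun a => (q, (R • fA f) a)) ((0 : Eu (Fintype.card ι * 2) →L[ℝ]
      E₁).prod (R • fA f)) a :=
    (hasFDerivAt_const q a).prodMk (R • fA f).hasFDerivAt
  refine this.congr_fderiv ?_
  ext w <;> simp

/-- **the fibre integral of a form on the upper hemisphere** -/
theorem J_fib_up (hX : Clo d X) {oX : E → Ext E} (hoX : Ori d X oX)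
    (hoX0 : ∀ x ∈ X, ∀ q < d, evA E q (oX x) = 0) (h : OR X Q W)
    (hφ : ∀ x ∈ X, ContDiffAt ℝ ∞ φ x) (hR : 2 * R₀ < |R|) (hR₀ : 0 ≤ R₀)
    (hΘ : ∀ z, R₀ < ‖z.2‖ → Θ z = 0) {x : E} (hx : x ∈ X) {f : Matrix n (ι × Fin 2) ℝ}
    (hf : fᵀ * f = 1) (hQf : ∀ v i, Q x v i = ∑ j, (f * fᵀ) i j * v j)
    (hWf : ∀ I, W x I = (f.submatrix I id).det) :
    J (Fintype.card ι * 2) (SB X Q ∩ pB ⁻¹' {x}) (oVf W) (up φ R Θ)
      = ∫ a in Metric.ball (0 : Eu (Fintype.card ι * 2)) 1,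
        top (Fintype.card ι * 2) (F.pull (iE (φ x) R f) Θ a) := by
  have hs : ∀ x ∈ X, ∀ v w, ⟪Q x v, w⟫ = ⟪v, Q x w⟫ := fun x hx => OR_sym h hx
  have hP : PField X (Fintype.card ι * 2) Q := by
    have := h.pfield
    rwa [mul_comm] at this
  have hS := subm_SB hX hP hs
  have hoZ := ori_SB hX hoX h hs hoX0
  have hF := hS.clo_fibre x
  have hoF := hS.fibre_ori (continuousOn_oVf h) hoZ hoX0 x
  have hch := chart_jj (P := Q) (X := X) (x := x) hf hQf hx
  rw [J_eq_chart hF hch (fun z hz hz2 => by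
    have h0 : ¬ 0 < z.2 := fun h0 =>
      hz2 ⟨_, (eq_jj (P := Q) hf hQf hz h0).1, (eq_jj (P := Q) hf hQf hz h0).2⟩
    have h1 : up φ R Θ z = 0 := (up_near_neg hR hR₀ hΘ hz.1 (not_lt.1 h0)).self_of_nhds
    rw [h1, map_zero]
    rfl)]
  obtain ⟨ε, hε⟩ := hch.exists_sign hoF (convex_ball (0 : Eu _) 1).isPreconnected
  have h0 : (0 : Eu (Fintype.card ι * 2)) ∈ Metric.ball (0 : Eu _) 1 :=
    Metric.mem_ball_self one_pos
  have hε1 : ε = 1 := by
    have h1 := hε 0 h0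
    rw [← h1, Real.sign_of_pos (top_oVf_pos hf hWf)]
  refine setIntegral_congr_fun Metric.isOpen_ball.measurableSet (fun u hu => ?_)
  show _ * _ = _
  rw [hε u hu, hε1, mul_one]
  congr 1
  have h1 : DifferentiableAt ℝ (jj f x : Eu (Fintype.card ι * 2) →
    (E × EuclideanSpace ℝ n) × ℝ) u := (contDiffAt_jj hu).differentiableAt (by simp)
  have h2 : DifferentiableAt ℝ (kf φ R) (jj f x u) := by
    have h3 : DifferentiableAt ℝ φ x := (hφ x hx).differentiableAt (by simp)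
    have h4 : DifferentiableAt ℝ (fun z : (E × EuclideanSpace ℝ n) × ℝ => φ z.1.1) (jj f x u) :=
      DifferentiableAt.comp (g := φ) (f := fun z : (E × EuclideanSpace ℝ n) × ℝ => z.1.1)
        (jj f x u) h3 (by fun_prop)
    exact h4.prodMk (by fun_prop)
  have h3 : F.pull (jj f x) (up φ R Θ) u = F.pull (jj f x) (F.pull (kf φ R) Θ) u := by
    have h4 : up φ R Θ (jj f x u) = F.pull (kf φ R) Θ (jj f x u) :=
      if_pos (Real.sqrt_pos.2 (one_sub_pos hu))
    show pb _ (up φ R Θ (jj f x u)) = pb _ _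
    rw [h4]
  rw [h3, F.pull_comp h1 h2]
  rfl

theorem top_pull_iE (q : E₁) (R : ℝ) (f : Matrix n (ι × Fin 2) ℝ)
    (a : Eu (Fintype.card ι * 2)) : top (Fintype.card ι * 2) (F.pull (iE q R f) Θ a)
      = R ^ (Fintype.card ι * 2) * top (Fintype.card ι * 2)
        (pb ((fA f : Eu (Fintype.card ι * 2) →L[ℝ] EuclideanSpace ℝ n) :
          Eu (Fintype.card ι * 2) →ₗ[ℝ] EuclideanSpace ℝ n)
        (pb ((ContinuousLinearMap.inr ℝ E₁ (EuclideanSpace ℝ n) :
          EuclideanSpace ℝ n →L[ℝ] E₁ × EuclideanSpace ℝ n) :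
          EuclideanSpace ℝ n →ₗ[ℝ] E₁ × EuclideanSpace ℝ n) (Θ (q, R • fA f a)))) := by
  rw [F.pull, (hasFDerivAt_iE q R f a).fderiv, top_pb, top_pb, evA_pb]
  have h1 : (fun i => ((((ContinuousLinearMap.inr ℝ E₁ (EuclideanSpace ℝ n)).comp (R • fA f) :
      Eu (Fintype.card ι * 2) →L[ℝ] E₁ × EuclideanSpace ℝ n)) :
      Eu (Fintype.card ι * 2) →ₗ[ℝ] E₁ × EuclideanSpace ℝ n) (sb (Fintype.card ι * 2) i))
      = fun i => R • (((ContinuousLinearMap.inr ℝ E₁ (EuclideanSpace ℝ n) :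
          EuclideanSpace ℝ n →L[ℝ] E₁ × EuclideanSpace ℝ n) :
          EuclideanSpace ℝ n →ₗ[ℝ] E₁ × EuclideanSpace ℝ n)
          (((fA f : Eu (Fintype.card ι * 2) →L[ℝ] EuclideanSpace ℝ n) :
          Eu (Fintype.card ι * 2) →ₗ[ℝ] EuclideanSpace ℝ n) (sb (Fintype.card ι * 2) i))) := by
    funext i
    show (ContinuousLinearMap.inr ℝ E₁ (EuclideanSpace ℝ n)) (R • fA f _) = R • _
    rw [map_smul]
    rfl
  rw [h1]
  have h2 := (evA (E₁ × EuclideanSpace ℝ n) (Fintype.card ι * 2)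
    (Θ (q, R • fA f a))).toMultilinearMap.map_smul_univ (fun _ => R)
    (fun i => (((ContinuousLinearMap.inr ℝ E₁ (EuclideanSpace ℝ n) :
          EuclideanSpace ℝ n →L[ℝ] E₁ × EuclideanSpace ℝ n) :
          EuclideanSpace ℝ n →ₗ[ℝ] E₁ × EuclideanSpace ℝ n)
          (((fA f : Eu (Fintype.card ι * 2) →L[ℝ] EuclideanSpace ℝ n) :
          Eu (Fintype.card ι * 2) →ₗ[ℝ] EuclideanSpace ℝ n) (sb (Fintype.card ι * 2) i))))
  rw [Finset.prod_const, Finset.card_univ, Fintype.card_fin, smul_eq_mul] at h2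
  exact h2

/-- scaling of the integral over the ball -/
theorem integral_ball_scaled {G : Eu (Fintype.card ι * 2) → ℝ} (hR : 2 * R₀ < |R|) (hR₀ : 0 ≤ R₀)
    (hG : ∀ a, R₀ < ‖a‖ → G a = 0) :
    ∫ a in Metric.ball (0 : Eu (Fintype.card ι * 2)) 1, R ^ (Fintype.card ι * 2) * G (R • a)
      = ∫ a, G a := by
  have hRp : 0 < |R| := by linarith
  have hR0 : R ≠ 0 := abs_pos.1 hRp
  have h1 : ∫ a in Metric.ball (0 : Eu (Fintype.card ι * 2)) 1,
      R ^ (Fintype.card ι * 2) * G (R • a)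
      = ∫ a : Eu (Fintype.card ι * 2), R ^ (Fintype.card ι * 2) * G (R • a) := by
    refine setIntegral_eq_integral_of_forall_compl_eq_zero fun a ha => ?_
    have h2 : 1 ≤ ‖a‖ := by
      rw [mem_ball_zero_iff] at ha
      exact not_lt.1 ha
    rw [hG, mul_zero]
    rw [norm_smul, Real.norm_eq_abs]
    nlinarith
  rw [h1, integral_const_mul, Measure.integral_comp_smul volume G R]
  rw [finrank_euclideanSpace, Fintype.card_fin, smul_eq_mul, ← mul_assoc, abs_inv, abs_pow,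
    pow_mul R, pow_mul |R|]
  have h3 : (R ^ Fintype.card ι) ^ 2 = (|R| ^ Fintype.card ι) ^ 2 := by
    rw [← abs_pow, sq_abs]
  rw [h3, mul_inv_cancel₀ (by positivity), one_mul]

end fibre

end Crest.Agent.R208.IM
end
end

-- ▼ part R208/IM3
section

/-! Row 208, block IM (helper631).  IM3: the constants. -/

set_option autoImplicit false
set_option linter.unusedSectionVars false

open MeasureTheory Set Filter Topology Module Matrix
open scoped ContDiff RealInnerProductSpace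
open Crest.Agent.R208.F Crest.Agent.R208.FI Crest.Agent.R208.CW Crest.Agent.R208.T
open Crest.Agent.R208.SN

noncomputable section

namespace Crest.Agent.R208.IM

section fub
variable {n ι ι' : Type*} [Fintype n] [DecidableEq n] [Fintype ι] [DecidableEq ι]
  [Fintype ι'] [DecidableEq ι'] {P : EuclideanSpace ℝ n →L[ℝ] EuclideanSpace ℝ n}
  {f : Matrix n (ι × Fin 2) ℝ} {f' : Matrix n (ι' × Fin 2) ℝ}

theorem inner_frames (hf : fᵀ * f = 1) (hf' : f'ᵀ * f' = 1)
    (hP : ∀ v i, P v i = ∑ j, (f * fᵀ) i j * v j)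
    (hP' : ∀ v i, (1 - P) v i = ∑ j, (f' * f'ᵀ) i j * v j)
    (b : Eu (Fintype.card ι' * 2)) (a : Eu (Fintype.card ι * 2)) :
    P (fA f a) = fA f a ∧ P (fA f' b) = 0 ∧ ⟪fA f' b, fA f a⟫ = 0 := by
  have h1 : P (fA f a) = fA f a := P_fA hf hP a
  have h2 : (1 - P) (fA f' b) = fA f' b := P_fA hf' hP' b
  have h3 : P (fA f' b) = 0 := by
    have h4 : fA f' b - P (fA f' b) = fA f' b := h2
    simpa using h4
  refine ⟨h1, h3, ?_⟩
  rw [real_inner_comm, inner_fA]
  have h5 : fL f (fA f' b) = 0 := by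
    have h6 : fL f (fA f (fL f (fA f' b))) = fL f (P (fA f' b)) := by rw [fA_fL hP]
    rw [fL_fA hf, h3, map_zero] at h6
    exact h6
  rw [h5, inner_zero_right]

/-- orthogonal splitting -/
def psiL (hf : fᵀ * f = 1) (hf' : f'ᵀ * f' = 1)
    (hP : ∀ v i, P v i = ∑ j, (f * fᵀ) i j * v j)
    (hP' : ∀ v i, (1 - P) v i = ∑ j, (f' * f'ᵀ) i j * v j) :
    WithLp 2 (Eu (Fintype.card ι' * 2) × Eu (Fintype.card ι * 2)) →ₗᵢ[ℝ] EuclideanSpace ℝ n where
  toFun z := fA f' z.fst + fA f z.snd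
  map_add' x y := by
    simp only [WithLp.add_fst, WithLp.add_snd, map_add]
    abel
  map_smul' c x := by
    simp only [WithLp.smul_fst, WithLp.smul_snd, map_smul, RingHom.id_apply, smul_add]
  norm_map' x := by
    show ‖fA f' x.fst + fA f x.snd‖ = ‖x‖
    have h1 : ‖fA f' x.fst + fA f x.snd‖ ^ 2 = ‖x‖ ^ 2 := by
      rw [norm_add_sq_real, (inner_frames hf hf' hP hP' x.fst x.snd).2.2, norm_fA hf', norm_fA hf,
        WithLp.prod_norm_sq_eq_of_L2]
      ring
    exact (sq_eq_sq₀ (norm_nonneg _) (norm_nonneg _)).1 h1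


theorem integral_split (hf : fᵀ * f = 1) (hf' : f'ᵀ * f' = 1)
    (hP : ∀ v i, P v i = ∑ j, (f * fᵀ) i j * v j)
    (hP' : ∀ v i, (1 - P) v i = ∑ j, (f' * f'ᵀ) i j * v j)
    (hN : Fintype.card ι' * 2 + Fintype.card ι * 2 = finrank ℝ (EuclideanSpace ℝ n))
    (g' g : ℝ → ℝ) :
    ∫ k : EuclideanSpace ℝ n, g' (‖k - P k‖ ^ 2) * g (‖P k‖ ^ 2)
      = (∫ b : Eu (Fintype.card ι' * 2), g' (‖b‖ ^ 2)) *
        ∫ a : Eu (Fintype.card ι * 2), g (‖a‖ ^ 2) := by
  have hd : finrank ℝ (WithLp 2 (Eu (Fintype.card ι' * 2) × Eu (Fintype.card ι * 2)))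
      = finrank ℝ (EuclideanSpace ℝ n) := by
    rw [← hN, (WithLp.linearEquiv 2 ℝ _).finrank_eq, finrank_prod]
    simp
  let Ψ := LinearIsometryEquiv.ofSurjective (psiL hf hf' hP hP')
    ((LinearMap.injective_iff_surjective_of_finrank_eq_finrank hd).1
      (psiL hf hf' hP hP').injective)
  have h1 := Ψ.measurePreserving
  have h2 := h1.integral_comp Ψ.toHomeomorph.measurableEmbedding
    (fun k : EuclideanSpace ℝ n => g' (‖k - P k‖ ^ 2) * g (‖P k‖ ^ 2))
  rw [← h2]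
  have h3 : ∀ z : WithLp 2 (Eu (Fintype.card ι' * 2) × Eu (Fintype.card ι * 2)),
      g' (‖Ψ z - P (Ψ z)‖ ^ 2) * g (‖P (Ψ z)‖ ^ 2) = g' (‖z.fst‖ ^ 2) * g (‖z.snd‖ ^ 2) := by
    intro z
    have e1 : Ψ z = fA f' z.fst + fA f z.snd := rfl
    obtain ⟨h4, h5, -⟩ := inner_frames hf hf' hP hP' z.fst z.snd
    have e2 : P (Ψ z) = fA f z.snd := by rw [e1, map_add, h4, h5, zero_add]
    rw [e2, e1, add_sub_cancel_right, norm_fA hf', norm_fA hf]
  simp only [h3]
  have h4 := WithLp.volume_preserving_symm_measurableEquiv_toLp_prod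
    (Eu (Fintype.card ι' * 2)) (Eu (Fintype.card ι * 2))
  have h5 := h4.integral_comp (MeasurableEquiv.measurableEmbedding _)
    (fun z : Eu (Fintype.card ι' * 2) × Eu (Fintype.card ι * 2) =>
      g' (‖z.1‖ ^ 2) * g (‖z.2‖ ^ 2))
  have h6 := integral_prod_mul (μ := (volume : Measure (Eu (Fintype.card ι' * 2))))
    (ν := (volume : Measure (Eu (Fintype.card ι * 2))))
    (fun b => g' (‖b‖ ^ 2)) (fun a => g (‖a‖ ^ 2))
  rw [← h6]
  exact h5

end fub

section full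
variable {n ι ι' κ : Type*} [Fintype n] [DecidableEq n] [Fintype ι] [DecidableEq ι]
  [Fintype ι'] [DecidableEq ι'] [Fintype κ] [DecidableEq κ]
  {f : Matrix n (ι × Fin 2) ℝ} {f' : Matrix n (ι' × Fin 2) ℝ} {F₀ : Matrix n (κ × Fin 2) ℝ}

/-- the determinant of two complementary frames with respect to a full frame -/
theorem abs_top_Xi (hff : f * fᵀ + f' * f'ᵀ = 1) (hF : F₀ᵀ * F₀ = 1)
    (hN : Fintype.card ι' * 2 + Fintype.card ι * 2 = Fintype.card κ * 2) :
    |top (Fintype.card κ * 2) (pb ((fA F₀ : Eu (Fintype.card κ * 2) →L[ℝ] EuclideanSpace ℝ n) :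
      Eu (Fintype.card κ * 2) →ₗ[ℝ] EuclideanSpace ℝ n) (Xi f' * Xi f))| = 1 := by
  rw [top_pb, Xi, Xi, ExteriorAlgebra.ιMulti_mul_ιMulti, ← evA_cast hN, evA_iMulti]
  set A : Matrix (Fin (Fintype.card ι' * 2 + Fintype.card ι * 2)) n ℝ :=
    Matrix.of fun i a => F₀ a ((kFin κ).symm (Fin.cast hN i)) with hA
  set B : Matrix n (Fin (Fintype.card ι' * 2 + Fintype.card ι * 2)) ℝ :=
    Matrix.of fun a j => Fin.append (fun k => f' a ((kFin ι').symm k))
      (fun k => f a ((kFin ι).symm k)) j with hB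
  have h1 : (Matrix.of fun i j => (Fin.append (fun k => eta f' ((kFin ι').symm k))
      (fun k => eta f ((kFin ι).symm k)) j) (((fun i =>
      ((fA F₀ : Eu (Fintype.card κ * 2) →L[ℝ] EuclideanSpace ℝ n) :
      Eu (Fintype.card κ * 2) →ₗ[ℝ] EuclideanSpace ℝ n) (sb (Fintype.card κ * 2) i)) ∘
      Fin.cast hN) i)) = A * B := by
    ext i j
    rw [Matrix.of_apply, Matrix.mul_apply]
    have e1 : ∀ a, (fA F₀ (sb (Fintype.card κ * 2) (Fin.cast hN i))) a =
        F₀ a ((kFin κ).symm (Fin.cast hN i)) := by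
      intro a
      rw [fA_apply]
      simp [sb]
    refine Fin.addCases (fun j => ?_) (fun j => ?_) j
    · rw [Fin.append_left]
      show eta f' ((kFin ι').symm j) (fA F₀ (sb (Fintype.card κ * 2) (Fin.cast hN i))) = _
      rw [eta_apply]
      refine Finset.sum_congr rfl fun a _ => ?_
      rw [e1, hA, hB, Matrix.of_apply, Matrix.of_apply, Fin.append_left, mul_comm]
    · rw [Fin.append_right]
      show eta f ((kFin ι).symm j) (fA F₀ (sb (Fintype.card κ * 2) (Fin.cast hN i))) = _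
      rw [eta_apply]
      refine Finset.sum_congr rfl fun a _ => ?_
      rw [e1, hA, hB, Matrix.of_apply, Matrix.of_apply, Fin.append_right, mul_comm]
  rw [h1]
  have h2 : B * Bᵀ = 1 := by
    rw [← hff]
    ext a b
    rw [Matrix.mul_apply, Fin.sum_univ_add, Matrix.add_apply, add_comm]
    congr 1
    · rw [Matrix.mul_apply]
      simp only [hB, transpose_apply, Matrix.of_apply, Fin.append_right]
      exact (kFin ι).symm.sum_comp (fun k => f a k * f b k)
    · rw [Matrix.mul_apply]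
      simp only [hB, transpose_apply, Matrix.of_apply, Fin.append_left]
      exact (kFin ι').symm.sum_comp (fun k => f' a k * f' b k)
  have h3 : A * Aᵀ = 1 := by
    ext i j
    rw [Matrix.mul_apply, Matrix.one_apply]
    have h4 := congrFun (congrFun hF ((kFin κ).symm (Fin.cast hN i)))
      ((kFin κ).symm (Fin.cast hN j))
    rw [Matrix.mul_apply, Matrix.one_apply] at h4
    simp only [EmbeddingLike.apply_eq_iff_eq] at h4
    have h5 : (Fin.cast hN i = Fin.cast hN j) ↔ i = j := (Fin.cast_injective hN).eq_iff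
    rw [if_congr h5 rfl rfl] at h4
    rw [← h4]
    refine Finset.sum_congr rfl fun a _ => ?_
    rw [hA, transpose_apply, Matrix.of_apply, transpose_apply, Matrix.of_apply]
  have h4 : (A * B) * (A * B)ᵀ = 1 := by
    rw [transpose_mul, Matrix.mul_assoc, ← Matrix.mul_assoc B, h2, Matrix.one_mul, h3]
  have h5 := congrArg Matrix.det h4
  rw [det_mul, det_transpose, det_one] at h5
  have h6 : |(A * B).det| * |(A * B).det| = 1 := by rw [← abs_mul, h5, abs_one]
  nlinarith [abs_nonneg (A * B).det]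

variable {E₁ : Type*} [NormedAddCommGroup E₁] [NormedSpace ℝ E₁] [FiniteDimensional ℝ E₁]
  {Y : Set E₁} {P : E₁ → EuclideanSpace ℝ n →L[ℝ] EuclideanSpace ℝ n}
  {W : E₁ → (ι × Fin 2 → n) → ℝ} {W' : E₁ → (ι' × Fin 2 → n) → ℝ} {R R₀ : ℝ}

/-- the fibre integral of the product of two complementary Thom forms over a full frame -/
theorem integral_full [Nonempty ι] [Nonempty ι'] (h : OR Y P W)
    (h' : OR Y (fun y => 1 - P y) W') {y : E₁} (hy : y ∈ Y) (hF : F₀ᵀ * F₀ = 1)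
    (hκ : Fintype.card κ * 2 = Fintype.card n) (hR : 2 * 2 < |R|) :
    |∫ a in Metric.ball (0 : Eu (Fintype.card κ * 2)) 1,
      top (Fintype.card κ * 2) (F.pull (iE y R F₀)
        (thE P (thomF (fun y => 1 - P y) W') (thomF P W)) a)| = |kGG ι' * kGG ι| := by
  obtain ⟨f, hf, hPf, hWf⟩ := h.fr y hy
  obtain ⟨f', hf', hPf', hWf'⟩ := h'.fr y hy
  have hff : f * fᵀ + f' * f'ᵀ = 1 := by
    ext i j
    have e1 := hPf (EuclideanSpace.single j 1) i
    have e2 := hPf' (EuclideanSpace.single j 1) i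
    have e3 : (1 - P y) (EuclideanSpace.single j (1 : ℝ)) i
        = (EuclideanSpace.single j (1 : ℝ) : EuclideanSpace ℝ n) i
          - P y (EuclideanSpace.single j 1) i := rfl
    rw [e3, e1] at e2
    simp only [PiLp.single_apply, mul_ite, mul_one, mul_zero, Finset.sum_ite_eq',
      Finset.mem_univ, if_true] at e2
    rw [Matrix.add_apply, Matrix.one_apply, ← e2]
    ring
  have hN := finrank_frames hf hf' hff
  have hN' : Fintype.card ι' * 2 + Fintype.card ι * 2 = Fintype.card κ * 2 := by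
    rw [hN, hκ, finrank_euclideanSpace]
  set G : EuclideanSpace ℝ n → ℝ := fun k =>
    GG ι' (‖k - P y k‖ ^ 2) * GG ι (‖P y k‖ ^ 2) with hG
  set δ := top (Fintype.card κ * 2) (pb ((fA F₀ : Eu (Fintype.card κ * 2) →L[ℝ]
    EuclideanSpace ℝ n) : Eu (Fintype.card κ * 2) →ₗ[ℝ] EuclideanSpace ℝ n) (Xi f' * Xi f))
    with hδ
  have hδ1 : |δ| = 1 := abs_top_Xi hff hF hN'
  have h1 : ∀ a : Eu (Fintype.card κ * 2), top (Fintype.card κ * 2) (F.pull (iE y R F₀)
        (thE P (thomF (fun y => 1 - P y) W') (thomF P W)) a)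
      = R ^ (Fintype.card κ * 2) * (fun b => G (fA F₀ b) * δ) (R • a) := by
    intro a
    rw [top_pull_iE]
    congr 1
    have h2 : pb ((ContinuousLinearMap.inr ℝ E₁ (EuclideanSpace ℝ n) :
          EuclideanSpace ℝ n →L[ℝ] E₁ × EuclideanSpace ℝ n) :
          EuclideanSpace ℝ n →ₗ[ℝ] E₁ × EuclideanSpace ℝ n)
        (thE P (thomF (fun y => 1 - P y) W') (thomF P W) (y, R • fA F₀ a))
        = G (fA F₀ (R • a)) • (Xi f' * Xi f) := by
      rw [thE, Pi.mul_apply, _root_.map_mul, gam_eq_bet, pb_inr_pull h hy hf hPf hWf,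
        pb_inr_pull h' hy hf' hPf' hWf', smul_mul_smul_comm, map_smul (fA F₀) R a]
      rfl
    rw [h2, map_smul (pb _), map_smul (top _), smul_eq_mul]
  simp only [h1]
  have hGz : ∀ b : Eu (Fintype.card κ * 2), 2 < ‖b‖ → (fun b => G (fA F₀ b) * δ) b = 0 := by
    intro b hb
    have h2 : G (fA F₀ b) = 0 := by
      rw [← norm_fA hF] at hb
      generalize fA F₀ b = k at hb
      have h2 : ‖k‖ ≤ ‖k - P y k‖ + ‖P y k‖ := by
        have := norm_add_le (k - P y k) (P y k)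
        rwa [sub_add_cancel] at this
      rcases lt_or_ge ‖P y k‖ 1 with h3 | h3
      · have h4 : 1 ≤ ‖k - P y k‖ := by linarith
        simp only [hG]
        rw [GG_of_ge (by nlinarith), zero_mul]
      · simp only [hG]
        rw [GG_of_ge (s := ‖P y k‖ ^ 2) (by nlinarith), mul_zero]
    show G (fA F₀ b) * δ = 0
    rw [h2, zero_mul]
  rw [integral_ball_scaled hR (by norm_num) hGz, integral_mul_const, abs_mul, hδ1, mul_one]
  congr 1
  -- transport to `H`
  let L : Eu (Fintype.card κ * 2) →ₗᵢ[ℝ] EuclideanSpace ℝ n :=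
    ⟨((fA F₀ : Eu (Fintype.card κ * 2) →L[ℝ] EuclideanSpace ℝ n) :
      Eu (Fintype.card κ * 2) →ₗ[ℝ] EuclideanSpace ℝ n), fun a => norm_fA hF a⟩
  have hd : finrank ℝ (Eu (Fintype.card κ * 2)) = finrank ℝ (EuclideanSpace ℝ n) := by
    rw [finrank_euclideanSpace, finrank_euclideanSpace, Fintype.card_fin, hκ]
  let Ψ := LinearIsometryEquiv.ofSurjective L
    ((LinearMap.injective_iff_surjective_of_finrank_eq_finrank hd).1 L.injective)
  have h2 := Ψ.measurePreserving.integral_comp Ψ.toHomeomorph.measurableEmbedding G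
  have h3 : ∫ b : Eu (Fintype.card κ * 2), G (fA F₀ b) = ∫ k, G k := h2
  rw [h3]
  exact integral_split hf hf' hPf hPf' hN (fun s => GG ι' s) (fun s => GG ι s)

/-- the fibre integral of a Thom form over its own frame -/
theorem integral_thom [Nonempty ι] (h : OR Y P W) {y : E₁} (hy : y ∈ Y)
    (hf : fᵀ * f = 1) (hPf : ∀ v i, P y v i = ∑ j, (f * fᵀ) i j * v j)
    (hWf : ∀ I, W y I = (f.submatrix I id).det) (hR : 2 * 1 < |R|) :
    ∫ a in Metric.ball (0 : Eu (Fintype.card ι * 2)) 1,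
      top (Fintype.card ι * 2) (F.pull (iE y R f) (thomF P W) a) = kGG ι := by
  have h1 : ∀ a : Eu (Fintype.card ι * 2), top (Fintype.card ι * 2) (F.pull (iE y R f)
        (thomF P W) a)
      = R ^ (Fintype.card ι * 2) * (fun b => GG ι (‖b‖ ^ 2)) (R • a) := by
    intro a
    rw [top_pull_iE]
    congr 1
    have h2 : P y (R • fA f a) = R • fA f a := by rw [map_smul, P_fA hf hPf]
    have h3 := pb_thomF (W := W) (h.sP y hy) hf hPf hWf (R • fA f a)
    rw [h2] at h3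
    have h4 := congrArg (pb ((fA f : Eu (Fintype.card ι * 2) →L[ℝ] EuclideanSpace ℝ n) :
      Eu (Fintype.card ι * 2) →ₗ[ℝ] EuclideanSpace ℝ n)) h3
    rw [pb_comp, map_smul] at h4
    have h5 : (((ContinuousLinearMap.inr ℝ E₁ (EuclideanSpace ℝ n)).comp (P y) :
        EuclideanSpace ℝ n →L[ℝ] E₁ × EuclideanSpace ℝ n) :
        EuclideanSpace ℝ n →ₗ[ℝ] E₁ × EuclideanSpace ℝ n) ∘ₗ
      ((fA f : Eu (Fintype.card ι * 2) →L[ℝ] EuclideanSpace ℝ n) :
      Eu (Fintype.card ι * 2) →ₗ[ℝ] EuclideanSpace ℝ n)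
      = ((ContinuousLinearMap.inr ℝ E₁ (EuclideanSpace ℝ n) :
          EuclideanSpace ℝ n →L[ℝ] E₁ × EuclideanSpace ℝ n) :
          EuclideanSpace ℝ n →ₗ[ℝ] E₁ × EuclideanSpace ℝ n) ∘ₗ
      ((fA f : Eu (Fintype.card ι * 2) →L[ℝ] EuclideanSpace ℝ n) :
      Eu (Fintype.card ι * 2) →ₗ[ℝ] EuclideanSpace ℝ n) := by
      refine LinearMap.ext fun u => ?_
      show ((0 : E₁), P y (fA f u)) = (0, fA f u)
      rw [P_fA hf hPf]
    rw [h5, ← pb_comp] at h4
    rw [h4, map_smul, smul_eq_mul]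
    have h6 := top_Xi hf 1
    rw [one_smul, one_pow] at h6
    rw [h6, mul_one]
    show GG ι (‖R • fA f a‖ ^ 2) = GG ι (‖R • a‖ ^ 2)
    rw [norm_smul, norm_smul, norm_fA hf]
  rw [setIntegral_congr_fun Metric.isOpen_ball.measurableSet (fun a _ => h1 a)]
  refine (integral_ball_scaled (G := fun b : Eu (Fintype.card ι * 2) => GG ι (‖b‖ ^ 2)) hR
    (by norm_num) (fun a ha => ?_)).trans ?_
  · show GG ι (‖a‖ ^ 2) = 0
    rw [GG_of_ge]
    nlinarith
  · rfl

end full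

end Crest.Agent.R208.IM
end
end

-- ▼ part R208/IM4
section

/-! Row 208, block IM (helper631).  IM4: the Thom form of `P`, times that of `1 - P`, is
compactly supported cohomologous to its value over one point. -/

set_option autoImplicit false
set_option linter.unusedSectionVars false

open MeasureTheory Set Filter Topology Module
open scoped ContDiff
open Crest.Agent.R208.F Crest.Agent.R208.FI Crest.Agent.R208.CW Crest.Agent.R208.T

noncomputable section

namespace Crest.Agent.R208.IM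

universe u w

variable {E : Type u} {H : Type w} [NormedAddCommGroup E] [NormedSpace ℝ E] [FiniteDimensional ℝ E]
  [NormedAddCommGroup H] [InnerProductSpace ℝ H] [FiniteDimensional ℝ H]
  {Y : Set E} {P : E → H →L[ℝ] H} {r d : ℕ} {R c₀ : ℝ} {e : E → Ext E}
  {τ τ' : E × H → Ext (E × H)}

/-- `(y, h) ↦ (y, -h)` -/
def nu (z : E × H) : E × H := (z.1, -z.2)

/-- `(y, h) ↦ (y₀, h)` -/
def cpt (y₀ : E) (z : E × H) : E × H := (y₀, z.2)

/-- the trivial field -/
def P1 (E : Type u) (H : Type w) [NormedAddCommGroup E] [NormedSpace ℝ E]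
    [NormedAddCommGroup H] [InnerProductSpace ℝ H] : E → H →L[ℝ] H := fun _ => 1

theorem pfield_P1 (Y : Set E) : PField Y (finrank ℝ H) (P1 E H) :=
  ⟨fun _ _ => contDiffAt_const, fun _ _ _ => rfl, fun x _ => by
    have : ((P1 E H x : H →L[ℝ] H) : H →ₗ[ℝ] H) = LinearMap.id := rfl
    rw [this, LinearMap.range_id, finrank_top]⟩

theorem tot_P1 (Y : Set E) : Tot Y (P1 E H) = Y ×ˢ (univ : Set H) := by
  ext z
  exact ⟨fun h => ⟨h.1, trivial⟩, fun h => ⟨h.1, rfl⟩⟩

theorem smap_nu (Y : Set E) : SMap (Y ×ˢ (univ : Set H)) (Y ×ˢ (univ : Set H)) nu :=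
  ⟨fun z _ => by unfold nu; fun_prop, fun z hz => ⟨hz.1, trivial⟩⟩

theorem smap_cpt {Z : Set (E × H)} {y₀ : E} (h : y₀ ∈ Y) : SMap Z (Y ×ˢ (univ : Set H)) (cpt y₀) :=
  ⟨fun z _ => by unfold cpt; fun_prop, fun z _ => ⟨h, trivial⟩⟩

/-- cut off function on the zero bundle -/
def tz (z : E × H) : Ext (E × H) := algebraMap ℝ (Ext (E × H)) (chi 1 z.2)

theorem csf_tz (hR : 2 ≤ R) : CSF Y (fun x => 1 - P1 E H x) R (tz (E := E) (H := H)) where
  smooth z _ := by
    have h1 : ContDiff ℝ ∞ fun z : E × H => chi (H := H) 1 z.2 :=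
      (contDiff_chi (H := H) 1).comp contDiff_snd
    have h2 : ContDiff ℝ ∞ fun z : E × H => chi (H := H) 1 z.2 • (1 : Ext (E × H)) :=
      ContDiff.smul (g := fun _ : E × H => (1 : Ext (E × H))) h1 contDiff_const
    have h3 : (tz : E × H → Ext (E × H)) = fun z => chi (H := H) 1 z.2 • (1 : Ext (E × H)) := by
      funext z
      exact Algebra.algebraMap_eq_smul_one _
    rw [h3]
    exact h2.contDiffAt
  supp z hz := by
    unfold tz
    rw [chi_zero zero_le_one (by linarith), map_zero]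
  closed := by
    rintro ⟨y, h⟩ hz
    have h0 : (0 : H) = h := by
      have : (1 - P1 E H y) h = h := hz.2
      have h1 : (1 - P1 E H y) h = 0 := sub_self _
      rw [← this, h1]
    subst h0
    have h1 : tz =ᶠ[𝓝 ((y, 0) : E × H)] fun _ => algebraMap ℝ (Ext (E × H)) 1 := by
      have ho : IsOpen {z : E × H | ‖z.2‖ < 1} := isOpen_lt (by fun_prop) continuous_const
      filter_upwards [ho.mem_nhds (show ‖(0 : H)‖ < 1 by simp)] with z hz
      unfold tz
      rw [chi_one zero_le_one (le_of_lt hz)]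
    rw [F.d_congr h1, F.d_const, map_zero]

theorem thE_P1 (a : E × H → Ext (E × H)) : thE (P1 E H) tz a = a := by
  funext z
  have h1 : F.pull (gam (P1 E H)) tz z = 1 := by
    rw [F.pull]
    have : tz (gam (P1 E H) z) = (1 : Ext (E × H)) := by
      show algebraMap ℝ (Ext (E × H)) (chi 1 (z.2 - z.2)) = 1
      rw [sub_self, chi_one zero_le_one (by simp), map_one]
    rw [this, map_one]
  have h2 : F.pull (bet (P1 E H)) a z = a z := F.pull_id a z
  rw [thE, Pi.mul_apply, h1, h2, one_mul]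

theorem thE'_P1 (a : E × H → Ext (E × H)) : thE' (P1 E H) tz (F.pull nu a) = a := by
  funext z
  have h1 : F.pull (gam (P1 E H)) tz z = 1 := by
    rw [F.pull]
    have : tz (gam (P1 E H) z) = (1 : Ext (E × H)) := by
      show algebraMap ℝ (Ext (E × H)) (chi 1 (z.2 - z.2)) = 1
      rw [sub_self, chi_one zero_le_one (by simp), map_one]
    rw [this, map_one]
  have h2 : F.pull (nbet (P1 E H)) (F.pull nu a) z = a z := by
    have e1 : nbet (P1 E H) = nu := rfl
    rw [e1, F.pull_comp (by unfold nu; fun_prop) (by unfold nu; fun_prop)]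
    have e2 : (nu : E × H → E × H) ∘ nu = fun z => z := by
      funext z
      show (z.1, - -z.2) = z
      rw [neg_neg]
    rw [e2, F.pull_id]
  rw [thE', Pi.mul_apply, h1, h2, one_mul]

variable [MeasurableSpace H] [BorelSpace H] (μ : Measure H) [μ.IsAddHaarMeasure]

theorem exists_L (hY : Sub d Y) (hP : PField Y r P) (hr : r ≤ finrank ℝ H)
    (hT : ThomPair μ Y P r R c₀ e τ τ')
    (hR : 1 ≤ R) (hev : ∀ z, F.inv (τ' z) = τ' z) {y₀ : E} (hy₀ : y₀ ∈ Y) :
    ∃ L : E × H → Ext (E × H), Sm (Y ×ˢ (univ : Set H)) L ∧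
      (∀ z, 2 * (2 * R) + 1 < ‖z.2‖ → L z = 0) ∧
      Eqv (Y ×ˢ (univ : Set H))
        (c₀ • (F.pull nu (thE P τ' τ) - F.pull (cpt y₀) (thE P τ' τ))) (F.d L) := by
  set Ξ := thE P τ' τ with hΞ
  have v1 : Vt (2 * R) Ξ := vt_eta hT.csf'.supp hT.csf.supp
  have s1 : Sm (Y ×ˢ (univ : Set H)) Ξ := sm_eta hP hT.csf'.smooth hT.csf.smooth
  have c1 : Cl (Y ×ˢ (univ : Set H)) Ξ := cl_eta hP hT.csf'.smooth hT.csf.smooth hT.csf'.closed
    hT.csf.closed
  have hc := smap_cpt (Y := Y) (Z := Y ×ˢ (univ : Set H)) hy₀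
  set τ₀ := F.pull (cpt y₀) Ξ with hτ₀
  have sτ : Sm (Y ×ˢ (univ : Set H)) τ₀ := s1.pull hc
  have cτ : Cl (Y ×ˢ (univ : Set H)) τ₀ := c1.pull hc s1
  have vτ : Vt (2 * R) τ₀ := fun z hz => pull_of_zero (v1 (cpt y₀ z) hz)
  have hev1 : ∀ z, F.inv (Ξ z) = Ξ z := by
    intro z
    show F.inv (F.pull (gam P) τ' z * F.pull (bet P) τ z) = F.pull (gam P) τ' z * F.pull (bet P) τ z
    rw [map_mul, F.pull, F.pull, ← pb_inv, ← pb_inv, hev, hT.even]
  have hdeg : ∀ z, IsDeg (finrank ℝ H) (Ξ z) := by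
    intro z
    have h1 : IsDeg ((finrank ℝ H - r) + r) (Ξ z) := isDeg_mul ((hT.deg' _).pb _) ((hT.deg _).pb _)
    rwa [Nat.sub_add_cancel hr] at h1
  have hu : Eqv Y (pI μ Ξ) (fun _ => algebraMap ℝ (Ext E) c₀) := hT.unit
  have hu0 : Eqv Y (pI μ τ₀) (fun _ => algebraMap ℝ (Ext E) c₀) := by
    have h1 : SMap Y Y (fun _ : E => y₀) := ⟨fun _ _ => contDiffAt_const, fun _ _ => hy₀⟩
    have h2 := hu.pull h1
    refine (Eqv.of_eq fun y hy => ?_).trans (h2.trans (Eqv.of_eq fun y hy => ?_))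
    · exact pI_pull μ (f := fun _ : E => y₀) (y := y) (differentiableAt_const _) v1
        (fun h => (s1 (y₀, h) ⟨hy₀, mem_univ _⟩).continuousAt)
    · rw [F.pull, AlgHom.commutes]
  have hT1 : ThomPair μ Y (P1 E H) (finrank ℝ H) (2 * R) c₀ (F.pull (fun x => ((x, 0) : E × H)) τ₀)
      τ₀ tz := by
    refine ⟨⟨?_, vτ, ?_⟩, csf_tz (by linarith), fun z => ?_, fun z => (hdeg _).pb _, fun z => ?_,
      ?_, hT.ne, Eqv.refl _⟩
    · rw [tot_P1]; exact sτ
    · rw [tot_P1]; exact cτ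
    · show F.inv (pb _ (Ξ _)) = pb _ (Ξ _)
      rw [← pb_inv, hev1]
    · rw [Nat.sub_self]
      exact isDeg_algebraMap _
    · have h1 : F.pull (gam (P1 E H)) tz * F.pull (bet (P1 E H)) τ₀ = τ₀ := thE_P1 τ₀
      rw [h1]
      exact hu0
  have hω : CSF Y (P1 E H) (2 * R) (F.pull nu Ξ) := by
    refine ⟨?_, fun z hz => pull_of_zero (v1 (nu z) (by
      show 2 * R < ‖-z.2‖
      rwa [norm_neg])), ?_⟩
    · rw [tot_P1]; exact s1.pull (smap_nu Y)
    · rw [tot_P1]; exact c1.pull (smap_nu Y) s1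
  obtain ⟨-, -, L, hL1, hL2, hL3⟩ := thom μ hY (pfield_P1 Y) hT1 (by linarith) hω
  rw [thE'_P1, tot_P1] at hL3
  rw [tot_P1] at hL1
  refine ⟨L, hL1, hL2, ?_⟩
  have h1 : SMap (Y ×ˢ (univ : Set H)) Y (Prod.fst : E × H → E) :=
    ⟨fun z _ => contDiffAt_fst, fun z hz => hz.1⟩
  have h2 : Eqv (Y ×ˢ (univ : Set H)) (F.pull Prod.fst (pI μ Ξ) * τ₀) (c₀ • τ₀) := by
    refine ((hu.pull h1).mul (Eqv.refl τ₀)).trans (Eqv.of_eq fun z _ => ?_)
    simp only [Pi.mul_apply, F.pull, AlgHom.commutes, Pi.smul_apply, Algebra.smul_def]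
  have h3 := ((Eqv.refl (c₀ • F.pull nu Ξ)).sub h2).symm.trans hL3
  rw [smul_sub]
  exact h3

end Crest.Agent.R208.IM
end
end

-- ▼ part R208/IM5
section

/-! Row 208, block IM (helper631).  IM5: thinness on the sphere bundle, Stokes. -/

set_option autoImplicit false
set_option linter.unusedSectionVars false

open MeasureTheory Set Filter Topology Module Matrix
open scoped ContDiff RealInnerProductSpace
open Crest.Agent.R208.F Crest.Agent.R208.FI Crest.Agent.R208.CW Crest.Agent.R208.T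
open Crest.Agent.R208.SN Crest.Agent.R208.CH

noncomputable section

namespace Crest.Agent.R208.IM

section thin
variable {E E₁ E₂ H F' : Type*} [NormedAddCommGroup E] [NormedSpace ℝ E] [FiniteDimensional ℝ E]
  [NormedAddCommGroup E₁] [NormedSpace ℝ E₁] [FiniteDimensional ℝ E₁]
  [NormedAddCommGroup E₂] [NormedSpace ℝ E₂] [FiniteDimensional ℝ E₂]
  [NormedAddCommGroup H] [InnerProductSpace ℝ H] [FiniteDimensional ℝ H]
  [NormedAddCommGroup F'] [NormedSpace ℝ F'] [FiniteDimensional ℝ F']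
  {X : Set E} {P : E₁ → H →L[ℝ] H} {f : E → E₁} {g : E → E₂} {χ : E → ℝ} {d r : ℕ}

theorem tan_ker (hX : Sub d X) (hQ : PField X r (fun x => 1 - P (f x))) {x : E} {v : H} {t : ℝ}
    (hz : ((x, v), t) ∈ SB X (fun x => 1 - P (f x))) (hPd : DifferentiableAt ℝ P (f x))
    (hfd : DifferentiableAt ℝ f x) {w : E} (hw : w ∈ Tan X x) (h0 : fderiv ℝ f x w = 0) :
    ((w, (0 : H)), (0 : ℝ)) ∈ Tan (SB X (fun x => 1 - P (f x))) ((x, v), t) := by
  refine (mem_Tan_SB hX hQ hz).2 ⟨⟨hw, ?_⟩, by simp⟩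
  have h1 : HasFDerivAt (fun x => 1 - P (f x)) (-((fderiv ℝ P (f x)).comp (fderiv ℝ f x))) x :=
    (hPd.hasFDerivAt.comp x hfd.hasFDerivAt).const_sub 1
  rw [h1.fderiv]
  have h2 : (-((fderiv ℝ P (f x)).comp (fderiv ℝ f x))) w = 0 := by
    show -(fderiv ℝ P (f x) (fderiv ℝ f x w)) = 0
    rw [h0, map_zero, neg_zero]
  rw [h2, map_zero, sub_zero]
  rfl


theorem hasFDerivAt_pB (z : (E × H) × ℝ) : HasFDerivAt (pB : (E × H) × ℝ → E)
    ((ContinuousLinearMap.fst ℝ E H).comp (ContinuousLinearMap.fst ℝ (E × H) ℝ)) z :=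
  ((ContinuousLinearMap.fst ℝ E H).comp (ContinuousLinearMap.fst ℝ (E × H) ℝ)).hasFDerivAt

theorem fderiv_comp_pB {G : Type*} [NormedAddCommGroup G] [NormedSpace ℝ G] {k : E → G}
    {z : (E × H) × ℝ} (hk : DifferentiableAt ℝ k z.1.1) (w : (E × H) × ℝ) :
    fderiv ℝ (fun z : (E × H) × ℝ => k z.1.1) z w = fderiv ℝ k z.1.1 w.1.1 := by
  have h1 : HasFDerivAt (fun z : (E × H) × ℝ => k z.1.1) ((fderiv ℝ k z.1.1).comp
      ((ContinuousLinearMap.fst ℝ E H).comp (ContinuousLinearMap.fst ℝ (E × H) ℝ))) z :=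
    HasFDerivAt.comp (g := k) z hk.hasFDerivAt (hasFDerivAt_pB z)
  rw [h1.fderiv]
  rfl

/-- thinness of maps of the sphere bundle -/
theorem thin_SB (hX : Sub d X) (hQ : PField X r (fun x => 1 - P (f x)))
    (hP : ∀ x ∈ X, DifferentiableAt ℝ P (f x)) (hf : ∀ x ∈ X, DifferentiableAt ℝ f x)
    (hg : ∀ x ∈ X, DifferentiableAt ℝ g x) (hT : Thin d X (fun x => (f x, g x)) χ)
    {G : (E × H) × ℝ → F'}
    (hG : ∀ z ∈ SB X (fun x => 1 - P (f x)), ∀ w, fderiv ℝ f z.1.1 w = 0 →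
      fderiv ℝ g z.1.1 w = 0 → fderiv ℝ G z ((w, (0 : H)), (0 : ℝ)) = 0) :
    Thin (r + d) (SB X (fun x => 1 - P (f x))) G (fun z => χ z.1.1) := by
  have key : ∀ x ∈ X, ∀ w, fderiv ℝ (fun x => (f x, g x)) x w = 0 →
      fderiv ℝ f x w = 0 ∧ fderiv ℝ g x w = 0 := by
    intro x hx w hw
    rw [(hf x hx).fderiv_prodMk (hg x hx)] at hw
    exact ⟨congrArg Prod.fst hw, congrArg Prod.snd hw⟩
  have hχd : ∀ x ∈ X, DifferentiableAt ℝ χ x := fun x hx =>
    (hT.smooth x hx).differentiableAt (by simp)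
  refine thin_of_ker (sub_SB hX hQ) (fun z hz => ?_) (fun z hz h0 h1 => ?_) (fun z hz => ?_)
  · exact ContDiffAt.comp (g := χ) z (hT.smooth _ hz.1.1.1) (by fun_prop)
  · obtain ⟨w, hw, hne, hk⟩ := thin_ker1 hX hT hz.1.1.1 h0 h1
    obtain ⟨k1, k2⟩ := key _ hz.1.1.1 w hk
    refine ⟨((w, 0), 0), tan_ker hX hQ hz (hP _ hz.1.1.1) (hf _ hz.1.1.1) hw k1, fun h => ?_,
      hG z hz w k1 k2⟩
    exact hne (congrArg (fun y : (E × H) × ℝ => y.1.1) h)
  · rcases thin_ker2 hX hT hz.1.1.1 with h | ⟨w, hw, hne, hl, hk⟩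
    · left
      intro w hw
      rw [fderiv_comp_pB (hχd _ hz.1.1.1)]
      exact h _ ((mem_Tan_SB hX hQ hz).1 hw).1.1
    · right
      obtain ⟨k1, k2⟩ := key _ hz.1.1.1 w hk
      refine ⟨((w, 0), 0), tan_ker hX hQ hz (hP _ hz.1.1.1) (hf _ hz.1.1.1) hw k1, fun h => ?_,
        ?_, hG z hz w k1 k2⟩
      · exact hne (congrArg (fun y : (E × H) × ℝ => y.1.1) h)
      · rw [fderiv_comp_pB (hχd _ hz.1.1.1)]
        exact hl

end thin

end Crest.Agent.R208.IM
end
end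

-- ▼ part R208/IM6
section

/-! Row 208, block IM (helper631).  IM6: Stokes on the sphere bundle and the exchange of the
Thom form by its value over one point. -/

set_option autoImplicit false
set_option linter.unusedSectionVars false

open MeasureTheory Set Filter Topology Module Matrix
open scoped ContDiff RealInnerProductSpace
open Crest.Agent.R208.F Crest.Agent.R208.FI Crest.Agent.R208.CW Crest.Agent.R208.T
open Crest.Agent.R208.SN Crest.Agent.R208.CH

noncomputable section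

namespace Crest.Agent.R208.IM

section top
variable {E : Type*} [NormedAddCommGroup E] [NormedSpace ℝ E] [FiniteDimensional ℝ E]

/-- a form of top degree is closed -/
theorem cl_top {M : Set E} {m : ℕ} (hM : Sub m M) {μ : E → Ext E} (h : Hom m μ) : Cl M μ := by
  intro x hx
  refine IsDeg.eq_zero (p := m + 1) ((h.d x).pb _) ?_
  rw [hM.finrank_Tan hx]
  exact Nat.lt_succ_self m

end top

section main
variable {E E₁ E₂ H : Type*} [NormedAddCommGroup E] [NormedSpace ℝ E] [FiniteDimensional ℝ E]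
  [NormedAddCommGroup E₁] [NormedSpace ℝ E₁] [FiniteDimensional ℝ E₁]
  [NormedAddCommGroup E₂] [NormedSpace ℝ E₂] [FiniteDimensional ℝ E₂]
  [NormedAddCommGroup H] [InnerProductSpace ℝ H] [FiniteDimensional ℝ H]
  {X : Set E} {Y : Set E₁} {M : Set E₂} {P : E₁ → H →L[ℝ] H} {Q : E → H →L[ℝ] H}
  {f : E → E₁} {g : E → E₂} {χ : E → ℝ}
  {d r m : ℕ} {R R₀ : ℝ} {μ : E₂ → Ext E₂} {oT : (E × H) × ℝ → Ext ((E × H) × ℝ)}
  {L Θ : E₁ × H → Ext (E₁ × H)}

theorem smap_kf (hf : SMap X Y f) (R : ℝ) :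
    SMap (SB X Q) (Y ×ˢ (univ : Set H)) (kf f R) :=
  ⟨fun z hz => ((hf.smooth _ hz.1.1.1).comp (g := f) z (f := fun z : (E × H) × ℝ => z.1.1)
      (by fun_prop)).prodMk (by fun_prop), fun z hz => ⟨hf.maps hz.1.1.1, trivial⟩⟩

theorem smap_pB' : SMap (SB X Q) X (pB : (E × H) × ℝ → E) :=
  ⟨fun z _ => by unfold pB; fun_prop, fun z hz => hz.1.1.1⟩

theorem sm_up' (hf : SMap X Y f) (hR : 2 * R₀ < |R|) (hR₀ : 0 ≤ R₀)
    (hΘ : ∀ z, R₀ < ‖z.2‖ → Θ z = 0) (hs : Sm (Y ×ˢ (univ : Set H)) Θ) :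
    Sm (SB X Q) (up f R Θ) :=
  sm_up hR hR₀ hΘ (hs.pull (smap_kf hf R))

/-- Stokes on the sphere bundle with a thin cut off -/
theorem J_stokes (hX : Clo d X) (hQ : PField X r (fun x => 1 - P (f x)))
    (hP : ∀ y ∈ Y, DifferentiableAt ℝ P y) (hf : SMap X Y f) (hg : SMap X M g) (hM : Sub m M)
    (hT : Thin d X (fun x => (f x, g x)) χ)
    (hoT : Ori (r + d) (SB X (fun x => 1 - P (f x))) oT)
    (hL : Sm (Y ×ˢ (univ : Set H)) L) (hLs : ∀ z, R₀ < ‖z.2‖ → L z = 0) (hR : 2 * R₀ < |R|)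
    (hR₀ : 0 ≤ R₀) (hμ : Sm M μ) (hμm : Hom m μ) :
    J (r + d) (SB X (fun x => 1 - P (f x))) oT
      (fun z => χ z.1.1 • (F.d (E := (E × H) × ℝ) (up f R L) z * F.pull pB (F.pull g μ) z)) = 0 := by
  set T := SB X (fun x => 1 - P (f x)) with hTd
  have hPd : ∀ x ∈ X, DifferentiableAt ℝ P (f x) := fun x hx => hP _ (hf.maps hx)
  have hfd : ∀ x ∈ X, DifferentiableAt ℝ f x := fun x hx => hf.diff hx
  have hgd : ∀ x ∈ X, DifferentiableAt ℝ g x := fun x hx => hg.diff hx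
  have hcT : Clo (r + d) T := clo_SB hX hQ
  set b : (E × H) × ℝ → Ext ((E × H) × ℝ) := F.pull pB (F.pull g μ) with hb
  have sb : Sm T b := (hμ.pull hg).pull smap_pB'
  have cb : Cl T b := ((cl_top hM hμm).pull hg hμ).pull smap_pB' (hμ.pull hg)
  have su : Sm T (up f R L) := sm_up' hf hR hR₀ hLs hL
  have hχ : ∀ z ∈ T, ContDiffAt ℝ ∞ (fun z : (E × H) × ℝ => χ z.1.1) z := fun z hz =>
    ContDiffAt.comp (g := χ) z (hT.smooth _ hz.1.1.1) (by fun_prop)
  -- the derivative of the product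
  have h1 : Eqv T (fun z => F.d (E := (E × H) × ℝ) (up f R L) z * b z)
      (F.d (E := (E × H) × ℝ) fun z => up f R L z * b z) := by
    refine eqv_iff.2 fun z hz => ?_
    have h2 : F.d (E := (E × H) × ℝ) (fun z => up f R L z * b z) z =
        F.d (E := (E × H) × ℝ) (up f R L) z * b z + F.inv (up f R L z) * F.d b z :=
      F.d_mul (su.diff hz) (sb.diff hz)
    have h3 : pb (Tan T z).subtype (F.d b z) = 0 := cb z hz
    rw [h2, map_add, map_mul, map_mul, h3, mul_zero, add_zero]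
  rw [J_eqv' (oX := oT) hcT h1 (fun z => χ z.1.1)]
  have hβ : ∀ z ∈ T, ContDiffAt ℝ ∞ (fun z => up f R L z * b z) z := su.mul sb
  rw [J_cut_d hcT hoT hχ hβ]
  -- thinness
  have hthin : Thin (r + d) T (fun z : (E × H) × ℝ => (kf f R z, g z.1.1)) (fun z => χ z.1.1) := by
    refine thin_SB hX.sub hQ hPd hfd hgd hT fun z hz w h0 h0' => ?_
    have e1 : DifferentiableAt ℝ (fun z : (E × H) × ℝ => f z.1.1) z :=
      DifferentiableAt.comp (g := f) z (hfd _ hz.1.1.1) (by fun_prop)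
    have e2 : DifferentiableAt ℝ (fun z : (E × H) × ℝ => g z.1.1) z :=
      DifferentiableAt.comp (g := g) z (hgd _ hz.1.1.1) (by fun_prop)
    have e3 : HasFDerivAt (fun z : (E × H) × ℝ => R • z.1.2) (R • (ContinuousLinearMap.snd ℝ E H).comp
        (ContinuousLinearMap.fst ℝ (E × H) ℝ)) z :=
      (((ContinuousLinearMap.snd ℝ E H).comp
        (ContinuousLinearMap.fst ℝ (E × H) ℝ)).hasFDerivAt).const_smul R
    have e4 : HasFDerivAt (fun z : (E × H) × ℝ => (kf f R z, g z.1.1)) _ z :=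
      (e1.hasFDerivAt.prodMk e3).prodMk e2.hasFDerivAt
    rw [e4.fderiv]
    have e5 : fderiv ℝ (fun z : (E × H) × ℝ => f z.1.1) z ((w, (0 : H)), (0 : ℝ)) = 0 := by
      rw [fderiv_comp_pB (hfd _ hz.1.1.1)]; exact h0
    have e6 : fderiv ℝ (fun z : (E × H) × ℝ => g z.1.1) z ((w, (0 : H)), (0 : ℝ)) = 0 := by
      rw [fderiv_comp_pB (hgd _ hz.1.1.1)]; exact h0'
    refine Prod.ext (Prod.ext e5 ?_) e6
    show R • (0 : H) = 0
    rw [smul_zero]
  rw [J_eq_zero hcT, neg_zero]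
  intro z hz w hw
  by_cases h0 : 0 < z.2
  · have e0 : DifferentiableAt ℝ (kf f R) z := (smap_kf (Q := fun x => 1 - P (f x)) hf R).diff hz
    have e2 : DifferentiableAt ℝ (fun z : (E × H) × ℝ => g z.1.1) z :=
      DifferentiableAt.comp (g := g) z (hgd _ hz.1.1.1) (by fun_prop)
    have e1 : up f R L z * b z = pb ((fderiv ℝ (fun z : (E × H) × ℝ => (kf f R z, g z.1.1)) z :
        (E × H) × ℝ →L[ℝ] (E₁ × H) × E₂) : (E × H) × ℝ →ₗ[ℝ] (E₁ × H) × E₂)
        (pb (LinearMap.fst ℝ (E₁ × H) E₂) (L (kf f R z)) *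
          pb (LinearMap.snd ℝ (E₁ × H) E₂) (μ (g z.1.1))) := by
      rw [map_mul, pb_comp, pb_comp, e0.fderiv_prodMk e2]
      have e3 : b z = pb ((fderiv ℝ (fun z : (E × H) × ℝ => g z.1.1) z :
          (E × H) × ℝ →L[ℝ] E₂) : (E × H) × ℝ →ₗ[ℝ] E₂) (μ (g z.1.1)) :=
        F.pull_comp (f := (pB : (E × H) × ℝ → E)) (g := g) (om := μ) (x := z)
          (by unfold pB; fun_prop) (hgd _ hz.1.1.1)
      have e4 : up f R L z = pb ((fderiv ℝ (kf f R) z : (E × H) × ℝ →L[ℝ] E₁ × H) :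
          (E × H) × ℝ →ₗ[ℝ] E₁ × H) (L (kf f R z)) := if_pos h0
      rw [e3, e4]
      rfl
    rw [e1]
    exact hthin.bd z hz _ w hw
  · have e1 : up f R L z = 0 := if_neg h0
    rw [e1, zero_mul, mul_zero, map_zero]
    rfl

/-- the Thom form may be replaced by its value over one point -/
theorem J_swap (hX : Clo d X) (hQ : PField X r (fun x => 1 - P (f x)))
    (hP : ∀ y ∈ Y, DifferentiableAt ℝ P y) (hf : SMap X Y f) (hg : SMap X M g) (hM : Sub m M)
    (hT : Thin d X (fun x => (f x, g x)) χ)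
    (hoT : Ori (r + d) (SB X (fun x => 1 - P (f x))) oT)
    (hL : Sm (Y ×ˢ (univ : Set H)) L) (hLs : ∀ z, R₀ < ‖z.2‖ → L z = 0) (hR : 2 * R₀ < |R|)
    (hR₀ : 0 ≤ R₀) (hμ : Sm M μ) (hμm : Hom m μ) {c₀ : ℝ} (hc₀ : c₀ ≠ 0)
    (hΘ : Sm (Y ×ˢ (univ : Set H)) Θ) (hΘs : ∀ z, R₀ < ‖z.2‖ → Θ z = 0) {y₀ : E₁} (hy₀ : y₀ ∈ Y)
    (he : Eqv (Y ×ˢ (univ : Set H)) (c₀ • (F.pull nu Θ - F.pull (cpt y₀) Θ)) (F.d L)) :
    J (r + d) (SB X (fun x => 1 - P (f x))) oT
        (fun z => χ z.1.1 • (up f R Θ z * F.pull pB (F.pull g μ) z)) =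
      J (r + d) (SB X (fun x => 1 - P (f x))) oT
        (fun z => χ z.1.1 • (up (fun _ => y₀) (-R) Θ z * F.pull pB (F.pull g μ) z)) := by
  set T := SB X (fun x => 1 - P (f x)) with hTd
  have hcT : Clo (r + d) T := clo_SB hX hQ
  set b : (E × H) × ℝ → Ext ((E × H) × ℝ) := F.pull pB (F.pull g μ) with hb
  have sb : Sm T b := (hμ.pull hg).pull smap_pB'
  have hR' : 2 * R₀ < |(-R)| := by rwa [abs_neg]
  have hfc : SMap X Y (fun _ : E => y₀) := ⟨fun _ _ => contDiffAt_const, fun _ _ => hy₀⟩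
  have s1 : Sm T (up f R Θ) := sm_up' hf hR hR₀ hΘs hΘ
  have s2 : Sm T (up (fun _ => y₀) (-R) Θ) := sm_up' hfc hR' hR₀ hΘs hΘ
  set A : (E × H) × ℝ → Ext ((E × H) × ℝ) := fun z =>
    c₀ • (up f R Θ z - up (fun _ => y₀) (-R) Θ z) with hA
  have key : Eqv T A (F.d (up f (-R) L)) := by
    have h1 := he.pull (smap_kf (Q := fun x => 1 - P (f x)) hf (-R))
    refine eqv_iff.2 fun z hz => ?_
    rw [d_up hR' hR₀ hLs hz]
    have h2 := eqv_iff.1 h1 z hz
    have hk : DifferentiableAt ℝ (kf f (-R)) z :=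
      (smap_kf (Q := fun x => 1 - P (f x)) hf (-R)).diff hz
    by_cases h0 : 0 < z.2
    · rw [if_pos h0]
      have e1 : F.d (E := (E × H) × ℝ) (F.pull (kf f (-R)) L) z =
          F.pull (kf f (-R)) (F.d L) z :=
        F.d_pull (((smap_kf (Q := fun x => 1 - P (f x)) hf (-R)).smooth z hz).of_le
          two_le_infty) ((hL _ ((smap_kf hf (-R)).maps hz)).differentiableAt
          (by simp))
      rw [e1, ← h2]
      have e2 : F.pull (kf f (-R)) (F.pull nu Θ) z = F.pull (kf f R) Θ z := by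
        rw [F.pull_comp hk (by unfold nu; fun_prop)]
        have : (nu : E₁ × H → E₁ × H) ∘ kf f (-R) = kf f R := by
          funext z
          show (f z.1.1, -(-R • z.1.2)) = (f z.1.1, R • z.1.2)
          rw [neg_smul, neg_neg]
        rw [this]
      have e3 : F.pull (kf f (-R)) (F.pull (cpt y₀) Θ) z = F.pull (kf (fun _ => y₀) (-R)) Θ z := by
        rw [F.pull_comp hk (by unfold cpt; fun_prop)]
        rfl
      have e4 : F.pull (kf f (-R)) (c₀ • (F.pull nu Θ - F.pull (cpt y₀) Θ)) z = A z := by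
        rw [pull_smul', pull_sub']
        show c₀ • (F.pull (kf f (-R)) (F.pull nu Θ) z - F.pull (kf f (-R)) (F.pull (cpt y₀) Θ) z) =
          c₀ • (up f R Θ z - up (fun _ => y₀) (-R) Θ z)
        rw [e2, e3, up, up, if_pos h0, if_pos h0]
      rw [e4]
    · rw [if_neg h0]
      have e4 : A z = 0 := by
        show c₀ • (up f R Θ z - up (fun _ => y₀) (-R) Θ z) = 0
        rw [up, up, if_neg h0, if_neg h0, sub_zero, smul_zero]
      rw [e4]
  have h1 := J_stokes hX hQ hP hf hg hM hT hoT hL hLs hR' hR₀ hμ hμm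
  have h2 : Eqv T (fun z => A z * b z)
      (fun z => F.d (E := (E × H) × ℝ) (up f (-R) L) z * b z) := key.mul (Eqv.refl b)
  rw [← J_eqv' (oX := oT) hcT h2 (fun z => χ z.1.1)] at h1
  have h3 : (fun z : (E × H) × ℝ => χ z.1.1 • (A z * b z))
      = fun z => c₀ • (χ z.1.1 • (up f R Θ z * b z) -
        χ z.1.1 • (up (fun _ => y₀) (-R) Θ z * b z)) := by
    funext z
    show χ z.1.1 • ((c₀ • (up f R Θ z - up (fun _ => y₀) (-R) Θ z)) * b z) = _
    rw [smul_mul_assoc, sub_mul, smul_comm, smul_sub]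
  have hχ : ContinuousOn (fun z : (E × H) × ℝ => χ z.1.1) T := fun z hz =>
    (ContDiffAt.comp (g := χ) z (hT.smooth _ hz.1.1.1)
      (f := fun z : (E × H) × ℝ => z.1.1) (by fun_prop)).continuousAt.continuousWithinAt
  have hc : ∀ {a : (E × H) × ℝ → Ext ((E × H) × ℝ)}, Sm T a →
      ContinuousOn (fun z => χ z.1.1 • (a z * b z)) T := fun ha =>
    hχ.smul (fun z hz => ((ha.mul sb) z hz).continuousAt.continuousWithinAt)
  rw [h3, J_smul, J_sub hcT hoT (hc s1) (hc s2)] at h1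
  exact sub_eq_zero.1 ((mul_eq_zero.1 h1).resolve_left hc₀)

end main

end Crest.Agent.R208.IM
end
end

-- ▼ part R208/IM7
section

/-! Row 208, block IM (helper631).  IM7: evaluation over `SB X (1 - P ∘ f)` and over
`SB M 1`. -/

set_option autoImplicit false
set_option linter.unusedSectionVars false

open MeasureTheory Set Filter Topology Module Matrix
open scoped ContDiff RealInnerProductSpace
open Crest.Agent.R208.F Crest.Agent.R208.FI Crest.Agent.R208.CW Crest.Agent.R208.T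
open Crest.Agent.R208.SN Crest.Agent.R208.CH

noncomputable section

namespace Crest.Agent.R208.IM

section gen
variable {E E₁ E₂ H : Type*} [NormedAddCommGroup E] [NormedSpace ℝ E] [FiniteDimensional ℝ E]
  [NormedAddCommGroup E₁] [NormedSpace ℝ E₁] [FiniteDimensional ℝ E₁]
  [NormedAddCommGroup E₂] [NormedSpace ℝ E₂] [FiniteDimensional ℝ E₂]
  [NormedAddCommGroup H] [InnerProductSpace ℝ H] [FiniteDimensional ℝ H]
  {X : Set E} {Y : Set E₁} {M : Set E₂} {P : E₁ → H →L[ℝ] H}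
  {f : E → E₁} {R : ℝ} {r : ℕ}

theorem P_zero_of {z : (E × H) × ℝ}
    (hz : z ∈ SB X (fun x => 1 - P (f x))) : P (f z.1.1) z.1.2 = 0 := by
  have h1 : (1 - P (f z.1.1)) z.1.2 = z.1.2 := hz.1.1.2
  have h2 : z.1.2 - P (f z.1.1) z.1.2 = z.1.2 := h1
  simpa using h2

theorem smap_kf' (hf : SMap X Y f) (R : ℝ) :
    SMap (SB X (fun x => 1 - P (f x))) (Tot Y (fun y => 1 - P y)) (kf f R) :=
  ⟨(smap_kf hf R).smooth, fun z hz => ⟨hf.maps hz.1.1.1, by
    show (1 - P (f z.1.1)) (R • z.1.2) = R • z.1.2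
    rw [map_smul, hz.1.1.2]⟩⟩

theorem contDiffAt_fpB {z : (E × H) × ℝ} (hf : ContDiffAt ℝ ∞ f z.1.1) :
    ContDiffAt ℝ ∞ (fun z : (E × H) × ℝ => f z.1.1) z := by
  have h1 : ContDiffAt ℝ ∞ (pB : (E × H) × ℝ → E) z := by unfold pB; fun_prop
  exact ContDiffAt.comp (g := f) (f := (pB : (E × H) × ℝ → E)) z hf h1

theorem smap_k3 (hf : SMap X Y f) :
    SMap X (Tot Y P) (fun x : E => ((f x, 0) : E₁ × H)) :=
  ⟨fun x hx => (hf.smooth x hx).prodMk contDiffAt_const, fun _ hx => ⟨hf.maps hx, map_zero _⟩⟩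

theorem smap_k2 (hf : SMap X Y f) :
    SMap (SB X (fun x => 1 - P (f x))) (Tot Y P) (fun z : (E × H) × ℝ =>
      ((f z.1.1, 0) : E₁ × H)) :=
  ⟨fun z hz => (contDiffAt_fpB (hf.smooth _ hz.1.1.1)).prodMk contDiffAt_const,
    fun z hz => ⟨hf.maps hz.1.1.1, map_zero _⟩⟩

/-- the product of the Thom forms on the sphere bundle -/
theorem eqv_up_thE (hP : PField Y r P) (hf : SMap X Y f)
    (τ' τ Θ : E₁ × H → Ext (E₁ × H)) (hΘ : Θ = thE P τ' τ) :
    Eqv (E := (E × H) × ℝ) (SB X (fun x => 1 - P (f x))) (up f R Θ)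
      (fun z => up f R τ' z * F.pull pB (F.pull (fun x => ((f x, 0) : E₁ × H)) τ) z) := by
  set T := SB X (fun x => 1 - P (f x)) with hT
  have k2 := smap_k2 (P := P) hf
  have e1 : Eqv T (F.pull (kf f R) (F.pull (gam P) τ')) (F.pull (kf f R) τ') :=
    eqv_pull_pull (smap_kf hf R) (smap_gam hP) (smap_kf' hf R) (fun z hz => by
      show (f z.1.1, R • z.1.2 - P (f z.1.1) (R • z.1.2)) = (f z.1.1, R • z.1.2)
      rw [map_smul, P_zero_of hz, smul_zero, sub_zero]) τ'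
  have e2 : Eqv T (F.pull (kf f R) (F.pull (bet P) τ)) (F.pull _ τ) :=
    eqv_pull_pull (smap_kf hf R) (smap_bet hP) k2 (fun z hz => by
      show (f z.1.1, P (f z.1.1) (R • z.1.2)) = (f z.1.1, 0)
      rw [map_smul, P_zero_of hz, smul_zero]) τ
  have k3 := smap_k3 (P := P) hf
  have e3 := eqv_pull_pull (smap_pB' (Q := fun x => 1 - P (f x))) k3 k2 (fun _ _ => rfl) τ
  have e4 := e1.mul (e2.trans e3.symm)
  refine eqv_iff.2 fun z hz => ?_
  have e5 := eqv_iff.1 e4 z hz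
  by_cases h0 : 0 < z.2
  · have e6 : up f R Θ z = (F.pull (kf f R) (F.pull (gam P) τ') *
        F.pull (kf f R) (F.pull (bet P) τ)) z := by
      rw [up, if_pos h0, hΘ, thE, pull_mul']
    have e7 : up f R τ' z = F.pull (kf f R) τ' z := if_pos h0
    rw [e6, e5, e7]
    rfl
  · have e6 : up f R Θ z = 0 := if_neg h0
    have e7 : up f R τ' z = 0 := if_neg h0
    rw [e6, e7, zero_mul]

end gen

section tside
variable {n ι ι' : Type*} [Fintype n] [DecidableEq n] [Fintype ι] [DecidableEq ι]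
  [Fintype ι'] [DecidableEq ι']
  {E E₁ E₂ : Type*} [NormedAddCommGroup E] [NormedSpace ℝ E] [FiniteDimensional ℝ E]
  [NormedAddCommGroup E₁] [NormedSpace ℝ E₁] [FiniteDimensional ℝ E₁]
  [NormedAddCommGroup E₂] [NormedSpace ℝ E₂] [FiniteDimensional ℝ E₂]
  {X : Set E} {Y : Set E₁} {M : Set E₂} {P : E₁ → EuclideanSpace ℝ n →L[ℝ] EuclideanSpace ℝ n}
  {W : E₁ → (ι × Fin 2 → n) → ℝ} {W' : E₁ → (ι' × Fin 2 → n) → ℝ}
  {f : E → E₁} {g : E → E₂} {χ : E → ℝ}
  {d dY m : ℕ} {R : ℝ} {μ : E₂ → Ext E₂} {oX : E → Ext E}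

theorem pfield_compl_f (h' : OR Y (fun y => 1 - P y) W') (hf : SMap X Y f) :
    PField X (Fintype.card ι' * 2) (fun x => 1 - P (f x)) := by
  have := (OR_comp h' hf).pfield
  rwa [mul_comm] at this

/-- the fibre integral -/
theorem J_fib_thom [Nonempty ι'] (hX : Clo d X) (hoX : Ori d X oX)
    (hoX0 : ∀ x ∈ X, ∀ q < d, evA E q (oX x) = 0) (hY : Sub dY Y)
    (h' : OR Y (fun y => 1 - P y) W') (hf : SMap X Y f) (hR : 2 * 3 < |R|)
    {τ' : E₁ × EuclideanSpace ℝ n → Ext (E₁ × EuclideanSpace ℝ n)}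
    (hτ' : τ' = thomF (fun y => 1 - P y) W') {x : E} (hx : x ∈ X) :
    J (E := (E × EuclideanSpace ℝ n) × ℝ) (Fintype.card ι' * 2)
      (SB X (fun x => 1 - P (f x)) ∩ pB ⁻¹' {x})
      (oVf (fun x => W' (f x))) (up f R τ') = kGG ι' := by
  obtain ⟨F', hF, hPF, hWF⟩ := h'.fr _ (hf.maps hx)
  have hcs' := csf_thomF hY h'
  rw [← hτ'] at hcs'
  have hsupp := hcs'.supp
  have hor : OR X (fun x => 1 - P (f x)) (fun x => W' (f x)) := OR_comp h' hf
  have e1 := J_fib_up (Q := fun x => 1 - P (f x)) (W := fun x => W' (f x)) (φ := f) (R := R)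
    (R₀ := 3) (Θ := τ') hX hoX hoX0 hor hf.smooth hR (by norm_num) hsupp hx hF hPF hWF
  refine e1.trans ?_
  rw [hτ']
  exact integral_thom h' (hf.maps hx) hF hPF hWF (by linarith)

/-- the form on `X` -/
theorem eqv_om0 (h : OR Y P W) (hf : SMap X Y f)
    {τ : E₁ × EuclideanSpace ℝ n → Ext (E₁ × EuclideanSpace ℝ n)} (hτ : τ = thomF P W) :
    Eqv X (F.pull (fun x => ((f x, 0) : E₁ × EuclideanSpace ℝ n)) τ)
      ((2 : ℝ) • F.pull f (eR P W)) := by
  have k3 := smap_k3 (P := P) hf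
  have e1 : Eqv X (F.pull f (F.pull (zs (E := E₁) (H := EuclideanSpace ℝ n)) τ))
      (F.pull (fun x => ((f x, 0) : E₁ × EuclideanSpace ℝ n)) τ) :=
    eqv_pull_pull hf (smap_zs (P := P)) k3 (fun _ _ => rfl) _
  have e2 : Eqv Y (F.pull (zs (E := E₁) (H := EuclideanSpace ℝ n)) τ)
      ((2 : ℝ) • eR P W) := by
    rw [hτ]; exact thomF_zero h
  have e3 := e2.pull hf
  rw [pull_smul'] at e3
  exact e1.symm.trans e3

set_option maxHeartbeats 1600000 in
/-- **evaluation over `X`** -/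
theorem J_T [Nonempty ι] [Nonempty ι'] (hX : Clo d X) (hoX : Ori d X oX)
    (hoX0 : ∀ x ∈ X, ∀ q < d, evA E q (oX x) = 0) (hY : Sub dY Y)
    (h : OR Y P W) (h' : OR Y (fun y => 1 - P y) W')
    (hf : SMap X Y f) (hg : SMap X M g)
    (hμ : Sm M μ) (hμm : Hom m μ) (hχ : ∀ x ∈ X, ContDiffAt ℝ ∞ χ x)
    (hd : d = 2 * Fintype.card ι + m) (hR : 2 * 3 < |R|)
    {τ' τ Θ : E₁ × EuclideanSpace ℝ n → Ext (E₁ × EuclideanSpace ℝ n)}
    (hτ' : τ' = thomF (fun y => 1 - P y) W') (hτ : τ = thomF P W) (hΘ : Θ = thE P τ' τ) :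
    J (E := (E × EuclideanSpace ℝ n) × ℝ) (Fintype.card ι' * 2 + d)
        (SB X (fun x => 1 - P (f x)))
        (fun z => oVf (fun x => W' (f x)) z * F.pull pB oX z)
        (fun z => χ z.1.1 • (up f R Θ z * F.pull pB (F.pull g μ) z)) =
      kGG ι' * (2 * J d X oX (fun x => χ x • (F.pull f (eR P W) x * F.pull g μ x))) := by
  set T := SB X (fun x => 1 - P (f x)) with hT
  have hor : OR X (fun x => 1 - P (f x)) (fun x => W' (f x)) := OR_comp h' hf
  have hQ := pfield_compl_f h' hf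
  have hS := subm_SB hX hQ (fun x hx => OR_sym hor hx)
  have hoZ := ori_SB hX hoX hor (fun x hx => OR_sym hor hx) hoX0
  have hcs := csf_thomF hY h
  rw [← hτ] at hcs
  have hcs' := csf_thomF hY h'
  rw [← hτ'] at hcs'
  set om0 : E → Ext E := F.pull (fun x => ((f x, 0) : E₁ × EuclideanSpace ℝ n)) τ
    with hom0
  have som0 : Sm X om0 := hcs.smooth.pull (smap_k3 (P := P) hf)
  have sgμ : Sm X (F.pull g μ) := hμ.pull hg
  have heq : Eqv X om0 ((2 : ℝ) • F.pull f (eR P W)) := eqv_om0 h hf hτ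
  have sup' : Sm T (up f R τ') :=
    sm_up hR (by norm_num) hcs'.supp (hcs'.smooth.pull (smap_kf' hf R))
  -- step 1
  have e1 : Eqv (E := (E × EuclideanSpace ℝ n) × ℝ) T
      (fun z => up f R Θ z * F.pull pB (F.pull g μ) z)
      (fun z => (up f R τ' z * F.pull pB om0 z) * F.pull pB (F.pull g μ) z) :=
    (eqv_up_thE h.pfield hf τ' τ Θ hΘ).mul (Eqv.refl (F.pull pB (F.pull g μ)))
  rw [J_eqv' hS.cloZ e1 (fun z => χ z.1.1)]
  have e2 : J (E := (E × EuclideanSpace ℝ n) × ℝ) (Fintype.card ι' * 2 + d) T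
      (fun z => oVf (fun x => W' (f x)) z * F.pull pB oX z)
      (fun z => χ z.1.1 • ((up f R τ' z * F.pull pB om0 z) * F.pull pB (F.pull g μ) z)) =
      J (E := (E × EuclideanSpace ℝ n) × ℝ) (Fintype.card ι' * 2 + d) T
      (fun z => oVf (fun x => W' (f x)) z * F.pull pB oX z)
        (fun z => up f R τ' z * F.pull pB (fun x => χ x • (om0 x * F.pull g μ x)) z) := by
    refine J_congr' hS.cloZ fun z hz => ?_
    have e2 : F.pull (pB : (E × EuclideanSpace ℝ n) × ℝ → E)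
        (fun x => χ x • (om0 x * F.pull g μ x)) z =
        χ z.1.1 • (F.pull pB om0 z * F.pull pB (F.pull g μ) z) := by
      show pb _ (χ z.1.1 • (om0 z.1.1 * F.pull g μ z.1.1)) = _
      rw [map_smul, map_mul]
      rfl
    rw [e2, mul_smul_comm, mul_assoc]
  rw [e2]
  have hdeg : ∀ x ∈ X, ∀ q < d, evA E q (χ x • (om0 x * F.pull g μ x)) = 0 := by
    intro x _ q hq
    have e1 : IsDeg (2 * Fintype.card ι + m) (om0 x * F.pull g μ x) := by
      refine isDeg_mul ?_ ((hμm _).pb _)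
      rw [hom0, hτ]
      exact (thomF_deg _).pb _
    exact (e1.smul (χ x)) q (by omega)
  have e3 := fibre_integration hS (continuousOn_oVf hor) hoZ hoX0
    (η := up f R τ') (om := fun x => χ x • (om0 x * F.pull g μ x))
    (fun z hz => (sup' z hz).continuousAt.continuousWithinAt)
    (fun x hx => ((hχ x hx).continuousAt.smul ((som0.mul sgμ) x hx).continuousAt).continuousWithinAt)
    hdeg
  refine e3.trans ?_
  have s2 : J d X oX (fun x => J (E := (E × EuclideanSpace ℝ n) × ℝ) (Fintype.card ι' * 2)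
      (T ∩ pB ⁻¹' {x}) (oVf (fun x => W' (f x))) (up f R τ') •
      (χ x • (om0 x * F.pull g μ x))) =
      J d X oX (fun x => kGG ι' • (χ x • (om0 x * F.pull g μ x))) :=
    J_congr' hX fun x hx => by rw [J_fib_thom hX hoX hoX0 hY h' hf hR hτ' hx]
  refine s2.trans ?_
  rw [J_smul]
  congr 1
  have e4 : Eqv X (fun x => om0 x * F.pull g μ x)
      (fun x => ((2 : ℝ) • F.pull f (eR P W)) x * F.pull g μ x) :=
    heq.mul (Eqv.refl (F.pull g μ))
  rw [J_eqv' hX e4 χ]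
  have e5 : (fun x => χ x • (((2 : ℝ) • F.pull f (eR P W)) x * F.pull g μ x)) =
      fun x => (2 : ℝ) • (χ x • (F.pull f (eR P W) x * F.pull g μ x)) := by
    funext x
    show χ x • (((2 : ℝ) • F.pull f (eR P W) x) * F.pull g μ x) = _
    rw [smul_mul_assoc, smul_comm]
  rw [e5, J_smul]

end tside

end Crest.Agent.R208.IM
end
end

-- ▼ part R208/IM8
section

/-! Row 208, block IM (helper631).  IM8: **the Euler number is an integer** (thin version). -/

set_option autoImplicit false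
set_option linter.unusedSectionVars false

open MeasureTheory Set Filter Topology Module Matrix
open scoped ContDiff RealInnerProductSpace
open Crest.Agent.R208.F Crest.Agent.R208.FI Crest.Agent.R208.CW Crest.Agent.R208.T
open Crest.Agent.R208.SN Crest.Agent.R208.CH

noncomputable section

namespace Crest.Agent.R208.IM

section sside
variable {n κ : Type*} [Fintype n] [DecidableEq n] [Fintype κ] [DecidableEq κ]
  {E₁ E₂ : Type*}
  [NormedAddCommGroup E₁] [NormedSpace ℝ E₁] [FiniteDimensional ℝ E₁]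
  [NormedAddCommGroup E₂] [NormedSpace ℝ E₂] [FiniteDimensional ℝ E₂]
  {Y : Set E₁} {M : Set E₂} {F₀ : Matrix n (κ × Fin 2) ℝ}
  {m : ℕ} {R R₀ : ℝ} {μ : E₂ → Ext E₂} {oM : E₂ → Ext E₂}

theorem full_mul (hF : F₀ᵀ * F₀ = 1) (hκ : Fintype.card κ * 2 = Fintype.card n) :
    F₀ * F₀ᵀ = 1 :=
  (Matrix.mul_eq_one_comm_of_card_eq _ _ _ (by
    rw [Fintype.card_prod, Fintype.card_fin, hκ])).1 hF

theorem or_one (hF : F₀ᵀ * F₀ = 1) (hκ : Fintype.card κ * 2 = Fintype.card n) (M : Set E₂) :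
    OR M (fun _ => (1 : EuclideanSpace ℝ n →L[ℝ] EuclideanSpace ℝ n))
      (fun _ I => (F₀.submatrix I id).det) where
  sP _ _ := contDiffAt_const
  sW _ _ _ := contDiffAt_const
  fr x _ := by
    refine ⟨F₀, hF, fun v i => ?_, fun _ => rfl⟩
    rw [full_mul hF hκ]
    simp [Matrix.one_apply]

set_option maxHeartbeats 1600000 in
/-- evaluation over `M` -/
theorem J_S (hM : Clo m M) (hoM : Ori m M oM) (hoM0 : ∀ x ∈ M, ∀ q < m, evA E₂ q (oM x) = 0)
    (hF : F₀ᵀ * F₀ = 1) (hκ : Fintype.card κ * 2 = Fintype.card n)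
    {Θ : E₁ × EuclideanSpace ℝ n → Ext (E₁ × EuclideanSpace ℝ n)}
    (hΘ : Sm (Y ×ˢ (univ : Set (EuclideanSpace ℝ n))) Θ) (hΘs : ∀ z, R₀ < ‖z.2‖ → Θ z = 0)
    (hR : 2 * R₀ < |R|) (hR₀ : 0 ≤ R₀) {y₀ : E₁} (hy₀ : y₀ ∈ Y) (hμ : Sm M μ) (hμm : Hom m μ) :
    J (E := (E₂ × EuclideanSpace ℝ n) × ℝ) (Fintype.card κ * 2 + m) (SB M (fun _ => 1))
        (fun z => oVf (fun _ I => (F₀.submatrix I id).det) z * F.pull pB oM z)
        (fun z => up (fun _ : E₂ => y₀) R Θ z * F.pull pB μ z) =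
      (∫ a in Metric.ball (0 : Eu (Fintype.card κ * 2)) 1,
        top (Fintype.card κ * 2) (F.pull (iE y₀ R F₀) Θ a)) * J m M oM μ := by
  have hor := or_one hF hκ M
  have hQ : PField M (Fintype.card κ * 2)
      (fun _ => (1 : EuclideanSpace ℝ n →L[ℝ] EuclideanSpace ℝ n)) := by
    have := hor.pfield
    rwa [mul_comm] at this
  have hS := subm_SB hM hQ (fun x hx => OR_sym hor hx)
  have hoZ := ori_SB hM hoM hor (fun x hx => OR_sym hor hx) hoM0
  have hfc : SMap M Y (fun _ : E₂ => y₀) := ⟨fun _ _ => contDiffAt_const, fun _ _ => hy₀⟩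
  have su : Sm (SB M (fun _ => (1 : EuclideanSpace ℝ n →L[ℝ] EuclideanSpace ℝ n)))
      (up (fun _ : E₂ => y₀) R Θ) := sm_up' hfc hR hR₀ hΘs hΘ
  have e3 := fibre_integration hS (continuousOn_oVf hor) hoZ hoM0
    (η := up (fun _ : E₂ => y₀) R Θ) (om := μ)
    (fun z hz => (su z hz).continuousAt.continuousWithinAt)
    (fun x hx => (hμ x hx).continuousAt.continuousWithinAt)
    (fun x _ q hq => hμm x q (by omega))
  refine e3.trans ?_
  have s2 : J m M oM (fun x => J (E := (E₂ × EuclideanSpace ℝ n) × ℝ) (Fintype.card κ * 2)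
      (SB M (fun _ => 1) ∩ pB ⁻¹' {x}) (oVf (fun _ I => (F₀.submatrix I id).det))
      (up (fun _ : E₂ => y₀) R Θ) • μ x) =
      J m M oM (fun x => (∫ a in Metric.ball (0 : Eu (Fintype.card κ * 2)) 1,
        top (Fintype.card κ * 2) (F.pull (iE y₀ R F₀) Θ a)) • μ x) := by
    refine J_congr' hM fun x hx => ?_
    have h2 := full_mul hF hκ
    have e1 := J_fib_up (Q := fun _ : E₂ => (1 : EuclideanSpace ℝ n →L[ℝ] EuclideanSpace ℝ n))
      (W := fun (_ : E₂) I => (F₀.submatrix I id).det) (φ := fun _ : E₂ => y₀) (R := R)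
      (R₀ := R₀) (Θ := Θ) hM hoM hoM0 hor hfc.smooth hR hR₀ hΘs hx (f := F₀) hF (fun v i => by
        rw [h2]
        simp [Matrix.one_apply]) (fun _ => rfl)
    rw [e1]
  refine s2.trans ?_
  rw [J_smul]

end sside

end Crest.Agent.R208.IM
end
end

-- ▼ part R208/IM9
section

/-! Row 208, block IM (helper631).  IM9: **the Euler number is an integer** (thin version). -/

set_option autoImplicit false
set_option linter.unusedSectionVars false

open MeasureTheory Set Filter Topology Module Matrix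
open scoped ContDiff RealInnerProductSpace
open Crest.Agent.R208.F Crest.Agent.R208.FI Crest.Agent.R208.CW Crest.Agent.R208.T
open Crest.Agent.R208.SN Crest.Agent.R208.CH

noncomputable section

namespace Crest.Agent.R208.IM

section phi
variable {E E₁ E₂ H : Type*} [NormedAddCommGroup E] [NormedSpace ℝ E] [FiniteDimensional ℝ E]
  [NormedAddCommGroup E₁] [NormedSpace ℝ E₁] [FiniteDimensional ℝ E₁]
  [NormedAddCommGroup E₂] [NormedSpace ℝ E₂] [FiniteDimensional ℝ E₂]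
  [NormedAddCommGroup H] [InnerProductSpace ℝ H] [FiniteDimensional ℝ H]
  {X : Set E} {Y : Set E₁} {M : Set E₂} {P : E₁ → H →L[ℝ] H} {Q : E → H →L[ℝ] H}
  {f : E → E₁} {g : E → E₂} {χ : E → ℝ} {d r m : ℕ} {R : ℝ} {μ : E₂ → Ext E₂}
  {Θ : E₁ × H → Ext (E₁ × H)} {y₀ : E₁}

/-- `(x, u, s) ↦ (g x, u, s)` -/
def Phi (g : E → E₂) (z : (E × H) × ℝ) : (E₂ × H) × ℝ := ((g z.1.1, z.1.2), z.2)

theorem contDiffAt_Phi {z : (E × H) × ℝ} (hg : ContDiffAt ℝ ∞ g z.1.1) :
    ContDiffAt ℝ ∞ (Phi g : (E × H) × ℝ → (E₂ × H) × ℝ) z := by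
  have h1 : ContDiffAt ℝ ∞ (fun z : (E × H) × ℝ => z.1.2) z := by fun_prop
  exact ((contDiffAt_fpB hg).prodMk h1).prodMk contDiffAt_snd

theorem maps_Phi (hg : MapsTo g X M) :
    MapsTo (Phi g : (E × H) × ℝ → (E₂ × H) × ℝ) (SB X Q) (SB M (fun _ => 1)) := fun z hz =>
  SB_iff.2 ⟨hg (SB_iff.1 hz).1, rfl, (SB_iff.1 hz).2.2⟩

theorem thin_Phi (hX : Sub d X) (hQ : PField X r (fun x => 1 - P (f x)))
    (hP : ∀ x ∈ X, DifferentiableAt ℝ P (f x)) (hf : ∀ x ∈ X, DifferentiableAt ℝ f x)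
    (hg : ∀ x ∈ X, DifferentiableAt ℝ g x) (hT : Thin d X (fun x => (f x, g x)) χ) :
    Thin (r + d) (SB X (fun x => 1 - P (f x))) (Phi g) (fun z => χ z.1.1) := by
  refine thin_SB hX hQ hP hf hg hT fun z hz w _ h0 => ?_
  have e2 : DifferentiableAt ℝ (fun z : (E × H) × ℝ => g z.1.1) z :=
    DifferentiableAt.comp (g := g) z (hg _ hz.1.1.1) (by fun_prop)
  have e3 : HasFDerivAt (fun z : (E × H) × ℝ => z.1.2) ((ContinuousLinearMap.snd ℝ E H).comp
      (ContinuousLinearMap.fst ℝ (E × H) ℝ)) z :=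
    ((ContinuousLinearMap.snd ℝ E H).comp (ContinuousLinearMap.fst ℝ (E × H) ℝ)).hasFDerivAt
  have e4 : HasFDerivAt (Phi g : (E × H) × ℝ → (E₂ × H) × ℝ) _ z :=
    (e2.hasFDerivAt.prodMk e3).prodMk hasFDerivAt_snd
  rw [e4.fderiv]
  have e6 : fderiv ℝ (fun z : (E × H) × ℝ => g z.1.1) z ((w, (0 : H)), (0 : ℝ)) = 0 := by
    rw [fderiv_comp_pB (hg _ hz.1.1.1)]; exact h0
  exact Prod.ext (Prod.ext e6 rfl) rfl

theorem pull_Phi_pB {z : (E × H) × ℝ} (hg : ContDiffAt ℝ ∞ g z.1.1) :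
    F.pull (E := (E × H) × ℝ) (F := (E₂ × H) × ℝ) (Phi g)
      (F.pull (pB : (E₂ × H) × ℝ → E₂) μ) z =
      F.pull (pB : (E × H) × ℝ → E) (F.pull g μ) z := by
  have hd : DifferentiableAt ℝ (Phi g : (E × H) × ℝ → (E₂ × H) × ℝ) z :=
    (contDiffAt_Phi hg).differentiableAt (by simp)
  have hp : DifferentiableAt ℝ (pB : (E₂ × H) × ℝ → E₂) (Phi g z) :=
    (hasFDerivAt_pB _).differentiableAt
  have hp' : DifferentiableAt ℝ (pB : (E × H) × ℝ → E) z := (hasFDerivAt_pB _).differentiableAt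
  have hgd : DifferentiableAt ℝ g (pB z) := hg.differentiableAt (by simp)
  have e1 := F.pull_comp (om := μ) hd hp
  have e2 := F.pull_comp (om := μ) hp' hgd
  exact e1.trans e2.symm

theorem pull_Phi_up {z : (E × H) × ℝ} (hg : ContDiffAt ℝ ∞ g z.1.1) :
    F.pull (E := (E × H) × ℝ) (F := (E₂ × H) × ℝ) (Phi g) (up (fun _ : E₂ => y₀) R Θ) z =
      up (fun _ : E => y₀) R Θ z := by
  have hd : DifferentiableAt ℝ (Phi g : (E × H) × ℝ → (E₂ × H) × ℝ) z :=
    (contDiffAt_Phi hg).differentiableAt (by simp)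
  by_cases h0 : 0 < z.2
  · have e1 : up (fun _ : E₂ => y₀) R Θ (Phi g z) =
        F.pull (kf (fun _ : E₂ => y₀) R) Θ (Phi g z) := if_pos h0
    have e3 : up (fun _ : E => y₀) R Θ z = F.pull (kf (fun _ : E => y₀) R) Θ z := if_pos h0
    have hk : DifferentiableAt ℝ (kf (fun _ : E₂ => y₀) R : (E₂ × H) × ℝ → E₁ × H) (Phi g z) := by
      unfold kf
      exact (differentiableAt_const _).prodMk (by fun_prop)
    have e4 := F.pull_comp (om := Θ) hd hk
    rw [e3]
    refine Eq.trans ?_ e4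
    exact congrArg (pb ((fderiv ℝ (Phi g : (E × H) × ℝ → (E₂ × H) × ℝ) z :
      (E × H) × ℝ →L[ℝ] (E₂ × H) × ℝ) : (E × H) × ℝ →ₗ[ℝ] (E₂ × H) × ℝ)) e1
  · have e1 : up (fun _ : E₂ => y₀) R Θ (Phi g z) = 0 := if_neg h0
    have e3 : up (fun _ : E => y₀) R Θ z = 0 := if_neg h0
    rw [e3]
    exact (congrArg (pb ((fderiv ℝ (Phi g : (E × H) × ℝ → (E₂ × H) × ℝ) z :
      (E × H) × ℝ →L[ℝ] (E₂ × H) × ℝ) : (E × H) × ℝ →ₗ[ℝ] (E₂ × H) × ℝ)) e1).trans (map_zero _)

theorem pull_Phi {z : (E × H) × ℝ} (hg : ContDiffAt ℝ ∞ g z.1.1) :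
    F.pull (E := (E × H) × ℝ) (F := (E₂ × H) × ℝ) (Phi g)
      (fun z : (E₂ × H) × ℝ => up (fun _ : E₂ => y₀) R Θ z * F.pull pB μ z) z =
      up (fun _ : E => y₀) R Θ z * F.pull pB (F.pull g μ) z := by
  rw [← pull_Phi_up hg, ← pull_Phi_pB hg]
  exact map_mul _ _ _

end phi

section core
variable {n ι ι' κ : Type} [Fintype n] [DecidableEq n] [Fintype ι] [DecidableEq ι]
  [Fintype ι'] [DecidableEq ι'] [Fintype κ] [DecidableEq κ]
  {E E₁ E₂ : Type} [NormedAddCommGroup E] [NormedSpace ℝ E] [FiniteDimensional ℝ E]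
  [NormedAddCommGroup E₁] [NormedSpace ℝ E₁] [FiniteDimensional ℝ E₁]
  [NormedAddCommGroup E₂] [NormedSpace ℝ E₂] [FiniteDimensional ℝ E₂]
  {X : Set E} {Y : Set E₁} {M : Set E₂} {P : E₁ → EuclideanSpace ℝ n →L[ℝ] EuclideanSpace ℝ n}
  {W : E₁ → (ι × Fin 2 → n) → ℝ} {W' : E₁ → (ι' × Fin 2 → n) → ℝ}
  {f : E → E₁} {g : E → E₂} {χ : E → ℝ} {F₀ : Matrix n (κ × Fin 2) ℝ}
  {d dY m : ℕ} {R : ℝ} {oX : E → Ext E} {oM : E₂ → Ext E₂}

/-- the degree -/
theorem exists_deg (hX : Clo d X) (hoX : Ori d X oX)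
    (hoX0 : ∀ x ∈ X, ∀ q < d, evA E q (oX x) = 0)
    (h : OR Y P W) (h' : OR Y (fun y => 1 - P y) W') (hf : SMap X Y f) (hg : SMap X M g)
    (hM : Clo m M) (hMc : IsPreconnected M) (hoM : Ori m M oM)
    (hoM0 : ∀ x ∈ M, ∀ q < m, evA E₂ q (oM x) = 0)
    (hT : Thin d X (fun x => (f x, g x)) χ) [Nonempty κ]
    (hF : F₀ᵀ * F₀ = 1) (hκ : Fintype.card κ * 2 = Fintype.card n)
    (hN : Fintype.card κ * 2 + m = Fintype.card ι' * 2 + d) :
    ∃ D : ℤ, ∀ om : (E₂ × EuclideanSpace ℝ n) × ℝ → Ext ((E₂ × EuclideanSpace ℝ n) × ℝ),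
      ContinuousOn om (SB M (fun _ => 1)) →
      J (E := (E × EuclideanSpace ℝ n) × ℝ) (Fintype.card ι' * 2 + d)
        (SB X (fun x => 1 - P (f x)))
        (fun z => oVf (fun x => W' (f x)) z * F.pull pB oX z)
        (fun z => χ z.1.1 • F.pull (Phi g) om z) =
      D * J (E := (E₂ × EuclideanSpace ℝ n) × ℝ) (Fintype.card κ * 2 + m) (SB M (fun _ => 1))
        (fun z => oVf (fun _ I => (F₀.submatrix I id).det) z * F.pull pB oM z) om := by
  have hor : OR X (fun x => 1 - P (f x)) (fun x => W' (f x)) := OR_comp h' hf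
  have hQ := pfield_compl_f h' hf
  have hST := subm_SB hX hQ (fun x hx => OR_sym hor hx)
  have hoT := ori_SB hX hoX hor (fun x hx => OR_sym hor hx) hoX0
  have hor1 := or_one hF hκ M
  have hQ1 : PField M (Fintype.card κ * 2)
      (fun _ => (1 : EuclideanSpace ℝ n →L[ℝ] EuclideanSpace ℝ n)) := by
    have := hor1.pfield
    rwa [mul_comm] at this
  have hS1 := subm_SB hM hQ1 (fun x hx => OR_sym hor1 hx)
  have hoS := ori_SB hM hoM hor1 (fun x hx => OR_sym hor1 hx) hoM0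
  have hSc : IsPreconnected (SB M (fun _ => (1 : EuclideanSpace ℝ n →L[ℝ] EuclideanSpace ℝ n))) :=
    preconn_SB hM hMc hQ1 (by
      have : 0 < Fintype.card κ := Fintype.card_pos
      omega)
  have hcS := hS1.cloZ
  rw [hN] at hcS hoS ⊢
  refine Thin.degree hST.cloZ hoT hcS hoS hSc (fun z hz => ?_) (maps_Phi hg.maps)
    (thin_Phi hX.sub hQ (fun x hx => ?_) (fun x hx => hf.diff hx) (fun x hx => hg.diff hx) hT)
  · exact (contDiffAt_Phi (hg.smooth _ hz.1.1.1)).of_le two_le_infty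
  · exact (h.sP _ (hf.maps hx)).differentiableAt (by simp)

end core

end Crest.Agent.R208.IM
end
end

-- ▼ part R208/IM10
section

/-! Row 208, block IM (helper631).  IM10: **the Euler number is an integer** (thin version). -/

set_option autoImplicit false
set_option linter.unusedSectionVars false

open MeasureTheory Set Filter Topology Module Matrix
open scoped ContDiff RealInnerProductSpace
open Crest.Agent.R208.F Crest.Agent.R208.FI Crest.Agent.R208.CW Crest.Agent.R208.T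
open Crest.Agent.R208.SN Crest.Agent.R208.CH Crest.Agent.R208.CM

noncomputable section

namespace Crest.Agent.R208.IM

variable {n ι ι' : Type} [Fintype n] [DecidableEq n] [Fintype ι] [DecidableEq ι]
  [Fintype ι'] [DecidableEq ι']
  {E E₁ E₂ : Type} [NormedAddCommGroup E] [NormedSpace ℝ E] [FiniteDimensional ℝ E]
  [NormedAddCommGroup E₁] [NormedSpace ℝ E₁] [FiniteDimensional ℝ E₁]
  [NormedAddCommGroup E₂] [NormedSpace ℝ E₂] [FiniteDimensional ℝ E₂]
  {X : Set E} {Y : Set E₁} {M : Set E₂} {P : E₁ → EuclideanSpace ℝ n →L[ℝ] EuclideanSpace ℝ n}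
  {W : E₁ → (ι × Fin 2 → n) → ℝ}
  {f : E → E₁} {g : E → E₂} {χ : E → ℝ}
  {dY m : ℕ} {oX : E → Ext E} {oM : E₂ → Ext E₂}

theorem exists_full {κ : Type} [Fintype κ] [DecidableEq κ]
    (hκ : Fintype.card κ * 2 = Fintype.card n) :
    ∃ F₀ : Matrix n (κ × Fin 2) ℝ, F₀ᵀ * F₀ = 1 := by
  have e : κ × Fin 2 ≃ n := Fintype.equivOfCardEq (by
    rw [Fintype.card_prod, Fintype.card_fin, hκ])
  refine ⟨Matrix.of fun i j => if i = e j then 1 else 0, ?_⟩
  ext i j
  rw [Matrix.mul_apply, Matrix.one_apply]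
  simp only [transpose_apply, Matrix.of_apply, ite_mul, one_mul, zero_mul, Finset.sum_ite_eq',
    Finset.mem_univ, if_true, EmbeddingLike.apply_eq_iff_eq]

set_option maxHeartbeats 1600000 in
theorem int_core [Nonempty ι] [Nonempty ι'] (eq : (ι × Fin 2) ⊕ (ι' × Fin 2) ≃ n)
    (hY : Sub dY Y) (hYc : IsPreconnected Y) (h : OR Y P W)
    (hX : Clo (2 * Fintype.card ι + m) X) (hoX : Ori (2 * Fintype.card ι + m) X oX)
    (hoX0 : ∀ x ∈ X, ∀ q < 2 * Fintype.card ι + m, evA E q (oX x) = 0)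
    (hf : SMap X Y f) (hg : SMap X M g)
    (hM : Clo m M) (hMc : IsPreconnected M) (hoM : Ori m M oM)
    (hoM0 : ∀ x ∈ M, ∀ q < m, evA E₂ q (oM x) = 0)
    (hT : Thin (2 * Fintype.card ι + m) X (fun x => (f x, g x)) χ) {x₀ : E} (hx₀ : x₀ ∈ X) :
    ∃ z : ℤ, ∀ μ : E₂ → Ext E₂, Sm M μ → Hom m μ →
      J (2 * Fintype.card ι + m) X oX (fun x => χ x • (F.pull f (eR P W) x * F.pull g μ x)) =
        XF.tau ι * z * J m M oM μ := by
  obtain ⟨W', h'⟩ := OR.compl eq h
  have hy₀ : f x₀ ∈ Y := hf.maps hx₀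
  have hne : Y.Nonempty := ⟨_, hy₀⟩
  obtain ⟨c₀, hc₀, hu⟩ := unit_of_pointwise (μ := (volume : Measure (EuclideanSpace ℝ n))) hY hYc
    hne h.pfield (csf_thomF hY h) (csf_thomF hY h') (fun x hx => thdStmt h h' x hx)
  set τ : E₁ × EuclideanSpace ℝ n → Ext (E₁ × EuclideanSpace ℝ n) := thomF P W with hτ
  set τ' : E₁ × EuclideanSpace ℝ n → Ext (E₁ × EuclideanSpace ℝ n) :=
    thomF (fun y => 1 - P y) W' with hτ'
  set Θ : E₁ × EuclideanSpace ℝ n → Ext (E₁ × EuclideanSpace ℝ n) := thE P τ' τ with hΘ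
  have hcard : Fintype.card ι * 2 + Fintype.card ι' * 2 = Fintype.card n := by
    rw [← Fintype.card_congr eq, Fintype.card_sum, Fintype.card_prod, Fintype.card_prod,
      Fintype.card_fin]
  have hTP : ThomPair (volume : Measure (EuclideanSpace ℝ n)) Y P (2 * Fintype.card ι) 3 c₀
      ((2 : ℝ) • eR P W) τ τ' := by
    refine ⟨csf_thomF hY h, csf_thomF hY h', fun z => thomF_even z, fun z => thomF_deg z,
      fun z => ?_, hu, hc₀, thomF_zero h⟩
    have h2 : finrank ℝ (EuclideanSpace ℝ n) - 2 * Fintype.card ι = 2 * Fintype.card ι' := by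
      rw [finrank_euclideanSpace]
      omega
    rw [h2]
    exact thomF_deg z
  have hr : 2 * Fintype.card ι ≤ finrank ℝ (EuclideanSpace ℝ n) := by
    rw [finrank_euclideanSpace]
    omega
  obtain ⟨L, hL1, hL2, hL3⟩ := exists_L (volume : Measure (EuclideanSpace ℝ n)) hY h.pfield hr hTP
    (by norm_num) (fun z => thomF_even z) hy₀
  rw [← hΘ] at hL3
  have hΘs : Sm (Y ×ˢ (univ : Set (EuclideanSpace ℝ n))) Θ :=
    sm_eta h.pfield hTP.csf'.smooth hTP.csf.smooth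
  have hΘv : ∀ z : E₁ × EuclideanSpace ℝ n, 13 < ‖z.2‖ → Θ z = 0 := fun z hz =>
    vt_eta hTP.csf'.supp hTP.csf.supp z (by linarith)
  have hL2' : ∀ z : E₁ × EuclideanSpace ℝ n, 13 < ‖z.2‖ → L z = 0 := fun z hz =>
    hL2 z (by linarith)
  have hor : OR X (fun x => 1 - P (f x)) (fun x => W' (f x)) := OR_comp h' hf
  have hQ := pfield_compl_f h' hf
  have hoT := ori_SB hX hoX hor (fun x hx => OR_sym hor hx) hoX0
  have hκ : Fintype.card (ι ⊕ ι') * 2 = Fintype.card n := by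
    rw [Fintype.card_sum, ← hcard]; ring
  obtain ⟨F₀, hF⟩ := exists_full (n := n) hκ
  obtain ⟨D, hD⟩ := exists_deg hX hoX hoX0 h h' hf hg hM hMc hoM hoM0 hT hF hκ (by
    rw [Fintype.card_sum]; ring)
  have hR27 : (2 : ℝ) * 13 < |(27 : ℝ)| := by norm_num
  have hR27' : (2 : ℝ) * 13 < |(-27 : ℝ)| := by norm_num
  set C : ℝ := ∫ a in Metric.ball (0 : Eu (Fintype.card (ι ⊕ ι') * 2)) 1,
        top (Fintype.card (ι ⊕ ι') * 2) (F.pull (iE (f x₀) (-27) F₀) Θ a) with hC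
  have hCabs : |C| = |kGG ι' * kGG ι| := integral_full h h' hy₀ hF hκ (by norm_num)
  have hk : kGG ι = 2 * XF.tau ι := XF.integral_GG ι
  have hk' : kGG ι' = 2 * XF.tau ι' := XF.integral_GG ι'
  have ht := XF.tau_pos ι
  have ht' := XF.tau_pos ι'
  have hCpos : |kGG ι' * kGG ι| = kGG ι' * kGG ι := abs_of_pos (by rw [hk, hk']; positivity)
  rw [hCpos] at hCabs
  have main : ∀ μ : E₂ → Ext E₂, Sm M μ → Hom m μ →
      kGG ι' * (2 * J (2 * Fintype.card ι + m) X oX
        (fun x => χ x • (F.pull f (eR P W) x * F.pull g μ x))) = D * (C * J m M oM μ) := by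
    intro μ hμ hμm
    rw [← J_T hX hoX hoX0 hY h h' hf hg hμ hμm hT.smooth rfl (R := 27) (by norm_num) hτ' hτ hΘ]
    rw [J_swap hX hQ (fun y hy => (h.sP y hy).differentiableAt (by simp)) hf hg hM.sub hT hoT
      hL1 hL2' hR27 (by norm_num) hμ hμm hc₀ hΘs hΘv hy₀ hL3]
    have e1 := hD (fun z => up (fun _ : E₂ => f x₀) (-27) Θ z * F.pull pB μ z) ?_
    · rw [J_S hM hoM hoM0 hF hκ hΘs hΘv hR27' (by norm_num) hy₀ hμ hμm] at e1
      rw [← e1]
      refine J_congr' (subm_SB hX hQ (fun x hx => OR_sym hor hx)).cloZ fun z hz => ?_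
      rw [pull_Phi (hg.smooth _ hz.1.1.1)]
    · have hfc : SMap M Y (fun _ : E₂ => f x₀) := ⟨fun _ _ => contDiffAt_const, fun _ _ => hy₀⟩
      have su : Sm (SB M (fun _ => (1 : EuclideanSpace ℝ n →L[ℝ] EuclideanSpace ℝ n)))
        (up (fun _ : E₂ => f x₀) (-27) Θ) := sm_up' hfc hR27' (by norm_num) hΘv hΘs
      have sμ : Sm (SB M (fun _ => (1 : EuclideanSpace ℝ n →L[ℝ] EuclideanSpace ℝ n)))
        (F.pull pB μ) := hμ.pull smap_pB'
      exact fun z hz => ((su.mul sμ) z hz).continuousAt.continuousWithinAt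
  have hk'0 : kGG ι' ≠ 0 := by rw [hk']; positivity
  rcases abs_eq (by rw [hk, hk']; positivity : (0 : ℝ) ≤ kGG ι' * kGG ι) |>.1 hCabs with hc | hc
  · refine ⟨D, fun μ hμ hμm => ?_⟩
    have e := main μ hμ hμm
    rw [hc, hk] at e
    have e2 : kGG ι' * (2 * J (2 * Fintype.card ι + m) X oX
        (fun x => χ x • (F.pull f (eR P W) x * F.pull g μ x)) -
        2 * (XF.tau ι * D * J m M oM μ)) = 0 := by linear_combination e
    have e3 := (mul_eq_zero.1 e2).resolve_left hk'0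
    linarith
  · refine ⟨-D, fun μ hμ hμm => ?_⟩
    have e := main μ hμ hμm
    rw [hc, hk] at e
    have e2 : kGG ι' * (2 * J (2 * Fintype.card ι + m) X oX
        (fun x => χ x • (F.pull f (eR P W) x * F.pull g μ x)) +
        2 * (XF.tau ι * D * J m M oM μ)) = 0 := by linear_combination e
    have e3 := (mul_eq_zero.1 e2).resolve_left hk'0
    push_cast
    linarith

end Crest.Agent.R208.IM
end
end

-- ▼ part R208/IM11
section

/-! Row 208, block IM (helper631).  IM11: **the Euler number is an integer**: final forms. -/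

set_option autoImplicit false
set_option linter.unusedSectionVars false

open MeasureTheory Set Filter Topology Module Matrix
open scoped ContDiff RealInnerProductSpace
open Crest.Agent.R208.F Crest.Agent.R208.FI Crest.Agent.R208.CW Crest.Agent.R208.T
open Crest.Agent.R208.SN Crest.Agent.R208.CH

noncomputable section

namespace Crest.Agent.R208.IM

section ori
variable {E : Type*} [NormedAddCommGroup E] [NormedSpace ℝ E] [FiniteDimensional ℝ E]
  {X : Set E} {d : ℕ} {o om : E → Ext E}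

theorem ori_dp (ho : Ori d X o) : Ori d X (dp d o) where
  cont := (dplL (E := E) d).continuous.comp_continuousOn ho.cont
  ne x hx := by
    show evA E d (dpl d (o x)) _ ≠ 0
    rw [CM.evA_dpl_same]
    exact ho.ne x hx

theorem dp_low (o : E → Ext E) (x : E) : ∀ q < d, evA E q (dp d o x) = 0 := fun q hq =>
  isDeg_dpl d (o x) q (by omega)

theorem J_dp (hX : Clo d X) : J d X (dp d o) om = J d X o om :=
  CM.J_congr_dens hX (fun x _ => by
    show evA E d (dpl d (o x)) _ = _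
    rw [CM.evA_dpl_same]) (fun _ _ => rfl)

end ori

section fac
variable {E E₁ E₂ : Type*} [NormedAddCommGroup E] [NormedSpace ℝ E] [FiniteDimensional ℝ E]
  [NormedAddCommGroup E₁] [NormedSpace ℝ E₁] [FiniteDimensional ℝ E₁]
  [NormedAddCommGroup E₂] [NormedSpace ℝ E₂] [FiniteDimensional ℝ E₂]
  {X : Set E} {n : ℕ} {f : E → E₁} {G : E → E₂} {χ : E → ℝ}

/-- thinness passes to maps with a bigger kernel -/
theorem thin_mono (hX : Sub n X) (hT : Thin n X f χ)
    (h : ∀ x ∈ X, ∀ w ∈ Tan X x, fderiv ℝ f x w = 0 → fderiv ℝ G x w = 0) : Thin n X G χ := by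
  refine thin_of_ker hX hT.smooth (fun x hx h0 h1 => ?_) (fun x hx => ?_)
  · obtain ⟨w, hw, hne, hk⟩ := thin_ker1 hX hT hx h0 h1
    exact ⟨w, hw, hne, h x hx w hw hk⟩
  · rcases thin_ker2 hX hT hx with h2 | ⟨w, hw, hne, hl, hk⟩
    · exact Or.inl h2
    · exact Or.inr ⟨w, hw, hne, hl, h x hx w hw hk⟩

/-- adding a constant component -/
theorem thin_const (hX : Sub n X) (hT : Thin n X f χ) (hf : ∀ x ∈ X, DifferentiableAt ℝ f x)
    (p : E₂) : Thin n X (fun x => (f x, p)) χ :=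
  thin_mono hX hT fun x hx w _ h0 => by
    rw [(hf x hx).fderiv_prodMk (differentiableAt_const p)]
    refine Prod.ext h0 ?_
    show fderiv ℝ (fun _ : E => p) x w = 0
    rw [fderiv_const_apply]; rfl

end fac

variable {n ι : Type} [Fintype n] [DecidableEq n] [Fintype ι] [DecidableEq ι]
  {E E₁ E₂ : Type} [NormedAddCommGroup E] [NormedSpace ℝ E] [FiniteDimensional ℝ E]
  [NormedAddCommGroup E₁] [NormedSpace ℝ E₁] [FiniteDimensional ℝ E₁]
  [NormedAddCommGroup E₂] [NormedSpace ℝ E₂] [FiniteDimensional ℝ E₂]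
  {X : Set E} {Y : Set E₁} {M : Set E₂} {P : E₁ → EuclideanSpace ℝ n →L[ℝ] EuclideanSpace ℝ n}
  {W : E₁ → (ι × Fin 2 → n) → ℝ}
  {f : E → E₁} {g : E → E₂} {χ : E → ℝ}
  {dY m : ℕ} {oX : E → Ext E} {oM : E₂ → Ext E₂}

/-- **INT-M, thin version**: the Euler class of an oriented bundle of rank `2 card ι` evaluates
to integers on thin chains fibred over `M`. -/
theorem int_thin [Nonempty ι] (hY : Sub dY Y) (hYc : IsPreconnected Y) (h : OR Y P W)
    (hX : Clo (2 * Fintype.card ι + m) X) (hoX : Ori (2 * Fintype.card ι + m) X oX)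
    (hf : SMap X Y f) (hM : Clo m M) (hMc : IsPreconnected M) (hoM : Ori m M oM)
    (hg : SMap X M g)
    (hT : Thin (2 * Fintype.card ι + m) X (fun x => (f x, g x)) χ) :
    ∃ z : ℤ, ∀ μ : E₂ → Ext E₂, Sm M μ → Hom m μ →
      J (2 * Fintype.card ι + m) X oX (fun x => χ x • (F.pull f (eR P W) x * F.pull g μ x)) =
        XF.tau ι * z * J m M oM μ := by
  rcases X.eq_empty_or_nonempty with rfl | ⟨x₀, hx₀⟩
  · refine ⟨0, fun μ _ _ => ?_⟩
    rw [J_eq_zero hX fun x hx => hx.elim]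
    simp
  have hne : Y.Nonempty := ⟨_, hf.maps hx₀⟩
  obtain ⟨q, r, eq, -⟩ := exists_par h hne
  have hS := iM_iso (n := n) (Fin q)
  obtain ⟨z, hz⟩ := int_core (oX := dp _ oX) (oM := dp m oM) eq hY hYc (h.push hS) hX (ori_dp hoX)
    (fun x _ => dp_low oX x) hf hg hM hMc (ori_dp hoM) (fun x _ => dp_low oM x) hT hx₀
  refine ⟨z, fun μ hμ hμm => ?_⟩
  have e1 := hz μ hμ hμm
  rw [J_dp hX, J_dp hM] at e1
  rw [← e1]
  have e2 : Eqv X (fun x => F.pull f (eR P W) x * F.pull g μ x)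
      (fun x => F.pull f (eR (pushE (iM n (Fin q)) P) (fun x => pushR (iM n (Fin q)) (W x))) x *
        F.pull g μ x) :=
    ((eqv_eR_push hS h).symm.pull hf).mul (Eqv.refl (F.pull g μ))
  exact J_eqv' hX e2 χ


/-- **the Euler number of a thin chain is an integer** (normalised by `tau`) -/
theorem int_pt_thin [Nonempty ι] (hY : Sub dY Y) (hYc : IsPreconnected Y) (h : OR Y P W)
    (hX : Clo (2 * Fintype.card ι) X) (hoX : Ori (2 * Fintype.card ι) X oX)
    (hf : SMap X Y f) (hT : Thin (2 * Fintype.card ι) X f χ) :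
    ∃ z : ℤ, J (2 * Fintype.card ι) X oX (fun x => χ x • F.pull f (eR P W) x) =
      XF.tau ι * z := by
  have hgp : SMap X ({0} : Set ℝ) (fun _ => (0 : ℝ)) := ⟨fun _ _ => contDiffAt_const, fun _ _ => rfl⟩
  obtain ⟨z, hz⟩ := int_thin (m := 0) (M := ({0} : Set ℝ)) (oM := 1) (g := fun _ => (0 : ℝ))
    hY hYc h hX hoX hf (clo_point 0) isPreconnected_singleton (ori_point 0) hgp
    (thin_const hX.sub hT (fun x hx => hf.diff hx) 0)
  refine ⟨z, ?_⟩
  have h1 : Sm ({0} : Set ℝ) (1 : ℝ → Ext ℝ) := fun _ _ => contDiffAt_const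
  have h2 : Hom 0 (1 : ℝ → Ext ℝ) := fun x => by
    have := isDeg_algebraMap (E := ℝ) 1
    rwa [map_one] at this
  have e1 := hz 1 h1 h2
  rw [J_point, mul_one] at e1
  rw [← e1]
  refine J_congr' hX fun x _ => ?_
  have : F.pull (fun _ : E => (0 : ℝ)) (1 : ℝ → Ext ℝ) x = 1 := map_one _
  rw [this, mul_one]

/-- **the Euler number is an integer** (normalised by `tau`) -/
theorem int_pt [Nonempty ι] (hY : Sub dY Y) (hYc : IsPreconnected Y) (h : OR Y P W)
    (hX : Clo (2 * Fintype.card ι) X) (hoX : Ori (2 * Fintype.card ι) X oX)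
    (hf : SMap X Y f) :
    ∃ z : ℤ, J (2 * Fintype.card ι) X oX (F.pull f (eR P W)) = XF.tau ι * z := by
  obtain ⟨z, hz⟩ := int_pt_thin hY hYc h hX hoX hf (Thin.const_one _ X)
  refine ⟨z, ?_⟩
  rw [← hz]
  refine J_congr' hX fun x _ => ?_
  rw [one_smul]


end Crest.Agent.R208.IM
end
end

-- ▼ part R208/CQ3

/-! Row 208, block Q (helper423), part CQ3: the integrality hypothesis `IT` of `QS.block_q` and of
`CQ.fields` from 631's `IM.int_thin` (the Euler number of a thin chain is an integer). -/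

set_option autoImplicit false
set_option linter.unusedSectionVars false
set_option linter.unusedVariables false

open MeasureTheory Set Filter Topology Module
open scoped ContDiff RealInnerProductSpace
open Crest.GeometryTopology.Submanifold
open Crest.Agent.R241.DDefs
open Crest.Agent.R241.D2
open Crest.Agent.R208.F Crest.Agent.R208.FI
open Crest.Agent.R208.CW (SMap)
open Crest.Agent.R208.T (Sm Cl Eqv Coh eqv_iff Hom OR eR)
open Crest.Agent.R208.L (US)
open Crest.Agent.R208.LB (al)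
open Crest.Agent.R208.CM (gf MM jj Quo Emb Curv)
open Crest.Agent.R208.EW (cR)
open Crest.Agent.R208.EP (NLp WNp CPk clo_CPk or_NLp isPreconnected_CPk)

noncomputable section

namespace Crest.Agent.R208.CQ

/-- 586's form of the integrality of thin chains with a target -/
theorem intM : QT.IntM := fun hY hYc h hX hoX hf hM hMc hoM hg hT =>
  IM.int_thin hY hYc h hX hoX hf hM hMc hoM hg hT

/-- integrality of closed thin chains (target a point) -/
theorem int_pt {n ι : Type} [Fintype n] [DecidableEq n] [Fintype ι]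
    [DecidableEq ι] [Nonempty ι] {E E₁ : Type} [NormedAddCommGroup E] [NormedSpace ℝ E]
    [FiniteDimensional ℝ E] [NormedAddCommGroup E₁] [NormedSpace ℝ E₁] [FiniteDimensional ℝ E₁]
    {X : Set E} {Y : Set E₁} {P : E₁ → EuclideanSpace ℝ n →L[ℝ] EuclideanSpace ℝ n}
    {W : E₁ → (ι × Fin 2 → n) → ℝ} {f : E → E₁} {χ : E → ℝ} {d e : ℕ} {oX : E → Ext E}
    (he : e = 2 * Fintype.card ι) (hY : Sub d Y) (hYc : IsPreconnected Y) (h : OR Y P W)
    (hX : Clo e X) (hoX : Ori e X oX) (hf : SMap X Y f) (hT : CH.Thn e X f χ) :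
    ∃ z : ℤ, J e X oX (fun x => χ x • F.pull f (eR P W) x) = XF.tau ι * z := by
  subst he
  exact IM.int_pt_thin hY hYc h hX hoX hf hT.thin

section inst
variable {E' : Type} [NormedAddCommGroup E'] [NormedSpace ℝ E'] [FiniteDimensional ℝ E']
  {p ι : Type} [Fintype p] [DecidableEq p] [Fintype ι] [DecidableEq ι]
  {B : Set E'} {N : E' → EuclideanSpace ℝ p →L[ℝ] EuclideanSpace ℝ p} {b r d : ℕ}

/-- **the hypothesis `IT` of block Q** -/
theorem IT_of (hB : Clo b B) (hBc : IsPreconnected B) (hN : PField B r N)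
    (hs : ∀ x ∈ B, ∀ u v, ⟪N x u, v⟫ = ⟪u, N x v⟫) (hι : Fintype.card ι = r)
    (hd : d + 2 = 2 * r) (c : CH.Chn B d) :
    ∃ z : ℤ, J (d + 2) (c.Z ×ˢ CPk 1) (QS.oP c)
      (fun z => QS.cP c z • F.pull (QS.fP c) (eR (NLp N) (WNp ι N)) z) = XF.tau ι * z := by
  have : Nonempty ι := Fintype.card_pos_iff.1 (by omega)
  exact int_pt (by rw [hι, hd]) (hB.prod (clo_CPk (k := 1))).sub (hBc.prod isPreconnected_CPk)
    (or_NLp hN hs hι) (QS.clo_P c) (QS.ori_P c) (QS.smap_P c) (QS.thn_P c hB)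

end inst

variable {n N k m : ℕ} {κ : ℝ} {S : Set (Euc N)} {G : Geo n N κ S}
  {ι : Type} [Fintype ι] [DecidableEq ι] {W : Euc N × Euc N → (ι × Fin 2 → Fin N) → ℝ}
  {p₀ : Euc N} {x : Euc N → Ext (Euc N)}
  {g : Euc N × Euc N → Fin m → ℂ} {Fc x0 : MM m → Ext (MM m)}
  {pt : Type} [Fintype pt] [DecidableEq pt]
  {P' : MM m → EuclideanSpace ℝ pt →L[ℝ] EuclideanSpace ℝ pt} {α β₁ ν : ℝ}


end Crest.Agent.R208.CQ
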