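import Mathlib

-- ▼ part R208/SP1
section

/-!
# R208, block SPEC, part 1: the principal square root in a finite dimensional complex algebra
-/

set_option autoImplicit false

namespace Crest.Agent.R208.SP

open Polynomial

/-- a complex square root in the open right half plane -/
theorem exists_sq_re_pos {r : ℂ} (hr : ∀ t : ℝ, 0 ≤ t → r ≠ -(t : ℂ)) :
    ∃ s : ℂ, s ^ 2 = r ∧ 0 < s.re := by
  obtain ⟨s, hs⟩ := IsAlgClosed.exists_pow_nat_eq r (by norm_num : 0 < 2)
  have h0 : s.re ≠ 0 := by
    intro h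
    refine hr (s.im ^ 2) (by positivity) ?_
    rw [← hs]
    apply Complex.ext <;> simp [pow_two, h]
  rcases lt_or_gt_of_ne h0 with h | h
  · exact ⟨-s, by rw [neg_sq, hs], by simpa using h⟩
  · exact ⟨s, hs, h⟩

section Alg

variable {A : Type*} [Ring A] [Algebra ℂ A] [FiniteDimensional ℂ A]

/-- a root of the minimal polynomial is in the spectrum -/
theorem not_isUnit_of_isRoot_minpoly {a : A} {r : ℂ} (hr : (minpoly ℂ a).IsRoot r) :
    ¬ IsUnit (a - algebraMap ℂ A r) := by
  intro hu
  have hint : IsIntegral ℂ a := IsIntegral.of_finite ℂ a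
  obtain ⟨g, hg⟩ := dvd_iff_isRoot.mpr hr
  have hf0 : minpoly ℂ a ≠ 0 := minpoly.ne_zero hint
  have h1 : (a - algebraMap ℂ A r) * aeval a g = 0 := by
    have := minpoly.aeval ℂ a
    rw [hg] at this
    simpa using this
  have h2 : aeval a g = 0 := by
    obtain ⟨u, hu⟩ := hu
    rw [← hu] at h1
    exact (Units.mul_right_eq_zero u).mp h1
  have h3 : minpoly ℂ a ∣ g := minpoly.dvd ℂ a h2
  have hg0 : g ≠ 0 := by
    rintro rfl
    rw [mul_zero] at hg
    exact hf0 hg
  have h4 := natDegree_le_of_dvd h3 hg0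
  have h5 : (minpoly ℂ a).natDegree = 1 + g.natDegree := by
    rw [hg, natDegree_mul (X_sub_C_ne_zero r) hg0, natDegree_X_sub_C]
  omega

/-- If `q` vanishes at all roots of the minimal polynomial then `q(a)` is nilpotent. -/
theorem isNilpotent_aeval {a : A} {q : ℂ[X]} (hq : ∀ r : ℂ, (minpoly ℂ a).IsRoot r → q.IsRoot r) :
    ∃ k : ℕ, minpoly ℂ a ∣ q ^ k := by
  have hint : IsIntegral ℂ a := IsIntegral.of_finite ℂ a
  have hf0 : minpoly ℂ a ≠ 0 := minpoly.ne_zero hint
  obtain ⟨g, k, sqf, hgf, hfg⟩ := exists_squarefree_dvd_pow_of_ne_zero hf0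
  refine ⟨k, hfg.trans (pow_dvd_pow_of_dvd ?_ k)⟩
  have hg0 : g ≠ 0 := sqf.ne_zero
  by_cases hq0 : q = 0
  · rw [hq0]; exact dvd_zero g
  refine (IsAlgClosed.splits g).dvd_of_roots_le_roots hg0 ?_
  have hnd : g.roots.Nodup := nodup_roots (PerfectField.separable_iff_squarefree.mpr sqf)
  rw [Multiset.le_iff_subset hnd]
  intro r hr
  rw [mem_roots hg0] at hr
  rw [mem_roots hq0]
  exact hq r (hr.dvd hgf)

omit [FiniteDimensional ℂ A] in
/-- If `q` does not vanish at the roots of the minimal polynomial then `q(a)` has a polynomial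
inverse. -/
theorem exists_inv_aeval {a : A} {q : ℂ[X]} (hq : ∀ r : ℂ, (minpoly ℂ a).IsRoot r → q.eval r ≠ 0) :
    ∃ u v : ℂ[X], u * minpoly ℂ a + v * q = 1 := by
  have : IsCoprime (minpoly ℂ a) q := by
    rw [Polynomial.isCoprime_iff_aeval_ne_zero_of_isAlgClosed (k := ℂ) ℂ]
    intro r
    by_cases h : (minpoly ℂ a).IsRoot r
    · right; simpa using hq r h
    · left; simpa using h
  obtain ⟨u, v, h⟩ := this
  exact ⟨u, v, h⟩

/-- Existence of the principal square root as a polynomial in `a`. -/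
theorem exists_sqrt (a : A) (ha : ∀ t : ℝ, 0 ≤ t → IsUnit (a + algebraMap ℂ A t)) :
    ∃ p : ℂ[X], aeval a p * aeval a p = a ∧
      ∀ z : ℂ, z.re ≤ 0 → IsUnit (aeval a p - algebraMap ℂ A z) := by
  classical
  have hroot : ∀ r : ℂ, (minpoly ℂ a).IsRoot r → ∀ t : ℝ, 0 ≤ t → r ≠ -(t : ℂ) := by
    intro r hr t ht h
    apply not_isUnit_of_isRoot_minpoly hr
    rw [h]
    simpa using ha t ht
  have hs : ∀ r : ℂ, ∃ s : ℂ, (minpoly ℂ a).IsRoot r → s ^ 2 = r ∧ 0 < s.re := by
    intro r
    by_cases h : (minpoly ℂ a).IsRoot r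
    · obtain ⟨s, hs⟩ := exists_sq_re_pos (hroot r h)
      exact ⟨s, fun _ => hs⟩
    · exact ⟨0, fun h' => absurd h' h⟩
  choose s hs using hs
  have hint : IsIntegral ℂ a := IsIntegral.of_finite ℂ a
  have hf0 : minpoly ℂ a ≠ 0 := minpoly.ne_zero hint
  set p : ℂ[X] := Lagrange.interpolate (minpoly ℂ a).roots.toFinset id s with hp
  have hpe : ∀ r : ℂ, (minpoly ℂ a).IsRoot r → p.eval r = s r := by
    intro r hr
    have := Lagrange.eval_interpolate_at_node (s := (minpoly ℂ a).roots.toFinset) (v := id) s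
      (Set.injOn_id _) (i := r) (by simpa [hf0] using hr)
    exact this
  -- the commutative algebra `ℂ[a]`
  set aa : Algebra.adjoin ℂ {a} := ⟨a, Algebra.self_mem_adjoin_singleton ℂ a⟩ with haa
  have hmin : aeval aa (minpoly ℂ a) = 0 := by
    apply Subtype.ext
    simp [haa, minpoly.aeval]
  set P : (Algebra.adjoin ℂ {a})[X] := X ^ 2 - C aa with hP
  set x : Algebra.adjoin ℂ {a} := aeval aa p with hx
  have h1 : IsNilpotent (aeval x P) := by
    obtain ⟨k, q, hq⟩ := isNilpotent_aeval (a := a) (q := p ^ 2 - X) (by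
      intro r hr
      simp [IsRoot, hpe r hr, (hs r hr).1])
    refine ⟨k, ?_⟩
    have : aeval x P = aeval aa (p ^ 2 - X) := by simp [hP, hx]
    rw [this, ← map_pow, hq, map_mul, hmin, zero_mul]
  have h2 : IsUnit (aeval x (derivative P)) := by
    obtain ⟨u, v, huv⟩ := exists_inv_aeval (a := a) (q := C 2 * p) (by
      intro r hr
      have h3 : s r ≠ 0 := by
        intro h
        have := (hs r hr).2
        rw [h] at this
        simp at this
      simp [hpe r hr, h3])
    have h3 : aeval x (derivative P) = aeval aa (C 2 * p) := by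
      have h2' : (algebraMap ℂ (Algebra.adjoin ℂ {a})) 2 = 1 + 1 := by
        rw [map_ofNat]; norm_num
      simp [hP, hx, h2']
    rw [h3]
    refine IsUnit.of_mul_eq_one (aeval aa v) ?_
    have := congrArg (aeval aa) huv
    rw [map_add, map_mul, map_mul, hmin, mul_zero, zero_add, map_one] at this
    rw [mul_comm]; exact this
  obtain ⟨y, ⟨hy1, hy2⟩, -⟩ := existsUnique_nilpotent_sub_and_aeval_eq_zero h1 h2
  -- write `y` as a polynomial in `a`
  obtain ⟨q, hq⟩ : ∃ q : ℂ[X], aeval a q = (y : A) := by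
    have h := (SetLike.ext_iff.mp (Algebra.adjoin_singleton_eq_range_aeval ℂ a) (y : A)).mp y.2
    obtain ⟨q, hq⟩ := h
    exact ⟨q, hq⟩
  refine ⟨q, ?_, ?_⟩
  · rw [hq]
    have : y * y = aa := by
      have h4 : aeval y P = y * y - aa := by simp [hP, pow_two]
      rw [h4, sub_eq_zero] at hy2
      exact hy2
    have := congrArg Subtype.val this
    simpa [haa] using this
  · intro z hz
    -- `p(a) - z` is a unit and `q(a) - p(a)` is nilpotent
    obtain ⟨u, v, huv⟩ := exists_inv_aeval (a := a) (q := p - C z) (by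
      intro r hr h
      rw [eval_sub, eval_C, hpe r hr, sub_eq_zero] at h
      have := (hs r hr).2
      rw [h] at this
      linarith)
    have h5 : IsUnit (x - algebraMap ℂ _ z) := by
      have h6 : x - algebraMap ℂ _ z = aeval aa (p - C z) := by simp [hx]
      rw [h6]
      refine IsUnit.of_mul_eq_one (aeval aa v) ?_
      have := congrArg (aeval aa) huv
      rw [map_add, map_mul, map_mul, hmin, mul_zero, zero_add, map_one] at this
      rw [mul_comm]; exact this
    have h7 : IsUnit (y - algebraMap ℂ _ z) := by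
      have h8 : y - algebraMap ℂ _ z = (x - algebraMap ℂ _ z) + -(x - y) := by ring
      rw [h8]
      exact hy1.neg.isUnit_add_left_of_commute h5 (Commute.all _ _)
    have h9 := h7.map (Algebra.adjoin ℂ {a}).val
    simpa [hq] using h9

/-- the Sylvester operator is injective -/
theorem sylvester {x y b : A} (hx : ∀ z : ℂ, z.re ≤ 0 → IsUnit (x - algebraMap ℂ A z))
    (hy : ∀ z : ℂ, z.re ≤ 0 → IsUnit (y - algebraMap ℂ A z)) (h : x * b + b * y = 0) : b = 0 := by
  -- `f(x) b = b f(-y)` for every polynomial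
  have h1 : x * b = b * (-y) := by
    rw [mul_neg]; exact eq_neg_of_add_eq_zero_left h
  have h2 : ∀ f : ℂ[X], aeval x f * b = b * aeval (-y) f := by
    intro f
    induction f using Polynomial.induction_on' with
    | add p q hp hq => simp [add_mul, mul_add, hp, hq]
    | monomial n c =>
      have h3 : ∀ n : ℕ, x ^ n * b = b * (-y) ^ n := by
        intro n
        induction n with
        | zero => simp
        | succ n ih => rw [pow_succ, mul_assoc, h1, ← mul_assoc, ih, mul_assoc, ← pow_succ]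
      rw [aeval_monomial, aeval_monomial, mul_assoc, h3, ← mul_assoc, ← mul_assoc,
        Algebra.commutes c b]
  have h3 := h2 (minpoly ℂ x)
  rw [minpoly.aeval, zero_mul] at h3
  have h4 : IsUnit (aeval (-y) (minpoly ℂ x)) := by
    have hint : IsIntegral ℂ x := IsIntegral.of_finite ℂ x
    have h5 := (IsAlgClosed.splits (minpoly ℂ x)).eq_prod_roots
    rw [(minpoly.monic hint).leadingCoeff] at h5
    by_contra hnu
    rw [h5, map_mul, aeval_C, map_one, one_mul] at hnu
    obtain ⟨k, hk, hk2⟩ := spectrum.exists_mem_of_not_isUnit_aeval_prod hnu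
    -- `k` is in the spectrum of `-y` and a root of the minimal polynomial of `x`
    have hk3 : ¬ (k.re ≤ 0) := by
      intro hre
      exact not_isUnit_of_isRoot_minpoly hk2 (hx k hre)
    have hk4 : IsUnit (algebraMap ℂ A k - -y) := by
      have := (hy (-k) (by simp; linarith))
      convert this using 1
      simp; abel
    exact spectrum.mem_iff.mp hk hk4
  obtain ⟨u, hu⟩ := h4
  rw [← hu] at h3
  exact (Units.mul_left_eq_zero u).mp h3.symm

/-- uniqueness of the principal square root -/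
theorem sqrt_unique {x y : A} (hx : ∀ z : ℂ, z.re ≤ 0 → IsUnit (x - algebraMap ℂ A z))
    (hy : ∀ z : ℂ, z.re ≤ 0 → IsUnit (y - algebraMap ℂ A z)) (h : x * x = y * y) : x = y := by
  have : x - y = 0 := by
    refine sylvester hx hy ?_
    rw [mul_sub, sub_mul, h]; abel
  exact sub_eq_zero.mp this

end Alg

end Crest.Agent.R208.SP
end

-- ▼ part R208/SP1b
section

/-!
# R208, block SPEC, part 1b: the principal square root function, commutation, equivariance,
smoothness
-/

set_option autoImplicit false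

namespace Crest.Agent.R208.SP

open Polynomial Filter Topology

section Alg

variable {A : Type*} [Ring A] [Algebra ℂ A]

/-- the domain of the principal square root: no spectrum on `(-∞, 0]` -/
def Dom (a : A) : Prop := ∀ t : ℝ, 0 ≤ t → IsUnit (a + algebraMap ℂ A t)

/-- spectrum in the open right half plane -/
def Rhp (x : A) : Prop := ∀ z : ℂ, z.re ≤ 0 → IsUnit (x - algebraMap ℂ A z)

theorem Rhp.isUnit {x : A} (hx : Rhp x) : IsUnit x := by
  simpa using hx 0 (by simp)

theorem Dom.isUnit {x : A} (hx : Dom x) : IsUnit x := by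
  simpa using hx 0 le_rfl

/-- the square of an element with spectrum in the right half plane is in the domain -/
theorem Rhp.dom_mul_self {x : A} (hx : Rhp x) : Dom (x * x) := by
  intro t ht
  have h1 : x * x + algebraMap ℂ A t =
      (x - algebraMap ℂ A (Complex.I * (Real.sqrt t : ℝ))) *
      (x - algebraMap ℂ A (-(Complex.I * (Real.sqrt t : ℝ)))) := by
    have h2 : ((Real.sqrt t : ℝ) : ℂ) * ((Real.sqrt t : ℝ) : ℂ) = (t : ℂ) := by
      rw [← Complex.ofReal_mul, Real.mul_self_sqrt ht]
    have h3 : algebraMap ℂ A (Complex.I * (Real.sqrt t : ℝ)) *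
        algebraMap ℂ A (Complex.I * (Real.sqrt t : ℝ)) = - algebraMap ℂ A t := by
      rw [← map_mul, ← map_neg]
      congr 1
      calc Complex.I * (Real.sqrt t : ℝ) * (Complex.I * (Real.sqrt t : ℝ))
          = (Complex.I * Complex.I) * (((Real.sqrt t : ℝ) : ℂ) * ((Real.sqrt t : ℝ) : ℂ)) := by ring
        _ = -(t : ℂ) := by rw [h2, Complex.I_mul_I]; ring
    rw [map_neg, sub_neg_eq_add, sub_mul, mul_add, mul_add, h3,
      Algebra.commutes (Complex.I * (Real.sqrt t : ℝ)) x]
    abel
  rw [h1]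
  exact (hx _ (by simp)).mul (hx _ (by simp))

variable [FiniteDimensional ℂ A]

open Classical in
/-- the principal square root -/
noncomputable def sq (a : A) : A :=
  if h : Dom a then aeval a (exists_sqrt a h).choose else 0

theorem sq_mul_self {a : A} (h : Dom a) : sq a * sq a = a := by
  unfold sq; rw [dif_pos h]; exact (exists_sqrt a h).choose_spec.1

theorem rhp_sq {a : A} (h : Dom a) : Rhp (sq a) := by
  unfold sq; rw [dif_pos h]; exact (exists_sqrt a h).choose_spec.2

theorem exists_poly_sq (a : A) : ∃ p : ℂ[X], sq a = aeval a p := by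
  by_cases h : Dom a
  · exact ⟨(exists_sqrt a h).choose, by unfold sq; rw [dif_pos h]⟩
  · exact ⟨0, by unfold sq; rw [dif_neg h, map_zero]⟩

theorem sq_eq {x : A} (hx : Rhp x) : sq (x * x) = x :=
  sqrt_unique (rhp_sq hx.dom_mul_self) hx (sq_mul_self hx.dom_mul_self)

theorem sq_eq_of {a x : A} (hx : Rhp x) (h : x * x = a) : sq a = x := by
  rw [← h]; exact sq_eq hx

omit [FiniteDimensional ℂ A] in
theorem aeval_commute {a b : A} (h : Commute a b) (p : ℂ[X]) : Commute (aeval a p) b := by
  induction p using Polynomial.induction_on' with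
  | add p q hp hq => rw [map_add]; exact hp.add_left hq
  | monomial n c =>
    rw [aeval_monomial]
    exact Commute.mul_left (Algebra.commutes c b) (h.pow_left n)

theorem sq_commute {a b : A} (h : Commute a b) : Commute (sq a) b := by
  obtain ⟨p, hp⟩ := exists_poly_sq a
  rw [hp]; exact aeval_commute h p

/-- equivariance under (semilinear) ring homomorphisms: if `σ` is a ring homomorphism which
maps the real part of the scalars to itself up to conjugation -/
theorem sq_map {B : Type*} [Ring B] [Algebra ℂ B] [FiniteDimensional ℂ B] (σ : A →+* B)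
    (τ : ℂ → ℂ) (hτ : ∀ z, (τ z).re = z.re) (hσ : ∀ z, σ (algebraMap ℂ A (τ z)) = algebraMap ℂ B z)
    {a : A} (h : Dom a) : sq (σ a) = σ (sq a) := by
  refine sq_eq_of ?_ (by rw [← map_mul, sq_mul_self h])
  intro z hz
  have := (rhp_sq h (τ z) (by rw [hτ]; exact hz)).map σ
  rwa [map_sub, hσ] at this

end Alg

section Normed

variable {A : Type*} [NormedRing A] [NormedAlgebra ℂ A] [FiniteDimensional ℂ A]

/-- The set of elements with spectrum in the right half plane is open. -/
theorem isOpen_rhp : IsOpen {x : A | Rhp x} := by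
  have : CompleteSpace A := FiniteDimensional.complete ℂ A
  rw [isOpen_iff_mem_nhds]
  intro x₀ hx₀
  set C : ℝ := (‖x₀‖ + 1) * ‖(1 : A)‖ with hC
  set K : Set ℂ := Metric.closedBall 0 C ∩ {z : ℂ | z.re ≤ 0} with hK
  have hKc : IsCompact K :=
    (isCompact_closedBall 0 C).inter_right (isClosed_le Complex.continuous_re continuous_const)
  have hev : ∀ᶠ x in 𝓝 x₀, ∀ z ∈ K, IsUnit (x - algebraMap ℂ A z) := by
    refine hKc.eventually_forall_of_forall_eventually ?_
    intro z hz
    have hcont : Continuous (fun q : A × ℂ => q.1 - algebraMap ℂ A q.2) :=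
      continuous_fst.sub ((continuous_algebraMap ℂ A).comp continuous_snd)
    have := hcont.continuousAt (x := (x₀, z))
    exact this.eventually ((Units.isOpen (R := A)).mem_nhds (hx₀ z hz.2))
  have hb : ∀ᶠ x in 𝓝 x₀, ‖x‖ < ‖x₀‖ + 1 :=
    continuous_norm.continuousAt.eventually (gt_mem_nhds (by linarith))
  filter_upwards [hev, hb] with x hx hxb z hz
  by_cases hzC : ‖z‖ ≤ C
  · exact hx z ⟨by simpa using hzC, hz⟩
  · have hn : ‖x‖ * ‖(1 : A)‖ < ‖z‖ := by
      refine lt_of_le_of_lt ?_ (not_le.mp hzC)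
      exact mul_le_mul_of_nonneg_right hxb.le (norm_nonneg _)
    have h1 : z ∈ resolventSet ℂ x := spectrum.mem_resolventSet_of_norm_lt_mul hn
    have h2 : IsUnit (algebraMap ℂ A z - x) := h1
    have h3 : x - algebraMap ℂ A z = -(algebraMap ℂ A z - x) := by abel
    rw [h3]
    exact h2.neg

/-- The Sylvester operator `Y ↦ XY + YX` as a continuous linear map. -/
noncomputable def syl (x : A) : A →L[ℂ] A :=
  ContinuousLinearMap.mul ℂ A x + (ContinuousLinearMap.mul ℂ A).flip x

omit [FiniteDimensional ℂ A] in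
@[simp] theorem syl_apply (x y : A) : syl x y = x * y + y * x := rfl

theorem syl_injective {x : A} (hx : Rhp x) : Function.Injective (syl x) := by
  rw [injective_iff_map_eq_zero]
  intro b hb
  exact sylvester hx hx hb

omit [FiniteDimensional ℂ A] in
theorem hasFDerivAt_mul_self (x : A) :
    HasFDerivAt (𝕜 := ℂ) (fun x : A => x * x) (syl x) x := by
  have := (hasFDerivAt_id (𝕜 := ℂ) x).mul' (hasFDerivAt_id (𝕜 := ℂ) x)
  refine this.congr_fderiv ?_
  ext y
  simp [syl]

/-- The principal square root is smooth (complex analytic). -/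
theorem contDiffAt_sq {a : A} (ha : Dom a) (n : WithTop ℕ∞) : ContDiffAt ℂ n (sq : A → A) a := by
  have : CompleteSpace A := FiniteDimensional.complete ℂ A
  suffices h : ∀ m : WithTop ℕ∞, m ≠ 0 → ContDiffAt ℂ m (sq : A → A) a by
    by_cases hn : n = 0
    · exact (h 1 one_ne_zero).of_le (by rw [hn]; exact zero_le_one)
    · exact h n hn
  intro m hm
  set f : A → A := fun x => x * x with hf
  set x₀ := sq a with hx₀
  have hr : Rhp x₀ := rhp_sq ha
  let e : A ≃ₗ[ℂ] A := LinearEquiv.ofInjectiveEndo (syl x₀ : A →ₗ[ℂ] A) (syl_injective hr)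
  let E : A ≃L[ℂ] A := e.toContinuousLinearEquiv
  have hE : (E : A →L[ℂ] A) = syl x₀ := by
    ext y; rfl
  have hfd : HasFDerivAt (𝕜 := ℂ) f (E : A →L[ℂ] A) x₀ := by
    rw [hE]; exact hasFDerivAt_mul_self x₀
  have hfc : ContDiffAt ℂ m f x₀ := (contDiff_id.mul contDiff_id).contDiffAt
  have hfx : f x₀ = a := sq_mul_self ha
  set g := hfc.localInverse hfd hm with hg
  have hgc : ContDiffAt ℂ m g a := by
    have := hfc.to_localInverse hfd hm
    rwa [hfx] at this
  have hga : g a = x₀ := by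
    have := hfc.localInverse_apply_image hfd hm
    rwa [hfx] at this
  have hright : ∀ᶠ y in 𝓝 a, f (g y) = y := by
    have := (hfc.hasStrictFDerivAt' hfd hm).eventually_right_inverse
    rwa [hfx] at this
  have hrhp : ∀ᶠ y in 𝓝 a, Rhp (g y) := by
    have h1 : ∀ᶠ x in 𝓝 (g a), Rhp x := by
      rw [hga]; exact isOpen_rhp.mem_nhds hr
    exact hgc.continuousAt.eventually h1
  refine hgc.congr_of_eventuallyEq ?_
  filter_upwards [hright, hrhp] with y h1 h2
  exact sq_eq_of h2 h1

/-- The domain of the principal square root is open. -/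
theorem isOpen_dom : IsOpen {x : A | Dom x} := by
  have : CompleteSpace A := FiniteDimensional.complete ℂ A
  rw [isOpen_iff_mem_nhds]
  intro a ha
  have hm : (1 : WithTop ℕ∞) ≠ 0 := one_ne_zero
  set f : A → A := fun x => x * x with hf
  set x₀ := sq a with hx₀
  have hr : Rhp x₀ := rhp_sq ha
  let e : A ≃ₗ[ℂ] A := LinearEquiv.ofInjectiveEndo (syl x₀ : A →ₗ[ℂ] A) (syl_injective hr)
  let E : A ≃L[ℂ] A := e.toContinuousLinearEquiv
  have hE : (E : A →L[ℂ] A) = syl x₀ := by
    ext y; rfl
  have hfd : HasFDerivAt (𝕜 := ℂ) f (E : A →L[ℂ] A) x₀ := by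
    rw [hE]; exact hasFDerivAt_mul_self x₀
  have hfc : ContDiffAt ℂ 1 f x₀ := (contDiff_id.mul contDiff_id).contDiffAt
  have hfx : f x₀ = a := sq_mul_self ha
  set g := hfc.localInverse hfd hm with hg
  have hgc : ContDiffAt ℂ 1 g a := by
    have := hfc.to_localInverse hfd hm
    rwa [hfx] at this
  have hga : g a = x₀ := by
    have := hfc.localInverse_apply_image hfd hm
    rwa [hfx] at this
  have hright : ∀ᶠ y in 𝓝 a, f (g y) = y := by
    have := (hfc.hasStrictFDerivAt' hfd hm).eventually_right_inverse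
    rwa [hfx] at this
  have hrhp : ∀ᶠ y in 𝓝 a, Rhp (g y) := by
    have h1 : ∀ᶠ x in 𝓝 (g a), Rhp x := by
      rw [hga]; exact isOpen_rhp.mem_nhds hr
    exact hgc.continuousAt.eventually h1
  filter_upwards [hright, hrhp] with y h1 h2
  show Dom y
  rw [← h1]
  exact h2.dom_mul_self

end Normed

end Crest.Agent.R208.SP
end

-- ▼ part R208/SP2
section

/-!
# R208, block SPEC, part 2: the polar complex structure of `J` (algebra)

`P` idempotent, `J = P J P` without real eigenvalue on the range of `P`: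
`I := J (sq (-J² + (1 - P)))⁻¹` is the complex structure on the range of `P` for which
`Q = (P - i I)/2` is the spectral projection of `J` belonging to the upper half plane.
-/

set_option autoImplicit false

namespace Crest.Agent.R208.SP

open Filter Topology

section Basic

variable {A : Type*} [Ring A]

/-- inverse and commutation -/
theorem commute_inverse {a b : A} (h : Commute a b) : Commute (Ring.inverse a) b := by
  by_cases ha : IsUnit a
  · obtain ⟨u, rfl⟩ := ha
    rw [Ring.inverse_unit]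
    exact Commute.units_inv_left h
  · rw [Ring.inverse_non_unit _ ha]; exact Commute.zero_left _

/-- block units: if `e` is an idempotent commuting with the units `u`, `v`, then
`e u + (1-e) v` is a unit -/
theorem isUnit_block {e u v : A} (he : e * e = e) (hu : IsUnit u) (hv : IsUnit v)
    (hcu : Commute e u) (hcv : Commute e v) : IsUnit (e * u + (1 - e) * v) := by
  obtain ⟨u, rfl⟩ := hu
  obtain ⟨v, rfl⟩ := hv
  have hcu' : Commute e (↑u⁻¹ : A) := Commute.units_inv_right hcu
  have hcv' : Commute e (↑v⁻¹ : A) := Commute.units_inv_right hcv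
  have h1 : (1 - e) * e = 0 := by rw [sub_mul, one_mul, he, sub_self]
  have h2 : e * (1 - e) = 0 := by rw [mul_sub, mul_one, he, sub_self]
  have h3 : (1 - e) * (1 - e) = 1 - e := by rw [mul_sub, mul_one, h1, sub_zero]
  have hcu2 : Commute (1 - e) (u : A) := (Commute.one_left _).sub_left hcu
  have hcv2 : Commute (1 - e) (v : A) := (Commute.one_left _).sub_left hcv
  have hcu2' : Commute (1 - e) (↑u⁻¹ : A) := (Commute.one_left _).sub_left hcu'
  have hcv2' : Commute (1 - e) (↑v⁻¹ : A) := (Commute.one_left _).sub_left hcv'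
  have key : ∀ x y x' y' : A, Commute e x → Commute (1 - e) x → Commute e y → Commute (1 - e) y →
      (e * x + (1 - e) * y) * (e * x' + (1 - e) * y') = e * (x * x') + (1 - e) * (y * y') := by
    intro x y x' y' hx hx2 hy hy2
    have a1 : e * x * (e * x') = e * (x * x') := by
      rw [mul_assoc, ← mul_assoc x, ← hx.eq, mul_assoc, ← mul_assoc e e, he]
    have a2 : e * x * ((1 - e) * y') = 0 := by
      rw [mul_assoc, ← mul_assoc x, ← hx2.eq, mul_assoc, ← mul_assoc e (1 - e), h2, zero_mul]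
    have a3 : (1 - e) * y * (e * x') = 0 := by
      rw [mul_assoc, ← mul_assoc y, ← hy.eq, mul_assoc, ← mul_assoc (1 - e) e, h1, zero_mul]
    have a4 : (1 - e) * y * ((1 - e) * y') = (1 - e) * (y * y') := by
      rw [mul_assoc, ← mul_assoc y, ← hy2.eq, mul_assoc, ← mul_assoc (1 - e) (1 - e), h3]
    rw [add_mul, mul_add, mul_add, a1, a2, a3, a4, add_zero, zero_add]
  refine isUnit_iff_exists.mpr ⟨e * ↑u⁻¹ + (1 - e) * ↑v⁻¹, ?_, ?_⟩
  · rw [key _ _ _ _ hcu hcu2 hcv hcv2, Units.mul_inv, Units.mul_inv]; simp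
  · rw [key _ _ _ _ hcu' hcu2' hcv' hcv2', Units.inv_mul, Units.inv_mul]; simp

end Basic

section Alg

variable {A : Type*} [Ring A] [Algebra ℂ A]

/-- `I` is the polar complex structure of `J` on the range of the idempotent `P`: all eigenvalues
of `J` on the `i`-eigenspace of `I` have positive imaginary part. -/
structure Pol (P J I : A) : Prop where
  PP : P * P = P
  PJ : P * J = J
  JP : J * P = J
  PI : P * I = I
  IP : I * P = I
  II : I * I = -P
  comm : Commute I J
  rhp : Rhp (-(I * J) + (1 - P))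

/-- the basic hypothesis: `J = P J P` has no real eigenvalue on the range of the idempotent `P` -/
structure NoReal (P J : A) : Prop where
  PP : P * P = P
  PJ : P * J = J
  JP : J * P = J
  unit : ∀ t : ℝ, IsUnit (J - algebraMap ℂ A t * P + (1 - P))

theorem NoReal.dom {P J : A} (h : NoReal P J) : Dom (-(J * J) + (1 - P)) := by
  intro t ht
  set s : ℂ := ((Real.sqrt t : ℝ) : ℂ) with hs
  have hss : s * s = (t : ℂ) := by
    rw [hs, ← Complex.ofReal_mul, Real.mul_self_sqrt ht]
  have hc : ∀ x : A, Commute (algebraMap ℂ A s) x := fun x => Algebra.commutes s x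
  have h1 := h.unit (Real.sqrt t)
  have h2 := h.unit (-Real.sqrt t)
  rw [← hs] at h1
  have h2' : IsUnit (J + algebraMap ℂ A s * P + (1 - P)) := by
    have : algebraMap ℂ A ((-Real.sqrt t : ℝ) : ℂ) = - algebraMap ℂ A s := by
      rw [Complex.ofReal_neg, map_neg]
    rw [this, neg_mul, sub_neg_eq_add] at h2
    exact h2
  have hJP : Commute J P := by rw [Commute, SemiconjBy, h.JP, h.PJ]
  have e0 : P * (1 - P) = 0 := by rw [mul_sub, mul_one, h.PP, sub_self]
  have e1 : (1 - P) * P = 0 := by rw [sub_mul, one_mul, h.PP, sub_self]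
  have e2 : J * (1 - P) = 0 := by rw [mul_sub, mul_one, h.JP, sub_self]
  have e3 : (1 - P) * J = 0 := by rw [sub_mul, one_mul, h.PJ, sub_self]
  have e4 : (1 - P) * (1 - P) = 1 - P := by rw [mul_sub, mul_one, e1, sub_zero]
  have h3 : (J - algebraMap ℂ A s * P + (1 - P)) * (J + algebraMap ℂ A s * P + (1 - P)) =
      J * J - algebraMap ℂ A t * P + (1 - P) := by
    have e5 : J * (algebraMap ℂ A s * P) = algebraMap ℂ A s * J := by
      rw [← mul_assoc, ← (hc J).eq, mul_assoc, h.JP]
    have e6 : algebraMap ℂ A s * P * J = algebraMap ℂ A s * J := by rw [mul_assoc, h.PJ]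
    have e7 : algebraMap ℂ A s * P * (algebraMap ℂ A s * P) = algebraMap ℂ A t * P := by
      rw [mul_assoc, ← mul_assoc P, ← (hc P).eq, mul_assoc, h.PP, ← mul_assoc, ← map_mul, hss]
    have e8 : algebraMap ℂ A s * P * (1 - P) = 0 := by rw [mul_assoc, e0, mul_zero]
    have e9 : (1 - P) * (algebraMap ℂ A s * P) = 0 := by
      rw [← mul_assoc, ← (hc _).eq, mul_assoc, e1, mul_zero]
    rw [add_mul, sub_mul, mul_add, mul_add, mul_add, mul_add, mul_add, mul_add, e5, e6, e7, e8,
      e9, e2, e3, e4]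
    abel
  have h4 := h1.mul h2'
  rw [h3] at h4
  -- now `-(J²) + (1-P) + t = - P (J² - t P + (1-P)) + (1-P) (1+t)`
  have h5 : -(J * J) + (1 - P) + algebraMap ℂ A t =
      P * -(J * J - algebraMap ℂ A t * P + (1 - P)) + (1 - P) * (algebraMap ℂ A (1 + t)) := by
    have f1 : P * (J * J) = J * J := by rw [← mul_assoc, h.PJ]
    have f2 : P * (algebraMap ℂ A t * P) = algebraMap ℂ A t * P := by
      rw [← mul_assoc, ← Algebra.commutes (t : ℂ) P, mul_assoc, h.PP]
    rw [mul_neg, mul_add, mul_sub, f1, f2, e0, map_add, map_one, mul_add, mul_one, sub_mul (1 : A),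
      one_mul, ← Algebra.commutes (t : ℂ) P]
    abel
  rw [h5]
  have hcc : Commute P (J * J - algebraMap ℂ A t * P + (1 - P)) := by
    refine ((hJP.symm.mul_right hJP.symm).sub_right ?_).add_right ?_
    · exact Commute.mul_right (Algebra.commutes (t : ℂ) P).symm (Commute.refl _)
    · exact (Commute.one_right _).sub_right (Commute.refl _)
  refine isUnit_block h.PP h4.neg ?_ hcc.neg_right (Algebra.commutes _ _).symm
  refine IsUnit.map (algebraMap ℂ A) ?_
  rw [isUnit_iff_ne_zero]
  intro h0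
  have := congrArg Complex.re h0
  simp at this
  linarith

theorem Pol.commIP {P J I : A} (h : Pol P J I) : Commute I P := by
  rw [Commute, SemiconjBy, h.IP, h.PI]

theorem Pol.commJP {P J I : A} (h : Pol P J I) : Commute J P := by
  rw [Commute, SemiconjBy, h.JP, h.PJ]

/-- the square of `-IJ + (1-P)` -/
theorem Pol.sq_eq {P J I : A} (h : Pol P J I) :
    (-(I * J) + (1 - P)) * (-(I * J) + (1 - P)) = -(J * J) + (1 - P) := by
  have e1 : (1 - P) * (I * J) = 0 := by
    rw [sub_mul, one_mul, ← mul_assoc, h.PI, sub_self]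
  have e2 : (I * J) * (1 - P) = 0 := by
    rw [mul_sub, mul_one, mul_assoc, h.JP, sub_self]
  have e4 : (1 - P) * (1 - P) = 1 - P := by
    rw [mul_sub, mul_one, sub_mul, one_mul, h.PP]; abel
  have e5 : I * J * (I * J) = -(J * J) := by
    rw [mul_assoc, ← mul_assoc J I J, ← h.comm.eq, mul_assoc I J J, ← mul_assoc I I, h.II, neg_mul,
      ← mul_assoc, h.PJ]
  rw [add_mul, mul_add, mul_add, neg_mul_neg, e5, neg_mul, e2, mul_neg, e1, e4]
  abel

variable [FiniteDimensional ℂ A]

/-- the polar complex structure -/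
noncomputable def pol (P J : A) : A := J * Ring.inverse (sq (-(J * J) + (1 - P)))

theorem pol_spec {P J : A} (h : NoReal P J) : Pol P J (pol P J) := by
  set D : A := -(J * J) + (1 - P) with hD
  have hdom : Dom D := h.dom
  set R : A := sq D with hR
  have hRR : R * R = D := sq_mul_self hdom
  have hRr : Rhp R := rhp_sq hdom
  have hJP : Commute J P := by rw [Commute, SemiconjBy, h.JP, h.PJ]
  have hDJ : Commute D J :=
    ((Commute.mul_left (Commute.refl J) (Commute.refl J)).neg_left).add_left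
      ((Commute.one_left J).sub_left hJP.symm)
  have hDP : Commute D P :=
    ((Commute.mul_left hJP hJP).neg_left).add_left ((Commute.one_left P).sub_left (Commute.refl P))
  have hRJ : Commute R J := sq_commute hDJ
  have hRP : Commute R P := sq_commute hDP
  set V : A := Ring.inverse R with hV
  have hVR : V * R = 1 := Ring.inverse_mul_cancel _ hRr.isUnit
  have hRV : R * V = 1 := Ring.mul_inverse_cancel _ hRr.isUnit
  have hVJ : Commute V J := commute_inverse hRJ
  have hVP : Commute V P := commute_inverse hRP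
  have e2 : J * (1 - P) = 0 := by rw [mul_sub, mul_one, h.JP, sub_self]
  have e3 : (1 - P) * J = 0 := by rw [sub_mul, one_mul, h.PJ, sub_self]
  have e1 : (1 - P) * P = 0 := by rw [sub_mul, one_mul, h.PP, sub_self]
  have e4 : (1 - P) * (1 - P) = 1 - P := by rw [mul_sub, mul_one, e1, sub_zero]
  have hIdef : pol P J = J * V := rfl
  have hDP2 : D * P = -(J * J) := by
    rw [hD, add_mul, neg_mul, mul_assoc, h.JP, e1, add_zero]
  have hJJ : J * J = -(D * P) := by rw [hDP2, neg_neg]
  have hVVD : V * V * D = 1 := by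
    rw [← hRR, mul_assoc, ← mul_assoc V R R, hVR, one_mul, hVR]
  -- `R (1 - P) = 1 - P`
  have hRq : R * (1 - P) = 1 - P := by
    -- `P R + (1-P)` is also a principal square root of `D`
    have hr2 : Rhp (P * R + (1 - P)) := by
      intro z hz
      have h6 : P * R + (1 - P) - algebraMap ℂ A z =
          P * (R - algebraMap ℂ A z) + (1 - P) * (algebraMap ℂ A (1 - z)) := by
        rw [map_sub, map_one]
        noncomm_ring
      rw [h6]
      refine isUnit_block h.PP (hRr z hz) ?_ ?_ ?_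
      · refine IsUnit.map (algebraMap ℂ A) ?_
        rw [isUnit_iff_ne_zero]
        intro h0
        have := congrArg Complex.re h0
        simp at this
        linarith
      · exact hRP.symm.sub_right (Algebra.commutes _ _).symm
      · exact (Algebra.commutes _ _).symm
    have hsq : (P * R + (1 - P)) * (P * R + (1 - P)) = D := by
      have g1 : P * R * (P * R) = D * P := by
        rw [mul_assoc, ← mul_assoc R P R, hRP.eq, mul_assoc P R R, ← mul_assoc P P, h.PP, hRR,
          hDP.eq]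
      have g2 : P * R * (1 - P) = 0 := by
        rw [mul_sub, mul_one, mul_assoc, hRP.eq, ← mul_assoc, h.PP, sub_self]
      have g3 : (1 - P) * (P * R) = 0 := by rw [← mul_assoc, e1, zero_mul]
      have g4 : D * P + (1 - P) = D := by rw [hDP2]
      rw [add_mul, mul_add, mul_add, g1, g2, g3, e4, zero_add, add_zero, g4]
    have : R = P * R + (1 - P) := sq_eq_of hr2 hsq
    have g2 : P * R * (1 - P) = 0 := by
      rw [mul_sub, mul_one, mul_assoc, hRP.eq, ← mul_assoc, h.PP, sub_self]
    calc R * (1 - P) = (P * R + (1 - P)) * (1 - P) := by rw [← this]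
      _ = 1 - P := by rw [add_mul, g2, e4, zero_add]
  -- `-(I J) + (1-P) = R`
  have hIJ : -(pol P J * J) + (1 - P) = R := by
    have g5 : pol P J * J = -(R * P) := by
      rw [hIdef, mul_assoc, hVJ.eq, ← mul_assoc, hJJ, neg_mul, mul_assoc, ← hVP.eq, ← mul_assoc,
        ← hRR, mul_assoc R R V, hRV, mul_one]
    rw [g5, neg_neg]
    calc R * P + (1 - P) = R * P + R * (1 - P) := by rw [hRq]
      _ = R := by rw [← mul_add]; simp
  refine ⟨h.PP, h.PJ, h.JP, ?_, ?_, ?_, ?_, ?_⟩
  · rw [hIdef, ← mul_assoc, h.PJ]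
  · rw [hIdef, mul_assoc, hVP.eq, ← mul_assoc, h.JP]
  · rw [hIdef, mul_assoc, ← mul_assoc V J V, hVJ.eq, mul_assoc J V V, ← mul_assoc, hJJ]
    have : D * P * (V * V) = P := by
      rw [hDP.eq, mul_assoc]
      have h7 : Commute D (V * V) := by
        have h8 : Commute V D := by
          rw [← hRR]
          have h9 : Commute V R := by rw [Commute, SemiconjBy, hVR, hRV]
          exact h9.mul_right h9
        exact (h8.mul_left h8).symm
      rw [h7.eq, hVVD, mul_one]
    rw [neg_mul, this]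
  · rw [hIdef]; exact (Commute.refl J).mul_left hVJ
  · rw [hIJ]; exact hRr

/-- uniqueness of the polar complex structure -/
theorem Pol.unique {P J I I' : A} (h : Pol P J I) (h' : Pol P J I') : I = I' := by
  have h1 : -(I * J) + (1 - P) = -(I' * J) + (1 - P) := by
    refine sqrt_unique h.rhp h'.rhp ?_
    rw [h.sq_eq, h'.sq_eq]
  have h2 : I * J = I' * J := by
    have := add_right_cancel h1
    exact neg_inj.mp this
  -- `R = -(I J) + (1 - P)` is invertible and `I R = J` ... `I * (-(I*J)) = J`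
  have h3 : I * (-(I * J) + (1 - P)) = J := by
    rw [mul_add, mul_neg, ← mul_assoc, h.II, neg_mul, neg_neg, h.PJ, mul_sub, mul_one, h.IP,
      sub_self, add_zero]
  have h4 : I' * (-(I * J) + (1 - P)) = J := by
    rw [h2, mul_add, mul_neg, ← mul_assoc, h'.II, neg_mul, neg_neg, h.PJ, mul_sub, mul_one, h'.IP,
      sub_self, add_zero]
  obtain ⟨u, hu⟩ := h.rhp.isUnit
  rw [← hu] at h3 h4
  exact (Units.mul_left_inj u).mp (h3.trans h4.symm)

theorem NoReal.eq_pol {P J I : A} (h : NoReal P J) (hI : Pol P J I) : I = pol P J :=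
  hI.unique (pol_spec h)

end Alg

end Crest.Agent.R208.SP
end

-- ▼ part R208/SP3
section

/-!
# R208, block SPEC, part 3: the spectral idempotent `Q = (P - i I)/2`; Möbius invariance
-/

set_option autoImplicit false

namespace Crest.Agent.R208.SP

open Filter Topology

section Alg

variable {A : Type*} [Ring A] [Algebra ℂ A]

/-- `Q = (P - i I)/2` -/
noncomputable def qp (P I : A) : A := (1 / 2 : ℂ) • (P - Complex.I • I)

/-- `Q' = (P + i I)/2` -/
noncomputable def qm (P I : A) : A := (1 / 2 : ℂ) • (P + Complex.I • I)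

theorem qp_add_qm (P I : A) : qp P I + qm P I = P := by
  rw [qp, qm, ← smul_add, sub_add_add_cancel, ← two_smul ℂ P, smul_smul]
  norm_num

theorem qp_sub_qm (P I : A) : qp P I - qm P I = -(Complex.I • I) := by
  have : (1 / 2 : ℂ) • (P - Complex.I • I) - (1 / 2 : ℂ) • (P + Complex.I • I)
      = (1 / 2 : ℂ) • ((2 : ℂ) • -(Complex.I • I)) := by
    rw [← smul_sub, two_smul]; congr 1; abel
  rw [qp, qm, this, smul_smul]
  norm_num

theorem qm_eq_neg (P I : A) : qm P I = qp P (-I) := by
  rw [qm, qp, smul_neg, sub_neg_eq_add]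

variable {P J I : A}

theorem Pol.I_qp (h : Pol P J I) : I * qp P I = Complex.I • qp P I := by
  rw [qp, mul_smul_comm, mul_sub, mul_smul_comm, h.II, h.IP, smul_comm Complex.I (1 / 2 : ℂ)]
  congr 1
  rw [smul_sub, smul_smul Complex.I Complex.I I, Complex.I_mul_I]
  simp only [smul_neg, neg_smul, one_smul, sub_neg_eq_add]
  rw [add_comm]

theorem Pol.qp_I (h : Pol P J I) : qp P I * I = Complex.I • qp P I := by
  rw [qp, smul_mul_assoc, sub_mul, smul_mul_assoc, h.II, h.PI, smul_comm Complex.I (1 / 2 : ℂ)]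
  congr 1
  rw [smul_sub, smul_smul Complex.I Complex.I I, Complex.I_mul_I]
  simp only [smul_neg, neg_smul, one_smul, sub_neg_eq_add]
  rw [add_comm]

theorem Pol.P_qp (h : Pol P J I) : P * qp P I = qp P I := by
  rw [qp, mul_smul_comm, mul_sub, mul_smul_comm, h.PP, h.PI]

theorem Pol.qp_P (h : Pol P J I) : qp P I * P = qp P I := by
  rw [qp, smul_mul_assoc, sub_mul, smul_mul_assoc, h.PP, h.IP]

theorem Pol.qp_qp (h : Pol P J I) : qp P I * qp P I = qp P I := by
  conv_lhs => enter [1]; rw [qp]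
  rw [smul_mul_assoc, sub_mul, smul_mul_assoc, h.P_qp, h.I_qp, smul_smul, Complex.I_mul_I,
    neg_smul, one_smul, sub_neg_eq_add, ← two_smul ℂ, smul_smul]
  norm_num

theorem Pol.comm_qp (h : Pol P J I) : Commute (qp P I) J := by
  unfold qp
  refine Commute.smul_left (Commute.sub_left ?_ (Commute.smul_left h.comm _)) _
  rw [Commute, SemiconjBy, h.PJ, h.JP]

/-- anything commuting with `P` and `I` commutes with `Q` -/
theorem commute_qp {X : A} (h1 : Commute X P) (h2 : Commute X I) : Commute X (qp P I) := by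
  unfold qp
  exact Commute.smul_right (Commute.sub_right h1 (Commute.smul_right h2 _)) _

theorem Pol.neg (h : Pol P J I) : Pol P (-J) (-I) := by
  refine ⟨h.PP, ?_, ?_, ?_, ?_, ?_, ?_, ?_⟩
  · rw [mul_neg, h.PJ]
  · rw [neg_mul, h.JP]
  · rw [mul_neg, h.PI]
  · rw [neg_mul, h.IP]
  · rw [neg_mul_neg, h.II]
  · exact h.comm.neg_left.neg_right
  · rw [neg_mul_neg]; exact h.rhp

theorem Pol.I_qm (h : Pol P J I) : I * qm P I = -(Complex.I • qm P I) := by
  have := h.neg.I_qp
  rw [← qm_eq_neg] at this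
  rw [← this, neg_mul, neg_neg]

theorem Pol.P_qm (h : Pol P J I) : P * qm P I = qm P I := by
  rw [qm_eq_neg]; exact h.neg.P_qp

theorem Pol.qm_P (h : Pol P J I) : qm P I * P = qm P I := by
  rw [qm_eq_neg]; exact h.neg.qp_P

theorem Pol.qm_qm (h : Pol P J I) : qm P I * qm P I = qm P I := by
  rw [qm_eq_neg]; exact h.neg.qp_qp

theorem Pol.comm_qm (h : Pol P J I) : Commute (qm P I) J := by
  rw [qm_eq_neg]
  have := h.neg.comm_qp
  simpa using this.neg_right

theorem Pol.qp_qm (h : Pol P J I) : qp P I * qm P I = 0 := by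
  conv_lhs => enter [1]; rw [qp]
  rw [smul_mul_assoc, sub_mul, smul_mul_assoc, h.P_qm, h.I_qm, smul_neg, smul_smul,
    Complex.I_mul_I, neg_smul, one_smul, neg_neg, sub_self, smul_zero]

theorem Pol.qm_qp (h : Pol P J I) : qm P I * qp P I = 0 := by
  have := h.neg.qp_qm
  rwa [← qm_eq_neg, qm_eq_neg (I := -I), neg_neg] at this

/-- three block units: if `u`, `v`, `w` are units commuting with the idempotents `Q`, `Q'`,
`1 - P`. -/
theorem Pol.isUnit_block (h : Pol P J I) {u v w : A} (hu : IsUnit u) (hv : IsUnit v)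
    (hw : IsUnit w) (hcu : Commute (qp P I) u) (hcv : Commute (qp P I) v)
    (hcw : Commute (qp P I) w) (hPv : Commute P v) (hPw : Commute P w) :
    IsUnit (qp P I * u + qm P I * v + (1 - P) * w) := by
  -- first `Q' v + (1 - Q') w`
  have hm : qm P I = P - qp P I := by rw [eq_sub_iff_add_eq, add_comm]; exact qp_add_qm P I
  have hcv' : Commute (qm P I) v := by rw [hm]; exact hPv.sub_left hcv
  have hcw' : Commute (qm P I) w := by rw [hm]; exact hPw.sub_left hcw
  have h1 : IsUnit (qm P I * v + (1 - qm P I) * w) :=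
    SP.isUnit_block h.qm_qm hv hw hcv' hcw'
  have hqq : Commute (qp P I) (qm P I) := by rw [Commute, SemiconjBy, h.qp_qm, h.qm_qp]
  have h2 : IsUnit (qp P I * u + (1 - qp P I) * (qm P I * v + (1 - qm P I) * w)) := by
    refine SP.isUnit_block h.qp_qp hu h1 hcu ?_
    exact (hqq.mul_right hcv).add_right (((Commute.one_right _).sub_right hqq).mul_right hcw)
  have h3 : (1 - qp P I) * (qm P I * v + (1 - qm P I) * w) = qm P I * v + (1 - P) * w := by
    have h4 : (1 - qp P I) * qm P I = qm P I := by rw [sub_mul, one_mul, h.qp_qm, sub_zero]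
    have h5 : (1 - qp P I) * (1 - qm P I) = 1 - P := by
      rw [mul_sub, mul_one, h4, sub_sub, qp_add_qm]
    rw [mul_add, ← mul_assoc, h4, ← mul_assoc, h5]
  rw [h3, ← add_assoc] at h2
  exact h2

/-- On the range of `Q` the eigenvalues of `J` have positive imaginary part. -/
theorem Pol.isUnit_upper (h : Pol P J I) {z : ℂ} (hz : z.im ≤ 0) :
    IsUnit (qp P I * (J - algebraMap ℂ A z) + (1 - qp P I)) := by
  -- `Q (J - z) = Q i (R + i z)`
  have h1 : IsUnit ((algebraMap ℂ A Complex.I) *
      (-(I * J) + (1 - P) - algebraMap ℂ A (-(Complex.I * z)))) := by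
    refine IsUnit.mul ?_ (h.rhp _ (by simpa using hz))
    exact (IsUnit.mk0 _ Complex.I_ne_zero).map (algebraMap ℂ A)
  have hI : Commute (qp P I) I := by rw [Commute, SemiconjBy, h.qp_I, h.I_qp]
  have hP : Commute (qp P I) P := by rw [Commute, SemiconjBy, h.qp_P, h.P_qp]
  have hc : Commute (qp P I) ((algebraMap ℂ A Complex.I) *
      (-(I * J) + (1 - P) - algebraMap ℂ A (-(Complex.I * z)))) := by
    refine Commute.mul_right (Algebra.commutes _ _).symm ?_
    refine Commute.sub_right (Commute.add_right ?_ ?_) (Algebra.commutes _ _).symm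
    · exact (hI.mul_right h.comm_qp).neg_right
    · exact (Commute.one_right _).sub_right hP
  have h2 := SP.isUnit_block h.qp_qp h1 isUnit_one hc (Commute.one_right _)
  rw [mul_one] at h2
  have h3 : qp P I * ((algebraMap ℂ A Complex.I) *
      (-(I * J) + (1 - P) - algebraMap ℂ A (-(Complex.I * z)))) =
      qp P I * (J - algebraMap ℂ A z) := by
    rw [← Algebra.smul_def, mul_smul_comm, mul_sub, mul_add, mul_neg, ← mul_assoc, h.qp_I,
      mul_sub, mul_one, h.qp_P, sub_self, add_zero, smul_mul_assoc, mul_sub]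
    rw [← Algebra.commutes, ← Algebra.commutes z, ← Algebra.smul_def, ← Algebra.smul_def,
      smul_sub, smul_neg, smul_smul, smul_smul, Complex.I_mul_I, neg_smul, neg_neg, one_smul]
    congr 2
    rw [mul_neg, ← mul_assoc, Complex.I_mul_I]; ring
  rw [h3] at h2
  exact h2

/-- Affine invariance. -/
theorem Pol.affine (h : Pol P J I) {a b : ℝ} (ha : 0 < a) :
    Pol P (algebraMap ℂ A a * J + algebraMap ℂ A b * P) I := by
  have ca : ∀ (c : ℂ) (x : A), Commute (algebraMap ℂ A c) x := fun c x => Algebra.commutes c x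
  refine ⟨h.PP, ?_, ?_, h.PI, h.IP, h.II, ?_, ?_⟩
  · rw [mul_add, ← mul_assoc, ← (ca a P).eq, mul_assoc, h.PJ, ← mul_assoc, ← (ca b P).eq,
      mul_assoc, h.PP]
  · rw [add_mul, mul_assoc, h.JP, mul_assoc, h.PP]
  · refine Commute.add_right (Commute.mul_right (ca a I).symm h.comm)
      (Commute.mul_right (ca b I).symm h.commIP)
  · intro z hz
    set R : A := -(I * J) + (1 - P) with hR
    have hI : Commute (qp P I) I := by rw [Commute, SemiconjBy, h.qp_I, h.I_qp]
    have hP : Commute (qp P I) P := by rw [Commute, SemiconjBy, h.qp_P, h.P_qp]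
    have hcR : Commute (qp P I) R := by
      refine Commute.add_right ?_ ?_
      · exact (hI.mul_right h.comm_qp).neg_right
      · exact (Commute.one_right _).sub_right hP
    have hPR : Commute P R := by
      refine Commute.add_right ?_ ?_
      · exact (h.commIP.symm.mul_right h.commJP.symm).neg_right
      · exact (Commute.one_right _).sub_right (Commute.refl _)
    have hua : IsUnit (algebraMap ℂ A (a : ℂ)) :=
      (IsUnit.mk0 _ (by exact_mod_cast ha.ne')).map (algebraMap ℂ A)
    -- units of the three blocks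
    have u1 : IsUnit (algebraMap ℂ A a * (R - algebraMap ℂ A ((z + b * Complex.I) / a))) := by
      refine hua.mul (h.rhp _ ?_)
      rw [Complex.div_ofReal_re]
      refine div_nonpos_of_nonpos_of_nonneg ?_ ha.le
      simpa using hz
    have u2 : IsUnit (algebraMap ℂ A a * (R - algebraMap ℂ A ((z - b * Complex.I) / a))) := by
      refine hua.mul (h.rhp _ ?_)
      rw [Complex.div_ofReal_re]
      refine div_nonpos_of_nonpos_of_nonneg ?_ ha.le
      simpa using hz
    have u3 : IsUnit (algebraMap ℂ A (1 - z)) := by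
      refine IsUnit.map (algebraMap ℂ A) ?_
      rw [isUnit_iff_ne_zero]
      intro h0
      have := congrArg Complex.re h0
      simp at this
      linarith
    have hb := h.isUnit_block u1 u2 u3
      ((ca _ _).symm.mul_right (hcR.sub_right (ca _ _).symm))
      ((ca _ _).symm.mul_right (hcR.sub_right (ca _ _).symm))
      (ca _ _).symm
      ((ca _ _).symm.mul_right (hPR.sub_right (ca _ _).symm))
      (ca _ _).symm
    convert hb using 1
    have ha' : (a : ℂ) ≠ 0 := by exact_mod_cast ha.ne'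
    -- both sides
    have e1 : algebraMap ℂ A a * (R - algebraMap ℂ A ((z + b * Complex.I) / a)) =
        algebraMap ℂ A a * R - algebraMap ℂ A z - algebraMap ℂ A (b * Complex.I) := by
      rw [mul_sub, ← map_mul, mul_div_cancel₀ _ ha', map_add]; abel
    have e2 : algebraMap ℂ A a * (R - algebraMap ℂ A ((z - b * Complex.I) / a)) =
        algebraMap ℂ A a * R - algebraMap ℂ A z + algebraMap ℂ A (b * Complex.I) := by
      rw [mul_sub, ← map_mul, mul_div_cancel₀ _ ha', map_sub]; abel
    rw [e1, e2]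
    have e3 : qp P I * (algebraMap ℂ A a * R - algebraMap ℂ A z - algebraMap ℂ A (b * Complex.I)) +
        qm P I * (algebraMap ℂ A a * R - algebraMap ℂ A z + algebraMap ℂ A (b * Complex.I)) =
        (qp P I + qm P I) * (algebraMap ℂ A a * R - algebraMap ℂ A z) -
        (qp P I - qm P I) * algebraMap ℂ A (b * Complex.I) := by
      noncomm_ring
    rw [e3, qp_add_qm, qp_sub_qm]
    have e4 : P * (algebraMap ℂ A a * R) = -(algebraMap ℂ A a * (I * J)) := by
      rw [← mul_assoc, ← (ca a P).eq, mul_assoc, hR, mul_add, mul_neg, ← mul_assoc, h.PI, mul_sub,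
        mul_one, h.PP, sub_self, add_zero, mul_neg]
    have e5 : -(Complex.I • I) * algebraMap ℂ A (b * Complex.I) = algebraMap ℂ A b * I := by
      rw [← Algebra.commutes, ← Algebra.smul_def, ← Algebra.smul_def, smul_neg, smul_smul,
        mul_assoc, Complex.I_mul_I]
      simp
    rw [mul_sub, e4, e5, map_sub, map_one, sub_mul, one_mul, mul_sub, mul_one]
    have e6 : I * (algebraMap ℂ A a * J + algebraMap ℂ A b * P) =
        algebraMap ℂ A a * (I * J) + algebraMap ℂ A b * I := by
      rw [mul_add, ← mul_assoc I, ← (ca a I).eq, mul_assoc, ← mul_assoc I (algebraMap ℂ A b),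
        ← (ca b I).eq, mul_assoc, h.IP]
    rw [e6]
    abel

/-- Inversion `J ↦ - J⁻¹`. -/
theorem Pol.inv (h : Pol P J I) {K : A} (hPK : P * K = K) (hKP : K * P = K) (hKJ : K * J = -P)
    (hJK : J * K = -P) : Pol P K I := by
  -- `I` commutes with `K`
  have hIK : Commute I K := by
    -- `I K = - K J I K = - K I J K = K I P = K I`
    have h1 : K * J * I = -I := by rw [hKJ, neg_mul, h.PI]
    have h2 : I = -(K * J * I) := by rw [h1, neg_neg]
    rw [Commute, SemiconjBy]
    calc I * K = -(K * J * I) * K := by rw [← h2]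
      _ = -(K * (I * (J * K))) := by
          rw [neg_mul, mul_assoc K J I, ← h.comm.eq, mul_assoc, mul_assoc]
      _ = K * I := by rw [hJK, mul_neg, h.IP, mul_neg, neg_neg]
  refine ⟨h.PP, hPK, hKP, h.PI, h.IP, h.II, hIK, ?_⟩
  set R : A := -(I * J) + (1 - P) with hR
  have e1 : (1 - P) * (1 - P) = 1 - P := by
    rw [mul_sub, mul_one, sub_mul, one_mul, h.PP]; abel
  have e2 : (1 - P) * (I * J) = 0 := by rw [sub_mul, one_mul, ← mul_assoc, h.PI, sub_self]
  have e3 : (I * K) * (1 - P) = 0 := by rw [mul_sub, mul_one, mul_assoc, hKP, sub_self]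
  have e4 : I * K * (I * J) = P := by
    rw [hIK.eq, mul_assoc, ← mul_assoc I I J, h.II, neg_mul, h.PJ, mul_neg, hKJ, neg_neg]
  have hSR : (-(I * K) + (1 - P)) * R = 1 := by
    rw [hR, add_mul, mul_add, mul_add, neg_mul_neg, e4, neg_mul, e3, mul_neg, e2, e1]; abel
  have hu := h.rhp.isUnit
  have hS : -(I * K) + (1 - P) = Ring.inverse R := by
    obtain ⟨u, hu'⟩ := hu
    rw [← hR] at hu'
    rw [← hu', Ring.inverse_unit]
    rw [← hu'] at hSR
    exact (Units.inv_eq_of_mul_eq_one_left hSR).symm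
  rw [hS]
  intro z hz
  by_cases hz0 : z = 0
  · rw [hz0, map_zero, sub_zero]; exact hu.ringInverse
  · have h5 : Ring.inverse R - algebraMap ℂ A z =
        Ring.inverse R * (algebraMap ℂ A (-z) * (R - algebraMap ℂ A (1 / z))) := by
      rw [mul_sub, ← map_mul]
      have : -z * (1 / z) = -1 := by field_simp
      rw [this, mul_sub, ← mul_assoc, ← Algebra.commutes, mul_assoc, Ring.inverse_mul_cancel _ hu]
      simp [sub_eq_add_neg, add_comm]
    rw [h5]
    refine hu.ringInverse.mul (IsUnit.mul ?_ (h.rhp _ ?_))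
    · exact (IsUnit.mk0 _ (neg_ne_zero.mpr hz0)).map (algebraMap ℂ A)
    · rw [one_div, Complex.inv_re]
      exact div_nonpos_of_nonpos_of_nonneg hz (Complex.normSq_nonneg z)

/-- `J + (1-P)` is a unit. -/
theorem Pol.isUnit (h : Pol P J I) : IsUnit (J + (1 - P)) := by
  have h1 : (I + (1 - P)) * (-(I * J) + (1 - P)) = J + (1 - P) := by
    have e1 : (1 - P) * (1 - P) = 1 - P := by
      rw [mul_sub, mul_one, sub_mul, one_mul, h.PP]; abel
    have e2 : (1 - P) * (I * J) = 0 := by rw [sub_mul, one_mul, ← mul_assoc, h.PI, sub_self]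
    have e3 : I * (1 - P) = 0 := by rw [mul_sub, mul_one, h.IP, sub_self]
    rw [add_mul, mul_add, mul_add, mul_neg, ← mul_assoc, h.II, neg_mul, neg_neg, h.PJ, e3,
      mul_neg, e2, e1]
    abel
  rw [← h1]
  refine IsUnit.mul ?_ h.rhp.isUnit
  have e1 : (1 - P) * (1 - P) = 1 - P := by
    rw [mul_sub, mul_one, sub_mul, one_mul, h.PP]; abel
  have e2 : (1 - P) * I = 0 := by rw [sub_mul, one_mul, h.PI, sub_self]
  have e3 : I * (1 - P) = 0 := by rw [mul_sub, mul_one, h.IP, sub_self]
  refine isUnit_iff_exists.mpr ⟨-I + (1 - P), ?_, ?_⟩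
  · rw [add_mul, mul_add, mul_add, mul_neg, h.II, e3, mul_neg, e2, e1]; abel
  · rw [add_mul, mul_add, mul_add, neg_mul, h.II, neg_mul, e3, e2, e1]; abel

theorem Pol.noReal (h : Pol P J I) : NoReal P J := by
  refine ⟨h.PP, h.PJ, h.JP, fun t => ?_⟩
  have h1 := (h.affine (a := 1) (b := -t) one_pos).isUnit
  convert h1 using 1
  simp [sub_eq_add_neg]

/-- Rotation (Möbius) invariance: if `(c P + s J) J' = -s P + c J` with `c² + s² = 1`, then `J'`
has the same polar complex structure as `J`. -/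
theorem Pol.rotate (h : Pol P J I) {c s : ℝ} (hcs : c ^ 2 + s ^ 2 = 1) {J' : A}
    (hPJ' : P * J' = J') (hJP' : J' * P = J')
    (hJ' : (algebraMap ℂ A c * P + algebraMap ℂ A s * J) * J' =
      -(algebraMap ℂ A s * P) + algebraMap ℂ A c * J) : Pol P J' I := by
  have ca : ∀ (c : ℂ) (x : A), Commute (algebraMap ℂ A c) x := fun c x => Algebra.commutes c x
  by_cases hs : s = 0
  · subst hs
    have hc : (c : ℂ) ≠ 0 := by
      have : c ≠ 0 := by rintro rfl; norm_num at hcs
      exact_mod_cast this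
    have h1 : algebraMap ℂ A c * J' = algebraMap ℂ A c * J := by
      simp only [Complex.ofReal_zero, map_zero, zero_mul, add_zero, neg_zero, zero_add] at hJ'
      rw [mul_assoc, hPJ'] at hJ'
      exact hJ'
    have h2 : J' = J := by
      have hu : IsUnit (algebraMap ℂ A (c : ℂ)) := (IsUnit.mk0 _ hc).map (algebraMap ℂ A)
      exact hu.mul_left_cancel h1
    rw [h2]; exact h
  · have hs' : (s : ℂ) ≠ 0 := by exact_mod_cast hs
    set a : ℝ := s ^ 2 with ha
    set b : ℝ := c * s with hb
    have hapos : 0 < a := by positivity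
    set L : A := algebraMap ℂ A a * J + algebraMap ℂ A b * P with hL
    have hPL : Pol P L I := h.affine hapos
    set K : A := J' - algebraMap ℂ A ((c / s : ℝ) : ℂ) * P with hK
    have hLdef : L = algebraMap ℂ A s * (algebraMap ℂ A c * P + algebraMap ℂ A s * J) := by
      have t1 : ((s ^ 2 : ℝ) : ℂ) = s * s := by push_cast; ring
      have t2 : ((c * s : ℝ) : ℂ) = s * c := by push_cast; ring
      rw [hL, mul_add, ← mul_assoc, ← mul_assoc, ← map_mul, ← map_mul, ha, hb, t1, t2, add_comm]
    have hcsC : (c : ℂ) ^ 2 + (s : ℂ) ^ 2 = 1 := by exact_mod_cast hcs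
    have hLK : L * K = -P := by
      have g1 : L * J' = -(algebraMap ℂ A (s * s) * P) + algebraMap ℂ A (s * c) * J := by
        rw [hLdef, mul_assoc, hJ', mul_add, mul_neg, ← mul_assoc, ← mul_assoc, ← map_mul,
          ← map_mul]
      have g2 : L * (algebraMap ℂ A ((c / s : ℝ) : ℂ) * P) =
          algebraMap ℂ A (c * c) * P + algebraMap ℂ A (s * c) * J := by
        have hcs1 : ((c / s : ℝ) : ℂ) * s = c := by push_cast; field_simp
        rw [← mul_assoc, ← (ca _ L).eq, mul_assoc, hPL.JP, hLdef, ← mul_assoc, ← map_mul, hcs1,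
          mul_add, ← mul_assoc, ← mul_assoc, ← map_mul, ← map_mul, mul_comm (s : ℂ) c]
      have g3 : algebraMap ℂ A (s * s : ℂ) * P + algebraMap ℂ A (c * c) * P = P := by
        rw [← add_mul, ← map_add]
        have : (s : ℂ) * s + c * c = 1 := by rw [← hcsC]; ring
        rw [this, map_one, one_mul]
      rw [hK, mul_sub, g1, g2]
      calc -(algebraMap ℂ A (s * s : ℂ) * P) + algebraMap ℂ A (s * c : ℂ) * J -
          (algebraMap ℂ A (c * c : ℂ) * P + algebraMap ℂ A (s * c : ℂ) * J)
          = -(algebraMap ℂ A (s * s : ℂ) * P + algebraMap ℂ A (c * c : ℂ) * P) := by abel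
        _ = -P := by rw [g3]
    clear_value L
    have hPK : P * K = K := by
      rw [hK, mul_sub, hPJ', ← mul_assoc, ← (ca _ P).eq, mul_assoc, h.PP]
    have hKP : K * P = K := by
      rw [hK, sub_mul, hJP', mul_assoc, h.PP]
    have hKL : K * L = -P := by
      -- `L + (1-P)` is a unit with right inverse `-K + (1-P)`
      have e1 : (1 - P) * (1 - P) = 1 - P := by
        rw [mul_sub, mul_one, sub_mul, one_mul, h.PP]; abel
      have e2 : (1 - P) * K = 0 := by rw [sub_mul, one_mul, hPK, sub_self]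
      have e3 : L * (1 - P) = 0 := by rw [mul_sub, mul_one, hPL.JP, sub_self]
      have e4 : K * (1 - P) = 0 := by rw [mul_sub, mul_one, hKP, sub_self]
      have e5 : (1 - P) * L = 0 := by rw [sub_mul, one_mul, hPL.PJ, sub_self]
      have h6 : (L + (1 - P)) * (-K + (1 - P)) = 1 := by
        rw [add_mul, mul_add, mul_add, mul_neg, hLK, e3, mul_neg, e2, e1]; abel
      have h7 : (-K + (1 - P)) * (L + (1 - P)) = 1 := by
        obtain ⟨u, hu⟩ := hPL.isUnit
        rw [← hu] at h6 ⊢
        have h8 : (-K + (1 - P)) = ↑u⁻¹ := (Units.inv_eq_of_mul_eq_one_right h6).symm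
        rw [h8]; exact Units.inv_mul u
      rw [add_mul, mul_add, mul_add, neg_mul, neg_mul, e4, e5, e1] at h7
      have h8 : -(K * L) + (1 - P) = 1 := by
        rw [neg_zero, add_zero, zero_add] at h7; exact h7
      have h9 : -(K * L) = P := by
        have := eq_sub_of_add_eq h8
        rw [this]; abel
      rw [← h9, neg_neg]
    have hPKI : Pol P K I := hPL.inv hPK hKP hKL hLK
    have h3 := hPKI.affine (a := 1) (b := c / s) one_pos
    have h4 : algebraMap ℂ A ((1 : ℝ) : ℂ) * K + algebraMap ℂ A ((c / s : ℝ) : ℂ) * P = J' := by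
      rw [hK]; simp
    rw [h4] at h3
    exact h3

end Alg

end Crest.Agent.R208.SP
end

-- ▼ part R208/SP5
section

/-!
# R208, block SPEC, part 5: smoothness of the polar complex structure; real matrices and
real continuous linear maps
-/

set_option autoImplicit false

namespace Crest.Agent.R208.SP

open Filter Topology

section Smooth

variable {A : Type*} [NormedRing A] [NormedAlgebra ℂ A] [FiniteDimensional ℂ A]
  {X : Type*} [NormedAddCommGroup X] [NormedSpace ℝ X]

theorem contDiffAt_pol {P J : X → A} {x : X} {k : WithTop ℕ∞} (hP : ContDiffAt ℝ k P x)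
    (hJ : ContDiffAt ℝ k J x) (h : NoReal (P x) (J x)) :
    ContDiffAt ℝ k (fun y => pol (P y) (J y)) x := by
  have : CompleteSpace A := FiniteDimensional.complete ℂ A
  have hD : ContDiffAt ℝ k (fun y => -(J y * J y) + (1 - P y)) x :=
    (hJ.mul hJ).neg.add (contDiffAt_const.sub hP)
  have h0 : ContDiffAt ℝ k (sq : A → A) (-(J x * J x) + (1 - P x)) :=
    (contDiffAt_sq h.dom k).restrict_scalars ℝ
  have h1 : ContDiffAt ℝ k (fun y => sq (-(J y * J y) + (1 - P y))) x :=
    ContDiffAt.comp (g := (sq : A → A)) (f := fun y => -(J y * J y) + (1 - P y)) x h0 hD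
  have h2 : ContDiffAt ℝ k (fun y => Ring.inverse (sq (-(J y * J y) + (1 - P y)))) x := by
    obtain ⟨u, hu⟩ := (rhp_sq h.dom).isUnit
    have h3 : ContDiffAt ℝ k (Ring.inverse : A → A) (u : A) := contDiffAt_ringInverse ℝ u
    rw [hu] at h3
    exact h3.comp x h1
  exact hJ.mul h2

end Smooth

section Mat

variable {n : Type*} [Fintype n] [DecidableEq n]

/-- complexification of real matrices -/
noncomputable def cx : Matrix n n ℝ →+* Matrix n n ℂ := Complex.ofRealHom.mapMatrix

@[simp] theorem cx_apply (M : Matrix n n ℝ) (i j : n) : cx M i j = (M i j : ℂ) := rfl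

theorem cx_injective : Function.Injective (cx : Matrix n n ℝ → Matrix n n ℂ) := by
  intro M N h
  ext i j
  have := congrFun (congrFun h i) j
  exact Complex.ofReal_injective this

theorem cx_smul (t : ℝ) (M : Matrix n n ℝ) : cx (t • M) = algebraMap ℂ (Matrix n n ℂ) t * cx M := by
  ext i j
  rw [← Algebra.smul_def]
  simp

/-- complex conjugation of matrices -/
noncomputable def cj : Matrix n n ℂ →+* Matrix n n ℂ := (starRingEnd ℂ).mapMatrix

@[simp] theorem cj_apply (M : Matrix n n ℂ) (i j : n) : cj M i j = (starRingEnd ℂ) (M i j) := rfl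

theorem cj_cx (M : Matrix n n ℝ) : cj (cx M) = cx M := by
  ext i j; simp

theorem cj_algebraMap (z : ℂ) :
    cj (algebraMap ℂ (Matrix n n ℂ) ((starRingEnd ℂ) z)) = algebraMap ℂ (Matrix n n ℂ) z := by
  ext i j
  by_cases h : i = j
  · simp [Matrix.algebraMap_matrix_apply, h]
  · simp [Matrix.algebraMap_matrix_apply, h]

/-- a complex matrix fixed by conjugation is real -/
theorem cx_re_of_cj {M : Matrix n n ℂ} (h : cj M = M) : cx (M.map Complex.re) = M := by
  ext i j
  have := congrFun (congrFun h i) j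
  rw [cj_apply] at this
  simpa using (Complex.conj_eq_iff_re.mp this)

theorem Rhp.cj {M : Matrix n n ℂ} (h : Rhp M) : Rhp (cj M) := by
  intro z hz
  have := (h ((starRingEnd ℂ) z) (by simpa using hz)).map (SP.cj (n := n))
  rwa [map_sub, cj_algebraMap] at this

theorem Pol.cj {P J I : Matrix n n ℂ} (h : Pol P J I) : Pol (cj P) (cj J) (cj I) := by
  refine ⟨?_, ?_, ?_, ?_, ?_, ?_, ?_, ?_⟩
  · rw [← map_mul, h.PP]
  · rw [← map_mul, h.PJ]
  · rw [← map_mul, h.JP]
  · rw [← map_mul, h.PI]
  · rw [← map_mul, h.IP]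
  · rw [← map_mul, h.II, map_neg]
  · exact h.comm.map _
  · have := h.rhp.cj
    rw [map_add, map_neg, map_mul, map_sub, map_one] at this
    exact this

/-- Real form of `NoReal`: no real eigenvalue of `J` on the range of `P`. -/
structure NoRealR (P J : Matrix n n ℝ) : Prop where
  PP : P * P = P
  PJ : P * J = J
  JP : J * P = J
  ker : ∀ t : ℝ, ∀ v : n → ℝ, P.mulVec v = v → J.mulVec v = t • v → v = 0

theorem NoRealR.noReal {P J : Matrix n n ℝ} (h : NoRealR P J) : NoReal (cx P) (cx J) := by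
  refine ⟨by rw [← map_mul, h.PP], by rw [← map_mul, h.PJ], by rw [← map_mul, h.JP],
    fun t => ?_⟩
  have h1 : cx J - algebraMap ℂ (Matrix n n ℂ) t * cx P + (1 - cx P) =
      cx (J - t • P + (1 - P)) := by
    rw [map_add, map_sub, cx_smul, map_sub, map_one]
  rw [h1]
  refine IsUnit.map (cx (n := n)) ?_
  rw [← Matrix.mulVec_injective_iff_isUnit]
  intro v w hvw
  have h2 : (J - t • P + (1 - P)).mulVec (v - w) = 0 := by
    rw [Matrix.mulVec_sub, sub_eq_zero]; exact hvw
  set u := v - w with hu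
  have h3 : P * (J - t • P + (1 - P)) = J - t • P := by
    rw [mul_add, mul_sub, h.PJ, mul_smul_comm, h.PP, mul_sub, mul_one, h.PP, sub_self, add_zero]
  have h4 : (J - t • P).mulVec u = 0 := by
    rw [← h3, ← Matrix.mulVec_mulVec, h2, Matrix.mulVec_zero]
  have h5 : (1 - P).mulVec u = 0 := by
    rw [Matrix.add_mulVec, h4, zero_add] at h2; exact h2
  have h6 : P.mulVec u = u := by
    rw [Matrix.sub_mulVec, Matrix.one_mulVec, sub_eq_zero] at h5; exact h5.symm
  have h7 : J.mulVec u = t • u := by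
    rw [Matrix.sub_mulVec, Matrix.smul_mulVec, h6, sub_eq_zero] at h4; exact h4
  exact sub_eq_zero.mp (h.ker t u h6 h7)

/-- The polar complex structure of a real matrix. -/
noncomputable def polR (P J : Matrix n n ℝ) : Matrix n n ℝ := (pol (cx P) (cx J)).map Complex.re

theorem cx_polR {P J : Matrix n n ℝ} (h : NoRealR P J) : cx (polR P J) = pol (cx P) (cx J) := by
  apply cx_re_of_cj
  have h1 := (pol_spec h.noReal).cj
  rw [cj_cx, cj_cx] at h1
  exact h1.unique (pol_spec h.noReal)

/-- Real polar structure: `I` real with `Pol (cx P) (cx J) (cx I)`. -/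
def PolR (P J I : Matrix n n ℝ) : Prop := Pol (cx P) (cx J) (cx I)

theorem polR_spec {P J : Matrix n n ℝ} (h : NoRealR P J) : PolR P J (polR P J) := by
  unfold PolR; rw [cx_polR h]; exact pol_spec h.noReal

theorem PolR.unique {P J I I' : Matrix n n ℝ} (h : PolR P J I) (h' : PolR P J I') : I = I' :=
  cx_injective (Pol.unique h h')

theorem PolR.PP {P J I : Matrix n n ℝ} (h : PolR P J I) : P * P = P :=
  cx_injective (by rw [map_mul]; exact Pol.PP h)

theorem PolR.PI {P J I : Matrix n n ℝ} (h : PolR P J I) : P * I = I :=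
  cx_injective (by rw [map_mul]; exact Pol.PI h)

theorem PolR.IP {P J I : Matrix n n ℝ} (h : PolR P J I) : I * P = I :=
  cx_injective (by rw [map_mul]; exact Pol.IP h)

theorem PolR.PJ {P J I : Matrix n n ℝ} (h : PolR P J I) : P * J = J :=
  cx_injective (by rw [map_mul]; exact Pol.PJ h)

theorem PolR.JP {P J I : Matrix n n ℝ} (h : PolR P J I) : J * P = J :=
  cx_injective (by rw [map_mul]; exact Pol.JP h)

theorem PolR.II {P J I : Matrix n n ℝ} (h : PolR P J I) : I * I = -P :=
  cx_injective (by rw [map_mul, map_neg]; exact Pol.II h)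

theorem PolR.comm {P J I : Matrix n n ℝ} (h : PolR P J I) : I * J = J * I :=
  cx_injective (by rw [map_mul, map_mul]; exact (Pol.comm h).eq)

theorem PolR.affine {P J I : Matrix n n ℝ} (h : PolR P J I) {a b : ℝ} (ha : 0 < a) :
    PolR P (a • J + b • P) I := by
  unfold PolR
  rw [map_add, cx_smul, cx_smul]
  exact Pol.affine h ha

theorem PolR.inv {P J I : Matrix n n ℝ} (h : PolR P J I) {K : Matrix n n ℝ} (hPK : P * K = K)
    (hKP : K * P = K) (hKJ : K * J = -P) : PolR P K I := by
  have hJK : J * K = -P := by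
    -- `J + (1-P)` is a unit with left inverse `-K + (1-P)`
    have e1 : (1 - P) * (1 - P) = 1 - P := by
      rw [mul_sub, mul_one, sub_mul, one_mul, h.PP]; abel
    have e2 : (1 - P) * J = 0 := by rw [sub_mul, one_mul, h.PJ, sub_self]
    have e3 : K * (1 - P) = 0 := by rw [mul_sub, mul_one, hKP, sub_self]
    have e4 : J * (1 - P) = 0 := by rw [mul_sub, mul_one, h.JP, sub_self]
    have e5 : (1 - P) * K = 0 := by rw [sub_mul, one_mul, hPK, sub_self]
    have h6 : (-K + (1 - P)) * (J + (1 - P)) = 1 := by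
      rw [add_mul, mul_add, mul_add, neg_mul, hKJ, neg_mul, e3, e2, e1]; abel
    have h7 := mul_eq_one_comm.mp h6
    rw [add_mul, mul_add, mul_add, mul_neg, e4, mul_neg, e5, e1, neg_zero, add_zero, zero_add] at h7
    have h8 : -(J * K) = P := by rw [eq_sub_of_add_eq h7]; abel
    rw [← h8, neg_neg]
  refine Pol.inv h ?_ ?_ ?_ ?_
  · rw [← map_mul, hPK]
  · rw [← map_mul, hKP]
  · rw [← map_mul, hKJ, map_neg]
  · rw [← map_mul, hJK, map_neg]

theorem PolR.rotate {P J I : Matrix n n ℝ} (h : PolR P J I) {c s : ℝ} (hcs : c ^ 2 + s ^ 2 = 1)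
    {J' : Matrix n n ℝ} (hPJ' : P * J' = J') (hJP' : J' * P = J')
    (hJ' : (c • P + s • J) * J' = -(s • P) + c • J) : PolR P J' I := by
  refine Pol.rotate h hcs ?_ ?_ ?_
  · rw [← map_mul, hPJ']
  · rw [← map_mul, hJP']
  · rw [← cx_smul, ← cx_smul, ← cx_smul, ← cx_smul, ← map_add, ← map_mul, hJ', map_add, map_neg]

theorem PolR.noRealR {P J I : Matrix n n ℝ} (h : PolR P J I) : NoRealR P J := by
  refine ⟨h.PP, h.PJ, h.JP, fun t v hv hJ => ?_⟩
  have h1 := (Pol.noReal h).unit t
  have h2 : cx J - algebraMap ℂ (Matrix n n ℂ) t * cx P + (1 - cx P) =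
      cx (J - t • P + (1 - P)) := by
    rw [map_add, map_sub, cx_smul, map_sub, map_one]
  rw [h2] at h1
  have h3 : (cx (J - t • P + (1 - P))).mulVec (fun i => (v i : ℂ)) = 0 := by
    have h4 : (J - t • P + (1 - P)).mulVec v = 0 := by
      rw [Matrix.add_mulVec, Matrix.sub_mulVec, Matrix.sub_mulVec, Matrix.one_mulVec,
        Matrix.smul_mulVec, hv, hJ]; simp
    ext i
    have h5 := congrFun h4 i
    simp only [Matrix.mulVec, dotProduct, cx_apply, Pi.zero_apply] at h5 ⊢
    rw [← Complex.ofReal_zero, ← h5]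
    push_cast
    rfl
  have h6 := Matrix.mulVec_injective_of_isUnit h1
  have h7 : (fun i => (v i : ℂ)) = 0 := by
    apply h6
    rw [h3, Matrix.mulVec_zero]
  ext i
  have := congrFun h7 i
  simpa using this

section Entries

attribute [local instance] Matrix.linftyOpNormedRing Matrix.linftyOpNormedAlgebra

variable {X : Type*} [NormedAddCommGroup X] [NormedSpace ℝ X]

/-- smoothness of a matrix valued function from the smoothness of its entries -/
theorem contDiffAt_cx {P : X → Matrix n n ℝ} {x : X} {k : WithTop ℕ∞}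
    (hP : ∀ i j, ContDiffAt ℝ k (fun y => P y i j) x) : ContDiffAt ℝ k (fun y => cx (P y)) x := by
  have h1 : (fun y => cx (P y)) =
      fun y => ∑ i, ∑ j, (P y i j) • (Matrix.single i j (1 : ℂ) : Matrix n n ℂ) := by
    funext y
    conv_lhs => rw [Matrix.matrix_eq_sum_single (cx (P y))]
    refine Finset.sum_congr rfl fun i _ => Finset.sum_congr rfl fun j _ => ?_
    rw [Matrix.smul_single]
    simp
  rw [h1]
  exact ContDiffAt.sum fun i _ => ContDiffAt.sum fun j _ => (hP i j).smul contDiffAt_const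

/-- real parts of the entries of a smooth complex matrix valued function are smooth -/
theorem contDiffAt_re_entry {M : X → Matrix n n ℂ} {x : X} {k : WithTop ℕ∞}
    (hM : ContDiffAt ℝ k M x) (i j : n) : ContDiffAt ℝ k (fun y => (M y i j).re) x := by
  let L : Matrix n n ℂ →ₗ[ℝ] ℝ :=
    { toFun := fun M => (M i j).re
      map_add' := by intro a b; simp
      map_smul' := by intro c a; simp }
  have hL : ContDiffAt ℝ k (L.toContinuousLinearMap) (M x) :=
    (L.toContinuousLinearMap).contDiff.contDiffAt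
  exact hL.comp x hM

/-- **Smoothness of the polar complex structure** (entrywise). -/
theorem contDiffAt_polR {P J : X → Matrix n n ℝ} {x : X} {k : WithTop ℕ∞}
    (hP : ∀ i j, ContDiffAt ℝ k (fun y => P y i j) x)
    (hJ : ∀ i j, ContDiffAt ℝ k (fun y => J y i j) x) (h : NoRealR (P x) (J x)) (i j : n) :
    ContDiffAt ℝ k (fun y => polR (P y) (J y) i j) x :=
  contDiffAt_re_entry (contDiffAt_pol (contDiffAt_cx hP) (contDiffAt_cx hJ) h.noReal) i j

end Entries

end Mat

end Crest.Agent.R208.SP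
end

-- ▼ part R208/SP4
section

/-!
# R208, block SPEC, part 4: the intertwiner `S₁ - i S₂ : T_J → F_J`
-/

set_option autoImplicit false

namespace Crest.Agent.R208.SP

open Filter Topology Matrix

section PIso

variable {R : Type*} [CommRing R] {m n : Type*} [Fintype m] [Fintype n]

/-- `S : range P → range P'` and `W : range P' → range P` are mutually inverse
isomorphisms. -/
structure PIso (P : Matrix n n R) (P' : Matrix m m R) (S : Matrix m n R) (W : Matrix n m R) :
    Prop where
  sp : S * P = S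
  ps : P' * S = S
  wp : W * P' = W
  pw : P * W = W
  ws : W * S = P
  sw : S * W = P'

variable {P : Matrix n n R} {P' : Matrix m m R} {S : Matrix m n R} {W : Matrix n m R}

theorem PIso.symm (h : PIso P P' S W) : PIso P' P W S :=
  ⟨h.wp, h.pw, h.sp, h.ps, h.sw, h.ws⟩

theorem PIso.idem (h : PIso P P' S W) : P * P = P := by
  conv_lhs => rw [← h.ws]
  rw [Matrix.mul_assoc, ← Matrix.mul_assoc S, h.sw, h.ps, h.ws]

theorem PIso.idem' (h : PIso P P' S W) : P' * P' = P' := h.symm.idem

theorem PIso.unique (h : PIso P P' S W) {W' : Matrix n m R} (h' : PIso P P' S W') : W = W' := by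
  calc W = W * P' := h.wp.symm
    _ = W * (S * W') := by rw [h'.sw]
    _ = P * W' := by rw [← Matrix.mul_assoc, h.ws]
    _ = W' := h'.pw

theorem PIso.trans {l : Type*} [Fintype l] {P'' : Matrix l l R} {S' : Matrix l m R}
    {W' : Matrix m l R} (h : PIso P P' S W) (h' : PIso P' P'' S' W') :
    PIso P P'' (S' * S) (W * W') := by
  refine ⟨?_, ?_, ?_, ?_, ?_, ?_⟩
  · rw [Matrix.mul_assoc, h.sp]
  · rw [← Matrix.mul_assoc, h'.ps]
  · rw [Matrix.mul_assoc, h'.wp]
  · rw [← Matrix.mul_assoc, h.pw]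
  · rw [Matrix.mul_assoc, ← Matrix.mul_assoc W', h'.ws, h.ps, h.ws]
  · rw [Matrix.mul_assoc, ← Matrix.mul_assoc S, h.sw, h'.pw, h'.sw]

/-- restriction to the range of an idempotent `Q ≤ P`. -/
theorem PIso.restrict (h : PIso P P' S W) {Q : Matrix n n R} (hQ : Q * Q = Q)
    (hPQ : P * Q = Q) : PIso Q (S * Q * W) (S * Q) (Q * W) := by
  have e1 : W * S * Q = Q := by rw [h.ws, hPQ]
  refine ⟨?_, ?_, ?_, ?_, ?_, ?_⟩
  · rw [Matrix.mul_assoc, hQ]
  · rw [Matrix.mul_assoc, ← Matrix.mul_assoc W, e1, Matrix.mul_assoc, hQ]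
  · rw [Matrix.mul_assoc, ← Matrix.mul_assoc W, ← Matrix.mul_assoc W, h.ws, hPQ,
      ← Matrix.mul_assoc, hQ]
  · rw [← Matrix.mul_assoc, hQ]
  · rw [Matrix.mul_assoc, ← Matrix.mul_assoc W, e1, hQ]
  · rw [Matrix.mul_assoc S, ← Matrix.mul_assoc Q, hQ, Matrix.mul_assoc]

end PIso

section Main

variable {m n : Type*} [Fintype m] [Fintype n] [DecidableEq n] [DecidableEq m]

variable {P I : Matrix n n ℂ} {P' : Matrix m m ℂ} {S₁ S₂ : Matrix m n ℂ} {W₁ : Matrix n m ℂ}

/-- the unit `Q (J + i) + (1 - Q)` -/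
noncomputable def uU (P J I : Matrix n n ℂ) : Matrix n n ℂ :=
  qp P I * (J + Complex.I • 1) + (1 - qp P I)

theorem isUnit_uU {J : Matrix n n ℂ} (h : Pol P J I) : IsUnit (uU P J I) := by
  have := h.isUnit_upper (z := -Complex.I) (by simp)
  rwa [map_neg, sub_neg_eq_add, Algebra.algebraMap_eq_smul_one] at this

theorem commute_qp_add {J : Matrix n n ℂ} (h : Pol P J I) :
    Commute (qp P I) (J + Complex.I • 1) :=
  h.comm_qp.add_right ((Commute.one_right _).smul_right _)

theorem uU_qp {J : Matrix n n ℂ} (h : Pol P J I) :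
    uU P J I * qp P I = (J + Complex.I • 1) * qp P I := by
  rw [uU, add_mul, (commute_qp_add h).eq, mul_assoc, h.qp_qp, sub_mul, one_mul, h.qp_qp, sub_self,
    add_zero]

theorem qp_uU {J : Matrix n n ℂ} (h : Pol P J I) :
    qp P I * uU P J I = (J + Complex.I • 1) * qp P I := by
  rw [uU, mul_add, ← mul_assoc, h.qp_qp, (commute_qp_add h).eq, mul_sub, mul_one, h.qp_qp,
    sub_self, add_zero]

/-- `Ŝ = (S₁ - i S₂) Q` -/
noncomputable def sHat (P I : Matrix n n ℂ) (S₁ S₂ : Matrix m n ℂ) : Matrix m n ℂ :=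
  (S₁ - Complex.I • S₂) * qp P I

/-- the inverse of `Ŝ` -/
noncomputable def wHat (P J I : Matrix n n ℂ) (W₁ : Matrix n m ℂ) : Matrix n m ℂ :=
  Complex.I • (qp P I * Ring.inverse (uU P J I) * W₁)

omit [DecidableEq m] in
/-- **The intertwiner.** If `S₁ : range P → range P'` is an isomorphism with inverse `W₁`, and
`J = W₁ S₂` has the polar complex structure `I`, then `Ŝ = (S₁ - i S₂) Q` is an isomorphism of
`range Q = T_J` onto `range (S₁ Q W₁) = F_J`. -/
theorem PIso.hat (h : PIso P P' S₁ W₁) (h2 : P' * S₂ = S₂) (hI : Pol P (W₁ * S₂) I) :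
    PIso (qp P I) (S₁ * qp P I * W₁) (sHat P I S₁ S₂) (wHat P (W₁ * S₂) I W₁) := by
  -- `S₂ = S₁ J`
  obtain ⟨J, hJ⟩ : ∃ J, J = W₁ * S₂ := ⟨_, rfl⟩
  have hS2 : S₂ = S₁ * J := by rw [hJ, ← Matrix.mul_assoc, h.sw, h2]
  rw [← hJ] at hI ⊢
  have hu : IsUnit (uU P J I) := isUnit_uU hI
  have hQQ : qp P I * qp P I = qp P I := hI.qp_qp
  have hPQ : P * qp P I = qp P I := hI.P_qp
  have hQP : qp P I * P = qp P I := hI.qp_P
  have hUQ : uU P J I * qp P I = (J + Complex.I • 1) * qp P I := uU_qp hI
  have hQU : qp P I * uU P J I = (J + Complex.I • 1) * qp P I := qp_uU hI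
  have hS : sHat P I S₁ S₂ = (-Complex.I) • (S₁ * (uU P J I * qp P I)) := by
    have e2 : (1 : Matrix n n ℂ) - Complex.I • J = (-Complex.I) • (J + Complex.I • 1) := by
      rw [smul_add, smul_smul]
      simp [sub_eq_add_neg, add_comm]
    rw [sHat, hUQ, hS2, ← Matrix.mul_smul]
    have e1 : S₁ - S₁ * (Complex.I • J) = S₁ * (1 - Complex.I • J) := by
      rw [Matrix.mul_sub, Matrix.mul_one]
    rw [e1, Matrix.mul_assoc, e2, smul_mul_assoc, Matrix.mul_smul]
  generalize hU' : uU P J I = U at *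
  generalize hQ' : qp P I = Q at *
  have hc : Commute Q U := by rw [Commute, SemiconjBy, hQU, hUQ]
  have hcV : Commute Q (Ring.inverse U) := (commute_inverse hc.symm).symm
  have hUV : U * Ring.inverse U = 1 := Ring.mul_inverse_cancel _ hu
  have hVU : Ring.inverse U * U = 1 := Ring.inverse_mul_cancel _ hu
  have hW : wHat P J I W₁ = Complex.I • (Q * Ring.inverse U * W₁) := by
    rw [wHat, hU', hQ']
  rw [hS, hW]
  generalize hV' : Ring.inverse U = V at *
  have hII : Complex.I * -Complex.I = 1 := by rw [mul_neg, Complex.I_mul_I, neg_neg]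
  have hII' : -Complex.I * Complex.I = 1 := by rw [neg_mul, Complex.I_mul_I, neg_neg]
  have hWSQ : W₁ * (S₁ * Q) = Q := by rw [← Matrix.mul_assoc, h.ws, hPQ]
  have hQUc : U * Q = Q * U := hc.eq.symm
  have hPUQ : W₁ * (S₁ * (U * Q)) = U * Q := by
    rw [hQUc, ← Matrix.mul_assoc, ← Matrix.mul_assoc, h.ws, hPQ]
  refine ⟨?_, ?_, ?_, ?_, ?_, ?_⟩
  · rw [Matrix.smul_mul, Matrix.mul_assoc, Matrix.mul_assoc, hQQ]
  · rw [Matrix.mul_smul, Matrix.mul_assoc (S₁ * Q), hPUQ, Matrix.mul_assoc S₁,
      ← Matrix.mul_assoc Q, ← hQUc, Matrix.mul_assoc U, hQQ]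
  · have e3 : W₁ * (S₁ * (Q * W₁)) = Q * W₁ := by
      rw [← Matrix.mul_assoc, ← Matrix.mul_assoc, h.ws, hPQ]
    rw [Matrix.smul_mul, Matrix.mul_assoc (Q * V), Matrix.mul_assoc S₁, e3, ← Matrix.mul_assoc,
      Matrix.mul_assoc Q V Q, ← hcV.eq, ← Matrix.mul_assoc Q Q, hQQ]
  · rw [Matrix.mul_smul, ← Matrix.mul_assoc, ← Matrix.mul_assoc, hQQ]
  · rw [Matrix.smul_mul, Matrix.mul_smul, smul_smul, hII, one_smul, Matrix.mul_assoc (Q * V), hPUQ,
      Matrix.mul_assoc Q V, ← Matrix.mul_assoc V U, hVU, Matrix.one_mul, hQQ]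
  · rw [Matrix.smul_mul, Matrix.mul_smul, smul_smul, hII', one_smul]
    rw [Matrix.mul_assoc S₁, Matrix.mul_assoc U Q, ← Matrix.mul_assoc Q (Q * V),
      ← Matrix.mul_assoc Q Q V, hQQ, ← Matrix.mul_assoc U, ← Matrix.mul_assoc U Q V, hQUc,
      Matrix.mul_assoc Q U V, hUV, Matrix.mul_one, Matrix.mul_assoc]

/-- transfer of the polar structure to the range of `P'` -/
theorem PIso.pol (h : PIso P P' S₁ W₁) {J : Matrix n n ℂ} (hI : Pol P J I) :
    Pol P' (S₁ * J * W₁) (S₁ * I * W₁) := by
  have key : ∀ X Y : Matrix n n ℂ, P * Y = Y → S₁ * X * W₁ * (S₁ * Y * W₁) = S₁ * (X * Y) * W₁ := by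
    intro X Y hY
    have : W₁ * (S₁ * Y * W₁) = Y * W₁ := by
      rw [← Matrix.mul_assoc, ← Matrix.mul_assoc, h.ws, hY]
    rw [Matrix.mul_assoc (S₁ * X), this, ← Matrix.mul_assoc, Matrix.mul_assoc S₁]
  refine ⟨h.idem', ?_, ?_, ?_, ?_, ?_, ?_, ?_⟩
  · rw [← Matrix.mul_assoc, ← Matrix.mul_assoc, h.ps]
  · rw [Matrix.mul_assoc, h.wp]
  · rw [← Matrix.mul_assoc, ← Matrix.mul_assoc, h.ps]
  · rw [Matrix.mul_assoc, h.wp]
  · rw [key _ _ hI.PI, hI.II, Matrix.mul_neg, Matrix.neg_mul, h.sp, h.sw]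
  · rw [Commute, SemiconjBy, key _ _ hI.PJ, key _ _ hI.PI, hI.comm.eq]
  · intro z hz
    rw [key _ _ hI.PJ]
    have hu := hI.rhp z hz
    have hz1 : (1 - z) ≠ 0 := by
      intro h0
      have := congrArg Complex.re h0
      simp at this
      linarith
    set R : Matrix n n ℂ := -(I * J) + (1 - P) - algebraMap ℂ _ z with hR
    have hPR : P * R = -(I * J) - z • P := by
      rw [hR, mul_sub, mul_add, mul_neg, ← mul_assoc, hI.PI, mul_sub, mul_one, hI.PP, sub_self,
        add_zero, ← Algebra.commutes, ← Algebra.smul_def]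
    have hPRc : Commute P R := by
      have h1 : Commute P I := hI.commIP.symm
      have h2 : Commute P J := hI.commJP.symm
      exact (((h1.mul_right h2).neg_right).add_right
        ((Commute.one_right _).sub_right (Commute.refl _))).sub_right (Algebra.commutes _ _).symm
    have h1 : -(S₁ * (I * J) * W₁) + (1 - P') - algebraMap ℂ (Matrix m m ℂ) z =
        S₁ * R * W₁ + (1 - z) • (1 - P') := by
      have h2 : S₁ * R * W₁ = -(S₁ * (I * J) * W₁) - z • P' := by
        have h3 : S₁ * R = S₁ * (P * R) := by rw [← Matrix.mul_assoc, h.sp]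
        rw [h3, hPR, Matrix.mul_sub, Matrix.sub_mul, Matrix.mul_neg, Matrix.neg_mul,
          Matrix.mul_smul, Matrix.smul_mul, h.sp, h.sw]
      rw [h2, Algebra.algebraMap_eq_smul_one, sub_smul, one_smul, smul_sub]
      abel
    rw [h1]
    have hRV : R * Ring.inverse R = 1 := Ring.mul_inverse_cancel _ hu
    have hVR : Ring.inverse R * R = 1 := Ring.inverse_mul_cancel _ hu
    have hPV : Commute P (Ring.inverse R) := (commute_inverse hPRc.symm).symm
    generalize Ring.inverse R = V at hRV hVR hPV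
    clear_value R
    have e0 : (1 - P') * (1 - P') = 1 - P' := by
      rw [mul_sub, mul_one, sub_mul, one_mul, h.idem']; abel
    have e1 : ∀ X : Matrix n m ℂ, (1 - P') * (S₁ * X) = 0 := by
      intro X; rw [← Matrix.mul_assoc, Matrix.sub_mul, Matrix.one_mul, h.ps, sub_self,
        Matrix.zero_mul]
    have e2 : ∀ X : Matrix m n ℂ, X * W₁ * (1 - P') = 0 := by
      intro X; rw [Matrix.mul_assoc, Matrix.mul_sub, Matrix.mul_one, h.wp, sub_self,
        Matrix.mul_zero]
    have key2 : ∀ X Y : Matrix n n ℂ, Commute P X → X * Y = 1 →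
        (S₁ * X * W₁ + (1 - z) • (1 - P')) * (S₁ * Y * W₁ + (1 - z)⁻¹ • (1 - P')) = 1 := by
      intro X Y hX hXY
      have e3 : S₁ * X * W₁ * (S₁ * Y * W₁) = P' := by
        have : W₁ * (S₁ * Y * W₁) = P * Y * W₁ := by
          rw [← Matrix.mul_assoc, ← Matrix.mul_assoc, h.ws]
        rw [Matrix.mul_assoc (S₁ * X), this, ← Matrix.mul_assoc, ← Matrix.mul_assoc,
          Matrix.mul_assoc S₁ X P, ← hX.eq, ← Matrix.mul_assoc, h.sp, Matrix.mul_assoc S₁, hXY,
          Matrix.mul_one, h.sw]
      have e4 : (1 - z) • (1 - P') * (S₁ * Y * W₁) = 0 := by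
        rw [Matrix.smul_mul, Matrix.mul_assoc S₁, e1, smul_zero]
      have e5 : S₁ * X * W₁ * ((1 - z)⁻¹ • (1 - P')) = 0 := by
        rw [Matrix.mul_smul, e2, smul_zero]
      have e6 : (1 - z) • (1 - P') * ((1 - z)⁻¹ • (1 - P')) = 1 - P' := by
        rw [Matrix.smul_mul, Matrix.mul_smul, e0, smul_smul, mul_inv_cancel₀ hz1, one_smul]
      rw [add_mul, mul_add, mul_add, e3, e4, e5, e6]; abel
    exact IsUnit.of_mul_eq_one _ (key2 R V hPRc hRV)

theorem PIso.qp_transfer (h : PIso P P' S₁ W₁) : qp P' (S₁ * I * W₁) = S₁ * qp P I * W₁ := by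
  rw [qp, qp, Matrix.mul_smul, Matrix.smul_mul, Matrix.mul_sub, Matrix.sub_mul, h.sp, h.sw,
    Matrix.mul_smul, Matrix.smul_mul]

omit [DecidableEq m] in
/-- **Rotation invariance.** -/
theorem PIso.rotate (h : PIso P P' S₁ W₁) (h2 : P' * S₂ = S₂) (h3 : S₂ * P = S₂)
    (hI : Pol P (W₁ * S₂) I) {c s : ℝ} (hcs : c ^ 2 + s ^ 2 = 1) {W' : Matrix n m ℂ}
    (h' : PIso P P' ((c : ℂ) • S₁ + (s : ℂ) • S₂) W') :
    Pol P (W' * (-((s : ℂ) • S₁) + (c : ℂ) • S₂)) I ∧
    ((c : ℂ) • S₁ + (s : ℂ) • S₂) * qp P I * W' = S₁ * qp P I * W₁ ∧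
    ((c : ℂ) • S₁ + (s : ℂ) • S₂) * I * W' = S₁ * I * W₁ ∧
    sHat P I ((c : ℂ) • S₁ + (s : ℂ) • S₂) (-((s : ℂ) • S₁) + (c : ℂ) • S₂) =
      ((c : ℂ) + s * Complex.I) • sHat P I S₁ S₂ := by
  have hS2 : S₂ = S₁ * (W₁ * S₂) := by rw [← Matrix.mul_assoc, h.sw, h2]
  have hWS : W₁ * ((c : ℂ) • S₁ + (s : ℂ) • S₂) = (c : ℂ) • P + (s : ℂ) • (W₁ * S₂) := by
    rw [Matrix.mul_add, Matrix.mul_smul, Matrix.mul_smul, h.ws]
  have hS' : (c : ℂ) • S₁ + (s : ℂ) • S₂ = S₁ * ((c : ℂ) • P + (s : ℂ) • (W₁ * S₂)) := by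
    rw [Matrix.mul_add, Matrix.mul_smul, Matrix.mul_smul, h.sp, ← hS2]
  have conj : ∀ X : Matrix n n ℂ, P * X = X → Commute X (W₁ * S₂) → X * P = X →
      ((c : ℂ) • S₁ + (s : ℂ) • S₂) * X * W' = S₁ * X * W₁ := by
    intro X hPX hX hXP
    have hc : Commute ((c : ℂ) • P + (s : ℂ) • (W₁ * S₂)) X := by
      refine Commute.add_left (Commute.smul_left ?_ _) (Commute.smul_left hX.symm _)
      rw [Commute, SemiconjBy, hPX, hXP]
    have e1 : W' = P * W' := h'.pw.symm
    calc ((c : ℂ) • S₁ + (s : ℂ) • S₂) * X * W'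
        = S₁ * (((c : ℂ) • P + (s : ℂ) • (W₁ * S₂)) * X) * W' := by
          rw [hS', Matrix.mul_assoc S₁]
      _ = S₁ * X * (((c : ℂ) • P + (s : ℂ) • (W₁ * S₂)) * W') := by
          rw [hc.eq, ← Matrix.mul_assoc, Matrix.mul_assoc (S₁ * X)]
      _ = S₁ * X * (W₁ * (((c : ℂ) • S₁ + (s : ℂ) • S₂) * W')) := by
          rw [← hWS, Matrix.mul_assoc W₁]
      _ = S₁ * X * W₁ := by rw [h'.sw, h.wp]
  refine ⟨?_, ?_, ?_, ?_⟩
  · refine hI.rotate hcs ?_ ?_ ?_
    · rw [← Matrix.mul_assoc, h'.pw]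
    · rw [Matrix.mul_assoc, Matrix.add_mul, Matrix.neg_mul, Matrix.smul_mul, Matrix.smul_mul, h.sp,
        h3]
    · rw [← Algebra.smul_def, ← Algebra.smul_def, ← Algebra.smul_def, ← Algebra.smul_def, ← hWS]
      rw [Matrix.mul_assoc, ← Matrix.mul_assoc _ W', h'.sw, Matrix.mul_add P', Matrix.mul_neg,
        Matrix.mul_smul, Matrix.mul_smul, h.ps, h2, Matrix.mul_add, Matrix.mul_neg,
        Matrix.mul_smul, Matrix.mul_smul, h.ws]
  · exact conj _ hI.P_qp hI.comm_qp hI.qp_P
  · exact conj _ hI.PI hI.comm hI.IP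
  · rw [sHat, sHat, ← Matrix.smul_mul]
    congr 1
    ext i j
    simp only [Matrix.sub_apply, Matrix.add_apply, Matrix.smul_apply, Matrix.neg_apply, smul_eq_mul]
    linear_combination ((s : ℂ) * S₂ i j) * Complex.I_mul_I

end Main

end Crest.Agent.R208.SP
end

-- ▼ part R208/SP6

/-!
# R208, block SPEC, part 6: entrywise smoothness calculus, the smooth partial inverse, the
package `T_J`, `F_J`
-/

set_option autoImplicit false

namespace Crest.Agent.R208.SP

open Filter Topology Matrix

/-! ### entrywise smoothness -/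

section MSm

variable {𝕜 : Type*} [RCLike 𝕜] {X : Type*} [NormedAddCommGroup X] [NormedSpace ℝ X]
variable {l m n : Type*}

/-- entrywise smoothness at a point -/
def MSm (k : WithTop ℕ∞) (M : X → Matrix m n 𝕜) (x : X) : Prop :=
  ∀ i j, ContDiffAt ℝ k (fun y => M y i j) x

variable {k : WithTop ℕ∞} {M N : X → Matrix m n 𝕜} {x : X}

theorem MSm.add (hM : MSm k M x) (hN : MSm k N x) : MSm k (fun y => M y + N y) x :=
  fun i j => (hM i j).add (hN i j)

theorem MSm.sub (hM : MSm k M x) (hN : MSm k N x) : MSm k (fun y => M y - N y) x :=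
  fun i j => (hM i j).sub (hN i j)

theorem MSm.neg (hM : MSm k M x) : MSm k (fun y => -M y) x :=
  fun i j => (hM i j).neg

theorem MSm.const (M : Matrix m n 𝕜) : MSm k (fun _ : X => M) x :=
  fun _ _ => contDiffAt_const

theorem MSm.smul {c : X → 𝕜} (hc : ContDiffAt ℝ k c x) (hM : MSm k M x) :
    MSm k (fun y => c y • M y) x :=
  fun i j => hc.mul (hM i j)

theorem MSm.const_smul (c : 𝕜) (hM : MSm k M x) : MSm k (fun y => c • M y) x :=
  hM.smul contDiffAt_const

theorem MSm.mul [Fintype n] {N : X → Matrix n l 𝕜} (hM : MSm k M x) (hN : MSm k N x) :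
    MSm k (fun y => M y * N y) x := by
  intro i j
  simp only [Matrix.mul_apply]
  exact ContDiffAt.sum fun a _ => (hM i a).mul (hN a j)

theorem MSm.conjTranspose (hM : MSm k M x) : MSm k (fun y => (M y)ᴴ) x := by
  intro i j
  simp only [Matrix.conjTranspose_apply]
  exact (RCLike.conjCLE (K := 𝕜)).contDiff.contDiffAt.comp x (hM j i)

theorem MSm.transpose (hM : MSm k M x) : MSm k (fun y => (M y)ᵀ) x :=
  fun i j => hM j i

theorem MSm.kron {o p : Type*} {N : X → Matrix o p 𝕜} (hM : MSm k M x) (hN : MSm k N x) :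
    MSm k (fun y => Matrix.kroneckerMap (· * ·) (M y) (N y)) x :=
  fun i j => (hM i.1 j.1).mul (hN i.2 j.2)

theorem MSm.congr (hM : MSm k M x) (h : ∀ᶠ y in 𝓝 x, N y = M y) : MSm k N x := by
  intro i j
  refine (hM i j).congr_of_eventuallyEq ?_
  filter_upwards [h] with y hy
  rw [hy]

theorem MSm.of_le {k' : WithTop ℕ∞} (hM : MSm k M x) (h : k' ≤ k) : MSm k' M x :=
  fun i j => (hM i j).of_le h

section Inv

variable [Fintype n] [DecidableEq n]

attribute [local instance] Matrix.linftyOpNormedRing Matrix.linftyOpNormedAlgebra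

theorem MSm.contDiffAt {M : X → Matrix n n 𝕜} (hM : MSm k M x) : ContDiffAt ℝ k M x := by
  have h1 : M = fun y => ∑ i, ∑ j, (M y i j) • (Matrix.single i j (1 : 𝕜) : Matrix n n 𝕜) := by
    funext y
    conv_lhs => rw [Matrix.matrix_eq_sum_single (M y)]
    refine Finset.sum_congr rfl fun i _ => Finset.sum_congr rfl fun j _ => ?_
    rw [Matrix.smul_single]
    simp
  rw [h1]
  exact ContDiffAt.sum fun i _ => ContDiffAt.sum fun j _ => (hM i j).smul contDiffAt_const

theorem MSm.of_contDiffAt {M : X → Matrix n n 𝕜} (hM : ContDiffAt ℝ k M x) : MSm k M x := by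
  intro i j
  let L : Matrix n n 𝕜 →ₗ[ℝ] 𝕜 :=
    { toFun := fun M => M i j
      map_add' := by intro a b; rfl
      map_smul' := by intro c a; rfl }
  have : FiniteDimensional ℝ (Matrix n n 𝕜) := by
    have : FiniteDimensional ℝ 𝕜 := inferInstance
    exact inferInstanceAs (FiniteDimensional ℝ (n → n → 𝕜))
  have hL : ContDiffAt ℝ k (L.toContinuousLinearMap) (M x) :=
    (L.toContinuousLinearMap).contDiff.contDiffAt
  exact hL.comp x hM

theorem MSm.ringInverse {M : X → Matrix n n 𝕜} (hM : MSm k M x) (hu : IsUnit (M x)) :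
    MSm k (fun y => Ring.inverse (M y)) x := by
  have : FiniteDimensional ℝ (Matrix n n 𝕜) := by
    have : FiniteDimensional ℝ 𝕜 := inferInstance
    exact inferInstanceAs (FiniteDimensional ℝ (n → n → 𝕜))
  have : CompleteSpace (Matrix n n 𝕜) := FiniteDimensional.complete ℝ _
  apply MSm.of_contDiffAt
  obtain ⟨u, hu⟩ := hu
  have h3 : ContDiffAt ℝ k (Ring.inverse : Matrix n n 𝕜 → Matrix n n 𝕜) (u : Matrix n n 𝕜) :=
    contDiffAt_ringInverse ℝ u
  rw [hu] at h3
  exact ContDiffAt.comp (g := (Ring.inverse : Matrix n n 𝕜 → Matrix n n 𝕜)) (f := M) x h3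
    hM.contDiffAt

end Inv

end MSm

/-! ### the smooth partial inverse -/

section Pinv

variable {𝕜 : Type*} [RCLike 𝕜] {m n : Type*} [Fintype m] [Fintype n] [DecidableEq n]

/-- the unit used for the partial inverse -/
noncomputable def gram (P : Matrix n n 𝕜) (S : Matrix m n 𝕜) : Matrix n n 𝕜 :=
  Sᴴ * S + (1 - P)ᴴ * (1 - P)

/-- the partial inverse of `S : range P → range P'` -/
noncomputable def pinv (P : Matrix n n 𝕜) (P' : Matrix m m 𝕜) (S : Matrix m n 𝕜) :
    Matrix n m 𝕜 :=
  Ring.inverse (gram P S) * (Sᴴ * P')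

open scoped ComplexOrder in
theorem isUnit_gram {P : Matrix n n 𝕜} {S : Matrix m n 𝕜}
    (h : ∀ v : n → 𝕜, P.mulVec v = v → S.mulVec v = 0 → v = 0) : IsUnit (gram P S) := by
  rw [← Matrix.mulVec_injective_iff_isUnit]
  intro v w hvw
  have h2 : (gram P S).mulVec (v - w) = 0 := by
    rw [Matrix.mulVec_sub, sub_eq_zero]; exact hvw
  set u := v - w with hu
  have h3 : star (S.mulVec u) ⬝ᵥ S.mulVec u + star ((1 - P).mulVec u) ⬝ᵥ (1 - P).mulVec u = 0 := by
    have : star u ⬝ᵥ (gram P S).mulVec u = 0 := by rw [h2, dotProduct_zero]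
    rw [gram, Matrix.add_mulVec, dotProduct_add, ← Matrix.mulVec_mulVec, ← Matrix.mulVec_mulVec,
      Matrix.dotProduct_mulVec, Matrix.dotProduct_mulVec _ (1 - P)ᴴ] at this
    rw [Matrix.star_mulVec, Matrix.star_mulVec]
    exact this
  have h4 := (add_eq_zero_iff_of_nonneg (dotProduct_star_self_nonneg (S.mulVec u))
    (dotProduct_star_self_nonneg ((1 - P).mulVec u))).mp h3
  have h5 : S.mulVec u = 0 := dotProduct_star_self_eq_zero.mp h4.1
  have h6 : (1 - P).mulVec u = 0 := dotProduct_star_self_eq_zero.mp h4.2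
  have h7 : P.mulVec u = u := by
    rw [Matrix.sub_mulVec, Matrix.one_mulVec, sub_eq_zero] at h6; exact h6.symm
  exact sub_eq_zero.mp (h u h7 h5)

omit [DecidableEq n] in
theorem PIso.inj {P : Matrix n n 𝕜} {P' : Matrix m m 𝕜} {S : Matrix m n 𝕜} {W : Matrix n m 𝕜}
    (h : PIso P P' S W) (v : n → 𝕜) (hv : P.mulVec v = v) (hS : S.mulVec v = 0) : v = 0 := by
  rw [← hv, ← h.ws, ← Matrix.mulVec_mulVec, hS, Matrix.mulVec_zero]

/-- The formula for the partial inverse. -/
theorem PIso.eq_pinv {P : Matrix n n 𝕜} {P' : Matrix m m 𝕜} {S : Matrix m n 𝕜} {W : Matrix n m 𝕜}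
    (h : PIso P P' S W) : W = pinv P P' S := by
  have hu := isUnit_gram (P := P) (S := S) h.inj
  have h1 : gram P S * W = Sᴴ * P' := by
    rw [gram, Matrix.add_mul, Matrix.mul_assoc, h.sw, Matrix.mul_assoc, Matrix.sub_mul,
      Matrix.one_mul, h.pw, sub_self, Matrix.mul_zero, add_zero]
  rw [pinv, ← h1, ← Matrix.mul_assoc, Ring.inverse_mul_cancel _ hu, Matrix.one_mul]

theorem PIso.to_pinv {P : Matrix n n 𝕜} {P' : Matrix m m 𝕜} {S : Matrix m n 𝕜} {W : Matrix n m 𝕜}
    (h : PIso P P' S W) : PIso P P' S (pinv P P' S) := by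
  rw [← h.eq_pinv]; exact h

/-- existence of the partial inverse: `S` injective on the range of `P`, and onto the range of
`P'`. -/
theorem exists_pIso {P : Matrix n n 𝕜} {P' : Matrix m m 𝕜} {S : Matrix m n 𝕜}
    (hP : P * P = P) (hP' : P' * P' = P') (hSP : S * P = S) (hPS : P' * S = S)
    (hinj : ∀ v : n → 𝕜, P.mulVec v = v → S.mulVec v = 0 → v = 0)
    (hsurj : ∀ w : m → 𝕜, P'.mulVec w = w → ∃ v, S.mulVec v = w) : PIso P P' S (pinv P P' S) := by
  classical
  have hu := isUnit_gram (P := P) (S := S) hinj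
  -- the left inverse `L = gram⁻¹ Sᴴ` satisfies `L S = P`
  have hgP : gram P S * P = Sᴴ * S := by
    rw [gram, Matrix.add_mul, Matrix.mul_assoc, hSP, Matrix.mul_assoc, Matrix.sub_mul,
      Matrix.one_mul, hP, sub_self, Matrix.mul_zero, add_zero]
  have hLS : Ring.inverse (gram P S) * Sᴴ * S = P := by
    rw [Matrix.mul_assoc, ← hgP, ← Matrix.mul_assoc, Ring.inverse_mul_cancel _ hu, Matrix.one_mul]
  have hWS : pinv P P' S * S = P := by
    rw [pinv, Matrix.mul_assoc, Matrix.mul_assoc, hPS, ← Matrix.mul_assoc, hLS]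
  -- surjectivity
  have hSW : S * pinv P P' S = P' := by
    have key : ∀ w : m → 𝕜, (S * pinv P P' S).mulVec w = P'.mulVec w := by
      intro w
      obtain ⟨v, hv⟩ := hsurj (P'.mulVec w) (by rw [Matrix.mulVec_mulVec, hP'])
      have h1 : (pinv P P' S).mulVec w = P.mulVec v := by
        have h2 : pinv P P' S = pinv P P' S * P' := by
          rw [pinv, Matrix.mul_assoc, Matrix.mul_assoc, hP']
        rw [h2, ← Matrix.mulVec_mulVec, ← hv, Matrix.mulVec_mulVec, hWS]
      rw [← Matrix.mulVec_mulVec, h1, Matrix.mulVec_mulVec, hSP, hv]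
    ext i j
    have := congrFun (key (Pi.single j 1)) i
    simpa using this
  refine ⟨hSP, hPS, ?_, ?_, hWS, hSW⟩
  · rw [pinv, Matrix.mul_assoc, Matrix.mul_assoc, hP']
  · -- `P W = W S W = W P' = W`
    have h3 : pinv P P' S * P' = pinv P P' S := by
      rw [pinv, Matrix.mul_assoc, Matrix.mul_assoc, hP']
    calc P * pinv P P' S = pinv P P' S * S * pinv P P' S := by rw [hWS]
      _ = pinv P P' S * (S * pinv P P' S) := Matrix.mul_assoc _ _ _
      _ = pinv P P' S := by rw [hSW, h3]

theorem MSm.pinv {X : Type*} [NormedAddCommGroup X] [NormedSpace ℝ X] {k : WithTop ℕ∞} {x : X}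
    {P : X → Matrix n n 𝕜} {P' : X → Matrix m m 𝕜} {S : X → Matrix m n 𝕜} (hP : MSm k P x)
    (hP' : MSm k P' x) (hS : MSm k S x) {W : Matrix n m 𝕜} (h : PIso (P x) (P' x) (S x) W) :
    MSm k (fun y => SP.pinv (P y) (P' y) (S y)) x := by
  have h1 : MSm k (fun y => gram (P y) (S y)) x :=
    (hS.conjTranspose.mul hS).add
      (((MSm.const 1).sub hP).conjTranspose.mul ((MSm.const 1).sub hP))
  exact (h1.ringInverse (isUnit_gram h.inj)).mul (hS.conjTranspose.mul hP')

end Pinv

/-! ### smoothness of the spectral idempotent and of the intertwiner -/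

section Smooth

variable {X : Type*} [NormedAddCommGroup X] [NormedSpace ℝ X] {k : WithTop ℕ∞} {x : X}
variable {m n : Type*} [Fintype m] [Fintype n] [DecidableEq n]

theorem MSm.cx {P : X → Matrix n n ℝ} (h : MSm k P x) : MSm k (fun y => SP.cx (P y)) x :=
  fun i j => Complex.ofRealCLM.contDiff.contDiffAt.comp x (h i j)

theorem MSm.pol {P J : X → Matrix n n ℂ} (hP : MSm k P x) (hJ : MSm k J x)
    (h : NoReal (P x) (J x)) : MSm k (fun y => SP.pol (P y) (J y)) x := by
  let _ := Matrix.linftyOpNormedRing (n := n) (α := ℂ)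
  let _ := Matrix.linftyOpNormedAlgebra (n := n) (α := ℂ) (R := ℂ)
  exact MSm.of_contDiffAt (contDiffAt_pol hP.contDiffAt hJ.contDiffAt h)

theorem MSm.polR {P J : X → Matrix n n ℝ} (hP : MSm k P x) (hJ : MSm k J x)
    (h : NoRealR (P x) (J x)) : MSm k (fun y => SP.polR (P y) (J y)) x :=
  fun i j => contDiffAt_polR hP hJ h i j

theorem MSm.qp {P I : X → Matrix n n ℂ} (hP : MSm k P x) (hI : MSm k I x) :
    MSm k (fun y => SP.qp (P y) (I y)) x :=
  (hP.sub (hI.const_smul _)).const_smul _

theorem MSm.sHat {P I : X → Matrix n n ℂ} {S₁ S₂ : X → Matrix m n ℂ} (hP : MSm k P x)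
    (hI : MSm k I x) (h1 : MSm k S₁ x) (h2 : MSm k S₂ x) :
    MSm k (fun y => SP.sHat (P y) (I y) (S₁ y) (S₂ y)) x :=
  (h1.sub (h2.const_smul _)).mul (hP.qp hI)

theorem MSm.uU {P J I : X → Matrix n n ℂ} (hP : MSm k P x) (hJ : MSm k J x) (hI : MSm k I x) :
    MSm k (fun y => SP.uU (P y) (J y) (I y)) x :=
  ((hP.qp hI).mul (hJ.add ((MSm.const 1).const_smul _))).add ((MSm.const 1).sub (hP.qp hI))

theorem MSm.wHat {P J I : X → Matrix n n ℂ} {W : X → Matrix n m ℂ} (hP : MSm k P x)
    (hJ : MSm k J x) (hI : MSm k I x) (hW : MSm k W x) (h : Pol (P x) (J x) (I x)) :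
    MSm k (fun y => SP.wHat (P y) (J y) (I y) (W y)) x :=
  (((hP.qp hI).mul ((hP.uU hJ hI).ringInverse (isUnit_uU h))).mul hW).const_smul _

end Smooth

end Crest.Agent.R208.SP
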