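import Crest.Agent.R208.CW1
import Crest.Agent.R208.CW3
import Crest.Agent.R208.FH10
import Crest.Agent.R208.SP6

-- ▼ part R208/CW1b
section

/-! Row 208, block CW (helper586).  CW1b: curvature in the commutative ring of even forms,
Chern classes `c_j(Q) ∈ H X`, `c_j = 0` above the rank. -/

set_option autoImplicit false
set_option linter.unusedSectionVars false
set_option linter.unusedSimpArgs false
set_option linter.unusedVariables false

open scoped BigOperators ContDiff Topology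
open Module Set

noncomputable section

namespace Crest.Agent.R208.CW

open Crest.Agent.R208.F Crest.Agent.R208.FI

section evc
variable (E : Type*) [AddCommGroup E] [Module ℝ E]

/-- even complex forms at a point -/
def EvC : Subalgebra ℂ (CF E) where
  carrier := {c | invC c = c}
  mul_mem' := by
    rintro a b ha hb
    change invC (a * b) = a * b
    rw [map_mul, show invC a = a from ha, show invC b = b from hb]
  add_mem' := by
    rintro a b ha hb
    change invC (a + b) = a + b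
    rw [map_add, show invC a = a from ha, show invC b = b from hb]
  algebraMap_mem' := fun z => invC_algebraMap z

instance instCommRingEvC : CommRing (EvC E) :=
  { (inferInstance : Ring (EvC E)) with
    mul_comm := fun a b => Subtype.ext (even_commC a.2 b.1) }

variable {E} {F : Type*} [AddCommGroup F] [Module ℝ F] {n m l : Type*} [Fintype n] [Fintype m]
  [Fintype l]

theorem EvC.inv (a : EvC E) : invC (a : CF E) = a := a.2

/-- complex matrix as a matrix of even forms -/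
def hv (E : Type*) [AddCommGroup E] [Module ℝ E] {n m : Type*} (M : Matrix n m ℂ) :
    Matrix n m (EvC E) := M.map (algebraMap ℂ (EvC E))

theorem hv_mul (A : Matrix n m ℂ) (B : Matrix m l ℂ) : hv E (A * B) = hv E A * hv E B :=
  Matrix.map_mul

/-- forget evenness -/
def vl (A : Matrix n m (EvC E)) : Matrix n m (CF E) := A.map (EvC E).val

theorem vl_mul (A : Matrix n m (EvC E)) (B : Matrix m l (EvC E)) : vl (A * B) = vl A * vl B :=
  Matrix.map_mul

theorem vl_hv (A : Matrix n m ℂ) : vl (hv E A) = hat E A := rfl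

theorem vl_inj {A B : Matrix n m (EvC E)} (h : vl A = vl B) : A = B :=
  Matrix.ext fun i j => Subtype.ext (congrFun (congrFun h i) j)

theorem vl_pow [DecidableEq n] (A : Matrix n n (EvC E)) (j : ℕ) : vl (A ^ j) = vl A ^ j :=
  map_pow ((EvC E).val : EvC E →+* CF E).mapMatrix A j

theorem vl_trace (A : Matrix n n (EvC E)) : (A.trace : CF E) = (vl A).trace :=
  map_sum (EvC E).val _ _

/-- even matrices -/
def toEv (A : Matrix n m (CF E)) (h : invM A = A) : Matrix n m (EvC E) :=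
  Matrix.of fun i j => ⟨A i j, congrFun (congrFun h i) j⟩

theorem vl_toEv (A : Matrix n m (CF E)) (h : invM A = A) : vl (toEv A h) = A := rfl

theorem invM_sq {A : Matrix n n (CF E)} (h : invM A = -A) : invM (A * A) = A * A := by
  rw [invM_mul, h, neg_mul_neg]

end evc

section cf
variable {E F : Type*} [NormedAddCommGroup E] [NormedSpace ℝ E] [FiniteDimensional ℝ E]
  [NormedAddCommGroup F] [NormedSpace ℝ F] [FiniteDimensional ℝ F]
  {n m l : Type*} [Fintype n] [Fintype m] [Fintype l] {x : E} {X : Set E} {Y : Set F} {dX dY : ℕ}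

/-- `(dQ)^2` -/
def D2 (Q : E → Matrix n n ℂ) (x : E) : Matrix n n (EvC E) :=
  toEv (DD Q x * DD Q x) (invM_sq (invM_DD Q x))

/-- the curvature `Q (dQ)^2 Q` -/
def Om (Q : E → Matrix n n ℂ) (x : E) : Matrix n n (EvC E) :=
  hv E (Q x) * D2 Q x * hv E (Q x)

theorem vl_Om (Q : E → Matrix n n ℂ) (x : E) :
    vl (Om Q x) = hat E (Q x) * (DD Q x * DD Q x) * hat E (Q x) := by
  rw [Om, vl_mul, vl_mul, vl_hv]; rfl

variable [DecidableEq n]

/-- `tr Ω^j` -/
def sf' (j : ℕ) (Q : E → Matrix n n ℂ) (x : E) : CF E := ((Om Q x ^ j).trace : EvC E)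

theorem sf'_eq (j : ℕ) (Q : E → Matrix n n ℂ) (x : E) :
    sf' j Q x = ((hat E (Q x) * (DD Q x * DD Q x) * hat E (Q x)) ^ j).trace := by
  rw [sf', vl_trace, vl_pow, vl_Om]

theorem Smo_sf' {Q : E → Matrix n n ℂ} (hQ : IdF X Q) (j : ℕ) : Smo X (sf' j Q) := fun x hx => by
  have h1 : MD ∞ (DD Q) x := (hQ.smooth x hx).MD_DD inf_add_one
  have h0 : MD ∞ (fun y => hat E (Q y)) x := (hQ.smooth x hx).hat
  have : sf' j Q = fun x => ((hat E (Q x) * (DD Q x * DD Q x) * hat E (Q x)) ^ j).trace :=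
    funext fun x => sf'_eq j Q x
  rw [this]
  exact (((h0.mul (h1.mul h1)).mul h0).pow j).trace

theorem idem_mul_pow {R : Type*} [Ring R] {q w : R} (h : q * w = w) {j : ℕ} (hj : 1 ≤ j) :
    q * w ^ j = w ^ j := by
  obtain ⟨i, rfl⟩ := Nat.exists_eq_add_of_le hj
  rw [pow_add, pow_one, ← mul_assoc, h]

theorem rs_sf' (hX : Sub dX X) {Q : E → Matrix n n ℂ} (hQ : IdF X Q) {j : ℕ} (hj : 1 ≤ j)
    (hx : x ∈ X) : rs X x (sf' j Q x) = rs X x (sf j Q x) := by
  have hq := hQ.hat_idem (F := Tan X x) hx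
  have hd := hQ.dl_eq hX hx
  rw [rs_sf, sf'_eq, rs_trace, rsM_pow, rsM_mul, rsM_mul, rsM_mul, rsM_hat]
  rw [show rsM X x (DD Q x) = dl X Q x from rfl, idem_pow hq hd, idem_mul_pow _ hj]
  rw [mul_assoc, ← mul_assoc, ← mul_assoc, hq, mul_assoc]

theorem sf'_mem_Z (hX : Sub dX X) {Q : E → Matrix n n ℂ} (hQ : IdF X Q) (j : ℕ) : sf' j Q ∈ Z X := by
  rcases Nat.eq_zero_or_pos j with h | h
  · subst h
    have : sf' 0 Q = algebraMap ℂ (E → CF E) (Fintype.card n) := by
      funext x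
      rw [sf'_eq, pow_zero, Matrix.trace_one]
      simp
    rw [this]
    exact (Z X).algebraMap_mem _
  · exact mem_Z_of hX (fun x => EvC.inv _) (Smo_sf' hQ j) (sf_mem_Z hX hQ j)
      fun x hx => rs_sf' hX hQ h hx

/-- Chern forms: the coefficients of `det (1 + t Ω)` -/
def cf (j : ℕ) (Q : E → Matrix n n ℂ) (x : E) : CF E := ((cpoly (Om Q x)).coeff j : EvC E)

/-- evaluation at a point -/
def Z.ev (X : Set E) (x : E) : Z X →ₐ[ℂ] EvC E where
  toFun a := ⟨a.1 x, a.2.1 x⟩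
  map_one' := rfl
  map_mul' _ _ := rfl
  map_zero' := rfl
  map_add' _ _ := rfl
  commutes' _ := rfl

theorem cf_eq (hX : Sub dX X) {Q : E → Matrix n n ℂ} (hQ : IdF X Q) (j : ℕ) :
    cf j Q = (el (fun i => (⟨sf' i Q, sf'_mem_Z hX hQ i⟩ : Z X)) j).1 := by
  funext x
  have h := el_map (Z.ev X x : Z X →+* EvC E) (fun i => (⟨sf' i Q, sf'_mem_Z hX hQ i⟩ : Z X)) j
  have h2 : cf j Q x = ((el (fun i => (Om Q x ^ i).trace) j : EvC E) : CF E) := by
    rw [cf, cpoly_coeff_eq_el]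
  rw [h2]
  exact (congrArg (fun a : EvC E => (a : CF E)) h).symm

theorem cf_mem_Z (hX : Sub dX X) {Q : E → Matrix n n ℂ} (hQ : IdF X Q) (j : ℕ) : cf j Q ∈ Z X := by
  rw [cf_eq hX hQ j]; exact Subtype.prop _

/-- the Chern classes -/
def cc (hX : Sub dX X) {Q : E → Matrix n n ℂ} (hQ : IdF X Q) (j : ℕ) : H X :=
  cls (cf j Q) (cf_mem_Z hX hQ j)

theorem cc_eq_el (hX : Sub dX X) {Q : E → Matrix n n ℂ} (hQ : IdF X Q) (j : ℕ) :
    cc hX hQ j = el (sc hX hQ) j := by
  have h1 : cc hX hQ j = H.mk X (el (fun i => (⟨sf' i Q, sf'_mem_Z hX hQ i⟩ : Z X)) j) := by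
    rw [cc, cls]; congr 1; exact Subtype.ext (cf_eq hX hQ j)
  have h2 := el_map (H.mk X : Z X →+* H X) (fun i => (⟨sf' i Q, sf'_mem_Z hX hQ i⟩ : Z X)) j
  rw [h1]
  refine h2.trans (el_congr fun i hi _ => ?_)
  exact cls_congr (h := sf'_mem_Z hX hQ i) (h' := sf_mem_Z hX hQ i) fun x hx => rs_sf' hX hQ hi hx

theorem cc_zero (hX : Sub dX X) {Q : E → Matrix n n ℂ} (hQ : IdF X Q) : cc hX hQ 0 = 1 := by
  rw [cc_eq_el, el_zero]

/-- factorisation of a matrix through its rank -/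
theorem exists_factor (M : Matrix n n ℂ) :
    ∃ (S : Matrix n (Fin M.rank) ℂ) (T : Matrix (Fin M.rank) n ℂ), M = S * T := by
  classical
  let V := LinearMap.range M.mulVecLin
  have hV : finrank ℂ V = M.rank := rfl
  let e : V ≃ₗ[ℂ] (Fin M.rank → ℂ) := LinearEquiv.ofFinrankEq _ _ (by rw [hV]; simp)
  let f : (Fin M.rank → ℂ) →ₗ[ℂ] (n → ℂ) := V.subtype ∘ₗ e.symm.toLinearMap
  let g : (n → ℂ) →ₗ[ℂ] (Fin M.rank → ℂ) := e.toLinearMap ∘ₗ M.mulVecLin.rangeRestrict
  refine ⟨LinearMap.toMatrix' f, LinearMap.toMatrix' g, ?_⟩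
  rw [← LinearMap.toMatrix'_comp]
  have : f ∘ₗ g = M.mulVecLin := by
    refine LinearMap.ext fun v => ?_
    simp [f, g]
  rw [this, ← Matrix.toLin'_apply', LinearMap.toMatrix'_toLin']

theorem cf_eq_zero {j : ℕ} {Q : E → Matrix n n ℂ} (h : (Q x).rank < j) : cf j Q x = 0 := by
  obtain ⟨S, T, hST⟩ := exists_factor (Q x)
  have : Om Q x = hv E S * (hv E T * D2 Q x * hv E (Q x)) := by
    have e : hv E (Q x) = hv E S * hv E T := by rw [← hv_mul, ← hST]
    rw [Om]
    nth_rewrite 1 [e]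
    simp only [Matrix.mul_assoc]
  rw [cf, this, cpoly_coeff_eq_zero _ _ (by simpa using h)]
  rfl

theorem cc_eq_zero (hX : Sub dX X) {Q : E → Matrix n n ℂ} (hQ : IdF X Q) {j : ℕ}
    (h : ∀ x ∈ X, (Q x).rank < j) : cc hX hQ j = 0 :=
  cls_eq_zero_iff.2 ⟨fun _ => 0, Smo.const _, fun x hx => by
    rw [cf_eq_zero (h x hx), dC_const]⟩

theorem rank_eq_trace {M : Matrix n n ℂ} (h : M * M = M) : (M.rank : ℂ) = M.trace := by
  have h1 : IsIdempotentElem (Matrix.toLin' M) := by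
    change Matrix.toLin' M * Matrix.toLin' M = _
    rw [Module.End.mul_eq_comp, ← Matrix.toLin'_mul, h]
  have h2 := (LinearMap.IsIdempotentElem.isProj_range _ h1).trace
  rw [Matrix.trace_toLin'_eq] at h2
  rw [h2]
  rfl

end cf

end Crest.Agent.R208.CW
end
end

-- ▼ part R208/CW1c
section

/-! Row 208, block CW (helper586).  CW1c: block sums, transposes, conjugates, Kronecker products,
constant fields, line bundles, for the classes `s_k(Q) ∈ H X`. -/

set_option autoImplicit false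
set_option linter.unusedSectionVars false
set_option linter.unusedSimpArgs false
set_option linter.unusedVariables false

open scoped BigOperators ContDiff Topology Kronecker
open Module Set

noncomputable section

namespace Crest.Agent.R208.CW

open Crest.Agent.R208.F Crest.Agent.R208.FI

section rsZ
variable {E : Type*} [NormedAddCommGroup E] [NormedSpace ℝ E] [FiniteDimensional ℝ E] {X : Set E}

/-- restriction of a closed form at a point of `X` -/
def rsZ (X : Set E) (x : E) : Z X →+* CF (Tan X x) where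
  toFun a := rs X x (a.1 x)
  map_one' := map_one _
  map_mul' a b := map_mul (rs X x) _ _
  map_zero' := map_zero _
  map_add' a b := map_add (rs X x) _ _

theorem H.mk_congr {a b : Z X} (h : ∀ x ∈ X, rsZ X x a = rsZ X x b) : H.mk X a = H.mk X b :=
  cls_congr (h := a.2) (h' := b.2) h

end rsZ

section sums
variable {E F : Type*} [NormedAddCommGroup E] [NormedSpace ℝ E] [FiniteDimensional ℝ E]
  [NormedAddCommGroup F] [NormedSpace ℝ F] [FiniteDimensional ℝ F]
  {n n' : Type*} [Fintype n] [Fintype n'] [DecidableEq n] [DecidableEq n']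
  {x : E} {X : Set E} {Y : Set F} {dX dY : ℕ}

theorem sc_eq' (hX : Sub dX X) {Q : E → Matrix n n ℂ} (hQ : IdF X Q) {j : ℕ} (hj : 1 ≤ j) :
    sc hX hQ j = cls (sf' j Q) (sf'_mem_Z hX hQ j) :=
  cls_congr fun x hx => (rs_sf' hX hQ hj hx).symm

theorem sf_zero (Q : E → Matrix n n ℂ) (x : E) :
    sf 0 Q x = algebraMap ℂ (CF E) ((Q x).trace) := by
  rw [sf, mul_zero, pow_zero, mul_one]
  exact (map_sum (algebraMap ℂ (CF E)) _ _).symm

theorem sc_zero_of_rank (hX : Sub dX X) {Q : E → Matrix n n ℂ} (hQ : IdF X Q) {r : ℕ}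
    (h : ∀ x ∈ X, (Q x).rank = r) : sc hX hQ 0 = r := by
  have h1 : (r : H X) = cls (algebraMap ℂ (E → CF E) r) ((Z X).algebraMap_mem _) := by
    have h2 : algebraMap ℂ (H X) (r : ℂ) = r := map_natCast _ r
    rw [← h2, ← (H.mk X).commutes (r : ℂ)]
    rfl
  rw [h1]
  refine cls_congr fun x hx => ?_
  rw [sf_zero, ← rank_eq_trace (hQ.idem x hx), h x hx]
  rfl

/-! ### constant fields -/

theorem IdF.const {M : Matrix n n ℂ} (h : M * M = M) : IdF X (fun _ => M) :=
  ⟨fun _ _ => SM.const M, fun _ _ => h⟩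

theorem sc_const (hX : Sub dX X) {M : Matrix n n ℂ} (h : IdF X (fun _ => M)) {j : ℕ}
    (hj : 1 ≤ j) : sc hX h j = 0 := by
  refine cls_eq_zero_iff.2 ⟨fun _ => 0, Smo.const _, fun x hx => ?_⟩
  have h0 : (2 * j) ≠ 0 := by omega
  rw [dC_const, sf, DD_const, zero_pow h0, mul_zero, Matrix.trace_zero]

/-! ### block sums -/

/-- direct sum -/
def bsum (Q : E → Matrix n n ℂ) (Q' : E → Matrix n' n' ℂ) (x : E) :
    Matrix (n ⊕ n') (n ⊕ n') ℂ := Matrix.fromBlocks (Q x) 0 0 (Q' x)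

theorem SM.fromBlocks {m m' : Type*} [Fintype m] [Fintype m'] {k : WithTop ℕ∞}
    {A : E → Matrix n m ℂ} {B : E → Matrix n m' ℂ} {C : E → Matrix n' m ℂ} {D : E → Matrix n' m' ℂ}
    (hA : SM k A x) (hB : SM k B x) (hC : SM k C x) (hD : SM k D x) :
    SM k (fun y => Matrix.fromBlocks (A y) (B y) (C y) (D y)) x := by
  rintro (i | i) (j | j)
  · exact hA i j
  · exact hB i j
  · exact hC i j
  · exact hD i j

theorem IdF.bsum {Q : E → Matrix n n ℂ} {Q' : E → Matrix n' n' ℂ} (hQ : IdF X Q)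
    (hQ' : IdF X Q') : IdF X (bsum Q Q') :=
  ⟨fun x hx => SM.fromBlocks (hQ.smooth x hx) (SM.const 0) (SM.const 0) (hQ'.smooth x hx),
    fun x hx => by
      simp only [CW.bsum, Matrix.fromBlocks_multiply, hQ.idem x hx, hQ'.idem x hx, mul_zero,
        zero_mul, Matrix.mul_zero, Matrix.zero_mul, add_zero, zero_add]⟩

theorem DD_bsum (Q : E → Matrix n n ℂ) (Q' : E → Matrix n' n' ℂ) (x : E) :
    DD (bsum Q Q') x = Matrix.fromBlocks (DD Q x) 0 0 (DD Q' x) := by
  refine Matrix.ext fun i j => ?_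
  have h0 : dC (fun _ : E => algebraMap ℂ (CF E) 0) x = 0 := dC_const _ _
  rcases i with i | i <;> rcases j with j | j
  · rfl
  · exact h0
  · exact h0
  · rfl

theorem fromBlocks_pow {R : Type*} [Ring R] (A : Matrix n n R) (D : Matrix n' n' R) (k : ℕ) :
    Matrix.fromBlocks A 0 0 D ^ k = Matrix.fromBlocks (A ^ k) 0 0 (D ^ k) := by
  induction k with
  | zero => simp only [pow_zero, Matrix.fromBlocks_one]
  | succ k ih => simp only [pow_succ, ih, Matrix.fromBlocks_multiply, Matrix.mul_zero,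
      Matrix.zero_mul, add_zero, zero_add]

theorem hat_fromBlocks (A : Matrix n n ℂ) (D : Matrix n' n' ℂ) :
    hat E (Matrix.fromBlocks A 0 0 D) = Matrix.fromBlocks (hat E A) 0 0 (hat E D) := by
  rw [hat, Matrix.fromBlocks_map]
  congr 1

theorem trace_fb {R : Type*} [Ring R] (A : Matrix n n R) (D : Matrix n' n' R) :
    (Matrix.fromBlocks A 0 0 D).trace = A.trace + D.trace := by
  simp [Matrix.trace, Fintype.sum_sum_type]

theorem sf_bsum (j : ℕ) (Q : E → Matrix n n ℂ) (Q' : E → Matrix n' n' ℂ) (x : E) :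
    sf j (bsum Q Q') x = sf j Q x + sf j Q' x := by
  rw [sf, DD_bsum, CW.bsum, hat_fromBlocks, fromBlocks_pow, Matrix.fromBlocks_multiply]
  simp only [Matrix.mul_zero, Matrix.zero_mul, add_zero, zero_add]
  rw [trace_fb]; rfl

theorem sc_bsum (hX : Sub dX X) {Q : E → Matrix n n ℂ} {Q' : E → Matrix n' n' ℂ} (hQ : IdF X Q)
    (hQ' : IdF X Q') (j : ℕ) : sc hX (hQ.bsum hQ') j = sc hX hQ j + sc hX hQ' j := by
  rw [sc, sc, sc, ← cls_add]
  exact cls_congr fun x hx => by rw [sf_bsum]; rfl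

/-! ### transpose: the dual bundle -/

theorem D2_transpose (Q : E → Matrix n n ℂ) (x : E) :
    D2 (fun y => (Q y).transpose) x = - (D2 Q x).transpose := by
  refine vl_inj (Matrix.ext fun i j => ?_)
  change (DD (fun y => (Q y).transpose) x * DD (fun y => (Q y).transpose) x) i j
    = - (DD Q x * DD Q x) j i
  rw [Matrix.mul_apply, Matrix.mul_apply, ← Finset.sum_neg_distrib]
  refine Finset.sum_congr rfl fun k _ => ?_
  change DD Q x k i * DD Q x j k = - (DD Q x j k * DD Q x k i)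
  have ho : ∀ a b, invC (DD Q x a b) = - DD Q x a b := fun a b =>
    congrFun (congrFun (invM_DD Q x) a) b
  rw [odd_commC (ho k i), ho, neg_mul]

theorem Om_transpose (Q : E → Matrix n n ℂ) (x : E) :
    Om (fun y => (Q y).transpose) x = - (Om Q x).transpose := by
  have h : hv E (Q x).transpose = (hv E (Q x)).transpose := rfl
  rw [Om, Om, D2_transpose, h, Matrix.transpose_mul, Matrix.transpose_mul, Matrix.mul_neg,
    Matrix.neg_mul, Matrix.mul_assoc]

theorem sf'_transpose (j : ℕ) (Q : E → Matrix n n ℂ) (x : E) :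
    sf' j (fun y => (Q y).transpose) x = (-1) ^ j * sf' j Q x := by
  have h : ((-(Om Q x).transpose) ^ j).trace = (-1) ^ j * (Om Q x ^ j).trace := by
    rw [neg_pow, ← Matrix.transpose_pow]
    rcases Nat.even_or_odd j with h | h
    · rw [h.neg_one_pow, h.neg_one_pow, one_mul, one_mul, Matrix.trace_transpose]
    · rw [h.neg_one_pow, h.neg_one_pow, neg_mul, one_mul, Matrix.trace_neg,
        Matrix.trace_transpose, neg_mul, one_mul]
  rw [sf', sf', Om_transpose, h]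
  push_cast
  rfl

theorem IdF.transpose {Q : E → Matrix n n ℂ} (hQ : IdF X Q) :
    IdF X (fun y => (Q y).transpose) :=
  ⟨fun x hx => (hQ.smooth x hx).transpose, fun x hx => by
    rw [← Matrix.transpose_mul, hQ.idem x hx]⟩

theorem sc_transpose (hX : Sub dX X) {Q : E → Matrix n n ℂ} (hQ : IdF X Q) (j : ℕ) :
    sc hX hQ.transpose j = (-1) ^ j * sc hX hQ j := by
  rcases Nat.eq_zero_or_pos j with h | h
  · subst h
    rw [pow_zero, one_mul]
    refine cls_congr fun x hx => ?_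
    rw [sf_zero, sf_zero, Matrix.trace_transpose]
  · rw [sc_eq' hX _ h, sc_eq' hX hQ h]
    have h1 : (-1 : H X) ^ j * cls (sf' j Q) (sf'_mem_Z hX hQ j)
        = H.mk X ((-1) ^ j * ⟨sf' j Q, sf'_mem_Z hX hQ j⟩) := by
      rw [map_mul, map_pow, map_neg, map_one]; rfl
    rw [h1]
    refine H.mk_congr (a := ⟨_, sf'_mem_Z hX hQ.transpose j⟩) fun x hx => ?_
    rw [map_mul, map_pow, map_neg, map_one]
    change rs X x (sf' j _ x) = (-1) ^ j * rs X x (sf' j Q x)
    rw [sf'_transpose, map_mul, map_pow, map_neg, map_one]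

/-! ### complex conjugation -/

theorem dC_conj (om : E → CF E) (x : E) : dC (fun y => Cx.conj (om y)) x = Cx.conj (dC om x) :=
  Cx.ext rfl (d_neg (om := fun y => (om y).im) (x := x))

theorem pbC_conj {E F : Type*} [AddCommGroup E] [Module ℝ E] [AddCommGroup F] [Module ℝ F]
    (A : E →ₗ[ℝ] F) (c : CF F) : pbC A (Cx.conj c) = Cx.conj (pbC A c) :=
  Cx.ext rfl (map_neg (pb A) _)

theorem invC_conj (c : CF E) : invC (Cx.conj c) = Cx.conj (invC c) :=
  Cx.ext rfl (map_neg inv _)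

theorem CD.conj {k : WithTop ℕ∞} {om : E → CF E} (h : CD k om x) :
    CD k (fun y => Cx.conj (om y)) x := ⟨h.re, h.im.neg⟩

theorem conj_algebraMap (z : ℂ) :
    Cx.conj (algebraMap ℂ (CF E) z) = algebraMap ℂ (CF E) (starRingEnd ℂ z) :=
  Cx.ext (by simp) (by simp)

theorem conj_mem_Z {om : E → CF E} (h : om ∈ Z X) : (fun y => Cx.conj (om y)) ∈ Z X :=
  mem_Z.2 ⟨fun x => by rw [invC_conj, h.1], fun x hx => (h.2.1 x hx).conj, fun x hx => by
    rw [dC_conj]
    have : rs X x (Cx.conj (dC om x)) = Cx.conj (rs X x (dC om x)) := pbC_conj _ _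
    rw [this, h.2.2 x hx, map_zero]⟩

/-- conjugation of closed forms -/
def Z.conj (X : Set E) : Z X →+* Z X where
  toFun a := ⟨fun y => Cx.conj (a.1 y), conj_mem_Z a.2⟩
  map_one' := Subtype.ext (funext fun y => map_one Cx.conj)
  map_mul' a b := Subtype.ext (funext fun y => map_mul Cx.conj _ _)
  map_zero' := Subtype.ext (funext fun y => map_zero Cx.conj)
  map_add' a b := Subtype.ext (funext fun y => map_add Cx.conj _ _)

/-- conjugation of classes -/
def H.conj (X : Set E) : H X →+* H X :=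
  Ideal.Quotient.lift (B X) ((H.mk X : Z X →+* H X).comp (Z.conj X)) fun a ha => by
    obtain ⟨ξ, h1, h2⟩ := ha
    have : Z.conj X a ∈ B X := by
      refine ⟨fun y => Cx.conj (ξ y), fun x hx => (h1 x hx).conj, fun x hx => ?_⟩
      rw [dC_conj]
      have e : ∀ c : CF E, rs X x (Cx.conj c) = Cx.conj (rs X x c) := fun c => pbC_conj _ _
      change rs X x (Cx.conj (a.1 x)) = _
      rw [e, e, h2 x hx]
    exact Ideal.Quotient.eq_zero_iff_mem.2 this

theorem H.conj_cls {om : E → CF E} (h : om ∈ Z X) :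
    H.conj X (cls om h) = cls (fun y => Cx.conj (om y)) (conj_mem_Z h) := rfl

theorem H.conj_conj (a : H X) : H.conj X (H.conj X a) = a := by
  obtain ⟨om, h, rfl⟩ := H.exists_rep a
  rw [H.conj_cls, H.conj_cls]
  exact cls_congr fun x hx => by rw [Cx.conj_conj]

theorem H.conj_smul (z : ℂ) (a : H X) : H.conj X (z • a) = (starRingEnd ℂ z) • H.conj X a := by
  obtain ⟨om, h, rfl⟩ := H.exists_rep a
  rw [← cls_smul, H.conj_cls, H.conj_cls, ← cls_smul]
  refine cls_congr fun x hx => ?_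
  congr 1
  change Cx.conj (z • om x) = (starRingEnd ℂ z) • Cx.conj (om x)
  rw [Algebra.smul_def, map_mul, conj_algebraMap, Algebra.smul_def]

theorem H.conj_map {f : E → F} (hf : SMap X Y f) (a : H Y) :
    H.conj X (H.map hf a) = H.map hf (H.conj Y a) := by
  obtain ⟨om, h, rfl⟩ := H.exists_rep a
  rw [H.conj_cls, H.map_cls, H.map_cls, H.conj_cls]
  exact cls_congr fun x hx => by rw [pullC, pullC, pbC_conj]

theorem integ_conj {n : ℕ} {o : E → Ext E} (hX : Clo n X) (ho : Ori n X o) (a : H X) :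
    integ hX ho (H.conj X a) = starRingEnd ℂ (integ hX ho a) := by
  obtain ⟨om, h, rfl⟩ := H.exists_rep a
  rw [H.conj_cls, integ_cls, integ_cls]
  exact Complex.ext rfl J_neg

theorem IdF.conj {Q : E → Matrix n n ℂ} (hQ : IdF X Q) :
    IdF X (fun y => (Q y).map (starRingEnd ℂ)) :=
  ⟨fun x hx => (hQ.smooth x hx).conj, fun x hx => by
    rw [← Matrix.map_mul, hQ.idem x hx]⟩

theorem sf_conj (j : ℕ) (Q : E → Matrix n n ℂ) (x : E) :
    sf j (fun y => (Q y).map (starRingEnd ℂ)) x = Cx.conj (sf j Q x) := by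
  have h1 : DD (fun y => (Q y).map (starRingEnd ℂ)) x = (Cx.conj : CF E →+* CF E).mapMatrix (DD Q x) := by
    refine Matrix.ext fun a b => ?_
    have := dC_conj (fun y => algebraMap ℂ (CF E) (Q y a b)) x
    simp only [conj_algebraMap] at this
    exact this
  have h2 : hat E ((Q x).map (starRingEnd ℂ)) = (Cx.conj : CF E →+* CF E).mapMatrix (hat E (Q x)) :=
    Matrix.ext fun a b => (conj_algebraMap _).symm
  have h3 : ∀ A : Matrix n n (CF E), Cx.conj A.trace = ((Cx.conj : CF E →+* CF E).mapMatrix A).trace :=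
    fun A => map_sum Cx.conj _ _
  rw [sf, sf, h1, h2, h3, map_mul, map_pow]

theorem sc_conj (hX : Sub dX X) {Q : E → Matrix n n ℂ} (hQ : IdF X Q) (j : ℕ) :
    sc hX hQ.conj j = H.conj X (sc hX hQ j) := by
  rw [sc, sc, H.conj_cls]
  exact cls_congr fun x hx => by rw [sf_conj]

end sums

end Crest.Agent.R208.CW
end
end

-- ▼ part R208/CW1d
section

/-! Row 208, block CW (helper586).  CW1d: Kronecker products (tensor products of bundles) and line
bundles. -/

set_option autoImplicit false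
set_option linter.unusedSectionVars false
set_option linter.unusedSimpArgs false
set_option linter.unusedVariables false

open scoped BigOperators ContDiff Topology Kronecker
open Module Set

noncomputable section

namespace Crest.Agent.R208.CW

open Crest.Agent.R208.F Crest.Agent.R208.FI

section nk
variable {R : Type*} [Ring R] {n n' m m' l l' : Type*} [Fintype n] [Fintype n'] [Fintype m]
  [Fintype m'] [Fintype l] [Fintype l']

theorem nk_mul (A : Matrix n m R) (B : Matrix n' m' R) (C : Matrix m l R) (D : Matrix m' l' R)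
    (h : ∀ i j k l, B i j * C k l = C k l * B i j) :
    (A ⊗ₖ B) * (C ⊗ₖ D) = (A * C) ⊗ₖ (B * D) := by
  refine Matrix.ext ?_
  rintro ⟨i, i'⟩ ⟨j, j'⟩
  simp only [Matrix.mul_apply, Matrix.kroneckerMap_apply, Fintype.sum_prod_type,
    Finset.sum_mul_sum]
  refine Finset.sum_congr rfl fun k _ => Finset.sum_congr rfl fun k' _ => ?_
  rw [mul_assoc, ← mul_assoc (B i' k'), h, mul_assoc, mul_assoc]

theorem nk_mul_anti (A : Matrix n m R) (B : Matrix n' m' R) (C : Matrix m l R) (D : Matrix m' l' R)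
    (h : ∀ i j k l, B i j * C k l = - (C k l * B i j)) :
    (A ⊗ₖ B) * (C ⊗ₖ D) = - ((A * C) ⊗ₖ (B * D)) := by
  refine Matrix.ext ?_
  rintro ⟨i, i'⟩ ⟨j, j'⟩
  simp only [Matrix.mul_apply, Matrix.kroneckerMap_apply, Fintype.sum_prod_type,
    Finset.sum_mul_sum, Matrix.neg_apply]
  rw [← Finset.sum_neg_distrib]
  refine Finset.sum_congr rfl fun k _ => ?_
  rw [← Finset.sum_neg_distrib]
  refine Finset.sum_congr rfl fun k' _ => ?_
  rw [mul_assoc, ← mul_assoc (B i' k'), h, neg_mul, mul_neg, mul_assoc, mul_assoc]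

end nk

section trace
variable {A : Type*} [CommRing A] {n n' : Type*} [Fintype n] [Fintype n'] [DecidableEq n]
  [DecidableEq n']

theorem nk_pow (a : Matrix n n A) (b : Matrix n' n' A) (k : ℕ) :
    (a ⊗ₖ b) ^ k = (a ^ k) ⊗ₖ (b ^ k) := by
  induction k with
  | zero => simp only [pow_zero, Matrix.one_kronecker_one]
  | succ k ih => rw [pow_succ, pow_succ, pow_succ, ih, Matrix.mul_kronecker_mul]

theorem idem_pow_eq {R : Type*} [Ring R] {p : R} (h : p * p = p) {k : ℕ} (hk : 1 ≤ k) :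
    p ^ k = p := by
  obtain ⟨i, rfl⟩ := Nat.exists_eq_add_of_le' hk
  induction i with
  | zero => simp
  | succ i ih => rw [pow_succ, ih (by omega), h]

theorem tr_aux {p a : Matrix n n A} (hp : p * p = p) (h1 : p * a = a) (h2 : a * p = a) {m l : ℕ}
    (h : 1 ≤ m + l) : (a ^ m * p ^ l).trace = (p * a ^ m).trace := by
  rcases Nat.eq_zero_or_pos l with h0 | h0
  · subst h0
    rw [pow_zero, mul_one, idem_mul_pow h1 (by omega)]
  · rw [idem_pow_eq hp h0, Matrix.trace_mul_comm]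

theorem tr_kron_pow {p a : Matrix n n A} {p' b : Matrix n' n' A} (hp : p * p = p)
    (h1 : p * a = a) (h2 : a * p = a) (hp' : p' * p' = p') (h1' : p' * b = b) (h2' : b * p' = b)
    {k : ℕ} (hk : 1 ≤ k) :
    ((a ⊗ₖ p' + p ⊗ₖ b) ^ k).trace = ∑ i ∈ Finset.range (k + 1),
      (k.choose i : A) * (p * a ^ i).trace * (p' * b ^ (k - i)).trace := by
  have hc : Commute (a ⊗ₖ p') (p ⊗ₖ b) := by
    change a ⊗ₖ p' * p ⊗ₖ b = p ⊗ₖ b * a ⊗ₖ p'
    rw [← Matrix.mul_kronecker_mul, ← Matrix.mul_kronecker_mul, h1, h2, h1', h2']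
  rw [hc.add_pow, Matrix.trace_sum]
  refine Finset.sum_congr rfl fun i hi => ?_
  have hi' : i ≤ k := Nat.lt_succ_iff.1 (Finset.mem_range.1 hi)
  have e1 : (a ⊗ₖ p') ^ i * (p ⊗ₖ b) ^ (k - i) * ((k.choose i : ℕ) : Matrix (n × n') (n × n') A)
      = (k.choose i : A) • ((a ^ i * p ^ (k - i)) ⊗ₖ (p' ^ i * b ^ (k - i))) := by
    rw [nk_pow, nk_pow, ← Matrix.mul_kronecker_mul, ← Nat.cast_commute, ← nsmul_eq_mul,
      Nat.cast_smul_eq_nsmul]
  rw [e1, Matrix.trace_smul, Matrix.trace_kronecker, smul_eq_mul, tr_aux hp h1 h2 (by omega),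
    Matrix.trace_mul_comm (p' ^ i), tr_aux hp' h1' h2' (by omega), mul_assoc]

end trace

section curv
variable {T : Type*} [AddCommGroup T] [Module ℝ T] {n n' : Type*} [Fintype n] [Fintype n']
  [DecidableEq n] [DecidableEq n']

/-- curvature at a point from `q` and `δ` -/
def wv (q : Matrix n n ℂ) (δ : Matrix n n (CF T)) (hδ : invM δ = -δ) : Matrix n n (EvC T) :=
  hv T q * toEv (δ * δ) (invM_sq hδ) * hv T q

theorem vl_wv (q : Matrix n n ℂ) (δ : Matrix n n (CF T)) (hδ : invM δ = -δ) :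
    vl (wv q δ hδ) = hat T q * (δ * δ) * hat T q := by
  rw [wv, vl_mul, vl_mul, vl_hv, vl_toEv]

theorem hv_idem {q : Matrix n n ℂ} (hq : q * q = q) : hv T q * hv T q = hv T q := by
  rw [← hv_mul, hq]

theorem hv_wv {q : Matrix n n ℂ} (hq : q * q = q) (δ : Matrix n n (CF T)) (hδ : invM δ = -δ) :
    hv T q * wv q δ hδ = wv q δ hδ := by
  rw [wv, mul_assoc, ← mul_assoc, hv_idem hq]

theorem wv_hv {q : Matrix n n ℂ} (hq : q * q = q) (δ : Matrix n n (CF T)) (hδ : invM δ = -δ) :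
    wv q δ hδ * hv T q = wv q δ hδ := by
  rw [wv, mul_assoc, hv_idem hq]

theorem hat_entry (q : Matrix n n ℂ) (i j : n) (c : CF T) : hat T q i j * c = c * hat T q i j :=
  alg_comm _ _

theorem tr_wv {q : Matrix n n ℂ} (hq : q * q = q) (δ : Matrix n n (CF T)) (hδ : invM δ = -δ)
    (h : δ = δ * hat T q + hat T q * δ) (j : ℕ) :
    ((hv T q * wv q δ hδ ^ j).trace : CF T) = (hat T q * δ ^ (2 * j)).trace := by
  have hq' : hat T q * hat T q = hat T q := by rw [← hat_mul, hq]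
  rw [vl_trace, vl_mul, vl_pow, vl_wv, vl_hv, idem_pow hq' h]

theorem kron_wv {q : Matrix n n ℂ} {q' : Matrix n' n' ℂ} (hq : q * q = q) (hq' : q' * q' = q')
    {δ : Matrix n n (CF T)} {δ' : Matrix n' n' (CF T)} (hδ : invM δ = -δ) (hδ' : invM δ' = -δ')
    (h : δ = δ * hat T q + hat T q * δ) (h' : δ' = δ' * hat T q' + hat T q' * δ')
    {δK : Matrix (n × n') (n × n') (CF T)} (hδK : invM δK = -δK)
    (hK : δK = δ ⊗ₖ hat T q' + hat T q ⊗ₖ δ') :
    wv (q ⊗ₖ q') δK hδK = wv q δ hδ ⊗ₖ hv T q' + hv T q ⊗ₖ wv q' δ' hδ' := by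
  refine vl_inj ?_
  have e1 : vl (wv q δ hδ ⊗ₖ hv T q' + hv T q ⊗ₖ wv q' δ' hδ')
      = vl (wv q δ hδ) ⊗ₖ hat T q' + hat T q ⊗ₖ vl (wv q' δ' hδ') := rfl
  have e2 : hat T (q ⊗ₖ q') = hat T q ⊗ₖ hat T q' := by
    refine Matrix.ext ?_
    rintro ⟨i, i'⟩ ⟨j, j'⟩
    exact map_mul (algebraMap ℂ (CF T)) _ _
  rw [e1, vl_wv, vl_wv, vl_wv, e2]
  set g := hat T q with hg
  set g' := hat T q' with hg'
  have gg : g * g = g := by rw [hg, ← hat_mul, hq]
  have gg' : g' * g' = g' := by rw [hg', ← hat_mul, hq']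
  have cg : ∀ i j (c : CF T), g i j * c = c * g i j := fun i j c => hat_entry q i j c
  have cg' : ∀ i j (c : CF T), g' i j * c = c * g' i j := fun i j c => hat_entry q' i j c
  have mid : g * δ * g = 0 := idem_mid gg h
  have mid' : g' * δ' * g' = 0 := idem_mid gg' h'
  have hodd : ∀ i j, invC (δ i j) = -δ i j := fun i j => congrFun (congrFun hδ i) j
  have anti : ∀ i j k l, δ' i j * δ k l = - (δ k l * δ' i j) := fun i j k l => by
    have h1 : invC (δ' i j) = -δ' i j := congrFun (congrFun hδ' i) j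
    rw [odd_commC h1, hodd, neg_mul]
  have sq : δK * δK = (δ * δ) ⊗ₖ (g' * g') + (δ * g) ⊗ₖ (g' * δ')
      - (g * δ) ⊗ₖ (δ' * g') + (g * g) ⊗ₖ (δ' * δ') := by
    rw [hK, add_mul, mul_add, mul_add, nk_mul _ _ _ _ fun i j k l => cg' i j _,
      nk_mul _ _ _ _ fun i j k l => cg' i j _, nk_mul_anti _ _ _ _ anti,
      nk_mul _ _ _ _ fun i j k l => (cg k l _).symm]
    abel
  have L : ∀ (C : Matrix n n (CF T)) (D : Matrix n' n' (CF T)),
      (g ⊗ₖ g') * (C ⊗ₖ D) * (g ⊗ₖ g') = (g * C * g) ⊗ₖ (g' * D * g') := fun C D => by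
    rw [nk_mul _ _ _ _ fun i j k l => cg' i j _, nk_mul _ _ _ _ fun i j k l => (cg k l _).symm]
  have z1 : ∀ D : Matrix n' n' (CF T), (0 : Matrix n n (CF T)) ⊗ₖ D = 0 := fun D =>
    Matrix.ext fun i j => zero_mul _
  have m1 : g * (δ * g) * g = 0 := by rw [← mul_assoc g δ g, mid, zero_mul]
  have m2 : g * (g * δ) * g = 0 := by rw [← mul_assoc g g δ, gg, mid]
  rw [sq, mul_add, mul_sub, mul_add, add_mul, sub_mul, add_mul, L, L, L, L, m1, m2, z1, z1,
    add_zero, sub_zero, gg', gg', gg', gg, gg, gg]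

theorem tr_kron {q : Matrix n n ℂ} {q' : Matrix n' n' ℂ} (hq : q * q = q) (hq' : q' * q' = q')
    {δ : Matrix n n (CF T)} {δ' : Matrix n' n' (CF T)} (hδ : invM δ = -δ) (hδ' : invM δ' = -δ')
    (h : δ = δ * hat T q + hat T q * δ) (h' : δ' = δ' * hat T q' + hat T q' * δ')
    {δK : Matrix (n × n') (n × n') (CF T)} (hδK : invM δK = -δK)
    (hK : δK = δ ⊗ₖ hat T q' + hat T q ⊗ₖ δ')
    (hK' : δK = δK * hat T (q ⊗ₖ q') + hat T (q ⊗ₖ q') * δK) {k : ℕ} (hk : 1 ≤ k) :
    (hat T (q ⊗ₖ q') * δK ^ (2 * k)).trace = ∑ i ∈ Finset.range (k + 1),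
      (k.choose i : CF T) * (hat T q * δ ^ (2 * i)).trace
        * (hat T q' * δ' ^ (2 * (k - i))).trace := by
  have hqq : (q ⊗ₖ q') * (q ⊗ₖ q') = q ⊗ₖ q' := by rw [← Matrix.mul_kronecker_mul, hq, hq']
  rw [← tr_wv hqq δK hδK hK' k, idem_mul_pow (hv_wv hqq δK hδK) hk,
    kron_wv hq hq' hδ hδ' h h' hδK hK, tr_kron_pow (hv_idem hq) (hv_wv hq _ _) (wv_hv hq _ _)
      (hv_idem hq') (hv_wv hq' _ _) (wv_hv hq' _ _) hk]
  have e1 : ∀ (s : Finset ℕ) (f : ℕ → EvC T),
      ((∑ i ∈ s, f i : EvC T) : CF T) = ∑ i ∈ s, (f i : CF T) :=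
    fun s f => map_sum (EvC T).val f s
  rw [e1]
  refine Finset.sum_congr rfl fun i hi => ?_
  rw [← tr_wv hq δ hδ h i, ← tr_wv hq' δ' hδ' h' (k - i)]
  push_cast
  rfl

end curv

section kron
variable {E F : Type*} [NormedAddCommGroup E] [NormedSpace ℝ E] [FiniteDimensional ℝ E]
  [NormedAddCommGroup F] [NormedSpace ℝ F] [FiniteDimensional ℝ F]
  {n n' : Type*} [Fintype n] [Fintype n'] [DecidableEq n] [DecidableEq n']
  {x : E} {X : Set E} {Y : Set F} {dX dY : ℕ}

theorem SM.kron {k : WithTop ℕ∞} {A : E → Matrix n n ℂ} {B : E → Matrix n' n' ℂ} (hA : SM k A x)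
    (hB : SM k B x) : SM k (fun y => A y ⊗ₖ B y) x := fun i j => (hA i.1 j.1).mul (hB i.2 j.2)

theorem IdF.kron {Q : E → Matrix n n ℂ} {Q' : E → Matrix n' n' ℂ} (hQ : IdF X Q)
    (hQ' : IdF X Q') : IdF X (fun y => Q y ⊗ₖ Q' y) :=
  ⟨fun x hx => (hQ.smooth x hx).kron (hQ'.smooth x hx), fun x hx => by
    rw [← Matrix.mul_kronecker_mul, hQ.idem x hx, hQ'.idem x hx]⟩

theorem dl_kron {Q : E → Matrix n n ℂ} {Q' : E → Matrix n' n' ℂ} (hQ : SM 1 Q x)
    (hQ' : SM 1 Q' x) : dl X (fun y => Q y ⊗ₖ Q' y) x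
      = dl X Q x ⊗ₖ hat (Tan X x) (Q' x) + hat (Tan X x) (Q x) ⊗ₖ dl X Q' x := by
  refine Matrix.ext ?_
  rintro ⟨i, i'⟩ ⟨j, j'⟩
  have h : dC (fun y => algebraMap ℂ (CF E) ((Q y ⊗ₖ Q' y) (i, i') (j, j'))) x
      = dC (fun y => algebraMap ℂ (CF E) (Q y i j)) x * algebraMap ℂ (CF E) (Q' x i' j')
        + invC (algebraMap ℂ (CF E) (Q x i j)) * dC (fun y => algebraMap ℂ (CF E) (Q' y i' j')) x := by
    rw [← dC_mul (CD.of_fun (hQ i j)) (CD.of_fun (hQ' i' j'))]
    congr 1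
    funext y
    rw [← map_mul]; rfl
  rw [invC_algebraMap] at h
  change rs X x (dC (fun y => algebraMap ℂ (CF E) ((Q y ⊗ₖ Q' y) (i, i') (j, j'))) x) = _
  rw [h, map_add, map_mul, map_mul, rs_algebraMap, rs_algebraMap]
  rfl

theorem sc_kron (hX : Sub dX X) {Q : E → Matrix n n ℂ} {Q' : E → Matrix n' n' ℂ} (hQ : IdF X Q)
    (hQ' : IdF X Q') (k : ℕ) : sc hX (hQ.kron hQ') k
      = ∑ i ∈ Finset.range (k + 1), (k.choose i : H X) * sc hX hQ i * sc hX hQ' (k - i) := by
  have key : sc hX (hQ.kron hQ') k = H.mk X (∑ i ∈ Finset.range (k + 1),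
      (k.choose i : Z X) * ⟨sf i Q, sf_mem_Z hX hQ i⟩ * ⟨sf (k - i) Q', sf_mem_Z hX hQ' (k - i)⟩) := by
    refine H.mk_congr (a := ⟨_, sf_mem_Z hX (hQ.kron hQ') k⟩) fun x hx => ?_
    rw [map_sum]
    simp only [map_mul, map_natCast]
    change rs X x (sf k (fun y => Q y ⊗ₖ Q' y) x)
      = ∑ i ∈ Finset.range (k + 1), (k.choose i : CF (Tan X x)) * rs X x (sf i Q x)
        * rs X x (sf (k - i) Q' x)
    rcases Nat.eq_zero_or_pos k with h0 | h0
    · subst h0
      rw [zero_add, Finset.sum_range_one, Nat.choose_self, Nat.cast_one, one_mul, sf_zero, sf_zero,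
        sf_zero, Matrix.trace_kronecker, map_mul, map_mul]
    · rw [rs_sf]
      have e0 := tr_kron (hQ.idem x hx) (hQ'.idem x hx) (invM_dl Q x) (invM_dl Q' x)
        (hQ.dl_eq hX hx) (hQ'.dl_eq hX hx) (invM_dl (X := X) (fun y => Q y ⊗ₖ Q' y) x)
        (dl_kron (hQ.s1 hx) (hQ'.s1 hx)) ((hQ.kron hQ').dl_eq hX hx) h0
      refine e0.trans (Finset.sum_congr rfl fun i hi => ?_)
      rw [rs_sf, rs_sf]
  rw [key, map_sum]
  simp only [map_mul, map_natCast]
  rfl

/-! ### line bundles -/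

theorem pow_unique {A : Type*} [CommRing A] (w : Matrix (Fin 1) (Fin 1) A) {j : ℕ} :
    (w ^ j).trace = w.trace ^ j := by
  induction j with
  | zero => simp
  | succ j ih =>
    rw [pow_succ, pow_succ, ← ih]
    simp [Matrix.trace, Matrix.mul_apply]

theorem trace_rank_one {A : Type*} [CommRing A] (S : Matrix n (Fin 1) A) (T : Matrix (Fin 1) n A)
    {j : ℕ} (hj : 1 ≤ j) : ((S * T) ^ j).trace = (S * T).trace ^ j := by
  obtain ⟨i, rfl⟩ := Nat.exists_eq_add_of_le' hj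
  have h : (S * T) ^ (i + 1) = S * ((T * S) ^ i * T) := by
    clear hj
    induction i with
    | zero => simp
    | succ i ih =>
      rw [pow_succ', ih, pow_succ' (T * S)]
      simp only [Matrix.mul_assoc]
  rw [h, Matrix.trace_mul_comm, Matrix.trace_mul_comm S T, Matrix.mul_assoc, ← pow_succ, pow_unique]

theorem exists_factor' (M : Matrix n n ℂ) {r : ℕ} (h : M.rank = r) :
    ∃ (S : Matrix n (Fin r) ℂ) (T : Matrix (Fin r) n ℂ), M = S * T := by
  subst h; exact exists_factor M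

theorem sf'_line {Q : E → Matrix n n ℂ} (h : (Q x).rank = 1) {j : ℕ} (hj : 1 ≤ j) :
    sf' j Q x = sf' 1 Q x ^ j := by
  obtain ⟨S, T, hST⟩ := exists_factor' (Q x) h
  have e : hv E (Q x) = hv E S * hv E T := by rw [← hv_mul, ← hST]
  have : Om Q x = hv E S * (hv E T * D2 Q x * hv E (Q x)) := by
    rw [Om]
    nth_rewrite 1 [e]
    simp only [Matrix.mul_assoc]
  rw [sf', sf', this, trace_rank_one _ _ hj, pow_one]
  push_cast
  rfl

theorem sc_line (hX : Sub dX X) {Q : E → Matrix n n ℂ} (hQ : IdF X Q)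
    (h : ∀ x ∈ X, (Q x).rank = 1) (j : ℕ) : sc hX hQ j = sc hX hQ 1 ^ j := by
  rcases Nat.eq_zero_or_pos j with h0 | h0
  · subst h0
    rw [pow_zero, sc_zero_of_rank hX hQ h, Nat.cast_one]
  · rw [sc_eq' hX hQ h0, sc_eq' hX hQ le_rfl]
    change _ = (H.mk X ⟨_, _⟩) ^ j
    rw [← map_pow]
    refine H.mk_congr (a := ⟨_, sf'_mem_Z hX hQ j⟩) fun x hx => ?_
    rw [map_pow]
    change rs X x (sf' j Q x) = rs X x (sf' 1 Q x) ^ j
    rw [sf'_line (h x hx) h0, map_pow]

end kron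

end Crest.Agent.R208.CW
end
end

-- ▼ part R208/CW2

/-! Row 208, block CW (helper586).  CW2: homotopy invariance of `H.map`, of the classes `s_k(Q)`,
isomorphism invariance, orthogonal sums (Whitney). -/

set_option autoImplicit false
set_option linter.unusedSectionVars false
set_option linter.unusedSimpArgs false
set_option linter.unusedVariables false

open scoped BigOperators ContDiff Topology
open Module Set

noncomputable section

namespace Crest.Agent.R208.CW

open Crest.Agent.R208.F Crest.Agent.R208.FI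

universe u

section homotopy
variable {E : Type u} [NormedAddCommGroup E] [NormedSpace ℝ E] [FiniteDimensional ℝ E]
  {F : Type*} [NormedAddCommGroup F] [NormedSpace ℝ F] [FiniteDimensional ℝ F]
  {X : Set E} {Y : Set F}

/-- homotopic maps induce the same map on classes -/
theorem H.map_homotopy {Fh : E × ℝ → F}
    (hF : ∀ x ∈ X, ∀ t ∈ Icc (0 : ℝ) 1, ContDiffAt ℝ ∞ Fh (x, t))
    (hm : ∀ x ∈ X, ∀ t ∈ Icc (0 : ℝ) 1, Fh (x, t) ∈ Y)
    (h0 : SMap X Y fun y => Fh (y, 0)) (h1 : SMap X Y fun y => Fh (y, 1)) (a : H Y) :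
    H.map h1 a = H.map h0 a := by
  obtain ⟨om, h, rfl⟩ := H.exists_rep a
  rw [H.map_cls, H.map_cls]
  have hF2 : ∀ x ∈ X, ∀ t ∈ Icc (0 : ℝ) 1, ContDiffAt ℝ 2 Fh (x, t) := fun x hx t ht =>
    (hF x hx t ht).of_le two_le
  have hr := resZero_Hop (Fh := Fh) (om := fun y => (om y).re) hF2 hm
    (fun y hy => (h.2.1 y hy).re.of_le one_le_inf) (fun y hy => congrArg Cx.re (h.2.2 y hy))
  have hi := resZero_Hop (Fh := Fh) (om := fun y => (om y).im) hF2 hm
    (fun y hy => (h.2.1 y hy).im.of_le one_le_inf) (fun y hy => congrArg Cx.im (h.2.2 y hy))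
  refine cls_eq_iff.2 ⟨fun x => ⟨Hop Fh (fun y => (om y).re) x, Hop Fh (fun y => (om y).im) x⟩,
    fun x hx => ⟨contDiffAt_Hop (hF x hx) fun t ht => (h.2.1 _ (hm x hx t ht)).re,
      contDiffAt_Hop (hF x hx) fun t ht => (h.2.1 _ (hm x hx t ht)).im⟩, fun x hx => ?_⟩
  have hr' := hr x hx
  have hi' := hi x hx
  simp only [map_sub] at hr' hi'
  rw [map_add]
  refine Cx.ext ?_ ?_
  · rw [Cx.add_re]
    have h3 := sub_eq_zero.1 hr'
    have h4 := eq_add_of_sub_eq h3
    rw [add_comm] at h4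
    exact h4
  · rw [Cx.add_im]
    have h3 := sub_eq_zero.1 hi'
    have h4 := eq_add_of_sub_eq h3
    rw [add_comm] at h4
    exact h4

end homotopy

/-! ### closedness over an arbitrary set -/

section gen
variable {E F : Type*} [NormedAddCommGroup E] [NormedSpace ℝ E] [FiniteDimensional ℝ E]
  [NormedAddCommGroup F] [NormedSpace ℝ F] [FiniteDimensional ℝ F]
  {n m : Type*} [Fintype n] [Fintype m]
  {x : E} {X : Set E} {Y : Set F} {dX dY : ℕ}

theorem rs_d_real_zero (hx : x ∈ X) {g : E → ℝ} (hg : DifferentiableAt ℝ g x)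
    (h : ∀ y ∈ X, g y = 0) : pb (Tan X x).subtype (d (fun y => g y • (1 : Ext E)) x) = 0 := by
  rw [d_smul hg (differentiableAt_const _), d_const, smul_zero, add_zero, mul_one, pb_io]
  have : ((fderiv ℝ g x : E →L[ℝ] ℝ) : Module.Dual ℝ E) ∘ₗ (Tan X x).subtype = 0 := by
    refine LinearMap.ext fun v => ?_
    have key : ∀ w ∈ Tan X x, fderiv ℝ g x w = 0 := by
      intro w hw
      refine Submodule.span_induction (p := fun w _ => fderiv ℝ g x w = 0) ?_ ?_ ?_ ?_ hw
      · rintro w ⟨γ, rfl, hγ, hS⟩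
        have h1 := hg.hasFDerivAt.comp_hasDerivAt 0 hγ
        have h3 : (g ∘ γ) =ᶠ[𝓝 0] fun _ => (0 : ℝ) := hS.mono fun t ht => h _ ht
        exact (h1.congr_of_eventuallyEq h3.symm).unique (hasDerivAt_const 0 0)
      · simp
      · intro a b _ _ ha hb; simp only [map_add, ha, hb, add_zero]
      · intro r a _ ha; simp only [map_smul, ha, smul_zero]
    exact key v v.2
  rw [this, map_zero]

theorem rs_dC_fun_zero (hx : x ∈ X) {g : E → ℂ} (hg : ContDiffAt ℝ 1 g x)
    (h : ∀ y ∈ X, g y = 0) : rs X x (dC (fun y => algebraMap ℂ (CF E) (g y)) x) = 0 := by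
  have hr : ContDiffAt ℝ 1 (fun y => (g y).re) x := Complex.reCLM.contDiff.contDiffAt.comp x hg
  have hi : ContDiffAt ℝ 1 (fun y => (g y).im) x := Complex.imCLM.contDiff.contDiffAt.comp x hg
  have e1 : (fun y => (algebraMap ℂ (CF E) (g y)).re) = fun y => (g y).re • (1 : Ext E) := by
    funext y; rw [Cx.algebraMap_re, Algebra.algebraMap_eq_smul_one]
  have e2 : (fun y => (algebraMap ℂ (CF E) (g y)).im) = fun y => (g y).im • (1 : Ext E) := by
    funext y; rw [Cx.algebraMap_im, Algebra.algebraMap_eq_smul_one]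
  refine Cx.ext ?_ ?_
  · change pb (Tan X x).subtype (d (fun y => (algebraMap ℂ (CF E) (g y)).re) x) = 0
    rw [e1]
    exact rs_d_real_zero hx (hr.differentiableAt (by norm_num)) fun y hy => by rw [h y hy]; rfl
  · change pb (Tan X x).subtype (d (fun y => (algebraMap ℂ (CF E) (g y)).im) x) = 0
    rw [e2]
    exact rs_d_real_zero hx (hi.differentiableAt (by norm_num)) fun y hy => by rw [h y hy]; rfl

theorem dl_congr_gen (hx : x ∈ X) {A B : E → Matrix n m ℂ} (hA : SM 1 A x)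
    (hB : SM 1 B x) (h : ∀ y ∈ X, A y = B y) : dl X A x = dl X B x := by
  refine Matrix.ext fun i j => ?_
  have h1 := rs_dC_fun_zero (X := X) hx (g := fun y => A y i j - B y i j) ((hA i j).sub (hB i j))
    (fun y hy => by simp only [h y hy, sub_self])
  have h2 : (fun y => algebraMap ℂ (CF E) (A y i j - B y i j))
      = fun y => algebraMap ℂ (CF E) (A y i j) - algebraMap ℂ (CF E) (B y i j) :=
    funext fun y => map_sub _ _ _
  rw [h2, dC_sub (CD.of_fun (hA i j)) (CD.of_fun (hB i j)), map_sub] at h1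
  exact sub_eq_zero.1 h1

theorem IdF.dl_eq_gen {Q : E → Matrix n n ℂ} (hQ : IdF X Q) (hx : x ∈ X) :
    dl X Q x = dl X Q x * hat (Tan X x) (Q x) + hat (Tan X x) (Q x) * dl X Q x := by
  conv_lhs => rw [dl_congr_gen hx (hQ.s1 hx) ((hQ.s1 hx).mul (hQ.s1 hx))
    (fun y hy => (hQ.idem y hy).symm)]
  rw [dl_mul (hQ.s1 hx) (hQ.s1 hx)]

theorem sf_mem_Z_gen [DecidableEq n] {Q : E → Matrix n n ℂ} (hQ : IdF X Q) (j : ℕ) :
    sf j Q ∈ Z X :=
  mem_Z.2 ⟨fun x => invC_sf j Q x, Smo_sf hQ j, fun x hx => by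
    have h1 := dC_sf (hQ.s2 hx) j
    have h2 := rs_trace_pow (X := X) Q x (2 * j + 1)
    have h3 := trace_odd_all (hQ.idem x hx) (hQ.dl_eq_gen hx) j
    rw [h1, h2, h3]⟩

/-! ### the classifying map -/

/-- the set of idempotent matrices -/
def Idem (n : Type*) [Fintype n] : Set (n → n → ℂ) :=
  {M | (Matrix.of M) * (Matrix.of M) = Matrix.of M}

/-- the tautological field -/
def taut (n : Type*) [Fintype n] (M : n → n → ℂ) : Matrix n n ℂ := Matrix.of M

theorem idF_taut : IdF (Idem n) (taut n) :=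
  ⟨fun M _ i j => ((contDiff_apply_apply ℝ ℂ i j).contDiffAt : _), fun M hM => hM⟩

theorem contDiffAt_cl {G : Type*} [NormedAddCommGroup G] [NormedSpace ℝ G] {k : WithTop ℕ∞}
    {Q : G → Matrix n m ℂ} {x : G} (h : SM k Q x) :
    ContDiffAt ℝ k (fun y => (fun i j => Q y i j : n → m → ℂ)) x :=
  contDiffAt_pi.2 fun i => contDiffAt_pi.2 fun j => h i j

theorem IdF.smap {Q : E → Matrix n n ℂ} (hQ : IdF X Q) :
    SMap X (Idem n) (fun y => (fun i j => Q y i j : n → n → ℂ)) :=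
  ⟨fun x hx => contDiffAt_cl (hQ.smooth x hx), fun x hx => hQ.idem x hx⟩

theorem sc_eq_map [DecidableEq n] (hX : Sub dX X) {Q : E → Matrix n n ℂ} (hQ : IdF X Q) (j : ℕ) :
    sc hX hQ j = H.map hQ.smap (cls (sf j (taut n)) (sf_mem_Z_gen idF_taut j)) := by
  rw [H.map_cls]
  refine cls_congr fun x hx => ?_
  rw [pullC_sf (hQ.smap.c2 hx) (idF_taut.s1 (hQ.smap.maps hx))]
  rfl

end gen

section inv
variable {E : Type u} [NormedAddCommGroup E] [NormedSpace ℝ E] [FiniteDimensional ℝ E]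
  {n m : Type*} [Fintype n] [Fintype m] [DecidableEq n] [DecidableEq m]
  {x : E} {X : Set E} {dX : ℕ}

/-- homotopy invariance of the classes -/
theorem sc_homotopy (hX : Sub dX X) {R : E × ℝ → Matrix n n ℂ}
    (hs : ∀ x ∈ X, ∀ t ∈ Icc (0 : ℝ) 1, SM ∞ R (x, t))
    (hi : ∀ x ∈ X, ∀ t ∈ Icc (0 : ℝ) 1, R (x, t) * R (x, t) = R (x, t))
    (h0 : IdF X fun y => R (y, 0)) (h1 : IdF X fun y => R (y, 1)) (j : ℕ) :
    sc hX h1 j = sc hX h0 j := by
  rw [sc_eq_map, sc_eq_map]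
  exact H.map_homotopy (Fh := fun z => (fun i j => R z i j : n → n → ℂ))
    (fun x hx t ht => contDiffAt_cl (hs x hx t ht)) (fun x hx t ht => hi x hx t ht)
    h0.smap h1.smap _

theorem idF_zero : IdF X (fun _ => (0 : Matrix n n ℂ)) := IdF.const (mul_zero 0)

theorem sc_zero_field (hX : Sub dX X) (h : IdF X (fun _ => (0 : Matrix n n ℂ))) (j : ℕ) :
    sc hX h j = 0 :=
  cls_eq_zero_iff.2 ⟨fun _ => 0, Smo.const _, fun x hx => by
    rw [dC_const, sf, hat_zero, zero_mul, Matrix.trace_zero]⟩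

/-- the path of idempotents joining `Q ⊕ 0` to `0 ⊕ Q'` -/
def rot (Q : E → Matrix n n ℂ) (Q' : E → Matrix m m ℂ) (S : E → Matrix m n ℂ)
    (T : E → Matrix n m ℂ) (z : E × ℝ) : Matrix (n ⊕ m) (n ⊕ m) ℂ :=
  Matrix.fromBlocks ((Real.cos (Real.pi / 2 * z.2) ^ 2 : ℂ) • Q z.1)
    ((Real.cos (Real.pi / 2 * z.2) * Real.sin (Real.pi / 2 * z.2) : ℂ) • T z.1)
    ((Real.cos (Real.pi / 2 * z.2) * Real.sin (Real.pi / 2 * z.2) : ℂ) • S z.1)
    ((Real.sin (Real.pi / 2 * z.2) ^ 2 : ℂ) • Q' z.1)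

open SP in
theorem rot_idem {Q : E → Matrix n n ℂ} {Q' : E → Matrix m m ℂ} {S : E → Matrix m n ℂ}
    {T : E → Matrix n m ℂ} {x : E} (h : PIso (Q x) (Q' x) (S x) (T x)) (t : ℝ) :
    rot Q Q' S T (x, t) * rot Q Q' S T (x, t) = rot Q Q' S T (x, t) := by
  have hQ : Q x * Q x = Q x := h.idem
  have hQ' : Q' x * Q' x = Q' x := h.symm.idem
  have e : (Real.cos (Real.pi / 2 * t) : ℂ) ^ 2 + (Real.sin (Real.pi / 2 * t) : ℂ) ^ 2 = 1 := by
    have := Real.cos_sq_add_sin_sq (Real.pi / 2 * t)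
    exact_mod_cast this
  simp only [rot, Matrix.fromBlocks_multiply, Matrix.smul_mul, Matrix.mul_smul, smul_smul, hQ, hQ',
    h.sp, h.ps, h.wp, h.pw, h.ws, h.sw, ← add_smul]
  set c := (Real.cos (Real.pi / 2 * t) : ℂ)
  set s := (Real.sin (Real.pi / 2 * t) : ℂ)
  have e1 : c ^ 2 * c ^ 2 + c * s * (c * s) = c ^ 2 := by linear_combination c ^ 2 * e
  have e2 : c ^ 2 * (c * s) + c * s * s ^ 2 = c * s := by linear_combination c * s * e
  have e3 : c * s * c ^ 2 + s ^ 2 * (c * s) = c * s := by linear_combination c * s * e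
  have e4 : c * s * (c * s) + s ^ 2 * s ^ 2 = s ^ 2 := by linear_combination s ^ 2 * e
  rw [e1, e2, e3, e4]

theorem rot_smooth {Q : E → Matrix n n ℂ} {Q' : E → Matrix m m ℂ} {S : E → Matrix m n ℂ}
    {T : E → Matrix n m ℂ} {x : E} (hQ : SM ∞ Q x) (hQ' : SM ∞ Q' x) (hS : SM ∞ S x)
    (hT : SM ∞ T x) (t : ℝ) : SM ∞ (rot Q Q' S T) (x, t) := by
  have hf : ContDiffAt ℝ ∞ (fun z : E × ℝ => z.1) (x, t) := contDiffAt_fst
  have hc : ContDiffAt ℝ ∞ (fun z : E × ℝ => (Real.cos (Real.pi / 2 * z.2) : ℂ)) (x, t) :=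
    Complex.ofRealCLM.contDiff.contDiffAt.comp (x, t)
      (Real.contDiff_cos.contDiffAt.comp (x, t) (contDiffAt_const.mul contDiffAt_snd))
  have hs : ContDiffAt ℝ ∞ (fun z : E × ℝ => (Real.sin (Real.pi / 2 * z.2) : ℂ)) (x, t) :=
    Complex.ofRealCLM.contDiff.contDiffAt.comp (x, t)
      (Real.contDiff_sin.contDiffAt.comp (x, t) (contDiffAt_const.mul contDiffAt_snd))
  rintro (i | i) (j | j)
  · exact (hc.pow 2).mul (ContDiffAt.comp (g := fun y => Q y i j) (f := fun z : E × ℝ => z.1) (x, t) (hQ i j) hf)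
  · exact (hc.mul hs).mul (ContDiffAt.comp (g := fun y => T y i j) (f := fun z : E × ℝ => z.1) (x, t) (hT i j) hf)
  · exact (hc.mul hs).mul (ContDiffAt.comp (g := fun y => S y i j) (f := fun z : E × ℝ => z.1) (x, t) (hS i j) hf)
  · exact (hs.pow 2).mul (ContDiffAt.comp (g := fun y => Q' y i j) (f := fun z : E × ℝ => z.1) (x, t) (hQ' i j) hf)

open SP in
/-- **isomorphic bundles have the same classes** -/
theorem sc_iso' (hX : Sub dX X) {Q : E → Matrix n n ℂ} {Q' : E → Matrix m m ℂ} (hQ : IdF X Q)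
    (hQ' : IdF X Q') {S : E → Matrix m n ℂ} {T : E → Matrix n m ℂ} (hS : ∀ x ∈ X, SM ∞ S x)
    (hT : ∀ x ∈ X, SM ∞ T x) (h : ∀ x ∈ X, PIso (Q x) (Q' x) (S x) (T x)) (j : ℕ) :
    sc hX hQ j = sc hX hQ' j := by
  have e0 : (fun y : E => rot Q Q' S T (y, 0)) = bsum Q fun _ => 0 := by
    funext y; simp [rot, bsum]
  have e1 : (fun y : E => rot Q Q' S T (y, 1)) = bsum (fun _ => 0) Q' := by
    funext y; simp [rot, bsum]
  have i0 : IdF X (fun y : E => rot Q Q' S T (y, 0)) := by rw [e0]; exact hQ.bsum idF_zero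
  have i1 : IdF X (fun y : E => rot Q Q' S T (y, 1)) := by rw [e1]; exact idF_zero.bsum hQ'
  have h1 := sc_homotopy hX (R := rot Q Q' S T)
    (fun x hx t _ => rot_smooth (hQ.smooth x hx) (hQ'.smooth x hx) (hS x hx) (hT x hx) t)
    (fun x hx t _ => rot_idem (h x hx) t) i0 i1 j
  have h2 : sc hX i0 j = sc hX hQ j + sc hX (idF_zero (n := m)) j := by
    rw [← sc_bsum]; exact sc_congr hX _ _ (fun x _ => congrFun e0 x) j
  have h3 : sc hX i1 j = sc hX (idF_zero (n := n)) j + sc hX hQ' j := by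
    rw [← sc_bsum]; exact sc_congr hX _ _ (fun x _ => congrFun e1 x) j
  rw [h2, h3, sc_zero_field, sc_zero_field, zero_add, add_zero] at h1
  exact h1.symm

open SP in
/-- **isomorphic bundles have the same classes**: the inverse is automatically smooth -/
theorem sc_iso (hX : Sub dX X) {Q : E → Matrix n n ℂ} {Q' : E → Matrix m m ℂ} (hQ : IdF X Q)
    (hQ' : IdF X Q') {S : E → Matrix m n ℂ} (hS : ∀ x ∈ X, SM ∞ S x)
    (h : ∀ x ∈ X, ∃ W, PIso (Q x) (Q' x) (S x) W) (j : ℕ) :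
    sc hX hQ j = sc hX hQ' j := by
  refine sc_iso' hX hQ hQ' hS (T := fun x => pinv (Q x) (Q' x) (S x)) (fun x hx => ?_)
    (fun x hx => ?_) j
  · obtain ⟨W, hW⟩ := h x hx
    exact MSm.pinv (hQ.smooth x hx) (hQ'.smooth x hx) (hS x hx) hW
  · obtain ⟨W, hW⟩ := h x hx
    exact hW.to_pinv

open SP in
/-- **Whitney**: orthogonal sums of idempotents -/
theorem sc_orth (hX : Sub dX X) {Q P₁ P₂ : E → Matrix n n ℂ} (hQ : IdF X Q) (h₁ : IdF X P₁)
    (h₂ : IdF X P₂) (hs : ∀ x ∈ X, Q x = P₁ x + P₂ x) (h12 : ∀ x ∈ X, P₁ x * P₂ x = 0)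
    (h21 : ∀ x ∈ X, P₂ x * P₁ x = 0) (j : ℕ) : sc hX hQ j = sc hX h₁ j + sc hX h₂ j := by
  rw [← sc_bsum hX h₁ h₂]
  let S : E → Matrix (n ⊕ n) n ℂ := fun x => Matrix.fromRows (P₁ x) (P₂ x)
  let T : E → Matrix n (n ⊕ n) ℂ := fun x => Matrix.fromCols (P₁ x) (P₂ x)
  refine sc_iso' hX hQ (h₁.bsum h₂) (S := S) (T := T) (fun x hx => ?_) (fun x hx => ?_)
    (fun x hx => ?_) j
  · rintro (i | i) k
    · exact h₁.smooth x hx i k
    · exact h₂.smooth x hx i k
  · rintro i (k | k)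
    · exact h₁.smooth x hx i k
    · exact h₂.smooth x hx i k
  · have a1 := h₁.idem x hx
    have a2 := h₂.idem x hx
    have a3 := h12 x hx
    have a4 := h21 x hx
    refine ⟨?_, ?_, ?_, ?_, ?_, ?_⟩
    · simp only [S, hs x hx, Matrix.fromRows_mul, mul_add, a1, a2, a3, a4, add_zero, zero_add]
    · simp only [S, bsum, Matrix.fromBlocks_mul_fromRows, a1, a2, Matrix.zero_mul, add_zero, zero_add]
    · simp only [T, bsum, Matrix.fromCols_mul_fromBlocks, a1, a2, Matrix.mul_zero, add_zero, zero_add]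
    · simp only [T, hs x hx, Matrix.mul_fromCols, add_mul, a1, a2, a3, a4, add_zero, zero_add]
    · simp only [S, T, hs x hx, Matrix.fromCols_mul_fromRows, a1, a2]
    · simp only [S, T, bsum, Matrix.fromRows_mul_fromCols, a1, a2, a3, a4]

end inv

end Crest.Agent.R208.CW
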