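import Crest.Agent.R208.CW5c
import Crest.Agent.R208.SP9

-- ▼ part R208/CW5d
section

/-! Row 208, block CW (helper586).  CW5d: the Euler class of a bundle with a complex structure is
the top Chern class. -/

set_option autoImplicit false
set_option linter.unusedSectionVars false
set_option linter.unusedSimpArgs false
set_option linter.unusedVariables false

open scoped BigOperators ContDiff Topology
open Module Set Matrix

noncomputable section

namespace Crest.Agent.R208.CW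

open Crest.Agent.R208.F Crest.Agent.R208.FI

universe u

/-! ### realification -/

section rm
variable {R : Type*} {n m l : Type*} [Fintype n] [DecidableEq n] [Fintype m] [DecidableEq m]
  [Fintype l] [DecidableEq l]

/-- realification of `a + i b` -/
def rM [Neg R] (a b : Matrix n m R) : Matrix (n × Fin 2) (m × Fin 2) R :=
  Matrix.of fun p q => if p.2 = q.2 then a p.1 q.1 else if p.2 = 0 then - b p.1 q.1 else b p.1 q.1

theorem rM_mul [Ring R] (a b : Matrix n m R) (c d : Matrix m l R) :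
    rM a b * rM c d = rM (a * c - b * d) (a * d + b * c) := by
  refine Matrix.ext fun p q => ?_
  obtain ⟨i, e⟩ := p
  obtain ⟨j, e'⟩ := q
  rw [Matrix.mul_apply, Fintype.sum_prod_type]
  fin_cases e <;> fin_cases e' <;>
    simp [rM, Matrix.mul_apply, Matrix.sub_apply, Matrix.add_apply, Fin.sum_univ_two,
      Finset.sum_add_distrib, Finset.sum_sub_distrib, Finset.sum_neg_distrib, sub_eq_add_neg,
      add_comm]

theorem rM_transpose [Ring R] (a b : Matrix n m R) : (rM a b)ᵀ = rM aᵀ (-bᵀ) := by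
  refine Matrix.ext fun p q => ?_
  obtain ⟨i, e⟩ := p
  obtain ⟨j, e'⟩ := q
  fin_cases e <;> fin_cases e' <;> simp [rM]

theorem rM_neg [Ring R] (a b : Matrix n m R) : - rM a b = rM (-a) (-b) := by
  refine Matrix.ext fun p q => ?_
  obtain ⟨i, e⟩ := p
  obtain ⟨j, e'⟩ := q
  fin_cases e <;> fin_cases e' <;> simp [rM]

theorem rM_inj [Ring R] {a b c d : Matrix n m R} (h : rM a b = rM c d) : a = c ∧ b = d := by
  constructor
  · refine Matrix.ext fun i j => ?_
    have := congrFun (congrFun h (i, 0)) (j, 0)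
    simpa [rM] using this
  · refine Matrix.ext fun i j => ?_
    have := congrFun (congrFun h (i, 1)) (j, 0)
    simpa [rM] using this

theorem cv_mul [Ring R] [Algebra ℂ R] (a b : Matrix n m R) (c d : Matrix m l R) :
    (a + Complex.I • b) * (c + Complex.I • d)
      = (a * c - b * d) + Complex.I • (a * d + b * c) := by
  rw [Matrix.add_mul, Matrix.mul_add, Matrix.mul_add, Matrix.smul_mul, Matrix.smul_mul,
    Matrix.mul_smul, Matrix.mul_smul, smul_smul, Complex.I_mul_I, neg_one_smul, smul_add]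
  abel

end rm

section pt
variable {T : Type*} [AddCommGroup T] [Module ℝ T] {ι n m l : Type*} [Fintype ι] [DecidableEq ι]
  [Fintype n] [DecidableEq n] [Fintype m] [DecidableEq m] [Fintype l] [DecidableEq l]

theorem hat_rM (a b : Matrix n m ℂ) : hat T (rM a b) = rM (hat T a) (hat T b) := by
  refine Matrix.ext fun p q => ?_
  obtain ⟨i, e⟩ := p
  obtain ⟨j, e'⟩ := q
  fin_cases e <;> fin_cases e' <;> simp [rM, hat]

theorem hv_rM (a b : Matrix n m ℂ) : hv T (rM a b) = rM (hv T a) (hv T b) := by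
  refine Matrix.ext fun p q => ?_
  obtain ⟨i, e⟩ := p
  obtain ⟨j, e'⟩ := q
  fin_cases e <;> fin_cases e' <;> simp [rM, hv]

theorem invM_rM (a b : Matrix n m (CF T)) : invM (rM a b) = rM (invM a) (invM b) := by
  refine Matrix.ext fun p q => ?_
  obtain ⟨i, e⟩ := p
  obtain ⟨j, e'⟩ := q
  fin_cases e <;> fin_cases e' <;> simp [rM, invM]

theorem vl_rM (a b : Matrix n m (EvC T)) : vl (rM a b) = rM (vl a) (vl b) := by
  refine Matrix.ext fun p q => ?_
  obtain ⟨i, e⟩ := p
  obtain ⟨j, e'⟩ := q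
  fin_cases e <;> fin_cases e' <;> simp [rM, vl]

theorem hat_smul' (z : ℂ) (a : Matrix n m ℂ) : hat T (z • a) = z • hat T a := by
  refine Matrix.ext fun p q => ?_
  change algebraMap ℂ (CF T) (z * a p q) = z • algebraMap ℂ (CF T) (a p q)
  rw [map_mul, Algebra.smul_def]

theorem hv_smul' (z : ℂ) (a : Matrix n m ℂ) : hv T (z • a) = z • hv T a := by
  refine Matrix.ext fun p q => ?_
  change algebraMap ℂ (EvC T) (z * a p q) = z • algebraMap ℂ (EvC T) (a p q)
  rw [map_mul, Algebra.smul_def]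

theorem hv_add' (a b : Matrix n m ℂ) : hv T (a + b) = hv T a + hv T b := by
  refine Matrix.ext fun p q => ?_
  change algebraMap ℂ (EvC T) (a p q + b p q) = _
  rw [map_add]; rfl

theorem vl_add' (a b : Matrix n m (EvC T)) : vl (a + b) = vl a + vl b := rfl
theorem vl_smul' (z : ℂ) (a : Matrix n m (EvC T)) : vl (z • a) = z • vl a := rfl

/-- the curvature of a realification -/
theorem wv_rM {a b : Matrix n n ℂ} {δa δb : Matrix n n (CF T)} (h : invM (rM δa δb) = - rM δa δb)
    (h' : invM (δa + Complex.I • δb) = - (δa + Complex.I • δb)) :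
    ∃ α β : Matrix n n (EvC T), wv (rM a b) (rM δa δb) h = rM α β ∧
      α + Complex.I • β = wv (a + Complex.I • b) (δa + Complex.I • δb) h' := by
  set A : Matrix n n (CF T) := _
  set B : Matrix n n (CF T) := _
  have e : vl (wv (rM a b) (rM δa δb) h) = rM A B := by
    rw [vl_wv, hat_rM, rM_mul, rM_mul, rM_mul]
  have hev : invM (vl (wv (rM a b) (rM δa δb) h)) = vl (wv (rM a b) (rM δa δb) h) :=
    Matrix.ext fun i j => EvC.inv _
  rw [e, invM_rM] at hev
  obtain ⟨h1, h2⟩ := rM_inj hev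
  refine ⟨toEv A h1, toEv B h2, vl_inj ?_, vl_inj ?_⟩
  · rw [e, vl_rM, vl_toEv, vl_toEv]
  · rw [vl_add', vl_smul', vl_toEv, vl_toEv, vl_wv, hat_add, hat_smul', cv_mul, cv_mul, cv_mul]

theorem pfS_rM_frame {α β : Matrix n n (EvC T)} {c d : Matrix n ι ℂ} {w : Matrix n n (EvC T)}
    (hw : α + Complex.I • β = w)
    (hsk : ((hv T (rM c d))ᵀ * rM α β * hv T (rM c d))ᵀ
      = -((hv T (rM c d))ᵀ * rM α β * hv T (rM c d))) {Q : Matrix n n ℂ}
    (hQ : (c + Complex.I • d) * (cᵀ + Complex.I • (-dᵀ)) = Q) (hwQ : w * hv T Q = w) :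
    PF.pfS ((hv T (rM c d))ᵀ * rM α β * hv T (rM c d))
      = ((2 : ℂ) ^ Fintype.card ι * (Fintype.card ι).factorial * Complex.I ^ Fintype.card ι)
        • (cpoly w).coeff (Fintype.card ι) := by
  set A' : Matrix ι ι (EvC T) := _
  set B' : Matrix ι ι (EvC T) := _
  have e : (hv T (rM c d))ᵀ * rM α β * hv T (rM c d) = rM A' B' := by
    have e1 : (hv T (rM c d))ᵀ = hv T (rM c d)ᵀ := rfl
    rw [e1, rM_transpose, hv_rM, hv_rM, rM_mul, rM_mul]
  have e2 : A' + Complex.I • B' = (hv T (cᵀ + Complex.I • (-dᵀ)) * w)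
      * hv T (c + Complex.I • d) := by
    rw [hv_add', hv_add', hv_smul', hv_smul', ← hw, cv_mul, cv_mul]
  rw [e, rM_transpose, rM_neg] at hsk
  obtain ⟨s1, s2⟩ := rM_inj hsk
  have s3 : B'ᵀ = B' := neg_injective s2
  have hI : algebraMap ℂ (EvC T) Complex.I * algebraMap ℂ (EvC T) Complex.I = -1 := by
    rw [← map_mul, Complex.I_mul_I, map_neg, map_one]
  have key := PF.pfS_realM (two_unit T) (algebraMap ℂ (EvC T) Complex.I) hI A' B' s1 s3
  rw [e]
  have e3 : PF.pfS (rM A' B') = (2 : EvC T) ^ Fintype.card ι * (Fintype.card ι).factorial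
      * algebraMap ℂ (EvC T) Complex.I ^ Fintype.card ι
        * (A' + algebraMap ℂ (EvC T) Complex.I • B').det := key
  have e4 : algebraMap ℂ (EvC T) Complex.I • B' = Complex.I • B' :=
    algebraMap_smul (EvC T) Complex.I B'
  rw [e3, e4, e2, ← cpoly_coeff_card, Matrix.mul_assoc, cpoly_mul_comm, Matrix.mul_assoc, ← hv_mul,
    hQ, hwQ, Algebra.smul_def]
  congr 1
  have c2 : algebraMap ℂ (EvC T) 2 = 2 := map_ofNat _ 2
  have c3 : algebraMap ℂ (EvC T) ((Fintype.card ι).factorial : ℂ)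
    = ((Fintype.card ι).factorial : EvC T) := map_natCast _ _
  rw [map_mul, map_mul, map_pow, map_pow, c2, c3]

/-- frame adapted to the complex structure `J` of the range of `P` -/
def FrJ (P J : Matrix n n ℂ) (W : (ι × Fin 2 → n) → ℂ) : Prop :=
  ∃ u : Matrix n ι ℂ, ∃ f : Matrix n (ι × Fin 2) ℂ,
    (∀ a j, f a (j, 0) = u a j) ∧ (∀ a j, f a (j, 1) = (J * u) a j) ∧
    fᵀ * f = 1 ∧ f * fᵀ = P ∧ ∀ I, W I = (f.submatrix I id).det

theorem FrJ.fr {P J : Matrix n n ℂ} {W : (ι × Fin 2 → n) → ℂ} (h : FrJ P J W) : Fr P W := by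
  obtain ⟨u, f, _, _, h1, h2, h3⟩ := h
  exact ⟨f, h1, h2, h3⟩

/-- the unitary embedding -/
def Sj (P J : Matrix n n ℂ) : Matrix (n × Fin 2) n ℂ :=
  Matrix.of fun p b => ((Real.sqrt 2 : ℝ) : ℂ)⁻¹ * (if p.2 = 0 then P p.1 b else - J p.1 b)

theorem sqrt2_sq : ((Real.sqrt 2 : ℝ) : ℂ)⁻¹ * ((Real.sqrt 2 : ℝ) : ℂ)⁻¹ = 1 / 2 := by
  rw [← mul_inv]
  have : ((Real.sqrt 2 : ℝ) : ℂ) * ((Real.sqrt 2 : ℝ) : ℂ) = 2 := by
    have h := Real.mul_self_sqrt (show (0 : ℝ) ≤ 2 by norm_num)
    exact_mod_cast h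
  rw [this]; norm_num

theorem Sj_tr {P J : Matrix n n ℂ} (hPt : Pᵀ = P) (hP : P * P = P) (hJt : Jᵀ = -J)
    (hJ : J * J = -P) : (Sj P J)ᵀ * Sj P J = P := by
  have e : (Sj P J)ᵀ * Sj P J = ((1 : ℂ) / 2) • (Pᵀ * P + Jᵀ * J) := by
    refine Matrix.ext fun a b => ?_
    rw [Matrix.mul_apply, Fintype.sum_prod_type, Matrix.smul_apply, Matrix.add_apply,
      Matrix.mul_apply, Matrix.mul_apply, ← Finset.sum_add_distrib, Finset.smul_sum]
    refine Finset.sum_congr rfl fun i _ => ?_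
    rw [Fin.sum_univ_two]
    simp only [Sj, transpose_apply, of_apply, if_true, one_ne_zero, if_false, smul_eq_mul,
      ← sqrt2_sq]
    ring
  rw [e, hPt, hP, hJt, Matrix.neg_mul, hJ, neg_neg, ← two_smul ℂ P, smul_smul]
  norm_num

theorem Sj_P {P J : Matrix n n ℂ} (hPt : Pᵀ = P) (hP : P * P = P) (hJt : Jᵀ = -J)
    (hJ : J * J = -P) (hJP : J * P = J) :
    Sj P J * P * (Sj P J)ᵀ = rM (((1 : ℂ) / 2) • P) (((1 : ℂ) / 2) • (-J)) := by
  have hPJ : P * J = J := by
    have := congrArg Matrix.transpose hJP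
    rw [transpose_mul, hPt, hJt, Matrix.mul_neg] at this
    exact neg_injective this
  have e1 : Sj P J * P = Sj P J := by
    refine Matrix.ext fun p b => ?_
    obtain ⟨i, e⟩ := p
    rw [Matrix.mul_apply]
    fin_cases e
    · simp only [Sj, of_apply, Fin.zero_eta, if_true, mul_assoc, ← Finset.mul_sum]
      rw [← Matrix.mul_apply, hP]
    · simp only [Sj, of_apply, Fin.mk_one, one_ne_zero, if_false, mul_assoc, ← Finset.mul_sum,
        neg_mul, Finset.sum_neg_distrib]
      rw [← Matrix.mul_apply, hJP]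
  have hs : ∀ x y : ℂ, ((Real.sqrt 2 : ℝ) : ℂ)⁻¹ * x * (((Real.sqrt 2 : ℝ) : ℂ)⁻¹ * y)
      = 1 / 2 * (x * y) := fun x y => by
    rw [← sqrt2_sq]; ring
  rw [e1]
  refine Matrix.ext fun p q => ?_
  obtain ⟨i, e⟩ := p
  obtain ⟨j, e'⟩ := q
  rw [Matrix.mul_apply]
  simp only [Sj, transpose_apply, of_apply, hs, ← Finset.mul_sum]
  have h1 := congrFun (congrFun (show P * Pᵀ = P by rw [hPt, hP]) i) j
  have h2 := congrFun (congrFun (show P * Jᵀ = -J by rw [hJt, Matrix.mul_neg, hPJ]) i) j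
  have h3 := congrFun (congrFun (show J * Pᵀ = J by rw [hPt, hJP]) i) j
  have h4 := congrFun (congrFun (show J * Jᵀ = P by rw [hJt, Matrix.mul_neg, hJ, neg_neg]) i) j
  rw [Matrix.mul_apply] at h1 h2 h3 h4
  simp only [transpose_apply] at h1 h2 h3 h4
  fin_cases e <;> fin_cases e'
  · simp [rM, h1]
  · simp only [Fin.zero_eta, Fin.mk_one, if_true, one_ne_zero, if_false, mul_neg,
      Finset.sum_neg_distrib, h2]
    simp [rM]
  · simp only [Fin.zero_eta, Fin.mk_one, if_true, one_ne_zero, if_false, neg_mul,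
      Finset.sum_neg_distrib, h3]
    simp [rM]
  · simp only [Fin.zero_eta, Fin.mk_one, if_true, one_ne_zero, if_false, neg_mul, mul_neg, neg_neg,
      h4]
    simp [rM]

theorem unit_frame {P J : Matrix n n ℂ} {u : Matrix n ι ℂ} {f : Matrix n (ι × Fin 2) ℂ}
    (hu : ∀ a j, f a (j, 0) = u a j) (hJu : ∀ a j, f a (j, 1) = (J * u) a j) (h1 : fᵀ * f = 1)
    (h2 : f * fᵀ = P) (hJt : Jᵀ = -J) (hJ : J * J = -P) (hJP : J * P = J) :
    P * u = u ∧ J = J * (u * uᵀ) + u * uᵀ * J ∧ P = u * uᵀ + (J * u) * (J * u)ᵀ := by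
  have hPf : P * f = f := by rw [← h2, Matrix.mul_assoc, h1, Matrix.mul_one]
  have hPu : P * u = u := by
    refine Matrix.ext fun a j => ?_
    have := congrFun (congrFun hPf a) (j, 0)
    rw [Matrix.mul_apply] at this ⊢
    rw [← hu, ← this]
    exact Finset.sum_congr rfl fun b _ => by rw [hu]
  have hPd : P = u * uᵀ + (J * u) * (J * u)ᵀ := by
    refine Matrix.ext fun a b => ?_
    rw [← h2, Matrix.mul_apply, Fintype.sum_prod_type, Matrix.add_apply, Matrix.mul_apply (M := u),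
      Matrix.mul_apply (M := J * u), ← Finset.sum_add_distrib]
    refine Finset.sum_congr rfl fun j _ => ?_
    rw [Fin.sum_univ_two]
    simp only [transpose_apply, hu, hJu]
  refine ⟨hPu, ?_, hPd⟩
  have e : J * P = J * (u * uᵀ) + u * uᵀ * J := by
    conv_lhs => rw [hPd]
    rw [Matrix.mul_add, transpose_mul, hJt]
    congr 1
    have e3 : J * (J * u) = - u := by rw [← Matrix.mul_assoc, hJ, Matrix.neg_mul, hPu]
    rw [← Matrix.mul_assoc, e3, Matrix.mul_neg, Matrix.neg_mul, Matrix.mul_neg, neg_neg,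
      Matrix.mul_assoc]
  rw [← e, hJP]

theorem Sj_frame {P J : Matrix n n ℂ} {u : Matrix n ι ℂ} {f : Matrix n (ι × Fin 2) ℂ}
    (hu : ∀ a j, f a (j, 0) = u a j) (hJu : ∀ a j, f a (j, 1) = (J * u) a j) (h1 : fᵀ * f = 1)
    (h2 : f * fᵀ = P) (hJ : J * J = -P) :
    Sj P J * f = rM ((((Real.sqrt 2 : ℝ) : ℂ)⁻¹) • u) (-((((Real.sqrt 2 : ℝ) : ℂ)⁻¹) • (J * u))) := by
  have hPf : P * f = f := by rw [← h2, Matrix.mul_assoc, h1, Matrix.mul_one]
  have g1 : ∀ a j, ∑ b, P a b * f b (j, 0) = u a j := fun a j => by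
    rw [← Matrix.mul_apply, hPf, hu]
  have g2 : ∀ a j, ∑ b, P a b * f b (j, 1) = (J * u) a j := fun a j => by
    rw [← Matrix.mul_apply, hPf, hJu]
  have g3 : ∀ a j, ∑ b, J a b * f b (j, 0) = (J * u) a j := fun a j => by
    rw [Matrix.mul_apply]; exact Finset.sum_congr rfl fun b _ => by rw [hu]
  have g4 : ∀ a j, ∑ b, J a b * f b (j, 1) = - u a j := fun a j => by
    have hPu : (P * u) a j = u a j := by
      rw [Matrix.mul_apply, ← g1 a j]; exact Finset.sum_congr rfl fun b _ => by rw [hu]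
    have : ∑ b, J a b * f b (j, 1) = (J * (J * u)) a j := by
      rw [Matrix.mul_apply]; exact Finset.sum_congr rfl fun b _ => by rw [hJu]
    rw [this, ← Matrix.mul_assoc, hJ, Matrix.neg_mul, Matrix.neg_apply, hPu]
  refine Matrix.ext fun p q => ?_
  obtain ⟨i, e⟩ := p
  obtain ⟨j, e'⟩ := q
  rw [Matrix.mul_apply]
  fin_cases e <;> fin_cases e' <;>
    simp [Sj, rM, mul_assoc, ← Finset.mul_sum, g1, g2, g3, g4]

end pt

/-! ### the theorem -/

section cplx
variable {E : Type u} [NormedAddCommGroup E] [NormedSpace ℝ E] [FiniteDimensional ℝ E]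
  {ι n m : Type*} [Fintype ι] [DecidableEq ι] [Fintype n] [DecidableEq n] [Fintype m]
  [DecidableEq m] {x : E} {X : Set E} {dX : ℕ}

theorem dl_rM (A B : E → Matrix n m ℂ) (x : E) :
    dl X (fun y => rM (A y) (B y)) x = rM (dl X A x) (dl X B x) := by
  refine Matrix.ext fun p q => ?_
  obtain ⟨i, e⟩ := p
  obtain ⟨j, e'⟩ := q
  have hneg : rs X x (dC (fun y => algebraMap ℂ (CF E) (-B y i j)) x)
      = - rs X x (dC (fun y => algebraMap ℂ (CF E) (B y i j)) x) := by
    have : (fun y => algebraMap ℂ (CF E) (-B y i j)) = fun y => - algebraMap ℂ (CF E) (B y i j) :=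
      funext fun y => map_neg _ _
    rw [this, dC_neg, map_neg]
  fin_cases e <;> fin_cases e'
  · rfl
  · exact hneg
  · rfl
  · rfl

theorem dl_csmul (z : ℂ) {A : E → Matrix n m ℂ} (hA : SM 1 A x) :
    dl X (fun y => z • A y) x = z • dl X A x := by
  refine Matrix.ext fun i j => ?_
  change rs X x (dC (fun y => algebraMap ℂ (CF E) (z * A y i j)) x)
    = z • rs X x (dC (fun y => algebraMap ℂ (CF E) (A y i j)) x)
  have : (fun y => algebraMap ℂ (CF E) (z * A y i j)) = fun y => z • algebraMap ℂ (CF E) (A y i j) :=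
    funext fun y => by rw [map_mul, Algebra.smul_def]
  rw [this, dC_csmul z (CD.of_fun (hA i j)), rs_csmul]

theorem SM.csmul {G : Type*} [NormedAddCommGroup G] [NormedSpace ℝ G] {x : G} {k : WithTop ℕ∞}
    (z : ℂ) {A : G → Matrix n m ℂ} (hA : SM k A x) : SM k (fun y => z • A y) x := fun i j =>
  contDiffAt_const.mul (hA i j)

theorem SM.neg' {G : Type*} [NormedAddCommGroup G] [NormedSpace ℝ G] {x : G} {k : WithTop ℕ∞}
    {A : G → Matrix n m ℂ} (hA : SM k A x) : SM k (fun y => - A y) x := fun i j => (hA i j).neg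

/-- complex structure on an oriented bundle, orthogonal -/
structure CS (X : Set E) (P J : E → Matrix n n ℂ) (W : E → (ι × Fin 2 → n) → ℂ) : Prop where
  of : OF X P W
  sJ : ∀ x ∈ X, SM ∞ J x
  tr : ∀ x ∈ X, (J x)ᵀ = - J x
  sq : ∀ x ∈ X, J x * J x = - P x
  mulP : ∀ x ∈ X, J x * P x = J x
  fr : ∀ x ∈ X, FrJ (P x) (J x) (W x)

theorem CS.idF {P J : E → Matrix n n ℂ} {W : E → (ι × Fin 2 → n) → ℂ} (h : CS X P J W) :
    IdF X (fun x => ((1 : ℂ) / 2) • P x + Complex.I • ((1 : ℂ) / 2) • (- J x)) := by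
  refine ⟨fun x hx => ((h.of.sP x hx).csmul _).add (((h.sJ x hx).neg'.csmul _).csmul _),
    fun x hx => ?_⟩
  have hP := h.of.idF.idem x hx
  have hPJ : P x * J x = J x := by
    have := congrArg Matrix.transpose (h.mulP x hx)
    rw [transpose_mul, h.of.pt hx, h.tr x hx, Matrix.mul_neg] at this
    exact neg_injective this
  rw [cv_mul]
  simp only [Matrix.smul_mul, Matrix.mul_smul, Matrix.neg_mul, Matrix.mul_neg, hP, hPJ,
    h.mulP x hx, h.sq x hx, smul_smul, neg_neg, smul_neg]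
  module

/-- **the Euler class of a complex bundle is the top Chern class** -/
theorem CS.ec_eq (hX : Sub dX X) {P J : E → Matrix n n ℂ} {W : E → (ι × Fin 2 → n) → ℂ}
    (h : CS X P J W) : ec h.of
      = ((2 : ℂ) ^ Fintype.card ι * (Fintype.card ι).factorial * Complex.I ^ Fintype.card ι)
        • cc hX h.idF (Fintype.card ι) := by
  have hS : ∀ x ∈ X, SM ∞ (fun y => Sj (P y) (J y)) x := fun x hx => by
    rintro ⟨i, e⟩ j
    fin_cases e
    · exact contDiffAt_const.mul (h.of.sP x hx i j)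
    · exact contDiffAt_const.mul (h.sJ x hx i j).neg
  have hi : ∀ x ∈ X, P x * ((Sj (P x) (J x))ᵀ * Sj (P x) (J x)) * P x = P x := fun x hx => by
    rw [Sj_tr (h.of.pt hx) (h.of.idF.idem x hx) (h.tr x hx) (h.sq x hx), h.of.idF.idem x hx,
      h.of.idF.idem x hx]
  have h' := h.of.push hS hi
  rw [← ec_iso h.of hS hi h', ec, cc, ← cls_smul]
  refine cls_congr fun x hx => ?_
  obtain ⟨u, f, hu, hJu, h1, h2, h3⟩ := h.fr x hx
  obtain ⟨hPu, hJd, hPd⟩ := unit_frame hu hJu h1 h2 (h.tr x hx) (h.sq x hx) (h.mulP x hx)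
  set A : E → Matrix n n ℂ := fun y => ((1 : ℂ) / 2) • P y with hA
  set B : E → Matrix n n ℂ := fun y => ((1 : ℂ) / 2) • (- J y) with hB
  have hP' : ∀ y ∈ X, Sj (P y) (J y) * P y * (Sj (P y) (J y))ᵀ = rM (A y) (B y) := fun y hy =>
    Sj_P (h.of.pt hy) (h.of.idF.idem y hy) (h.tr y hy) (h.sq y hy) (h.mulP y hy)
  have sA : SM 1 A x := (h.of.idF.s1 hx).csmul _
  have sB : SM 1 B x := ((h.sJ x hx).of_le one_le_inf).neg'.csmul _
  have sAB : SM 1 (fun y => rM (A y) (B y)) x := by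
    rintro ⟨i, e⟩ ⟨j, e'⟩
    fin_cases e <;> fin_cases e'
    · exact sA i j
    · exact (sB i j).neg
    · exact sB i j
    · exact sA i j
  have hdl : dl X (fun y => Sj (P y) (J y) * P y * (Sj (P y) (J y))ᵀ) x
      = rM (dl X A x) (dl X B x) := by
    rw [dl_congr_gen hx (h'.idF.s1 hx) sAB hP', dl_rM]
  have hinv : invM (rM (dl X A x) (dl X B x)) = - rM (dl X A x) (dl X B x) := by
    rw [← hdl]; exact invM_dl _ _
  have hdQ : dl X (fun y => A y + Complex.I • B y) x = dl X A x + Complex.I • dl X B x := by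
    rw [dl_add sA (sB.csmul _), dl_csmul _ sB]
  have hinv' : invM (dl X A x + Complex.I • dl X B x) = - (dl X A x + Complex.I • dl X B x) := by
    rw [← hdQ]; exact invM_dl _ _
  obtain ⟨α, β, e1, e2⟩ := wv_rM (a := A x) (b := B x) hinv hinv'
  have hw : wv (Sj (P x) (J x) * P x * (Sj (P x) (J x))ᵀ)
      (dl X (fun y => Sj (P y) (J y) * P y * (Sj (P y) (J y))ᵀ) x) (invM_dl _ x) = rM α β := by
    rw [← e1]
    refine vl_inj ?_
    rw [vl_wv, vl_wv, hdl, hP' x hx]
  have hwt : (rM α β)ᵀ = - rM α β := by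
    rw [← hw]; exact wv_transpose (h'.pt hx) _ (h'.dlt hx)
  have hf := Sj_frame hu hJu h1 h2 (h.sq x hx)
  rw [rs_ef, eu_frame (pushW_frame (Sj (P x) (J x)) f h3), hw, hf, Pi.smul_apply, rs_csmul, rs_cf]
  have hAB : A x + Complex.I • B x = (fun x => ((1 : ℂ) / 2) • P x + Complex.I • ((1 : ℂ) / 2)
    • (- J x)) x := rfl
  have hQid := h.idF.idem x hx
  have hskew : ((hv (Tan X x) (Sj (P x) (J x) * f))ᵀ * rM α β * hv (Tan X x) (Sj (P x) (J x) * f))ᵀ
      = -((hv (Tan X x) (Sj (P x) (J x) * f))ᵀ * rM α β * hv (Tan X x) (Sj (P x) (J x) * f)) := by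
    rw [transpose_mul, transpose_mul, transpose_transpose, hwt, Matrix.neg_mul, Matrix.mul_neg,
      Matrix.mul_assoc]
  rw [hf] at hskew
  have hQ : ((((Real.sqrt 2 : ℝ) : ℂ)⁻¹) • u + Complex.I • (-((((Real.sqrt 2 : ℝ) : ℂ)⁻¹) • (J x * u))))
      * (((((Real.sqrt 2 : ℝ) : ℂ)⁻¹) • u)ᵀ
        + Complex.I • (-(-((((Real.sqrt 2 : ℝ) : ℂ)⁻¹) • (J x * u)))ᵀ))
      = A x + Complex.I • B x := by
    have e3 : u * (J x * u)ᵀ = - (u * uᵀ * J x) := by
      rw [transpose_mul, h.tr x hx, Matrix.mul_neg, Matrix.mul_neg, Matrix.mul_assoc]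
    have e4 : J x * u * uᵀ = J x * (u * uᵀ) := Matrix.mul_assoc _ _ _
    have f1 : (((Real.sqrt 2 : ℝ) : ℂ)⁻¹) • u + Complex.I • (-((((Real.sqrt 2 : ℝ) : ℂ)⁻¹) • (J x * u)))
        = (((Real.sqrt 2 : ℝ) : ℂ)⁻¹) • (u + Complex.I • (-(J x * u))) := by module
    have f2 : ((((Real.sqrt 2 : ℝ) : ℂ)⁻¹) • u)ᵀ
        + Complex.I • (-(-((((Real.sqrt 2 : ℝ) : ℂ)⁻¹) • (J x * u)))ᵀ)
        = (((Real.sqrt 2 : ℝ) : ℂ)⁻¹) • (uᵀ + Complex.I • (J x * u)ᵀ) := by
      rw [transpose_neg, neg_neg, transpose_smul, transpose_smul]; module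
    rw [f1, f2, Matrix.smul_mul, Matrix.mul_smul, smul_smul, sqrt2_sq, cv_mul]
    have e6 : A x = ((1 : ℂ) / 2) • (u * uᵀ + (J x * u) * (J x * u)ᵀ) := by rw [← hPd]
    have e7 : B x = ((1 : ℂ) / 2) • (- (J x * (u * uᵀ) + u * uᵀ * J x)) := by rw [← hJd]
    rw [e6, e7]
    simp only [Matrix.neg_mul, e3, e4, sub_neg_eq_add]
    module
  have key := pfS_rM_frame (T := Tan X x) (α := α) (β := β) e2 hskew hQ (wv_hv hQid _ _)
  have e5 : wv (A x + Complex.I • B x) (dl X A x + Complex.I • dl X B x) hinv'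
      = wv (((1 : ℂ) / 2) • P x + Complex.I • ((1 : ℂ) / 2) • (- J x))
        (dl X (fun x => ((1 : ℂ) / 2) • P x + Complex.I • ((1 : ℂ) / 2) • (- J x)) x)
        (invM_dl _ x) := by
    refine vl_inj ?_
    rw [vl_wv, vl_wv, ← hdQ]
  rw [key, e5]
  rfl

end cplx

end Crest.Agent.R208.CW
end
end

-- ▼ part R208/CW7

/-! Row 208, block CW (helper586).  CW7: orientations, unitary frames; the Euler class of a real
bundle with an arbitrary complex structure is, up to sign, the top Chern class. -/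

set_option autoImplicit false
set_option linter.unusedSectionVars false
set_option linter.unusedSimpArgs false
set_option linter.unusedVariables false

open scoped BigOperators ContDiff Topology
open Module Set Matrix

noncomputable section

namespace Crest.Agent.R208.CW

open Crest.Agent.R208.F Crest.Agent.R208.FI

universe u

section pt
variable {ι n m : Type*} [Fintype ι] [DecidableEq ι] [Fintype n] [DecidableEq n] [Fintype m]
  [DecidableEq m]

/-- orientation tensors are unique up to sign -/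
theorem Fr.unique {P : Matrix n n ℂ} {W W' : (ι × Fin 2 → n) → ℂ} (h : Fr P W) (h' : Fr P W') :
    W' = W ∨ W' = - W := by
  obtain ⟨f, f1, f2, f3⟩ := h
  obtain ⟨g, g1, g2, g3⟩ := h'
  set O := fᵀ * g with hO
  have e1 : f * O = g := by
    rw [hO, ← Matrix.mul_assoc, f2, ← g2, Matrix.mul_assoc, g1, Matrix.mul_one]
  have e2 : Oᵀ * O = 1 := by
    rw [hO, transpose_mul, transpose_transpose, Matrix.mul_assoc, ← Matrix.mul_assoc f, f2, ← g2,
      Matrix.mul_assoc g, g1, Matrix.mul_one, g1]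
  have e3 := congrArg Matrix.det e2
  rw [det_mul, det_transpose, det_one] at e3
  have e4 : ∀ I, W' I = W I * O.det := fun I => by
    rw [g3, f3, ← det_mul, ← e1]; rfl
  rcases mul_self_eq_one_iff.1 e3 with h | h
  · left; funext I; rw [e4, h, mul_one]
  · right; funext I; rw [e4, h, mul_neg, mul_one]; rfl

theorem Fr.ne_zero {P : Matrix n n ℂ} {W : (ι × Fin 2 → n) → ℂ} (h : Fr P W) : W ≠ 0 := by
  obtain ⟨f, f1, f2, f3⟩ := h
  intro h0
  have e := pushW_frame (fᵀ) f f3 id
  rw [f1] at e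
  have e2 : ((1 : Matrix (ι × Fin 2) (ι × Fin 2) ℂ).submatrix (id : ι × Fin 2 → ι × Fin 2) id).det
      = 1 := by rw [submatrix_id_id, det_one]
  rw [e2, pushW, h0] at e
  simp at e

/-- Hermitian idempotents have unitary frames -/
theorem exists_unitary {Q : Matrix n n ℂ} (hQ : Q * Q = Q) (hH : Qᴴ = Q)
    (hr : Q.rank = Fintype.card ι) : ∃ z : Matrix n ι ℂ, zᴴ * z = 1 ∧ z * zᴴ = Q := by
  have hA : Q.IsHermitian := hH
  set U : Matrix n n ℂ := (hA.eigenvectorUnitary : Matrix n n ℂ) with hU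
  have hUU : Uᴴ * U = 1 := Matrix.UnitaryGroup.star_mul_self hA.eigenvectorUnitary
  set L : n → ℂ := fun i => (hA.eigenvalues i : ℂ) with hL
  have hs : Q = U * Matrix.diagonal L * Uᴴ := hA.spectral_theorem
  have hL2 : ∀ i, L i * L i = L i := by
    have e1 : Uᴴ * Q * U = Matrix.diagonal L := by
      rw [hs]
      calc Uᴴ * (U * Matrix.diagonal L * Uᴴ) * U
          = (Uᴴ * U) * Matrix.diagonal L * (Uᴴ * U) := by simp only [Matrix.mul_assoc]
        _ = _ := by rw [hUU, Matrix.one_mul, Matrix.mul_one]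
    have hUU' : U * Uᴴ = 1 := mul_eq_one_comm.1 hUU
    have e2 : Matrix.diagonal L * Matrix.diagonal L = Matrix.diagonal L := by
      rw [← e1]
      calc Uᴴ * Q * U * (Uᴴ * Q * U) = Uᴴ * Q * (U * Uᴴ) * Q * U := by
            simp only [Matrix.mul_assoc]
        _ = Uᴴ * (Q * Q) * U := by rw [hUU', Matrix.mul_one]; simp only [Matrix.mul_assoc]
        _ = _ := by rw [hQ]
    intro i
    have := congrFun (congrFun e2 i) i
    rw [diagonal_mul_diagonal, diagonal_apply_eq, diagonal_apply_eq] at this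
    exact this
  have hcard : Fintype.card ι = Fintype.card {i // hA.eigenvalues i ≠ 0} := by
    rw [← hr, hA.rank_eq_card_non_zero_eigs]
  let e : ι ≃ {i // hA.eigenvalues i ≠ 0} := Fintype.equivOfCardEq hcard
  refine ⟨U.submatrix id (fun j => (e j).1), ?_, ?_⟩
  · refine Matrix.ext fun j k => ?_
    have := congrFun (congrFun hUU (e j).1) (e k).1
    rw [Matrix.mul_apply] at this ⊢
    rw [show (∑ a, (U.submatrix id (fun j => (e j).1))ᴴ j a * U.submatrix id (fun j => (e j).1) a k)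
      = _ from this, Matrix.one_apply, Matrix.one_apply]
    have : ((e j).1 = (e k).1) ↔ j = k :=
      ⟨fun h => e.injective (Subtype.ext h), fun h => by rw [h]⟩
    simp only [this]
  · refine Matrix.ext fun a c => ?_
    have h1 : Q a c = ∑ i, U a i * L i * Uᴴ i c := by
      conv_lhs => rw [hs]
      rw [Matrix.mul_apply]
      exact Finset.sum_congr rfl fun i _ => by rw [Matrix.mul_diagonal]
    rw [h1, Matrix.mul_apply]
    have h2 : ∑ i, U a i * L i * Uᴴ i c
        = ∑ i : {i // hA.eigenvalues i ≠ 0}, U a i * L i * Uᴴ i c := by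
      rw [← Finset.sum_subtype (s := Finset.univ.filter fun i => hA.eigenvalues i ≠ 0)
        (p := fun i => hA.eigenvalues i ≠ 0) (by simp) (fun i => U a i * L i * Uᴴ i c)]
      symm
      refine Finset.sum_subset (Finset.filter_subset _ _) fun i _ hi => ?_
      have : hA.eigenvalues i = 0 := by simpa using hi
      rw [hL]; simp only [this]; simp
    rw [h2, ← e.sum_comp]
    refine Finset.sum_congr rfl fun j _ => ?_
    have h3 : L (e j).1 = 1 := by
      have h4 : L (e j).1 ≠ 0 := by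
        have := (e j).2
        rw [hL]; simpa using this
      exact mul_left_cancel₀ h4 (by rw [hL2, mul_one])
    rw [h3, mul_one]
    rfl

open SP in
/-- the `+i` eigenprojection -/
def qJ (P J : Matrix n n ℂ) : Matrix n n ℂ := ((1 : ℂ) / 2) • P + Complex.I • ((1 : ℂ) / 2) • (- J)

/-- data of a real complex structure at a point -/
structure RJ (P J : Matrix n n ℂ) : Prop where
  cP : SP.cj P = P
  cJ : SP.cj J = J
  Pt : Pᵀ = P
  PP : P * P = P
  JJ : J * J = -P
  JP : J * P = J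
  PJ : P * J = J

theorem RJ.qJ_idem {P J : Matrix n n ℂ} (h : RJ P J) : qJ P J * qJ P J = qJ P J := by
  rw [qJ, cv_mul]
  simp only [Matrix.smul_mul, Matrix.mul_smul, Matrix.neg_mul, Matrix.mul_neg, h.PP, h.PJ,
    h.JP, h.JJ, smul_smul, neg_neg, smul_neg]
  module

theorem RJ.J_qJ {P J : Matrix n n ℂ} (h : RJ P J) : J * qJ P J = Complex.I • qJ P J := by
  rw [qJ, Matrix.mul_add, Matrix.mul_smul, Matrix.mul_smul, Matrix.mul_smul, Matrix.mul_neg, h.JP,
    h.JJ, smul_add, smul_smul, smul_smul, smul_smul, neg_neg, Complex.I_mul_I]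
  module

theorem cj_map (M : Matrix n n ℂ) : SP.cj M = M.map (starRingEnd ℂ) := rfl

theorem RJ.conj_qJ {P J : Matrix n n ℂ} (h : RJ P J) :
    (qJ P J).map (starRingEnd ℂ) = ((1 : ℂ) / 2) • P + Complex.I • ((1 : ℂ) / 2) • J := by
  have h1 : ∀ i j, (starRingEnd ℂ) (P i j) = P i j := fun i j => congrFun (congrFun h.cP i) j
  have h2 : ∀ i j, (starRingEnd ℂ) (J i j) = J i j := fun i j => congrFun (congrFun h.cJ i) j
  refine Matrix.ext fun i j => ?_
  simp only [qJ, map_apply, Matrix.add_apply, Matrix.smul_apply, Matrix.neg_apply, smul_eq_mul,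
    map_add, map_mul, map_neg, h1, h2, Complex.conj_I, map_div₀, map_one, map_ofNat]
  ring

theorem exists_FrJ {P J : Matrix n n ℂ} (h : RJ P J) (hJt : Jᵀ = -J)
    (hr : P.trace = 2 * (Fintype.card ι : ℂ)) :
    ∃ W : (ι × Fin 2 → n) → ℂ, FrJ P J W := by
  set Q := qJ P J with hQ
  have hcj1 : ∀ i j, (starRingEnd ℂ) (P i j) = P i j := fun i j => congrFun (congrFun h.cP i) j
  have hcj2 : ∀ i j, (starRingEnd ℂ) (J i j) = J i j := fun i j => congrFun (congrFun h.cJ i) j
  have hQt : Qᵀ = Q.map (starRingEnd ℂ) := by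
    rw [hQ, h.conj_qJ, qJ, transpose_add, transpose_smul, transpose_smul, transpose_smul,
      transpose_neg, h.Pt, hJt, neg_neg]
  have hQQ : Q * Q = Q := h.qJ_idem
  have hcc : ∀ M : Matrix n ι ℂ, (M.map (starRingEnd ℂ)).map (starRingEnd ℂ) = M := fun M =>
    Matrix.ext fun i j => Complex.conj_conj _
  have hQH : Qᴴ = Q := by
    have e : Qᴴ = (Q.map (starRingEnd ℂ))ᵀ := rfl
    rw [e, ← hQt, transpose_transpose]
  have htJ : J.trace = 0 := by
    have h1 := trace_transpose J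
    rw [hJt, trace_neg] at h1
    have h2 : (2 : ℂ) * J.trace = 0 := by linear_combination -h1
    exact (mul_eq_zero.1 h2).resolve_left two_ne_zero
  have hrank : Q.rank = Fintype.card ι := by
    have h1 := rank_eq_trace hQQ
    rw [hQ, qJ, trace_add, trace_smul, trace_smul, trace_smul, trace_neg, htJ, hr, neg_zero,
      smul_zero, smul_zero, add_zero, smul_eq_mul] at h1
    have h2 : ((qJ P J).rank : ℂ) = (Fintype.card ι : ℂ) := by rw [qJ, h1]; ring
    exact_mod_cast h2
  obtain ⟨z, z1, z2⟩ := exists_unitary (ι := ι) hQQ hQH hrank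
  set zb : Matrix n ι ℂ := z.map (starRingEnd ℂ) with hzb
  have zH : zᴴ = zbᵀ := rfl
  rw [zH] at z1 z2
  have z1' : zᵀ * zb = 1 := by
    have := congrArg Matrix.transpose z1
    rwa [transpose_mul, transpose_transpose, transpose_one] at this
  have z2' : zb * zᵀ = Qᵀ := by
    have := congrArg Matrix.transpose z2
    rwa [transpose_mul, transpose_transpose] at this
  have hQz : Q * z = z := by rw [← z2, Matrix.mul_assoc, z1, Matrix.mul_one]
  have hQzb : Qᵀ * zb = zb := by rw [← z2', Matrix.mul_assoc, z1', Matrix.mul_one]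
  have hJz : J * z = Complex.I • z := by
    conv_lhs => rw [← hQz, ← Matrix.mul_assoc, h.J_qJ, Matrix.smul_mul, hQz]
  have hJzb : J * zb = -(Complex.I • zb) := by
    have e1 : J * zb = (J * z).map (starRingEnd ℂ) := by
      rw [Matrix.map_mul]
      congr 1
      exact (Matrix.ext fun i j => hcj2 i j).symm
    rw [e1, hJz]
    refine Matrix.ext fun i j => ?_
    simp [hzb]
  have hQQt : Qᵀ * Q = 0 := by
    rw [hQt, hQ, h.conj_qJ, qJ, cv_mul]
    simp only [Matrix.smul_mul, Matrix.mul_smul, Matrix.neg_mul, Matrix.mul_neg, h.PP, h.PJ,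
      h.JP, h.JJ, smul_smul, neg_neg, smul_neg]
    module
  have z3 : zᵀ * z = 0 := by
    have e : zᵀ = zᵀ * Qᵀ := by rw [← transpose_mul, hQz]
    conv_lhs => rw [e, ← hQz, Matrix.mul_assoc, ← Matrix.mul_assoc Qᵀ, hQQt, Matrix.zero_mul,
      Matrix.mul_zero]
  have z3' : zbᵀ * zb = 0 := by
    have e : zbᵀ * zb = (zᵀ * z).map (starRingEnd ℂ) := by
      rw [Matrix.map_mul]; rfl
    rw [e, z3]
    exact Matrix.map_zero _ (map_zero _)
  set c : ℂ := ((Real.sqrt 2 : ℝ) : ℂ)⁻¹ with hc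
  have hcc2 : c * c = 1 / 2 := sqrt2_sq
  set u : Matrix n ι ℂ := c • (z + zb) with hu
  have hJu : J * u = c • (Complex.I • (z - zb)) := by
    rw [hu, Matrix.mul_smul, Matrix.mul_add, hJz, hJzb]
    module
  have hII : ∀ M : Matrix ι ι ℂ, Complex.I • Complex.I • M = -M := fun M => by
    rw [smul_smul, Complex.I_mul_I, neg_one_smul]
  have hII' : ∀ M : Matrix n n ℂ, Complex.I • Complex.I • M = -M := fun M => by
    rw [smul_smul, Complex.I_mul_I, neg_one_smul]
  have b1 : uᵀ * u = 1 := by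
    rw [hu, transpose_smul, transpose_add, Matrix.smul_mul, Matrix.mul_smul, smul_smul, hcc2,
      Matrix.add_mul, Matrix.mul_add, Matrix.mul_add, z1, z1', z3, z3']
    module
  have b2 : uᵀ * (J * u) = 0 := by
    rw [hJu, hu, transpose_smul, transpose_add, Matrix.smul_mul, Matrix.mul_smul, Matrix.mul_smul,
      Matrix.add_mul, Matrix.mul_sub, Matrix.mul_sub, z1, z1', z3, z3']
    simp
  have b3 : (J * u)ᵀ * (J * u) = 1 := by
    rw [hJu, transpose_smul, transpose_smul, transpose_sub, Matrix.smul_mul, Matrix.mul_smul,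
      Matrix.smul_mul, Matrix.mul_smul, hII, smul_smul, hcc2,
      Matrix.sub_mul, Matrix.mul_sub, Matrix.mul_sub, z1, z1', z3, z3']
    module
  have b4 : u * uᵀ + (J * u) * (J * u)ᵀ = P := by
    rw [hJu, hu, transpose_smul, transpose_smul, transpose_smul, transpose_sub, transpose_add,
      Matrix.smul_mul, Matrix.mul_smul, Matrix.smul_mul, Matrix.mul_smul, Matrix.smul_mul,
      Matrix.mul_smul, hII', smul_smul, smul_smul, hcc2,
      Matrix.sub_mul, Matrix.mul_sub, Matrix.mul_sub, Matrix.add_mul, Matrix.mul_add,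
      Matrix.mul_add, z2, z2', hQt, hQ, h.conj_qJ, qJ]
    module
  set f : Matrix n (ι × Fin 2) ℂ := Matrix.of fun a p => if p.2 = 0 then u a p.1 else (J * u) a p.1
    with hf
  have hf0 : ∀ a j, f a (j, 0) = u a j := fun a j => by simp [hf]
  have hf1 : ∀ a j, f a (j, 1) = (J * u) a j := fun a j => by simp [hf]
  have b2' : (J * u)ᵀ * u = 0 := by
    have := congrArg Matrix.transpose b2
    rwa [transpose_mul, transpose_transpose, transpose_zero] at this
  refine ⟨fun I => (f.submatrix I id).det, u, f, hf0, hf1, ?_, ?_, fun I => rfl⟩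
  · refine Matrix.ext fun p q => ?_
    obtain ⟨j, e⟩ := p
    obtain ⟨k, e'⟩ := q
    rw [Matrix.mul_apply]
    fin_cases e <;> fin_cases e'
    · have := congrFun (congrFun b1 j) k
      rw [Matrix.mul_apply] at this
      simp only [Fin.zero_eta, transpose_apply, hf0] at this ⊢
      rw [this]; simp [Matrix.one_apply]
    · have := congrFun (congrFun b2 j) k
      rw [Matrix.mul_apply] at this
      simp only [Fin.zero_eta, Fin.mk_one, transpose_apply, hf0, hf1] at this ⊢
      rw [this]; simp [Matrix.one_apply]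
    · have := congrFun (congrFun b2' j) k
      rw [Matrix.mul_apply] at this
      simp only [Fin.zero_eta, Fin.mk_one, transpose_apply, hf0, hf1] at this ⊢
      rw [this]; simp [Matrix.one_apply]
    · have := congrFun (congrFun b3 j) k
      rw [Matrix.mul_apply] at this
      simp only [Fin.mk_one, transpose_apply, hf1] at this ⊢
      rw [this]; simp [Matrix.one_apply]
  · rw [← b4]
    refine Matrix.ext fun a c => ?_
    rw [Matrix.mul_apply, Fintype.sum_prod_type, Matrix.add_apply, Matrix.mul_apply (M := u),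
      Matrix.mul_apply (M := J * u), ← Finset.sum_add_distrib]
    refine Finset.sum_congr rfl fun j _ => ?_
    rw [Fin.sum_univ_two]
    simp only [transpose_apply, hf0, hf1]

/-- the orientation tensor of a complex structure -/
def wJ (ι : Type*) [Fintype ι] [DecidableEq ι] (J : Matrix n n ℂ) (I : ι × Fin 2 → n) : ℂ :=
  ((-1) ^ Fintype.card ι * ((2 : ℂ) ^ Fintype.card ι * (Fintype.card ι).factorial)⁻¹)
    * PF.pfS (J.submatrix I I)

theorem FrJ.eq_wJ {P J : Matrix n n ℂ} {W : (ι × Fin 2 → n) → ℂ} (h : FrJ P J W) (hJt : Jᵀ = -J)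
    (hJ : J * J = -P) (hJP : J * P = J) : W = wJ ι J := by
  obtain ⟨u, f, hu, hJu, h1, h2, h3⟩ := h
  obtain ⟨hPu, hJd, hPd⟩ := unit_frame hu hJu h1 h2 hJt hJ hJP
  funext I
  have e1 : J = (-1 : ℂ) • (f * PF.stdJ ι ℂ * fᵀ) := by
    have g1 : ∀ a p, (f * PF.stdJ ι ℂ) a p = if p.2 = 0 then - f a (p.1, 1) else f a (p.1, 0) := by
      intro a p
      obtain ⟨j, e⟩ := p
      rw [Matrix.mul_apply, Fintype.sum_prod_type, Finset.sum_eq_single j]
      · rw [Fin.sum_univ_two]
        fin_cases e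
        · simp [PF.stdJ]
        · simp [PF.stdJ]
      · intro k _ hk
        rw [Fin.sum_univ_two]
        simp [PF.stdJ, hk]
      · intro h0; exact absurd (Finset.mem_univ _) h0
    have g2 : J = (J * u) * uᵀ - u * (J * u)ᵀ := by
      have : u * (J * u)ᵀ = - (u * uᵀ * J) := by
        rw [transpose_mul, hJt, Matrix.mul_neg, Matrix.mul_neg, Matrix.mul_assoc]
      rw [this, sub_neg_eq_add, Matrix.mul_assoc, ← hJd]
    refine Matrix.ext fun a c => ?_
    conv_lhs => rw [g2]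
    rw [Matrix.sub_apply, Matrix.mul_apply (M := J * u), Matrix.mul_apply (M := u),
      Matrix.smul_apply, Matrix.mul_apply, Fintype.sum_prod_type, ← Finset.sum_sub_distrib,
      Finset.smul_sum]
    refine Finset.sum_congr rfl fun j _ => ?_
    rw [Fin.sum_univ_two]
    simp only [g1, transpose_apply, hu, hJu, if_true, one_ne_zero, if_false, smul_eq_mul]
    ring
  have e2 : J.submatrix I I
      = (-1 : ℂ) • (((f.submatrix I id)ᵀ)ᵀ * PF.stdJ ι ℂ * (f.submatrix I id)ᵀ) := by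
    rw [transpose_transpose]
    conv_lhs => rw [e1]
    rfl
  rw [wJ, e2, PF.pfS_smul, PF.pfS_congr, PF.pfS_stdJ, det_transpose, h3]
  have hne : ((2 : ℂ) ^ Fintype.card ι * (Fintype.card ι).factorial) ≠ 0 :=
    mul_ne_zero (pow_ne_zero _ two_ne_zero) (Nat.cast_ne_zero.2 (Nat.factorial_ne_zero _))
  have h11 : ((-1 : ℂ) ^ Fintype.card ι) * ((-1) ^ Fintype.card ι) = 1 := by
    rw [← mul_pow]; norm_num
  set κ : ℂ := (2 : ℂ) ^ Fintype.card ι * (Fintype.card ι).factorial with hκ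
  have e3 : (-1) ^ Fintype.card ι * κ⁻¹ * ((-1) ^ Fintype.card ι * ((f.submatrix I id).det * κ))
      = ((-1) ^ Fintype.card ι * (-1) ^ Fintype.card ι) * (f.submatrix I id).det * (κ⁻¹ * κ) := by
    ring
  rw [e3, h11, inv_mul_cancel₀ hne]; ring

/-! ### orthogonalisation of a complex structure -/

/-- the metric making `J` orthogonal -/
def gG (J : Matrix n n ℂ) : Matrix n n ℂ := 1 + Jᵀ * J

open scoped ComplexOrder in
theorem RJ.dom {P J : Matrix n n ℂ} (h : RJ P J) : SP.Dom (gG J) := by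
  intro t ht
  have hJH : Jᴴ = Jᵀ := by
    have : Jᴴ = (SP.cj J)ᵀ := rfl
    rw [this, h.cJ]
  have e : gG J + algebraMap ℂ (Matrix n n ℂ) t
      = ((1 + t : ℝ) : ℂ) • (1 : Matrix n n ℂ) + Jᴴ * J := by
    rw [gG, hJH, Algebra.algebraMap_eq_smul_one]
    push_cast
    rw [add_smul, one_smul]; abel
  rw [e]
  have h1 : (((1 + t : ℝ) : ℂ) • (1 : Matrix n n ℂ)).PosDef :=
    Matrix.PosDef.one.smul (by
      rw [Complex.zero_lt_real]; linarith)
  exact (h1.add_posSemidef (Matrix.posSemidef_conjTranspose_mul_self J)).isUnit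

/-- the square root of the metric -/
def rR (J : Matrix n n ℂ) : Matrix n n ℂ := SP.sq (gG J)

theorem RJ.rR_sq {P J : Matrix n n ℂ} (h : RJ P J) : rR J * rR J = gG J := SP.sq_mul_self h.dom

theorem RJ.rR_t {P J : Matrix n n ℂ} (h : RJ P J) : (rR J)ᵀ = rR J := by
  symm
  refine SP.sq_eq_of (x := (rR J)ᵀ) (fun z hz => ?_) ?_
  · have h1 := SP.rhp_sq h.dom z hz
    have e : (rR J)ᵀ - algebraMap ℂ (Matrix n n ℂ) z
        = (SP.sq (gG J) - algebraMap ℂ (Matrix n n ℂ) z)ᵀ := by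
      rw [transpose_sub, Algebra.algebraMap_eq_smul_one, transpose_smul, transpose_one]; rfl
    rw [e]
    rw [Matrix.isUnit_iff_isUnit_det] at h1 ⊢
    rwa [det_transpose]
  · rw [← transpose_mul, h.rR_sq, gG, transpose_add, transpose_one, transpose_mul,
      transpose_transpose]

theorem RJ.rR_cj {P J : Matrix n n ℂ} (h : RJ P J) : SP.cj (rR J) = rR J := by
  symm
  refine SP.sq_eq_of (x := SP.cj (rR J)) (SP.rhp_sq h.dom).cj ?_
  have e : SP.cj (Jᵀ) = (SP.cj J)ᵀ := rfl
  rw [← map_mul, h.rR_sq, gG, map_add, map_one, map_mul, e, h.cJ]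

theorem RJ.comm_P {P J : Matrix n n ℂ} (h : RJ P J) : rR J * P = P * rR J := by
  refine (SP.sq_commute (a := gG J) (b := P) ?_).eq
  rw [Commute, SemiconjBy, gG, Matrix.add_mul, Matrix.mul_add, Matrix.one_mul, Matrix.mul_one,
    Matrix.mul_assoc, h.JP, ← Matrix.mul_assoc]
  have : P * Jᵀ = Jᵀ := by
    have := congrArg Matrix.transpose h.JP
    rwa [transpose_mul, h.Pt] at this
  rw [this]

theorem RJ.rR_unit {P J : Matrix n n ℂ} (h : RJ P J) : IsUnit (rR J) := (SP.rhp_sq h.dom).isUnit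

/-- inverse of the square root -/
def vR (J : Matrix n n ℂ) : Matrix n n ℂ := Ring.inverse (rR J)

theorem RJ.rv {P J : Matrix n n ℂ} (h : RJ P J) : rR J * vR J = 1 :=
  Ring.mul_inverse_cancel _ h.rR_unit
theorem RJ.vr {P J : Matrix n n ℂ} (h : RJ P J) : vR J * rR J = 1 :=
  Ring.inverse_mul_cancel _ h.rR_unit

theorem RJ.vt {P J : Matrix n n ℂ} (h : RJ P J) : (vR J)ᵀ = vR J := by
  have e := congrArg Matrix.transpose h.rv
  rw [transpose_mul, h.rR_t, transpose_one] at e
  calc (vR J)ᵀ = (vR J)ᵀ * (rR J * vR J) := by rw [h.rv, Matrix.mul_one]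
    _ = vR J := by rw [← Matrix.mul_assoc, e, Matrix.one_mul]

theorem RJ.vcj {P J : Matrix n n ℂ} (h : RJ P J) : SP.cj (vR J) = vR J := by
  have e := congrArg SP.cj h.vr
  rw [map_mul, h.rR_cj, map_one] at e
  calc SP.cj (vR J) = SP.cj (vR J) * (rR J * vR J) := by rw [h.rv, Matrix.mul_one]
    _ = vR J := by rw [← Matrix.mul_assoc, e, Matrix.one_mul]

theorem RJ.vP {P J : Matrix n n ℂ} (h : RJ P J) : vR J * P = P * vR J := by
  calc vR J * P = vR J * (P * (rR J * vR J)) := by rw [h.rv, Matrix.mul_one]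
    _ = vR J * (P * rR J) * vR J := by simp only [Matrix.mul_assoc]
    _ = vR J * rR J * P * vR J := by rw [← h.comm_P]; simp only [Matrix.mul_assoc]
    _ = _ := by rw [h.vr, Matrix.one_mul]

/-- the orthogonalised complex structure -/
def oJ (J : Matrix n n ℂ) : Matrix n n ℂ := rR J * J * vR J

theorem RJ.orth {P J : Matrix n n ℂ} (h : RJ P J) : RJ P (oJ J) := by
  refine ⟨h.cP, ?_, h.Pt, h.PP, ?_, ?_, ?_⟩
  · rw [oJ, map_mul, map_mul, h.rR_cj, h.cJ, h.vcj]
  · calc oJ J * oJ J = rR J * J * (vR J * rR J) * J * vR J := by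
          rw [oJ]; simp only [Matrix.mul_assoc]
      _ = rR J * (J * J) * vR J := by rw [h.vr, Matrix.mul_one]; simp only [Matrix.mul_assoc]
      _ = -(rR J * P * vR J) := by rw [h.JJ, Matrix.mul_neg, Matrix.neg_mul]
      _ = -(P * (rR J * vR J)) := by rw [h.comm_P, Matrix.mul_assoc]
      _ = -P := by rw [h.rv, Matrix.mul_one]
  · rw [oJ, Matrix.mul_assoc, h.vP, ← Matrix.mul_assoc, Matrix.mul_assoc (rR J), h.JP]
  · rw [oJ, ← Matrix.mul_assoc, ← Matrix.mul_assoc, ← h.comm_P, Matrix.mul_assoc (rR J), h.PJ]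

theorem RJ.orth_t {P J : Matrix n n ℂ} (h : RJ P J) : (oJ J)ᵀ = - oJ J := by
  have e1 : Jᵀ * gG J = - (gG J * J) := by
    have f1 : Jᵀ * Jᵀ = -P := by rw [← transpose_mul, h.JJ, transpose_neg, h.Pt]
    have f2 : Jᵀ * P = Jᵀ := by
      have := congrArg Matrix.transpose h.PJ
      rwa [transpose_mul, h.Pt] at this
    rw [gG, Matrix.mul_add, Matrix.add_mul, Matrix.mul_one, Matrix.one_mul, ← Matrix.mul_assoc, f1,
      Matrix.mul_assoc Jᵀ J J, h.JJ, Matrix.mul_neg, f2, Matrix.neg_mul, h.PJ]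
    abel
  rw [oJ, transpose_mul, transpose_mul, h.vt, h.rR_t]
  calc vR J * (Jᵀ * rR J) = vR J * (Jᵀ * (rR J * rR J)) * vR J := by
        rw [Matrix.mul_assoc, Matrix.mul_assoc, Matrix.mul_assoc, h.rv, Matrix.mul_one]
    _ = -(vR J * (rR J * rR J) * J * vR J) := by
        rw [h.rR_sq, e1]; simp only [Matrix.mul_neg, Matrix.neg_mul, Matrix.mul_assoc]
    _ = -(vR J * rR J * (rR J * J * vR J)) := by simp only [Matrix.mul_assoc]
    _ = _ := by rw [h.vr, Matrix.one_mul]

theorem RJ.qJ_orth {P J : Matrix n n ℂ} (h : RJ P J) : qJ P (oJ J) = rR J * qJ P J * vR J := by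
  have e : rR J * P * vR J = P := by rw [h.comm_P, Matrix.mul_assoc, h.rv, Matrix.mul_one]
  rw [qJ, qJ, oJ, Matrix.mul_add, Matrix.add_mul, Matrix.mul_smul, Matrix.smul_mul, e]
  simp only [Matrix.mul_smul, Matrix.smul_mul, Matrix.mul_neg, Matrix.neg_mul]

theorem RJ.pIso {P J : Matrix n n ℂ} (h : RJ P J) :
    SP.PIso (qJ P J) (qJ P (oJ J)) (rR J * qJ P J) (qJ P J * vR J) := by
  have hq := h.qJ_idem
  have hrv := h.rv
  have hvr := h.vr
  refine ⟨?_, ?_, ?_, ?_, ?_, ?_⟩
  · rw [Matrix.mul_assoc, hq]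
  · rw [h.qJ_orth]
    calc rR J * qJ P J * vR J * (rR J * qJ P J) = rR J * qJ P J * (vR J * rR J) * qJ P J := by
          simp only [Matrix.mul_assoc]
      _ = rR J * (qJ P J * qJ P J) := by rw [hvr, Matrix.mul_one, Matrix.mul_assoc]
      _ = _ := by rw [hq]
  · rw [h.qJ_orth]
    calc qJ P J * vR J * (rR J * qJ P J * vR J) = qJ P J * (vR J * rR J) * qJ P J * vR J := by
          simp only [Matrix.mul_assoc]
      _ = _ := by rw [hvr, Matrix.mul_one, hq]
  · rw [← Matrix.mul_assoc, hq]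
  · calc qJ P J * vR J * (rR J * qJ P J) = qJ P J * (vR J * rR J) * qJ P J := by
          simp only [Matrix.mul_assoc]
      _ = _ := by rw [hvr, Matrix.mul_one, hq]
  · rw [h.qJ_orth, ← Matrix.mul_assoc, Matrix.mul_assoc (rR J), hq]

end pt

end Crest.Agent.R208.CW
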