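import Crest.Agent.R208.EW6
import Crest.Agent.R208.HW2
import Crest.Agent.R208.NB9
import Crest.Agent.R208.CM6b

-- ▼ part R208/DD1
section

/-! Row 208, block DD (helper683).  DD1: the doubled bundle `N ⊕ N` on `EuclideanSpace ℝ (a ⊕ a)`,
the rotations `R t ∘ e^{i w t}`, the canonical orientation. -/

set_option autoImplicit false
set_option linter.unusedSectionVars false
set_option linter.unusedVariables false
set_option linter.unusedSimpArgs false

open Set Filter Topology Module MeasureTheory Matrix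
open scoped ContDiff RealInnerProductSpace ComplexConjugate Kronecker
open Crest.Agent.R208.F Crest.Agent.R208.FI Crest.Agent.R208.CW
open Crest.Agent.R208.CM
open Crest.Agent.R208.T
open Crest.Agent.R208.EW

noncomputable section

namespace Crest.Agent.R208.DD

/-! ### the doubled Euclidean space -/
section lin
variable {a : Type} [Fintype a] [DecidableEq a]

/-- first inclusion -/
def jl : EuclideanSpace ℝ a →L[ℝ] EuclideanSpace ℝ (a ⊕ a) :=
  LinearMap.toContinuousLinearMap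
    { toFun := fun u => WithLp.toLp 2 (Sum.elim (fun i => u i) fun _ => 0)
      map_add' := fun u v => by
        ext i; rcases i with i | i <;> simp
      map_smul' := fun c v => by
        ext i; rcases i with i | i <;> simp }

/-- second inclusion -/
def jr : EuclideanSpace ℝ a →L[ℝ] EuclideanSpace ℝ (a ⊕ a) :=
  LinearMap.toContinuousLinearMap
    { toFun := fun u => WithLp.toLp 2 (Sum.elim (fun _ => 0) fun i => u i)
      map_add' := fun u v => by
        ext i; rcases i with i | i <;> simp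
      map_smul' := fun c v => by
        ext i; rcases i with i | i <;> simp }

/-- first projection -/
def pl : EuclideanSpace ℝ (a ⊕ a) →L[ℝ] EuclideanSpace ℝ a :=
  LinearMap.toContinuousLinearMap
    { toFun := fun w => WithLp.toLp 2 fun i => w (Sum.inl i)
      map_add' := fun u v => by ext i; simp
      map_smul' := fun c v => by ext i; simp }

/-- second projection -/
def pr : EuclideanSpace ℝ (a ⊕ a) →L[ℝ] EuclideanSpace ℝ a :=
  LinearMap.toContinuousLinearMap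
    { toFun := fun w => WithLp.toLp 2 fun i => w (Sum.inr i)
      map_add' := fun u v => by ext i; simp
      map_smul' := fun c v => by ext i; simp }

@[simp] theorem jl_inl (u : EuclideanSpace ℝ a) (i : a) : jl u (Sum.inl i) = u i := rfl
@[simp] theorem jl_inr (u : EuclideanSpace ℝ a) (i : a) : jl u (Sum.inr i) = 0 := rfl
@[simp] theorem jr_inl (u : EuclideanSpace ℝ a) (i : a) : jr u (Sum.inl i) = 0 := rfl
@[simp] theorem jr_inr (u : EuclideanSpace ℝ a) (i : a) : jr u (Sum.inr i) = u i := rfl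
@[simp] theorem pl_apply (w : EuclideanSpace ℝ (a ⊕ a)) (i : a) : pl w i = w (Sum.inl i) := rfl
@[simp] theorem pr_apply (w : EuclideanSpace ℝ (a ⊕ a)) (i : a) : pr w i = w (Sum.inr i) := rfl

@[simp] theorem pl_jl (u : EuclideanSpace ℝ a) : pl (jl u) = u := rfl
@[simp] theorem pr_jr (u : EuclideanSpace ℝ a) : pr (jr u) = u := rfl
@[simp] theorem pl_jr (u : EuclideanSpace ℝ a) : pl (jr u) = 0 := rfl
@[simp] theorem pr_jl (u : EuclideanSpace ℝ a) : pr (jl u) = 0 := rfl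

theorem jl_pl_add (w : EuclideanSpace ℝ (a ⊕ a)) : jl (pl w) + jr (pr w) = w := by
  ext i; rcases i with i | i <;> simp

theorem inner_eq (v w : EuclideanSpace ℝ (a ⊕ a)) : ⟪v, w⟫ = ⟪pl v, pl w⟫ + ⟪pr v, pr w⟫ := by
  rw [PiLp.inner_apply, Fintype.sum_sum_type, PiLp.inner_apply, PiLp.inner_apply]
  rfl

theorem norm_sq_eq (w : EuclideanSpace ℝ (a ⊕ a)) : ‖w‖ ^ 2 = ‖pl w‖ ^ 2 + ‖pr w‖ ^ 2 := by
  rw [← real_inner_self_eq_norm_sq, inner_eq, real_inner_self_eq_norm_sq,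
    real_inner_self_eq_norm_sq]

theorem dbl : Dbl (jl (a := a)) jr where
  iso u v := by rw [norm_sq_eq, map_add, map_add]; simp
  surj w := ⟨pl w, pr w, (jl_pl_add w).symm⟩

theorem dbl' : Dbl (jr (a := a)) jl where
  iso u v := by rw [norm_sq_eq, map_add, map_add]; simp [add_comm]
  surj w := ⟨pr w, pl w, by rw [add_comm]; exact (jl_pl_add w).symm⟩

theorem ext_d {v w : EuclideanSpace ℝ (a ⊕ a)} (h1 : pl v = pl w) (h2 : pr v = pr w) : v = w := by
  rw [← jl_pl_add v, ← jl_pl_add w, h1, h2]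

/-- the doubled operator -/
def dd (A : EuclideanSpace ℝ a →L[ℝ] EuclideanSpace ℝ a) :
    EuclideanSpace ℝ (a ⊕ a) →L[ℝ] EuclideanSpace ℝ (a ⊕ a) :=
  jl.comp (A.comp pl) + jr.comp (A.comp pr)

theorem dd_apply (A : EuclideanSpace ℝ a →L[ℝ] EuclideanSpace ℝ a) (w : EuclideanSpace ℝ (a ⊕ a)) :
    dd A w = jl (A (pl w)) + jr (A (pr w)) := rfl

@[simp] theorem pl_dd (A : EuclideanSpace ℝ a →L[ℝ] EuclideanSpace ℝ a)
    (w : EuclideanSpace ℝ (a ⊕ a)) : pl (dd A w) = A (pl w) := by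
  rw [dd_apply, map_add, pl_jl, pl_jr, add_zero]

@[simp] theorem pr_dd (A : EuclideanSpace ℝ a →L[ℝ] EuclideanSpace ℝ a)
    (w : EuclideanSpace ℝ (a ⊕ a)) : pr (dd A w) = A (pr w) := by
  rw [dd_apply, map_add, pr_jl, pr_jr, zero_add]

/-- the complex structure composed with an operator: `(u, v) ↦ (-A v, A u)` -/
def dj (A : EuclideanSpace ℝ a →L[ℝ] EuclideanSpace ℝ a) :
    EuclideanSpace ℝ (a ⊕ a) →L[ℝ] EuclideanSpace ℝ (a ⊕ a) :=
  jr.comp (A.comp pl) - jl.comp (A.comp pr)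

theorem dj_apply (A : EuclideanSpace ℝ a →L[ℝ] EuclideanSpace ℝ a) (w : EuclideanSpace ℝ (a ⊕ a)) :
    dj A w = jr (A (pl w)) - jl (A (pr w)) := rfl

@[simp] theorem pl_dj (A : EuclideanSpace ℝ a →L[ℝ] EuclideanSpace ℝ a)
    (w : EuclideanSpace ℝ (a ⊕ a)) : pl (dj A w) = - A (pr w) := by
  rw [dj_apply, map_sub, pl_jl, pl_jr, zero_sub]

@[simp] theorem pr_dj (A : EuclideanSpace ℝ a →L[ℝ] EuclideanSpace ℝ a)
    (w : EuclideanSpace ℝ (a ⊕ a)) : pr (dj A w) = A (pl w) := by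
  rw [dj_apply, map_sub, pr_jl, pr_jr, sub_zero]

section sm
variable {G : Type*} [NormedAddCommGroup G] [NormedSpace ℝ G] {x : G} {k : WithTop ℕ∞}
  {A : G → EuclideanSpace ℝ a →L[ℝ] EuclideanSpace ℝ a}

theorem contDiffAt_dd (hA : ContDiffAt ℝ k A x) : ContDiffAt ℝ k (fun y => dd (A y)) x :=
  (contDiffAt_const.clm_comp (hA.clm_comp contDiffAt_const)).add
    (contDiffAt_const.clm_comp (hA.clm_comp contDiffAt_const))

theorem contDiffAt_dj (hA : ContDiffAt ℝ k A x) : ContDiffAt ℝ k (fun y => dj (A y)) x :=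
  (contDiffAt_const.clm_comp (hA.clm_comp contDiffAt_const)).sub
    (contDiffAt_const.clm_comp (hA.clm_comp contDiffAt_const))

end sm

/-! ### the rotations -/

/-- `R t` composed with the rotation by the angle `w t` -/
def R2 (R : ℝ → EuclideanSpace ℝ a →L[ℝ] EuclideanSpace ℝ a) (w t : ℝ) :
    EuclideanSpace ℝ (a ⊕ a) →L[ℝ] EuclideanSpace ℝ (a ⊕ a) :=
  Real.cos (w * t) • dd (R t) + Real.sin (w * t) • dj (R t)

variable {R : ℝ → EuclideanSpace ℝ a →L[ℝ] EuclideanSpace ℝ a}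

theorem R2_apply (w t : ℝ) (v : EuclideanSpace ℝ (a ⊕ a)) :
    R2 R w t v = Real.cos (w * t) • dd (R t) v + Real.sin (w * t) • dj (R t) v := rfl

theorem pl_R2 (w t : ℝ) (v : EuclideanSpace ℝ (a ⊕ a)) :
    pl (R2 R w t v) = Real.cos (w * t) • R t (pl v) - Real.sin (w * t) • R t (pr v) := by
  rw [R2_apply, map_add, map_smul, map_smul, pl_dd, pl_dj, smul_neg, sub_eq_add_neg]

theorem pr_R2 (w t : ℝ) (v : EuclideanSpace ℝ (a ⊕ a)) :
    pr (R2 R w t v) = Real.sin (w * t) • R t (pl v) + Real.cos (w * t) • R t (pr v) := by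
  rw [R2_apply, map_add, map_smul, map_smul, pr_dd, pr_dj, add_comm]

/-- the rotation in the form of `DD2.rot` -/
theorem R2_rot (w t : ℝ) (u v : EuclideanSpace ℝ a) :
    R2 R w t (jl u + jr v) = jl (Real.cos (w * t) • R t u - Real.sin (w * t) • R t v)
      + jr (Real.sin (w * t) • R t u + Real.cos (w * t) • R t v) := by
  refine ext_d ?_ ?_
  · rw [pl_R2]; simp
  · rw [pr_R2]; simp

/-- the rotation in the form of `DD2.rot`, summands exchanged: weight `-w` -/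
theorem R2_rot' (w t : ℝ) (u v : EuclideanSpace ℝ a) :
    R2 R (-w) t (jr u + jl v) = jr (Real.cos (w * t) • R t u - Real.sin (w * t) • R t v)
      + jl (Real.sin (w * t) • R t u + Real.cos (w * t) • R t v) := by
  refine ext_d ?_ ?_
  · rw [pl_R2, neg_mul, Real.cos_neg, Real.sin_neg]; simp; abel
  · rw [pr_R2, neg_mul, Real.cos_neg, Real.sin_neg]; simp; abel

theorem rep_R2 (hR : Rep R) {w : ℝ} (hw : ∃ k : ℤ, w = k) : Rep (R2 R w) where
  smooth := by
    rw [contDiff_iff_contDiffAt]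
    intro t
    have h1 : ContDiffAt ℝ ∞ (fun s : ℝ => w * s) t := contDiffAt_const.mul contDiffAt_id
    have h2 : ContDiffAt ℝ ∞ R t := hR.smooth.contDiffAt
    exact ((Real.contDiff_cos.contDiffAt.comp t h1).smul (contDiffAt_dd h2)).add
      ((Real.contDiff_sin.contDiffAt.comp t h1).smul (contDiffAt_dj h2))
  zero v := by
    refine ext_d ?_ ?_
    · rw [pl_R2, mul_zero, Real.cos_zero, Real.sin_zero, one_smul, zero_smul, sub_zero, hR.zero]
    · rw [pr_R2, mul_zero, Real.cos_zero, Real.sin_zero, one_smul, zero_smul, zero_add, hR.zero]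
  add s t v := by
    refine ext_d ?_ ?_
    · rw [pl_R2, pl_R2, pl_R2, pr_R2, mul_add, Real.cos_add, Real.sin_add, hR.add, hR.add]
      simp only [map_sub, map_add, map_smul]
      module
    · rw [pr_R2, pr_R2, pl_R2, pr_R2, mul_add, Real.cos_add, Real.sin_add, hR.add, hR.add]
      simp only [map_sub, map_add, map_smul]
      module
  per v := by
    obtain ⟨k, rfl⟩ := hw
    have h1 : Real.cos ((k : ℝ) * (2 * Real.pi)) = 1 := Real.cos_int_mul_two_pi k
    have h2 : Real.sin ((k : ℝ) * (2 * Real.pi)) = 0 := by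
      have := Real.sin_int_mul_pi (2 * k)
      push_cast at this
      rw [← this]; ring_nf
    refine ext_d ?_ ?_
    · rw [pl_R2, h1, h2, one_smul, zero_smul, sub_zero, hR.per]
    · rw [pr_R2, h1, h2, one_smul, zero_smul, zero_add, hR.per]
  iso t v := by
    have h1 : ‖R2 R w t v‖ ^ 2 = ‖v‖ ^ 2 := by
      rw [norm_sq_eq, norm_sq_eq v, pl_R2, pr_R2, norm_sub_sq_real, norm_add_sq_real]
      simp only [norm_smul, hR.iso, real_inner_smul_left, real_inner_smul_right, mul_pow,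
        Real.norm_eq_abs, sq_abs]
      linear_combination (‖pl v‖ ^ 2 + ‖pr v‖ ^ 2) * (Real.sin_sq_add_cos_sq (w * t))
    exact (sq_eq_sq₀ (norm_nonneg _) (norm_nonneg _)).1 h1

/-- rotation at double speed -/
theorem _root_.Crest.Agent.R208.CM.Rep.two {W : Type*} [NormedAddCommGroup W] [NormedSpace ℝ W]
    {R : ℝ → W →L[ℝ] W} (hR : Rep R) : Rep (fun t => R (2 * t)) where
  smooth := hR.smooth.comp (contDiff_const.mul contDiff_id)
  zero w := by rw [mul_zero]; exact hR.zero w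
  add s t w := by rw [mul_add]; exact hR.add _ _ w
  per w := by
    rw [show 2 * (2 * Real.pi) = 2 * Real.pi + 2 * Real.pi by ring, hR.add, hR.per, hR.per]
  iso t w := hR.iso _ w

end lin

/-! ### the doubled field -/
section field
variable {E : Type*} [NormedAddCommGroup E] [NormedSpace ℝ E]
  {a : Type} [Fintype a] [DecidableEq a] {X : Set E} {φ : ℝ → E → E} {r : ℕ}
  {R : ℝ → EuclideanSpace ℝ a →L[ℝ] EuclideanSpace ℝ a}
  {N : E → EuclideanSpace ℝ a →L[ℝ] EuclideanSpace ℝ a} {x : E}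

/-- `N ⊕ N` -/
def NN (N : E → EuclideanSpace ℝ a →L[ℝ] EuclideanSpace ℝ a) (x : E) :
    EuclideanSpace ℝ (a ⊕ a) →L[ℝ] EuclideanSpace ℝ (a ⊕ a) := dd (N x)

/-- the complex structure of `N ⊕ N` -/
def JJ (N : E → EuclideanSpace ℝ a →L[ℝ] EuclideanSpace ℝ a) (x : E) :
    EuclideanSpace ℝ (a ⊕ a) →L[ℝ] EuclideanSpace ℝ (a ⊕ a) := dj (N x)

theorem NN_add (u v : EuclideanSpace ℝ a) : NN N x (jl u + jr v) = jl (N x u) + jr (N x v) := by
  rw [NN, dd_apply]; simp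

theorem NN_add' (u v : EuclideanSpace ℝ a) : NN N x (jr u + jl v) = jr (N x u) + jl (N x v) := by
  rw [add_comm, NN_add, add_comm]

/-- points of the doubled bundle -/
theorem NN_eq_self_iff {w : EuclideanSpace ℝ (a ⊕ a)} :
    NN N x w = w ↔ N x (pl w) = pl w ∧ N x (pr w) = pr w := by
  constructor
  · intro h
    exact ⟨by rw [← pl_dd]; exact congrArg pl h, by rw [← pr_dd]; exact congrArg pr h⟩
  · rintro ⟨h1, h2⟩
    refine ext_d ?_ ?_
    · rw [NN, pl_dd, h1]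
    · rw [NN, pr_dd, h2]

theorem NN_idem (hi : ∀ v, N x (N x v) = N x v) (v : EuclideanSpace ℝ (a ⊕ a)) :
    NN N x (NN N x v) = NN N x v := by
  refine ext_d ?_ ?_
  · simp only [NN, pl_dd, hi]
  · simp only [NN, pr_dd, hi]


theorem NN_equi (w : ℝ) (he : ∀ t v, N (φ t x) (R t v) = R t (N x v)) (t : ℝ)
    (v : EuclideanSpace ℝ (a ⊕ a)) : NN N (φ t x) (R2 R w t v) = R2 R w t (NN N x v) := by
  refine ext_d ?_ ?_
  · rw [NN, pl_dd, pl_R2, pl_R2, NN, pl_dd, pr_dd]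
    simp only [map_sub, map_smul, he]
  · rw [NN, pr_dd, pr_R2, pr_R2, NN, pl_dd, pr_dd]
    simp only [map_add, map_smul, he]

theorem contDiffAt_NN {k : WithTop ℕ∞} (h : ContDiffAt ℝ k N x) : ContDiffAt ℝ k (NN N) x :=
  contDiffAt_dd h

theorem contDiffAt_JJ {k : WithTop ℕ∞} (h : ContDiffAt ℝ k N x) : ContDiffAt ℝ k (JJ N) x :=
  contDiffAt_dj h

/-- the range of `N ⊕ N` -/
def rangeE (x : E) : LinearMap.range (NN N x : EuclideanSpace ℝ (a ⊕ a) →ₗ[ℝ] EuclideanSpace ℝ (a ⊕ a))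
    ≃ₗ[ℝ] LinearMap.range (N x : EuclideanSpace ℝ a →ₗ[ℝ] EuclideanSpace ℝ a)
      × LinearMap.range (N x : EuclideanSpace ℝ a →ₗ[ℝ] EuclideanSpace ℝ a) where
  toFun w := (⟨pl w.1, by obtain ⟨v, hv⟩ := w.2; exact ⟨pl v, by
      rw [← hv]; exact (pl_dd (N x) v).symm⟩⟩,
    ⟨pr w.1, by obtain ⟨v, hv⟩ := w.2; exact ⟨pr v, by
      rw [← hv]; exact (pr_dd (N x) v).symm⟩⟩)
  map_add' v w := rfl
  map_smul' c w := rfl
  invFun p := ⟨jl p.1.1 + jr p.2.1, by
    obtain ⟨u, hu⟩ := p.1.2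
    obtain ⟨v, hv⟩ := p.2.2
    refine ⟨jl u + jr v, ?_⟩
    have := NN_add (N := N) (x := x) u v
    rw [← hu, ← hv]
    exact this⟩
  left_inv w := Subtype.ext (jl_pl_add w.1)
  right_inv p := by
    refine Prod.ext (Subtype.ext ?_) (Subtype.ext ?_)
    · change pl (jl p.1.1 + jr p.2.1) = p.1.1
      simp
    · change pr (jl p.1.1 + jr p.2.1) = p.2.1
      simp

theorem finrank_NN (x : E) :
    finrank ℝ (LinearMap.range (NN N x : EuclideanSpace ℝ (a ⊕ a) →ₗ[ℝ] EuclideanSpace ℝ (a ⊕ a)))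
      = finrank ℝ (LinearMap.range (N x : EuclideanSpace ℝ a →ₗ[ℝ] EuclideanSpace ℝ a))
        + finrank ℝ (LinearMap.range (N x : EuclideanSpace ℝ a →ₗ[ℝ] EuclideanSpace ℝ a)) := by
  rw [(rangeE (N := N) x).finrank_eq, Module.finrank_prod]

theorem pfield_NN (h : PField X r N) : PField X (r + r) (NN N) where
  smooth x hx := contDiffAt_NN (h.smooth x hx)
  idem x hx := NN_idem (h.idem x hx)
  rank x hx := by rw [finrank_NN, h.rank x hx]

end field

end Crest.Agent.R208.DD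
end
end

-- ▼ part R208/DD2
section

/-! Row 208, block DD (helper683).  DD2: the canonical orientation of `N ⊕ N`; 607's structure
`EW.DD2` for the doubled field. -/

set_option autoImplicit false
set_option linter.unusedSectionVars false
set_option linter.unusedVariables false
set_option linter.unusedSimpArgs false

open Set Filter Topology Module MeasureTheory Matrix
open scoped ContDiff RealInnerProductSpace ComplexConjugate Kronecker
open Crest.Agent.R208.F Crest.Agent.R208.FI Crest.Agent.R208.CW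
open Crest.Agent.R208.CM
open Crest.Agent.R208.T
open Crest.Agent.R208.EW

noncomputable section

namespace Crest.Agent.R208.DD

/-! ### orthonormal frames of symmetric projections -/
section frame
variable {a ι : Type} [Fintype a] [DecidableEq a] [Fintype ι] [DecidableEq ι]

/-- matrix of an orthonormal basis of the range of a symmetric projection -/
theorem exists_frame {A : EuclideanSpace ℝ a →L[ℝ] EuclideanSpace ℝ a} (hi : ∀ v, A (A v) = A v)
    (hs : ∀ u v, ⟪A u, v⟫ = ⟪u, A v⟫)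
    (hr : finrank ℝ (LinearMap.range (A : EuclideanSpace ℝ a →ₗ[ℝ] EuclideanSpace ℝ a))
      = Fintype.card ι) :
    ∃ u : ι → EuclideanSpace ℝ a, Orthonormal ℝ u ∧ (∀ i, A (u i) = u i) ∧
      ∀ v, A v = ∑ i, ⟪u i, v⟫ • u i := by
  set R := LinearMap.range (A : EuclideanSpace ℝ a →ₗ[ℝ] EuclideanSpace ℝ a) with hR
  let e : Fin (finrank ℝ R) ≃ ι := Fintype.equivOfCardEq (by rw [Fintype.card_fin, hr])
  let b : OrthonormalBasis ι ℝ R := (stdOrthonormalBasis ℝ R).reindex e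
  have hb : ∀ i, A (b i : EuclideanSpace ℝ a) = b i := fun i => by
    obtain ⟨v, hv⟩ := (b i).2
    have hv' : A v = (b i : EuclideanSpace ℝ a) := hv
    rw [← hv', hi]
  refine ⟨fun i => (b i : EuclideanSpace ℝ a), ?_, hb, fun v => ?_⟩
  · exact b.orthonormal.comp_linearIsometry R.subtypeₗᵢ
  · have h1 := b.sum_repr ⟨A v, ⟨v, rfl⟩⟩
    have h2 := congrArg (Subtype.val) h1
    rw [Submodule.coe_sum] at h2
    refine Eq.trans (Eq.symm h2) (Finset.sum_congr rfl fun i _ => ?_)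
    rw [Submodule.coe_smul, b.repr_apply_apply]
    congr 1
    change ⟪(b i : EuclideanSpace ℝ a), A v⟫ = _
    rw [← hs, hb]

/-- the frame of `N ⊕ N` -/
def fr2 (u : ι → EuclideanSpace ℝ a) : Matrix (a ⊕ a) (ι × Fin 2) ℝ :=
  Matrix.of fun s p => if p.2 = 0 then jl (u p.1) s else jr (u p.1) s

theorem fr2_zero (u : ι → EuclideanSpace ℝ a) (s : a ⊕ a) (j : ι) : fr2 u s (j, 0) = jl (u j) s := by
  simp [fr2]

theorem fr2_one (u : ι → EuclideanSpace ℝ a) (s : a ⊕ a) (j : ι) : fr2 u s (j, 1) = jr (u j) s := by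
  simp [fr2]

theorem fr2_iso {u : ι → EuclideanSpace ℝ a} (hu : Orthonormal ℝ u) : (fr2 u)ᵀ * fr2 u = 1 := by
  have huu : ∀ i j, ⟪u i, u j⟫ = if i = j then (1 : ℝ) else 0 :=
    orthonormal_iff_ite.1 hu
  have hs : ∀ i j, ∑ s, u i s * u j s = if i = j then (1 : ℝ) else 0 := fun i j => by
    rw [← huu, PiLp.inner_apply]
    exact Finset.sum_congr rfl fun s _ => by
      rw [RCLike.inner_apply, conj_trivial, mul_comm]
  refine Matrix.ext ?_
  rintro ⟨i, e⟩ ⟨j, e'⟩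
  rw [Matrix.mul_apply, Fintype.sum_sum_type, Matrix.one_apply]
  simp only [transpose_apply]
  fin_cases e <;> fin_cases e'
  · simp only [Fin.zero_eta, fr2_zero, jl_inl, jl_inr, mul_zero, Finset.sum_const_zero, add_zero, hs,
      Prod.mk.injEq, and_true]
  · simp [fr2_zero, fr2_one]
  · simp [fr2_zero, fr2_one]
  · simp only [Fin.mk_one, fr2_one, jr_inl, jr_inr, mul_zero, Finset.sum_const_zero, zero_add, hs,
      Prod.mk.injEq, and_true]

theorem fr2_proj {A : EuclideanSpace ℝ a →L[ℝ] EuclideanSpace ℝ a} {u : ι → EuclideanSpace ℝ a}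
    (hA : ∀ v, A v = ∑ i, ⟪u i, v⟫ • u i) (v : EuclideanSpace ℝ (a ⊕ a)) (s : a ⊕ a) :
    dd A v s = ∑ t, (fr2 u * (fr2 u)ᵀ) s t * v t := by
  have h1 : ∀ (w : EuclideanSpace ℝ a) (i : a), A w i = ∑ t, (∑ j, u j i * u j t) * w t := by
    intro w i
    rw [hA, WithLp.ofLp_sum, Finset.sum_apply]
    simp only [PiLp.smul_apply, smul_eq_mul, PiLp.inner_apply, RCLike.inner_apply, conj_trivial,
      Finset.sum_mul]
    rw [Finset.sum_comm]
    refine Finset.sum_congr rfl fun t _ => Finset.sum_congr rfl fun j _ => ?_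
    ring
  have h2 : ∀ s t, (fr2 u * (fr2 u)ᵀ) s t = ∑ j, (jl (u j) s * jl (u j) t + jr (u j) s * jr (u j) t) := by
    intro s t
    rw [Matrix.mul_apply, Fintype.sum_prod_type]
    refine Finset.sum_congr rfl fun j _ => ?_
    rw [Fin.sum_univ_two]
    simp only [transpose_apply, fr2_zero, fr2_one]
  rw [Fintype.sum_sum_type]
  rcases s with i | i
  · have e1 : dd A v (Sum.inl i) = A (pl v) i := by
      have := congrArg (fun w : EuclideanSpace ℝ a => w i) (pl_dd A v)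
      exact this
    rw [e1, h1]
    simp only [h2, jl_inl, jl_inr, jr_inl, jr_inr, mul_zero, zero_mul, add_zero, zero_add,
      Finset.sum_const_zero, pl_apply]
  · have e1 : dd A v (Sum.inr i) = A (pr v) i := by
      have := congrArg (fun w : EuclideanSpace ℝ a => w i) (pr_dd A v)
      exact this
    rw [e1, h1]
    simp only [h2, jl_inl, jl_inr, jr_inl, jr_inr, mul_zero, zero_mul, add_zero, zero_add,
      Finset.sum_const_zero, pr_apply]

end frame

/-! ### the canonical orientation -/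
section ori
variable {E : Type*} [NormedAddCommGroup E] [NormedSpace ℝ E] [FiniteDimensional ℝ E]
  {a ι : Type} [Fintype a] [DecidableEq a] [Fintype ι] [DecidableEq ι] {X : Set E}
  {N : E → EuclideanSpace ℝ a →L[ℝ] EuclideanSpace ℝ a} {x : E}

/-- the canonical orientation tensor of `N ⊕ N` -/
def Wc (ι : Type) [Fintype ι] [DecidableEq ι] (N : E → EuclideanSpace ℝ a →L[ℝ] EuclideanSpace ℝ a)
    (x : E) (I : ι × Fin 2 → a ⊕ a) : ℝ := (wJ ι (mc (JJ N x)) I).re

theorem contDiffAt_Wc {k : WithTop ℕ∞} (h : ContDiffAt ℝ k N x) (I : ι × Fin 2 → a ⊕ a) :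
    ContDiffAt ℝ k (fun y => Wc ι N y I) x :=
  Complex.reCLM.contDiff.contDiffAt.comp x
    (contDiffAt_wJ (k := k) (fun i j => contDiffAt_mc (contDiffAt_JJ h) i j) I)

theorem mc_JJ_tr (hs : ∀ u v, ⟪N x u, v⟫ = ⟪u, N x v⟫) : (mc (JJ N x))ᵀ = - mc (JJ N x) := by
  rw [← mc_adj, ← mc_neg]
  congr 1
  ext1 v
  refine ext_inner_right ℝ fun w => ?_
  rw [ContinuousLinearMap.adjoint_inner_left]
  change ⟪v, JJ N x w⟫ = ⟪-(JJ N x v), w⟫
  rw [inner_neg_left, inner_eq, inner_eq (JJ N x v)]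
  simp only [JJ, pl_dj, pr_dj, inner_neg_left, inner_neg_right]
  rw [hs, hs]
  ring

theorem mc_JJ_sq (hi : ∀ v, N x (N x v) = N x v) :
    mc (JJ N x) * mc (JJ N x) = - mc (NN N x) := by
  rw [← mc_comp, ← mc_neg]
  congr 1
  ext1 v
  change JJ N x (JJ N x v) = -(NN N x v)
  refine ext_d ?_ ?_
  · simp only [JJ, NN, pl_dj, pr_dj, map_neg, pl_dd, hi]
  · simp only [JJ, NN, pl_dj, pr_dj, map_neg, pr_dd, hi]

theorem mc_JJ_NN (hi : ∀ v, N x (N x v) = N x v) :
    mc (JJ N x) * mc (NN N x) = mc (JJ N x) := by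
  rw [← mc_comp]
  congr 1
  ext1 v
  change JJ N x (NN N x v) = JJ N x v
  refine ext_d ?_ ?_
  · simp only [JJ, NN, pl_dj, pr_dd, hi]
  · simp only [JJ, NN, pr_dj, pl_dd, hi]

theorem frJ (hi : ∀ v, N x (N x v) = N x v) (hs : ∀ u v, ⟪N x u, v⟫ = ⟪u, N x v⟫)
    {u : ι → EuclideanSpace ℝ a} (hu : Orthonormal ℝ u) (hNu : ∀ i, N x (u i) = u i)
    (hA : ∀ v, N x v = ∑ i, ⟪u i, v⟫ • u i) :
    FrJ (mc (NN N x)) (mc (JJ N x))
      (fun I => ((((fr2 u).submatrix I id).det : ℝ) : ℂ)) := by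
  refine ⟨Matrix.of fun s j => ((jl (u j) s : ℝ) : ℂ), (fr2 u).map (algebraMap ℝ ℂ),
    fun s j => ?_, fun s j => ?_, ?_, ?_, fun I => ?_⟩
  · rw [Matrix.map_apply, fr2_zero]; rfl
  · rw [Matrix.map_apply, fr2_one, Matrix.mul_apply]
    have h1 : JJ N x (jl (u j)) = jr (u j) := by
      refine ext_d ?_ ?_
      · simp [JJ]
      · simp [JJ, hNu]
    have h2 : JJ N x (jl (u j)) s = ∑ t, MT (JJ N x) s t * jl (u j) t := by
      rw [← mE_apply, mE_MT]
    rw [h1] at h2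
    rw [h2]
    simp only [Matrix.of_apply]
    change ((∑ t, MT (JJ N x) s t * jl (u j) t : ℝ) : ℂ) = _
    push_cast
    rfl
  · rw [← Matrix.transpose_map, ← Matrix.map_mul, fr2_iso hu,
      Matrix.map_one _ (map_zero _) (map_one _)]
  · rw [← Matrix.transpose_map, ← Matrix.map_mul]
    change (fr2 u * (fr2 u)ᵀ).map (algebraMap ℝ ℂ) = (MT (NN N x)).map (algebraMap ℝ ℂ)
    congr 1
    refine mE_injective ?_
    ext1 v
    ext s
    rw [mE_MT, mE_apply]
    exact (fr2_proj hA v s).symm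
  · change algebraMap ℝ ℂ ((fr2 u).submatrix I id).det
      = (((fr2 u).submatrix I id).map (algebraMap ℝ ℂ)).det
    exact RingHom.map_det (algebraMap ℝ ℂ) _

/-- **the doubled field is canonically oriented** -/
theorem or_NN (hsm : ∀ x ∈ X, ContDiffAt ℝ ∞ N x) (hi : ∀ x ∈ X, ∀ v, N x (N x v) = N x v)
    (hs : ∀ x ∈ X, ∀ u v, ⟪N x u, v⟫ = ⟪u, N x v⟫)
    (hr : ∀ x ∈ X, finrank ℝ (LinearMap.range (N x : EuclideanSpace ℝ a →ₗ[ℝ] EuclideanSpace ℝ a))
      = Fintype.card ι) : OR (ι := ι) X (NN N) (Wc ι N) := by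
  refine ⟨fun x hx => contDiffAt_NN (hsm x hx), fun x hx I => contDiffAt_Wc (hsm x hx) I,
    fun x hx => ?_⟩
  obtain ⟨u, hu, hNu, hA⟩ := exists_frame (ι := ι) (hi x hx) (hs x hx) (hr x hx)
  refine ⟨fr2 u, fr2_iso hu, fun v i => fr2_proj hA v i, fun I => ?_⟩
  have h := (frJ (hi x hx) (hs x hx) hu hNu hA).eq_wJ (mc_JJ_tr (hs x hx)) (mc_JJ_sq (hi x hx))
    (mc_JJ_NN (hi x hx))
  have h1 := congrFun h I
  rw [Wc, ← h1, Complex.ofReal_re]


end ori

/-! ### 607's structure -/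
section dd2
variable {E : Type} [NormedAddCommGroup E] [NormedSpace ℝ E] [FiniteDimensional ℝ E]
  {a p q κ : Type} [Fintype a] [DecidableEq a] [Fintype p]
  [DecidableEq p] [Fintype q] [DecidableEq q] [Fintype κ] [DecidableEq κ]
  {X : Set E} {φ : ℝ → E → E} {m d r : ℕ} {g : E → Fin m → ℂ}
  {R : ℝ → EuclideanSpace ℝ a →L[ℝ] EuclideanSpace ℝ a}
  {Tr : E → EuclideanSpace ℝ a →L[ℝ] EuclideanSpace ℝ p}
  {T₂ : E → EuclideanSpace ℝ (a ⊕ a) →L[ℝ] EuclideanSpace ℝ q}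
  {N : E → EuclideanSpace ℝ a →L[ℝ] EuclideanSpace ℝ a}
  {w : ℝ} {z : E → κ → ℂ}
  {ι : Type} [Fintype ι] [DecidableEq ι]

/-- equivariant symmetric projection field -/
structure EqF (X : Set E) (φ : ℝ → E → E) (R : ℝ → EuclideanSpace ℝ a →L[ℝ] EuclideanSpace ℝ a)
    (r : ℕ) (N : E → EuclideanSpace ℝ a →L[ℝ] EuclideanSpace ℝ a) : Prop where
  rep : Rep R
  pf : PField X r N
  sy : ∀ x ∈ X, ∀ u v, ⟪N x u, v⟫ = ⟪u, N x v⟫
  eq : ∀ x ∈ X, ∀ t v, N (φ t x) (R t v) = R t (N x v)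

/-- a map to the unit sphere of `ℂ^κ` of weight `w` -/
structure Wgt (X : Set E) (φ : ℝ → E → E) (w : ℝ) (z : E → κ → ℂ) : Prop where
  int : ∃ k : ℤ, w = k
  smz : ∀ x ∈ X, ContDiffAt ℝ ∞ z x
  unit : ∀ x ∈ X, ∑ i, z x i * conj (z x i) = 1
  eqz : ∀ x ∈ X, ∀ t : ℝ, z (φ t x) = Complex.exp ((w * t : ℝ) * Complex.I) • z x

/-- **607's structure** for `N ⊕ N`, rotation `R2 R w` -/
theorem EqF.dd2 (h : EqF X φ R r N) (hz : Wgt X φ w z) (hT : Triv X φ R Tr)
    (hT₂ : Triv X φ (R2 R w) T₂) : EW.DD2 X φ R (R2 R w) Tr T₂ N (NN N) jl jr w z where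
  dbl := dbl
  rep := h.rep
  rep₂ := rep_R2 h.rep hz.int
  triv := hT
  triv₂ := hT₂
  rot t u v := R2_rot w t u v
  smN := h.pf.smooth
  idN := h.pf.idem
  syN := h.sy
  eqN := h.eq
  nn x hx u v := NN_add u v
  smz := hz.smz
  unit := hz.unit
  eqz := hz.eqz

/-- **607's structure** for `N ⊕ N`, rotation `R2 R (-w)`, summands exchanged -/
theorem EqF.dd2' (h : EqF X φ R r N) (hz : Wgt X φ w z) (hT : Triv X φ R Tr)
    (hT₂ : Triv X φ (R2 R (-w)) T₂) :
    EW.DD2 X φ R (R2 R (-w)) Tr T₂ N (NN N) jr jl w z where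
  dbl := dbl'
  rep := h.rep
  rep₂ := rep_R2 h.rep (by obtain ⟨k, hk⟩ := hz.int; exact ⟨-k, by rw [hk]; push_cast; ring⟩)
  triv := hT
  triv₂ := hT₂
  rot t u v := R2_rot' w t u v
  smN := h.pf.smooth
  idN := h.pf.idem
  syN := h.sy
  eqN := h.eq
  nn x hx u v := NN_add' u v
  smz := hz.smz
  unit := hz.unit
  eqz := hz.eqz

theorem EqF.or (h : EqF X φ R (Fintype.card ι) N) : OR (ι := ι) X (NN N) (Wc ι N) :=
  or_NN h.pf.smooth h.pf.idem h.sy h.pf.rank

theorem EqF.eq₂ (h : EqF X φ R r N) (w : ℝ) : ∀ x ∈ X, ∀ t v,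
    NN N (φ t x) (R2 R w t v) = R2 R w t (NN N x v) := fun x hx t v => NN_equi w (h.eq x hx) t v

/-- weight one: the embedding itself -/
theorem wgt_one (hg : Emb X φ g) : Wgt X φ 1 g where
  int := ⟨1, by norm_num⟩
  smz := hg.smooth
  unit x hx := sum_g hg hx
  eqz x hx t := by rw [one_mul]; exact hg.equi x hx t


/-- the descended objects -/
structure Dsc (X : Set E) (g : E → Fin m → ℂ) (φ : ℝ → E → E)
    (R : ℝ → EuclideanSpace ℝ a →L[ℝ] EuclideanSpace ℝ a) (r : ℕ)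
    (N : E → EuclideanSpace ℝ a →L[ℝ] EuclideanSpace ℝ a)
    (Tr : E → EuclideanSpace ℝ a →L[ℝ] EuclideanSpace ℝ p)
    (P' : MM m → EuclideanSpace ℝ p →L[ℝ] EuclideanSpace ℝ p) : Prop where
  triv : Triv X φ R Tr
  sm : ContDiff ℝ ∞ P'
  pf : PField (Quo X g) r P'
  sy : ∀ y ∈ Quo X g, ∀ v w, ⟪P' y v, w⟫ = ⟪v, P' y w⟫
  eq : ∀ x ∈ X, P' (jj g x) = Qd Tr N x

/-- the descended doubled objects, with orientation -/
structure Dsc2 (ι : Type) [Fintype ι] [DecidableEq ι] (X : Set E) (g : E → Fin m → ℂ)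
    (φ : ℝ → E → E) (R : ℝ → EuclideanSpace ℝ a →L[ℝ] EuclideanSpace ℝ a) (w : ℝ)
    (N : E → EuclideanSpace ℝ a →L[ℝ] EuclideanSpace ℝ a)
    (T₂ : E → EuclideanSpace ℝ (a ⊕ a) →L[ℝ] EuclideanSpace ℝ q)
    (P₂ : MM m → EuclideanSpace ℝ q →L[ℝ] EuclideanSpace ℝ q) (W₂ : MM m → (ι × Fin 2 → q) → ℝ) :
    Prop where
  triv : Triv X φ (R2 R w) T₂
  smP : ContDiff ℝ ∞ P₂
  smW : ContDiff ℝ ∞ W₂
  or : OR (ι := ι) (Quo X g) P₂ W₂
  eqP : ∀ x ∈ X, P₂ (jj g x) = Qd T₂ (NN N) x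
  eqW : ∀ x ∈ X, W₂ (jj g x) = Wd T₂ (Wc ι N) x


theorem EqF.exists_dsc2 (h : EqF X φ R (Fintype.card ι) N) (hg : Emb X φ g) (hC : Cir X φ)
    (hX : Clo (d + 1) X) (hw : ∃ k : ℤ, w = k) :
    ∃ (q : ℕ) (T₂ : E → EuclideanSpace ℝ (a ⊕ a) →L[ℝ] EuclideanSpace ℝ (Fin q))
      (P₂ : MM m → EuclideanSpace ℝ (Fin q) →L[ℝ] EuclideanSpace ℝ (Fin q))
      (W₂ : MM m → (ι × Fin 2 → Fin q) → ℝ), Dsc2 ι X g φ R w N T₂ P₂ W₂ := by
  obtain ⟨q, T₂, P₂, W₂, h1, h2, h3, h4, h5, h6⟩ :=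
    hg.exists_quotient_field hC hX (rep_R2 h.rep hw) (h.or (ι := ι)) (h.eq₂ w)
  exact ⟨q, T₂, P₂, W₂, h1, h2, h3, h4, h5, h6⟩

/-- rank of the descended doubled field -/
theorem Dsc2.pfield {P₂ : MM m → EuclideanSpace ℝ q →L[ℝ] EuclideanSpace ℝ q}
    {W₂ : MM m → (ι × Fin 2 → q) → ℝ} (h : Dsc2 ι X g φ R w N T₂ P₂ W₂)
    (hN : EqF X φ R (Fintype.card ι) N) :
    PField (Quo X g) (Fintype.card ι + Fintype.card ι) P₂ :=
  h.triv.pfield_desc (pfield_NN hN.pf) (fun x _ => h.smP.contDiffAt) h.eqP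

end dd2

end Crest.Agent.R208.DD
end
end

-- ▼ part R208/DD3

/-! Row 208, block DD (helper683).  DD3: the doubled bundle over `US G` and over `US G × S^(2k+1)`;
Chern forms of the descended fields over `B'` are pulled back from `B`. -/

set_option autoImplicit false
set_option linter.unusedSectionVars false
set_option linter.unusedVariables false
set_option linter.unusedSimpArgs false

open Set Filter Topology Module MeasureTheory Matrix
open scoped ContDiff RealInnerProductSpace ComplexConjugate Kronecker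
open Crest.Agent.R208.F Crest.Agent.R208.FI Crest.Agent.R208.CW
open Crest.Agent.R208.CM
open Crest.Agent.R208.T
open Crest.Agent.R208.EW

noncomputable section

namespace Crest.Agent.R208.DD

/-! ### comparison of two quotients -/
section map
variable {E E' : Type} [NormedAddCommGroup E] [NormedSpace ℝ E] [FiniteDimensional ℝ E]
  [NormedAddCommGroup E'] [NormedSpace ℝ E'] [FiniteDimensional ℝ E']
  {a p₁ p₂ : Type} [Fintype a] [DecidableEq a] [Fintype p₁] [DecidableEq p₁] [Fintype p₂]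
  [DecidableEq p₂]
  {X : Set E} {φ : ℝ → E → E} {m m' d d' r : ℕ} {g : E → Fin m → ℂ}
  {X' : Set E'} {φ' : ℝ → E' → E'} {g' : E' → Fin m' → ℂ} {f : E' → E} {p : MM m' → MM m} {c : ℝ}
  {R : ℝ → EuclideanSpace ℝ a →L[ℝ] EuclideanSpace ℝ a}
  {N : E → EuclideanSpace ℝ a →L[ℝ] EuclideanSpace ℝ a}
  {Tr : E → EuclideanSpace ℝ a →L[ℝ] EuclideanSpace ℝ p₁}
  {P' : MM m → EuclideanSpace ℝ p₁ →L[ℝ] EuclideanSpace ℝ p₁}
  {Tr' : E' → EuclideanSpace ℝ a →L[ℝ] EuclideanSpace ℝ p₂}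
  {P'' : MM m' → EuclideanSpace ℝ p₂ →L[ℝ] EuclideanSpace ℝ p₂}

/-- pull back of an equivariant field along a map intertwining the actions up to the speed `c` -/
theorem EqF.pull (h : EqF X φ R r N) (hR' : Rep fun t => R (c * t)) (hf : SMap X' X f)
    (hfc : ∀ z ∈ X', ∀ t, f (φ' t z) = φ (c * t) (f z)) :
    EqF X' φ' (fun t => R (c * t)) r (fun z => N (f z)) where
  rep := hR'
  pf := ⟨fun z hz => (h.pf.smooth _ (hf.maps hz)).comp z (hf.smooth z hz),
    fun z hz => h.pf.idem _ (hf.maps hz), fun z hz => h.pf.rank _ (hf.maps hz)⟩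
  sy z hz := h.sy _ (hf.maps hz)
  eq z hz t v := by rw [hfc z hz t]; exact h.eq _ (hf.maps hz) (c * t) v







end map

/-! ### existence with a free rank -/
section ex
variable {E : Type} [NormedAddCommGroup E] [NormedSpace ℝ E] [FiniteDimensional ℝ E]
  {a ι : Type} [Fintype a] [DecidableEq a] [Fintype ι] [DecidableEq ι]
  {X : Set E} {φ : ℝ → E → E} {m d r : ℕ} {g : E → Fin m → ℂ}
  {R : ℝ → EuclideanSpace ℝ a →L[ℝ] EuclideanSpace ℝ a} {w : ℝ}
  {N : E → EuclideanSpace ℝ a →L[ℝ] EuclideanSpace ℝ a}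



end ex

/-! ### the half-weight construction -/
section hd
variable {k : ℕ} {E : Type} [NormedAddCommGroup E] [NormedSpace ℝ E] [FiniteDimensional ℝ E]
  {a p₁ p₂ : Type} [Fintype a] [DecidableEq a] [Fintype p₁] [DecidableEq p₁] [Fintype p₂]
  [DecidableEq p₂]
  {X : Set E} {φ : ℝ → E → E} {n m m' r : ℕ} {g : E → Fin m → ℂ} {g' : E × HW.U k → Fin m' → ℂ}
  {p : MM m' → MM m} {R : ℝ → EuclideanSpace ℝ a →L[ℝ] EuclideanSpace ℝ a}
  {N : E → EuclideanSpace ℝ a →L[ℝ] EuclideanSpace ℝ a}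
  {Tr : E → EuclideanSpace ℝ a →L[ℝ] EuclideanSpace ℝ p₁}
  {P' : MM m → EuclideanSpace ℝ p₁ →L[ℝ] EuclideanSpace ℝ p₁}
  {Tr' : E × HW.U k → EuclideanSpace ℝ a →L[ℝ] EuclideanSpace ℝ p₂}
  {P'' : MM m' → EuclideanSpace ℝ p₂ →L[ℝ] EuclideanSpace ℝ p₂}
  {al : E × HW.U k → Ext (E × HW.U k)} {Fc : MM m' → Ext (MM m')}

/-- the field over `X' = X × S^(2k+1)` -/
theorem EqF.xx (h : EqF X φ R r N) (k : ℕ) :
    EqF (HW.XX X k) (HW.ph k φ) (fun t => R (2 * t)) r (fun z => N z.1) :=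
  h.pull h.rep.two HW.smap_fst fun z _ t => rfl





end hd

/-! ### the unit tangent bundle -/
section us
open Crest.GeometryTopology.Submanifold
open Crest.Agent.R241.DDefs
open Crest.Agent.R241.D2
open Crest.Agent.R208.NN

variable {n N K r : ℕ} {κ δ : ℝ} {S : Set (Euc N)} {G : Geo n N κ S}
  {PN : Euc N × Euc N → Wt N K →L[ℝ] Wt N K}

/-- the negative bundle as an equivariant field over `US G` -/
theorem eqF_US (H : NB.NegB G r (nuP K) δ PN) :
    EqF (L.US G) (gf G) (fun s => (Rt (nuP K) s : Wt N K →L[ℝ] Wt N K)) r PN where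
  rep := NB.rep_per N K
  pf := ⟨H.smooth, fun z _ => H.idem z, H.rank⟩
  sy z _ := H.sy z
  eq z hz t v := H.equi z hz t v

end us

end Crest.Agent.R208.DD

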