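import Mathlib

/-!
# R208, gap (A) (k = 8, m = 2): the Diophantine endgame

Input (posts #11064 (3), #11093 (4)): the two coefficient equations of the doubling identity
`(E)`, with `β` the (integer) coefficient, `G`, `η` rational and `k = ±1` the orientation sign.
Output: `β = -12`, hence `i(M) = 39`.
-/

namespace Crest.Agent.R208.DIO

/-- Newton iteration with fuel, used only to produce a witness. -/
def newton (n : ℕ) : ℕ → ℕ → ℕ
  | 0, x => x
  | k + 1, x => newton n k ((x + n / x) / 2)

/-- `n` lies strictly between two consecutive squares. -/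
def between (n r : ℕ) : Bool := decide (r * r < n) && decide (n < (r + 1) * (r + 1))

theorem not_sq_of_between {n r : ℕ} (h : between n r = true) (y : ℤ) : y ^ 2 ≠ (n : ℤ) := by
  intro hy
  simp only [between, Bool.and_eq_true, decide_eq_true_eq] at h
  obtain ⟨h1, h2⟩ := h
  have hy' : (y.natAbs) ^ 2 = n := by
    have : ((y.natAbs : ℤ)) ^ 2 = (n : ℤ) := by rw [Int.natAbs_sq]; exact hy
    exact_mod_cast this
  rw [← hy'] at h1 h2
  have h1' : r * r < y.natAbs * y.natAbs := by simpa [sq] using h1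
  have h2' : y.natAbs * y.natAbs < (r + 1) * (r + 1) := by simpa [sq] using h2
  have a1 : r < y.natAbs := Nat.mul_self_lt_mul_self_iff.mp h1'
  have a2 : y.natAbs < r + 1 := Nat.mul_self_lt_mul_self_iff.mp h2'
  omega

theorem not_sq_of_between_int {n a : ℤ} (ha : 0 ≤ a) (h1 : a ^ 2 < n) (h2 : n < (a + 1) ^ 2)
    (y : ℤ) : y ^ 2 ≠ n := by
  intro hy
  rw [← hy] at h1 h2
  have a1 : |a| < |y| := sq_lt_sq.mp h1
  have a2 : |y| < |a + 1| := sq_lt_sq.mp h2
  rw [abs_of_nonneg ha] at a1
  rw [abs_of_nonneg (by omega : (0 : ℤ) ≤ a + 1)] at a2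
  omega

/-! ### sign `+1` -/

def E1 (c : ℤ) : ℤ := 441 * c ^ 4 + 4032 * c ^ 3 + 3558 * c ^ 2 - 216 * c + 175617

/-- witness close to the root -/
def wit1 (c : ℤ) : ℕ :=
  newton (E1 c).toNat 8 (21 * c.natAbs * c.natAbs + 96 * c.natAbs + 500)

def ok1 (c : ℤ) : Bool :=
  decide (c = -6) || (decide (0 ≤ E1 c) && between (E1 c).toNat (wit1 c))

theorem all1 : (List.range 3100).all (fun n : ℕ => ok1 ((n : ℤ) - 2200)) = true := by
  decide +kernel

theorem sq_E1 {c y : ℤ} (h : y ^ 2 = E1 c) : c = -6 := by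
  by_contra hc
  rcases lt_or_ge c (-2200) with h1 | h1
  · refine not_sq_of_between_int (a := 21 * c ^ 2 + 96 * c - 135) ?_ ?_ ?_ y h
    · nlinarith
    · unfold E1; nlinarith
    · unfold E1; nlinarith
  · rcases lt_or_ge c 900 with h2 | h2
    · have := List.all_eq_true.mp all1 (c + 2200).toNat (by
        rw [List.mem_range]; omega)
      have e : (((c + 2200).toNat : ℕ) : ℤ) - 2200 = c := by omega
      simp only [e, ok1, Bool.or_eq_true, Bool.and_eq_true, decide_eq_true_eq] at this
      rcases this with h3 | ⟨h3, h4⟩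
      · exact hc h3
      · refine not_sq_of_between h4 y ?_
        rw [h, Int.toNat_of_nonneg h3]
    · refine not_sq_of_between_int (a := 21 * c ^ 2 + 96 * c - 135) ?_ ?_ ?_ y h
      · nlinarith
      · unfold E1; nlinarith
      · unfold E1; nlinarith

/-! ### sign `-1` -/

def E2 (c : ℤ) : ℤ := (149 * c ^ 2 - 96 * c + 255) ^ 2 + 12 * (3 - 2 * c) * (3072 - 4778 * c)

def wit2 (c : ℤ) : ℕ :=
  newton (E2 c).toNat 8 (149 * c.natAbs * c.natAbs + 96 * c.natAbs + 1500)

def ok2 (c : ℤ) : Bool := (decide (0 ≤ E2 c) && between (E2 c).toNat (wit2 c))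

theorem all2 : (List.range 3800).all (fun n : ℕ => ok2 ((n : ℤ) - 3000)) = true := by
  decide +kernel

theorem sq_E2 {c y : ℤ} (h : y ^ 2 = E2 c) : False := by
  rcases lt_or_ge c (-3000) with h1 | h1
  · refine not_sq_of_between_int (a := 149 * c ^ 2 - 96 * c + 255 + 384) ?_ ?_ ?_ y h
    · nlinarith
    · unfold E2; nlinarith
    · unfold E2; nlinarith
  · rcases lt_or_ge c 800 with h2 | h2
    · have := List.all_eq_true.mp all2 (c + 3000).toNat (by
        rw [List.mem_range]; omega)
      have e : (((c + 3000).toNat : ℕ) : ℤ) - 3000 = c := by omega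
      simp only [e, ok2, Bool.and_eq_true, decide_eq_true_eq] at this
      obtain ⟨h3, h4⟩ := this
      refine not_sq_of_between h4 y ?_
      rw [h, Int.toNat_of_nonneg h3]
    · refine not_sq_of_between_int (a := 149 * c ^ 2 - 96 * c + 255 + 384) ?_ ?_ ?_ y h
      · nlinarith
      · unfold E2; nlinarith
      · unfold E2; nlinarith

/-- a rational square that is an integer is an integer square -/
theorem exists_int_sq {q : ℚ} {n : ℤ} (h : q ^ 2 = n) : ∃ y : ℤ, y ^ 2 = n := by
  have h1 : q.den = 1 := by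
    have h2 : (q ^ 2).den = 1 := by rw [h]; exact Rat.den_intCast n
    rw [Rat.den_pow] at h2
    exact (Nat.pow_eq_one.mp h2).resolve_right (by norm_num)
  refine ⟨q.num, ?_⟩
  have h3 : (q.num : ℚ) = q := by
    conv_rhs => rw [← Rat.num_div_den q, h1]
    simp
  exact_mod_cast (show ((q.num : ℚ)) ^ 2 = (n : ℚ) by rw [h3, h])




end Crest.Agent.R208.DIO

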