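import Crest.Agent.R208.EX7
import Crest.Agent.R208.TP5

/-! Row 208, (8,2), block EA (helper595).  EA1: from the natural primitive `η` (helper530) to the
identity `c₀ push₁ v₀ ~ pu₂ V * e₂` over the quotient (helper382's `TP.main'`): restriction of the
relative form to the zero section of `P₂`, descent, comparison with the form of the restricted
family. -/

set_option autoImplicit false
set_option linter.unusedSectionVars false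
set_option linter.unusedVariables false

open MeasureTheory Set Filter Topology Module
open scoped ContDiff RealInnerProductSpace
open Crest.GeometryTopology.Submanifold
open Crest.Agent.R241.DDefs Crest.Agent.R241.D Crest.Agent.R241.D2
open Crest.Agent.R208.F Crest.Agent.R208.FI Crest.Agent.R208.CW Crest.Agent.R208.T
open Crest.Agent.R208.CM
open Crest.Agent.R208.VC
open Crest.Agent.R208.EX
open Crest.Agent.R208.TP (QM TT CV pu₁ pu₂ push up)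
open Crest.Agent.R208.MS (Fam oc En)

noncomputable section

namespace Crest.Agent.R208.EA

variable {N : ℕ}
  {E E' : Type} [NormedAddCommGroup E] [NormedSpace ℝ E] [FiniteDimensional ℝ E]
  [NormedAddCommGroup E'] [NormedSpace ℝ E'] [FiniteDimensional ℝ E']
  {H₁ V₁ : Type} [NormedAddCommGroup H₁] [InnerProductSpace ℝ H₁] [FiniteDimensional ℝ H₁]
  [NormedAddCommGroup V₁] [InnerProductSpace ℝ V₁] [FiniteDimensional ℝ V₁]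
  {H₂ V₂ : Type} [NormedAddCommGroup H₂] [InnerProductSpace ℝ H₂] [FiniteDimensional ℝ H₂]
  [NormedAddCommGroup V₂] [InnerProductSpace ℝ V₂] [FiniteDimensional ℝ V₂]

/-- the geometric frame: `q : X → Y` the quotient by a circle action, two equivariant fields `P₁`
(rank `r₁`) and `P₂` (rank `r₂`) over `X` and their descents. -/
structure Frm (d dY r₁ r₂ : ℕ) (X : Set E) (φ : ℝ → E → E) (Y : Set E') (q : E → E')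
    (R₁ : ℝ → H₁ →L[ℝ] H₁) (T₁ : E → H₁ →L[ℝ] V₁) (P₁ : E → H₁ →L[ℝ] H₁) (P₁' : E' → V₁ →L[ℝ] V₁)
    (R₂ : ℝ → H₂ →L[ℝ] H₂) (T₂ : E → H₂ →L[ℝ] V₂) (P₂ : E → H₂ →L[ℝ] H₂)
    (P₂' : E' → V₂ →L[ℝ] V₂) : Prop where
  qm : QM X φ Y q
  h : Cir X φ
  hX : Sub d X
  hY : Sub dY Y
  R1 : Rep R₁
  R2 : Rep R₂
  T1 : Triv X φ R₁ T₁
  T2 : Triv X φ R₂ T₂
  p1 : PField X r₁ P₁
  p2 : PField X r₂ P₂
  e1 : ∀ x ∈ X, ∀ t w, P₁ (φ t x) (R₁ t w) = R₁ t (P₁ x w)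
  e2 : ∀ x ∈ X, ∀ t w, P₂ (φ t x) (R₂ t w) = R₂ t (P₂ x w)
  p1' : PField Y r₁ P₁'
  p2' : PField Y r₂ P₂'
  d1 : ∀ x ∈ X, P₁' (q x) = Qd T₁ P₁ x
  d2 : ∀ x ∈ X, P₂' (q x) = Qd T₂ P₂ x

variable {d dY r₁ r₂ : ℕ} {X : Set E} {φ : ℝ → E → E} {Y : Set E'} {q : E → E'}
  {R₁ : ℝ → H₁ →L[ℝ] H₁} {T₁ : E → H₁ →L[ℝ] V₁} {P₁ : E → H₁ →L[ℝ] H₁} {P₁' : E' → V₁ →L[ℝ] V₁}
  {R₂ : ℝ → H₂ →L[ℝ] H₂} {T₂ : E → H₂ →L[ℝ] V₂} {P₂ : E → H₂ →L[ℝ] H₂}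
  {P₂' : E' → V₂ →L[ℝ] V₂}

/-- the action on the total space of `P₂ ⊕ P₁` -/
def act₂ (φ : ℝ → E → E) (R₂ : ℝ → H₂ →L[ℝ] H₂) (R₁ : ℝ → H₁ →L[ℝ] H₁) :
    ℝ → (E × H₂) × H₁ → (E × H₂) × H₁ := phR (phR φ R₂) R₁

/-- the quotient map of the total space of `P₂ ⊕ P₁` -/
def Q₂ (q : E → E') (T₂ : E → H₂ →L[ℝ] V₂) (T₁ : E → H₁ →L[ℝ] V₁) :
    (E × H₂) × H₁ → (E' × V₂) × V₁ := Th (Th q T₂) (fun z : E × H₂ => T₁ z.1)

/-- the inclusion of the zero section of `P₂` -/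
def z₂ : E × H₁ → (E × H₂) × H₁ := up (zs (E := E) (H := H₂))


theorem contDiff_z₂ : ContDiff ℝ ∞ (z₂ (E := E) (H₁ := H₁) (H₂ := H₂)) := by
  show ContDiff ℝ ∞ fun z : E × H₁ => (((z.1, (0 : H₂)), z.2) : (E × H₂) × H₁)
  fun_prop

namespace Frm

variable (hF : Frm d dY r₁ r₂ X φ Y q R₁ T₁ P₁ P₁' R₂ T₂ P₂ P₂')

include hF

theorem contP1 : ContinuousOn P₁' Y := fun y hy =>
  (hF.p1'.smooth y hy).continuousAt.continuousWithinAt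
theorem contP2 : ContinuousOn P₂' Y := fun y hy =>
  (hF.p2'.smooth y hy).continuousAt.continuousWithinAt


theorem cir2 : Cir (TT X P₂ P₁) (act₂ φ R₂ R₁) :=
  Cir.tot (Cir.tot hF.h hF.R2 hF.e2) hF.R1 (P := fun z : E × H₂ => P₁ z.1)
    (fun z hz t w => hF.e1 z.1 hz.1 t w)


theorem qm2 : QM (TT X P₂ P₁) (act₂ φ R₂ R₁) (TT Y P₂' P₁') (Q₂ q T₂ T₁) :=
  TP.QM.tot₂ hF.qm hF.h hF.R1 hF.R2 hF.T1 hF.T2 hF.p1 hF.p2 hF.e1 hF.e2 hF.contP1 hF.contP2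
    hF.d1 hF.d2



theorem sub2 : Sub (d + r₂ + r₁) (TT X P₂ P₁) :=
  (TP.pfield_fst' (P₂ := P₂) hF.p1).sub_tot (hF.p2.sub_tot hF.hX)

theorem z₂_mem {z : E × H₁} (hz : z ∈ Tot X P₁) : z₂ (H₂ := H₂) z ∈ TT X P₂ P₁ :=
  ⟨⟨hz.1, map_zero _⟩, hz.2⟩



omit hF in
theorem z₂_act (t : ℝ) (z : E × H₁) :
    z₂ (H₂ := H₂) (phR φ R₁ t z) = act₂ φ R₂ R₁ t (z₂ z) := by
  show (((φ t z.1, (0 : H₂)), R₁ t z.2) : (E × H₂) × H₁) = ((φ t z.1, R₂ t 0), R₁ t z.2)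
  rw [map_zero]


end Frm

/-- the base point of the total space of `P₂ ⊕ P₁` -/
def b₂ (z : (E × H₂) × H₁) : E := z.1.1


/-- data of the level-two family -/
structure Fam2 (D : ED N) (X : Set E) (φ : ℝ → E → E) (R₁ : ℝ → H₁ →L[ℝ] H₁)
    (P₁ : E → H₁ →L[ℝ] H₁) (R₂ : ℝ → H₂ →L[ℝ] H₂) (P₂ : E → H₂ →L[ℝ] H₂) (R : ℝ)
    (f : (E × H₂) × H₁ → Euc N) (c : (E × H₂) × H₁ → ℝ) : Prop where
  fam : Fam D.S (TT X P₂ P₁) f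
  cs : ∀ z ∈ TT X P₂ P₁, ContDiffAt ℝ ∞ c z
  ci : ∀ z ∈ TT X P₂ P₁, ∀ t, c (act₂ φ R₂ R₁ t z) = c z
  en : ∀ z ∈ TT X P₂ P₁, 0 < c z → En (oc (act₂ φ R₂ R₁) f z) ≤ D.B
  out : ∀ z ∈ TT X P₂ P₁, (R < ‖z.2‖ ∨ R < ‖z.1.2‖) → 3 / 4 < c z
  con : ∀ z ∈ Tot X P₁, R < ‖z.2‖ → ∀ t, f (z₂ (phR φ R₁ t z)) = f (z₂ z)

section main
variable {D : ED N} {θ : E → Ext E} {f : (E × H₂) × H₁ → Euc N} {c : (E × H₂) × H₁ → ℝ} {R : ℝ}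
  {η : (E × H₂) × H₁ → Ext ((E × H₂) × H₁)}
  (hF : Frm d dY r₁ r₂ X φ Y q R₁ T₁ P₁ P₁' R₂ T₂ P₂ P₂') (hD : D.OK) (hθ : Cn X φ θ)
  (hf : Fam2 D X φ R₁ P₁ R₂ P₂ R f c)

include hF hθ in
/-- the connection on the total space of `P₂ ⊕ P₁` -/
theorem cn2 : Cn (TT X P₂ P₁) (act₂ φ R₂ R₁) (F.pull b₂ θ) :=
  hθ.pull (Act.of_cir hF.h) (Act.of_cir hF.cir2)
    ⟨fun z hz => contDiffAt_fst.comp z contDiffAt_fst, fun z hz => hz.1.1⟩ (fun t z hz => rfl)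




include hF hf in
theorem fam1 : Fam D.S (Tot X P₁) (fun z => f (z₂ z)) :=
  ⟨fun z hz => ContDiffAt.comp (g := f) z (hf.fam.smooth _ (hF.z₂_mem hz)) contDiff_z₂.contDiffAt,
    fun z hz => hf.fam.maps _ (hF.z₂_mem hz)⟩

include hF hf in
theorem cs1 : ∀ z ∈ Tot X P₁, ContDiffAt ℝ ∞ (fun z => c (z₂ z)) z := fun z hz =>
  ContDiffAt.comp (g := c) z (hf.cs _ (hF.z₂_mem hz)) contDiff_z₂.contDiffAt






end main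

section final
variable {D : ED N} {θ : E → Ext E} {f : (E × H₂) × H₁ → Euc N} {c : (E × H₂) × H₁ → ℝ} {R : ℝ}
  {η : (E × H₂) × H₁ → Ext ((E × H₂) × H₁)}
  [MeasurableSpace V₁] [BorelSpace V₁] (μ₁ : Measure V₁) [μ₁.IsAddHaarMeasure]
  [MeasurableSpace V₂] [BorelSpace V₂] (μ₂ : Measure V₂) [μ₂.IsAddHaarMeasure]
  {τ₁' : E' × V₁ → Ext (E' × V₁)} {τ₂ τ₂' : E' × V₂ → Ext (E' × V₂)} {e₂ : E' → Ext E'} {c₀ ρ : ℝ}
  {V : (E' × V₂) × V₁ → Ext ((E' × V₂) × V₁)} {v₀ : E' × V₁ → Ext (E' × V₁)}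


end final

end Crest.Agent.R208.EA
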