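import Mathlib
import Crest.Agent.R208.QA646
import Crest.Agent.R208.ZG4

-- ▼ part R208/BZ646
section

/-!
R208, type (8,2) (helper646): integrality of `b` and rationality of `q₁, q₂` from four Euler
numbers of sums of `N_C ⊗ L^a` and `L` over `CM`.
-/

set_option autoImplicit false

namespace Crest.Agent.R208.BZ

/-- the rational numbers as a subfield of `ℝ` -/
noncomputable def K : Subfield ℝ := (algebraMap ℚ ℝ).fieldRange

theorem mem_K {x : ℝ} : x ∈ K ↔ ∃ q : ℚ, x = q := by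
  unfold K
  rw [RingHom.mem_fieldRange]
  constructor
  · rintro ⟨q, h⟩
    exact ⟨q, by rw [← h]; simp⟩
  · rintro ⟨q, h⟩
    exact ⟨q, by rw [h]; simp⟩

theorem int_mem (n : ℤ) : (n : ℝ) ∈ K := mem_K.2 ⟨n, by simp⟩

theorem nat_mem (n : ℕ) : (n : ℝ) ∈ K := mem_K.2 ⟨n, by simp⟩



/-- class version.  `c7 a = c₇(N_C ⊗ L^a)`, `p₁ = q₁ e²`, `p₂ = q₂ e⁴ + 12 x`,
`p₃ = - e⁶ + b e² x`. -/
def c7 {A : Type*} [CommRing A] [Algebra ℝ A] (e x : A) (q1 q2 b a : ℝ) : A :=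
  (a ^ 7 - q1 * a ^ 5 + q2 * a ^ 3 + a) • e ^ 7 + (12 * a ^ 3 - b * a) • (e ^ 3 * x)



end Crest.Agent.R208.BZ
end

-- ▼ part R208/QB646
section

/-!
R208, type (8,2), block (Q2) (helper646): from the integrality outputs of block Q
(`β ∈ ℤ`, `2 n₀ ∈ ℤ`, `α + β n₀ ∈ ℤ`, `4 h₂ ∈ ℤ`), the Euler numbers `z₀, z₁, z₂` and the
doubling identity `(E)` to `|∫ e¹⁵| ≤ 78`, i.e. `i ≤ 39`.
-/

set_option autoImplicit false

namespace Crest.Agent.R208.QA

open DIO (exists_int_sq)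

/-! ### (Q2a) the possible values of `α` -/

theorem sq_mod16 (b : ℤ) (m : ℤ) (h : b ^ 2 = 16 * m + 8) : False := by
  have h1 : b ^ 2 % 16 = 8 := by omega
  have h2 : b % 16 = 0 ∨ b % 16 = 1 ∨ b % 16 = 2 ∨ b % 16 = 3 ∨ b % 16 = 4 ∨ b % 16 = 5 ∨
      b % 16 = 6 ∨ b % 16 = 7 ∨ b % 16 = 8 ∨ b % 16 = 9 ∨ b % 16 = 10 ∨ b % 16 = 11 ∨
      b % 16 = 12 ∨ b % 16 = 13 ∨ b % 16 = 14 ∨ b % 16 = 15 := by omega
  rcases h2 with h2 | h2 | h2 | h2 | h2 | h2 | h2 | h2 | h2 | h2 | h2 | h2 | h2 | h2 | h2 | h2 <;>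
    simp [pow_two, Int.mul_emod, h2] at h1

/-- `2/α = r`, `α + b m/2 = z` leave `α ∈ {±2, ±1, ±1/2}`; `h₀ ∈ ℤ` kills `±2`, and gives the
parity of `b`. -/
theorem alpha_cases {α h0 k : ℝ} {b : ℤ} (hk : k = 1 ∨ k = -1)
    (hh : 2 * α ^ 3 * h0 = k * ((b : ℝ) ^ 2 - 12 * α))
    (z0 : ∃ n : ℤ, h0 = n) (zr : ∃ r : ℤ, (r : ℝ) * α = 2)
    (zm : ∃ m z : ℤ, α + b * ((m : ℝ) / 2) = z) :
    ((α = 1 ∨ α = -1) ∧ Even b) ∨ ((α = 1 / 2 ∨ α = -1 / 2) ∧ Odd b) := by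
  obtain ⟨n, rfl⟩ := z0
  obtain ⟨r, hr⟩ := zr
  obtain ⟨m, z, hz⟩ := zm
  -- `2 α` is an integer
  have h2 : 2 * α = ((2 * z - b * m : ℤ) : ℝ) := by
    push_cast
    linarith
  set w : ℤ := 2 * z - b * m with hw
  have hrw : r * w = 4 := by
    have : (r : ℝ) * (w : ℝ) = 4 := by rw [← h2]; linarith
    exact_mod_cast this
  have hwd : w ∣ 4 := ⟨r, by rw [← hrw]; ring⟩
  have hw4 : w = 1 ∨ w = -1 ∨ w = 2 ∨ w = -2 ∨ w = 4 ∨ w = -4 := by
    have h3 : w.natAbs ∣ 4 := by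
      have := Int.natAbs_dvd_natAbs.2 hwd
      simpa using this
    have h4 : w.natAbs ≤ 4 := Nat.le_of_dvd (by norm_num) h3
    have h5 : w.natAbs ≠ 3 := by
      intro h
      rw [h] at h3
      omega
    have h6 : w.natAbs ≠ 0 := by
      intro h
      rw [h] at h3
      omega
    omega
  have hαw : α = (w : ℝ) / 2 := by linarith
  rcases hw4 with h | h | h | h | h | h
  · -- α = 1/2
    right
    refine ⟨Or.inl (by rw [hαw, h]; norm_num), ?_⟩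
    rw [← Int.not_even_iff_odd]
    rintro ⟨c, hc⟩
    have : (1 : ℤ) = 2 * z - (c + c) * m := by rw [← hc]; omega
    have h7 : (1 : ℤ) = 2 * (z - c * m) := by rw [this]; ring
    omega
  · right
    refine ⟨Or.inr (by rw [hαw, h]; norm_num), ?_⟩
    rw [← Int.not_even_iff_odd]
    rintro ⟨c, hc⟩
    have : (-1 : ℤ) = 2 * z - (c + c) * m := by rw [← hc]; omega
    have h7 : (-1 : ℤ) = 2 * (z - c * m) := by rw [this]; ring
    omega
  · left
    have hα : α = 1 := by rw [hαw, h]; norm_num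
    refine ⟨Or.inl hα, ?_⟩
    rw [hα] at hh
    have h8 : Even (b ^ 2) := by
      rcases hk with rfl | rfl
      · exact ⟨n + 6, by
          have : (b : ℝ) ^ 2 = 2 * n + 12 := by linarith
          have : b ^ 2 = 2 * n + 12 := by exact_mod_cast this
          omega⟩
      · exact ⟨-n + 6, by
          have : (b : ℝ) ^ 2 = -(2 * n) + 12 := by linarith
          have : b ^ 2 = -(2 * n) + 12 := by exact_mod_cast this
          omega⟩
    exact (Int.even_pow' (by norm_num)).1 h8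
  · left
    have hα : α = -1 := by rw [hαw, h]; norm_num
    refine ⟨Or.inr hα, ?_⟩
    rw [hα] at hh
    have h8 : Even (b ^ 2) := by
      rcases hk with rfl | rfl
      · exact ⟨-n - 6, by
          have : (b : ℝ) ^ 2 = -(2 * n) - 12 := by linarith
          have : b ^ 2 = -(2 * n) - 12 := by exact_mod_cast this
          omega⟩
      · exact ⟨n - 6, by
          have : (b : ℝ) ^ 2 = 2 * n - 12 := by linarith
          have : b ^ 2 = 2 * n - 12 := by exact_mod_cast this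
          omega⟩
    exact (Int.even_pow' (by norm_num)).1 h8
  · exfalso
    have hα : α = 2 := by rw [hαw, h]; norm_num
    rw [hα] at hh
    rcases hk with rfl | rfl
    · have : (b : ℝ) ^ 2 = 16 * n + 24 := by linarith
      have : b ^ 2 = 16 * n + 24 := by exact_mod_cast this
      exact sq_mod16 b (n + 1) (by omega)
    · have : (b : ℝ) ^ 2 = -(16 * n) + 24 := by linarith
      have : b ^ 2 = -(16 * n) + 24 := by exact_mod_cast this
      exact sq_mod16 b (-n + 1) (by omega)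
  · exfalso
    have hα : α = -2 := by rw [hαw, h]; norm_num
    rw [hα] at hh
    rcases hk with rfl | rfl
    · have : (b : ℝ) ^ 2 = -(16 * n) - 24 := by linarith
      have : b ^ 2 = -(16 * n) - 24 := by exact_mod_cast this
      exact sq_mod16 b (-n - 2) (by omega)
    · have : (b : ℝ) ^ 2 = 16 * n - 24 := by linarith
      have : b ^ 2 = 16 * n - 24 := by exact_mod_cast this
      exact sq_mod16 b (n - 2) (by omega)

/-! ### (Q2c) the discriminants -/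

/-- the square root of the discriminant is rational -/
theorem exists_rat_root {α κ G η : ℝ} {b : ℤ} (hκ : κ = 1 ∨ κ = -1) (hα : ∃ q : ℚ, α = q)
    (hG : ∃ q : ℚ, G = q)
    (e2 : 3 * G + (3 - (b : ℝ)) * η - (3 - b) * b / 4 = κ * (85 / 256) * ((b : ℝ) ^ 2 - 12 * α)) :
    ∃ q : ℚ, 3 * G - (3 - (b : ℝ)) * η = q := by
  obtain ⟨a, rfl⟩ := hα
  obtain ⟨g, rfl⟩ := hG
  rcases hκ with rfl | rfl
  · refine ⟨6 * g - (3 - b) * b / 4 - (85 / 256) * ((b : ℚ) ^ 2 - 12 * a), ?_⟩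
    push_cast
    linarith
  · refine ⟨6 * g - (3 - b) * b / 4 + (85 / 256) * ((b : ℚ) ^ 2 - 12 * a), ?_⟩
    push_cast
    linarith

theorem even_case {α κ G η : ℝ} {c : ℤ} (hκ : κ = 1 ∨ κ = -1) (hα : α = 1 ∨ α = -1)
    (hG : ∃ q : ℚ, G = q)
    (e1 : G * η - (3 - 2 * (c : ℝ)) * α / 4 = κ * (1365 / 4096) * α * (2 * c))
    (e2 : 3 * G + (3 - 2 * (c : ℝ)) * η - (3 - 2 * c) * (2 * c) / 4
      = κ * (85 / 256) * ((2 * (c : ℝ)) ^ 2 - 12 * α)) : c = -6 := by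
  obtain ⟨q, hq⟩ := exists_rat_root (b := 2 * c) hκ (α := α)
    (by rcases hα with rfl | rfl
        · exact ⟨1, by norm_num⟩
        · exact ⟨-1, by norm_num⟩) hG (η := η) (by push_cast; exact e2)
  push_cast at hq
  have e3 : (64 * (q : ℝ)) ^ 2
      = 4096 * ((3 * G + (3 - 2 * (c : ℝ)) * η) ^ 2 - 12 * (3 - 2 * c) * (G * η)) := by
    rw [← hq]; ring
  have key : ∀ E : ℤ, (64 * (q : ℝ)) ^ 2 = (E : ℝ) → ∃ y : ℤ, y ^ 2 = E := by
    intro E hE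
    refine exists_int_sq (q := 64 * q) ?_
    exact_mod_cast hE
  rcases hα with rfl | rfl <;> rcases hκ with rfl | rfl
  · obtain ⟨y, hy⟩ := key (P1 c) (by
      have f1 : G * η = (3 - 2 * (c : ℝ)) / 4 + (1365 / 4096) * (2 * c) := by linarith
      have f2 : 3 * G + (3 - 2 * (c : ℝ)) * η
          = (85 / 256) * ((2 * (c : ℝ)) ^ 2 - 12) + (3 - 2 * c) * (2 * c) / 4 := by linarith
      rw [e3, f1, f2]
      unfold P1
      push_cast
      ring)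
    exact sq_P1 hy
  · exfalso
    obtain ⟨y, hy⟩ := key (P2 c) (by
      have f1 : G * η = (3 - 2 * (c : ℝ)) / 4 - (1365 / 4096) * (2 * c) := by linarith
      have f2 : 3 * G + (3 - 2 * (c : ℝ)) * η
          = -(85 / 256) * ((2 * (c : ℝ)) ^ 2 - 12) + (3 - 2 * c) * (2 * c) / 4 := by linarith
      rw [e3, f1, f2]
      unfold P2
      push_cast
      ring)
    exact sq_P2 hy
  · obtain ⟨y, hy⟩ := key (DIO.E1 c) (by
      have f1 : G * η = -(3 - 2 * (c : ℝ)) / 4 - (1365 / 4096) * (2 * c) := by linarith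
      have f2 : 3 * G + (3 - 2 * (c : ℝ)) * η
          = (85 / 256) * ((2 * (c : ℝ)) ^ 2 + 12) + (3 - 2 * c) * (2 * c) / 4 := by linarith
      rw [e3, f1, f2]
      unfold DIO.E1
      push_cast
      ring)
    exact DIO.sq_E1 hy
  · exfalso
    obtain ⟨y, hy⟩ := key (DIO.E2 c) (by
      have f1 : G * η = -(3 - 2 * (c : ℝ)) / 4 + (1365 / 4096) * (2 * c) := by linarith
      have f2 : 3 * G + (3 - 2 * (c : ℝ)) * η
          = -(85 / 256) * ((2 * (c : ℝ)) ^ 2 + 12) + (3 - 2 * c) * (2 * c) / 4 := by linarith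
      rw [e3, f1, f2]
      unfold DIO.E2
      push_cast
      ring)
    exact DIO.sq_E2 hy

theorem odd_case {α κ G η : ℝ} {c : ℤ} (hκ : κ = 1 ∨ κ = -1) (hα : α = 1 / 2 ∨ α = -1 / 2)
    (hG : ∃ q : ℚ, G = q)
    (e1 : G * η - (3 - (2 * (c : ℝ) + 1)) * α / 4 = κ * (1365 / 4096) * α * (2 * c + 1))
    (e2 : 3 * G + (3 - (2 * (c : ℝ) + 1)) * η - (3 - (2 * c + 1)) * (2 * c + 1) / 4
      = κ * (85 / 256) * ((2 * (c : ℝ) + 1) ^ 2 - 12 * α)) : c = 1 := by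
  obtain ⟨q, hq⟩ := exists_rat_root (b := 2 * c + 1) hκ (α := α)
    (by rcases hα with rfl | rfl
        · exact ⟨1 / 2, by norm_num⟩
        · exact ⟨-1 / 2, by norm_num⟩) hG (η := η) (by push_cast; exact e2)
  push_cast at hq
  have e3 : (256 * (q : ℝ)) ^ 2 = 65536 * ((3 * G + (3 - (2 * (c : ℝ) + 1)) * η) ^ 2
      - 12 * (3 - (2 * c + 1)) * (G * η)) := by
    rw [← hq]; ring
  have key : ∀ E : ℤ, (256 * (q : ℝ)) ^ 2 = (E : ℝ) → ∃ y : ℤ, y ^ 2 = E := by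
    intro E hE
    refine exists_int_sq (q := 256 * q) ?_
    exact_mod_cast hE
  rcases hα with rfl | rfl <;> rcases hκ with rfl | rfl
  · obtain ⟨y, hy⟩ := key (H1 c) (by
      have f1 : G * η = (3 - (2 * (c : ℝ) + 1)) / 8 + (1365 / 8192) * (2 * c + 1) := by linarith
      have f2 : 3 * G + (3 - (2 * (c : ℝ) + 1)) * η
          = (85 / 256) * ((2 * (c : ℝ) + 1) ^ 2 - 6)
            + (3 - (2 * c + 1)) * (2 * c + 1) / 4 := by linarith
      rw [e3, f1, f2]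
      unfold H1
      push_cast
      ring)
    exact sq_H1 hy
  · obtain ⟨y, hy⟩ := key (H2 c) (by
      have f1 : G * η = (3 - (2 * (c : ℝ) + 1)) / 8 - (1365 / 8192) * (2 * c + 1) := by linarith
      have f2 : 3 * G + (3 - (2 * (c : ℝ) + 1)) * η
          = -(85 / 256) * ((2 * (c : ℝ) + 1) ^ 2 - 6)
            + (3 - (2 * c + 1)) * (2 * c + 1) / 4 := by linarith
      rw [e3, f1, f2]
      unfold H2
      push_cast
      ring)
    exact sq_H2 hy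
  · obtain ⟨y, hy⟩ := key (M1 c) (by
      have f1 : G * η = -(3 - (2 * (c : ℝ) + 1)) / 8 - (1365 / 8192) * (2 * c + 1) := by linarith
      have f2 : 3 * G + (3 - (2 * (c : ℝ) + 1)) * η
          = (85 / 256) * ((2 * (c : ℝ) + 1) ^ 2 + 6)
            + (3 - (2 * c + 1)) * (2 * c + 1) / 4 := by linarith
      rw [e3, f1, f2]
      unfold M1
      push_cast
      ring)
    exact sq_M1 hy
  · obtain ⟨y, hy⟩ := key (M2 c) (by
      have f1 : G * η = -(3 - (2 * (c : ℝ) + 1)) / 8 + (1365 / 8192) * (2 * c + 1) := by linarith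
      have f2 : 3 * G + (3 - (2 * (c : ℝ) + 1)) * η
          = -(85 / 256) * ((2 * (c : ℝ) + 1) ^ 2 + 6)
            + (3 - (2 * c + 1)) * (2 * c + 1) / 4 := by linarith
      rw [e3, f1, f2]
      unfold M2
      push_cast
      ring)
    exact sq_M2 hy

/-- **(Q2)**, scalar form. -/
theorem scalar_main {α h0 k κ G η : ℝ} {b : ℤ} (hk : k = 1 ∨ k = -1) (hκ : κ = 1 ∨ κ = -1)
    (hh : 2 * α ^ 3 * h0 = k * ((b : ℝ) ^ 2 - 12 * α))
    (hcase : ((α = 1 ∨ α = -1) ∧ Even b) ∨ ((α = 1 / 2 ∨ α = -1 / 2) ∧ Odd b))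
    (hG : ∃ q : ℚ, G = q)
    (e1 : G * η - (3 - (b : ℝ)) * α / 4 = κ * (1365 / 4096) * α * b)
    (e2 : 3 * G + (3 - (b : ℝ)) * η - (3 - b) * b / 4
      = κ * (85 / 256) * ((b : ℝ) ^ 2 - 12 * α)) : |h0| ≤ 78 := by
  rcases hcase with ⟨hα, c, hc⟩ | ⟨hα, c, hc⟩
  · have hc' : b = 2 * c := by omega
    subst hc'
    push_cast at e1 e2 hh
    have hc6 := even_case hκ hα hG e1 e2
    subst hc6
    rw [abs_le]
    rcases hα with rfl | rfl <;> rcases hk with rfl | rfl <;> push_cast at hh <;>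
      constructor <;> linarith
  · subst hc
    push_cast at e1 e2 hh
    have hc1 := odd_case hκ hα hG e1 e2
    subst hc1
    rw [abs_le]
    rcases hα with rfl | rfl <;> rcases hk with rfl | rfl <;> push_cast at hh <;>
      constructor <;> linarith

end Crest.Agent.R208.QA
end

-- ▼ part R208/QC646
section

/-!
R208, type (8,2), block (Q2) (helper646): class algebra for general `α`: the doubling identity
`(E)` in degree 22, rationality of `G` from two Euler numbers, and the composition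
`|∫ e¹⁵| ≤ 78`.
-/

set_option autoImplicit false

namespace Crest.Agent.R208.QA

open BZ (K mem_K int_mem nat_mem)

section Classes

variable {A : Type*} [CommRing A] [Algebra ℝ A]

/-- (Q2b): 243's `eqs_of_class` for `p₃(N) = α e⁶ + β e² x₀`. -/
theorem eqs_of_class (e x : A) (α b g η κ : ℝ) (hκ : κ = 1 ∨ κ = -1)
    (hlin : ∀ u v : ℝ, u • e ^ 11 + v • (e ^ 7 * x) = 0 → u = 0 ∧ v = 0)
    (hrel : (12 : ℝ) • (e ^ 3 * x ^ 2) = -(α • e ^ 11) - b • (e ^ 7 * x))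
    (hP : κ • (((1 / 2 : ℝ) • (g • e ^ 7 + (3 - b) • (e ^ 3 * x))) * (η • e ^ 4 + (3 : ℝ) • x))
      = ((4 - 1 / 1024) * (α * b / 24)) • e ^ 11
        + ((4 - 1 / 64) * ((b ^ 2 - 12 * α) / 24)) • (e ^ 7 * x)) :
    g * η - (3 - b) * α / 4 = κ * (1365 / 4096) * α * b ∧
    3 * g + (3 - b) * η - (3 - b) * b / 4 = κ * (85 / 256) * (b ^ 2 - 12 * α) := by
  have hκ2 : κ * κ = 1 := by rcases hκ with rfl | rfl <;> norm_num
  have h3 : e ^ 3 * x ^ 2 = (-(α / 12)) • e ^ 11 - (b / 12) • (e ^ 7 * x) := by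
    have := congrArg (fun z => (1 / 12 : ℝ) • z) hrel
    simp only [smul_smul, smul_sub, smul_neg] at this
    norm_num at this
    rw [this, neg_smul]
    congr 1
    · congr 2
      ring_nf
    · ring_nf
  have hexp : ((1 / 2 : ℝ) • (g • e ^ 7 + (3 - b) • (e ^ 3 * x))) * (η • e ^ 4 + (3 : ℝ) • x)
      = ((g * η - (3 - b) * α / 4) / 2) • e ^ 11
        + ((3 * g + (3 - b) * η - (3 - b) * b / 4) / 2) • (e ^ 7 * x) := by
    have : ((1 / 2 : ℝ) • (g • e ^ 7 + (3 - b) • (e ^ 3 * x))) * (η • e ^ 4 + (3 : ℝ) • x)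
        = ((g * η) / 2) • e ^ 11 + ((3 * g + (3 - b) * η) / 2) • (e ^ 7 * x)
          + (3 * (3 - b) / 2) • (e ^ 3 * x ^ 2) := by
      have t1 : e ^ 7 * e ^ 4 = e ^ 11 := by ring
      have t2 : e ^ 3 * x * e ^ 4 = e ^ 7 * x := by ring
      have t3 : e ^ 3 * x * x = e ^ 3 * x ^ 2 := by ring
      simp only [mul_add, add_mul, smul_add, smul_mul_assoc, mul_smul_comm, smul_smul, t1, t2, t3]
      module
    rw [this, h3]
    module
  rw [hexp] at hP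
  have h0 := hlin (κ * ((g * η - (3 - b) * α / 4) / 2) - (4 - 1 / 1024) * (α * b / 24))
    (κ * ((3 * g + (3 - b) * η - (3 - b) * b / 4) / 2)
      - (4 - 1 / 64) * ((b ^ 2 - 12 * α) / 24)) (by
      rw [smul_add, smul_smul, smul_smul] at hP
      rw [sub_smul, sub_smul]
      have := sub_eq_zero.2 hP
      rw [← this]
      module)
  obtain ⟨h1, h2⟩ := h0
  constructor
  · have : κ * (κ * ((g * η - (3 - b) * α / 4) / 2) - (4 - 1 / 1024) * (α * b / 24)) = 0 := by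
      rw [h1]; ring
    linear_combination 2 * this - (g * η - (3 - b) * α / 4) * hκ2
  · have : κ * (κ * ((3 * g + (3 - b) * η - (3 - b) * b / 4) / 2)
        - (4 - 1 / 64) * ((b ^ 2 - 12 * α) / 24)) = 0 := by
      rw [h2]; ring
    linear_combination 2 * this - (3 * g + (3 - b) * η - (3 - b) * b / 4) * hκ2

/-- `c₇(N_C ⊗ L^a)` with `p₁ = q₁ e²`, `p₂ = q₂ e⁴ + 12 x`, `p₃ = α e⁶ + b e² x`. -/
def c7 (e x : A) (q1 q2 α b a : ℝ) : A :=
  (a ^ 7 - q1 * a ^ 5 + q2 * a ^ 3 - α * a) • e ^ 7 + (12 * a ^ 3 - b * a) • (e ^ 3 * x)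


/-- `c₇(N_C ⊗ L^{1/2}) = (1/2) (G e⁷ + (3 - b) e³ x)` -/
theorem c7_half (e x : A) (q1 q2 α b : ℝ) :
    c7 e x q1 q2 α b (1 / 2)
      = (1 / 2 : ℝ) • ((1 / 64 - q1 / 16 + q2 / 4 - α) • e ^ 7 + (3 - b) • (e ^ 3 * x)) := by
  unfold c7
  rw [smul_add, smul_smul, smul_smul]
  congr 2
  · ring
  · ring

end Classes

/-- rationality of `q₁`, `q₂`, `G`, scalar form. -/
theorem rat_G {α h0 h1 q1 q2 : ℝ} {b : ℤ} (h00 : h0 ≠ 0) (kα : α ∈ K) (k0 : h0 ∈ K)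
    (k1 : h1 ∈ K)
    (z1 : ∃ n : ℤ, (1 - q1 + q2 - α) * h0 + (12 - (b : ℝ)) * h1 = n)
    (z2 : ∃ n : ℤ, (128 - 32 * q1 + 8 * q2 - 2 * α) * h0 + (96 - 2 * (b : ℝ)) * h1 = n) :
    (∃ q : ℚ, q1 = q) ∧ (∃ q : ℚ, q2 = q) ∧ ∃ q : ℚ, 1 / 64 - q1 / 16 + q2 / 4 - α = q := by
  obtain ⟨n1, z1⟩ := z1
  obtain ⟨n2, z2⟩ := z2
  have kn : ∀ n : ℕ, ((n : ℕ) : ℝ) ∈ K := nat_mem
  have kX : q1 ∈ K := by
    have h : q1 = ((8 * (n1 : ℝ) - n2 + 6 * b * h1) / h0 + 120 + 6 * α) / 24 := by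
      field_simp
      linarith
    rw [h]
    refine K.div_mem (K.add_mem (K.add_mem (K.div_mem (K.add_mem (K.sub_mem
      (K.mul_mem ?_ (int_mem _)) (int_mem _)) (K.mul_mem (K.mul_mem ?_ (int_mem _)) k1)) k0) ?_)
      (K.mul_mem ?_ kα)) ?_
    · exact_mod_cast kn 8
    · exact_mod_cast kn 6
    · exact_mod_cast kn 120
    · exact_mod_cast kn 6
    · exact_mod_cast kn 24
  have kY : q2 ∈ K := by
    have h : q2 = ((n1 : ℝ) - (12 - b) * h1) / h0 - 1 + q1 + α := by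
      field_simp
      linarith
    rw [h]
    refine K.add_mem (K.add_mem (K.sub_mem (K.div_mem (K.sub_mem (int_mem _)
      (K.mul_mem (K.sub_mem ?_ (int_mem _)) k1)) k0) K.one_mem) kX) kα
    exact_mod_cast kn 12
  refine ⟨mem_K.1 kX, mem_K.1 kY, mem_K.1 ?_⟩
  refine K.sub_mem (K.add_mem (K.sub_mem (K.div_mem K.one_mem ?_) (K.div_mem kX ?_))
    (K.div_mem kY ?_)) kα
  · exact_mod_cast kn 64
  · exact_mod_cast kn 16
  · exact_mod_cast kn 4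

/-- `β² = 12 α` has no solution in the cases at hand. -/
theorem h0_ne {α h0 k : ℝ} {b : ℤ} (hk : k = 1 ∨ k = -1)
    (hh : 2 * α ^ 3 * h0 = k * ((b : ℝ) ^ 2 - 12 * α))
    (hcase : ((α = 1 ∨ α = -1) ∧ Even b) ∨ ((α = 1 / 2 ∨ α = -1 / 2) ∧ Odd b)) : h0 ≠ 0 := by
  intro h0z
  rw [h0z, mul_zero] at hh
  have h1 : (b : ℝ) ^ 2 = 12 * α := by
    rcases hk with rfl | rfl <;> linarith
  rcases hcase with ⟨hα, c, hc⟩ | ⟨hα, c, hc⟩
  · rcases hα with rfl | rfl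
    · have : b ^ 2 = 12 := by exact_mod_cast (by rw [h1]; norm_num : (b : ℝ) ^ 2 = 12)
      rw [hc] at this
      have h2 : c ^ 2 = 3 := by nlinarith
      have h3 : c < 2 := by nlinarith
      have h4 : -2 < c := by nlinarith
      have h5 : c = -1 ∨ c = 0 ∨ c = 1 := by omega
      rcases h5 with h5 | h5 | h5 <;> rw [h5] at h2 <;> norm_num at h2
    · nlinarith [sq_nonneg (b : ℝ)]
  · rcases hα with rfl | rfl
    · have : b ^ 2 = 6 := by exact_mod_cast (by rw [h1]; norm_num : (b : ℝ) ^ 2 = 6)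
      have h3 : b < 3 := by nlinarith
      have h4 : -3 < b := by nlinarith
      have h5 : b = -2 ∨ b = -1 ∨ b = 0 ∨ b = 1 ∨ b = 2 := by omega
      rcases h5 with h5 | h5 | h5 | h5 | h5 <;> rw [h5] at this <;> norm_num at this
    · nlinarith [sq_nonneg (b : ℝ)]

/-- **(Q2), final form.**  `A = H(B)` (or its even part), `I = ∫_B`, `A' = H(B')` (any algebra
in which the doubling identity is written), `e, x` normalised integral classes.
Inputs: VE (`hrel`, `hx3`), (S1') (`hS`), block Q (`hβ`, `hn`, `hα`, `hr`), Euler numbers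
`z0, z1, z2` over `B`, the doubling identity `(E)` (`hP`). -/
theorem class_main {A A' : Type*} [CommRing A] [Algebra ℝ A] [CommRing A'] [Algebra ℝ A']
    (I : A →ₗ[ℝ] ℝ) {e x : A} {e' x' : A'} {α β n₀ q1 q2 g η κ : ℝ}
    (hrel : (12 : ℝ) • (e ^ 3 * x ^ 2) = -(α • e ^ 11) - β • (e ^ 7 * x))
    (hx3 : I (e ^ 3 * x ^ 3) = 0)
    (hS : |2 * α * I (e ^ 7 * x ^ 2)| = 1)
    (hβ : ∃ n : ℤ, β = n) (hn : ∃ n : ℤ, 2 * n₀ = n) (hα : ∃ n : ℤ, α + β * n₀ = n)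
    (hr : ∃ n : ℤ, 4 * I (e ^ 7 * x ^ 2) = n)
    (z0 : ∃ n : ℤ, I (e ^ 15) = n)
    (z1 : ∃ n : ℤ, I (e ^ 8 * c7 e x q1 q2 α β 1) = n)
    (z2 : ∃ n : ℤ, I (e ^ 8 * c7 e x q1 q2 α β 2) = n)
    (hg : g = 1 / 64 - q1 / 16 + q2 / 4 - α) (hκ : κ = 1 ∨ κ = -1)
    (hlin : ∀ u v : ℝ, u • e' ^ 11 + v • (e' ^ 7 * x') = 0 → u = 0 ∧ v = 0)
    (hrel' : (12 : ℝ) • (e' ^ 3 * x' ^ 2) = -(α • e' ^ 11) - β • (e' ^ 7 * x'))
    (hP : κ • (((1 / 2 : ℝ) • (g • e' ^ 7 + (3 - β) • (e' ^ 3 * x')))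
        * (η • e' ^ 4 + (3 : ℝ) • x'))
      = ((4 - 1 / 1024) * (α * β / 24)) • e' ^ 11
        + ((4 - 1 / 64) * ((β ^ 2 - 12 * α) / 24)) • (e' ^ 7 * x')) :
    |I (e ^ 15)| ≤ 78 := by
  obtain ⟨b, rfl⟩ := hβ
  obtain ⟨m, hm⟩ := hn
  obtain ⟨z, hz⟩ := hα
  obtain ⟨r, hr⟩ := hr
  -- the pairings
  have p1 : 12 * I (e ^ 7 * x ^ 2) = -(α * I (e ^ 15)) - b * I (e ^ 11 * x) := by
    have h := congrArg (fun y => I (e ^ 4 * y)) hrel
    simp only [mul_sub, mul_neg, mul_smul_comm, map_sub, map_neg, map_smul, smul_eq_mul] at h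
    rw [show e ^ 4 * (e ^ 3 * x ^ 2) = e ^ 7 * x ^ 2 by ring,
      show e ^ 4 * e ^ 11 = e ^ 15 by ring,
      show e ^ 4 * (e ^ 7 * x) = e ^ 11 * x by ring] at h
    exact h
  have p2 : α * I (e ^ 11 * x) + b * I (e ^ 7 * x ^ 2) = 0 := by
    have h := congrArg (fun y => I (x * y)) hrel
    simp only [mul_sub, mul_neg, mul_smul_comm, map_sub, map_neg, map_smul, smul_eq_mul] at h
    rw [show x * (e ^ 3 * x ^ 2) = e ^ 3 * x ^ 3 by ring,
      show x * e ^ 11 = e ^ 11 * x by ring,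
      show x * (e ^ 7 * x) = e ^ 7 * x ^ 2 by ring, hx3] at h
    linarith
  set h0 := I (e ^ 15) with hh0
  set h1 := I (e ^ 11 * x) with hh1
  set h2 := I (e ^ 7 * x ^ 2) with hh2
  set k : ℝ := 2 * α * h2 with hk0
  have hk : k = 1 ∨ k = -1 := by
    rcases abs_cases k with ⟨h, _⟩ | ⟨h, _⟩
    · left; linarith
    · right; linarith
  have hα0 : α ≠ 0 := by
    intro h
    rw [h] at hk0
    rcases hk with h' | h' <;> rw [h'] at hk0 <;> norm_num at hk0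
  have hh : 2 * α ^ 3 * h0 = k * ((b : ℝ) ^ 2 - 12 * α) := by
    rw [hk0]
    linear_combination (2 * α ^ 2) * p1 - 2 * α * (b : ℝ) * p2
  have zr : ∃ s : ℤ, (s : ℝ) * α = 2 := by
    rcases hk with h | h
    · exact ⟨r, by rw [← hr]; linarith⟩
    · exact ⟨-r, by push_cast; rw [← hr]; linarith⟩
  have hcase := alpha_cases hk hh z0 zr ⟨m, z, by rw [← hz, ← hm]; ring⟩
  have h00 := h0_ne hk hh hcase
  -- rationality
  have kα : α ∈ K := by
    rw [mem_K]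
    rcases hcase with ⟨rfl | rfl, _⟩ | ⟨rfl | rfl, _⟩
    · exact ⟨1, by norm_num⟩
    · exact ⟨-1, by norm_num⟩
    · exact ⟨1 / 2, by norm_num⟩
    · exact ⟨-1 / 2, by norm_num⟩
  have k4 : (4 : ℝ) ∈ K := by exact_mod_cast nat_mem 4
  have kh2 : h2 ∈ K := by
    have : h2 = (r : ℝ) / 4 := by linarith
    rw [this]
    exact K.div_mem (int_mem _) k4
  have kh1 : h1 ∈ K := by
    have : h1 = -((b : ℝ) * h2) / α := by
      field_simp
      linarith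
    rw [this]
    exact K.div_mem (K.neg_mem (K.mul_mem (int_mem _) kh2)) kα
  have kh0 : h0 ∈ K := by
    obtain ⟨n, hn⟩ := z0
    rw [hn]
    exact int_mem _
  have key : ∀ a : ℝ, I (e ^ 8 * c7 e x q1 q2 α b a)
      = (a ^ 7 - q1 * a ^ 5 + q2 * a ^ 3 - α * a) * h0 + (12 * a ^ 3 - b * a) * h1 := by
    intro a
    have : e ^ 8 * c7 e x q1 q2 α b a
        = (a ^ 7 - q1 * a ^ 5 + q2 * a ^ 3 - α * a) • e ^ 15
          + (12 * a ^ 3 - b * a) • (e ^ 11 * x) := by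
      simp only [c7, Algebra.smul_def]
      ring
    rw [this, map_add, map_smul, map_smul, smul_eq_mul, smul_eq_mul]
  obtain ⟨n1, z1⟩ := z1
  obtain ⟨n2, z2⟩ := z2
  rw [key] at z1 z2
  obtain ⟨-, -, hG⟩ := rat_G (q1 := q1) (q2 := q2) (b := b) h00 kα kh0 kh1
    ⟨n1, by rw [← z1]; ring⟩
    ⟨n2, by rw [← z2]; ring⟩
  rw [← hg] at hG
  obtain ⟨e1, e2⟩ := eqs_of_class e' x' α b g η κ hκ hlin hrel' hP
  exact scalar_main hk hκ hh hcase hG e1 e2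

end Crest.Agent.R208.QA
end

-- ▼ part R208/ZA1
section

/-!
R208, ZA1 (helper221): **the abstract endgame of `(k, n) = (8, 16)`** from forms on `B` (the
manifold of geodesics, dimension 30) and `B'` (the quotient of `US × S³¹`), all classes
unnormalised.
-/

set_option autoImplicit false
set_option linter.unusedSectionVars false

open MeasureTheory Set Filter Topology Module
open scoped ContDiff
open Crest.Agent.R208.F Crest.Agent.R208.FI Crest.Agent.R208.CW Crest.Agent.R208.T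
open Crest.Agent.R208.SO

noncomputable section

namespace Crest.Agent.R208.ZA

variable {EB EB' : Type} [NormedAddCommGroup EB] [NormedSpace ℝ EB] [FiniteDimensional ℝ EB]
  [NormedAddCommGroup EB'] [NormedSpace ℝ EB'] [FiniteDimensional ℝ EB']

/-- the first coefficient of `v` -/
def r1 (l t3 α β₁ : ℝ) : ℝ := 2 / 3 * l ^ 4 * t3 ^ 2 * α * β₁

/-- the second coefficient of `v` -/
def r2 (l t3 α β₁ : ℝ) : ℝ := 2 / 3 * l ^ 4 * t3 ^ 2 * β₁ ^ 2 - 2 * l ^ 2 * t3 * α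

/-- the fibre integral of `l' ξ Q - s e¹¹ ξ - t e⁷ a ξ` (812's `VE.main`), `n₁ = ∫ ξ`. -/
def ve (l n₁ l' s t : ℝ) (p3 x e : EB → Ext EB) : EB → Ext EB :=
  (-(l' * (2 * l ^ 2 * n₁))) • (p3 * x * e) - (s * n₁) • e ^ 11 - (t * n₁) • (x * e ^ 7)



section alg

variable {A : Type*} [CommRing A] [Algebra ℝ A]

theorem mon (a b : ℝ) (E X : A) (i j : ℕ) :
    (a • E) ^ i * (b • X) ^ j = (a ^ i * b ^ j) • (E ^ i * X ^ j) := by
  rw [smul_pow, smul_pow, smul_mul_smul_comm]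

/-- the relation `12 ê³ x̂² = -α ê¹¹ - β ê⁷ x̂` -/
theorem rel_norm {E X P3 : A} {l t3 α β₁ ν P : ℝ} (hP : P ≠ 0) (hν : ν ≠ 0)
    (h1 : (3 : ℝ) • (X * X) + (l ^ 2) • (E * E * P3) = 0)
    (h2 : P3 = t3 • (α • E ^ 6 + β₁ • (E ^ 2 * X))) (hnl : ν ^ 2 * l ^ 2 * t3 = 36) :
    (12 : ℝ) • ((P⁻¹ • E) ^ 3 * ((ν / (12 * P ^ 4)) • X) ^ 2) =
      -(α • (P⁻¹ • E) ^ 11) - (12 * β₁ / ν) • ((P⁻¹ • E) ^ 7 * ((ν / (12 * P ^ 4)) • X)) := by
  have rel0 : E ^ 3 * X ^ 2 = ((-(1 / 3)) * (l ^ 2 * t3 * α)) • E ^ 11 +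
      ((-(1 / 3)) * (l ^ 2 * t3 * β₁)) • (E ^ 7 * X) := by
    rw [h2] at h1
    have r0 : (3 : A) * algebraMap ℝ A (-(1 / 3)) = -1 := by
      rw [← map_ofNat (algebraMap ℝ A) 3, ← map_mul]
      norm_num
    simp only [Algebra.smul_def, map_mul, map_pow, map_ofNat] at h1 ⊢
    generalize algebraMap ℝ A (-(1 / 3)) = r at r0 ⊢
    linear_combination (-(r * E ^ 3)) * h1 + (E ^ 3 * X ^ 2) * r0
  have m1 := mon P⁻¹ (ν / (12 * P ^ 4)) E X 3 2
  have m2 := mon P⁻¹ (ν / (12 * P ^ 4)) E X 7 1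
  rw [pow_one, pow_one, pow_one] at m2
  rw [m1, m2, smul_pow, rel0, smul_add, smul_add, smul_smul, smul_smul, smul_smul, smul_smul,
    smul_smul, smul_smul, sub_eq_add_neg, ← neg_smul, ← neg_smul]
  have hl : l ^ 2 * t3 = 36 / ν ^ 2 := by
    field_simp
    linarith
  congr 2
  · rw [show l ^ 2 * t3 * α = 36 / ν ^ 2 * α by rw [← hl]]
    field_simp
    norm_num
  · rw [show l ^ 2 * t3 * β₁ = 36 / ν ^ 2 * β₁ by rw [← hl]]
    field_simp
    norm_num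

/-- `c₇(N_C ⊗ L^a)` in unnormalised classes -/
theorem tp_norm {E X : A} {q1 q2 α β₁ ν P : ℝ} (hP : P ≠ 0) (hν : ν ≠ 0) (a : ℝ) :
    (a ^ 7 - q1 * a ^ 5 + q2 * a ^ 3 - α * a) • E ^ 7 + (ν * a ^ 3 - β₁ * a) • (X * E ^ 3) =
      P ^ 7 • QA.c7 (P⁻¹ • E) ((ν / (12 * P ^ 4)) • X) q1 q2 α (12 * β₁ / ν) a := by
  have m2 := mon P⁻¹ (ν / (12 * P ^ 4)) E X 3 1
  rw [pow_one, pow_one, pow_one] at m2
  rw [QA.c7, m2, smul_pow, smul_add, smul_smul, smul_smul, smul_smul, smul_smul, mul_comm X]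
  have e1 : P ^ 7 * (a ^ 7 - q1 * a ^ 5 + q2 * a ^ 3 - α * a) * P⁻¹ ^ 7 =
      a ^ 7 - q1 * a ^ 5 + q2 * a ^ 3 - α * a := by
    field_simp
  have e2 : P ^ 7 * (12 * a ^ 3 - 12 * β₁ / ν * a) * (P⁻¹ ^ 3 * (ν / (12 * P ^ 4))) =
      ν * a ^ 3 - β₁ * a := by
    field_simp
  rw [e1, e2]

/-- `v` is exact on the level of classes -/
theorem ve_alg {E X P3 : A} {l t3 α β₁ : ℝ} (n : ℝ)
    (h1 : (3 : ℝ) • (X * X) + (l ^ 2) • (E * E * P3) = 0)
    (h2 : P3 = t3 • (α • E ^ 6 + β₁ • (E ^ 2 * X))) :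
    (2 * l ^ 2 * n) • (P3 * X * E) =
      -((r1 l t3 α β₁ * n) • E ^ 11) - (r2 l t3 α β₁ * n) • (X * E ^ 7) := by
  rw [h2] at h1 ⊢
  unfold r1 r2
  have r0 : (3 : A) * algebraMap ℝ A (2 / 3) = 2 := by
    rw [← map_ofNat (algebraMap ℝ A) 3, ← map_mul]
    norm_num [map_ofNat]
  simp only [Algebra.smul_def, map_mul, map_pow, map_sub, map_ofNat] at h1 ⊢
  generalize algebraMap ℝ A (2 / 3) = r at r0 ⊢
  generalize algebraMap ℝ A n = n
  generalize algebraMap ℝ A l = L at h1 ⊢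
  generalize algebraMap ℝ A t3 = t at h1 ⊢
  generalize algebraMap ℝ A α = a at h1 ⊢
  generalize algebraMap ℝ A β₁ = b at h1 ⊢
  linear_combination (r * L ^ 2 * n * t * b * E ^ 3) * h1 -
    (L ^ 2 * n * t * b * E ^ 3 * X ^ 2) * r0

/-- the doubled `v` in normalised classes -/
theorem ve_norm {E X P3 : A} {l t3 α β₁ ν P : ℝ} (n : ℝ) (hP : P ≠ 0) (hν : ν ≠ 0)
    (h1 : (3 : ℝ) • (X * X) + (l ^ 2) • (E * E * P3) = 0)
    (h2 : P3 = t3 • (α • E ^ 6 + β₁ • (E ^ 2 * X))) (hnl : ν ^ 2 * l ^ 2 * t3 = 36) :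
    (-(4 * (2 * l ^ 2 * n))) • (P3 * X * E) - (r1 l t3 α β₁ / 1024 * n) • E ^ 11
      - (r2 l t3 α β₁ / 64 * n) • (X * E ^ 7) =
    (n * 1728 / ν ^ 3 * P ^ 11) •
      (((4 - 1 / 1024) * (α * (12 * β₁ / ν) / 24)) • (P⁻¹ • E) ^ 11
        + ((4 - 1 / 64) * (((12 * β₁ / ν) ^ 2 - 12 * α) / 24)) •
          ((P⁻¹ • E) ^ 7 * ((ν / (12 * P ^ 4)) • X))) := by
  have m2 := mon P⁻¹ (ν / (12 * P ^ 4)) E X 7 1
  rw [pow_one, pow_one, pow_one] at m2
  have e0 : (-(4 * (2 * l ^ 2 * n))) • (P3 * X * E) = (-4 : ℝ) • ((2 * l ^ 2 * n) • (P3 * X * E)) := by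
    rw [smul_smul]; congr 1; ring
  have hl : l ^ 2 * t3 = 36 / ν ^ 2 := by
    field_simp
    linarith
  have hr1 : r1 l t3 α β₁ = 864 * α * β₁ / ν ^ 4 := by
    have : r1 l t3 α β₁ = 2 / 3 * (l ^ 2 * t3) ^ 2 * α * β₁ := by unfold r1; ring
    rw [this, hl]; field_simp; ring
  have hr2 : r2 l t3 α β₁ = 864 * β₁ ^ 2 / ν ^ 4 - 72 * α / ν ^ 2 := by
    have : r2 l t3 α β₁ = 2 / 3 * (l ^ 2 * t3) ^ 2 * β₁ ^ 2 - 2 * (l ^ 2 * t3) * α := by
      unfold r2; ring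
    rw [this, hl]; field_simp; ring
  rw [e0, ve_alg n h1 h2, m2, smul_pow, hr1, hr2, mul_comm X (E ^ 7)]
  rw [smul_add, smul_smul, smul_smul, smul_smul, smul_smul]
  have c1 : n * 1728 / ν ^ 3 * P ^ 11 * ((4 - 1 / 1024) * (α * (12 * β₁ / ν) / 24)) * P⁻¹ ^ 11 =
      4 * (864 * α * β₁ / ν ^ 4 * n) - 864 * α * β₁ / ν ^ 4 / 1024 * n := by
    field_simp
    ring
  have c2 : n * 1728 / ν ^ 3 * P ^ 11 * ((4 - 1 / 64) * (((12 * β₁ / ν) ^ 2 - 12 * α) / 24)) *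
      (P⁻¹ ^ 7 * (ν / (12 * P ^ 4))) =
      4 * ((864 * β₁ ^ 2 / ν ^ 4 - 72 * α / ν ^ 2) * n) -
        (864 * β₁ ^ 2 / ν ^ 4 - 72 * α / ν ^ 2) / 64 * n := by
    field_simp
    ring
  rw [c1, c2]
  module

end alg

/-- **the endgame on the level of classes.** -/
theorem alg_bound {A A' : Type*} [CommRing A] [Algebra ℝ A] [CommRing A'] [Algebra ℝ A']
    (I : A →ₗ[ℝ] ℝ) {E X P3 T1 T2 : A} {E' X' P3' U E2 : A'}
    {q1 q2 α β₁ ν P l t3 n₀ a1 a2 ε7 c₀ n₁ : ℝ} (hP0 : 0 < P) (hν : ν ≠ 0)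
    (hnl : ν ^ 2 * l ^ 2 * t3 = 36)
    (h3 : P3 = t3 • (α • E ^ 6 + β₁ • (E ^ 2 * X)))
    (hrel : (3 : ℝ) • (X * X) + (l ^ 2) • (E * E * P3) = 0)
    (h3' : P3' = t3 • (α • E' ^ 6 + β₁ • (E' ^ 2 * X')))
    (hrel' : (3 : ℝ) • (X' * X') + (l ^ 2) • (E' * E' * P3') = 0)
    (hx3 : I (E ^ 3 * X ^ 3) = 0)
    (hS : |2 * α * ν ^ 2 * I (E ^ 7 * X ^ 2)| = 144 * P ^ 15)
    (hβ : ∃ n : ℤ, 12 * β₁ / ν = n) (hn : ∃ n : ℤ, 2 * n₀ = n)
    (hα : ∃ n : ℤ, α + 12 * β₁ / ν * n₀ = n)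
    (hr : ∃ n : ℤ, ν ^ 2 * I (E ^ 7 * X ^ 2) = 36 * P ^ 15 * n)
    (z0 : ∃ n : ℤ, I (E ^ 15) = P ^ 15 * n)
    (hT1 : T1 = ((1 : ℝ) ^ 7 - q1 * 1 ^ 5 + q2 * 1 ^ 3 - α * 1) • E ^ 7 +
      (ν * 1 ^ 3 - β₁ * 1) • (X * E ^ 3))
    (hT2 : T2 = ((2 : ℝ) ^ 7 - q1 * 2 ^ 5 + q2 * 2 ^ 3 - α * 2) • E ^ 7 +
      (ν * 2 ^ 3 - β₁ * 2) • (X * E ^ 3))
    (z1 : ∃ n : ℤ, I (E ^ 8 * T1) = P ^ 15 * n) (z2 : ∃ n : ℤ, I (E ^ 8 * T2) = P ^ 15 * n)
    (hU : U = a1 • E' ^ 4 + a2 • X')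
    (hE2 : E2 = ε7 • (((1 / 2 : ℝ) ^ 7 - q1 * (1 / 2) ^ 5 + q2 * (1 / 2) ^ 3 - α * (1 / 2)) • E' ^ 7 +
      (ν * (1 / 2) ^ 3 - β₁ * (1 / 2)) • (X' * E' ^ 3)))
    (hκ : |ε7 * a2 * ν ^ 2| = 432 * |c₀ * n₁|) (hc : c₀ * n₁ ≠ 0)
    (hlin : ∀ u v : ℝ, u • E' ^ 11 + v • (E' ^ 7 * X') = 0 → u = 0 ∧ v = 0)
    (hPr : c₀ • ((-(4 * (2 * l ^ 2 * n₁))) • (P3' * X' * E')
      - (r1 l t3 α β₁ / 1024 * n₁) • E' ^ 11
      - (r2 l t3 α β₁ / 64 * n₁) • (X' * E' ^ 7)) = U * E2) :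
    |I (E ^ 15)| ≤ 78 * P ^ 15 := by
  have hP : P ≠ 0 := hP0.ne'
  have hP15 : (P ^ 15 : ℝ) ≠ 0 := pow_ne_zero _ hP
  set x : A := (ν / (12 * P ^ 4)) • X with hx
  set e : A := P⁻¹ • E with he
  set x' : A' := (ν / (12 * P ^ 4)) • X' with hx'
  set e' : A' := P⁻¹ • E' with he'
  set β : ℝ := 12 * β₁ / ν with hβd
  have ha2 : a2 ≠ 0 := by
    rintro rfl
    rw [mul_zero, zero_mul, abs_zero] at hκ
    exact hc (by simpa using hκ.symm)
  have k1 : ∀ i j : ℕ, e ^ i * x ^ j = (P⁻¹ ^ i * (ν / (12 * P ^ 4)) ^ j) • (E ^ i * X ^ j) :=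
    fun i j => mon _ _ _ _ _ _
  have i15 : I (e ^ 15) = I (E ^ 15) / P ^ 15 := by
    have := k1 15 0
    rw [pow_zero, pow_zero, pow_zero, mul_one, mul_one, mul_one] at this
    rw [this, map_smul, smul_eq_mul]
    field_simp
  have i7 : I (e ^ 7 * x ^ 2) = ν ^ 2 * I (E ^ 7 * X ^ 2) / (144 * P ^ 15) := by
    rw [k1 7 2, map_smul, smul_eq_mul]
    field_simp
    ring
  have i3 : I (e ^ 3 * x ^ 3) = 0 := by
    rw [k1 3 3, map_smul, hx3, smul_zero]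
  have ic : ∀ a : ℝ, I (e ^ 8 * QA.c7 e x q1 q2 α β a) =
      I (E ^ 8 * ((a ^ 7 - q1 * a ^ 5 + q2 * a ^ 3 - α * a) • E ^ 7 +
        (ν * a ^ 3 - β₁ * a) • (X * E ^ 3))) / P ^ 15 := by
    intro a
    rw [tp_norm hP hν a, mul_smul_comm, map_smul, smul_eq_mul, ← he, ← hx, ← hβd]
    generalize QA.c7 e x q1 q2 α β a = W
    rw [he, smul_pow, smul_mul_assoc, map_smul, smul_eq_mul]
    generalize I (E ^ 8 * W) = i
    field_simp
  have hmain := QA.class_main I (e := e) (x := x) (e' := e') (x' := x') (α := α) (β := β)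
    (n₀ := n₀) (q1 := q1) (q2 := q2) (g := 1 / 64 - q1 / 16 + q2 / 4 - α)
    (η := a1 * ν / (4 * a2)) (κ := ε7 * a2 * ν ^ 2 / (432 * (c₀ * n₁)))
    (rel_norm hP hν hrel h3 hnl) i3 (by
      rw [i7]
      have : 2 * α * (ν ^ 2 * I (E ^ 7 * X ^ 2) / (144 * P ^ 15)) =
        2 * α * ν ^ 2 * I (E ^ 7 * X ^ 2) / (144 * P ^ 15) := by ring
      rw [this, abs_div, hS, abs_of_pos (by positivity), div_self (by positivity)])
    hβ hn hα (by
      obtain ⟨n, hn⟩ := hr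
      refine ⟨n, ?_⟩
      rw [i7, hn]
      field_simp
      ring) (by
      obtain ⟨n, hn⟩ := z0
      refine ⟨n, ?_⟩
      rw [i15, hn]
      field_simp) (by
      obtain ⟨n, hn⟩ := z1
      refine ⟨n, ?_⟩
      rw [ic, ← hT1, hn]
      field_simp) (by
      obtain ⟨n, hn⟩ := z2
      refine ⟨n, ?_⟩
      rw [ic, ← hT2, hn]
      field_simp) rfl (by
      have h432 : (0 : ℝ) < 432 * |c₀ * n₁| := mul_pos (by norm_num) (abs_pos.2 hc)
      have : |ε7 * a2 * ν ^ 2 / (432 * (c₀ * n₁))| = 1 := by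
        rw [abs_div, hκ, abs_mul 432, abs_of_pos (by norm_num : (0 : ℝ) < 432), div_self h432.ne']
      rcases eq_or_eq_neg_of_abs_eq this with h | h
      · exact Or.inl h
      · exact Or.inr h) (by
      intro u v huv
      have := hlin (u * P⁻¹ ^ 11) (v * (P⁻¹ ^ 7 * (ν / (12 * P ^ 4)))) (by
        rw [← huv, he', hx', smul_pow, smul_smul]
        have m2 := mon P⁻¹ (ν / (12 * P ^ 4)) E' X' 7 1
        rw [pow_one, pow_one, pow_one] at m2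
        rw [m2, smul_smul])
      obtain ⟨hu, hv⟩ := this
      constructor
      · rcases mul_eq_zero.1 hu with h | h
        · exact h
        · exact absurd h (by positivity)
      · rcases mul_eq_zero.1 hv with h | h
        · exact h
        · exfalso
          revert h
          have : P⁻¹ ^ 7 * (ν / (12 * P ^ 4)) ≠ 0 := by
            refine mul_ne_zero (by positivity) (div_ne_zero hν (by positivity))
          exact this) (rel_norm hP hν hrel' h3' hnl) (by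
      rw [ve_norm n₁ hP hν hrel' h3' hnl] at hPr
      rw [tp_norm hP hν (1 / 2), QA.c7_half] at hE2
      have hU' : U = (4 * P ^ 4 * a2 / ν) • ((a1 * ν / (4 * a2)) • e' ^ 4 + (3 : ℝ) • x') := by
        have g1 : 4 * P ^ 4 * a2 / ν * (a1 * ν / (4 * a2) * P⁻¹ ^ 4) = a1 := by
          field_simp
        have g2 : 4 * P ^ 4 * a2 / ν * (3 * (ν / (12 * P ^ 4))) = a2 := by
          field_simp
          ring
        rw [hU, he', hx', smul_pow, smul_add, smul_smul 3,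
          smul_smul (a1 * ν / (4 * a2)), smul_smul, smul_smul, g1, g2]
      rw [← he', ← hx', ← hβd] at hPr hE2
      rw [hE2, hU'] at hPr
      generalize hQ : ((4 - 1 / 1024) * (α * β / 24)) • e' ^ 11 +
        ((4 - 1 / 64) * ((β ^ 2 - 12 * α) / 24)) • (e' ^ 7 * x') = Q at hPr ⊢
      generalize hV : (a1 * ν / (4 * a2)) • e' ^ 4 + (3 : ℝ) • x' = V at hPr ⊢
      generalize hW : (1 / 2 : ℝ) • ((1 / 64 - q1 / 16 + q2 / 4 - α) • e' ^ 7 +
        (3 - β) • (e' ^ 3 * x')) = W at hPr ⊢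
      rw [smul_smul, smul_smul, smul_mul_smul_comm, mul_comm V W] at hPr
      have hK : c₀ * (n₁ * 1728 / ν ^ 3 * P ^ 11) ≠ 0 := by
        have h1 : c₀ ≠ 0 := left_ne_zero_of_mul hc
        have h2 : n₁ ≠ 0 := right_ne_zero_of_mul hc
        positivity
      have hq : Q = (c₀ * (n₁ * 1728 / ν ^ 3 * P ^ 11))⁻¹ •
          ((4 * P ^ 4 * a2 / ν * (ε7 * P ^ 7)) • (W * V)) := by
        rw [← hPr, smul_smul, inv_mul_cancel₀ hK, one_smul]
      rw [hq, smul_smul]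
      congr 1
      have h1 : c₀ ≠ 0 := left_ne_zero_of_mul hc
      have h2 : n₁ ≠ 0 := right_ne_zero_of_mul hc
      field_simp
      ring)
  rw [i15, abs_div, abs_of_pos (by positivity : (0 : ℝ) < P ^ 15), div_le_iff₀ (by positivity)]
    at hmain
  exact hmain

end Crest.Agent.R208.ZA
end
end

-- ▼ part R208/ZA2

/-!
R208, ZA2 (helper221): **the endgame of `(k, n) = (8, 16)` from closed forms** on `B` (the manifold
of geodesics, dimension 30) and `B'` (the quotient of `US × S³¹`), unnormalised.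
-/

set_option autoImplicit false
set_option linter.unusedSectionVars false

open MeasureTheory Set Filter Topology Module
open scoped ContDiff
open Crest.Agent.R208.F Crest.Agent.R208.FI Crest.Agent.R208.CW Crest.Agent.R208.T
open Crest.Agent.R208.SO

noncomputable section

namespace Crest.Agent.R208.ZA

variable {EB EB' : Type*} [NormedAddCommGroup EB] [NormedSpace ℝ EB] [FiniteDimensional ℝ EB]
  [NormedAddCommGroup EB'] [NormedSpace ℝ EB'] [FiniteDimensional ℝ EB']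

section classes

variable {X : Set EB} {a b : EB → Ext EB}

theorem rcl_lin (r s : ℝ) (ha : EC X a) (hb : EC X b) :
    rcl ((ha.smul r).add (hb.smul s)) = r • rcl ha + s • rcl hb := by
  rw [rcl_add (ha.smul r) (hb.smul s), ZG.rcl_smul' r ha, ZG.rcl_smul' s hb]

end classes

/-- the classes of the forms `p₃`, `T a` -/
theorem rcl_p3 {X : Set EB} {e x p3 : EB → Ext EB} (he : EC X e) (hx : EC X x) (hp3 : EC X p3)
    {t3 α β₁ : ℝ} (h3 : Coh X p3 (t3 • (α • e ^ 6 + β₁ • (x * e ^ 2)))) :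
    rcl hp3 = t3 • (α • rcl he ^ 6 + β₁ • (rcl he ^ 2 * rcl hx)) := by
  have k2 : EC X (t3 • (α • e ^ 6 + β₁ • (x * e ^ 2))) :=
    (((he.pow 6).smul α).add ((hx.mul (he.pow 2)).smul β₁)).smul t3
  rw [rcl_congr hp3 k2 h3, ZG.rcl_smul' t3 (((he.pow 6).smul α).add ((hx.mul (he.pow 2)).smul β₁)),
    rcl_lin α β₁ (he.pow 6) (hx.mul (he.pow 2)), rcl_mul hx (he.pow 2), rcl_pow he, rcl_pow he,
    mul_comm (rcl hx)]

theorem rcl_rel {X : Set EB} {e x p3 : EB → Ext EB} (he : EC X e) (hx : EC X x) (hp3 : EC X p3)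
    {l : ℝ} (h : Coh X ((3 : ℝ) • (x * x) + (l ^ 2) • (p3 * (e * e))) 0) :
    (3 : ℝ) • (rcl hx * rcl hx) + (l ^ 2) • (rcl he * rcl he * rcl hp3) = 0 := by
  have k1 : EC X ((3 : ℝ) • (x * x) + (l ^ 2) • (p3 * (e * e))) :=
    ((hx.mul hx).smul 3).add ((hp3.mul (he.mul he)).smul _)
  have q1 := (rcl_eq_zero_iff k1).2 h
  rw [rcl_lin 3 (l ^ 2) (hx.mul hx) (hp3.mul (he.mul he)), rcl_mul hx hx,
    rcl_mul hp3 (he.mul he), rcl_mul he he, mul_comm (rcl hp3)] at q1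
  exact q1

theorem rcl_T {X : Set EB} {e x T : EB → Ext EB} (he : EC X e) (hx : EC X x) (hT : EC X T)
    {a b : ℝ} (h : Coh X T (a • e ^ 7 + b • (x * e ^ 3))) :
    rcl hT = a • rcl he ^ 7 + b • (rcl hx * rcl he ^ 3) := by
  have k2 : EC X (a • e ^ 7 + b • (x * e ^ 3)) := ((he.pow 7).smul a).add ((hx.mul (he.pow 3)).smul b)
  rw [rcl_congr hT k2 h, rcl_lin a b (he.pow 7) (hx.mul (he.pow 3)), rcl_mul hx (he.pow 3),
    rcl_pow he, rcl_pow he]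

/-- the right side of the doubling identity -/
def rhsE (l n₁ r s : ℝ) (p3 x e : EB → Ext EB) : EB → Ext EB :=
  (-(4 * (2 * l ^ 2 * n₁))) • (p3 * x * e) + (-(r / 1024 * n₁)) • e ^ 11
    + (-(s / 64 * n₁)) • (x * e ^ 7)

theorem ec_rhsE {X : Set EB} {e x p3 : EB → Ext EB} (he : EC X e) (hx : EC X x) (hp3 : EC X p3)
    (l n₁ r s : ℝ) : EC X (rhsE l n₁ r s p3 x e) :=
  ((((hp3.mul hx).mul he).smul _).add ((he.pow 11).smul _)).add ((hx.mul (he.pow 7)).smul _)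

theorem rcl_rhsE {X : Set EB} {e x p3 : EB → Ext EB} (he : EC X e) (hx : EC X x) (hp3 : EC X p3)
    (l n₁ r s : ℝ) : rcl (ec_rhsE he hx hp3 l n₁ r s) =
      (-(4 * (2 * l ^ 2 * n₁))) • (rcl hp3 * rcl hx * rcl he) - (r / 1024 * n₁) • rcl he ^ 11
        - (s / 64 * n₁) • (rcl hx * rcl he ^ 7) := by
  have e1 := rcl_add ((((hp3.mul hx).mul he).smul (-(4 * (2 * l ^ 2 * n₁)))).add
    ((he.pow 11).smul (-(r / 1024 * n₁)))) ((hx.mul (he.pow 7)).smul (-(s / 64 * n₁)))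
  rw [rcl_lin (-(4 * (2 * l ^ 2 * n₁))) (-(r / 1024 * n₁)) ((hp3.mul hx).mul he) (he.pow 11),
    ZG.rcl_smul' (-(s / 64 * n₁)) (hx.mul (he.pow 7)), rcl_mul (hp3.mul hx) he, rcl_mul hp3 hx,
    rcl_mul hx (he.pow 7), rcl_pow he, rcl_pow he] at e1
  refine Eq.trans e1 ?_
  module

set_option maxHeartbeats 1000000 in
/-- **the endgame of `(8, 2)` on forms.** -/
theorem bound {B : Set EB} {B' : Set EB'} {oB : EB → Ext EB} {p : EB' → EB}
    (hB : Clo 30 B) (ho : Ori 30 B oB) (sp : SMap B' B p)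
    (hinj : ∀ om η : EB → Ext EB, Sm B om → Sm B η → Cl B η → Coh B' (F.pull p om) 0 →
      J 30 B oB (om * η) = 0)
    {e x p3 T1 T2 Th : EB → Ext EB} (he : EC B e) (hx : EC B x) (hp3 : EC B p3)
    (hT1 : EC B T1) (hT2 : EC B T2) (hTh : EC B Th)
    {q1 q2 α β₁ ν l t3 n₀ a1 a2 ε7 c₀ n₁ : ℝ} (hν : ν ≠ 0) (hnl : ν ^ 2 * l ^ 2 * t3 = 36)
    (h3 : Coh B p3 (t3 • (α • e ^ 6 + β₁ • (x * e ^ 2))))
    (h1 : Coh B T1 (((1 : ℝ) ^ 7 - q1 * 1 ^ 5 + q2 * 1 ^ 3 - α * 1) • e ^ 7 +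
      (ν * 1 ^ 3 - β₁ * 1) • (x * e ^ 3)))
    (h2 : Coh B T2 (((2 : ℝ) ^ 7 - q1 * 2 ^ 5 + q2 * 2 ^ 3 - α * 2) • e ^ 7 +
      (ν * 2 ^ 3 - β₁ * 2) • (x * e ^ 3)))
    (hh : Coh B Th (((1 / 2 : ℝ) ^ 7 - q1 * (1 / 2) ^ 5 + q2 * (1 / 2) ^ 3 - α * (1 / 2)) • e ^ 7 +
      (ν * (1 / 2) ^ 3 - β₁ * (1 / 2)) • (x * e ^ 3)))
    (hrel : Coh B ((3 : ℝ) • (x * x) + (l ^ 2) • (p3 * (e * e))) 0)
    (hx3 : J 30 B oB (e ^ 3 * x ^ 3) = 0)
    (hS : |2 * α * ν ^ 2 * J 30 B oB (e ^ 7 * x ^ 2)| = 144 * (2 * Real.pi) ^ 15)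
    (hβ : ∃ n : ℤ, 12 * β₁ / ν = n) (hn : ∃ n : ℤ, 2 * n₀ = n)
    (hα : ∃ n : ℤ, α + 12 * β₁ / ν * n₀ = n)
    (hr : ∃ n : ℤ, ν ^ 2 * J 30 B oB (e ^ 7 * x ^ 2) = 36 * (2 * Real.pi) ^ 15 * n)
    (z0 : ∃ n : ℤ, J 30 B oB (e ^ 15) = (2 * Real.pi) ^ 15 * n)
    (z1 : ∃ n : ℤ, J 30 B oB (e ^ 8 * T1) = (2 * Real.pi) ^ 15 * n)
    (z2 : ∃ n : ℤ, J 30 B oB (e ^ 8 * T2) = (2 * Real.pi) ^ 15 * n)
    {u e2 : EB' → Ext EB'} (hu : EC B' u) (he2 : EC B' e2)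
    (hua : Coh B' u (F.pull p (a1 • e ^ 4 + a2 • x)))
    (he2T : Coh B' e2 (ε7 • F.pull p Th))
    (hκ : |ε7 * a2 * ν ^ 2| = 432 * |c₀ * n₁|) (hc : c₀ * n₁ ≠ 0)
    (hE : Coh B' (c₀ • F.pull p (rhsE l n₁ (r1 l t3 α β₁) (r2 l t3 α β₁) p3 x e)) (u * e2)) :
    |J 30 B oB (e ^ 15)| ≤ 78 * (2 * Real.pi) ^ 15 := by
  have iI : ∀ {a : EB → Ext EB} (ha : EC B a), ZG.intR hB ho (rcl ha) = J 30 B oB a :=
    fun ha => ZG.intR_rcl hB ho ha
  have m1 : ∀ i j : ℕ, J 30 B oB (e ^ i * x ^ j) = ZG.intR hB ho (rcl he ^ i * rcl hx ^ j) := by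
    intro i j
    rw [← iI ((he.pow i).mul (hx.pow j)), rcl_mul (he.pow i) (hx.pow j), rcl_pow he, rcl_pow hx]
  have m0 : J 30 B oB (e ^ 15) = ZG.intR hB ho (rcl he ^ 15) := by
    rw [← iI (he.pow 15), rcl_pow he]
  have m8 : ∀ {T : EB → Ext EB} (hT : EC B T), J 30 B oB (e ^ 8 * T) =
      ZG.intR hB ho (rcl he ^ 8 * rcl hT) := by
    intro T hT
    rw [← iI ((he.pow 8).mul hT), rcl_mul (he.pow 8) hT, rcl_pow he]
  -- classes on `B'`
  have he' : EC B' (F.pull p e) := he.pull sp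
  have hx' : EC B' (F.pull p x) := hx.pull sp
  have hp3' : EC B' (F.pull p p3) := hp3.pull sp
  have h3' : Coh B' (F.pull p p3)
      (t3 • (α • (F.pull p e) ^ 6 + β₁ • (F.pull p x * (F.pull p e) ^ 2))) := by
    have := h3.pull sp
    rwa [pull_smul', pull_add', pull_smul', pull_smul', pull_mul', pull_pow', pull_pow'] at this
  have hrel' : Coh B' ((3 : ℝ) • (F.pull p x * F.pull p x) +
      (l ^ 2) • (F.pull p p3 * (F.pull p e * F.pull p e))) 0 := by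
    have := hrel.pull sp
    rwa [pull_add', pull_smul', pull_smul', pull_mul', pull_mul', pull_mul', pull_zero'] at this
  have hua' : rcl hu = a1 • rcl he' ^ 4 + a2 • rcl hx' := by
    rw [pull_add', pull_smul', pull_smul', pull_pow'] at hua
    rw [rcl_congr hu (((he'.pow 4).smul a1).add (hx'.smul a2)) hua, rcl_lin a1 a2 (he'.pow 4) hx',
      rcl_pow he']
  have hE2 : rcl he2 = ε7 • ((((1 / 2 : ℝ) ^ 7 - q1 * (1 / 2) ^ 5 + q2 * (1 / 2) ^ 3 -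
      α * (1 / 2)) • rcl he' ^ 7 + (ν * (1 / 2) ^ 3 - β₁ * (1 / 2)) • (rcl hx' * rcl he' ^ 3))) := by
    have t1 := hh.pull sp
    rw [pull_add', pull_smul', pull_smul', pull_mul', pull_pow', pull_pow'] at t1
    have t2 := rcl_T he' hx' (hTh.pull sp) t1
    rw [rcl_congr he2 ((hTh.pull sp).smul ε7) he2T, ZG.rcl_smul' ε7 (hTh.pull sp), t2]
  have hPr : c₀ • ((-(4 * (2 * l ^ 2 * n₁))) • (rcl hp3' * rcl hx' * rcl he')
      - (r1 l t3 α β₁ / 1024 * n₁) • rcl he' ^ 11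
      - (r2 l t3 α β₁ / 64 * n₁) • (rcl hx' * rcl he' ^ 7)) = rcl hu * rcl he2 := by
    have t1 : F.pull p (rhsE l n₁ (r1 l t3 α β₁) (r2 l t3 α β₁) p3 x e) =
        rhsE l n₁ (r1 l t3 α β₁) (r2 l t3 α β₁) (F.pull p p3) (F.pull p x) (F.pull p e) := by
      unfold rhsE
      rw [pull_add', pull_add', pull_smul', pull_smul', pull_smul', pull_mul', pull_mul', pull_mul',
        pull_pow', pull_pow']
    rw [t1] at hE
    have t2 := rcl_congr ((ec_rhsE he' hx' hp3' l n₁ (r1 l t3 α β₁) (r2 l t3 α β₁)).smul c₀)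
      (hu.mul he2) hE
    rw [ZG.rcl_smul' c₀ (ec_rhsE he' hx' hp3' l n₁ (r1 l t3 α β₁) (r2 l t3 α β₁)),
      rcl_rhsE he' hx' hp3' l n₁ (r1 l t3 α β₁) (r2 l t3 α β₁), rcl_mul hu he2] at t2
    exact t2
  have hlin : ∀ u v : ℝ, u • rcl he' ^ 11 + v • (rcl he' ^ 7 * rcl hx') = 0 → u = 0 ∧ v = 0 := by
    intro a b hab
    have ew : EC B (a • e ^ 11 + b • (e ^ 7 * x)) :=
      ((he.pow 11).smul a).add (((he.pow 7).mul hx).smul b)
    have ew' : EC B' (a • (F.pull p e) ^ 11 + b • ((F.pull p e) ^ 7 * F.pull p x)) :=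
      ((he'.pow 11).smul a).add (((he'.pow 7).mul hx').smul b)
    have t1 : Coh B' (F.pull p (a • e ^ 11 + b • (e ^ 7 * x))) 0 := by
      rw [pull_add', pull_smul', pull_smul', pull_mul', pull_pow', pull_pow']
      refine (rcl_eq_zero_iff ew').1 ?_
      have := rcl_lin a b (he'.pow 11) ((he'.pow 7).mul hx')
      rw [rcl_mul (he'.pow 7) hx', rcl_pow he', rcl_pow he', hab] at this
      exact this
    have t2 : ∀ {η : EB → Ext EB} (hη : EC B η),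
        a * ZG.intR hB ho (rcl he ^ 11 * rcl hη) +
          b * ZG.intR hB ho (rcl he ^ 7 * rcl hx * rcl hη) = 0 := by
      intro η hη
      have := hinj _ η ew.sm hη.sm hη.cl t1
      rw [← iI (ew.mul hη), rcl_mul ew hη] at this
      have t3 := rcl_lin a b (he.pow 11) ((he.pow 7).mul hx)
      rw [rcl_mul (he.pow 7) hx, rcl_pow he, rcl_pow he] at t3
      have t4 : rcl ew = a • rcl he ^ 11 + b • (rcl he ^ 7 * rcl hx) := t3
      rw [t4, add_mul, smul_mul_assoc, smul_mul_assoc, map_add, map_smul, map_smul] at this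
      exact this
    have v1 := t2 (he.pow 4)
    have v2 := t2 hx
    rw [rcl_pow he] at v1
    -- the relations
    have r3 := rcl_p3 he hx hp3 h3
    have r4 := rcl_rel he hx hp3 hrel
    have hlt : l ^ 2 * t3 ≠ 0 := by
      intro h0
      rw [mul_assoc, h0, mul_zero] at hnl
      norm_num at hnl
    have h2ne : ZG.intR hB ho (rcl he ^ 7 * rcl hx ^ 2) ≠ 0 := by
      intro h0
      rw [m1, h0, mul_zero, abs_zero] at hS
      have : (0 : ℝ) < 144 * (2 * Real.pi) ^ 15 := by positivity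
      exact absurd hS this.ne
    rw [m1] at hx3
    generalize rcl he = E at *
    generalize rcl hx = X at *
    generalize rcl hp3 = Q at *
    have rel0 : (3 : ℝ) • (X ^ 2) + (l ^ 2 * t3 * α) • E ^ 8 + (l ^ 2 * t3 * β₁) • (E ^ 4 * X) = 0 := by
      rw [← r4, r3]
      simp only [Algebra.smul_def, map_mul, map_pow]
      ring
    have w1 : 3 * ZG.intR hB ho (E ^ 7 * X ^ 2) + l ^ 2 * t3 * α * ZG.intR hB ho (E ^ 15) +
        l ^ 2 * t3 * β₁ * ZG.intR hB ho (E ^ 11 * X) = 0 := by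
      have := congrArg (fun z => ZG.intR hB ho (E ^ 7 * z)) rel0
      simp only [mul_zero, map_zero, mul_add, mul_smul_comm, map_add, map_smul, smul_eq_mul] at this
      rw [show E ^ 7 * E ^ 8 = E ^ 15 by ring, show E ^ 7 * (E ^ 4 * X) = E ^ 11 * X by ring] at this
      exact this
    have w2 : 3 * ZG.intR hB ho (E ^ 3 * X ^ 3) + l ^ 2 * t3 * α * ZG.intR hB ho (E ^ 11 * X) +
        l ^ 2 * t3 * β₁ * ZG.intR hB ho (E ^ 7 * X ^ 2) = 0 := by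
      have := congrArg (fun z => ZG.intR hB ho (E ^ 3 * X * z)) rel0
      simp only [mul_zero, map_zero, mul_add, mul_smul_comm, map_add, map_smul, smul_eq_mul] at this
      rw [show E ^ 3 * X * X ^ 2 = E ^ 3 * X ^ 3 by ring,
        show E ^ 3 * X * E ^ 8 = E ^ 11 * X by ring,
        show E ^ 3 * X * (E ^ 4 * X) = E ^ 7 * X ^ 2 by ring] at this
      exact this
    rw [hx3, mul_zero, zero_add] at w2
    rw [show E ^ 11 * E ^ 4 = E ^ 15 by ring, show E ^ 7 * X * E ^ 4 = E ^ 11 * X by ring] at v1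
    rw [show E ^ 7 * X * X = E ^ 7 * X ^ 2 by ring] at v2
    generalize ZG.intR hB ho (E ^ 7 * X ^ 2) = i2 at *
    generalize ZG.intR hB ho (E ^ 15) = i0 at *
    generalize ZG.intR hB ho (E ^ 11 * X) = i1 at *
    have ha : a * (3 * i2) = 0 := by
      linear_combination a * w1 + b * w2 - (l ^ 2 * t3 * α) * v1 - (l ^ 2 * t3 * β₁) * v2
    have ha0 : a = 0 := (mul_eq_zero.1 ha).resolve_right (mul_ne_zero (by norm_num) h2ne)
    rw [ha0, zero_mul, zero_add] at v2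
    exact ⟨ha0, (mul_eq_zero.1 v2).resolve_right h2ne⟩
  rw [m0]
  rw [m1] at hx3 hS
  rw [m0] at z0
  simp only [m1] at hr
  rw [m8 hT1] at z1
  rw [m8 hT2] at z2
  exact alg_bound (ZG.intR hB ho) (n₀ := n₀) (a1 := a1) (a2 := a2) (ε7 := ε7) (c₀ := c₀)
    (n₁ := n₁) (l := l) (t3 := t3) (by positivity) hν hnl (rcl_p3 he hx hp3 h3)
    (rcl_rel he hx hp3 hrel) (rcl_p3 he' hx' hp3' h3') (rcl_rel he' hx' hp3' hrel') hx3 hS hβ hn hα
    hr z0 (rcl_T he hx hT1 h1) (rcl_T he hx hT2 h2) z1 z2 hua' hE2 hκ hc hlin hPr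

end Crest.Agent.R208.ZA
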