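import Crest.Agent.R208.EX12
import Crest.Agent.R208.TP8
import Crest.Agent.R208.TX9

-- ▼ part R208/EX13
section

/-!
R208, (8,2), block ED (helper530), part EX13: **the data `ED` of the level one family** over the
manifold of geodesics `B = Quo (US G) g`, from helper382's `DscO`, helper812's class side and
helper131's natural operators.
-/

set_option autoImplicit false
set_option linter.unusedSectionVars false
set_option linter.unusedVariables false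

open MeasureTheory Set Filter Topology Module
open scoped ContDiff RealInnerProductSpace Real
open Crest.GeometryTopology.Submanifold
open Crest.Agent.R241.DDefs Crest.Agent.R241.D Crest.Agent.R241.D2
open Crest.Agent.R208.F Crest.Agent.R208.FI Crest.Agent.R208.CW Crest.Agent.R208.T
open Crest.Agent.R208.CM (Cir gen Rep Triv Qd phR Th gf Emb Quo MM jj)
open Crest.Agent.R208.VC hiding Wt
open Crest.Agent.R208.MS (Fam oc En)
open Crest.Agent.R208.FL (D0 D1 Ph)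
open Crest.Agent.R208.NN (Wt Rt nuP)

noncomputable section

namespace Crest.Agent.R208.EX

variable {n N K k m c s s' nB p q : ℕ} {κ : ℝ} {S : Set (Euc N)} {G : Geo n N κ S}
  {lg : Euc N → Euc N → Euc N} {ρ : Euc N → Euc N} {r C r' Kr B w δ : ℝ}
  {PN : Euc N × Euc N → Wt N K →L[ℝ] Wt N K} {ε E₀ η₀ rr ss B' : ℝ} {J : ℕ}
  {om : Euc N → Ext (Euc N)} {θ0 : Euc N × Euc N → Ext (Euc N × Euc N)}
  {g : Euc N × Euc N → Fin m → ℂ}
  {T : Euc N × Euc N → Wt N K →L[ℝ] EuclideanSpace ℝ (Fin (2 * c + 1))}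
  {P' : MM m → EuclideanSpace ℝ (Fin (2 * c + 1)) →L[ℝ] EuclideanSpace ℝ (Fin (2 * c + 1))}
  {o' : MM m → Ext (EuclideanSpace ℝ (Fin (2 * c + 1)))}
  {W' : MM m → (Fin (s' + 1) × Fin 2 → Fin (2 * c + 1)) → ℝ}
  {HL : ℝ → (ℝ → Euc N) → Euc N} {mu : (ℝ → Euc N) → ℝ}
  {Gm : (ℝ → Euc N) → (Euc N × Euc N) × Wt N K}

/-- the form of the level one family on `Tot (US G) PN` -/
def vf1 (G : Geo n N κ S) (K : ℕ) (lg : Euc N → Euc N → Euc N) (ρ : Euc N → Euc N) (w : ℝ)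
    (J : ℕ) (ε : ℝ) (om : Euc N → Ext (Euc N)) (θ0 : Euc N × Euc N → Ext (Euc N × Euc N))
    (p q : ℕ) (rr ss : ℝ) : (Euc N × Euc N) × Wt N K → Ext ((Euc N × Euc N) × Wt N K) :=
  vv (Ph G K) (F.d (F.pull (fun y : (Euc N × Euc N) × Wt N K => y.1) θ0)) p q rr ss
    (F.pull (FL.f1 G lg ρ w J ε) om)

/-- **the class hypothesis of level one**: the fibre integral of the descended form is exact -/
def Cls1 (G : Geo n N κ S) (K : ℕ) (lg : Euc N → Euc N → Euc N) (ρ : Euc N → Euc N) (w : ℝ)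
    (J : ℕ) (ε : ℝ) (om : Euc N → Ext (Euc N)) (θ0 : Euc N × Euc N → Ext (Euc N × Euc N))
    (p q : ℕ) (rr ss : ℝ) (PN : Euc N × Euc N → Wt N K →L[ℝ] Wt N K)
    (g : Euc N × Euc N → Fin m → ℂ)
    (T : Euc N × Euc N → Wt N K →L[ℝ] EuclideanSpace ℝ (Fin (2 * c + 1)))
    (P' : MM m → EuclideanSpace ℝ (Fin (2 * c + 1)) →L[ℝ] EuclideanSpace ℝ (Fin (2 * c + 1)))
    (W' : MM m → (Fin (s' + 1) × Fin 2 → Fin (2 * c + 1)) → ℝ) : Prop :=
  ∀ V' : MM m × EuclideanSpace ℝ (Fin (2 * c + 1)) → Ext (MM m × EuclideanSpace ℝ (Fin (2 * c + 1))),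
    ContDiff ℝ ∞ V' → Cl (Tot (Quo (L.US G) g) P') V' → VE.Cs (Quo (L.US G) g) P' (3 / 2) V' →
    Eqv (Tot (L.US G) PN) (F.pull (Th (jj g) T) V') (vf1 G K lg ρ w J ε om θ0 p q rr ss) →
    Coh (Quo (L.US G) g)
      (VE.pu (volume : Measure (EuclideanSpace ℝ (Fin (2 * c + 1)))) P'
        (thomF (fun y => 1 - P' y) W') (3 / 2) V') 0

/-- **(LAM)** over the manifold of geodesics -/
theorem exists_lam_B (h : D1 G k K lg ρ r C r' Kr B w δ PN ε J E₀ η₀)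
    (hg : Emb (L.US G) (gf G) g) (hθ0 : Cn (L.US G) (gf G) θ0) (hdat : Dat S om)
    (hO : TP.DscO (L.US G) (gf G) g (fun t => Rt (nuP K) t) s PN c s' T P' o' W')
    (hT1 : ∃ (c₀ : ℝ) (τ : _), VE.Th1 (volume : Measure (EuclideanSpace ℝ (Fin (2 * c + 1))))
      (Quo (L.US G) g) P' (thomF (fun y => 1 - P' y) W') (3 / 2) c₀ τ)
    (hcls : Cls1 G K lg ρ w J ε om θ0 p q rr ss PN g T P' W') :
    ∃ lam : (Euc N × Euc N) × Wt N K → Ext ((Euc N × Euc N) × Wt N K),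
      Mod S om (Tot (L.US G) PN) (Ph G K)
        (F.pull (fun y : (Euc N × Euc N) × Wt N K => y.1) θ0) (FL.f1 G lg ρ w J ε) lam p q rr ss ∧
      ∀ y ∈ Tot (L.US G) PN, 64 / 25 ≤ ‖y.2‖ ^ 2 → lam y = 0 := by
  have hcir := CM.cir_US h.bla.bl h.bla.ty.per
  have hclo := CM.clo_US' h.bla.bl
  obtain ⟨c₀, τ, hτ⟩ := hT1
  have hY := hg.clo_Quo hcir hclo
  exact exists_lam_f1 h hclo.sub hθ0 hdat (TP.qm_jj hg hcir hclo) hO.triv
    hO.smP.continuous.continuousOn hO.eqP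
    (cls_of_pu (volume : Measure (EuclideanSpace ℝ (Fin (2 * c + 1)))) hY.sub hO.pf
      (hO.co hY.sub) hτ hcls)

/-- **THE DATA `ED`**, all the fields known -/
theorem exists_ED (h : D1 G k K lg ρ r C r' Kr B w δ PN ε J E₀ η₀)
    (hg : Emb (L.US G) (gf G) g) (hθ0 : Cn (L.US G) (gf G) θ0) (hdat : Dat S om)
    (hO : TP.DscO (L.US G) (gf G) g (fun t => Rt (nuP K) t) s PN c s' T P' o' W')
    (hT1 : ∃ (c₀ : ℝ) (τ : _), VE.Th1 (volume : Measure (EuclideanSpace ℝ (Fin (2 * c + 1))))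
      (Quo (L.US G) g) P' (thomF (fun y => 1 - P' y) W') (3 / 2) c₀ τ)
    (hcls : Cls1 G K lg ρ w J ε om θ0 p q rr ss PN g T P' W')
    (hnat : NatOp S (Tot (L.US G) PN) (Ph G K) (FL.f1 G lg ρ w J ε)
      (fun y => 64 / 25 ≤ ‖y.2‖ ^ 2) B' HL mu Gm) :
    ∃ lam, (mkED S G lg ρ w J ε PN om θ0 p q rr ss B' lam HL mu Gm).OK := by
  obtain ⟨lam, h1, h2⟩ := exists_lam_B h hg hθ0 hdat hO hT1 hcls
  exact ⟨lam, mkED_ok h1 h2 hnat⟩

/-- the short form -/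
theorem exists_ED' (h : D1 G k K lg ρ r C r' Kr B w δ PN ε J E₀ η₀)
    (hg : Emb (L.US G) (gf G) g) (hθ0 : Cn (L.US G) (gf G) θ0) (hdat : Dat S om)
    (hO : TP.DscO (L.US G) (gf G) g (fun t => Rt (nuP K) t) s PN c s' T P' o' W')
    (hT1 : ∃ (c₀ : ℝ) (τ : _), VE.Th1 (volume : Measure (EuclideanSpace ℝ (Fin (2 * c + 1))))
      (Quo (L.US G) g) P' (thomF (fun y => 1 - P' y) W') (3 / 2) c₀ τ)
    (hcls : Cls1 G K lg ρ w J ε om θ0 p q rr ss PN g T P' W')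
    (hnat : NatOp S (Tot (L.US G) PN) (Ph G K) (FL.f1 G lg ρ w J ε)
      (fun y => 64 / 25 ≤ ‖y.2‖ ^ 2) B' HL mu Gm) :
    ∃ D : ED N, D.OK ∧ D.S = S ∧ D.om = om ∧ D.p = p ∧ D.q = q ∧ D.r = rr ∧ D.s = ss ∧
      D.B = B' := by
  obtain ⟨lam, hD⟩ := exists_ED h hg hθ0 hdat hO hT1 hcls hnat
  exact ⟨_, hD, rfl, rfl, rfl, rfl, rfl, rfl, rfl⟩

end Crest.Agent.R208.EX
end
end

-- ▼ part R208/EX14

/-!
R208, (8,2), block ED (helper530), part EX14: **the geometric package** `Geo` (everything which does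
not depend on the constants of the families and on the class side), its existence, the order of the
constants over it, and (TH) over it.
-/

set_option autoImplicit false
set_option linter.unusedSectionVars false
set_option linter.unusedVariables false

open MeasureTheory Set Filter Topology Module
open scoped ContDiff RealInnerProductSpace Real
open Crest.GeometryTopology.Submanifold
open Crest.Agent.R241.DDefs Crest.Agent.R241.D Crest.Agent.R241.D2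
open Crest.Agent.R208.F Crest.Agent.R208.FI Crest.Agent.R208.CW Crest.Agent.R208.T
open Crest.Agent.R208.CM (Cir gen Rep Triv Qd phR Th gf Emb Quo MM jj Curv)
open Crest.Agent.R208.LB (al)
open Crest.Agent.R208.VC hiding Wt
open Crest.Agent.R208.MS (Fam oc En)
open Crest.Agent.R208.FL (D0 D1 Ph)
open Crest.Agent.R208.FT (D2 XI RN xiN gp lev)
open Crest.Agent.R208.NN (Wt Rt nuP)
open Crest.Agent.R208.TP (CV push pu₂)

noncomputable section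

namespace Crest.Agent.R208.EX

/-! ### the order of the constants over given geometric data -/
section setup
variable {n N K k : ℕ} {κ : ℝ} {S : Set (Euc N)} {G : Geo n N κ S} {lg : Euc N → Euc N → Euc N}
  {ρ : Euc N → Euc N} {r C r' Kr B w δ : ℝ} {PN : Euc N × Euc N → Wt N K →L[ℝ] Wt N K}
  {H₂ : Type} [NormedAddCommGroup H₂] [InnerProductSpace ℝ H₂] [FiniteDimensional ℝ H₂]
  {P₂ : Euc N × Euc N → H₂ →L[ℝ] H₂} {Rr : ℝ → H₂ →L[ℝ] H₂}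
  {xi0 : Euc N × Euc N → H₂ →L[ℝ] Euc N} {δ₂ : ℝ}

/-- the constants of the families, for given geometric data -/
theorem exists_consts (h0 : D0 G k K lg ρ r C r' Kr B w δ PN) (hB : π + 1 ≤ B)
    (hX : XI G P₂ Rr xi0 δ₂) :
    ∃ ε₀ > 0, ∀ ε, 0 < ε → ε ≤ ε₀ → ∀ ε₂, 0 < ε₂ → 3 * ε₂ ≤ ε₀ → ∀ B' < 4 * π,
      ∃ (E₀ η : ℝ) (J : ℕ), D2 G k K lg ρ r C r' Kr B w δ PN ε J E₀ η P₂ Rr xi0 δ₂ ε₂ ∧
        2 * η ≤ π - (δ / 4) * ε ^ 2 ∧
        ∃ (HL : ℝ → (ℝ → Euc N) → Euc N) (mu : (ℝ → Euc N) → ℝ)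
          (Gm : (ℝ → Euc N) → (Euc N × Euc N) × Wt N K),
          NatOp S (FI.Tot (L.US G) PN) (Ph G K) (FL.f1 G lg ρ w J ε)
            (fun y => 64 / 25 ≤ ‖y.2‖ ^ 2) B' HL mu Gm := by
  have hpi := Real.pi_gt_three
  have hδ := h0.neg.pos_δ
  obtain ⟨a, ha, hA⟩ := FT.exists_D2 h0 hX
  obtain ⟨b, hb, hNO⟩ := NG.exists_natOp' h0 hB
  refine ⟨min (min a b) (min 1 (1 / δ)), by positivity, fun ε hε hε' ε₂ hε₂ hε₂' B' hB' => ?_⟩
  have e1 : ε ≤ a := hε'.trans ((min_le_left _ _).trans (min_le_left _ _))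
  have e2 : ε ≤ b := hε'.trans ((min_le_left _ _).trans (min_le_right _ _))
  have e3 : ε ≤ 1 := hε'.trans ((min_le_right _ _).trans (min_le_left _ _))
  have e4 : ε ≤ 1 / δ := hε'.trans ((min_le_right _ _).trans (min_le_right _ _))
  have e5 : 3 * ε₂ ≤ a := hε₂'.trans ((min_le_left _ _).trans (min_le_left _ _))
  have e6 : δ * ε ^ 2 ≤ 1 := by
    have h1 : δ * ε ≤ 1 := by
      rw [le_div_iff₀ hδ] at e4; linarith
    calc δ * ε ^ 2 = δ * ε * ε := by ring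
      _ ≤ 1 * 1 := by gcongr
      _ = 1 := by ring
  obtain ⟨E₁, hE₁, hN⟩ := hNO ε hε e2 B' hB'
  obtain ⟨E₀, η, h1, h2, J₀, h3⟩ := hA ε hε e1 ε₂ hε₂ e5 E₁ hE₁ 1 one_pos
  have h4 := h3 J₀ le_rfl
  exact ⟨E₀, η, J₀, h4, by linarith, hN J₀ E₀ η h1 h4.toD1⟩

end setup

/-! ### the geometric package -/
section geo
variable {n N K s m m' l c s' c₂ : ℕ} {κ : ℝ} {S : Set (Euc N)} {G : Geo n N κ S}
  {lg : Euc N → Euc N → Euc N} {ρ : Euc N → Euc N} {r C r' Kr B w δ δ₂ : ℝ}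
  {PN : Euc N × Euc N → Wt N K →L[ℝ] Wt N K}

/-- **the geometric package of (8,2)** (`k = 2 s + 2`): the loop space data (`D0`, `XI`), the
manifold of geodesics `B = Quo (US G) g` with its curvature form, the descended negative bundle, the
cover `B' = Quo (US × S^{2l+1}) g' → B`, and the descended doubled negative bundle over `B'` -/
structure Gm82 (h : GT.Bla G (2 * s + 2)) (K l : ℕ) (lg : Euc N → Euc N → Euc N)
    (ρ : Euc N → Euc N) (r C r' Kr B w δ δ₂ : ℝ) (PN : Euc N × Euc N → Wt N K →L[ℝ] Wt N K)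
    (g : Euc N × Euc N → Fin m → ℂ) (Fc : MM m → Ext (MM m))
    (g' : (Euc N × Euc N) × HW.U l → Fin m' → ℂ) (p : MM m' → MM m)
    (T : Euc N × Euc N → Wt N K →L[ℝ] EuclideanSpace ℝ (Fin (2 * c + 1)))
    (P' : MM m → EuclideanSpace ℝ (Fin (2 * c + 1)) →L[ℝ] EuclideanSpace ℝ (Fin (2 * c + 1)))
    (o' : MM m → Ext (EuclideanSpace ℝ (Fin (2 * c + 1))))
    (W' : MM m → (Fin (s' + 1) × Fin 2 → Fin (2 * c + 1)) → ℝ)
    (oN : Euc N × Euc N → Ext (Wt N K))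
    (T₂ : (Euc N × Euc N) × HW.U l →
      EuclideanSpace ℝ (((Fin K × Fin 2) × Fin N) ⊕ ((Fin K × Fin 2) × Fin N)) →L[ℝ]
        EuclideanSpace ℝ (Fin (2 * c₂)))
    (P₂' : MM m' → EuclideanSpace ℝ (Fin (2 * c₂)) →L[ℝ] EuclideanSpace ℝ (Fin (2 * c₂)))
    (W₂' : MM m' → (Fin (2 * s + 1) × Fin 2 → Fin (2 * c₂)) → ℝ) : Prop where
  d0 : D0 G (2 * s + 2) K lg ρ r C r' Kr B w δ PN
  hB : π + 1 ≤ B
  xi : XI G (DD.NN PN) (RN N K) (xiN h PN) δ₂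
  emb : Emb (L.US G) (gf G) g
  curv : Curv (L.US G) g (al (N := N)) Fc
  hd : HW.HD (2 * (n - 1)) l (L.US G) (gf G) g g' p
  dsc : TP.DscO (L.US G) (gf G) g (fun t => Rt (nuP K) t) s PN c s' T P' o' W'
  upr : UP.UPr (L.US G) (2 * s + 1) PN oN
  opr : SB.OPr (L.US G) (2 * s + 1) PN oN
  od : ∀ z ∈ L.US G, o' (jj g z) = UP.od T oN z
  dsc2 : DD.Dsc2 (Fin (2 * s + 1)) (HW.XX (L.US G) l) g' (HW.ph l (gf G))
    (fun t => Rt (nuP K) (2 * t)) (-1) (fun z => PN z.1) T₂ P₂' W₂'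
  hc₂ : 2 * (2 * s + 1) + 2 ≤ 2 * c₂
  hkn : 2 * s + 2 < n

/-- **existence** -/
theorem exists_Gm82 (h : GT.Bla G (2 * s + 2)) (hkn : 2 * s + 2 < n) (l : ℕ) :
    ∃ (K m m' c s' c₂ : ℕ) (lg : Euc N → Euc N → Euc N) (ρ : Euc N → Euc N)
      (r C r' Kr B w δ δ₂ : ℝ) (PN : Euc N × Euc N → Wt N K →L[ℝ] Wt N K)
      (g : Euc N × Euc N → Fin m → ℂ) (Fc : MM m → Ext (MM m))
      (g' : (Euc N × Euc N) × HW.U l → Fin m' → ℂ) (p : MM m' → MM m)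
      (T : Euc N × Euc N → Wt N K →L[ℝ] EuclideanSpace ℝ (Fin (2 * c + 1)))
      (P' : MM m → EuclideanSpace ℝ (Fin (2 * c + 1)) →L[ℝ] EuclideanSpace ℝ (Fin (2 * c + 1)))
      (o' : MM m → Ext (EuclideanSpace ℝ (Fin (2 * c + 1))))
      (W' : MM m → (Fin (s' + 1) × Fin 2 → Fin (2 * c + 1)) → ℝ)
      (oN : Euc N × Euc N → Ext (Wt N K))
      (T₂ : (Euc N × Euc N) × HW.U l →
        EuclideanSpace ℝ (((Fin K × Fin 2) × Fin N) ⊕ ((Fin K × Fin 2) × Fin N)) →L[ℝ]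
          EuclideanSpace ℝ (Fin (2 * c₂)))
      (P₂' : MM m' → EuclideanSpace ℝ (Fin (2 * c₂)) →L[ℝ] EuclideanSpace ℝ (Fin (2 * c₂)))
      (W₂' : MM m' → (Fin (2 * s + 1) × Fin 2 → Fin (2 * c₂)) → ℝ),
      Gm82 h K l lg ρ r C r' Kr B w δ δ₂ PN g Fc g' p T P' o' W' oN T₂ P₂' W₂' := by
  have hpi := Real.pi_gt_three
  have hper := h.ty.per
  obtain ⟨lg, ρ, r, C, r', Kr, K, δ, PN, w₀, hw₀, hD⟩ :=
    FL.exists_D0 h (B := π + 1) (by linarith) (by linarith)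
  have h0 := hD w₀ hw₀ le_rfl
  obtain ⟨δ₂, hX⟩ := FT.exists_XI h h0.neg
  obtain ⟨m, g, Fc, hg, -, hc⟩ := CM.exists_CM h.bl hper
  obtain ⟨m', g', p, hd⟩ := HW.exists_HD l (CM.cir_US h.bl hper) hg (CM.clo_US' h.bl)
  obtain ⟨c, s', T, P', o', W', oN, a1, a2, a3, a4⟩ := TP.exists_dscO_N h hkn hper h0.neg hg
  have hE : DD.EqF (L.US G) (gf G) (fun t => (Rt (nuP K) t : Wt N K →L[ℝ] Wt N K)) (2 * s + 1) PN :=
    DD.eqF_US h0.neg
  obtain ⟨c₂, T₂, P₂', W₂', b1, b2⟩ := TP.exists_dsc2_even (ι := Fin (2 * s + 1)) (w := -1)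
    (hE.xx l) (Fintype.card_fin _) hd.emb' hd.cir' hd.clo' ⟨-1, by norm_num⟩
  exact ⟨K, m, m', c, s', c₂, lg, ρ, r, C, r', Kr, π + 1, w₀, δ, δ₂, PN, g, Fc, g', p, T, P', o',
    W', oN, T₂, P₂', W₂', h0, le_rfl, hX, hg, hc, hd, a1, a2, a3, a4, b1, b2, hkn⟩

variable {h : GT.Bla G (2 * s + 2)} {g : Euc N × Euc N → Fin m → ℂ} {Fc : MM m → Ext (MM m)}
  {g' : (Euc N × Euc N) × HW.U l → Fin m' → ℂ} {p : MM m' → MM m}
  {T : Euc N × Euc N → Wt N K →L[ℝ] EuclideanSpace ℝ (Fin (2 * c + 1))}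
  {P' : MM m → EuclideanSpace ℝ (Fin (2 * c + 1)) →L[ℝ] EuclideanSpace ℝ (Fin (2 * c + 1))}
  {o' : MM m → Ext (EuclideanSpace ℝ (Fin (2 * c + 1)))}
  {W' : MM m → (Fin (s' + 1) × Fin 2 → Fin (2 * c + 1)) → ℝ}
  {oN : Euc N × Euc N → Ext (Wt N K)}
  {T₂ : (Euc N × Euc N) × HW.U l →
    EuclideanSpace ℝ (((Fin K × Fin 2) × Fin N) ⊕ ((Fin K × Fin 2) × Fin N)) →L[ℝ]
      EuclideanSpace ℝ (Fin (2 * c₂))}
  {P₂' : MM m' → EuclideanSpace ℝ (Fin (2 * c₂)) →L[ℝ] EuclideanSpace ℝ (Fin (2 * c₂))}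
  {W₂' : MM m' → (Fin (2 * s + 1) × Fin 2 → Fin (2 * c₂)) → ℝ}

namespace Gm82

variable (Q : Gm82 h K l lg ρ r C r' Kr B w δ δ₂ PN g Fc g' p T P' o' W' oN T₂ P₂' W₂')
include Q

theorem eqF : DD.EqF (L.US G) (gf G) (fun t => (Rt (nuP K) t : Wt N K →L[ℝ] Wt N K)) (2 * s + 1)
    PN := DD.eqF_US Q.d0.neg

theorem cir : Cir (L.US G) (gf G) := CM.cir_US h.bl h.ty.per
theorem clo : Clo (2 * (n - 1) + 1) (L.US G) := CM.clo_US' h.bl

/-- the contact form is a connection -/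
theorem cn : Cn (L.US G) (gf G) (al (N := N)) := cn_of_conn (CM.conn_al (FV.sub_S h.bl))

/-- the half connection over `X'` -/
theorem cn' : Cn (HW.XX (L.US G) l) (HW.ph l (gf G)) (HW.th l (al (N := N))) :=
  cn_of_conn (HW.conn_th Q.cir (CM.conn_al (FV.sub_S h.bl)))

/-- **the order of the constants** -/
theorem consts : ∃ ε₀ > 0, ∀ ε, 0 < ε → ε ≤ ε₀ → ∀ ε₂, 0 < ε₂ → 3 * ε₂ ≤ ε₀ → ∀ B' < 4 * π,
      ∃ (E₀ η : ℝ) (J : ℕ), D2 G (2 * s + 2) K lg ρ r C r' Kr B w δ PN ε J E₀ η (DD.NN PN)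
          (RN N K) (xiN h PN) δ₂ ε₂ ∧ 2 * η ≤ π - (δ / 4) * ε ^ 2 ∧
        ∃ (HL : ℝ → (ℝ → Euc N) → Euc N) (mu : (ℝ → Euc N) → ℝ)
          (Gm : (ℝ → Euc N) → (Euc N × Euc N) × Wt N K),
          NatOp S (FI.Tot (L.US G) PN) (Ph G K) (FL.f1 G lg ρ w J ε)
            (fun y => 64 / 25 ≤ ‖y.2‖ ^ 2) B' HL mu Gm := exists_consts Q.d0 Q.hB Q.xi

/-- **(TH) over the package**: `TP.th82`, all geometric hypotheses filled -/
theorem th {D : ED N} {ε ε₂ E₀ η₀ : ℝ} {J : ℕ} (hD : D.OK) (hDS : D.S = S)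
    (h2 : D2 G (2 * s + 2) K lg ρ r C r' Kr B w δ PN ε J E₀ η₀ (DD.NN PN) (RN N K) (xiN h PN)
      δ₂ ε₂) (hη : 2 * η₀ ≤ π - (δ / 4) * ε ^ 2) (hlev : lev δ δ₂ ε ε₂ ≤ D.B) (j : ℕ) :
    ∃ (s₂ : ℕ) (W₂'' : MM m' → (Fin (s₂ + 1) × Fin 2 → Fin (2 * c₂)) → ℝ) (c₀ : ℝ)
      (η : _) (V' : (MM m' × EuclideanSpace ℝ (Fin (2 * c₂))) × EuclideanSpace ℝ (Fin (2 * c + 1)) →
        Ext ((MM m' × EuclideanSpace ℝ (Fin (2 * c₂))) × EuclideanSpace ℝ (Fin (2 * c + 1)))),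
      OR (Quo (HW.XX (L.US G) l) g') (fun y => 1 - P₂' y) W₂'' ∧
      ThomPair (volume : Measure (EuclideanSpace ℝ (Fin (2 * c₂)))) (Quo (HW.XX (L.US G) l) g') P₂'
        (2 * (2 * s + 1)) 3 c₀ ((2 : ℝ) • eR P₂' W₂') (thomF P₂' W₂')
        (thomF (fun x => 1 - P₂' x) W₂'') ∧
      D.IsEta (Up (FT.TX (HW.XX (L.US G) l) Prod.fst (DD.NN PN) PN) FT.c2)
        (FT.P2x (HW.ph l (gf G)) N K (RN N K)) (F.pull EA.b₂ (HW.th l (al (N := N))))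
        (FT.f2x G lg ρ w J (xiN h PN) ε ε₂ Prod.fst) η ∧
      ContDiff ℝ ∞ V' ∧ CV (Quo (HW.XX (L.US G) l) g') P₂' (fun y => P' (p y)) 3 V' ∧ Hom j V' ∧
      Eqv (FT.TX (HW.XX (L.US G) l) Prod.fst (DD.NN PN) PN)
        (F.pull (EA.Q₂ (jj g') T₂ fun z => T z.1) V')
        (dp j (D.rel (FT.P2x (HW.ph l (gf G)) N K (RN N K)) (F.pull EA.b₂ (HW.th l (al (N := N))))
          (FT.f2x G lg ρ w J (xiN h PN) ε ε₂ Prod.fst) FT.c2 η)) ∧
      ∀ v₀' : MM m' × EuclideanSpace ℝ (Fin (2 * c + 1)) →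
          Ext (MM m' × EuclideanSpace ℝ (Fin (2 * c + 1))),
        Sm (Tot (Quo (HW.XX (L.US G) l) g') fun y => P' (p y)) v₀' → Vt 3 v₀' →
        Eqv (Tot (HW.XX (L.US G) l) fun z => PN z.1) (F.pull (Th (jj g') fun z => T z.1) v₀')
          (dp j (D.vf (phR (HW.ph l (gf G)) fun t => Rt (nuP K) (2 * t))
            (F.pull Prod.fst (HW.th l (al (N := N))))
            (fun z => FL.f1 G lg ρ w J ε (z.1.1, z.2)))) →
        Coh (Quo (HW.XX (L.US G) l) g')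
          (c₀ • push (volume : Measure (EuclideanSpace ℝ (Fin (2 * c + 1)))) (fun y => P' (p y))
            (thomF (fun y => 1 - P' (p y)) fun y => W' (p y)) v₀')
          (pu₂ (volume : Measure (EuclideanSpace ℝ (Fin (2 * c + 1))))
            (volume : Measure (EuclideanSpace ℝ (Fin (2 * c₂)))) P₂'
            (thomF (fun x => 1 - P₂' x) W₂'') (fun y => P' (p y))
            (thomF (fun y => 1 - P' (p y)) fun y => W' (p y)) V' * ((2 : ℝ) • eR P₂' W₂')) :=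
  TP.th82 hD hDS Q.hd (FV.preconn_US h.bl (by have := Q.hkn; omega))
    (Crest.Agent.R208.T.nonempty_UST h h.bl.conn.nonempty.some_mem) Q.eqF Q.dsc (funext FT.RN_two)
    ⟨-1, by norm_num⟩ Q.dsc2 Q.hc₂ h2
    (fun z hz hc => (h2.level_unif hη (FT.eqm_XX l) hz hc).trans hlev) Q.cn' j

end Gm82

end geo

end Crest.Agent.R208.EX
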