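import Crest.Agent.R208.T3b
import Crest.Agent.R208.T3d
import Crest.Agent.R208.FV6
import Crest.Agent.R208.GP2e
import Crest.Agent.R208.DEG2
import Crest.Agent.R208.CW6

-- ▼ part R208/TSph
section

/-! Row 208, block T (helper595).  TSph: the cohomology of spheres of every dimension in degrees
strictly between `0` and the dimension. -/

set_option autoImplicit false
set_option linter.unusedSectionVars false
set_option linter.unusedSimpArgs false

open MeasureTheory Set Filter Topology Module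
open scoped ContDiff RealInnerProductSpace
open Crest.Agent.R208.F Crest.Agent.R208.FI Crest.Agent.R208.CW

noncomputable section

namespace Crest.Agent.R208.T

universe w

/-! ### functions with vanishing tangential derivative -/
section curve
variable {E : Type*} [NormedAddCommGroup E] [NormedSpace ℝ E] [FiniteDimensional ℝ E]
  {X : Set E} {b : E → Ext E}

theorem curve_const {g : E → ℝ} (hg : ∀ x ∈ X, DifferentiableAt ℝ g x)
    (hd : ∀ x ∈ X, ∀ w ∈ Tan X x, fderiv ℝ g x w = 0) {γ : ℝ → E}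
    (hγ : ∀ t ∈ Icc (0 : ℝ) 1, DifferentiableAt ℝ γ t)
    (hm : ∀ t ∈ Icc (0 : ℝ) 1, ∀ᶠ s in 𝓝 t, γ s ∈ X) : g (γ 0) = g (γ 1) := by
  have h1 : ∀ t ∈ Icc (0 : ℝ) 1, HasDerivAt (fun s => g (γ s)) 0 t := by
    intro t ht
    have hx : γ t ∈ X := (hm t ht).self_of_nhds
    have h2 : HasDerivAt γ (deriv γ t) t := (hγ t ht).hasDerivAt
    have h3 := (hg _ hx).hasFDerivAt.comp_hasDerivAt t h2
    rwa [hd _ hx _ (mem_Tan_of_curve h2 (hm t ht))] at h3
  have h4 := constant_of_has_deriv_right_zero (f := fun s => g (γ s)) (a := 0) (b := 1)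
    (fun t ht => (h1 t ht).continuousAt.continuousWithinAt)
    (fun t ht => (h1 t (Ico_subset_Icc_self ht)).hasDerivWithinAt)
  exact (h4 1 (by simp)).symm

theorem closed0 (hs : Sm X b) (hcl : Cl X b) (h0 : Hom 0 b) :
    (∀ x ∈ X, DifferentiableAt ℝ (ev0 b) x) ∧
      ∀ x ∈ X, ∀ w ∈ Tan X x, fderiv ℝ (ev0 b) x w = 0 := by
  set g := ev0 b with hg
  have hb : b = fun y => algebraMap ℝ (Ext E) (g y) := funext fun y => isDeg_zero_eq (h0 y)
  have hgs : ∀ x ∈ X, ContDiffAt ℝ ∞ g x := fun x hx => contDiffAt_ev0 (hs x hx)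
  refine ⟨fun x hx => (hgs x hx).differentiableAt (by simp), ?_⟩
  intro x hx w hw
  have h1 := hcl x hx
  rw [hb, d_algebraMap ((hgs x hx).differentiableAt (by simp)), pb_io] at h1
  have h2 := congrArg (fun c => evA (Tan X x) 1 c (fun _ => ⟨w, hw⟩)) h1
  simp only [evA_io, map_zero] at h2
  exact h2

end curve

/-! ### spheres -/
section sph
variable {H : Type w} [NormedAddCommGroup H] [InnerProductSpace ℝ H] [FiniteDimensional ℝ H]
  {V : Submodule ℝ H} {p x y : H} {b θ : H → Ext H} {j : ℕ}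

/-- the unit sphere of `V` -/
def SU (V : Submodule ℝ H) : Set H := {x | x ∈ V ∧ ‖x‖ = 1}

/-- normalisation -/
def nu (x : H) : H := ‖x‖⁻¹ • x

theorem nu_mem (hx : x ∈ V) (h0 : x ≠ 0) : nu x ∈ SU V := by
  refine ⟨V.smul_mem _ hx, ?_⟩
  rw [nu, norm_smul, norm_inv, norm_norm, inv_mul_cancel₀ (norm_ne_zero_iff.2 h0)]

theorem contDiffAt_nu (h0 : x ≠ 0) : ContDiffAt ℝ ∞ (nu (H := H)) x :=
  ((contDiffAt_norm ℝ h0).inv (norm_ne_zero_iff.2 h0)).smul contDiffAt_id

theorem nu_of_norm (hx : ‖x‖ = 1) : nu x = x := by rw [nu, hx, inv_one, one_smul]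

theorem ne_zero_of_norm (hx : ‖x‖ = 1) : x ≠ 0 := by
  rintro rfl; rw [norm_zero] at hx; exact zero_ne_one hx

theorem seg_ne (hx : ‖x‖ = 1) (hy : ‖y‖ = 1) (h : x ≠ -y) {t : ℝ} (ht : t ∈ Icc (0 : ℝ) 1) :
    (1 - t) • x + t • y ≠ 0 := by
  intro h0
  have h1 : (1 - t) • x = -(t • y) := eq_neg_of_add_eq_zero_left h0
  have h2 := congrArg norm h1
  rw [norm_smul, norm_neg, norm_smul, hx, hy, mul_one, mul_one, Real.norm_of_nonneg
    (by linarith [ht.2]), Real.norm_of_nonneg ht.1] at h2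
  have ht2 : t = 1 / 2 := by linarith
  subst ht2
  apply h
  have h3 : (1 / 2 : ℝ) • x = (1 / 2 : ℝ) • (-y) := by
    rw [smul_neg, ← h1]; norm_num
  exact smul_right_injective H (by norm_num : (1 / 2 : ℝ) ≠ 0) h3

theorem neg_mem_SU (hp : p ∈ SU V) : -p ∈ SU V := ⟨V.neg_mem hp.1, by rw [norm_neg]; exact hp.2⟩

/-- the punctured sphere is contractible -/
theorem exact_punct (hp : p ∈ SU V) (hj : 1 ≤ j) (hs : Sm (SU V) b) (hc : Cl (SU V) b)
    (hd : Hom j b) : Coh (SU V \ {p}) b 0 := by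
  have hne : ∀ x ∈ SU V \ {p}, ∀ t ∈ Icc (0 : ℝ) 1, (1 - t) • x + t • (-p) ≠ 0 :=
    fun x hx t ht => seg_ne hx.1.2 (neg_mem_SU hp).2 (by rw [neg_neg]; exact hx.2) ht
  have h1 := coh_homotopy (X := SU V \ {p}) (Y := SU V)
    (Fh := fun z : H × ℝ => nu ((1 - z.2) • z.1 + z.2 • (-p))) (w := b)
    (fun x hx t ht => ContDiffAt.comp (g := nu) (x, t) (contDiffAt_nu (hne x hx t ht))
      (by fun_prop))
    (fun x hx t ht => nu_mem (V.add_mem (V.smul_mem _ hx.1.1) (V.smul_mem _ (V.neg_mem hp.1)))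
      (hne x hx t ht)) hs hc
  have e1 : (fun y : H => nu ((1 - (1 : ℝ)) • y + (1 : ℝ) • (-p))) = fun _ => nu (-p) := by
    funext y; simp
  rw [show (fun y : H => (fun z : H × ℝ => nu ((1 - z.2) • z.1 + z.2 • (-p))) (y, 1))
    = fun _ => nu (-p) from e1, pull_const_map hj hd] at h1
  have e2 : Eqv (SU V \ {p})
      (F.pull (fun y : H => (fun z : H × ℝ => nu ((1 - z.2) • z.1 + z.2 • (-p))) (y, 0)) b) b := by
    refine (eqv_pull_of_eq b (fun x hx => ?_) (fun y _ => differentiableAt_id)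
      (fun y hy => ?_)).trans (Eqv.of_eq fun z _ => F.pull_id b z)
    · have := hne x hx 0 (by simp)
      exact (ContDiffAt.comp (g := nu) (f := fun y : H => (1 - (0 : ℝ)) • y + (0 : ℝ) • (-p)) x
        (contDiffAt_nu this) (by fun_prop)).differentiableAt (by simp)
    · change nu ((1 - (0 : ℝ)) • y + (0 : ℝ) • (-p)) = y
      rw [sub_zero, one_smul, zero_smul, add_zero, nu_of_norm hy.1.2]
  exact (Coh.of_eqv e2.symm).trans h1.symm

/-- the doubly punctured sphere -/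
def OO (V : Submodule ℝ H) (p : H) : Set H := (SU V ∩ {-p}ᶜ) \ {p}

/-- the hyperplane of `V` orthogonal to `p` -/
def Vp (V : Submodule ℝ H) (p : H) : Submodule ℝ H := (ℝ ∙ p)ᗮ ⊓ V

theorem mem_Vp : x ∈ Vp V p ↔ ⟪p, x⟫ = 0 ∧ x ∈ V := by
  rw [Vp, Submodule.mem_inf, Submodule.mem_orthogonal_singleton_iff_inner_right]

theorem finrank_Vp {m : ℕ} (hV : finrank ℝ V = m + 1) (hp : p ∈ SU V) :
    finrank ℝ (Vp V p) = m := by
  have h1 : (ℝ ∙ p) ≤ V := (Submodule.span_singleton_le_iff_mem _ _).2 hp.1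
  refine Submodule.finrank_add_inf_finrank_orthogonal' h1 ?_
  rw [finrank_span_singleton (ne_zero_of_norm hp.2), hV, add_comm]

/-- perpendicular part, scaled -/
def pe (p : H) (t : ℝ) (x : H) : H := x - (t * ⟪p, x⟫) • p

theorem inner_pe (hp : ‖p‖ = 1) (t : ℝ) (x : H) : ⟪p, pe p t x⟫ = (1 - t) * ⟪p, x⟫ := by
  rw [pe, inner_sub_right, inner_smul_right, real_inner_self_eq_norm_sq, hp]; ring

theorem pe_ne (hp : p ∈ SU V) (hx : x ∈ OO V p) {t : ℝ} (ht : t ∈ Icc (0 : ℝ) 1) (c : ℝ) :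
    pe p t x ≠ c • p := by
  intro h
  have h1 : x = (c + t * ⟪p, x⟫) • p := by
    rw [add_smul, ← h, pe, sub_add_cancel]
  have h2 := congrArg norm h1
  rw [norm_smul, hp.2, mul_one, hx.1.1.2] at h2
  rcases abs_eq (zero_le_one) |>.1 h2.symm with h3 | h3
  · rw [h3, one_smul] at h1; exact hx.2 h1
  · rw [h3, neg_smul, one_smul] at h1; exact hx.1.2 h1

theorem pe_ne_zero (hp : p ∈ SU V) (hx : x ∈ OO V p) {t : ℝ} (ht : t ∈ Icc (0 : ℝ) 1) :
    pe p t x ≠ 0 := by
  have := pe_ne hp hx ht 0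
  rwa [zero_smul] at this

theorem pe_mem_V (hp : p ∈ V) (hx : x ∈ V) (t : ℝ) : pe p t x ∈ V :=
  V.sub_mem hx (V.smul_mem _ hp)

theorem nu_ne {c : ℝ} (h0 : x ≠ 0) (h : ∀ c : ℝ, x ≠ c • p) : nu x ≠ c • p := by
  intro h1
  apply h (‖x‖ * c)
  rw [mul_smul, ← h1, nu, smul_smul, mul_inv_cancel₀ (norm_ne_zero_iff.2 h0), one_smul]

theorem nu_pe_mem (hp : p ∈ SU V) (hx : x ∈ OO V p) {t : ℝ} (ht : t ∈ Icc (0 : ℝ) 1) :
    nu (pe p t x) ∈ OO V p := by
  have h0 := pe_ne_zero hp hx ht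
  have h1 := pe_ne hp hx ht
  refine ⟨⟨nu_mem (pe_mem_V hp.1 hx.1.1.1 t) h0, ?_⟩, ?_⟩
  · have := nu_ne (c := -1) h0 h1
    rwa [neg_smul, one_smul] at this
  · have := nu_ne (c := 1) h0 h1
    rwa [one_smul] at this

theorem SU_Vp_subset (hp : p ∈ SU V) : SU (Vp V p) ⊆ OO V p := by
  intro x hx
  obtain ⟨h1, h2⟩ := mem_Vp.1 hx.1
  refine ⟨⟨⟨h2, hx.2⟩, ?_⟩, ?_⟩
  · rintro rfl
    rw [inner_neg_right, real_inner_self_eq_norm_sq, hp.2] at h1
    norm_num at h1
  · rintro rfl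
    rw [real_inner_self_eq_norm_sq, hp.2] at h1
    norm_num at h1

theorem nu_pe_one_mem (hp : p ∈ SU V) (hx : x ∈ OO V p) : nu (pe p 1 x) ∈ SU (Vp V p) := by
  refine nu_mem (mem_Vp.2 ⟨?_, pe_mem_V hp.1 hx.1.1.1 1⟩) (pe_ne_zero hp hx (by simp))
  rw [inner_pe hp.2]; ring

theorem contDiff_pe : ContDiff ℝ ∞ (fun z : H × ℝ => pe p z.2 z.1) := by
  unfold pe
  exact contDiff_fst.sub ((contDiff_snd.mul (contDiff_const.inner ℝ contDiff_fst)).smul
    contDiff_const)

theorem exact_OO (hp : p ∈ SU V) (h : ExactIn (SU (Vp V p)) j) (hs : Sm (OO V p) θ)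
    (hc : Cl (OO V p) θ) (hd : Hom j θ) : Coh (OO V p) θ 0 := by
  have h1 := coh_homotopy (X := OO V p) (Y := OO V p)
    (Fh := fun z : H × ℝ => nu (pe p z.2 z.1)) (w := θ)
    (fun x hx t ht => ContDiffAt.comp (g := nu) (x, t) (contDiffAt_nu (pe_ne_zero hp hx ht))
      contDiff_pe.contDiffAt)
    (fun x hx t ht => nu_pe_mem hp hx ht) hs hc
  have sρ : SMap (OO V p) (SU (Vp V p)) (fun y : H => nu (pe p 1 y)) :=
    ⟨fun x hx => ContDiffAt.comp (g := nu) (f := fun y : H => pe p 1 y) x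
      (contDiffAt_nu (pe_ne_zero hp hx (by simp)))
      (contDiff_pe.comp (contDiff_id.prodMk contDiff_const)).contDiffAt,
      fun x hx => nu_pe_one_mem hp hx⟩
  have h2 := (h θ (hs.mono (SU_Vp_subset hp)) (hc.mono (SU_Vp_subset hp)) hd).pull sρ
  rw [pull_zero'] at h2
  have e2 : Eqv (OO V p)
      (F.pull (fun y : H => (fun z : H × ℝ => nu (pe p z.2 z.1)) (y, 0)) θ) θ := by
    refine (eqv_pull_of_eq θ (fun x hx => ?_) (fun y _ => differentiableAt_id)
      (fun y hy => ?_)).trans (Eqv.of_eq fun z _ => F.pull_id θ z)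
    · exact (ContDiffAt.comp (g := nu) (f := fun y : H => pe p 0 y) x
        (contDiffAt_nu (pe_ne_zero hp hx (by simp)))
        (contDiff_pe.comp (contDiff_id.prodMk contDiff_const)).contDiffAt).differentiableAt
          (by simp)
    · change nu (pe p 0 y) = y
      rw [pe, zero_mul, zero_smul, sub_zero, nu_of_norm hy.1.1.2]
  exact (Coh.of_eqv e2.symm).trans (h1.symm.trans h2)

/-- closed functions on the doubly punctured sphere are constant, dimension `≥ 2` -/
theorem const_OO (hp : p ∈ SU V) (hV : 2 ≤ finrank ℝ (Vp V p)) (hs : Sm (OO V p) θ)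
    (hc : Cl (OO V p) θ) (hd : Hom 0 θ) :
    ∃ c : ℝ, ∀ x ∈ OO V p, θ x = algebraMap ℝ (Ext H) c := by
  obtain ⟨k1, k2⟩ := closed0 hs hc hd
  set g := ev0 θ with hg
  have hθ : ∀ x, θ x = algebraMap ℝ (Ext H) (g x) := fun x => isDeg_zero_eq (hd x)
  -- to the equator
  have a1 : ∀ x ∈ OO V p, g x = g (nu (pe p 1 x)) := by
    intro x hx
    have := curve_const (X := OO V p) k1 k2 (γ := fun t => nu (pe p t x)) ?_ ?_
    · rw [← this, pe, zero_mul, zero_smul, sub_zero, nu_of_norm hx.1.1.2]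
    · intro t ht
      exact ((contDiffAt_nu (pe_ne_zero hp hx ht)).comp t (f := fun t => pe p t x)
        (contDiff_pe.comp (contDiff_const.prodMk contDiff_id)).contDiffAt).differentiableAt
          (by simp)
    · intro t ht
      have hcont : Continuous fun t : ℝ => pe p t x :=
        (contDiff_pe (p := p)).continuous.comp (continuous_const.prodMk continuous_id)
      have hcl : IsClosed ((ℝ ∙ p : Submodule ℝ H) : Set H) := Submodule.closed_of_finiteDimensional _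
      have hmem : pe p t x ∈ ((ℝ ∙ p : Submodule ℝ H) : Set H)ᶜ := by
        intro h
        obtain ⟨c, hc⟩ := Submodule.mem_span_singleton.1 h
        exact pe_ne hp hx ht c hc.symm
      filter_upwards [hcont.continuousAt.eventually (hcl.isOpen_compl.mem_nhds hmem)] with s hs
      have h3 : ∀ c : ℝ, pe p s x ≠ c • p := fun c h => hs (Submodule.mem_span_singleton.2 ⟨c, h.symm⟩)
      have h0 : pe p s x ≠ 0 := by have := h3 0; rwa [zero_smul] at this
      refine ⟨⟨nu_mem (pe_mem_V hp.1 hx.1.1.1 s) h0, ?_⟩, ?_⟩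
      · have := nu_ne (c := -1) h0 h3
        rwa [neg_smul, one_smul] at this
      · have := nu_ne (c := 1) h0 h3
        rwa [one_smul] at this
  -- along the equator
  have a2 : ∀ x ∈ SU (Vp V p), ∀ y ∈ SU (Vp V p), x ≠ -y → g x = g y := by
    intro x hx y hy hxy
    have hcont : Continuous fun t : ℝ => (1 - t) • x + t • y := by fun_prop
    have := curve_const (X := OO V p) k1 k2 (γ := fun t => nu ((1 - t) • x + t • y)) ?_ ?_
    · rw [sub_zero, one_smul, zero_smul, add_zero, sub_self, zero_smul, zero_add, one_smul,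
        nu_of_norm hx.2, nu_of_norm hy.2] at this
      exact this
    · intro t ht
      exact ((contDiffAt_nu (seg_ne hx.2 hy.2 hxy ht)).comp t
        (f := fun t : ℝ => (1 - t) • x + t • y) (by fun_prop)).differentiableAt (by simp)
    · intro t ht
      filter_upwards [hcont.continuousAt.eventually (_root_.isOpen_ne.mem_nhds (seg_ne hx.2 hy.2 hxy ht))]
        with s hs
      exact SU_Vp_subset hp (nu_mem ((Vp V p).add_mem ((Vp V p).smul_mem _ hx.1)
        ((Vp V p).smul_mem _ hy.1)) hs)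
  -- a third point
  have a3 : ∀ x ∈ SU (Vp V p), g x = g (-x) := by
    intro x hx
    have h1 : ∃ w ∈ Vp V p, w ∉ (ℝ ∙ x) := by
      by_contra h
      push Not at h
      have h2 : Vp V p ≤ (ℝ ∙ x) := fun w hw => h w hw
      have h3 := Submodule.finrank_mono h2
      rw [finrank_span_singleton (ne_zero_of_norm hx.2)] at h3
      omega
    obtain ⟨w, hw, hwx⟩ := h1
    have hw0 : w ≠ 0 := fun h => hwx (h ▸ Submodule.zero_mem _)
    have hz := nu_mem hw hw0
    have h4 : ∀ c : ℝ, w ≠ c • x := fun c h => hwx (Submodule.mem_span_singleton.2 ⟨c, h.symm⟩)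
    have h5 : nu w ≠ x := by have := nu_ne (c := 1) hw0 h4; rwa [one_smul] at this
    have h6 : nu w ≠ -x := by have := nu_ne (c := -1) hw0 h4; rwa [neg_smul, one_smul] at this
    rw [a2 x hx _ hz (fun h => h6 (by rw [h, neg_neg])),
      a2 _ hz (-x) (neg_mem_SU hx) (by rwa [neg_neg])]
  have hne : (SU (Vp V p)).Nonempty := by
    have : Nontrivial (Vp V p) := Module.nontrivial_of_finrank_pos (R := ℝ) (by omega)
    obtain ⟨w, hw⟩ := exists_ne (0 : Vp V p)
    exact ⟨nu (w : H), nu_mem w.2 (fun h => hw (Subtype.ext h))⟩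
  obtain ⟨x0, hx0⟩ := hne
  refine ⟨g x0, fun x hx => ?_⟩
  rw [hθ, a1 x hx]
  congr 1
  by_cases h : nu (pe p 1 x) = -x0
  · rw [h, ← a3 x0 hx0]
  · exact a2 _ (nu_pe_one_mem hp hx) _ hx0 h

/-- **spheres of every dimension** -/
theorem exactIn_SU (m : ℕ) : ∀ (V : Submodule ℝ H), finrank ℝ V = m + 1 → ∀ j, 1 ≤ j → j < m →
    ExactIn (SU V) j := by
  induction m with
  | zero => intro V _ j h1 h2; omega
  | succ m ih =>
    intro V hV j hj hjm b hb hc hd
    have : Nontrivial V := Module.nontrivial_of_finrank_pos (R := ℝ) (by omega)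
    obtain ⟨w, hw⟩ := exists_ne (0 : V)
    obtain ⟨p, hp⟩ : ∃ p, p ∈ SU V := ⟨nu (w : H), nu_mem w.2 (fun h => hw (Subtype.ext h))⟩
    have hV' := finrank_Vp hV hp
    have hz : dp j (0 : H → Ext H) = 0 := funext fun x => map_zero (dpl j)
    obtain ⟨ζ, sζ, eζ⟩ := (exact_punct hp hj hb hc hd).dp j
    obtain ⟨η, sη, eη⟩ := (exact_punct (neg_mem_SU hp) hj hb hc hd).dp j
    rw [hz, sub_zero, hd.dp_eq] at eζ eη
    obtain ⟨i, rfl⟩ := Nat.exists_eq_add_of_le' hj
    have eζ' : Eqv (SU V \ {p}) b (F.d (dp i ζ)) := by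
      have := eζ.dp (i + 1)
      rw [hd.dp_eq] at this
      exact this.trans (Eqv.of_eq fun y hy => dp_d i (sζ.diff hy))
    have eη' : Eqv (SU V ∩ {-p}ᶜ) b (F.d (dp i η)) := by
      have := eη.dp (i + 1)
      rw [hd.dp_eq] at this
      exact this.trans (Eqv.of_eq fun y hy => dp_d i (sη.diff hy))
    have hA1 : OO V p ⊆ SU V \ {p} := fun y hy => ⟨hy.1.1, hy.2⟩
    have hA2 : OO V p ⊆ SU V ∩ {-p}ᶜ := sdiff_subset
    have sη' : Sm (SU V ∩ {-p}ᶜ) (dp i η) := Sm.dp i (X := SU V ∩ {-p}ᶜ) sη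
    have sθ : Sm (OO V p) (dp i ζ - dp i η) := ((sζ.dp i).mono hA1).sub (sη'.mono hA2)
    have cθ : Cl (OO V p) (dp i ζ - dp i η) := by
      rw [Cl, resZero_iff]
      refine (d_sub_eqv ((sζ.dp i).mono hA1) (sη'.mono hA2)).trans ?_
      have := (eζ'.mono_tan hA1).symm.sub (eη'.mono_tan hA2).symm
      rwa [sub_self] at this
    have dθ : Hom i (dp i ζ - dp i η) := (hom_dp i ζ).sub (hom_dp i η)
    have hpU : p ∈ ({-p}ᶜ : Set H) := by
      intro h
      have h1 : p = -p := h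
      have h2 : (2 : ℝ) • p = 0 := by rw [two_smul]; nth_rewrite 1 [h1]; exact neg_add_cancel _
      exact ne_zero_of_norm hp.2 ((smul_eq_zero.1 h2).resolve_left two_ne_zero)
    rcases Nat.eq_zero_or_pos i with rfl | hi
    · obtain ⟨c, hcc⟩ := const_OO hp (by rw [hV']; omega) sθ cθ dθ
      set ζ' : H → Ext H := dp 0 ζ - fun _ => algebraMap ℝ (Ext H) c with hζ'
      have s1 : Sm (SU V \ {p}) ζ' := (sζ.dp 0).sub fun _ _ => contDiffAt_const
      have e1 : Eqv (SU V \ {p}) b (F.d ζ') := by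
        refine eζ'.trans (Eqv.symm ?_)
        refine (d_sub_eqv (sζ.dp 0) (fun _ _ => contDiffAt_const)).trans (Eqv.of_eq fun x _ => ?_)
        rw [Pi.sub_apply, F.d_const, sub_zero]
      refine glue_prim (U := {-p}ᶜ) (p := p) isOpen_compl_singleton hpU s1 e1 sη' eη'
        (κ := 0) Sm.zero ?_
      rw [d_zero']
      refine Eqv.of_eq fun x hx => ?_
      have := hcc x hx
      rw [Pi.sub_apply] at this
      change dp 0 ζ x - algebraMap ℝ (Ext H) c - dp 0 η x = 0
      rw [← this]; abel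
    · have hIH := ih (Vp V p) (hV'.trans rfl) i hi (by omega)
      obtain ⟨κ, sκ, eκ⟩ := exact_OO hp hIH sθ cθ dθ
      rw [sub_zero] at eκ
      exact glue_prim (U := {-p}ᶜ) (p := p) isOpen_compl_singleton hpU (sζ.dp i) eζ' sη' eη'
        sκ eκ

/-- **(B1) over a point, every rank** -/
theorem exactIn_sphere_all {E : Type*} [NormedAddCommGroup E] [NormedSpace ℝ E]
    [FiniteDimensional ℝ E] {q : E} {P₀ : H →L[ℝ] H} (hP : ∀ v, P₀ (P₀ v) = P₀ v) {n : ℕ}
    (hr : finrank ℝ (LinearMap.range (P₀ : H →ₗ[ℝ] H)) = n) (hj : 1 ≤ j) (hjn : j + 1 < n) :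
    ExactIn (Sph ({q} : Set E) (fun _ => P₀)) j := by
  set V : Submodule ℝ H := LinearMap.range (P₀ : H →ₗ[ℝ] H) with hV
  have hmem : ∀ v, v ∈ V ↔ P₀ v = v := by
    intro v
    constructor
    · rintro ⟨w, rfl⟩; exact hP w
    · intro h; exact ⟨v, h⟩
  have h1 : ExactIn (SU V) j := exactIn_SU (n - 1) V (by rw [hr]; omega) j hj (by omega)
  have hf : SMap (Sph ({q} : Set E) (fun _ => P₀)) (SU V) (fun z : E × H => z.2) :=
    ⟨fun z _ => contDiffAt_snd, fun z hz => ⟨(hmem _).2 hz.1.2, hz.2⟩⟩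
  have hg : SMap (SU V) (Sph ({q} : Set E) (fun _ => P₀)) (fun v : H => ((q, v) : E × H)) :=
    ⟨fun v _ => contDiffAt_const.prodMk contDiffAt_id, fun v hv => ⟨⟨rfl, (hmem _).1 hv.1⟩, hv.2⟩⟩
  exact h1.transport hf hg fun z hz => Prod.ext (hz.1.1 : z.1 = q).symm rfl

end sph

end Crest.Agent.R208.T
end
end

-- ▼ part R208/TI3

/-! Row 208, block (X0) (helper595).  TI3: instances of block T over the cut locus `C_p`. -/

set_option autoImplicit false
set_option linter.unusedSectionVars false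

open MeasureTheory Set Filter Topology Module
open scoped ContDiff RealInnerProductSpace
open Crest.GeometryTopology.Submanifold
open Crest.Agent.R241.DDefs
open Crest.Agent.R241.D2
open Crest.Agent.R208.F Crest.Agent.R208.FI Crest.Agent.R208.CW

noncomputable section

namespace Crest.Agent.R208.T

/-! ### the Euler form as a real class -/
section euler
variable {E : Type} [NormedAddCommGroup E] [NormedSpace ℝ E] [FiniteDimensional ℝ E]
  {n : Type} [Fintype n] [DecidableEq n] {ι : Type} [Fintype ι] [DecidableEq ι]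
  {X : Set E} {P : E → EuclideanSpace ℝ n →L[ℝ] EuclideanSpace ℝ n}
  {W : E → (ι × Fin 2 → n) → ℝ} {d : ℕ}

theorem isRe_efR (x : E) : IsRe (ef (fun y => mtx (P y)) (wC W) x) :=
  IsRe_ef (fun _ _ _ => Complex.ofReal_im _) (fun _ => Complex.ofReal_im _)

theorem mkF_eR : mkF (eR P W) 0 = ef (fun y => mtx (P y)) (wC W) :=
  funext fun x => Cx.ext rfl (isRe_efR x).symm

/-- the Euler form is a closed even form -/
theorem OR.ec_eR (h : OR X P W) : EC X (eR P W) := by
  obtain ⟨⟨h1, h2, h3⟩, -⟩ := mem_Z_iff.1 (ef_mem_Z (OR.of h))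
  exact ⟨h1, h2, h3⟩

theorem hom_eR : Hom (2 * Fintype.card ι) (eR P W) := fun x => (degC_ef _ _ x).1

/-- the class of the real Euler form is the Euler class -/
theorem OR.rcl_eR (h : OR X P W) : rcl h.ec_eR = ec (OR.of h) :=
  cls_of_eq _ _ mkF_eR

/-- (B1) as a property -/
theorem pb1_of_OR [Nonempty ι] (hX : Sub d X) (hc : IsPreconnected X) (h : OR X P W) :
    PB1 X P (2 * Fintype.card ι) := fun _ _ hj hb hcl hd => sph_low_all hX hc h hj hb hcl hd

/-- (B2) as a property -/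
theorem pb2_of_OR [Nonempty ι] (hX : Sub d X) (hc : IsPreconnected X) (h : OR X P W) :
    PB2 X P (2 * Fintype.card ι) (eR P W) where
  high := fun _ _ hb hcl hd h0 => gysin_all hX hc h hb hcl hd h0
  low := fun _ _ hb hcl hd hj h0 => gysin_low_all hX hc h hb hcl hd hj h0

/-- forms of degree larger than the dimension vanish -/
theorem eqv_zero_of_gt {j : ℕ} {b : E → Ext E} (hX : Sub d X) (hj : d < j) (hb : Hom j b) :
    Eqv X b 0 := by
  refine eqv_iff.2 fun x hx => ?_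
  have h1 : IsDeg j (pb (Tan X x).subtype (b x)) := (hb x).pb _
  have h2 : finrank ℝ (Tan X x) = d := hX.finrank_Tan hx
  rw [h1.eq_zero (by omega)]
  simp

end euler

/-! ### the cut locus -/
section cut
variable {n N k : ℕ} {κ : ℝ} {S : Set (Euc N)} {G : Geo n N κ S} {p : Euc N}
  {ι : Type} [Fintype ι] [DecidableEq ι] {W : Euc N → (ι × Fin 2 → Fin N) → ℝ}

theorem finrank_range_P (G : Geo n N κ S) (hp : p ∈ S) :
    finrank ℝ (LinearMap.range (G.P p : Euc N →ₗ[ℝ] Euc N)) = n :=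
  (LB.pfield G).rank p hp

/-- the sphere bundle of `V_{·p}` over `C_p` is a sphere of dimension `n - 1` -/
theorem exactIn_Sph_Cut (h : GT.Bla G k) (hp : p ∈ S) {j : ℕ} (hj : 1 ≤ j) (hjn : j + 1 < n) :
    ExactIn (Sph (GP.Cut S p) (FV.PC h p)) j :=
  ExactIn.transport (FV.smap_Sph_Cut h hp) (FV.smap_Sph_pt h hp)
    (fun _ hx => FV.arr_arr_Cut h hp hx)
    (exactIn_sphere_all ((LB.pfield G).idem p hp) (finrank_range_P G hp) hj hjn)

theorem pb2_Cut (h : GT.Bla G k) (hk : 2 ≤ k) (hn : 2 ≤ n) (hp : p ∈ S)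
    (hι : 2 * Fintype.card ι = k) (hW : OR (GP.Cut S p) (FV.PC h p) W) :
    PB2 (GP.Cut S p) (FV.PC h p) k (eR (FV.PC h p) W) := by
  have : Nonempty ι := Fintype.card_pos_iff.1 (by omega)
  have := pb2_of_OR (FV.sub_Cut h hp) (FV.preconn_Cut h.bl h.ty hn hp) hW
  rwa [hι] at this

/-- **(I3)** closed forms on `C_p` are multiples of powers of the Euler form of `V_{·p}` -/
theorem Cut_classes (h : GT.Bla G k) (hk : 2 ≤ k) (hkn : k < n) (hp : p ∈ S)
    (hι : 2 * Fintype.card ι = k) (hW : OR (GP.Cut S p) (FV.PC h p) W) (j : ℕ)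
    {b : Euc N → Ext (Euc N)} (hb : Sm (GP.Cut S p) b) (hc : Cl (GP.Cut S p) b) (hd : Hom j b) :
    ∃ c : ℝ, (¬ k ∣ j → c = 0) ∧ Coh (GP.Cut S p) b (c • eR (FV.PC h p) W ^ (j / k)) := by
  rcases lt_or_ge j (n - 1) with hj | hj
  · exact base_classes (FV.sub_Cut h hp) (FV.preconn_Cut h.bl h.ty (by omega) hp) (by omega)
      (pb2_Cut h hk (by omega) hp hι hW) hW.ec_eR.sm hW.ec_eR.cl
      (D := n - 1) (fun i h1 h2 => exactIn_Sph_Cut h hp h1 (by omega)) j b hj hb hc hd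
  · refine ⟨0, fun _ => rfl, ?_⟩
    rw [zero_smul]
    exact Coh.of_eqv (eqv_zero_of_gt (FV.sub_Cut h hp) (by omega) hd)

end cut

end Crest.Agent.R208.T
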