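import Crest.Agent.R208.EA5
import Crest.Agent.R208.EW9
import Crest.Agent.R208.TI3
import Crest.Agent.R208.EX14

-- ▼ part R208/EA6
section

/-! Row 208, (8,2), block EA (helper595).  EA6: the forms `u`, `e₂` over `B'` of helper221's
`ZA.bound`: (E), degree of `u`, class of `e₂`. -/

set_option autoImplicit false
set_option linter.unusedSectionVars false
set_option linter.unusedVariables false
set_option maxHeartbeats 1000000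

open MeasureTheory Set Filter Topology Module Matrix
open scoped ContDiff RealInnerProductSpace
open Crest.GeometryTopology.Submanifold
open Crest.Agent.R241.DDefs Crest.Agent.R241.D Crest.Agent.R241.D2
open Crest.Agent.R208.F Crest.Agent.R208.FI Crest.Agent.R208.CW Crest.Agent.R208.T
open Crest.Agent.R208.CM
open Crest.Agent.R208.VC
open Crest.Agent.R208.EX
open Crest.Agent.R208.TP (QM TT CV pu₁ pu₂ push up)
open Crest.Agent.R208.MS (Fam oc En)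

noncomputable section

namespace Crest.Agent.R208.EA

open Crest.Agent.R208.NN (Wt Rt nuP)
open Crest.Agent.R208.DD
open Crest.Agent.R208.EP (topr)

section u
variable {E H₁ H₂ : Type} [NormedAddCommGroup E] [NormedSpace ℝ E] [FiniteDimensional ℝ E]
  [NormedAddCommGroup H₁] [InnerProductSpace ℝ H₁] [FiniteDimensional ℝ H₁]
  [MeasurableSpace H₁] [BorelSpace H₁] (μ₁ : Measure H₁) [μ₁.IsAddHaarMeasure]
  [NormedAddCommGroup H₂] [InnerProductSpace ℝ H₂] [FiniteDimensional ℝ H₂]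
  [MeasurableSpace H₂] [BorelSpace H₂] (μ₂ : Measure H₂) [μ₂.IsAddHaarMeasure]
  {X : Set E} {P₁ : E → H₁ →L[ℝ] H₁} {P₂ : E → H₂ →L[ℝ] H₂} {r₁ r₂ j q₁ q₂ : ℕ} {R : ℝ}
  {τ₁' : E × H₁ → Ext (E × H₁)} {τ₂' : E × H₂ → Ext (E × H₂)}
  {V : (E × H₂) × H₁ → Ext ((E × H₂) × H₁)}

/-- `pu₂ V` is closed, smooth, homogeneous -/
theorem u_spec (hP₁ : PField X r₁ P₁) (hP₂ : PField X r₂ P₂)
    (hτ₁ : CSF X (fun x => 1 - P₁ x) R τ₁') (hτ₂ : CSF X (fun x => 1 - P₂ x) R τ₂')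
    (hV : CV X P₂ P₁ R V) (d₁ : Hom q₁ τ₁') (d₂ : Hom q₂ τ₂') (dV : Hom (j + r₂ + r₁) V)
    (hq₁ : q₁ + r₁ = finrank ℝ H₁) (hq₂ : q₂ + r₂ = finrank ℝ H₂) :
    Sm X (pu₂ μ₁ μ₂ P₂ τ₂' P₁ τ₁' V) ∧ Cl X (pu₂ μ₁ μ₂ P₂ τ₂' P₁ τ₁' V) ∧
      Hom j (pu₂ μ₁ μ₂ P₂ τ₂' P₁ τ₁' V) :=
  ⟨TP.sm_pu₂ μ₁ μ₂ hP₁ hP₂ hτ₁ hτ₂ hV, TP.cl_pu₂ μ₁ μ₂ hP₁ hP₂ hτ₁ hτ₂ hV,
    TP.hom_pu₂ μ₁ μ₂ d₁ d₂ dV hq₁ hq₂⟩

end u

variable {n N K k : ℕ} {κ : ℝ} {S : Set (Euc N)} {G : Geo n N κ S} {lg : Euc N → Euc N → Euc N}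
  {ρ : Euc N → Euc N} {r C r' Kr B w δ : ℝ} {PN : Euc N × Euc N → Wt N K →L[ℝ] Wt N K}
  {Rr : ℝ → EuclideanSpace ℝ (((Fin K × Fin 2) × Fin N) ⊕ ((Fin K × Fin 2) × Fin N)) →L[ℝ]
    EuclideanSpace ℝ (((Fin K × Fin 2) × Fin N) ⊕ ((Fin K × Fin 2) × Fin N))}
  {xi0 : Euc N × Euc N →
    EuclideanSpace ℝ (((Fin K × Fin 2) × Fin N) ⊕ ((Fin K × Fin 2) × Fin N)) →L[ℝ] Euc N}
  {δ₂ : ℝ} {ε ε₂ E₀ η₀ : ℝ} {J : ℕ} {D : ED N}
  {nB l m m' c s' c₂ : ℕ} {g : Euc N × Euc N → Fin m → ℂ}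
  {g' : (Euc N × Euc N) × HW.U l → Fin m' → ℂ} {p : MM m' → MM m}
  {T : Euc N × Euc N → Wt N K →L[ℝ] EuclideanSpace ℝ (Fin (2 * c + 1))}
  {P' : MM m → EuclideanSpace ℝ (Fin (2 * c + 1)) →L[ℝ] EuclideanSpace ℝ (Fin (2 * c + 1))}
  {o' : MM m → Ext (EuclideanSpace ℝ (Fin (2 * c + 1)))}
  {W' : MM m → (Fin (s' + 1) × Fin 2 → Fin (2 * c + 1)) → ℝ} {w₀ : ℝ}
  {T₂ : (Euc N × Euc N) × HW.U l →
    EuclideanSpace ℝ (((Fin K × Fin 2) × Fin N) ⊕ ((Fin K × Fin 2) × Fin N)) →L[ℝ]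
      EuclideanSpace ℝ (Fin (2 * c₂))}
  {P₂' : MM m' → EuclideanSpace ℝ (Fin (2 * c₂)) →L[ℝ] EuclideanSpace ℝ (Fin (2 * c₂))}
  {W₂' : MM m' → (Fin (2 * 3 + 1) × Fin 2 → Fin (2 * c₂)) → ℝ}
  {θ₀ : Euc N × Euc N → Ext (Euc N × Euc N)} {w₁ Fc : MM m → Ext (MM m)}

/-- **class of `e₂`** (helper607's `coh_WW` for the field of helper382's `th82`) -/
theorem e2_class (H : HW.HD nB l (L.US G) (gf G) g g' p)
    (hUc : IsPreconnected (L.US G))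
    (hN : EqF (L.US G) (gf G) (fun t => Rt (nuP K) t) (2 * 3 + 1) PN)
    (hO : TP.DscO (L.US G) (gf G) g (fun t => Rt (nuP K) t) 3 PN c s' T P' o' W')
    (D₂ : Dsc2 (Fin (2 * 3 + 1)) (HW.XX (L.US G) l) g' (HW.ph l (gf G))
      (fun t => Rt (nuP K) (2 * t)) (-1) (fun z => PN z.1) T₂ P₂' W₂')
    (hθ₀ : Conn (L.US G) (gf G) θ₀) (hF : Curv (L.US G) g θ₀ Fc) :
    ∃ ε : ℝ, (ε = 1 ∨ ε = -1) ∧ Coh (Quo (HW.XX (L.US G) l) g') ((2 : ℝ) • eR P₂' W₂')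
      ((2 * (ε * (2 ^ 7 * (Nat.factorial 7)))) • F.pull p (topr 7 (1 / 2) P' Fc)) := by
  have hxx := hO.xx H
  have hDD := (hN.xx l).dd2' (wgt_one H.emb') hxx.triv D₂.triv
  obtain ⟨ε, hε, h1⟩ := EW.coh_WW H hUc hDD hN.rep (fun t => rfl) hO.triv hN.pf hN.eq hO.pf
    hO.eqP hxx.pf hxx.eqP D₂.or (Fintype.card_fin _) D₂.eqP hθ₀ hF
  refine ⟨ε, hε, ?_⟩
  have h2 := h1.smul 2
  rwa [smul_smul] at h2

/-- **Level two of (8,2), everything on `B'`**: the forms `u`, `e₂` with (E). -/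
theorem level2 (hD : D.OK) (hDS : D.S = S) (H : HW.HD nB l (L.US G) (gf G) g g' p)
    (hUc : IsPreconnected (L.US G)) (hUn : (L.US G).Nonempty)
    (hN : EqF (L.US G) (gf G) (fun t => Rt (nuP K) t) (2 * 3 + 1) PN)
    (hO : TP.DscO (L.US G) (gf G) g (fun t => Rt (nuP K) t) 3 PN c s' T P' o' W')
    (hRr : (fun t => Rr (2 * t)) = R2 (fun t => Rt (nuP K) (2 * t)) (-1))
    (D₂ : Dsc2 (Fin (2 * 3 + 1)) (HW.XX (L.US G) l) g' (HW.ph l (gf G))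
      (fun t => Rt (nuP K) (2 * t)) (-1) (fun z => PN z.1) T₂ P₂' W₂')
    (hc₂ : 2 * (2 * 3 + 1) + 2 ≤ 2 * c₂)
    (h : FT.D2 G k K lg ρ r C r' Kr B w δ PN ε J E₀ η₀ (NN PN) Rr xi0 δ₂ ε₂)
    (hB : ∀ z ∈ FT.TX (HW.XX (L.US G) l) Prod.fst (NN PN) PN, 0 < FT.c2 z →
      En (oc (FT.P2x (HW.ph l (gf G)) N K Rr) (FT.f2x G lg ρ w J xi0 ε ε₂ Prod.fst) z) ≤ D.B)
    (hθ₀ : Conn (L.US G) (gf G) θ₀) (hF : Curv (L.US G) g θ₀ Fc)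
    (hdeg : Hom 8 D.om) (hp : D.p = 11) (hq : D.q = 7)
    (hpu : ∀ V'' : MM m × EuclideanSpace ℝ (Fin (2 * c + 1)) →
        Ext (MM m × EuclideanSpace ℝ (Fin (2 * c + 1))),
      Sm (Tot (Quo (L.US G) g) P') V'' → Cl (Tot (Quo (L.US G) g) P') V'' →
      VE.Cs (Quo (L.US G) g) P' 2 V'' → Eqv (Tot (L.US G) PN) (F.pull (Th (jj g) T) V'')
        (vv (VC.dbl (phR (gf G) fun t => Rt (nuP K) t))
          ((1 / 2 : ℝ) • F.d (F.pull Prod.fst θ₀)) D.p D.q D.r D.s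
          (F.pull (FL.f1 G lg ρ w J ε) D.om)) →
      Coh (Quo (L.US G) g) (VE.pu (volume : Measure (EuclideanSpace ℝ (Fin (2 * c + 1)))) P'
        (thomF (fun y => 1 - P' y) W') 2 V'') w₁) :
    ∃ (s₂ : ℕ) (W₂'' : MM m' → (Fin (s₂ + 1) × Fin 2 → Fin (2 * c₂)) → ℝ) (c₀ : ℝ)
      (η : _) (V' : (MM m' × EuclideanSpace ℝ (Fin (2 * c₂))) × EuclideanSpace ℝ (Fin (2 * c + 1)) →
        Ext ((MM m' × EuclideanSpace ℝ (Fin (2 * c₂))) × EuclideanSpace ℝ (Fin (2 * c + 1)))),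
      OR (Quo (HW.XX (L.US G) l) g') (fun y => 1 - P₂' y) W₂'' ∧
      ThomPair (volume : Measure (EuclideanSpace ℝ (Fin (2 * c₂)))) (Quo (HW.XX (L.US G) l) g') P₂'
        (2 * (2 * 3 + 1)) 3 c₀ ((2 : ℝ) • eR P₂' W₂') (thomF P₂' W₂')
        (thomF (fun x => 1 - P₂' x) W₂'') ∧
      D.IsEta (EX.Up (FT.TX (HW.XX (L.US G) l) Prod.fst (NN PN) PN) FT.c2)
        (FT.P2x (HW.ph l (gf G)) N K Rr) (F.pull EA.b₂ (HW.th l θ₀))
        (FT.f2x G lg ρ w J xi0 ε ε₂ Prod.fst) η ∧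
      ContDiff ℝ ∞ V' ∧ CV (Quo (HW.XX (L.US G) l) g') P₂' (fun y => P' (p y)) 3 V' ∧
      Hom 29 V' ∧
      Eqv (FT.TX (HW.XX (L.US G) l) Prod.fst (NN PN) PN)
        (F.pull (EA.Q₂ (jj g') T₂ fun z => T z.1) V')
        (dp 29 (D.rel (FT.P2x (HW.ph l (gf G)) N K Rr) (F.pull EA.b₂ (HW.th l θ₀))
          (FT.f2x G lg ρ w J xi0 ε ε₂ Prod.fst) FT.c2 η)) ∧
      ∀ u : MM m' → Ext (MM m'), u = (pu₂ (volume : Measure (EuclideanSpace ℝ (Fin (2 * c + 1))))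
          (volume : Measure (EuclideanSpace ℝ (Fin (2 * c₂)))) P₂'
          (thomF (fun x => 1 - P₂' x) W₂'') (fun y => P' (p y))
          (thomF (fun y => 1 - P' (p y)) fun y => W' (p y)) V') →
        Sm (Quo (HW.XX (L.US G) l) g') u ∧ Cl (Quo (HW.XX (L.US G) l) g') u ∧ Hom 8 u ∧
        EC (Quo (HW.XX (L.US G) l) g') u ∧
        EC (Quo (HW.XX (L.US G) l) g') ((2 : ℝ) • eR P₂' W₂') ∧
        (∃ ε : ℝ, (ε = 1 ∨ ε = -1) ∧ Coh (Quo (HW.XX (L.US G) l) g') ((2 : ℝ) • eR P₂' W₂')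
          ((2 * (ε * (2 ^ 7 * (Nat.factorial 7)))) • F.pull p (topr 7 (1 / 2) P' Fc))) ∧
        Coh (Quo (HW.XX (L.US G) l) g') (c₀ • F.pull p w₁) (u * ((2 : ℝ) • eR P₂' W₂')) := by
  obtain ⟨s₂, W₂'', c₀, η, V', a1, a2, a3, a4, a5, a6, a7, a8⟩ :=
    E82 (a := 7) (s := 3) hD hDS H hUc hUn hN hO hRr ⟨-1, by norm_num⟩ D₂ hc₂ h hB hθ₀ hdeg
      (by rw [hp]) (by rw [hq]) hpu
  refine ⟨s₂, W₂'', c₀, η, V', a1, a2, a3, a4, a5, a6, a7, ?_⟩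
  rintro u rfl
  have hxx := hO.xx H
  have hF2 := TP.frm_xx (k := l) H hN hO (Fintype.card_fin _) ⟨-1, by norm_num⟩ D₂
  have hp2' : PField (Quo (HW.XX (L.US G) l) g') (2 * (2 * 3 + 1)) P₂' := by
    rw [two_mul (2 * 3 + 1)]; exact hF2.p2'
  have hco := hxx.co H.cloB'.sub
  obtain ⟨u1, u2, u3⟩ := u_spec (j := 8) (q₁ := 2 * Fintype.card (Fin (s' + 1)))
    (q₂ := finrank ℝ (EuclideanSpace ℝ (Fin (2 * c₂))) - 2 * (2 * 3 + 1))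
    (volume : Measure (EuclideanSpace ℝ (Fin (2 * c + 1))))
    (volume : Measure (EuclideanSpace ℝ (Fin (2 * c₂)))) hxx.pf hp2' hco.csf a2.csf' a5
    (fun z => thomF_deg z) (fun z => a2.deg' z) a6
    (by rw [Fintype.card_fin, finrank_euclideanSpace, Fintype.card_fin]; have := hO.dim; omega)
    (by rw [finrank_euclideanSpace, Fintype.card_fin]; omega)
  have k1 : EC (Quo (HW.XX (L.US G) l) g') (eR P₂' W₂') := D₂.or.ec_eR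
  exact ⟨u1, u2, u3, EC.of_hom (j := 4) u1 u2 u3, k1.smul 2, e2_class H hUc hN hO D₂ hθ₀ hF, a8⟩

end Crest.Agent.R208.EA
end
end

-- ▼ part R208/EA7

/-! Row 208, (8,2), block EA (helper595).  EA7: level two over helper530's geometric package
`Gm82` (`s = 3`). -/

set_option autoImplicit false
set_option linter.unusedSectionVars false
set_option linter.unusedVariables false
set_option maxHeartbeats 1000000

open MeasureTheory Set Filter Topology Module Matrix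
open scoped ContDiff RealInnerProductSpace Real
open Crest.GeometryTopology.Submanifold
open Crest.Agent.R241.DDefs Crest.Agent.R241.D Crest.Agent.R241.D2
open Crest.Agent.R208.F Crest.Agent.R208.FI Crest.Agent.R208.CW Crest.Agent.R208.T
open Crest.Agent.R208.CM (Cir gen Rep Triv Qd phR Th gf Emb Quo MM jj Curv)
open Crest.Agent.R208.LB (al)
open Crest.Agent.R208.VC hiding Wt
open Crest.Agent.R208.EX
open Crest.Agent.R208.FT (D2 XI RN xiN gp lev)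
open Crest.Agent.R208.NN (Wt Rt nuP)
open Crest.Agent.R208.TP (QM TT CV pu₁ pu₂ push up)
open Crest.Agent.R208.MS (Fam oc En)
open Crest.Agent.R208.EP (topr)

noncomputable section

namespace Crest.Agent.R208.EA

variable {n N K m m' l c s' c₂ : ℕ} {κ : ℝ} {S : Set (Euc N)} {G : Geo n N κ S}
  {lg : Euc N → Euc N → Euc N} {ρ : Euc N → Euc N} {r C r' Kr B w δ δ₂ : ℝ}
  {PN : Euc N × Euc N → Wt N K →L[ℝ] Wt N K}
  {h : GT.Bla G (2 * 3 + 2)} {g : Euc N × Euc N → Fin m → ℂ} {Fc : MM m → Ext (MM m)}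
  {g' : (Euc N × Euc N) × HW.U l → Fin m' → ℂ} {p : MM m' → MM m}
  {T : Euc N × Euc N → Wt N K →L[ℝ] EuclideanSpace ℝ (Fin (2 * c + 1))}
  {P' : MM m → EuclideanSpace ℝ (Fin (2 * c + 1)) →L[ℝ] EuclideanSpace ℝ (Fin (2 * c + 1))}
  {o' : MM m → Ext (EuclideanSpace ℝ (Fin (2 * c + 1)))}
  {W' : MM m → (Fin (s' + 1) × Fin 2 → Fin (2 * c + 1)) → ℝ}
  {oN : Euc N × Euc N → Ext (Wt N K)}
  {T₂ : (Euc N × Euc N) × HW.U l →
    EuclideanSpace ℝ (((Fin K × Fin 2) × Fin N) ⊕ ((Fin K × Fin 2) × Fin N)) →L[ℝ]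
      EuclideanSpace ℝ (Fin (2 * c₂))}
  {P₂' : MM m' → EuclideanSpace ℝ (Fin (2 * c₂)) →L[ℝ] EuclideanSpace ℝ (Fin (2 * c₂))}
  {W₂' : MM m' → (Fin (2 * 3 + 1) × Fin 2 → Fin (2 * c₂)) → ℝ}
  {D : ED N} {ε ε₂ E₀ η₀ : ℝ} {J : ℕ} {w₁ : MM m → Ext (MM m)}

/-- helper812's number: the class on `B` of the doubled level-one family is `w₁` -/
def Cls2 (G : Geo n N κ S) (K : ℕ) (lg : Euc N → Euc N → Euc N) (ρ : Euc N → Euc N) (w : ℝ) (J : ℕ)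
    (ε : ℝ) (PN : Euc N × Euc N → Wt N K →L[ℝ] Wt N K) (g : Euc N × Euc N → Fin m → ℂ)
    (T : Euc N × Euc N → Wt N K →L[ℝ] EuclideanSpace ℝ (Fin (2 * c + 1)))
    (P' : MM m → EuclideanSpace ℝ (Fin (2 * c + 1)) →L[ℝ] EuclideanSpace ℝ (Fin (2 * c + 1)))
    (W' : MM m → (Fin (s' + 1) × Fin 2 → Fin (2 * c + 1)) → ℝ) (D : ED N)
    (w₁ : MM m → Ext (MM m)) : Prop :=
  ∀ V'' : MM m × EuclideanSpace ℝ (Fin (2 * c + 1)) →
      Ext (MM m × EuclideanSpace ℝ (Fin (2 * c + 1))),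
    Sm (Tot (Quo (L.US G) g) P') V'' → Cl (Tot (Quo (L.US G) g) P') V'' →
    VE.Cs (Quo (L.US G) g) P' 2 V'' → Eqv (Tot (L.US G) PN) (F.pull (Th (jj g) T) V'')
      (vv (VC.dbl (phR (gf G) fun t => Rt (nuP K) t))
        ((1 / 2 : ℝ) • F.d (F.pull Prod.fst (al (N := N)))) D.p D.q D.r D.s
        (F.pull (FL.f1 G lg ρ w J ε) D.om)) →
    Coh (Quo (L.US G) g) (VE.pu (volume : Measure (EuclideanSpace ℝ (Fin (2 * c + 1)))) P'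
      (thomF (fun y => 1 - P' y) W') 2 V'') w₁

/-- **Level two of (8,2) over the geometric package** -/
theorem level2_Gm (Q : Gm82 h K l lg ρ r C r' Kr B w δ δ₂ PN g Fc g' p T P' o' W' oN T₂ P₂' W₂')
    (hD : D.OK) (hDS : D.S = S)
    (h2 : D2 G (2 * 3 + 2) K lg ρ r C r' Kr B w δ PN ε J E₀ η₀ (DD.NN PN) (RN N K) (xiN h PN)
      δ₂ ε₂) (hη : 2 * η₀ ≤ π - (δ / 4) * ε ^ 2) (hlev : lev δ δ₂ ε ε₂ ≤ D.B)
    (hdeg : Hom 8 D.om) (hp : D.p = 11) (hq : D.q = 7)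
    (hpu : Cls2 G K lg ρ w J ε PN g T P' W' D w₁) :
    ∃ (s₂ : ℕ) (W₂'' : MM m' → (Fin (s₂ + 1) × Fin 2 → Fin (2 * c₂)) → ℝ) (c₀ : ℝ)
      (η : _) (V' : (MM m' × EuclideanSpace ℝ (Fin (2 * c₂))) × EuclideanSpace ℝ (Fin (2 * c + 1)) →
        Ext ((MM m' × EuclideanSpace ℝ (Fin (2 * c₂))) × EuclideanSpace ℝ (Fin (2 * c + 1)))),
      OR (Quo (HW.XX (L.US G) l) g') (fun y => 1 - P₂' y) W₂'' ∧
      ThomPair (volume : Measure (EuclideanSpace ℝ (Fin (2 * c₂)))) (Quo (HW.XX (L.US G) l) g') P₂'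
        (2 * (2 * 3 + 1)) 3 c₀ ((2 : ℝ) • eR P₂' W₂') (thomF P₂' W₂')
        (thomF (fun x => 1 - P₂' x) W₂'') ∧
      D.IsEta (EX.Up (FT.TX (HW.XX (L.US G) l) Prod.fst (DD.NN PN) PN) FT.c2)
        (FT.P2x (HW.ph l (gf G)) N K (RN N K)) (F.pull EA.b₂ (HW.th l (al (N := N))))
        (FT.f2x G lg ρ w J (xiN h PN) ε ε₂ Prod.fst) η ∧
      ContDiff ℝ ∞ V' ∧ CV (Quo (HW.XX (L.US G) l) g') P₂' (fun y => P' (p y)) 3 V' ∧
      Hom 29 V' ∧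
      Eqv (FT.TX (HW.XX (L.US G) l) Prod.fst (DD.NN PN) PN)
        (F.pull (EA.Q₂ (jj g') T₂ fun z => T z.1) V')
        (dp 29 (D.rel (FT.P2x (HW.ph l (gf G)) N K (RN N K)) (F.pull EA.b₂ (HW.th l (al (N := N))))
          (FT.f2x G lg ρ w J (xiN h PN) ε ε₂ Prod.fst) FT.c2 η)) ∧
      ∀ u : MM m' → Ext (MM m'), u = (pu₂ (volume : Measure (EuclideanSpace ℝ (Fin (2 * c + 1))))
          (volume : Measure (EuclideanSpace ℝ (Fin (2 * c₂)))) P₂'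
          (thomF (fun x => 1 - P₂' x) W₂'') (fun y => P' (p y))
          (thomF (fun y => 1 - P' (p y)) fun y => W' (p y)) V') →
        Sm (Quo (HW.XX (L.US G) l) g') u ∧ Cl (Quo (HW.XX (L.US G) l) g') u ∧ Hom 8 u ∧
        EC (Quo (HW.XX (L.US G) l) g') u ∧
        EC (Quo (HW.XX (L.US G) l) g') ((2 : ℝ) • eR P₂' W₂') ∧
        (∃ ε : ℝ, (ε = 1 ∨ ε = -1) ∧ Coh (Quo (HW.XX (L.US G) l) g') ((2 : ℝ) • eR P₂' W₂')
          ((2 * (ε * (2 ^ 7 * (Nat.factorial 7)))) • F.pull p (topr 7 (1 / 2) P' Fc))) ∧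
        Coh (Quo (HW.XX (L.US G) l) g') (c₀ • F.pull p w₁) (u * ((2 : ℝ) • eR P₂' W₂')) :=
  level2 hD hDS Q.hd (FV.preconn_US h.bl (by have := Q.hkn; omega))
    (Crest.Agent.R208.T.nonempty_UST h h.bl.conn.nonempty.some_mem) Q.eqF Q.dsc (funext FT.RN_two)
    Q.dsc2 Q.hc₂ h2 (fun z hz hc => (h2.level_unif hη (FT.eqm_XX l) hz hc).trans hlev)
    (CM.conn_al (FV.sub_S h.bl)) Q.curv hdeg hp hq hpu

end Crest.Agent.R208.EA
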