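import Mathlib
import Crest.Agent.R208.NN1b
import Crest.Agent.R208.SV5
import Crest.Agent.R208.NB8
import Crest.Agent.R208.NB9

-- ▼ part R208/KR0
section

/-!
R208, block KF (helper844), file KR0: the Wirtinger inequality for antiperiodic functions with
values in a Hilbert space and the positivity of the square wave kernel.
-/

set_option autoImplicit false

open Set Filter Topology MeasureTheory Real
open scoped RealInnerProductSpace Interval

noncomputable section

namespace Crest.Agent.R208.KR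

variable {H : Type*} [NormedAddCommGroup H] [InnerProductSpace ℝ H]

/-- Wirtinger on `[0, π]` with one zero. -/
theorem wirt_half {U U' : ℝ → H} (hd : ∀ t, HasDerivAt U (U' t) t) (hc : Continuous U')
    (h0 : U 0 = 0) : ∫ t in (0:ℝ)..π, ‖U t‖ ^ 2 ≤ 4 * ∫ t in (0:ℝ)..π, ‖U' t‖ ^ 2 := by
  have hUc : Continuous U := continuous_iff_continuousAt.2 fun t => (hd t).continuousAt
  -- bound
  obtain ⟨M, hM⟩ := (isCompact_Icc (a := (0:ℝ)) (b := π)).bddAbove_image hc.norm.continuousOn
  have hM' : ∀ t ∈ Icc (0:ℝ) π, ‖U' t‖ ≤ M := fun t ht => hM ⟨t, ht, rfl⟩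
  have hM0 : 0 ≤ M := (norm_nonneg _).trans (hM' 0 ⟨le_rfl, pi_pos.le⟩)
  have hUb : ∀ t ∈ Icc (0:ℝ) π, ‖U t‖ ≤ M * t := by
    intro t ht
    have := norm_image_sub_le_of_norm_deriv_le_segment' (f := U) (f' := U') (a := 0) (b := t)
      (C := M) (fun x _ => (hd x).hasDerivWithinAt) (fun x hx => hM' x ⟨hx.1, hx.2.le.trans ht.2⟩)
      t ⟨ht.1, le_rfl⟩
    simpa [h0] using this
  -- the key inequality on [ε, π]
  have key : ∀ ε, 0 < ε → ε < π →
      -(2 * (M ^ 2 * ε * (ε / sin (ε / 2)))) ≤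
        4 * (∫ t in ε..π, ‖U' t‖ ^ 2) - ∫ t in ε..π, ‖U t‖ ^ 2 := by
    intro ε hε hεπ
    set F : ℝ → ℝ := fun t => 2 * (cos (t / 2) / sin (t / 2)) * ‖U t‖ ^ 2 with hF
    have hs : ∀ t ∈ Icc ε π, sin (t / 2) ≠ 0 := fun t ht =>
      (sin_pos_of_pos_of_lt_pi (by linarith [ht.1]) (by linarith [ht.2, pi_pos])).ne'
    have hdF : ∀ t ∈ Icc ε π, HasDerivAt F
        (-(‖U t‖ ^ 2 / sin (t / 2) ^ 2) + 4 * (cos (t / 2) / sin (t / 2)) * ⟪U t, U' t⟫) t := by
      intro t ht
      have hst := hs t ht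
      have h2 : HasDerivAt (fun t : ℝ => t / 2) (1 / 2) t := by
        simpa using (hasDerivAt_id t).div_const 2
      have hcos := h2.cos
      have hsin := h2.sin
      have hq := (hcos.div hsin hst).const_mul 2
      have hn : HasDerivAt (fun t => ‖U t‖ ^ 2) (2 * ⟪U t, U' t⟫) t := (hd t).norm_sq
      have := hq.mul hn
      refine this.congr_deriv ?_
      have e1 := sin_sq_add_cos_sq (t / 2)
      have e2 : cos (t / 2) ^ 2 = 1 - sin (t / 2) ^ 2 := by linarith
      simp only [Pi.div_apply]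
      field_simp
      rw [e2]
      ring
    have hcs : ContinuousOn (fun t : ℝ => cos (t / 2) / sin (t / 2)) (Icc ε π) :=
      ContinuousOn.div (by fun_prop) (by fun_prop) hs
    have hcont : ContinuousOn (fun t => -(‖U t‖ ^ 2 / sin (t / 2) ^ 2) +
        4 * (cos (t / 2) / sin (t / 2)) * ⟪U t, U' t⟫) (Icc ε π) := by
      refine ContinuousOn.add (ContinuousOn.neg ?_) ?_
      · exact ContinuousOn.div (by fun_prop) (by fun_prop) fun t ht => pow_ne_zero _ (hs t ht)
      · exact (continuousOn_const.mul hcs).mul (hUc.inner hc).continuousOn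
    have hint := intervalIntegral.integral_eq_sub_of_hasDerivAt (a := ε) (b := π) (f := F)
      (fun t ht => hdF t (by rwa [uIcc_of_le hεπ.le] at ht))
      (by
        refine ContinuousOn.intervalIntegrable ?_
        rw [uIcc_of_le hεπ.le]; exact hcont)
    have hFπ : F π = 0 := by simp [hF]
    have hFε : F ε ≤ 2 * (M ^ 2 * ε * (ε / sin (ε / 2))) := by
      have hsε : 0 < sin (ε / 2) := sin_pos_of_pos_of_lt_pi (by linarith) (by linarith [pi_pos])
      have h1 := hUb ε ⟨hε.le, hεπ.le⟩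
      have h2 : ‖U ε‖ ^ 2 ≤ (M * ε) ^ 2 := by gcongr
      have h3 : cos (ε / 2) ≤ 1 := cos_le_one _
      have h3' : 0 ≤ cos (ε / 2) := cos_nonneg_of_neg_pi_div_two_le_of_le (by linarith [pi_pos])
        (by linarith)
      calc F ε = 2 * (cos (ε / 2) / sin (ε / 2)) * ‖U ε‖ ^ 2 := rfl
        _ ≤ 2 * (1 / sin (ε / 2)) * (M * ε) ^ 2 := by gcongr
        _ = 2 * (M ^ 2 * ε * (ε / sin (ε / 2))) := by ring
    -- pointwise identity
    have hint2 : (4 * (∫ t in ε..π, ‖U' t‖ ^ 2) - ∫ t in ε..π, ‖U t‖ ^ 2) =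
        (∫ t in ε..π, ‖(2:ℝ) • U' t - (cos (t / 2) / sin (t / 2)) • U t‖ ^ 2) +
          ∫ t in ε..π, (-(‖U t‖ ^ 2 / sin (t / 2) ^ 2) +
            4 * (cos (t / 2) / sin (t / 2)) * ⟪U t, U' t⟫) := by
      rw [← intervalIntegral.integral_const_mul, ← intervalIntegral.integral_sub,
        ← intervalIntegral.integral_add]
      · refine intervalIntegral.integral_congr fun t ht => ?_
        rw [uIcc_of_le hεπ.le] at ht
        have hst := hs t ht
        show 4 * ‖U' t‖ ^ 2 - ‖U t‖ ^ 2 = _ + _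
        rw [norm_sub_sq_real, norm_smul, norm_smul, real_inner_smul_left, real_inner_smul_right,
          real_inner_comm (U t) (U' t), mul_pow, mul_pow]
        have e1 := sin_sq_add_cos_sq (t / 2)
        have e2 : cos (t / 2) ^ 2 = 1 - sin (t / 2) ^ 2 := by linarith
        have e3 : ‖cos (t / 2) / sin (t / 2)‖ ^ 2 = (1 - sin (t / 2) ^ 2) / sin (t / 2) ^ 2 := by
          rw [Real.norm_eq_abs, sq_abs, div_pow, e2]
        rw [e3]
        simp only [Real.norm_ofNat]
        field_simp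
        ring
      · refine ContinuousOn.intervalIntegrable ?_
        rw [uIcc_of_le hεπ.le]
        exact ((continuousOn_const.smul hc.continuousOn).sub (hcs.smul hUc.continuousOn)).norm.pow 2
      · refine ContinuousOn.intervalIntegrable ?_
        rw [uIcc_of_le hεπ.le]; exact hcont
      · exact (by fun_prop : Continuous fun t => 4 * ‖U' t‖ ^ 2).intervalIntegrable _ _
      · exact (by fun_prop : Continuous fun t => ‖U t‖ ^ 2).intervalIntegrable _ _
    rw [hint2, hint, hFπ]
    have hpos : 0 ≤ ∫ t in ε..π, ‖(2:ℝ) • U' t - (cos (t / 2) / sin (t / 2)) • U t‖ ^ 2 :=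
      intervalIntegral.integral_nonneg hεπ.le fun t _ => by positivity
    linarith
  -- the limit ε → 0
  have hsl : Tendsto (fun ε : ℝ => ε / sin (ε / 2)) (𝓝[>] 0) (𝓝 2) := by
    have h1 : HasDerivAt (fun t : ℝ => sin (t / 2)) (1 / 2) 0 := by
      have h2 : HasDerivAt (fun t : ℝ => t / 2) (1 / 2) 0 := by
        simpa using (hasDerivAt_id (0:ℝ)).div_const 2
      simpa using h2.sin
    have h3 := (hasDerivAt_iff_tendsto_slope.1 h1).mono_left
      (nhdsWithin_mono _ (fun x hx => ne_of_gt hx : Ioi (0:ℝ) ⊆ {0}ᶜ))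
    have h4 := h3.inv₀ (by norm_num)
    refine (h4.congr fun x => ?_).trans (by norm_num)
    simp [slope_def_field]
  have hlim1 : Tendsto (fun ε : ℝ => -(2 * (M ^ 2 * ε * (ε / sin (ε / 2))))) (𝓝[>] 0) (𝓝 0) := by
    have h1 : Tendsto (fun ε : ℝ => ε) (𝓝[>] 0) (𝓝 0) := tendsto_nhdsWithin_of_tendsto_nhds tendsto_id
    have := (((h1.const_mul (M ^ 2)).mul hsl).const_mul 2).neg
    simpa using this
  have hlim2 : Tendsto (fun ε : ℝ => 4 * (∫ t in ε..π, ‖U' t‖ ^ 2) - ∫ t in ε..π, ‖U t‖ ^ 2)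
      (𝓝[>] 0) (𝓝 (4 * (∫ t in (0:ℝ)..π, ‖U' t‖ ^ 2) - ∫ t in (0:ℝ)..π, ‖U t‖ ^ 2)) := by
    have g1 : Continuous fun ε : ℝ => ∫ t in ε..π, ‖U' t‖ ^ 2 := by
      have : Continuous fun ε : ℝ => ∫ t in π..ε, ‖U' t‖ ^ 2 :=
        intervalIntegral.continuous_primitive
          (fun a b => (by fun_prop : Continuous fun t => ‖U' t‖ ^ 2).intervalIntegrable a b) π
      refine this.neg.congr fun ε => ?_
      show -(∫ t in π..ε, ‖U' t‖ ^ 2) = _
      rw [← intervalIntegral.integral_symm]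
    have g2 : Continuous fun ε : ℝ => ∫ t in ε..π, ‖U t‖ ^ 2 := by
      have : Continuous fun ε : ℝ => ∫ t in π..ε, ‖U t‖ ^ 2 :=
        intervalIntegral.continuous_primitive
          (fun a b => (by fun_prop : Continuous fun t => ‖U t‖ ^ 2).intervalIntegrable a b) π
      refine this.neg.congr fun ε => ?_
      show -(∫ t in π..ε, ‖U t‖ ^ 2) = _
      rw [← intervalIntegral.integral_symm]
    exact tendsto_nhdsWithin_of_tendsto_nhds ((continuous_const.mul g1).sub g2).continuousAt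
  have hfin := le_of_tendsto_of_tendsto hlim1 hlim2 (by
    filter_upwards [Ioo_mem_nhdsGT pi_pos] with ε hε
    exact key ε hε.1 hε.2)
  linarith

/-- Wirtinger for antiperiodic functions. -/
theorem wirtinger {Z Z' : ℝ → H} (hd : ∀ t, HasDerivAt Z (Z' t) t) (hc : Continuous Z')
    (ha : Z (2 * π) = -Z 0) :
    ∫ t in (0:ℝ)..(2 * π), ‖Z t‖ ^ 2 ≤ 4 * ∫ t in (0:ℝ)..(2 * π), ‖Z' t‖ ^ 2 := by
  have hZc : Continuous Z := continuous_iff_continuousAt.2 fun t => (hd t).continuousAt
  set C : ℝ → H := fun t => cos (t / 2) • Z 0 with hC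
  set C' : ℝ → H := fun t => (-sin (t / 2) * (1 / 2)) • Z 0 with hC'
  have h2 : ∀ t : ℝ, HasDerivAt (fun t : ℝ => t / 2) (1 / 2) t := fun t => by
    simpa using (hasDerivAt_id t).div_const 2
  have hdC : ∀ t, HasDerivAt C (C' t) t := fun t => ((h2 t).cos).smul_const (Z 0)
  have hdC' : ∀ t, HasDerivAt C' (-((1:ℝ) / 4) • C t) t := by
    intro t
    have h3 : HasDerivAt (fun t : ℝ => -sin (t / 2) * (1 / 2)) (-(cos (t / 2) * (1 / 2)) * (1 / 2)) t :=
      ((h2 t).sin.neg).mul_const (1 / 2)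
    refine (h3.smul_const (Z 0)).congr_deriv ?_
    simp only [hC, smul_smul]
    congr 1; ring
  set U : ℝ → H := fun t => Z t - C t with hU
  set U' : ℝ → H := fun t => Z' t - C' t with hU'
  have hdU : ∀ t, HasDerivAt U (U' t) t := fun t => (hd t).sub (hdC t)
  have hU0 : U 0 = 0 := by simp [hU, hC]
  have hU2 : U (2 * π) = 0 := by
    have : 2 * π / 2 = π := by ring
    simp [hU, hC, ha, this]
  have cC' : Continuous C' := by simp only [hC']; fun_prop
  have cC : Continuous C := by simp only [hC]; fun_prop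
  have cU' : Continuous U' := hc.sub cC'
  have cU : Continuous U := hZc.sub cC
  -- first half
  have w1 := wirt_half hdU cU' hU0
  -- second half, reflected
  have w2 := wirt_half (U := fun t => U (2 * π - t)) (U' := fun t => -U' (2 * π - t))
    (fun t => by
      have h4 : HasDerivAt (fun t : ℝ => 2 * π - t) (-1) t := by
        simpa using (hasDerivAt_id t).const_sub (2 * π)
      have := (hdU (2 * π - t)).scomp t h4
      rw [neg_one_smul] at this
      exact this)
    (by fun_prop) (by simpa using hU2)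
  have r1 : ∫ t in (0:ℝ)..π, ‖U (2 * π - t)‖ ^ 2 = ∫ t in π..(2 * π), ‖U t‖ ^ 2 := by
    have := intervalIntegral.integral_comp_sub_left (a := 0) (b := π) (fun t => ‖U t‖ ^ 2) (2 * π)
    rw [this]
    congr 1 <;> ring
  have r2 : ∫ t in (0:ℝ)..π, ‖-U' (2 * π - t)‖ ^ 2 = ∫ t in π..(2 * π), ‖U' t‖ ^ 2 := by
    have := intervalIntegral.integral_comp_sub_left (a := 0) (b := π) (fun t => ‖-U' t‖ ^ 2) (2 * π)
    simp only [norm_neg] at this ⊢
    rw [this]
    congr 1 <;> ring
  rw [r1, r2] at w2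
  have ci : ∀ {f : ℝ → ℝ}, Continuous f → ∀ a b : ℝ, IntervalIntegrable f volume a b :=
    fun hf a b => hf.intervalIntegrable a b
  have s1 : (∫ t in (0:ℝ)..π, ‖U t‖ ^ 2) + ∫ t in π..(2 * π), ‖U t‖ ^ 2 =
      ∫ t in (0:ℝ)..(2 * π), ‖U t‖ ^ 2 :=
    intervalIntegral.integral_add_adjacent_intervals (ci (by fun_prop) _ _) (ci (by fun_prop) _ _)
  have s2 : (∫ t in (0:ℝ)..π, ‖U' t‖ ^ 2) + ∫ t in π..(2 * π), ‖U' t‖ ^ 2 =
      ∫ t in (0:ℝ)..(2 * π), ‖U' t‖ ^ 2 :=
    intervalIntegral.integral_add_adjacent_intervals (ci (by fun_prop) _ _) (ci (by fun_prop) _ _)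
  have wU : ∫ t in (0:ℝ)..(2 * π), ‖U t‖ ^ 2 ≤ 4 * ∫ t in (0:ℝ)..(2 * π), ‖U' t‖ ^ 2 := by
    linarith
  -- cross term
  have hx : ∫ t in (0:ℝ)..(2 * π), (4 * ⟪C' t, U' t⟫ - ⟪C t, U t⟫) = 0 := by
    have hdx : ∀ t, HasDerivAt (fun t => 4 * ⟪C' t, U t⟫) (4 * ⟪C' t, U' t⟫ - ⟪C t, U t⟫) t := by
      intro t
      have := ((hdC' t).inner ℝ (hdU t)).const_mul 4
      refine this.congr_deriv ?_
      have e := real_inner_smul_left (C t) (U t) (-((1:ℝ) / 4))
      linear_combination 4 * e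
    rw [intervalIntegral.integral_eq_sub_of_hasDerivAt (fun t _ => hdx t)
      (ci (by fun_prop) _ _), hU0, hU2]
    simp
  have hCC : ∫ t in (0:ℝ)..(2 * π), (4 * ‖C' t‖ ^ 2 - ‖C t‖ ^ 2) = 0 := by
    have hdx : ∀ t, HasDerivAt (fun t => 4 * ⟪C' t, C t⟫) (4 * ‖C' t‖ ^ 2 - ‖C t‖ ^ 2) t := by
      intro t
      have := ((hdC' t).inner ℝ (hdC t)).const_mul 4
      refine this.congr_deriv ?_
      have e := real_inner_smul_left (C t) (C t) (-((1:ℝ) / 4))
      have e1 := real_inner_self_eq_norm_sq (C t)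
      have e2 := real_inner_self_eq_norm_sq (C' t)
      linear_combination 4 * e - e1 + 4 * e2
    rw [intervalIntegral.integral_eq_sub_of_hasDerivAt (fun t _ => hdx t)
      (ci (by fun_prop) _ _)]
    have : 2 * π / 2 = π := by ring
    simp [hC', this]
  have hZU : ∀ t, Z t = C t + U t := fun t => by simp [hU]
  have hZU' : ∀ t, Z' t = C' t + U' t := fun t => by simp [hU']
  have hfin : (4 * ∫ t in (0:ℝ)..(2 * π), ‖Z' t‖ ^ 2) - ∫ t in (0:ℝ)..(2 * π), ‖Z t‖ ^ 2 =
      (∫ t in (0:ℝ)..(2 * π), (4 * ‖C' t‖ ^ 2 - ‖C t‖ ^ 2)) +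
      2 * (∫ t in (0:ℝ)..(2 * π), (4 * ⟪C' t, U' t⟫ - ⟪C t, U t⟫)) +
      ((4 * ∫ t in (0:ℝ)..(2 * π), ‖U' t‖ ^ 2) - ∫ t in (0:ℝ)..(2 * π), ‖U t‖ ^ 2) := by
    rw [← intervalIntegral.integral_const_mul, ← intervalIntegral.integral_sub,
      ← intervalIntegral.integral_const_mul, ← intervalIntegral.integral_const_mul,
      ← intervalIntegral.integral_sub, ← intervalIntegral.integral_add,
      ← intervalIntegral.integral_add]
    · refine intervalIntegral.integral_congr fun t _ => ?_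
      show 4 * ‖Z' t‖ ^ 2 - ‖Z t‖ ^ 2 = 4 * ‖C' t‖ ^ 2 - ‖C t‖ ^ 2 +
        2 * (4 * ⟪C' t, U' t⟫ - ⟪C t, U t⟫) + (4 * ‖U' t‖ ^ 2 - ‖U t‖ ^ 2)
      rw [hZU, hZU', norm_add_sq_real, norm_add_sq_real]
      ring
    all_goals exact ci (by fun_prop) _ _
  rw [hx, hCC] at hfin
  linarith

end Crest.Agent.R208.KR
end
end

-- ▼ part R208/KR1
section

/-!
R208, block KF (helper844), file KR1: positivity of the square wave kernel.
-/

set_option autoImplicit false

open Set Filter Topology MeasureTheory Real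
open scoped RealInnerProductSpace Interval

noncomputable section

namespace Crest.Agent.R208.KR

section hil
variable {H : Type*} [NormedAddCommGroup H] [InnerProductSpace ℝ H] [CompleteSpace H]

/-- the moving window integral -/
def win (Y : ℝ → H) (t : ℝ) : H := ∫ s in (t - π)..(t + π), Y s

theorem hasDerivAt_win {Y : ℝ → H} (hY : Continuous Y) (t : ℝ) :
    HasDerivAt (win Y) (Y (t + π) - Y (t - π)) t := by
  have hP : ∀ t, HasDerivAt (fun t => ∫ s in (0:ℝ)..t, Y s) (Y t) t := fun t =>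
    intervalIntegral.integral_hasDerivAt_right (hY.intervalIntegrable _ _)
      (hY.stronglyMeasurableAtFilter _ _) hY.continuousAt
  have h1 : HasDerivAt (fun t : ℝ => t + π) 1 t := (hasDerivAt_id t).add_const π
  have h2 : HasDerivAt (fun t : ℝ => t - π) 1 t := (hasDerivAt_id t).sub_const π
  have h3 := (hP (t + π)).scomp t h1
  have h4 := (hP (t - π)).scomp t h2
  rw [one_smul] at h3 h4
  have h5 := h3.sub h4
  refine h5.congr_of_eventuallyEq (Eventually.of_forall fun s => ?_)
  show win Y s = (∫ u in (0:ℝ)..(s + π), Y u) - ∫ u in (0:ℝ)..(s - π), Y u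
  rw [win, intervalIntegral.integral_interval_sub_left (hY.intervalIntegrable _ _)
    (hY.intervalIntegrable _ _)]

theorem continuous_win {Y : ℝ → H} (hY : Continuous Y) : Continuous (win Y) :=
  continuous_iff_continuousAt.2 fun t => (hasDerivAt_win hY t).continuousAt

/-- integral over a period of a `2π`-periodic function -/
theorem per_shift {f : ℝ → ℝ} (hp : ∀ t, f (t + 2 * π) = f t) (a : ℝ) :
    ∫ t in a..(a + 2 * π), f t = ∫ t in (0:ℝ)..(2 * π), f t := by
  have h : Function.Periodic f (2 * π) := hp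
  have := h.intervalIntegral_add_eq a 0
  simpa using this

/-- **The square wave inequality.** -/
theorem sq_wave {Y : ℝ → H} (hY : Continuous Y) (ha : ∀ t, Y (t + 2 * π) = -Y t) :
    ∫ t in (0:ℝ)..(2 * π), ⟪Y t, win Y t⟫ ≤ 4 * (∫ t in (0:ℝ)..(2 * π), ‖Y t‖ ^ 2) -
      (1 / 2) * ∫ t in (0:ℝ)..(2 * π), ‖(2:ℝ) • Y t - ((1:ℝ) / 2) • win Y t‖ ^ 2 := by
  have hZc := continuous_win hY
  have hd : ∀ t, HasDerivAt (win Y) ((2:ℝ) • Y (t + π)) t := by
    intro t
    refine (hasDerivAt_win hY t).congr_deriv ?_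
    have := ha (t - π)
    have e : t - π + 2 * π = t + π := by ring
    rw [e] at this
    rw [two_smul]
    rw [this]
    abel_nf
  have hanti : win Y (2 * π) = -win Y 0 := by
    have h1 : win Y (2 * π) = ∫ s in (0 - π)..(0 + π), Y (s + 2 * π) := by
      rw [intervalIntegral.integral_comp_add_right (fun s => Y s) (2 * π)]
      simp only [win]
      congr 1 <;> ring
    rw [h1]
    simp only [ha, intervalIntegral.integral_neg, win]
  have hW := wirtinger hd (by fun_prop) hanti
  have hY2 : ∫ t in (0:ℝ)..(2 * π), ‖(2:ℝ) • Y (t + π)‖ ^ 2 =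
      4 * ∫ t in (0:ℝ)..(2 * π), ‖Y t‖ ^ 2 := by
    have e : ∀ t, ‖(2:ℝ) • Y (t + π)‖ ^ 2 = 4 * ‖Y (t + π)‖ ^ 2 := fun t => by
      rw [norm_smul, mul_pow]; norm_num
    simp only [e, intervalIntegral.integral_const_mul]
    congr 1
    have := intervalIntegral.integral_comp_add_right (a := 0) (b := 2 * π)
      (fun t => ‖Y t‖ ^ 2) π
    rw [this]
    have h2 := per_shift (f := fun t => ‖Y t‖ ^ 2) (fun t => by simp only [ha, norm_neg]) π
    rw [← h2]
    congr 1 <;> ring
  rw [hY2] at hW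
  have ci : ∀ {f : ℝ → ℝ}, Continuous f → ∀ a b : ℝ, IntervalIntegrable f volume a b :=
    fun hf a b => hf.intervalIntegrable a b
  have hexp : ∫ t in (0:ℝ)..(2 * π), ‖(2:ℝ) • Y t - ((1:ℝ) / 2) • win Y t‖ ^ 2 =
      4 * (∫ t in (0:ℝ)..(2 * π), ‖Y t‖ ^ 2) - 2 * (∫ t in (0:ℝ)..(2 * π), ⟪Y t, win Y t⟫) +
        (1 / 4) * ∫ t in (0:ℝ)..(2 * π), ‖win Y t‖ ^ 2 := by
    rw [← intervalIntegral.integral_const_mul, ← intervalIntegral.integral_const_mul,
      ← intervalIntegral.integral_const_mul, ← intervalIntegral.integral_sub,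
      ← intervalIntegral.integral_add]
    · refine intervalIntegral.integral_congr fun t _ => ?_
      show ‖(2:ℝ) • Y t - ((1:ℝ) / 2) • win Y t‖ ^ 2 = 4 * ‖Y t‖ ^ 2 - 2 * ⟪Y t, win Y t⟫ +
        1 / 4 * ‖win Y t‖ ^ 2
      rw [norm_sub_sq_real, norm_smul, norm_smul, real_inner_smul_left, real_inner_smul_right,
        mul_pow, mul_pow]
      norm_num
      ring
    all_goals exact ci (by fun_prop) _ _
  rw [hexp]
  linarith

end hil

/-! ### Hilbert space realisation of a positive semidefinite kernel -/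

open scoped InnerProduct in
theorem exists_hilbert {X : Type} (k : X → X → ℝ) (hs : ∀ x y, k x y = k y x)
    (hp : ∀ (s : Finset X) (c : X → ℝ), 0 ≤ ∑ i ∈ s, ∑ j ∈ s, c i * c j * k i j) :
    ∃ (H : Type) (_ : NormedAddCommGroup H) (_ : InnerProductSpace ℝ H) (_ : CompleteSpace H)
      (Y : X → H), ∀ x y, ⟪Y x, Y y⟫ = k x y := by
  classical
  let K : Matrix X X (ℝ →L[ℝ] ℝ) := Matrix.of fun x y => k x y • ContinuousLinearMap.id ℝ ℝ
  have hKa : ∀ x y v, K x y v = k x y * v := fun x y v => by simp [K]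
  have hH : K.IsHermitian := by
    refine Matrix.IsHermitian.ext fun i j => ?_
    have : star (K j i) = K j i := by
      rw [ContinuousLinearMap.star_eq_adjoint]
      refine ContinuousLinearMap.ext fun v => ?_
      refine ext_inner_right ℝ fun w => ?_
      rw [ContinuousLinearMap.adjoint_inner_left, hKa, hKa]
      simp only [RCLike.inner_apply, conj_trivial]
      ring
    rw [this]
    refine ContinuousLinearMap.ext fun v => ?_
    rw [hKa, hKa, hs]
  have hK : K.PosSemidef := by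
    have h2 : K.IsHermitian ∧ ∀ (vv : X →₀ ℝ),
      0 ≤ RCLike.re (K := ℝ) (vv.sum fun x w ↦ vv.sum fun x' w' ↦ inner ℝ (K x' x w) w') := by
      refine ⟨hH, fun vv => ?_⟩
      have := hp vv.support vv
      simp only [Finsupp.sum]
      refine this.trans (le_of_eq ?_)
      simp only [RCLike.re_to_real]
      refine Finset.sum_congr rfl fun i _ => Finset.sum_congr rfl fun j _ => ?_
      rw [hKa]
      simp only [RCLike.inner_apply, conj_trivial]
      rw [hs i j]
      ring
    exact (RKHS.posSemidef_tfae.out 0 2).2 h2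
  have : Fact K.PosSemidef := ⟨hK⟩
  refine ⟨RKHS.OfKernel K, inferInstance, inferInstance, inferInstance,
    fun x => RKHS.kerFun (RKHS.OfKernel K) x (1:ℝ), fun x y => ?_⟩
  have h1 := RKHS.kernel_inner (H := RKHS.OfKernel K) y x (1:ℝ) (1:ℝ)
  rw [RKHS.OfKernel.kernel_ofKernel] at h1
  rw [← h1, hKa]
  simp [hs x y]

/-- **Krein-Fourier inequality for kernels.** -/
theorem kernel_main {k : ℝ → ℝ → ℝ} (hc : Continuous (Function.uncurry k))
    (hs : ∀ x y, k x y = k y x) (ha : ∀ x y, k (x + 2 * π) y = -k x y)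
    (hp : ∀ (s : Finset ℝ) (c : ℝ → ℝ), 0 ≤ ∑ i ∈ s, ∑ j ∈ s, c i * c j * k i j) :
    (∫ x in (0:ℝ)..(2 * π), ∫ y in (x - π)..(x + π), k x y ≤
      4 * ∫ x in (0:ℝ)..(2 * π), k x x) ∧
    ((∫ x in (0:ℝ)..(2 * π), ∫ y in (x - π)..(x + π), k x y) = 4 * (∫ x in (0:ℝ)..(2 * π), k x x) →
      ∃ C : ℝ, ∀ x ∈ Icc (0:ℝ) (2 * π), ∀ y ∈ Icc (0:ℝ) (2 * π),
        k x x + k y y - 2 * k x y ≤ C * (x - y) ^ 2) := by
  obtain ⟨H, i1, i2, i3, Y, hY⟩ := exists_hilbert k hs hp
  have hsub : ∀ x y, ‖Y x - Y y‖ ^ 2 = k x x + k y y - 2 * k x y := by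
    intro x y
    rw [norm_sub_sq_real, ← real_inner_self_eq_norm_sq, ← real_inner_self_eq_norm_sq, hY, hY, hY]
    ring
  have hYc : Continuous Y := by
    rw [continuous_iff_continuousAt]
    intro x
    rw [ContinuousAt, tendsto_iff_norm_sub_tendsto_zero]
    have h1 : Tendsto (fun y => ‖Y y - Y x‖ ^ 2) (𝓝 x) (𝓝 0) := by
      have h2 : Continuous fun y => k y y + k x x - 2 * k y x := by
        have e1 : Continuous fun y : ℝ => k y y := hc.comp (continuous_id.prodMk continuous_id)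
        have e2 : Continuous fun y : ℝ => k y x := hc.comp (continuous_id.prodMk continuous_const)
        fun_prop
      have h3 := h2.tendsto x
      simp only [hsub]
      convert h3 using 2
      ring
    have h4 := h1.sqrt
    simpa using h4
  have hYa : ∀ t, Y (t + 2 * π) = -Y t := by
    intro t
    have h1 : ‖Y (t + 2 * π) + Y t‖ ^ 2 = 0 := by
      rw [norm_add_sq_real, ← real_inner_self_eq_norm_sq, ← real_inner_self_eq_norm_sq, hY, hY, hY,
        ha, ha, hs t, ha]
      ring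
    have h2 : Y (t + 2 * π) + Y t = 0 := by
      rw [← norm_eq_zero]; exact pow_eq_zero_iff (two_ne_zero) |>.1 h1
    exact eq_neg_of_add_eq_zero_left h2
  have hwin : ∀ t, ⟪Y t, win Y t⟫ = ∫ y in (t - π)..(t + π), k t y := by
    intro t
    have h1 : ⟪Y t, win Y t⟫ = (innerSL ℝ (Y t)) (∫ s in (t - π)..(t + π), Y s) := rfl
    rw [h1, ← ContinuousLinearMap.intervalIntegral_comp_comm _ (hYc.intervalIntegrable _ _)]
    exact intervalIntegral.integral_congr fun s _ => hY t s
  have hW := sq_wave hYc hYa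
  simp only [hwin] at hW
  have hn : ∀ t, ‖Y t‖ ^ 2 = k t t := fun t => by rw [← real_inner_self_eq_norm_sq, hY]
  simp only [hn] at hW
  have hZc := continuous_win hYc
  have hDc : Continuous fun t => ‖(2:ℝ) • Y t - ((1:ℝ) / 2) • win Y t‖ ^ 2 := by fun_prop
  have hD0 : 0 ≤ ∫ t in (0:ℝ)..(2 * π), ‖(2:ℝ) • Y t - ((1:ℝ) / 2) • win Y t‖ ^ 2 :=
    intervalIntegral.integral_nonneg (by positivity) fun t _ => by positivity
  refine ⟨by linarith, fun heq => ?_⟩
  have hD : ∫ t in (0:ℝ)..(2 * π), ‖(2:ℝ) • Y t - ((1:ℝ) / 2) • win Y t‖ ^ 2 = 0 := by linarith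
  have hzero : ∀ t ∈ Icc (0:ℝ) (2 * π), Y t = ((1:ℝ) / 4) • win Y t := by
    intro t ht
    by_contra hne
    have hpos : 0 < ∫ t in (0:ℝ)..(2 * π), ‖(2:ℝ) • Y t - ((1:ℝ) / 2) • win Y t‖ ^ 2 := by
      refine intervalIntegral.integral_pos (by positivity) hDc.continuousOn
        (fun t _ => by positivity) ⟨t, ht, ?_⟩
      have : (2:ℝ) • Y t - ((1:ℝ) / 2) • win Y t ≠ 0 := by
        intro h0
        apply hne
        have h1 : ((1:ℝ) / 2) • ((2:ℝ) • Y t - ((1:ℝ) / 2) • win Y t) = 0 := by rw [h0, smul_zero]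
        rw [smul_sub, smul_smul, smul_smul] at h1
        norm_num at h1
        rw [sub_eq_zero] at h1
        rw [h1]
      positivity
    linarith
  obtain ⟨M, hM⟩ : ∃ M, ∀ t, ‖Y t‖ ≤ M := by
    obtain ⟨M, hM⟩ := (isCompact_Icc (a := (0:ℝ)) (b := 2 * π)).exists_bound_of_continuousOn
      hYc.continuousOn
    refine ⟨M, fun t => ?_⟩
    have hper : Function.Periodic (fun t => ‖Y t‖) (2 * π) := fun t => by
      simp only [hYa, norm_neg]
    obtain ⟨y, hy, hy'⟩ := hper.exists_mem_Ico₀ (by positivity) t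
    rw [hy']
    exact hM y ⟨hy.1, hy.2.le⟩
  have hM0 : 0 ≤ M := (norm_nonneg _).trans (hM 0)
  refine ⟨(M / 2) ^ 2, fun x hx y hy => ?_⟩
  have hd : ∀ t, HasDerivAt (win Y) ((2:ℝ) • Y (t + π)) t := by
    intro t
    refine (hasDerivAt_win hYc t).congr_deriv ?_
    have := hYa (t - π)
    have e : t - π + 2 * π = t + π := by ring
    rw [e] at this
    rw [two_smul, this]
    abel_nf
  have hL : ‖win Y y - win Y x‖ ≤ 2 * M * ‖y - x‖ := by
    refine Convex.norm_image_sub_le_of_norm_hasDerivWithin_le (f := win Y)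
      (f' := fun t => (2:ℝ) • Y (t + π)) (s := Set.univ) (fun t _ => (hd t).hasDerivWithinAt)
      (fun t _ => ?_) convex_univ (mem_univ _) (mem_univ _)
    rw [norm_smul, Real.norm_eq_abs, abs_two]
    exact mul_le_mul_of_nonneg_left (hM _) two_pos.le
  rw [← hsub, hzero x hx, hzero y hy, ← smul_sub, norm_smul, mul_pow, norm_sub_rev (win Y x)]
  have h5 : ‖win Y y - win Y x‖ ^ 2 ≤ (2 * M * ‖y - x‖) ^ 2 := by gcongr
  rw [Real.norm_eq_abs] at h5
  have h6 : (2 * M * |y - x|) ^ 2 = 4 * M ^ 2 * (x - y) ^ 2 := by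
    rw [mul_pow, sq_abs]; ring
  rw [h6] at h5
  norm_num
  nlinarith [h5]

end Crest.Agent.R208.KR
end
end

-- ▼ part R208/KR2
section

/-!
R208, block KF (helper844), file KR2: integral positivity of a continuous kernel implies pointwise
positivity; the shear form of Fubini.
-/

set_option autoImplicit false

open Set Filter Topology MeasureTheory Real
open scoped RealInnerProductSpace Interval ContDiff

noncomputable section

namespace Crest.Agent.R208.KR

/-- integral over a period, shifted -/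
theorem per_int {f : ℝ → ℝ} (hp : ∀ t, f (t + 2 * π) = f t) (j : ℝ) :
    ∫ t in (0:ℝ)..(2 * π), f t = ∫ t in (-π)..π, f (t + j) := by
  rw [intervalIntegral.integral_comp_add_right (fun t => f t) j, ← per_shift hp (-π + j)]
  congr 1; ring

theorem psd_of_int {k : ℝ → ℝ → ℝ} (hc : Continuous (Function.uncurry k))
    (ha : ∀ x y, k (x + 2 * π) y = -k x y) (ha' : ∀ x y, k x (y + 2 * π) = -k x y)
    (hpos : ∀ c : ℝ → ℝ, ContDiff ℝ ∞ c → (∀ x, c (x + 2 * π) = -c x) →
      0 ≤ ∫ x in (0:ℝ)..(2 * π), ∫ y in (0:ℝ)..(2 * π), c x * c y * k x y)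
    (s : Finset ℝ) (c : ℝ → ℝ) : 0 ≤ ∑ i ∈ s, ∑ j ∈ s, c i * c j * k i j := by
  have hpi := Real.pi_pos
  set G : ℝ → ℝ → ℝ := fun x y => ∑ i ∈ s, ∑ j ∈ s, c i * c j * k (x + i) (y + j) with hG
  have hGc : Continuous (Function.uncurry G) := by
    refine continuous_finsetSum _ fun i _ => continuous_finsetSum _ fun j _ => ?_
    have : Continuous fun p : ℝ × ℝ => k (p.1 + i) (p.2 + j) :=
      hc.comp ((continuous_fst.add continuous_const).prodMk (continuous_snd.add continuous_const))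
    exact continuous_const.mul this
  -- the antiperiodic test functions
  set φ : ℕ → ℝ → ℝ := fun n x => cos (x / 2) ^ (2 * n + 1) with hφ
  have hφa : ∀ n x, φ n (x + 2 * π) = -φ n x := by
    intro n x
    simp only [hφ]
    have : (x + 2 * π) / 2 = x / 2 + π := by ring
    rw [this, cos_add_pi, Odd.neg_pow ⟨n, rfl⟩]
  have hφc : ∀ n, Continuous (φ n) := fun n => by simp only [hφ]; fun_prop
  have hφd : ∀ n, ContDiff ℝ ∞ (φ n) := fun n => by simp only [hφ]; fun_prop
  have key : ∀ n, 0 ≤ ∫ x in (-π)..π, ∫ y in (-π)..π, φ n x * φ n y * G x y := by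
    intro n
    have h1 := hpos (fun x => ∑ i ∈ s, c i * φ n (x - i))
      (ContDiff.sum fun i _ => contDiff_const.mul ((hφd n).comp (contDiff_id.sub contDiff_const)))
      (fun x => by
        rw [← Finset.sum_neg_distrib]
        refine Finset.sum_congr rfl fun i _ => ?_
        have : x + 2 * π - i = x - i + 2 * π := by ring
        rw [this, hφa]; ring)
    refine h1.trans (le_of_eq ?_)
    -- inner integral
    have e1 : ∀ x, ∫ y in (0:ℝ)..(2 * π), (∑ i ∈ s, c i * φ n (x - i)) *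
        (∑ j ∈ s, c j * φ n (y - j)) * k x y =
        (∑ i ∈ s, c i * φ n (x - i)) * ∑ j ∈ s, c j * ∫ y in (-π)..π, φ n y * k x (y + j) := by
      intro x
      simp only [mul_assoc]
      rw [intervalIntegral.integral_const_mul]
      congr 1
      simp only [Finset.sum_mul]
      have hkc : Continuous fun y => k x y := hc.comp (continuous_const.prodMk continuous_id)
      rw [intervalIntegral.integral_finsetSum]
      · refine Finset.sum_congr rfl fun j _ => ?_
        simp only [mul_assoc]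
        rw [intervalIntegral.integral_const_mul]
        congr 1
        rw [per_int (f := fun y => φ n (y - j) * k x y) (fun t => ?_) j]
        · refine intervalIntegral.integral_congr fun y _ => ?_
          simp only [add_sub_cancel_right]
        · have : t + 2 * π - j = t - j + 2 * π := by ring
          rw [this, hφa, ha']; ring
      · intro j _
        refine Continuous.intervalIntegrable ?_ _ _
        exact (continuous_const.mul ((hφc n).comp (continuous_id.sub continuous_const))).mul hkc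
    simp only [e1]
    -- outer integral
    have hI : ∀ j, Continuous fun x => ∫ y in (-π)..π, φ n y * k x (y + j) := by
      intro j
      refine intervalIntegral.continuous_parametric_intervalIntegral_of_continuous' ?_ _ _
      have : Continuous fun p : ℝ × ℝ => k p.1 (p.2 + j) :=
        hc.comp (continuous_fst.prodMk (continuous_snd.add continuous_const))
      exact ((hφc n).comp continuous_snd).mul this
    have hIa : ∀ j x, ∫ y in (-π)..π, φ n y * k (x + 2 * π) (y + j) =
        -∫ y in (-π)..π, φ n y * k x (y + j) := by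
      intro j x
      rw [← intervalIntegral.integral_neg]
      refine intervalIntegral.integral_congr fun y _ => ?_
      simp only [ha]; ring
    have e2 : ∫ x in (0:ℝ)..(2 * π), (∑ i ∈ s, c i * φ n (x - i)) *
        ∑ j ∈ s, c j * ∫ y in (-π)..π, φ n y * k x (y + j) =
        ∑ i ∈ s, c i * ∫ x in (-π)..π, φ n x *
          ∑ j ∈ s, c j * ∫ y in (-π)..π, φ n y * k (x + i) (y + j) := by
      simp only [Finset.sum_mul]
      have hS : Continuous fun x => ∑ j ∈ s, c j * ∫ y in (-π)..π, φ n y * k x (y + j) :=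
        continuous_finsetSum _ fun j _ => continuous_const.mul (hI j)
      rw [intervalIntegral.integral_finsetSum]
      · refine Finset.sum_congr rfl fun i _ => ?_
        simp only [mul_assoc]
        rw [intervalIntegral.integral_const_mul]
        congr 1
        rw [per_int (f := fun x => φ n (x - i) *
          ∑ j ∈ s, c j * ∫ y in (-π)..π, φ n y * k x (y + j)) (fun t => ?_) i]
        · refine intervalIntegral.integral_congr fun x _ => ?_
          simp only [add_sub_cancel_right]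
        · simp only [hIa, mul_neg, Finset.sum_neg_distrib]
          have : t + 2 * π - i = t - i + 2 * π := by ring
          rw [this, hφa]; ring
      · intro i _
        refine Continuous.intervalIntegrable ?_ _ _
        exact (continuous_const.mul ((hφc n).comp (continuous_id.sub continuous_const))).mul hS
    rw [e2]
    have hI2 : ∀ i j, Continuous fun x => ∫ y in (-π)..π, φ n y * k (x + i) (y + j) :=
      fun i j => (hI j).comp (continuous_id.add continuous_const)
    have e3 : ∀ i, c i * ∫ x in (-π)..π, φ n x *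
          ∑ j ∈ s, c j * ∫ y in (-π)..π, φ n y * k (x + i) (y + j) =
        ∫ x in (-π)..π, φ n x * ∑ j ∈ s, c i * (c j * ∫ y in (-π)..π, φ n y * k (x + i) (y + j)) := by
      intro i
      rw [← intervalIntegral.integral_const_mul]
      refine intervalIntegral.integral_congr fun x _ => ?_
      rw [← Finset.mul_sum]; ring
    simp only [e3]
    rw [← intervalIntegral.integral_finsetSum]
    · refine intervalIntegral.integral_congr fun x _ => ?_
      rw [← Finset.mul_sum]
      have e4 : ∀ i ∈ s, ∀ j ∈ s, c i * (c j * ∫ y in (-π)..π, φ n y * k (x + i) (y + j)) =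
          ∫ y in (-π)..π, φ n y * (c i * c j * k (x + i) (y + j)) := by
        intro i _ j _
        rw [← intervalIntegral.integral_const_mul, ← intervalIntegral.integral_const_mul]
        refine intervalIntegral.integral_congr fun y _ => ?_
        ring
      rw [Finset.sum_congr rfl fun i hi => Finset.sum_congr rfl fun j hj => e4 i hi j hj]
      have hkc : ∀ i j, Continuous fun y => φ n y * (c i * c j * k (x + i) (y + j)) := by
        intro i j
        have : Continuous fun y => k (x + i) (y + j) :=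
          hc.comp (continuous_const.prodMk (continuous_id.add continuous_const))
        exact (hφc n).mul (continuous_const.mul this)
      have e5 : ∀ i ∈ s, ∑ j ∈ s, ∫ y in (-π)..π, φ n y * (c i * c j * k (x + i) (y + j)) =
          ∫ y in (-π)..π, ∑ j ∈ s, φ n y * (c i * c j * k (x + i) (y + j)) := by
        intro i _
        rw [intervalIntegral.integral_finsetSum]
        exact fun j _ => (hkc i j).intervalIntegrable _ _
      rw [Finset.sum_congr rfl e5, ← intervalIntegral.integral_finsetSum]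
      · rw [← intervalIntegral.integral_const_mul]
        refine intervalIntegral.integral_congr fun y _ => ?_
        simp only [hG, ← Finset.mul_sum]
        ring
      · intro i _
        exact (continuous_finsetSum _ fun j _ => hkc i j).intervalIntegrable _ _
    · intro i _
      refine Continuous.intervalIntegrable ?_ _ _
      exact (hφc n).mul (continuous_finsetSum _ fun j _ =>
        continuous_const.mul (continuous_const.mul (hI2 i j)))
  -- the peak functions
  have hpk := tendsto_setIntegral_pow_smul_of_unique_maximum_of_isCompact_of_continuousOn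
    (μ := (volume : Measure (ℝ × ℝ))) (s := Icc (-π) π ×ˢ Icc (-π) π) (x₀ := ((0:ℝ), (0:ℝ)))
    (isCompact_Icc.prod isCompact_Icc)
    (c := fun p : ℝ × ℝ => cos (p.1 / 2) ^ 2 * cos (p.2 / 2) ^ 2)
    (g := fun p : ℝ × ℝ => cos (p.1 / 2) * cos (p.2 / 2) * G p.1 p.2)
    (by fun_prop) ?_ (fun _ _ => by positivity) (by simp) ?_ ?_
  · have h0 : G 0 0 = ∑ i ∈ s, ∑ j ∈ s, c i * c j * k i j := by simp [hG]
    have h1 : cos (((0:ℝ), (0:ℝ)).1 / 2) * cos (((0:ℝ), (0:ℝ)).2 / 2) *
        G ((0:ℝ), (0:ℝ)).1 ((0:ℝ), (0:ℝ)).2 = G 0 0 := by simp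
    rw [h1] at hpk
    rw [← h0]
    refine ge_of_tendsto hpk (Eventually.of_forall fun n => ?_)
    rw [smul_eq_mul]
    refine mul_nonneg (inv_nonneg.2 (integral_nonneg fun p => by positivity)) ?_
    refine (key n).trans (le_of_eq ?_)
    rw [Measure.volume_eq_prod, setIntegral_prod]
    · rw [intervalIntegral.integral_of_le (by linarith), integral_Icc_eq_integral_Ioc]
      refine setIntegral_congr_fun measurableSet_Ioc fun x _ => ?_
      simp only
      rw [intervalIntegral.integral_of_le (by linarith), integral_Icc_eq_integral_Ioc]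
      refine setIntegral_congr_fun measurableSet_Ioc fun y _ => ?_
      simp only [hφ, smul_eq_mul, pow_succ, pow_mul, mul_pow]
      ring
    · refine ContinuousOn.integrableOn_compact (isCompact_Icc.prod isCompact_Icc) ?_
      have : Continuous fun p : ℝ × ℝ => G p.1 p.2 := hGc
      have h2 : Continuous fun p : ℝ × ℝ => (cos (p.1 / 2) ^ 2 * cos (p.2 / 2) ^ 2) ^ n •
          (cos (p.1 / 2) * cos (p.2 / 2) * G p.1 p.2) := by
        simp only [smul_eq_mul]; fun_prop
      exact h2.continuousOn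
  · rintro ⟨x, y⟩ ⟨hx, hy⟩ hne
    simp only [mem_Icc] at hx hy
    have hcx : ∀ x : ℝ, -π ≤ x → x ≤ π → x ≠ 0 → cos (x / 2) ^ 2 < 1 := by
      intro x h1 h2 h3
      have h4 : sin (x / 2) ≠ 0 := by
        intro h5
        have := (sin_eq_zero_iff_of_lt_of_lt (by linarith) (by linarith)).1 h5
        exact h3 (by linarith)
      have h6 := sin_sq_add_cos_sq (x / 2)
      have : 0 < sin (x / 2) ^ 2 := by positivity
      linarith
    have hle : ∀ x : ℝ, cos (x / 2) ^ 2 ≤ 1 := fun x => by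
      have h6 := sin_sq_add_cos_sq (x / 2)
      nlinarith [sq_nonneg (sin (x / 2))]
    simp only [zero_div, cos_zero, one_pow, mul_one]
    by_cases hx0 : x = 0
    · have hy0 : y ≠ 0 := fun h => hne (by rw [hx0, h])
      have := hcx y hy.1 hy.2 hy0
      nlinarith [hle x, sq_nonneg (cos (x / 2)), sq_nonneg (cos (y / 2))]
    · have := hcx x hx.1 hx.2 hx0
      nlinarith [hle y, sq_nonneg (cos (x / 2)), sq_nonneg (cos (y / 2))]
  · rw [interior_prod_eq, interior_Icc]
    refine subset_closure ⟨?_, ?_⟩ <;> simp [hpi]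
  · have : Continuous fun p : ℝ × ℝ => G p.1 p.2 := hGc
    exact Continuous.continuousOn (by fun_prop)

/-- **Fubini after a shear.** -/
theorem shear {F : ℝ → ℝ → ℝ} (hF : Continuous (Function.uncurry F))
    (hp : ∀ r t, F (r + 2 * π) (t + 2 * π) = F r t) :
    ∫ t in (0:ℝ)..(2 * π), ∫ r in (t - π)..t, F r t =
      ∫ r in (0:ℝ)..(2 * π), ∫ t in r..(r + π), F r t := by
  have e1 : ∀ t, ∫ r in (t - π)..t, F r t = ∫ σ in (0:ℝ)..π, F (t - σ) t := by
    intro t
    rw [intervalIntegral.integral_comp_sub_left (fun r => F r t) t, sub_zero]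
  have e2 : ∀ r, ∫ t in r..(r + π), F r t = ∫ σ in (0:ℝ)..π, F r (r + σ) := by
    intro r
    rw [intervalIntegral.integral_comp_add_left (fun t => F r t) r, add_zero]
  simp only [e1, e2]
  rw [intervalIntegral_intervalIntegral_swap, intervalIntegral_intervalIntegral_swap
    (F := fun r σ => F r (r + σ))]
  · refine intervalIntegral.integral_congr fun σ _ => ?_
    have h1 : ∫ x in (0:ℝ)..(2 * π), F (x - σ) x = ∫ x in (0:ℝ)..(2 * π), (fun y => F y (y + σ)) (x - σ) := by
      refine intervalIntegral.integral_congr fun x _ => ?_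
      simp only [sub_add_cancel]
    rw [h1, intervalIntegral.integral_comp_sub_right (fun y => F y (y + σ)) σ]
    have h2 := per_shift (f := fun y => F y (y + σ)) (fun y => by
      have : y + 2 * π + σ = y + σ + 2 * π := by ring
      simp only [this, hp]) (0 - σ)
    rw [← h2]
    congr 1; ring
  · refine (Continuous.continuousOn ?_).integrableOn_compact (isCompact_uIcc.prod isCompact_uIcc) |>.mono_set
      (prod_mono uIoc_subset_uIcc uIoc_subset_uIcc)
    exact hF.comp (continuous_fst.prodMk (continuous_fst.add continuous_snd))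
  · refine (Continuous.continuousOn ?_).integrableOn_compact (isCompact_uIcc.prod isCompact_uIcc) |>.mono_set
      (prod_mono uIoc_subset_uIcc uIoc_subset_uIcc)
    exact hF.comp ((continuous_fst.sub continuous_snd).prodMk continuous_fst)

end Crest.Agent.R208.KR
end
end

-- ▼ part R208/NN4
section

/-!
Row 208, block [N], part NN4 (helper589): broken fields. `HF a b A A'` : `A` is continuous on
`[a,b]`, differentiable off a countable set with derivative `A' ∈ L²`.  `BFld G q a b A A'` : in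
addition `A` is tangent to `S` along the geodesic of `q`.
-/

set_option autoImplicit false

open MeasureTheory Measure Set Filter Topology Module Metric
open scoped ContDiff RealInnerProductSpace
open Crest.GeometryTopology.Submanifold
open Crest.Agent.R241.DDefs
open Crest.Agent.R241.D2
open Crest.Agent.R208.L (om TanTS dfl om_dfl)
open Crest.Agent.R208.FI (Tan Sub)

noncomputable section

namespace Crest.Agent.R208.NN

variable {n N k K : ℕ} {κ : ℝ} {S : Set (Euc N)} {G : Geo n N κ S} {q z ξ : Euc N × Euc N}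
  {a b c : ℝ} {A A' B B' V V' : ℝ → Euc N}

/-- continuous, differentiable off a countable set, derivative in `L²` -/
structure HF (a b : ℝ) (A A' : ℝ → Euc N) : Prop where
  cont : ContinuousOn A (Icc a b)
  der : ∃ s : Set ℝ, s.Countable ∧ ∀ t ∈ Ioo a b \ s, HasDerivAt A (A' t) t
  l2 : MemLp A' 2 (volume.restrict (Ioc a b))

namespace HF

theorem add (hA : HF a b A A') (hB : HF a b B B') : HF a b (A + B) (A' + B') where
  cont := hA.cont.add hB.cont
  der := by
    obtain ⟨s, hs, h1⟩ := hA.der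
    obtain ⟨s', hs', h2⟩ := hB.der
    exact ⟨s ∪ s', hs.union hs', fun t ht => (h1 t ⟨ht.1, fun h => ht.2 (Or.inl h)⟩).add
      (h2 t ⟨ht.1, fun h => ht.2 (Or.inr h)⟩)⟩
  l2 := hA.l2.add hB.l2

theorem sub (hA : HF a b A A') (hB : HF a b B B') : HF a b (A - B) (A' - B') where
  cont := hA.cont.sub hB.cont
  der := by
    obtain ⟨s, hs, h1⟩ := hA.der
    obtain ⟨s', hs', h2⟩ := hB.der
    exact ⟨s ∪ s', hs.union hs', fun t ht => (h1 t ⟨ht.1, fun h => ht.2 (Or.inl h)⟩).sub
      (h2 t ⟨ht.1, fun h => ht.2 (Or.inr h)⟩)⟩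
  l2 := hA.l2.sub hB.l2

theorem smul (r : ℝ) (hA : HF a b A A') : HF a b (r • A) (r • A') where
  cont := hA.cont.const_smul r
  der := by
    obtain ⟨s, hs, h1⟩ := hA.der
    exact ⟨s, hs, fun t ht => (h1 t ht).const_smul r⟩
  l2 := hA.l2.const_smul r

theorem mono {a' b' : ℝ} (hA : HF a b A A') (ha : a ≤ a') (hb : b' ≤ b) : HF a' b' A A' where
  cont := hA.cont.mono (Icc_subset_Icc ha hb)
  der := by
    obtain ⟨s, hs, h1⟩ := hA.der
    exact ⟨s, hs, fun t ht => h1 t ⟨⟨ha.trans_lt ht.1.1, ht.1.2.trans_le hb⟩, ht.2⟩⟩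
  l2 := hA.l2.mono_measure (Measure.restrict_mono (Ioc_subset_Ioc ha hb) le_rfl)

theorem trans (h1 : HF a b A A') (h2 : HF b c A A') (hab : a ≤ b) (hbc : b ≤ c) :
    HF a c A A' where
  cont := by
    have h3 := h1.cont.union_of_isClosed h2.cont isClosed_Icc isClosed_Icc
    rwa [Icc_union_Icc_eq_Icc hab hbc] at h3
  der := by
    obtain ⟨s, hs, h3⟩ := h1.der
    obtain ⟨s', hs', h4⟩ := h2.der
    refine ⟨s ∪ s' ∪ {b}, (hs.union hs').union (countable_singleton b), fun t ht => ?_⟩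
    have ht2 : t ∉ s ∧ t ∉ s' ∧ t ≠ b := by
      refine ⟨fun h => ht.2 (Or.inl (Or.inl h)), fun h => ht.2 (Or.inl (Or.inr h)),
        fun h => ht.2 (Or.inr h)⟩
    rcases lt_or_gt_of_ne ht2.2.2 with h | h
    · exact h3 t ⟨⟨ht.1.1, h⟩, ht2.1⟩
    · exact h4 t ⟨⟨h, ht.1.2⟩, ht2.2.1⟩
  l2 := by
    rw [← Ioc_union_Ioc_eq_Ioc hab hbc]
    refine (memLp_two_iff_integrable_sq_norm
      (aestronglyMeasurable_union_iff.2 ⟨h1.l2.1, h2.l2.1⟩)).2 ?_
    exact integrableOn_union.2 ⟨(memLp_two_iff_integrable_sq_norm h1.l2.1).1 h1.l2,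
      (memLp_two_iff_integrable_sq_norm h2.l2.1).1 h2.l2⟩

theorem of_cont (hA : ∀ t ∈ Icc a b, HasDerivWithinAt A (A' t) (Icc a b) t)
    (hA' : ContinuousOn A' (Icc a b)) : HF a b A A' where
  cont t ht := (hA t ht).continuousWithinAt
  der := ⟨∅, countable_empty, fun t ht =>
    (hA t ⟨ht.1.1.le, ht.1.2.le⟩).hasDerivAt (Icc_mem_nhds ht.1.1 ht.1.2)⟩
  l2 := by
    have h1 : IntegrableOn (fun t => ‖A' t‖ ^ 2) (Ioc a b) :=
      ((hA'.norm.pow 2).integrableOn_Icc).mono_set Ioc_subset_Icc_self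
    exact (memLp_two_iff_integrable_sq_norm
      ((hA'.aestronglyMeasurable measurableSet_Icc).mono_set Ioc_subset_Icc_self)).2 h1

/-- change of the derivative off a countable set -/
theorem congr_der (hA : HF a b A A') {s : Set ℝ} (hs : s.Countable)
    (h : ∀ t ∈ Ioo a b \ s, A' t = B' t) : HF a b A B' where
  cont := hA.cont
  der := by
    obtain ⟨s', hs', h1⟩ := hA.der
    refine ⟨s' ∪ s, hs'.union hs, fun t ht => ?_⟩
    rw [← h t ⟨ht.1, fun h => ht.2 (Or.inr h)⟩]
    exact h1 t ⟨ht.1, fun h => ht.2 (Or.inl h)⟩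
  l2 := by
    refine (memLp_congr_ae ?_).1 hA.l2
    have h1 : ∀ᵐ t ∂(volume.restrict (Ioc a b)), t ∉ s ∪ {b} :=
      ae_restrict_of_ae ((hs.union (countable_singleton b)).ae_notMem _)
    filter_upwards [h1, ae_restrict_mem measurableSet_Ioc] with t ht ht2
    refine h t ⟨⟨ht2.1, lt_of_le_of_ne ht2.2 fun h => ht (Or.inr h)⟩, fun h => ht (Or.inl h)⟩

/-- change of the field on `[a,b]` -/
theorem congr (hA : HF a b A A') (h : ∀ t ∈ Icc a b, A t = B t) : HF a b B A' where
  cont := hA.cont.congr fun t ht => (h t ht).symm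
  der := by
    obtain ⟨s', hs', h1⟩ := hA.der
    refine ⟨s', hs', fun t ht => (h1 t ht).congr_of_eventuallyEq ?_⟩
    filter_upwards [Ioo_mem_nhds ht.1.1 ht.1.2] with x hx
    exact (h x ⟨hx.1.le, hx.2.le⟩).symm
  l2 := hA.l2

theorem int (hA : HF a b A A') (hab : a ≤ b) : IntervalIntegrable A' volume a b := by
  rw [intervalIntegrable_iff_integrableOn_Ioc_of_le hab]
  exact hA.l2.integrable (by norm_num)

theorem int_sq (hA : HF a b A A') (hab : a ≤ b) :
    IntervalIntegrable (fun t => ‖A' t‖ ^ 2) volume a b := by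
  rw [intervalIntegrable_iff_integrableOn_Ioc_of_le hab]
  exact (memLp_two_iff_integrable_sq_norm hA.l2.1).1 hA.l2

theorem ftc (hA : HF a b A A') (hab : a ≤ b) : ∫ t in a..b, A' t = A b - A a := by
  obtain ⟨s, hs, h1⟩ := hA.der
  exact integral_eq_of_hasDerivAt_off_countable_of_le A A' hab hs hA.cont h1 (hA.int hab)

/-- image under a `C¹` family of linear maps -/
theorem clm {L L' : ℝ → Euc N →L[ℝ] Euc N} (hL : ∀ t, HasDerivAt L (L' t) t)
    (hL' : Continuous L') (hA : HF a b A A') :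
    HF a b (fun t => L t (A t)) (fun t => L' t (A t) + L t (A' t)) where
  cont := (continuous_iff_continuousAt.2 fun t => (hL t).continuousAt).continuousOn.clm_apply
    hA.cont
  der := by
    obtain ⟨s, hs, h1⟩ := hA.der
    exact ⟨s, hs, fun t ht => (hL t).clm_apply (h1 t ht)⟩
  l2 := by
    have hLc : Continuous L := continuous_iff_continuousAt.2 fun t => (hL t).continuousAt
    have h1 : ContinuousOn (fun t => L' t (A t)) (Icc a b) :=
      hL'.continuousOn.clm_apply hA.cont
    have h2 : MemLp (fun t => L' t (A t)) 2 (volume.restrict (Ioc a b)) :=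
      (memLp_two_iff_integrable_sq_norm
        ((h1.aestronglyMeasurable measurableSet_Icc).mono_set Ioc_subset_Icc_self)).2
        (((h1.norm.pow 2).integrableOn_Icc).mono_set Ioc_subset_Icc_self)
    obtain ⟨C, hC⟩ := (isCompact_Icc (a := a) (b := b)).exists_bound_of_continuousOn hLc.continuousOn
    have h3 : MemLp (fun t => L t (A' t)) 2 (volume.restrict (Ioc a b)) := by
      refine MemLp.of_le_mul (c := C) hA.l2 ?_ ?_
      · exact (ContinuousLinearMap.apply ℝ (Euc N)).flip.aestronglyMeasurable_comp₂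
          hLc.aestronglyMeasurable hA.l2.1
      · filter_upwards [ae_restrict_mem measurableSet_Ioc] with t ht
        exact ((L t).le_opNorm _).trans (mul_le_mul_of_nonneg_right
          (hC t (Ioc_subset_Icc_self ht)) (norm_nonneg _))
    exact h2.add h3

end HF

/-- tangent fields of class `H¹` along the geodesic of `q` -/
structure BFld (G : Geo n N κ S) (q : Euc N × Euc N) (a b : ℝ) (A A' : ℝ → Euc N) : Prop
    extends HF a b A A' where
  mem : ∀ t ∈ Icc a b, A t ∈ G.T (fl G (q, t)).1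

namespace BFld

theorem of_fld (hA : SV.Fld G q a b A A') : BFld G q a b A A' where
  toHF := HF.of_cont hA.der hA.cont
  mem := hA.mem

theorem add (hA : BFld G q a b A A') (hB : BFld G q a b B B') : BFld G q a b (A + B) (A' + B') where
  toHF := hA.toHF.add hB.toHF
  mem t ht := (G.T _).add_mem (hA.mem t ht) (hB.mem t ht)

theorem sub (hA : BFld G q a b A A') (hB : BFld G q a b B B') : BFld G q a b (A - B) (A' - B') where
  toHF := hA.toHF.sub hB.toHF
  mem t ht := (G.T _).sub_mem (hA.mem t ht) (hB.mem t ht)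

theorem smul (r : ℝ) (hA : BFld G q a b A A') : BFld G q a b (r • A) (r • A') where
  toHF := hA.toHF.smul r
  mem t ht := (G.T _).smul_mem r (hA.mem t ht)

theorem mono {a' b' : ℝ} (hA : BFld G q a b A A') (ha : a ≤ a') (hb : b' ≤ b) :
    BFld G q a' b' A A' where
  toHF := hA.toHF.mono ha hb
  mem t ht := hA.mem t ⟨ha.trans ht.1, ht.2.trans hb⟩

theorem trans (h1 : BFld G q a b A A') (h2 : BFld G q b c A A') (hab : a ≤ b) (hbc : b ≤ c) :
    BFld G q a c A A' where
  toHF := h1.toHF.trans h2.toHF hab hbc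
  mem t ht := by
    rcases le_total t b with h | h
    · exact h1.mem t ⟨ht.1, h⟩
    · exact h2.mem t ⟨h, ht.2⟩

theorem congr_der (hA : BFld G q a b A A') {s : Set ℝ} (hs : s.Countable)
    (h : ∀ t ∈ Ioo a b \ s, A' t = B' t) : BFld G q a b A B' where
  toHF := hA.toHF.congr_der hs h
  mem := hA.mem

theorem congr (hA : BFld G q a b A A') (h : ∀ t ∈ Icc a b, A t = B t) : BFld G q a b B A' where
  toHF := hA.toHF.congr h
  mem t ht := by rw [← h t ht]; exact hA.mem t ht

theorem intble (hq : q ∈ TS G) (hab : a ≤ b) (hA : BFld G q a b A A') (hB : BFld G q a b B B') :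
    IntervalIntegrable (SV.ixd G q A A' B B') volume a b := by
  have h1 : IntervalIntegrable (fun t => ⟪A' t, B' t⟫) volume a b := by
    refine ((hA.int_sq hab).add (hB.int_sq hab)).mono_fun' ?_ ?_
    · rw [uIoc_of_le hab]; exact hA.l2.1.inner hB.l2.1
    · refine Eventually.of_forall fun t => ?_
      simp only
      rw [Real.norm_eq_abs]
      refine (abs_real_inner_le_norm _ _).trans ?_
      nlinarith [sq_nonneg (‖A' t‖ - ‖B' t‖), sq_nonneg (‖A' t‖), sq_nonneg (‖B' t‖)]
  have h2 : ContinuousOn (fun t => (X G (fl G (q, t))).2) (Icc a b) :=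
    continuous_snd.comp_continuousOn ((contDiff_X G).continuous.comp_continuousOn
      (SV.contOn_fl hq _))
  have h3 : Continuous (fderiv ℝ G.P) := G.contDiff_P.continuous_fderiv (by simp)
  have h4 : ContinuousOn (fun t => II G (fl G (q, t)).1 (A t) (B t)) (Icc a b) :=
    ((h3.comp_continuousOn (continuous_fst.comp_continuousOn (SV.contOn_fl hq _))).clm_apply
      hA.cont).clm_apply hB.cont
  have h5 : IntervalIntegrable (fun t => ⟪(X G (fl G (q, t))).2, II G (fl G (q, t)).1 (A t) (B t)⟫)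
      volume a b := by
    apply ContinuousOn.intervalIntegrable
    rw [uIcc_of_le hab]
    exact h2.inner h4
  exact h1.sub h5

theorem ixd_symm {t : ℝ} (hq : q ∈ TS G) (hA : BFld G q a b A A') (hB : BFld G q a b B B')
    (ht : t ∈ Icc a b) : SV.ixd G q A A' B B' t = SV.ixd G q B B' A A' t := by
  unfold SV.ixd
  rw [real_inner_comm, SV.II_comm (fl_mem G hq t).1 (hA.mem t ht) (hB.mem t ht)]

theorem ix_symm (hab : a ≤ b) (hq : q ∈ TS G) (hA : BFld G q a b A A') (hB : BFld G q a b B B') :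
    SV.ix G q a b A A' B B' = SV.ix G q a b B B' A A' := by
  unfold SV.ix
  refine intervalIntegral.integral_congr fun t ht => ?_
  rw [uIcc_of_le hab] at ht
  exact ixd_symm hq hA hB ht

section bilin

variable {C C' : ℝ → Euc N} (hab : a ≤ b) (hq : q ∈ TS G)

include hab hq in
theorem ix_add_left (hA : BFld G q a b A A') (hB : BFld G q a b B B') (hC : BFld G q a b C C') :
    SV.ix G q a b (A + B) (A' + B') C C' = SV.ix G q a b A A' C C' + SV.ix G q a b B B' C C' := by
  unfold SV.ix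
  rw [← intervalIntegral.integral_add (hA.intble hq hab hC) (hB.intble hq hab hC)]
  exact intervalIntegral.integral_congr fun t _ => SV.ixd_add_left A A' B B' C C' t

include hab hq in
theorem ix_sub_left (hA : BFld G q a b A A') (hB : BFld G q a b B B') (hC : BFld G q a b C C') :
    SV.ix G q a b (A - B) (A' - B') C C' = SV.ix G q a b A A' C C' - SV.ix G q a b B B' C C' := by
  unfold SV.ix
  rw [← intervalIntegral.integral_sub (hA.intble hq hab hC) (hB.intble hq hab hC)]
  exact intervalIntegral.integral_congr fun t _ => SV.ixd_sub_left A A' B B' C C' t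

include hab hq in
theorem ix_add_right (hA : BFld G q a b A A') (hB : BFld G q a b B B') (hC : BFld G q a b C C') :
    SV.ix G q a b A A' (B + C) (B' + C') = SV.ix G q a b A A' B B' + SV.ix G q a b A A' C C' := by
  unfold SV.ix
  rw [← intervalIntegral.integral_add (hA.intble hq hab hB) (hA.intble hq hab hC)]
  exact intervalIntegral.integral_congr fun t _ => SV.ixd_add_right A A' B B' C C' t

include hab hq in
theorem ix_sub_right (hA : BFld G q a b A A') (hB : BFld G q a b B B') (hC : BFld G q a b C C') :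
    SV.ix G q a b A A' (B - C) (B' - C') = SV.ix G q a b A A' B B' - SV.ix G q a b A A' C C' := by
  unfold SV.ix
  rw [← intervalIntegral.integral_sub (hA.intble hq hab hB) (hA.intble hq hab hC)]
  exact intervalIntegral.integral_congr fun t _ => SV.ixd_sub_right A A' B B' C C' t

include hab hq in
/-- expansion of the square -/
theorem ix_sub_self (hA : BFld G q a b A A') (hB : BFld G q a b B B') :
    SV.ix G q a b (A - B) (A' - B') (A - B) (A' - B') =
      SV.ix G q a b A A' A A' - 2 * SV.ix G q a b B B' A A' + SV.ix G q a b B B' B B' := by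
  rw [ix_sub_left hab hq hA hB (hA.sub hB), ix_sub_right hab hq hA hA hB,
    ix_sub_right hab hq hB hA hB, ix_symm hab hq hA hB]
  ring

include hab hq in
theorem ix_add_self (hA : BFld G q a b A A') (hB : BFld G q a b B B') :
    SV.ix G q a b (A + B) (A' + B') (A + B) (A' + B') =
      SV.ix G q a b A A' A A' + 2 * SV.ix G q a b B B' A A' + SV.ix G q a b B B' B B' := by
  rw [ix_add_left hab hq hA hB (hA.add hB), ix_add_right hab hq hA hA hB,
    ix_add_right hab hq hB hA hB, ix_symm hab hq hA hB]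
  ring

end bilin

/-- additivity in the interval -/
theorem ix_add_interval (hq : q ∈ TS G) (hab : a ≤ b) (hbc : b ≤ c)
    (hA : BFld G q a b A A') (hB : BFld G q a b B B')
    (hA2 : BFld G q b c A A') (hB2 : BFld G q b c B B') :
    SV.ix G q a b A A' B B' + SV.ix G q b c A A' B B' = SV.ix G q a c A A' B B' :=
  intervalIntegral.integral_add_adjacent_intervals (hA.intble hq hab hB) (hA2.intble hq hbc hB2)


/-- **boundary term of the index form on Jacobi fields** -/
theorem ix_jac (h : TanTS G q ξ) (hab : a ≤ b) (hY : BFld G q a b A A') :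
    SV.ix G q a b (SV.jf G q ξ) (SV.jf' G q ξ) A A' =
      ⟪SV.jf' G q ξ b, A b⟫ - ⟪SV.jf' G q ξ a, A a⟫ := by
  have hq := SV.mem_TS h
  obtain ⟨s, hs, h1⟩ := hY.der
  have hcont : ContinuousOn (fun t => ⟪SV.jf' G q ξ t, A t⟫) (Icc a b) :=
    ((SV.fld_jf h a b).cont).inner hY.cont
  have hder : ∀ t ∈ Ioo a b \ s, HasDerivAt (fun t => ⟪SV.jf' G q ξ t, A t⟫)
      (SV.ixd G q (SV.jf G q ξ) (SV.jf' G q ξ) A A' t) t := by
    intro t ht
    have ht' : t ∈ Icc a b := ⟨ht.1.1.le, ht.1.2.le⟩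
    have h2 := SV.hasDerivAt_jf' hq ξ t
    refine (h2.inner ℝ (h1 t ht)).congr_deriv ?_
    rw [L.inner_fderiv_X (fl_mem G hq t) (L.tanTS_dfl hq h t) (hY.mem t ht')]
    unfold SV.ixd SV.jf
    ring
  exact integral_eq_of_hasDerivAt_off_countable_of_le _ _ hab hs hcont hder
    ((of_fld (SV.fld_jf h a b)).intble hq hab hY)

end BFld

end Crest.Agent.R208.NN
end
end

-- ▼ part R208/NN4b
section

/-!
Row 208, block [N], part NN4b (helper589): approximation of broken fields by `C¹` fields, and the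
index form is nonnegative on broken fields vanishing at the ends of a minimising arc.
-/

set_option autoImplicit false

open MeasureTheory Measure Set Filter Topology Module Metric
open scoped ContDiff RealInnerProductSpace
open Crest.GeometryTopology.Submanifold
open Crest.Agent.R241.DDefs
open Crest.Agent.R241.D2
open Crest.Agent.R208.L (om TanTS dfl om_dfl)
open Crest.Agent.R208.FI (Tan Sub)

noncomputable section

namespace Crest.Agent.R208.NN

variable {n N k K : ℕ} {κ : ℝ} {S : Set (Euc N)} {G : Geo n N κ S} {q z ξ : Euc N × Euc N}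
  {a b c : ℝ} {A A' B B' V V' : ℝ → Euc N}

/-- the variance identity: the mean minimises the `L²` distance -/
theorem integral_sub_mean {E : Type*} [NormedAddCommGroup E] [InnerProductSpace ℝ E]
    [CompleteSpace E] {f : ℝ → E} (hab : a < b) (hf : IntervalIntegrable f volume a b)
    (hf2 : IntervalIntegrable (fun t => ‖f t‖ ^ 2) volume a b) :
    ∫ t in a..b, ‖f t - (b - a)⁻¹ • ∫ s in a..b, f s‖ ^ 2 =
      (∫ t in a..b, ‖f t‖ ^ 2) - (b - a)⁻¹ * ‖∫ s in a..b, f s‖ ^ 2 := by
  set m := ∫ s in a..b, f s with hm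
  have hl : (b - a) ≠ 0 := (sub_pos.2 hab).ne'
  have h1 : ∀ t, ‖f t - (b - a)⁻¹ • m‖ ^ 2 =
      ‖f t‖ ^ 2 - 2 * (b - a)⁻¹ * (innerSL ℝ m) (f t) + (b - a)⁻¹ ^ 2 * ‖m‖ ^ 2 := by
    intro t
    rw [norm_sub_sq_real, real_inner_smul_right, norm_smul, mul_pow, Real.norm_eq_abs, sq_abs,
      innerSL_apply_apply, real_inner_comm]
    ring
  simp_rw [h1]
  have h2 : IntervalIntegrable (fun t => (innerSL ℝ m) (f t)) volume a b :=
    ⟨(innerSL ℝ m).integrable_comp hf.1, (innerSL ℝ m).integrable_comp hf.2⟩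
  rw [intervalIntegral.integral_add (hf2.sub (h2.const_mul _)) (by simp),
    intervalIntegral.integral_sub hf2 (h2.const_mul _), intervalIntegral.integral_const_mul,
    (innerSL ℝ m).intervalIntegral_comp_comm hf, ← hm, innerSL_apply_apply,
    real_inner_self_eq_norm_sq, intervalIntegral.integral_const, smul_eq_mul]
  field_simp
  ring

/-- Cauchy–Schwarz for vector valued integrals -/
theorem norm_integral_sq_le {E : Type*} [NormedAddCommGroup E] [InnerProductSpace ℝ E]
    [CompleteSpace E] {f : ℝ → E} (hab : a ≤ b) (hf : IntervalIntegrable f volume a b)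
    (hf2 : IntervalIntegrable (fun t => ‖f t‖ ^ 2) volume a b) :
    ‖∫ s in a..b, f s‖ ^ 2 ≤ (b - a) * ∫ t in a..b, ‖f t‖ ^ 2 := by
  rcases hab.eq_or_lt with rfl | h
  · simp
  have h1 := integral_sub_mean h hf hf2
  have h2 : 0 ≤ ∫ t in a..b, ‖f t - (b - a)⁻¹ • ∫ s in a..b, f s‖ ^ 2 :=
    intervalIntegral.integral_nonneg hab fun t _ => by positivity
  rw [h1] at h2
  have hl : 0 < b - a := sub_pos.2 h
  have h3 : (b - a)⁻¹ * ‖∫ s in a..b, f s‖ ^ 2 ≤ ∫ t in a..b, ‖f t‖ ^ 2 := by linarith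
  rwa [inv_mul_le_iff₀ hl] at h3

/-- approximation of an `H¹` function by a `C¹` function with the same end values -/
theorem HF.exists_approx (hA : HF a b A A') (hab : a < b) {δ : ℝ} (hδ : 0 < δ) :
    ∃ V V' : ℝ → Euc N, (∀ t, HasDerivAt V (V' t) t) ∧ Continuous V' ∧ V a = A a ∧ V b = A b ∧
      (∀ t ∈ Icc a b, ‖A t - V t‖ ^ 2 ≤ δ) ∧ IntervalIntegrable (fun t => ‖A' t - V' t‖ ^ 2) volume a b ∧
      ∫ t in a..b, ‖A' t - V' t‖ ^ 2 ≤ δ := by
  have hl : 0 < b - a := sub_pos.2 hab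
  set η := δ / (1 + (b - a)) with hη
  have hη0 : 0 < η := div_pos hδ (by linarith)
  have hηδ : η ≤ δ := by rw [hη, div_le_iff₀ (by linarith)]; nlinarith
  have hηδ' : (b - a) * η ≤ δ := by
    rw [hη, mul_div_assoc', div_le_iff₀ (by linarith)]; nlinarith
  have h2 : MemLp A' (ENNReal.ofReal 2) (volume.restrict (Ioc a b)) := by
    have : ENNReal.ofReal 2 = 2 := by norm_num
    rw [this]; exact hA.l2
  obtain ⟨h, -, h3, hc, h4⟩ := h2.exists_hasCompactSupport_integral_rpow_sub_le (by norm_num) hη0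
  have h5 : ∫ t in a..b, ‖A' t - h t‖ ^ 2 ≤ η := by
    rw [intervalIntegral.integral_of_le hab.le]
    refine le_trans (le_of_eq ?_) h3
    refine integral_congr_ae (Eventually.of_forall fun t => ?_)
    simp
  have hhf : HF a b (fun t => ∫ s in a..t, h s) h :=
    HF.of_cont (fun t _ => ((intervalIntegral.integral_hasDerivAt_right (hc.intervalIntegrable _ _)
      (hc.stronglyMeasurableAtFilter _ _) hc.continuousAt)).hasDerivWithinAt) hc.continuousOn
  have hD := hA.sub hhf
  have i1 : IntervalIntegrable (fun t => A' t - h t) volume a b := hD.int hab.le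
  have i2 : IntervalIntegrable (fun t => ‖A' t - h t‖ ^ 2) volume a b := hD.int_sq hab.le
  set e : Euc N := (b - a)⁻¹ • ∫ s in a..b, (A' s - h s) with he
  have h6 := integral_sub_mean hab i1 i2
  rw [← he] at h6
  have h7 : ∫ t in a..b, ‖A' t - (h t + e)‖ ^ 2 ≤ η := by
    have : ∀ t, A' t - (h t + e) = A' t - h t - e := fun t => by abel
    simp_rw [this]
    rw [h6]
    have : 0 ≤ (b - a)⁻¹ * ‖∫ s in a..b, (A' s - h s)‖ ^ 2 := by positivity
    linarith
  have hc' : Continuous fun t => h t + e := hc.add continuous_const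
  have hVd : ∀ t, HasDerivAt (fun t => A a + ∫ s in a..t, (h s + e)) (h t + e) t := fun t =>
    ((intervalIntegral.integral_hasDerivAt_right (hc'.intervalIntegrable _ _)
      (hc'.stronglyMeasurableAtFilter _ _) hc'.continuousAt)).const_add _
  have hVf : HF a b (fun t => A a + ∫ s in a..t, (h s + e)) (fun t => h t + e) :=
    HF.of_cont (fun t _ => (hVd t).hasDerivWithinAt) hc'.continuousOn
  have hD2 := hA.sub hVf
  have i3 : IntervalIntegrable (fun t => ‖A' t - (h t + e)‖ ^ 2) volume a b := hD2.int_sq hab.le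
  refine ⟨fun t => A a + ∫ s in a..t, (h s + e), fun t => h t + e, hVd, hc', by simp, ?_, ?_, i3,
    h7.trans hηδ⟩
  · simp only
    rw [intervalIntegral.integral_add (hc.intervalIntegrable _ _) (by simp),
      intervalIntegral.integral_const, he, smul_smul, mul_inv_cancel₀ hl.ne', one_smul,
      ← intervalIntegral.integral_add (hc.intervalIntegrable _ _) i1]
    have : ∫ s in a..b, (h s + (A' s - h s)) = ∫ s in a..b, A' s := by
      refine intervalIntegral.integral_congr fun t _ => ?_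
      simp
    rw [this, hA.ftc hab.le]
    abel
  · intro t ht
    have h8 := (hD2.mono le_rfl ht.2).ftc ht.1
    have h9 := norm_integral_sq_le ht.1 ((hD2.mono le_rfl ht.2).int ht.1)
      ((hD2.mono le_rfl ht.2).int_sq ht.1)
    rw [h8] at h9
    have h10 : (A - fun t => A a + ∫ s in a..t, (h s + e)) a = 0 := by simp
    rw [h10, sub_zero] at h9
    have h11 : ∫ s in a..t, ‖(A' - fun t => h t + e) s‖ ^ 2 ≤ η := by
      refine le_trans ?_ h7
      refine intervalIntegral.integral_mono_interval le_rfl ht.1 ht.2 ?_ i3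
      exact Eventually.of_forall fun t => by positivity
    refine h9.trans (le_trans ?_ hηδ')
    have h12 : t - a ≤ b - a := by linarith [ht.2]
    exact mul_le_mul h12 h11 (intervalIntegral.integral_nonneg ht.1 fun t _ => by positivity) hl.le

/-- derivative of a broken tangent field: `A' = II(c', A) + P A'` off a countable set -/
theorem BFld.der_eq (hz : z ∈ TS G) (hA : BFld G z a b A A') : ∃ s : Set ℝ, s.Countable ∧
    ∀ t ∈ Ioo a b \ s, HasDerivAt A (A' t) t ∧
      A' t = II G (fl G (z, t)).1 (fl G (z, t)).2 (A t) + G.P (fl G (z, t)).1 (A' t) := by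
  obtain ⟨s, hs, hd⟩ := hA.der
  refine ⟨s, hs, fun t ht => ⟨hd t ht, ?_⟩⟩
  have h1 : HasDerivAt (fun t => (fl G (z, t)).1) (fl G (z, t)).2 t :=
    hda_fst (hasDerivAt_fl G (complete G hz t))
  have h2 : HasDerivAt (fun t => G.P (fl G (z, t)).1)
      (fderiv ℝ G.P (fl G (z, t)).1 (fl G (z, t)).2) t :=
    ((differentiable_P G).differentiableAt.hasFDerivAt).comp_hasDerivAt t h1
  have h3 := h2.clm_apply (hd t ht)
  have h4 : HasDerivAt A (fderiv ℝ G.P (fl G (z, t)).1 (fl G (z, t)).2 (A t) +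
      G.P (fl G (z, t)).1 (A' t)) t := by
    refine h3.congr_of_eventuallyEq ?_
    filter_upwards [Ioo_mem_nhds ht.1.1 ht.1.2] with x hx
    exact ((P_eq_self G (fl_mem G hz x).1).1 (hA.mem x ⟨hx.1.le, hx.2.le⟩)).symm
  exact (hd t ht).unique h4

/-- the family of projections along a geodesic -/
theorem hasDerivAt_P_fl (hz : z ∈ TS G) (t : ℝ) : HasDerivAt (fun t => G.P (fl G (z, t)).1)
      (fderiv ℝ G.P (fl G (z, t)).1 (fl G (z, t)).2) t :=
  ((differentiable_P G).differentiableAt.hasFDerivAt).comp_hasDerivAt t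
    (hda_fst (hasDerivAt_fl G (complete G hz t)))

theorem continuous_dP_fl (hz : z ∈ TS G) :
    Continuous (fun t => fderiv ℝ G.P (fl G (z, t)).1 (fl G (z, t)).2) := by
  have h1 := SV.continuous_fl (G := G) hz
  have h3 : Continuous (fderiv ℝ G.P) := G.contDiff_P.continuous_fderiv (by simp)
  exact (h3.comp h1.fst).clm_apply h1.snd

theorem norm_add_sq_le {E : Type*} [SeminormedAddCommGroup E] (x y : E) :
    ‖x + y‖ ^ 2 ≤ 2 * ‖x‖ ^ 2 + 2 * ‖y‖ ^ 2 := by
  have h := norm_add_le x y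
  have h0 := norm_nonneg (x + y)
  nlinarith [sq_nonneg (‖x‖ - ‖y‖), norm_nonneg x, norm_nonneg y]

/-- **approximation of a broken tangent field by `C¹` tangent fields** with the same end values -/
theorem BFld.exists_approx (hz : z ∈ TS G) (hA : BFld G z a b A A') (hab : a < b) {δ : ℝ}
    (hδ : 0 < δ) :
    ∃ C C' : ℝ → Euc N, SV.Fld G z a b C C' ∧ C a = A a ∧ C b = A b ∧
      (∀ t ∈ Icc a b, ‖A t - C t‖ ^ 2 ≤ δ) ∧
      ∫ t in a..b, (‖A t - C t‖ ^ 2 + ‖A' t - C' t‖ ^ 2) ≤ δ := by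
  have hl : 0 < b - a := sub_pos.2 hab
  obtain ⟨M, hM⟩ := (isCompact_Icc (a := a) (b := b)).exists_bound_of_continuousOn
    (continuous_dP_fl (G := G) hz).continuousOn
  have hM0 : 0 ≤ M := (norm_nonneg _).trans (hM a ⟨le_rfl, hab.le⟩)
  set R : ℝ := 1 + (b - a) + 2 * M ^ 2 * (b - a) + 2 with hR
  have hR0 : 0 < R := by positivity
  have hR1 : 1 ≤ R := by rw [hR]; nlinarith [mul_nonneg (mul_nonneg zero_le_two (sq_nonneg M)) hl.le]
  obtain ⟨V, V', hV, hVc, hVa, hVb, hV1, hVi, hV2⟩ := hA.toHF.exists_approx hab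
    (div_pos hδ hR0)
  set η := δ / R with hη
  have hη0 : 0 < η := div_pos hδ hR0
  have hηδ : η ≤ δ := div_le_self hδ.le hR1
  obtain ⟨s, hs, hd⟩ := hA.der_eq hz
  have hP : ∀ t, ‖G.P (fl G (z, t)).1 (A t - V t)‖ ≤ ‖A t - V t‖ := fun t =>
    SV.norm_P_le (fl_mem G hz t).1 _
  have hPA : ∀ t ∈ Icc a b, A t - G.P (fl G (z, t)).1 (V t) =
      G.P (fl G (z, t)).1 (A t - V t) := fun t ht => by
    rw [map_sub, (P_eq_self G (fl_mem G hz t).1).1 (hA.mem t ht)]
  have hfl : SV.Fld G z a b (fun t => G.P (fl G (z, t)).1 (V t))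
      (fun t => fderiv ℝ G.P (fl G (z, t)).1 (fl G (z, t)).2 (V t) +
        G.P (fl G (z, t)).1 (V' t)) := by
    refine ⟨fun t _ => ((hasDerivAt_P_fl hz t).clm_apply (hV t)).hasDerivWithinAt, ?_,
      fun t _ => P_mem G (fl_mem G hz t).1⟩
    have hVc' : Continuous V := continuous_iff_continuousAt.2 fun t => (hV t).continuousAt
    exact (((continuous_dP_fl hz).clm_apply hVc').add
      ((G.contDiff_P.continuous.comp (SV.continuous_fl hz).fst).clm_apply hVc)).continuousOn
  refine ⟨fun t => G.P (fl G (z, t)).1 (V t), _, hfl, ?_, ?_, ?_, ?_⟩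
  · simp only
    rw [hVa]
    exact (P_eq_self G (fl_mem G hz a).1).1 (hA.mem a ⟨le_rfl, hab.le⟩)
  · simp only
    rw [hVb]
    exact (P_eq_self G (fl_mem G hz b).1).1 (hA.mem b ⟨hab.le, le_rfl⟩)
  · intro t ht
    simp only
    rw [hPA t ht]
    exact ((pow_le_pow_left₀ (norm_nonneg _) (hP t) 2).trans (hV1 t ht)).trans hηδ
  · have hD := hA.sub (BFld.of_fld hfl)
    have i1 : IntervalIntegrable (fun t => ‖A t - G.P (fl G (z, t)).1 (V t)‖ ^ 2) volume a b := by
      apply ContinuousOn.intervalIntegrable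
      rw [uIcc_of_le hab.le]
      exact hD.cont.norm.pow 2
    have i2 := hD.int_sq hab.le
    have i3 : IntervalIntegrable (fun t => η + (2 * M ^ 2 * η + 2 * ‖A' t - V' t‖ ^ 2)) volume a b :=
      (by simp : IntervalIntegrable (fun _ : ℝ => η) volume a b).add
        ((by simp : IntervalIntegrable (fun _ : ℝ => 2 * M ^ 2 * η) volume a b).add
          (hVi.const_mul 2))
    have hle : ∫ t in a..b, (‖A t - G.P (fl G (z, t)).1 (V t)‖ ^ 2 +
        ‖A' t - (fderiv ℝ G.P (fl G (z, t)).1 (fl G (z, t)).2 (V t) +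
          G.P (fl G (z, t)).1 (V' t))‖ ^ 2) ≤
        ∫ t in a..b, (η + (2 * M ^ 2 * η + 2 * ‖A' t - V' t‖ ^ 2)) := by
      rw [intervalIntegral.integral_of_le hab.le, intervalIntegral.integral_of_le hab.le]
      refine integral_mono_ae ?_ ?_ ?_
      · exact ((i1.add i2).1)
      · exact i3.1
      · have h1 : ∀ᵐ t ∂(volume.restrict (Ioc a b)), t ∉ s ∪ {b} :=
          ae_restrict_of_ae ((hs.union (countable_singleton b)).ae_notMem _)
        filter_upwards [h1, ae_restrict_mem measurableSet_Ioc] with t ht ht2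
        have ht3 : t ∈ Ioo a b \ s :=
          ⟨⟨ht2.1, lt_of_le_of_ne ht2.2 fun h => ht (Or.inr h)⟩, fun h => ht (Or.inl h)⟩
        have ht4 : t ∈ Icc a b := Ioc_subset_Icc_self ht2
        have e1 := (hd t ht3).2
        have e2 : A' t - (fderiv ℝ G.P (fl G (z, t)).1 (fl G (z, t)).2 (V t) +
            G.P (fl G (z, t)).1 (V' t)) =
            fderiv ℝ G.P (fl G (z, t)).1 (fl G (z, t)).2 (A t - V t) +
              G.P (fl G (z, t)).1 (A' t - V' t) := by
          conv_lhs => rw [e1]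
          unfold II
          rw [map_sub, map_sub]
          abel
        rw [e2, hPA t ht4]
        refine add_le_add ((pow_le_pow_left₀ (norm_nonneg _) (hP t) 2).trans (hV1 t ht4)) ?_
        refine (norm_add_sq_le _ _).trans (add_le_add ?_ ?_)
        · have h2 : ‖fderiv ℝ G.P (fl G (z, t)).1 (fl G (z, t)).2 (A t - V t)‖ ≤
              M * ‖A t - V t‖ := (ContinuousLinearMap.le_opNorm _ _).trans
            (mul_le_mul_of_nonneg_right (hM t ht4) (norm_nonneg _))
          have h3 := pow_le_pow_left₀ (norm_nonneg _) h2 2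
          rw [mul_pow] at h3
          have h4 := mul_le_mul_of_nonneg_left (hV1 t ht4) (sq_nonneg M)
          linarith
        · exact mul_le_mul_of_nonneg_left (pow_le_pow_left₀ (norm_nonneg _)
            (SV.norm_P_le (fl_mem G hz t).1 _) 2) zero_le_two
    refine hle.trans ?_
    rw [intervalIntegral.integral_add (by simp) ((by simp : IntervalIntegrable
        (fun _ : ℝ => 2 * M ^ 2 * η) volume a b).add (hVi.const_mul 2)),
      intervalIntegral.integral_add (by simp) (hVi.const_mul 2),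
      intervalIntegral.integral_const, intervalIntegral.integral_const,
      intervalIntegral.integral_const_mul, smul_eq_mul, smul_eq_mul]
    have h5 : R * η = δ := by rw [hη]; field_simp
    have h6 : 0 ≤ 1 * η := by positivity
    rw [← h5, hR]
    nlinarith

end Crest.Agent.R208.NN
end
end

-- ▼ part R208/NN4c
section

/-!
Row 208, block [N], part NN4c (helper589): the index form is nonnegative on broken fields vanishing
at the ends of a minimising arc; the periodic and antiperiodic upper bounds for broken fields.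
-/

set_option autoImplicit false

open MeasureTheory Measure Set Filter Topology Module Metric
open scoped ContDiff RealInnerProductSpace
open Crest.GeometryTopology.Submanifold
open Crest.Agent.R241.DDefs
open Crest.Agent.R241.D2
open Crest.Agent.R208.L (om TanTS dfl om_dfl)
open Crest.Agent.R208.FI (Tan Sub)

noncomputable section

namespace Crest.Agent.R208.NN

variable {n N k K : ℕ} {κ : ℝ} {S : Set (Euc N)} {G : Geo n N κ S} {q z ξ : Euc N × Euc N}
  {a b c : ℝ} {A A' B B' V V' : ℝ → Euc N}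

/-- squared `H¹` norm -/
def hs (a b : ℝ) (A A' : ℝ → Euc N) : ℝ := ∫ t in a..b, (‖A t‖ ^ 2 + ‖A' t‖ ^ 2)

theorem HF.int_hs (hA : HF a b A A') (hab : a ≤ b) :
    IntervalIntegrable (fun t => ‖A t‖ ^ 2 + ‖A' t‖ ^ 2) volume a b := by
  refine IntervalIntegrable.add ?_ (hA.int_sq hab)
  apply ContinuousOn.intervalIntegrable
  rw [uIcc_of_le hab]
  exact hA.cont.norm.pow 2

theorem hs_nonneg (hab : a ≤ b) : 0 ≤ hs a b A A' :=
  intervalIntegral.integral_nonneg hab fun t _ => by positivity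

/-- continuity of the index form in `H¹` -/
theorem abs_ix_le (hz : z ∈ TS G) (hab : a ≤ b) : ∃ M, 0 ≤ M ∧ ∀ A A' B B' : ℝ → Euc N,
    BFld G z a b A A' → BFld G z a b B B' → ∀ r : ℝ, 0 < r →
      |2 * SV.ix G z a b A A' B B'| ≤ M * (r * hs a b A A' + r⁻¹ * hs a b B B') := by
  have h2 : ContinuousOn (fun t => (X G (fl G (z, t))).2) (Icc a b) :=
    continuous_snd.comp_continuousOn ((contDiff_X G).continuous.comp_continuousOn
      (SV.contOn_fl hz _))
  have h3 : Continuous (fderiv ℝ G.P) := G.contDiff_P.continuous_fderiv (by simp)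
  obtain ⟨M1, hM1⟩ := (isCompact_Icc (a := a) (b := b)).exists_bound_of_continuousOn h2
  have h3' : ContinuousOn (fun t => fderiv ℝ G.P (fl G (z, t)).1) (Icc a b) :=
    (h3.comp (SV.continuous_fl (G := G) hz).fst).continuousOn
  obtain ⟨M2, hM2⟩ := IsCompact.exists_bound_of_continuousOn
    (E := Euc N →L[ℝ] Euc N →L[ℝ] Euc N) (isCompact_Icc (a := a) (b := b)) h3'
  have hM10 : 0 ≤ M1 := (norm_nonneg _).trans (hM1 a ⟨le_rfl, hab⟩)
  have hM20 : 0 ≤ M2 := (norm_nonneg _).trans (hM2 a ⟨le_rfl, hab⟩)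
  have hpt : ∀ A A' B B' : ℝ → Euc N, ∀ r : ℝ, 0 < r → ∀ t ∈ Icc a b,
      |2 * SV.ixd G z A A' B B' t| ≤ (1 + M1 * M2) * (r * (‖A t‖ ^ 2 + ‖A' t‖ ^ 2) +
        r⁻¹ * (‖B t‖ ^ 2 + ‖B' t‖ ^ 2)) := by
    intro A A' B B' r hr t ht
    have e1 : |⟪A' t, B' t⟫| ≤ ‖A' t‖ * ‖B' t‖ := abs_real_inner_le_norm _ _
    have e2 : |⟪(X G (fl G (z, t))).2, II G (fl G (z, t)).1 (A t) (B t)⟫| ≤
        M1 * M2 * (‖A t‖ * ‖B t‖) := by
      refine (abs_real_inner_le_norm _ _).trans ?_
      have e3 : ‖II G (fl G (z, t)).1 (A t) (B t)‖ ≤ M2 * ‖A t‖ * ‖B t‖ :=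
        ((ContinuousLinearMap.le_opNorm _ _)).trans (mul_le_mul_of_nonneg_right
          ((ContinuousLinearMap.le_opNorm _ _).trans (mul_le_mul_of_nonneg_right
            (hM2 t ht) (norm_nonneg _))) (norm_nonneg _))
      calc _ ≤ M1 * (M2 * ‖A t‖ * ‖B t‖) :=
            mul_le_mul (hM1 t ht) e3 (norm_nonneg _) hM10
        _ = _ := by ring
    have amgm : ∀ x y : ℝ, 2 * (x * y) ≤ r * x ^ 2 + r⁻¹ * y ^ 2 := by
      intro x y
      have h := sq_nonneg (r * x - y)
      have h' : 0 ≤ r⁻¹ * (r * x - y) ^ 2 := mul_nonneg (inv_nonneg.2 hr.le) h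
      have h'' : r⁻¹ * (r * x - y) ^ 2 = r * x ^ 2 + r⁻¹ * y ^ 2 - 2 * (x * y) := by
        field_simp
        ring
      linarith
    unfold SV.ixd
    rw [abs_mul, abs_two]
    have e4 := (abs_sub ⟪A' t, B' t⟫ ⟪(X G (fl G (z, t))).2, II G (fl G (z, t)).1 (A t) (B t)⟫)
    have a1 := amgm ‖A' t‖ ‖B' t‖
    have a2 := amgm ‖A t‖ ‖B t‖
    have p1 : 0 ≤ r * ‖A' t‖ ^ 2 + r⁻¹ * ‖B' t‖ ^ 2 := by positivity
    have p2 : 0 ≤ r * ‖A t‖ ^ 2 + r⁻¹ * ‖B t‖ ^ 2 := by positivity
    have hM12 : 0 ≤ M1 * M2 := mul_nonneg hM10 hM20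
    nlinarith [mul_le_mul_of_nonneg_left a2 hM12, mul_nonneg hM12 p1]
  refine ⟨1 + M1 * M2, by positivity, fun A A' B B' hA hB r hr => ?_⟩
  have i1 := hA.intble hz hab hB
  unfold SV.ix hs
  rw [← intervalIntegral.integral_const_mul, ← intervalIntegral.integral_const_mul,
    ← intervalIntegral.integral_const_mul, ← intervalIntegral.integral_add
      ((hA.int_hs hab).const_mul _) ((hB.int_hs hab).const_mul _),
    ← intervalIntegral.integral_const_mul, ← Real.norm_eq_abs]
  refine (intervalIntegral.norm_integral_le_integral_norm hab).trans ?_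
  refine intervalIntegral.integral_mono_on hab (i1.const_mul 2).norm
    ((((hA.int_hs hab).const_mul _).add ((hB.int_hs hab).const_mul _)).const_mul _) ?_
  intro t ht
  exact hpt A A' B B' r hr t ht

/-- **the index form is nonnegative on broken fields vanishing at the ends of a minimising arc** -/
theorem ix_nonneg_b {D : ℝ} (hB : Bl n N κ S G D) (hz : z ∈ TS G) (hz1 : ‖z.2‖ = 1)
    (hab : a ≤ b) (hbD : b - a ≤ D) (hA : BFld G z a b A A') (ha : A a = 0) (hb : A b = 0) :
    0 ≤ SV.ix G z a b A A' A A' := by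
  rcases hab.eq_or_lt with rfl | hlt
  · simp [SV.ix]
  by_contra hneg
  rw [not_le] at hneg
  obtain ⟨M, hM0, hM⟩ := abs_ix_le (G := G) hz hab
  set J := SV.ix G z a b A A' A A' with hJ
  set I := hs a b A A' with hI
  have hI0 : 0 ≤ I := hs_nonneg hab
  set r : ℝ := 3 * (M * I + 1) / (-J) with hr
  have hr0 : 0 < r := div_pos (by positivity) (by linarith)
  set δ : ℝ := -J / (3 * (M * (r + 1) + 1)) with hδ
  have hδ0 : 0 < δ := div_pos (by linarith) (by positivity)
  obtain ⟨C, C', hC, hCa, hCb, -, hCI⟩ := hA.exists_approx hz hlt hδ0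
  have h0 := SV.ix_nonneg hB hz hz1 hab hbD hC (by rw [hCa, ha]) (by rw [hCb, hb])
  have hD := hA.sub (BFld.of_fld hC)
  -- `C = A - D`
  have e1 := BFld.ix_sub_self hab hz hA hD
  have e2 : A - (A - C) = C := sub_sub_cancel _ _
  have e3 : A' - (A' - C') = C' := sub_sub_cancel _ _
  rw [e2, e3] at e1
  have hID : hs a b (A - C) (A' - C') ≤ δ := hCI
  have hID0 : 0 ≤ hs a b (A - C) (A' - C') := hs_nonneg hab
  have h1 := hM _ _ _ _ hD hA r hr0
  have h2 := hM _ _ _ _ hD hD 1 one_pos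
  rw [← hI] at h1
  rw [abs_le] at h1 h2
  have h3 : M * (r⁻¹ * I) ≤ -J / 3 := by
    rw [hr, inv_div]
    have : M * (-J / (3 * (M * I + 1)) * I) = (-J / 3) * (M * I / (M * I + 1)) := by
      field_simp
    rw [this]
    have h4 : M * I / (M * I + 1) ≤ 1 := by
      rw [div_le_one (by positivity)]; linarith
    nlinarith
  have h5 : M * (r + 1) * δ ≤ -J / 3 := by
    rw [hδ]
    have : M * (r + 1) * (-J / (3 * (M * (r + 1) + 1))) =
        (-J / 3) * (M * (r + 1) / (M * (r + 1) + 1)) := by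
      field_simp
    rw [this]
    have h4 : M * (r + 1) / (M * (r + 1) + 1) ≤ 1 := by
      rw [div_le_one (by positivity)]; linarith
    nlinarith
  have h6 : M * (r * hs a b (A - C) (A' - C')) + M * hs a b (A - C) (A' - C') ≤ -J / 3 := by
    refine le_trans ?_ h5
    have : M * (r * hs a b (A - C) (A' - C')) + M * hs a b (A - C) (A' - C') =
      M * (r + 1) * hs a b (A - C) (A' - C') := by ring
    rw [this]
    exact mul_le_mul_of_nonneg_left hID (by positivity)
  simp only [one_mul, inv_one] at h2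
  nlinarith [h1.1, h1.2, h2.1, h2.2]

/-! ### the orthogonal component -/

theorem bfld_pp (hz : z ∈ TS G) (hV : BFld G z a b V V') :
    BFld G z a b (pp G z V) (pp' G z V V') := by
  have hc : ∀ t, HasDerivAt (fun t => (fl G (z, t)).2) (X G (fl G (z, t))).2 t := fun t =>
    hda_snd (hasDerivAt_fl G (complete G hz t))
  -- the family of maps `x ↦ x - ⟪c', x⟫ c'`
  set L : ℝ → Euc N →L[ℝ] Euc N := fun t =>
    ContinuousLinearMap.id ℝ (Euc N) - (innerSL ℝ (fl G (z, t)).2).smulRight (fl G (z, t)).2 with hL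
  set L' : ℝ → Euc N →L[ℝ] Euc N := fun t =>
    -((innerSL ℝ (X G (fl G (z, t))).2).smulRight (fl G (z, t)).2 +
      (innerSL ℝ (fl G (z, t)).2).smulRight (X G (fl G (z, t))).2) with hL'
  have hLd : ∀ t, HasDerivAt L (L' t) t := by
    intro t
    have h1 : HasDerivAt (fun t => innerSL ℝ (fl G (z, t)).2)
        (innerSL ℝ (X G (fl G (z, t))).2) t :=
      ((innerSL ℝ).hasFDerivAt (x := (fl G (z, t)).2)).comp_hasDerivAt t (hc t)
    have h2 := (ContinuousLinearMap.smulRightL ℝ (Euc N) (Euc N)).isBoundedBilinearMap.hasFDerivAt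
      (innerSL ℝ (fl G (z, t)).2, (fl G (z, t)).2)
    have h3 := HasFDerivAt.comp_hasDerivAt (f := fun t =>
      (innerSL ℝ (fl G (z, t)).2, (fl G (z, t)).2)) t h2 (h1.prodMk (hc t))
    have h4 := (hasDerivAt_const t (ContinuousLinearMap.id ℝ (Euc N))).sub h3
    refine h4.congr_deriv ?_
    rw [hL']
    simp only [zero_sub]
    congr 1
    ext x
    simp [ContinuousLinearMap.smulRightL, add_comm]
  have hL'c : Continuous L' := by
    have h1 := SV.continuous_fl (G := G) hz
    have h2 : Continuous (fun t => (X G (fl G (z, t))).2) := ((contDiff_X G).continuous.comp h1).snd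
    have h3 : Continuous (fun t => (fl G (z, t)).2) := h1.snd
    have hb : Continuous fun p : (Euc N →L[ℝ] ℝ) × Euc N => p.1.smulRight p.2 :=
      (ContinuousLinearMap.smulRightL ℝ (Euc N) (Euc N)).isBoundedBilinearMap.continuous
    exact ((hb.comp (((innerSL ℝ).continuous.comp h2).prodMk h3)).add
      (hb.comp (((innerSL ℝ).continuous.comp h3).prodMk h2))).neg
  have h1 := hV.toHF.clm hLd hL'c
  obtain ⟨s, hs, hd⟩ := hV.der_eq hz
  refine ⟨(h1.congr (B := pp G z V) fun t _ => ?_).congr_der (B' := pp' G z V V') hs fun t ht => ?_,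
    fun t ht => ?_⟩
  · rw [hL]
    simp only [_root_.sub_apply, ContinuousLinearMap.id_apply, ContinuousLinearMap.smulRight_apply,
      innerSL_apply_apply]
    unfold pp
    rw [real_inner_comm]
  · have ht' : t ∈ Icc a b := ⟨ht.1.1.le, ht.1.2.le⟩
    rw [hL, hL']
    simp only [_root_.sub_apply, _root_.neg_apply, _root_.add_apply, ContinuousLinearMap.id_apply,
      ContinuousLinearMap.smulRight_apply, innerSL_apply_apply]
    unfold pp'
    rw [inner_X_tan hz (hV.mem t ht'), real_inner_comm (V t), real_inner_comm (V' t)]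
    module
  · exact (G.T _).sub_mem (hV.mem t ht) ((G.T _).smul_mem _ (fl_mem G hz t).2)

/-- the index form of the orthogonal component is smaller -/
theorem ix_pp_le_b (hz : z ∈ TS G) (h1 : ‖z.2‖ = 1) (hV : BFld G z a b V V') (hab : a ≤ b) :
    SV.ix G z a b (pp G z V) (pp' G z V V') (pp G z V) (pp' G z V V') ≤
      SV.ix G z a b V V' V V' := by
  have hW := bfld_pp hz hV
  unfold SV.ix
  obtain ⟨s, hs, hd⟩ := hV.der_eq hz
  rw [intervalIntegral.integral_of_le hab, intervalIntegral.integral_of_le hab]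
  refine integral_mono_ae (hW.intble hz hab hW).1 (hV.intble hz hab hV).1 ?_
  have h1' : ∀ᵐ t ∂(volume.restrict (Ioc a b)), t ∉ s ∪ {b} :=
    ae_restrict_of_ae ((hs.union (countable_singleton b)).ae_notMem _)
  filter_upwards [h1', ae_restrict_mem measurableSet_Ioc] with t ht ht2
  have ht3 : t ∈ Ioo a b \ s :=
    ⟨⟨ht2.1, lt_of_le_of_ne ht2.2 fun h => ht (Or.inr h)⟩, fun h => ht (Or.inl h)⟩
  rw [ixd_pp_of hz h1 (hV.mem t (Ioc_subset_Icc_self ht2)) (hd t ht3).2]
  have := sq_nonneg (⟪V' t, (fl G (z, t)).2⟫)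
  linarith

/-- a field which agrees with a periodic Jacobi field at the times `0, π, 2π` has nonnegative
index form -/
theorem nonneg_of_jac_b (h : GT.Bla G k) (hz : z ∈ L.US G) (hξ : ξ ∈ Tan (L.US G) z)
    (hV : BFld G z 0 (2 * Real.pi) V V') (h0 : V 0 = SV.jf G z ξ 0)
    (h1 : V Real.pi = SV.jf G z ξ Real.pi) (h2 : V (2 * Real.pi) = SV.jf G z ξ 0) :
    0 ≤ SV.ix G z 0 (2 * Real.pi) V V' V V' := by
  have hpi := Real.pi_pos
  have hT := tanTS_of_Tan h hz hξ
  have hJ := BFld.of_fld (SV.fld_jf hT 0 (2 * Real.pi))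
  have hab : (0 : ℝ) ≤ 2 * Real.pi := by positivity
  have hp1 : SV.jf G z ξ (2 * Real.pi) = SV.jf G z ξ 0 := by
    unfold SV.jf; rw [dfl_two_pi h hz hξ, L.dfl_zero hz.1]
  have hp2 : SV.jf' G z ξ (2 * Real.pi) = SV.jf' G z ξ 0 := by
    unfold SV.jf'; rw [dfl_two_pi h hz hξ, L.dfl_zero hz.1]
  have e1 := BFld.ix_sub_self hab hz.1 hV hJ
  have e2 := BFld.ix_jac hT hab hV
  have e3 := BFld.ix_jac hT hab hJ
  rw [hp2, h2, h0, sub_self] at e2
  rw [hp2, hp1, sub_self] at e3
  rw [e2, e3] at e1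
  have e4 : SV.ix G z 0 (2 * Real.pi) V V' V V' = SV.ix G z 0 (2 * Real.pi) (V - SV.jf G z ξ)
      (V' - SV.jf' G z ξ) (V - SV.jf G z ξ) (V' - SV.jf' G z ξ) := by rw [e1]; ring
  rw [e4]
  have hD := hV.sub hJ
  have hD1 : BFld G z 0 Real.pi (V - SV.jf G z ξ) (V' - SV.jf' G z ξ) :=
    hD.mono le_rfl (by linarith)
  have hD2 : BFld G z Real.pi (2 * Real.pi) (V - SV.jf G z ξ) (V' - SV.jf' G z ξ) :=
    hD.mono hpi.le le_rfl
  rw [← BFld.ix_add_interval hz.1 hpi.le (by linarith) hD1 hD1 hD2 hD2]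
  have z0 : (V - SV.jf G z ξ) 0 = 0 := by rw [Pi.sub_apply, h0, sub_self]
  have z1 : (V - SV.jf G z ξ) Real.pi = 0 := by rw [Pi.sub_apply, h1, sub_self]
  have z2 : (V - SV.jf G z ξ) (2 * Real.pi) = 0 := by rw [Pi.sub_apply, h2, hp1, sub_self]
  exact add_nonneg (ix_nonneg_b h.bl hz.1 hz.2 hpi.le (by linarith) hD1 z0 z1)
    (ix_nonneg_b h.bl hz.1 hz.2 (by linarith) (by linarith) hD2 z1 z2)

/-- **periodic upper bound** for broken fields -/
theorem nonneg_per_b (h : GT.Bla G k) (hz : z ∈ L.US G)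
    (hV : BFld G z 0 (2 * Real.pi) V V') (hper : V (2 * Real.pi) = V 0)
    (hl : ∀ w ∈ V0 G z, ⟪w, V 0⟫ + ⟪GT.lf G z.1 (qq G z) w, V Real.pi⟫ = 0) :
    0 ≤ SV.ix G z 0 (2 * Real.pi) V V' V V' := by
  have hpi := Real.pi_pos
  refine le_trans ?_ (ix_pp_le_b hz.1 hz.2 hV (by positivity))
  obtain ⟨ξ, hξ, h0, h1⟩ := exists_jac_per h hz (V := V)
    (hV.mem 0 ⟨le_rfl, by positivity⟩) (hV.mem Real.pi ⟨hpi.le, by linarith⟩)
    (fun w hw hw0 => hl w (mem_V0.2 ⟨hw, hw0⟩))
  refine nonneg_of_jac_b h hz hξ (bfld_pp hz.1 hV) h0 h1 ?_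
  have := pp_two_pi (c := 1) h hz (V := V) (by rw [one_smul]; exact hper)
  rw [this, one_smul, h0]


end Crest.Agent.R208.NN
end
end

-- ▼ part R208/NN4d
section

/-!
Row 208, block [N], part NN4d (helper589): the index form is nonnegative on the complement of a
`(k-1)`-dimensional negative space of periodic fields.
-/

set_option autoImplicit false

open MeasureTheory Measure Set Filter Topology Module Metric
open scoped ContDiff RealInnerProductSpace
open Crest.GeometryTopology.Submanifold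
open Crest.Agent.R241.DDefs
open Crest.Agent.R241.D2
open Crest.Agent.R208.L (om TanTS dfl om_dfl)
open Crest.Agent.R208.FI (Tan Sub)

noncomputable section

namespace Crest.Agent.R208.NN

variable {n N k K : ℕ} {κ : ℝ} {S : Set (Euc N)} {G : Geo n N κ S} {q z ξ : Euc N × Euc N}
  {a b c : ℝ} {A A' B B' V V' W W' : ℝ → Euc N}

/-- the linear condition `P_{V₀}(x + f' y)` (`x = W(0)`, `y = W(π)`) -/
def lv (G : Geo n N κ S) (z : Euc N × Euc N) (x y : Euc N) : Euc N :=
  (V0 G z).starProjection (x + GT.lf G (qq G z) z.1 y)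

theorem lv_mem (x y : Euc N) : lv G z x y ∈ V0 G z := Submodule.starProjection_apply_mem _ _

theorem inner_lv (h : GT.Bla G k) (hz : z ∈ L.US G) (x y : Euc N) {u : Euc N} (hu : u ∈ V0 G z) :
    ⟪u, lv G z x y⟫ = ⟪u, x⟫ + ⟪GT.lf G z.1 (qq G z) u, y⟫ := by
  rw [lv, ← Submodule.inner_starProjection_left_eq_right,
    Submodule.starProjection_eq_self_iff.2 hu, inner_add_right,
    inner_lf_adj (q := qq G z) h (mem_FF h hz) (mem_V0.1 hu).1]

theorem lv_add (x x' y y' : Euc N) : lv G z (x + x') (y + y') = lv G z x y + lv G z x' y' := by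
  unfold lv
  rw [← map_add, map_add (GT.lf G (qq G z) z.1)]
  congr 1
  abel

theorem lv_smul (r : ℝ) (x y : Euc N) : lv G z (r • x) (r • y) = r • lv G z x y := by
  unfold lv
  rw [map_smul, ← smul_add, map_smul]

/-- periodic broken fields with `l = 0` -/
theorem nonneg_of_lv (h : GT.Bla G k) (hz : z ∈ L.US G)
    (hV : BFld G z 0 (2 * Real.pi) V V') (hper : V (2 * Real.pi) = V 0)
    (hl : lv G z (V 0) (V Real.pi) = 0) :
    0 ≤ SV.ix G z 0 (2 * Real.pi) V V' V V' := by
  refine nonneg_per_b h hz hV hper fun w hw => ?_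
  rw [← inner_lv h hz _ _ hw, hl, inner_zero_right]

/-- **the complement of a negative space of dimension `k - 1`** -/
theorem nonneg_compl (h : GT.Bla G k) (hz : z ∈ L.US G) {E : Type*} [AddCommGroup E] [Module ℝ E]
    [FiniteDimensional ℝ E] (hE : k ≤ finrank ℝ E + 1) (F F' : E →ₗ[ℝ] (ℝ → Euc N))
    (hF : ∀ w, BFld G z 0 (2 * Real.pi) (F w) (F' w)) (hFp : ∀ w, F w (2 * Real.pi) = F w 0)
    (hneg : ∀ w, w ≠ 0 → SV.ix G z 0 (2 * Real.pi) (F w) (F' w) (F w) (F' w) < 0)
    (hW : BFld G z 0 (2 * Real.pi) W W') (hper : W (2 * Real.pi) = W 0)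
    (horth : ∀ w, SV.ix G z 0 (2 * Real.pi) (F w) (F' w) W W' = 0) :
    0 ≤ SV.ix G z 0 (2 * Real.pi) W W' W W' := by
  by_contra hcon
  rw [not_le] at hcon
  have hpi : (0 : ℝ) ≤ 2 * Real.pi := by positivity
  -- the linear map `(w, r) ↦ l (F w + r W)`
  let Λ : E × ℝ →ₗ[ℝ] Euc N :=
    { toFun := fun x => lv G z (F x.1 0 + x.2 • W 0) (F x.1 Real.pi + x.2 • W Real.pi)
      map_add' := fun x y => by
        rw [← lv_add]
        simp only [Prod.fst_add, Prod.snd_add, map_add, Pi.add_apply, add_smul]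
        congr 1 <;> abel
      map_smul' := fun r x => by
        rw [RingHom.id_apply, ← lv_smul]
        simp only [Prod.smul_fst, Prod.smul_snd, map_smul, Pi.smul_apply, smul_add, smul_assoc] }
  have h1 := finrank_ker_ge Λ (V0 G z) (fun x => lv_mem _ _)
  have h2 : finrank ℝ (E × ℝ) = finrank ℝ E + 1 := by
    rw [Module.finrank_prod, Module.finrank_self]
  have h3 := finrank_V0 h hz
  have h4 : LinearMap.ker Λ ≠ ⊥ := by
    intro h0
    rw [h0, finrank_bot, h2] at h1
    omega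
  obtain ⟨⟨w, r⟩, hx, hx0⟩ := (Submodule.ne_bot_iff _).1 h4
  have hl : lv G z (F w 0 + r • W 0) (F w Real.pi + r • W Real.pi) = 0 := hx
  have h5 := nonneg_of_lv h hz ((hF w).add (hW.smul r)) (by
    simp only [Pi.add_apply, Pi.smul_apply, hFp, hper]) (by
    simpa only [Pi.add_apply, Pi.smul_apply] using hl)
  rw [BFld.ix_add_self hpi hz.1 (hF w) (hW.smul r), SV.ix_smul_left, SV.ix_smul_left,
    SV.ix_smul_right, BFld.ix_symm hpi hz.1 hW (hF w), horth w] at h5
  by_cases hw : w = 0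
  · have hr : r ≠ 0 := by
      rintro rfl
      exact hx0 (by rw [hw]; rfl)
    have h6 : SV.ix G z 0 (2 * Real.pi) (F w) (F' w) (F w) (F' w) = 0 := by
      have h7 := SV.ix_smul_left (G := G) (q := z) (a := 0) (b := 2 * Real.pi) (A := F w)
        (A' := F' w) (C := F w) (C' := F' w) 0
      rw [hw, map_zero, map_zero] at h7 ⊢
      simpa using h7
    rw [h6] at h5
    have : 0 < r * r := mul_self_pos.2 hr
    nlinarith
  · have h6 := hneg w hw
    have : 0 ≤ r * r := mul_self_nonneg r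
    nlinarith

/-- `fd` as a linear map -/
def fdL (G : Geo n N κ S) (z : Euc N × Euc N) (ν : Fin K → ℝ) : Wt N K →ₗ[ℝ] (ℝ → Euc N) where
  toFun w := fd G z ν w
  map_add' w w' := by ext1 t; simp [fd]
  map_smul' r w := by ext1 t; simp [fd]

/-- `fd'` as a linear map -/
def fdL' (G : Geo n N κ S) (z : Euc N × Euc N) (ν : Fin K → ℝ) : Wt N K →ₗ[ℝ] (ℝ → Euc N) where
  toFun w := fd' G z ν w
  map_add' w w' := by
    funext t
    simp only [fd', map_add, Pi.add_apply]
    exact add_add_add_comm _ _ _ _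
  map_smul' r w := by
    funext t
    simp only [fd', map_smul, Pi.smul_apply, smul_add, RingHom.id_apply]

/-- **the complement of the negative space of `qf`** -/
theorem nonneg_compl_qf (h : GT.Bla G k) (hz : z ∈ L.US G) {Q : Submodule ℝ (Wt N K)}
    (hQ : k ≤ finrank ℝ Q + 1) (hneg : ∀ w ∈ Q, w ≠ 0 → qf G z (nuP K) w < 0)
    (hW : BFld G z 0 (2 * Real.pi) W W') (hper : W (2 * Real.pi) = W 0)
    (horth : ∀ w ∈ Q, SV.ix G z 0 (2 * Real.pi) (fd G z (nuP K) w) (fd' G z (nuP K) w) W W' = 0) :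
    0 ≤ SV.ix G z 0 (2 * Real.pi) W W' W W' := by
  refine nonneg_compl h hz (E := Q) hQ ((fdL G z (nuP K)).comp Q.subtype)
    ((fdL' G z (nuP K)).comp Q.subtype) (fun w => BFld.of_fld (fld_fd hz.1 _ _ _ _))
    (fun w => fd_two_pi h hz _) (fun w hw => ?_) hW hper (fun w => horth w w.2)
  refine (qf_ge G z (nuP K) _).trans_lt (hneg w w.2 fun h0 => hw (Subtype.ext h0))

end Crest.Agent.R208.NN
end
end

-- ▼ part R208/KR3
section

/-!
R208, block KF (helper844), file KR3: the tangent fields `xi` obtained by integrating a curve of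
half Jacobi fields, and their index forms.
-/

set_option autoImplicit false

open Set Filter Topology MeasureTheory Real
open scoped RealInnerProductSpace Interval ContDiff
open Crest.GeometryTopology.Submanifold
open Crest.Agent.R241.DDefs
open Crest.Agent.R241.D2
open Crest.Agent.R208.L (om TanTS dfl om_dfl)
open Crest.Agent.R208.FI (Tan Sub)

noncomputable section

namespace Crest.Agent.R208.KR

variable {n N k K : ℕ} {κ : ℝ} {S : Set (Euc N)} {G : Geo n N κ S} {z ξ η : Euc N × Euc N}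

/-! ### the linearised flow -/

/-- the linearised geodesic equation in operator form -/
theorem hasDerivAt_dfl_op (hz : z ∈ TS G) (t : ℝ) :
    HasDerivAt (fun t => dfl G z t) ((fderiv ℝ (X G) (fl G (z, t))).comp (dfl G z t)) t := by
  have h0 := contDiffAt_fl' G hz t
  have hd : DifferentiableAt ℝ (fderiv ℝ (fl G)) (z, t) :=
    (h0.fderiv_right (m := ∞) (by simp)).differentiableAt (by simp)
  have h1 : HasDerivAt (fun s : ℝ => ((z, s) : (Euc N × Euc N) × ℝ)) (0, 1) t :=
    (hasDerivAt_const t z).prodMk (hasDerivAt_id t)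
  have h2 : HasDerivAt (fun s => fderiv ℝ (fl G) (z, s))
      (fderiv ℝ (fderiv ℝ (fl G)) (z, t) (0, 1)) t := hd.hasFDerivAt.comp_hasDerivAt t h1
  have h3 : HasDerivAt (fun s => (fderiv ℝ (fl G) (z, s)).comp
      (ContinuousLinearMap.inl ℝ (Euc N × Euc N) ℝ))
      ((fderiv ℝ (fderiv ℝ (fl G)) (z, t) (0, 1)).comp
      (ContinuousLinearMap.inl ℝ (Euc N × Euc N) ℝ)) t := by
    simpa using h2.clm_comp (hasDerivAt_const t (ContinuousLinearMap.inl ℝ (Euc N × Euc N) ℝ))
  have h4 : (fun s => (fderiv ℝ (fl G) (z, s)).comp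
      (ContinuousLinearMap.inl ℝ (Euc N × Euc N) ℝ)) = fun s => dfl G z s := by
    funext s
    refine ContinuousLinearMap.ext fun ξ => ?_
    rw [L.dfl_apply hz]; rfl
  rw [h4] at h3
  refine h3.congr_deriv ?_
  refine ContinuousLinearMap.ext fun ξ => ?_
  have h5 : HasDerivAt (fun s => dfl G z s ξ) (((fderiv ℝ (fderiv ℝ (fl G)) (z, t) (0, 1)).comp
      (ContinuousLinearMap.inl ℝ (Euc N × Euc N) ℝ)) ξ) t := by
    simpa using h3.clm_apply (hasDerivAt_const t ξ)
  exact h5.unique (L.hasDerivAt_dfl hz ξ t)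

theorem continuous_dfl (hz : z ∈ TS G) : Continuous fun t => dfl G z t :=
  continuous_iff_continuousAt.2 fun t => (hasDerivAt_dfl_op hz t).continuousAt

/-- cocycle identity -/
theorem dfl_add (hz : z ∈ TS G) (s t : ℝ) (ξ : Euc N × Euc N) :
    dfl G z (s + t) ξ = dfl G (fl G (z, s)) t (dfl G z s ξ) := by
  have hc : ContinuousAt (fun y => (fl G (y, s), t)) z := by
    have h1 : ContinuousAt (fl G) (z, s) := (contDiffAt_fl' G hz s).continuousAt
    have h2 : ContinuousAt (fun y : Euc N × Euc N => (y, s)) z := by fun_prop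
    exact (ContinuousAt.comp (f := fun y : Euc N × Euc N => (y, s)) (x := z) h1 h2).prodMk
      continuousAt_const
  have h1 : (fun y => fl G (y, s + t)) =ᶠ[𝓝 z] fun y => fl G (fl G (y, s), t) := by
    have e1 : ∀ᶠ y in 𝓝 z, (y, s) ∈ fd G := by
      have h2 : ContinuousAt (fun y : Euc N × Euc N => (y, s)) z := by fun_prop
      exact h2.eventually ((isOpen_fd G).mem_nhds (complete G hz s))
    have e2 : ∀ᶠ y in 𝓝 z, (fl G (y, s), t) ∈ fd G :=
      hc.eventually ((isOpen_fd G).mem_nhds (complete G (fl_mem G hz s) t))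
    filter_upwards [e1, e2] with y h3 h4
    exact (fl_add G h3 h4).2
  have h2 : HasFDerivAt (fun y => fl G (fl G (y, s), t))
      ((dfl G (fl G (z, s)) t).comp (dfl G z s)) z :=
    HasFDerivAt.comp (g := fun y => fl G (y, t)) (f := fun y => fl G (y, s)) z
      (L.hasFDerivAt_fl_left (fl_mem G hz s) t) (L.hasFDerivAt_fl_left hz s)
  have h3 := (L.hasFDerivAt_fl_left hz (s + t)).unique (h2.congr_of_eventuallyEq h1)
  rw [h3]; rfl


/-- periodicity -/
theorem dfl_per (h : GT.Bla G k) (hz : z ∈ L.US G) (hξ : ξ ∈ Tan (L.US G) z) (t : ℝ) :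
    dfl G z (t + 2 * π) ξ = dfl G z t ξ := by
  rw [add_comm, dfl_add hz.1, NN.dfl_two_pi h hz hξ, NN.fl_two_pi h hz]

theorem fl_per (h : GT.Bla G k) (hz : z ∈ L.US G) (t : ℝ) :
    fl G (z, t + 2 * π) = fl G (z, t) := by
  rw [add_comm, fl_add' G hz.1, NN.fl_two_pi h hz]

/-! ### integrals in submodules -/

theorem integral_mem {E : Type*} [NormedAddCommGroup E] [NormedSpace ℝ E] [FiniteDimensional ℝ E]
    {V : Submodule ℝ E} {X : ℝ → E} (hc : Continuous X) (hm : ∀ t, X t ∈ V) (a b : ℝ) :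
    ∫ t in a..b, X t ∈ V := by
  by_contra hcon
  obtain ⟨φ, hφ, hφV⟩ := Submodule.exists_le_ker_of_notMem hcon
  let φ' : E →L[ℝ] ℝ := LinearMap.toContinuousLinearMap φ
  have h1 : φ' (∫ t in a..b, X t) = ∫ t in a..b, φ' (X t) :=
    (φ'.intervalIntegral_comp_comm (hc.intervalIntegrable a b)).symm
  have h2 : ∀ t, φ' (X t) = 0 := fun t => hφV (hm t)
  simp only [h2, intervalIntegral.integral_zero] at h1
  exact hφ h1

/-! ### the fields -/

/-- a continuous curve of Jacobi fields, the `r`-th one vanishing at `r` and `r + π` -/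
structure Crv (G : Geo n N κ S) (z : Euc N × Euc N) (C : ℝ → Euc N × Euc N) : Prop where
  cont : Continuous C
  tan : ∀ r, C r ∈ Tan (L.US G) z
  v0 : ∀ r, SV.jf G z (C r) r = 0
  v1 : ∀ r, SV.jf G z (C r) (r + π) = 0

/-- the tangent field -/
def xi (G : Geo n N κ S) (z : Euc N × Euc N) (C : ℝ → Euc N × Euc N) (t : ℝ) : Euc N :=
  SV.jf G z (∫ r in (t - π)..t, C r) t

/-- its derivative -/
def xi' (G : Geo n N κ S) (z : Euc N × Euc N) (C : ℝ → Euc N × Euc N) (t : ℝ) : Euc N :=
  SV.jf' G z (∫ r in (t - π)..t, C r) t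

variable {C D : ℝ → Euc N × Euc N}

theorem hasDerivAt_pint {E : Type*} [NormedAddCommGroup E] [NormedSpace ℝ E] [CompleteSpace E]
    {Y : ℝ → E} (hY : Continuous Y) (t : ℝ) :
    HasDerivAt (fun t => ∫ r in (t - π)..t, Y r) (Y t - Y (t - π)) t := by
  have hP : ∀ t, HasDerivAt (fun t => ∫ s in (0:ℝ)..t, Y s) (Y t) t := fun t =>
    intervalIntegral.integral_hasDerivAt_right (hY.intervalIntegrable _ _)
      (hY.stronglyMeasurableAtFilter _ _) hY.continuousAt
  have h2 : HasDerivAt (fun t : ℝ => t - π) 1 t := (hasDerivAt_id t).sub_const π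
  have h4 := (hP (t - π)).scomp t h2
  rw [one_smul] at h4
  have h5 := (hP t).sub h4
  refine h5.congr_of_eventuallyEq (Eventually.of_forall fun s => ?_)
  show (∫ r in (s - π)..s, Y r) = (∫ u in (0:ℝ)..s, Y u) - ∫ u in (0:ℝ)..(s - π), Y u
  rw [intervalIntegral.integral_interval_sub_left (hY.intervalIntegrable _ _)
    (hY.intervalIntegrable _ _)]

theorem Crv.hasDerivAt (hX : Crv G z C) (hz : z ∈ TS G) (t : ℝ) :
    HasDerivAt (xi G z C) (xi' G z C t) t := by
  have h1 := hasDerivAt_pint hX.cont t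
  have h2 := hda_fst ((hasDerivAt_dfl_op hz t).clm_apply h1)
  refine h2.congr_deriv ?_
  have h3 : (dfl G z t (C t)).1 = 0 := hX.v0 t
  have h4 : (dfl G z t (C (t - π))).1 = 0 := by
    have := hX.v1 (t - π)
    rwa [sub_add_cancel] at this
  rw [map_sub]
  simp only [Prod.fst_add, Prod.fst_sub, h3, h4, sub_zero, add_zero]
  change (fderiv ℝ (X G) (fl G (z, t)) (dfl G z t _)).1 = _
  rw [L.fderiv_X_fst]
  rfl

theorem Crv.int_tan (hX : Crv G z C) (a b : ℝ) : ∫ r in a..b, C r ∈ Tan (L.US G) z :=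
  integral_mem hX.cont hX.tan a b

theorem Crv.continuous_int (hX : Crv G z C) : Continuous fun t => ∫ r in (t - π)..t, C r :=
  continuous_iff_continuousAt.2 fun t => (hasDerivAt_pint hX.cont t).continuousAt

theorem Crv.continuous_xi' (hX : Crv G z C) (hz : z ∈ TS G) : Continuous (xi' G z C) :=
  ((continuous_dfl hz).clm_apply hX.continuous_int).snd

theorem Crv.mem (h : GT.Bla G k) (hX : Crv G z C) (hz : z ∈ L.US G) (t : ℝ) :
    xi G z C t ∈ G.T (fl G (z, t)).1 :=
  SV.jf_mem (NN.tanTS_of_Tan h hz (hX.int_tan _ _)) t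

theorem Crv.fld (h : GT.Bla G k) (hX : Crv G z C) (hz : z ∈ L.US G) (a b : ℝ) :
    SV.Fld G z a b (xi G z C) (xi' G z C) where
  der t _ := (hX.hasDerivAt hz.1 t).hasDerivWithinAt
  cont := (hX.continuous_xi' hz.1).continuousOn
  mem t _ := hX.mem h hz t

/-- `ε`-periodicity -/
theorem Crv.xi_per (h : GT.Bla G k) (hX : Crv G z C) (hz : z ∈ L.US G) {ε : ℝ}
    (hε : ∀ r, C (r + 2 * π) = ε • C r) (t : ℝ) :
    xi G z C (t + 2 * π) = ε • xi G z C t ∧ xi' G z C (t + 2 * π) = ε • xi' G z C t := by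
  have h1 : ∫ r in (t + 2 * π - π)..(t + 2 * π), C r = ε • ∫ r in (t - π)..t, C r := by
    rw [← intervalIntegral.integral_smul]
    have h2 : ∫ r in (t - π)..t, ε • C r = ∫ r in (t - π)..t, C (r + 2 * π) :=
      intervalIntegral.integral_congr fun r _ => (hε r).symm
    rw [h2, intervalIntegral.integral_comp_add_right (fun r => C r) (2 * π)]
    congr 1; ring
  unfold xi xi' SV.jf SV.jf'
  rw [h1, dfl_per h hz (Submodule.smul_mem _ _ (hX.int_tan _ _)), map_smul]
  exact ⟨rfl, rfl⟩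

/-- a globally defined `C¹` tangent field -/
structure GF (G : Geo n N κ S) (z : Euc N × Euc N) (ε : ℝ) (A A' : ℝ → Euc N) : Prop where
  der : ∀ t, HasDerivAt A (A' t) t
  cont : Continuous A'
  mem : ∀ t, A t ∈ G.T (fl G (z, t)).1
  per : ∀ t, A (t + 2 * π) = ε • A t
  per' : ∀ t, A' (t + 2 * π) = ε • A' t

theorem GF.fld {ε : ℝ} {A A' : ℝ → Euc N} (hA : GF G z ε A A') (a b : ℝ) : SV.Fld G z a b A A' where
  der t _ := (hA.der t).hasDerivWithinAt
  cont := hA.cont.continuousOn
  mem t _ := hA.mem t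

theorem GF.contA {ε : ℝ} {A A' : ℝ → Euc N} (hA : GF G z ε A A') : Continuous A :=
  continuous_iff_continuousAt.2 fun t => (hA.der t).continuousAt

theorem Crv.gf (h : GT.Bla G k) (hX : Crv G z C) (hz : z ∈ L.US G) {ε : ℝ}
    (hε : ∀ r, C (r + 2 * π) = ε • C r) : GF G z ε (xi G z C) (xi' G z C) where
  der := hX.hasDerivAt hz.1
  cont := hX.continuous_xi' hz.1
  mem := hX.mem h hz
  per t := (hX.xi_per h hz hε t).1
  per' t := (hX.xi_per h hz hε t).2

/-- the integrand of the index form against a fixed field, as a functional of the Jacobi field -/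
def fn (G : Geo n N κ S) (z : Euc N × Euc N) (B B' : ℝ → Euc N) (t : ℝ) : Euc N × Euc N →L[ℝ] ℝ :=
  (innerSL ℝ (B' t)).comp ((ContinuousLinearMap.snd ℝ (Euc N) (Euc N)).comp (dfl G z t)) -
  (innerSL ℝ (X G (fl G (z, t))).2).comp
    (((fderiv ℝ G.P (fl G (z, t)).1).flip (B t)).comp
      ((ContinuousLinearMap.fst ℝ (Euc N) (Euc N)).comp (dfl G z t)))

theorem fn_apply (B B' : ℝ → Euc N) (t : ℝ) (ξ : Euc N × Euc N) :
    fn G z B B' t ξ = SV.ixd G z (SV.jf G z ξ) (SV.jf' G z ξ) B B' t := by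
  unfold fn SV.ixd SV.jf SV.jf' II
  rw [real_inner_comm]
  rfl

theorem continuous_fn (hz : z ∈ TS G) {B B' : ℝ → Euc N} (hB : Continuous B) (hB' : Continuous B') :
    Continuous (fn G z B B') := by
  have h1 := SV.continuous_fl (G := G) hz
  have h2 : Continuous fun t => (X G (fl G (z, t))).2 := ((contDiff_X G).continuous.comp h1).snd
  have h3 : Continuous (fderiv ℝ G.P) := G.contDiff_P.continuous_fderiv (by simp)
  have h4 := continuous_dfl hz
  unfold fn
  have h5 : Continuous fun t => (fderiv ℝ G.P (fl G (z, t)).1).flip :=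
    (ContinuousLinearMap.flipₗᵢ ℝ (Euc N) (Euc N) (Euc N)).continuous.comp (h3.comp h1.fst)
  have h6 : Continuous fun t => (fderiv ℝ G.P (fl G (z, t)).1).flip (B t) := h5.clm_apply hB
  have h7 : Continuous fun t => innerSL ℝ (B' t) := (innerSL ℝ).continuous.comp hB'
  have h8 : Continuous fun t => innerSL ℝ (X G (fl G (z, t))).2 := (innerSL ℝ).continuous.comp h2
  exact (h7.clm_comp (continuous_const.clm_comp h4)).sub
    (h8.clm_comp (h6.clm_comp (continuous_const.clm_comp h4)))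

theorem ixd_xi {B B' : ℝ → Euc N} (hC : Continuous C) (t : ℝ) :
    SV.ixd G z (xi G z C) (xi' G z C) B B' t = ∫ r in (t - π)..t, fn G z B B' t (C r) := by
  rw [(fn G z B B' t).intervalIntegral_comp_comm (hC.intervalIntegrable _ _), fn_apply]
  unfold SV.ixd xi xi'
  rfl

theorem fn_per (h : GT.Bla G k) (hz : z ∈ L.US G) {ε : ℝ} (hε1 : ε * ε = 1)
    {B B' : ℝ → Euc N} (hB : GF G z ε B B') (hξ : ξ ∈ Tan (L.US G) z) (t : ℝ) :
    fn G z B B' (t + 2 * π) (ε • ξ) = fn G z B B' t ξ := by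
  have e1 : fn G z B B' (t + 2 * π) ξ = ε * fn G z B B' t ξ := by
    rw [fn_apply, fn_apply]
    unfold SV.ixd SV.jf SV.jf' II
    rw [dfl_per h hz hξ, fl_per h hz, hB.per, hB.per', map_smul, real_inner_smul_right,
      real_inner_smul_right, mul_sub]
  rw [map_smul, smul_eq_mul, e1, ← mul_assoc, hε1, one_mul]

/-- **index form of `xi` against a field.** -/
theorem ix_xi (h : GT.Bla G k) (hz : z ∈ L.US G) (hX : Crv G z C) {ε : ℝ} (hε1 : ε * ε = 1)
    (hε : ∀ r, C (r + 2 * π) = ε • C r) {B B' : ℝ → Euc N} (hB : GF G z ε B B') :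
    SV.ix G z 0 (2 * π) (xi G z C) (xi' G z C) B B' =
      ∫ r in (0:ℝ)..(2 * π), (⟪SV.jf' G z (C r) (r + π), B (r + π)⟫ - ⟪SV.jf' G z (C r) r, B r⟫) := by
  have hpi := Real.pi_pos
  have hfc := continuous_fn hz.1 hB.contA hB.cont
  unfold SV.ix
  rw [intervalIntegral.integral_congr fun t _ => ixd_xi (B := B) (B' := B') hX.cont t]
  rw [shear (F := fun r t => fn G z B B' t (C r))]
  · refine intervalIntegral.integral_congr fun r _ => ?_
    have := SV.ix_jac (NN.tanTS_of_Tan h hz (hX.tan r)) (a := r) (b := r + π) (by linarith)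
      (hB.fld r (r + π))
    rw [← this]
    unfold SV.ix
    exact intervalIntegral.integral_congr fun t _ => fn_apply B B' t (C r)
  · exact (hfc.comp continuous_snd).clm_apply (hX.cont.comp continuous_fst)
  · intro r t
    rw [hε]
    exact fn_per h hz hε1 hB (hX.tan r) t

/-- **index form of two such fields** -/
theorem ix_xi_xi (h : GT.Bla G k) (hz : z ∈ L.US G) (hX : Crv G z C) (hY : Crv G z D) {ε : ℝ}
    (hε1 : ε * ε = 1) (hε : ∀ r, C (r + 2 * π) = ε • C r) (hε' : ∀ r, D (r + 2 * π) = ε • D r) :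
    SV.ix G z 0 (2 * π) (xi G z C) (xi' G z C) (xi G z D) (xi' G z D) =
      ∫ r in (0:ℝ)..(2 * π), (om (C r) (∫ s in r..(r + π), D s) -
        om (C r) (∫ s in (r - π)..r, D s)) := by
  rw [ix_xi h hz hX hε1 hε (hY.gf h hz hε')]
  refine intervalIntegral.integral_congr fun r _ => ?_
  have hTX := NN.tanTS_of_Tan h hz (hX.tan r)
  have h1 : ⟪SV.jf' G z (C r) (r + π), xi G z D (r + π)⟫ = om (C r) (∫ s in r..(r + π), D s) := by
    rw [← om_dfl hz.1 hTX (NN.tanTS_of_Tan h hz (hY.int_tan r (r + π))) (r + π)]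
    unfold xi om
    have h3 : (dfl G z (r + π) (C r)).1 = 0 := hX.v1 r
    rw [h3, inner_zero_right, sub_zero, add_sub_cancel_right]
    rfl
  have h2 : ⟪SV.jf' G z (C r) r, xi G z D r⟫ = om (C r) (∫ s in (r - π)..r, D s) := by
    rw [← om_dfl hz.1 hTX (NN.tanTS_of_Tan h hz (hY.int_tan (r - π) r)) r]
    unfold xi om
    have h3 : (dfl G z r (C r)).1 = 0 := hX.v0 r
    rw [h3, inner_zero_right, sub_zero]
    rfl
  simp only [h1, h2]

end Crest.Agent.R208.KR
end
end

-- ▼ part R208/KR4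

/-!
R208, block KF (helper844), file KR4: the Jacobi fields vanishing at `0` and `π`, the pairing with
periodic fields and the linear map `uu : N_z → V₀(z)`.
-/

set_option autoImplicit false

open Set Filter Topology MeasureTheory Real Module
open scoped RealInnerProductSpace Interval ContDiff
open Crest.GeometryTopology.Submanifold
open Crest.Agent.R241.DDefs
open Crest.Agent.R241.D2
open Crest.Agent.R208.L (om TanTS dfl om_dfl)
open Crest.Agent.R208.FI (Tan Sub)
open Crest.Agent.R208.NN (Wt nuP qq V0 fd fd' qf Rt ev ev')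

noncomputable section

namespace Crest.Agent.R208.KR

variable {n N k K : ℕ} {κ : ℝ} {S : Set (Euc N)} {G : Geo n N κ S} {z ξ η : Euc N × Euc N}

/-! ### Jacobi fields vanishing at `0` and `π` -/

theorem V0_le (h : GT.Bla G k) (hz : z ∈ L.US G) {u : Euc N} (hu : u ∈ V0 G z) : u ∈ G.T z.1 :=
  h.Vs_le (NN.mem_FF h hz) (NN.mem_V0.1 hu).1

theorem tan_V0 (h : GT.Bla G k) (hz : z ∈ L.US G) {u : Euc N} (hu : u ∈ V0 G z) :
    ((0 : Euc N), u) ∈ Tan (L.US G) z := by
  rw [LB.mem_Tan_US (FV.sub_S h.bl) hz]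
  refine ⟨Submodule.zero_mem _, ?_, ?_⟩
  · simp only [map_zero, _root_.zero_apply]
    rw [(P_eq_self G hz.1.1).1 (V0_le h hz hu), sub_self]
  · rw [real_inner_comm]; exact (NN.mem_V0.1 hu).2

theorem dfl_V0_fst (h : GT.Bla G k) (hz : z ∈ L.US G) {u : Euc N} (hu : u ∈ V0 G z) :
    (dfl G z π (0, u)).1 = 0 := by
  have hT := NN.tanTS_of_Tan h hz (tan_V0 h hz hu)
  have h1 := FV.fderiv_phi_eq hz.1 hT
  rw [FV.fderiv_phi_zero hz.1] at h1
  have h2 := congrArg Prod.snd h1
  simp only at h2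
  rw [← h2, map_smul]
  have hF := NN.mem_FF h hz
  have h3 := (h.ker_iff (b := u) hF (NN.mem_Vs hz) hz.2).2
    ⟨(NN.mem_V0.1 hu).1, by rw [real_inner_comm]; exact (NN.mem_V0.1 hu).2⟩
  rw [h3.2, smul_zero]

theorem dfl_V0_snd (h : GT.Bla G k) (hz : z ∈ L.US G) {u : Euc N} (hu : u ∈ V0 G z) :
    (dfl G z π (0, u)).2 = -GT.lf G z.1 (qq G z) u := by
  have hF : (z.1, qq G z) ∈ GT.FF S := NN.mem_FF h hz
  have hzV : z.2 ∈ GT.Vs G z.1 (qq G z) := NN.mem_Vs hz
  -- unit vectors
  have key : ∀ v : Euc N, v ∈ V0 G z → ‖v‖ = 1 →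
      (dfl G z π (0, v)).2 = -GT.lf G z.1 (qq G z) v := by
    intro v hv hv1
    have hvV := (NN.mem_V0.1 hv).1
    have hvz : ⟪v, z.2⟫ = 0 := (NN.mem_V0.1 hv).2
    have hn : ∀ s : ℝ, ‖cos s • z.2 + sin s • v‖ = 1 := by
      intro s
      have h1 : ‖cos s • z.2 + sin s • v‖ ^ 2 = 1 := by
        rw [norm_add_sq_real, norm_smul, norm_smul, hz.2, hv1, real_inner_smul_left,
          real_inner_smul_right, real_inner_comm, hvz, mul_one, mul_one, Real.norm_eq_abs,
          Real.norm_eq_abs, sq_abs, sq_abs]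
        have := cos_sq_add_sin_sq s
        linarith
      have h2 : (0:ℝ) ≤ ‖cos s • z.2 + sin s • v‖ := norm_nonneg _
      nlinarith [h1, h2]
    have hmV : ∀ s : ℝ, cos s • z.2 + sin s • v ∈ GT.Vs G z.1 (qq G z) := fun s =>
      Submodule.add_mem _ (Submodule.smul_mem _ _ hzV) (Submodule.smul_mem _ _ hvV)
    have hc : HasDerivAt (fun s : ℝ => (z.1, cos s • z.2 + sin s • v)) ((0 : Euc N), v) 0 := by
      have h1 := ((hasDerivAt_cos (0:ℝ)).smul_const z.2).add ((hasDerivAt_sin (0:ℝ)).smul_const v)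
      rw [sin_zero, cos_zero, neg_zero, zero_smul, one_smul, zero_add] at h1
      exact (hasDerivAt_const (0:ℝ) z.1).prodMk h1
    have h1 : HasDerivAt (fun s : ℝ => fl G ((z.1, cos s • z.2 + sin s • v), π))
        (dfl G z π (0, v)) 0 := by
      have h2 : HasFDerivAt (fun y => fl G (y, π)) (dfl G z π)
          ((z.1, cos (0:ℝ) • z.2 + sin (0:ℝ) • v)) := by
        rw [cos_zero, sin_zero, one_smul, zero_smul, add_zero]
        exact L.hasFDerivAt_fl_left hz.1 π
      exact h2.comp_hasDerivAt (0 : ℝ) hc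
    have h2 : ∀ s : ℝ, (fl G ((z.1, cos s • z.2 + sin s • v), π)).2 =
        -(cos s • GT.lf G z.1 (qq G z) z.2 + sin s • GT.lf G z.1 (qq G z) v) := by
      intro s
      have h3 := h.lf_unit hF (hmV s) (hn s)
      rw [map_add, map_smul, map_smul] at h3
      rw [h3, GT.ar, neg_neg]
    have h3 := hda_snd h1
    have h4 : HasDerivAt (fun s : ℝ => (fl G ((z.1, cos s • z.2 + sin s • v), π)).2)
        (-GT.lf G z.1 (qq G z) v) 0 := by
      have h5 := (((hasDerivAt_cos (0:ℝ)).smul_const (GT.lf G z.1 (qq G z) z.2)).add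
        ((hasDerivAt_sin (0:ℝ)).smul_const (GT.lf G z.1 (qq G z) v))).neg
      rw [sin_zero, cos_zero, neg_zero, zero_smul, one_smul, zero_add] at h5
      refine h5.congr_of_eventuallyEq (Eventually.of_forall fun s => ?_)
      exact h2 s
    exact h3.unique h4
  by_cases hu0 : u = 0
  · rw [hu0]
    have : ((0 : Euc N), (0 : Euc N)) = 0 := rfl
    rw [this, map_zero, map_zero, neg_zero]; rfl
  · have hn : ‖u‖ ≠ 0 := norm_ne_zero_iff.2 hu0
    have h1 := key (‖u‖⁻¹ • u) (Submodule.smul_mem _ _ hu) (by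
      rw [norm_smul, norm_inv, norm_norm, inv_mul_cancel₀ hn])
    have h2 : ((0 : Euc N), ‖u‖⁻¹ • u) = ‖u‖⁻¹ • ((0 : Euc N), u) := by
      rw [Prod.smul_mk, smul_zero]
    rw [h2, map_smul, map_smul, Prod.smul_snd, ← smul_neg] at h1
    exact smul_right_injective _ (inv_ne_zero hn) h1

/-! ### the bilinear form on coefficients -/

/-- index form of the fields of two coefficient vectors -/
def bb (G : Geo n N κ S) (z : Euc N × Euc N) (w w' : Wt N K) : ℝ :=
  SV.ix G z 0 (2 * π) (fd G z (nuP K) w) (fd' G z (nuP K) w) (fd G z (nuP K) w')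
    (fd' G z (nuP K) w')


theorem bb_symm (hz : z ∈ TS G) (w w' : Wt N K) : bb G z w w' = bb G z w' w :=
  SV.ix_symm (by positivity) hz (NN.fld_fd hz _ _ _ _) (NN.fld_fd hz _ _ _ _)



theorem inner_Cz (hz : z ∈ TS G) (w w' : Wt N K) :
    ⟪NB.Cz G (nuP K) z w, w'⟫ = bb G z w w' := NB.inner_Cz hz w w'

/-! ### invariance under the flow -/

theorem fd_shift (hz : z ∈ TS G) (ν : Fin K → ℝ) (r : ℝ) (w : Wt N K) (t : ℝ) :
    fd G (fl G (z, r)) ν (Rt ν r w) t = fd G z ν w (t + r) := by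
  unfold NN.fd
  rw [← fl_add' G hz, NN.ev_Rt, add_comm r t]

theorem fd'_shift (hz : z ∈ TS G) (ν : Fin K → ℝ) (r : ℝ) (w : Wt N K) (t : ℝ) :
    fd' G (fl G (z, r)) ν (Rt ν r w) t = fd' G z ν w (t + r) := by
  unfold fd'
  rw [← fl_add' G hz, NN.ev_Rt, NN.ev'_Rt, add_comm r t]

theorem fl_mem_US (hz : z ∈ L.US G) (t : ℝ) : fl G (z, t) ∈ L.US G :=
  ⟨fl_mem G hz.1 t, by rw [norm_fl G hz.1, hz.2]⟩

theorem ev'_two_pi (w : Wt N K) (t : ℝ) : ev' (nuP K) (t + 2 * π) w = ev' (nuP K) t w := by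
  rw [← NN.ev'_Rt, NN.Rt_per]

theorem gf_fd (h : GT.Bla G k) (hz : z ∈ L.US G) (w : Wt N K) :
    GF G z 1 (fd G z (nuP K) w) (fd' G z (nuP K) w) where
  der := NN.hasDerivAt_fd hz.1 _ _
  cont := NN.continuous_fd' hz.1 _ _
  mem := NN.fd_mem hz.1 _ _
  per t := by
    unfold NN.fd
    rw [fl_per h hz, NN.ev_two_pi, one_smul]
  per' t := by
    unfold fd'
    rw [fl_per h hz, NN.ev_two_pi, ev'_two_pi, one_smul]

theorem bb_flow (h : GT.Bla G k) (hz : z ∈ L.US G) (r : ℝ) (w w' : Wt N K) :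
    bb G (fl G (z, r)) (Rt (nuP K) r w) (Rt (nuP K) r w') = bb G z w w' := by
  have e1 : ∀ t, SV.ixd G (fl G (z, r)) (fd G (fl G (z, r)) (nuP K) (Rt (nuP K) r w))
      (fd' G (fl G (z, r)) (nuP K) (Rt (nuP K) r w))
      (fd G (fl G (z, r)) (nuP K) (Rt (nuP K) r w'))
      (fd' G (fl G (z, r)) (nuP K) (Rt (nuP K) r w')) t =
      SV.ixd G z (fd G z (nuP K) w) (fd' G z (nuP K) w) (fd G z (nuP K) w') (fd' G z (nuP K) w')
        (t + r) := by
    intro t
    unfold SV.ixd
    rw [fd_shift hz.1, fd_shift hz.1, fd'_shift hz.1, fd'_shift hz.1, ← fl_add' G hz.1,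
      add_comm r t]
  have e2 : ∀ t, SV.ixd G z (fd G z (nuP K) w) (fd' G z (nuP K) w) (fd G z (nuP K) w')
      (fd' G z (nuP K) w') (t + 2 * π) = SV.ixd G z (fd G z (nuP K) w) (fd' G z (nuP K) w)
      (fd G z (nuP K) w') (fd' G z (nuP K) w') t := by
    intro t
    have g1 := gf_fd (K := K) h hz w
    have g2 := gf_fd (K := K) h hz w'
    unfold SV.ixd
    rw [fl_per h hz, g1.per, g1.per', g2.per, g2.per', one_smul, one_smul, one_smul, one_smul]
  unfold bb SV.ix
  rw [intervalIntegral.integral_congr fun t _ => e1 t,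
    intervalIntegral.integral_comp_add_right (fun t => SV.ixd G z (fd G z (nuP K) w)
      (fd' G z (nuP K) w) (fd G z (nuP K) w') (fd' G z (nuP K) w') t) r, ← per_shift e2 r]
  congr 1 <;> ring

/-! ### the pairing -/

/-- the orthogonal projection onto `V₀(z)` -/
def PV0 (h : GT.Bla G k) (z : Euc N × Euc N) : Euc N →L[ℝ] Euc N :=
  FV.PVB h (FV.phi G z) - (innerSL ℝ z.2).smulRight z.2

theorem PV0_apply (h : GT.Bla G k) (z : Euc N × Euc N) (x : Euc N) :
    PV0 h z x = FV.PVB h (FV.phi G z) x - ⟪z.2, x⟫ • z.2 := rfl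

theorem phi_eq (hz : z ∈ L.US G) : FV.phi G z = (z.1, qq G z) :=
  Prod.ext rfl (NN.phi_pi hz).symm

theorem PVB_eq (h : GT.Bla G k) (hz : z ∈ L.US G) :
    FV.PVB h (FV.phi G z) = (GT.Vs G z.1 (qq G z)).starProjection := by
  have h1 := FV.PV_eq h.bl h.ty (FV.sub_S h.bl) (FV.phi_mem h.bl hz)
  change FV.PV h.bl h.ty (FV.sub_S h.bl) (FV.phi G z) = _
  rw [h1, phi_eq hz]
  rfl

theorem PV0_mem (h : GT.Bla G k) (hz : z ∈ L.US G) (x : Euc N) : PV0 h z x ∈ V0 G z := by
  have hzV : z.2 ∈ GT.Vs G z.1 (qq G z) := NN.mem_Vs hz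
  rw [PV0_apply, PVB_eq h hz, NN.mem_V0]
  refine ⟨Submodule.sub_mem _ (Submodule.starProjection_apply_mem _ _)
    (Submodule.smul_mem _ _ hzV), ?_⟩
  rw [inner_sub_left, real_inner_smul_left, real_inner_self_eq_norm_sq, hz.2,
    Submodule.inner_starProjection_left_eq_right, Submodule.starProjection_eq_self_iff.2 hzV,
    real_inner_comm]
  ring

theorem PV0_self (h : GT.Bla G k) (hz : z ∈ L.US G) {u : Euc N} (hu : u ∈ V0 G z) :
    PV0 h z u = u := by
  rw [PV0_apply, PVB_eq h hz, Submodule.starProjection_eq_self_iff.2 (NN.mem_V0.1 hu).1,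
    real_inner_comm, (NN.mem_V0.1 hu).2, zero_smul, sub_zero]

theorem PV0_symm (h : GT.Bla G k) (hz : z ∈ L.US G) (x y : Euc N) :
    ⟪PV0 h z x, y⟫ = ⟪x, PV0 h z y⟫ := by
  rw [PV0_apply, PV0_apply, PVB_eq h hz, inner_sub_left, inner_sub_right,
    Submodule.inner_starProjection_left_eq_right, real_inner_smul_left, real_inner_smul_right,
    real_inner_comm x z.2]
  ring

/-- value of the field at a fixed time, as an operator -/
def fo (G : Geo n N κ S) (K : ℕ) (z : Euc N × Euc N) (t : ℝ) : Wt N K →L[ℝ] Euc N :=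
  (G.P (fl G (z, t)).1).comp (ev (nuP K) t)

theorem fo_apply (t : ℝ) (w : Wt N K) : fo G K z t w = fd G z (nuP K) w t := rfl

/-- end derivative of the Jacobi field with initial derivative `u` -/
def De (G : Geo n N κ S) (z : Euc N × Euc N) : Euc N →L[ℝ] Euc N :=
  (ContinuousLinearMap.snd ℝ (Euc N) (Euc N)).comp ((dfl G z π).comp
    (ContinuousLinearMap.inr ℝ (Euc N) (Euc N)))

theorem De_apply (u : Euc N) : De G z u = (dfl G z π (0, u)).2 := rfl

/-- the pairing operator -/
def l1 (h : GT.Bla G k) (K : ℕ) (z : Euc N × Euc N) : Wt N K →L[ℝ] Euc N :=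
  (PV0 h z).comp (fo G K z 0 - (ContinuousLinearMap.adjoint (De G z)).comp (fo G K z π))

theorem l1_mem (h : GT.Bla G k) (hz : z ∈ L.US G) (w : Wt N K) : l1 h K z w ∈ V0 G z :=
  PV0_mem h hz _

theorem inner_l1 (h : GT.Bla G k) (hz : z ∈ L.US G) {u : Euc N} (hu : u ∈ V0 G z) (w : Wt N K) :
    ⟪u, l1 h K z w⟫ = ⟪u, fd G z (nuP K) w 0⟫ - ⟪(dfl G z π (0, u)).2, fd G z (nuP K) w π⟫ := by
  unfold l1
  rw [ContinuousLinearMap.comp_apply, ← PV0_symm h hz, PV0_self h hz hu, _root_.sub_apply,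
    inner_sub_right, ContinuousLinearMap.comp_apply, ContinuousLinearMap.adjoint_inner_right,
    fo_apply, fo_apply, De_apply]

theorem l0_of_l1 (h : GT.Bla G k) (hz : z ∈ L.US G) {w : Wt N K} (hw : l1 h K z w = 0) :
    NN.l0 G z (nuP K) w = 0 := by
  have h1 : ⟪NN.l0 G z (nuP K) w, NN.l0 G z (nuP K) w⟫ = 0 := by
    have hu := NN.l0_mem (G := G) (z := z) (nuP K) w
    rw [NN.inner_l0 h hz _ _ hu]
    have h2 := inner_l1 h hz hu w
    rw [hw, inner_zero_right, dfl_V0_snd h hz hu, inner_neg_left] at h2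
    linarith
  exact inner_self_eq_zero.1 h1

/-! ### the negative bundle -/

/-- a smooth, flow invariant field of projections on which the index form is negative -/
structure NegB (h : GT.Bla G k) (K : ℕ) (P : Euc N × Euc N → Wt N K →L[ℝ] Wt N K) : Prop where
  smooth : ∀ z ∈ L.US G, ContDiffAt ℝ ∞ P z
  idem : ∀ z ∈ L.US G, ∀ w, P z (P z w) = P z w
  symm : ∀ z ∈ L.US G, ∀ w w', ⟪P z w, w'⟫ = ⟪w, P z w'⟫
  equi : ∀ z ∈ L.US G, ∀ t w, P (fl G (z, t)) (Rt (nuP K) t w) = Rt (nuP K) t (P z w)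
  rank : ∀ z ∈ L.US G, finrank ℝ (LinearMap.range (P z : Wt N K →ₗ[ℝ] Wt N K)) + 1 = k
  neg : ∀ z ∈ L.US G, ∀ w, P z w = w → w ≠ 0 → qf G z (nuP K) w < 0

variable {P : Euc N × Euc N → Wt N K →L[ℝ] Wt N K}

theorem NegB.mem_range {h : GT.Bla G k} (hP : NegB h K P) (hz : z ∈ L.US G) {w : Wt N K} :
    w ∈ LinearMap.range (P z : Wt N K →ₗ[ℝ] Wt N K) ↔ P z w = w := by
  constructor
  · rintro ⟨y, rfl⟩; exact hP.idem z hz y
  · intro hw; exact ⟨w, hw⟩

theorem NegB.bb_neg {h : GT.Bla G k} (hP : NegB h K P) (hz : z ∈ L.US G) {w : Wt N K}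
    (hw : P z w = w) (hw0 : w ≠ 0) : bb G z w w < 0 :=
  (NN.qf_ge G z (nuP K) w).trans_lt (hP.neg z hz w hw hw0)

theorem NegB.l1_inj {h : GT.Bla G k} (hP : NegB h K P) (hz : z ∈ L.US G) {w : Wt N K}
    (hw : P z w = w) (h0 : l1 h K z w = 0) : w = 0 := by
  by_contra hw0
  have h1 := NN.qf_nonneg_of_l0 h hz (l0_of_l1 h hz h0)
  exact absurd (hP.neg z hz w hw hw0) (not_lt.2 h1)

theorem NegB.l1_surj {h : GT.Bla G k} (hP : NegB h K P) (hz : z ∈ L.US G) {u : Euc N}
    (hu : u ∈ V0 G z) : ∃ w, P z w = w ∧ l1 h K z w = u := by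
  let A : LinearMap.range (P z : Wt N K →ₗ[ℝ] Wt N K) →ₗ[ℝ] V0 G z :=
    LinearMap.codRestrict _ ((l1 h K z : Wt N K →ₗ[ℝ] Euc N).comp (Submodule.subtype _))
      (fun w => l1_mem h hz _)
  have hinj : Function.Injective A := by
    rw [injective_iff_map_eq_zero]
    rintro ⟨w, hw⟩ h0
    have h1 : l1 h K z w = 0 := congrArg Subtype.val h0
    exact Subtype.ext (hP.l1_inj hz ((hP.mem_range hz).1 hw) h1)
  have hfr : finrank ℝ (LinearMap.range (P z : Wt N K →ₗ[ℝ] Wt N K)) = finrank ℝ (V0 G z) := by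
    have h1 := hP.rank z hz
    have h2 := NN.finrank_V0 h hz
    omega
  obtain ⟨w, hw⟩ := (LinearMap.injective_iff_surjective_of_finrank_eq_finrank hfr).1 hinj ⟨u, hu⟩
  exact ⟨w, (hP.mem_range hz).1 w.2, congrArg Subtype.val hw⟩

/-- the Gram operator -/
def Gz (h : GT.Bla G k) (P : Euc N × Euc N → Wt N K →L[ℝ] Wt N K) (z : Euc N × Euc N) :
    Euc N →L[ℝ] Euc N :=
  (l1 h K z).comp ((P z).comp (ContinuousLinearMap.adjoint (l1 h K z))) + (1 - PV0 h z)

theorem NegB.Gz_inj {h : GT.Bla G k} (hP : NegB h K P) (hz : z ∈ L.US G) {x : Euc N}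
    (hx : Gz h P z x = 0) : x = 0 := by
  set y := ContinuousLinearMap.adjoint (l1 h K z) x with hy
  have h1 : ⟪Gz h P z x, x⟫ = ‖P z y‖ ^ 2 + ‖x - PV0 h z x‖ ^ 2 := by
    unfold Gz
    rw [_root_.add_apply, inner_add_left, ContinuousLinearMap.comp_apply,
      ContinuousLinearMap.comp_apply, ← hy, ← ContinuousLinearMap.adjoint_inner_right, ← hy]
    have e1 : ⟪P z y, y⟫ = ‖P z y‖ ^ 2 := by
      rw [← real_inner_self_eq_norm_sq, ← hP.symm z hz (P z y) y, hP.idem z hz]
    have e2 : ⟪(1 - PV0 h z) x, x⟫ = ‖x - PV0 h z x‖ ^ 2 := by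
      rw [_root_.sub_apply, one_apply_eq_self, ← real_inner_self_eq_norm_sq,
        inner_sub_right (x - PV0 h z x), ← PV0_symm h hz (x - PV0 h z x) x, map_sub,
        PV0_self h hz (PV0_mem h hz x), sub_self, inner_zero_left, sub_zero]
    rw [e1, e2]
  rw [hx, inner_zero_left] at h1
  have h2 : ‖P z y‖ ^ 2 = 0 := by nlinarith [sq_nonneg ‖P z y‖, sq_nonneg ‖x - PV0 h z x‖]
  have h3 : ‖x - PV0 h z x‖ ^ 2 = 0 := by nlinarith [sq_nonneg ‖P z y‖, sq_nonneg ‖x - PV0 h z x‖]
  have h4 : P z y = 0 := norm_eq_zero.1 (pow_eq_zero_iff two_ne_zero |>.1 h2)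
  have h5 : x = PV0 h z x := sub_eq_zero.1 (norm_eq_zero.1 (pow_eq_zero_iff two_ne_zero |>.1 h3))
  have hxV : x ∈ V0 G z := by rw [h5]; exact PV0_mem h hz x
  obtain ⟨w, hw, hwx⟩ := hP.l1_surj hz hxV
  have h6 : ⟪x, x⟫ = 0 := by
    nth_rewrite 2 [← hwx]
    rw [← ContinuousLinearMap.adjoint_inner_left, ← hy, ← hw, ← hP.symm z hz, h4, inner_zero_left]
  exact inner_self_eq_zero.1 h6

theorem NegB.isUnit_Gz {h : GT.Bla G k} (hP : NegB h K P) (hz : z ∈ L.US G) :
    IsUnit (Gz h P z) := by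
  have hinj : Function.Injective (Gz h P z : Euc N →ₗ[ℝ] Euc N) := by
    rw [injective_iff_map_eq_zero]
    exact fun x hx => hP.Gz_inj hz hx
  rw [ContinuousLinearMap.isUnit_iff_bijective]
  exact ⟨hinj, LinearMap.injective_iff_surjective.1 hinj⟩

/-- **the map `N_z → V₀(z)`** -/
def uu (h : GT.Bla G k) (P : Euc N × Euc N → Wt N K →L[ℝ] Wt N K) (z : Euc N × Euc N) :
    Wt N K →L[ℝ] Euc N :=
  (-(1 / 2 : ℝ)) • (Ring.inverse (Gz h P z)).comp ((l1 h K z).comp ((P z).comp (NB.Cz G (nuP K) z)))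

theorem NegB.Gz_uu {h : GT.Bla G k} (hP : NegB h K P) (hz : z ∈ L.US G) (w : Wt N K) :
    Gz h P z (uu h P z w) = (-(1 / 2 : ℝ)) • l1 h K z (P z (NB.Cz G (nuP K) z w)) := by
  have h1 : Gz h P z * Ring.inverse (Gz h P z) = 1 := Ring.mul_inverse_cancel _ (hP.isUnit_Gz hz)
  unfold uu
  rw [_root_.smul_apply, map_smul]
  congr 1
  exact congrArg (fun T : Euc N →L[ℝ] Euc N => T (l1 h K z (P z (NB.Cz G (nuP K) z w)))) h1

theorem NegB.uu_mem {h : GT.Bla G k} (hP : NegB h K P) (hz : z ∈ L.US G) (w : Wt N K) :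
    uu h P z w ∈ V0 G z := by
  set x := uu h P z w with hx
  have h1 := hP.Gz_uu hz w
  rw [← hx] at h1
  have h2 : x - PV0 h z x ∈ V0 G z := by
    have h3 : x - PV0 h z x = Gz h P z x -
        l1 h K z (P z (ContinuousLinearMap.adjoint (l1 h K z) x)) := by
      unfold Gz
      rw [_root_.add_apply, ContinuousLinearMap.comp_apply, ContinuousLinearMap.comp_apply,
        _root_.sub_apply, one_apply_eq_self]
      abel
    rw [h3, h1]
    exact Submodule.sub_mem _ (Submodule.smul_mem _ _ (l1_mem h hz _)) (l1_mem h hz _)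
  have h4 : x = (x - PV0 h z x) + PV0 h z x := by abel
  rw [h4]
  exact Submodule.add_mem _ h2 (PV0_mem h hz x)

/-- **the defining property** -/
theorem NegB.inner_uu {h : GT.Bla G k} (hP : NegB h K P) (hz : z ∈ L.US G) {w w' : Wt N K}
    (hw' : P z w' = w') : ⟪uu h P z w, l1 h K z w'⟫ = -(1 / 2) * bb G z w w' := by
  set x := uu h P z w with hx
  have h1 := hP.Gz_uu hz w
  rw [← hx] at h1
  have hxV : x ∈ V0 G z := hP.uu_mem hz w
  unfold Gz at h1
  rw [_root_.add_apply, ContinuousLinearMap.comp_apply, ContinuousLinearMap.comp_apply,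
    _root_.sub_apply, one_apply_eq_self, PV0_self h hz hxV, sub_self, add_zero,
    ← map_smul] at h1
  set y := P z (ContinuousLinearMap.adjoint (l1 h K z) x) with hy
  have h2 : y - (-(1 / 2 : ℝ)) • P z (NB.Cz G (nuP K) z w) = 0 := by
    refine hP.l1_inj hz ?_ ?_
    · rw [map_sub, map_smul, hy, hP.idem z hz, hP.idem z hz]
    · rw [map_sub, h1, sub_self]
  have h3 : y = (-(1 / 2 : ℝ)) • P z (NB.Cz G (nuP K) z w) := sub_eq_zero.1 h2
  have h4 : ⟪x, l1 h K z w'⟫ = ⟪y, w'⟫ := by
    rw [← ContinuousLinearMap.adjoint_inner_left, hy, hP.symm z hz, hw']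
  rw [h4, h3, real_inner_smul_left, hP.symm z hz, hw', inner_Cz hz.1]

end Crest.Agent.R208.KR
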