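import Crest.Agent.R208.FI2d
import Mathlib.Topology.MetricSpace.HausdorffDimension

/-!
R208, (8,2), block Q (helper378), file QH1: a smooth map from an `a`-dimensional manifold does not
cover a `b`-dimensional one if `a < b` (Hausdorff dimension).
-/

set_option autoImplicit false

open Set Filter Topology Module
open scoped ContDiff ENNReal NNReal

noncomputable section

namespace Crest.Agent.R208.QH

open Crest.Agent.R208.F Crest.Agent.R208.FI

variable {E : Type*} [NormedAddCommGroup E] [NormedSpace ℝ E] [FiniteDimensional ℝ E]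
  {F : Type*} [NormedAddCommGroup F] [NormedSpace ℝ F] [FiniteDimensional ℝ F]

omit [FiniteDimensional ℝ F] in
theorem dimH_image_le {X : Set E} {g : E → F} (hg : ∀ x ∈ X, ContDiffAt ℝ ∞ g x) :
    dimH (g '' X) ≤ dimH X := by
  have : ProperSpace E := FiniteDimensional.proper ℝ E
  refine dimH_image_le_of_locally_lipschitzOn fun x hx => ?_
  obtain ⟨K, t, ht, hK⟩ := ((hg x hx).of_le (by simp) : ContDiffAt ℝ 1 g x).exists_lipschitzOnWith
  exact ⟨K, t, mem_nhdsWithin_of_mem_nhds ht, hK⟩

theorem dimH_Eu (d : ℕ) : dimH (univ : Set (Eu d)) = d := by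
  rw [Real.dimH_of_nonempty_interior (by simp)]
  simp

theorem dimH_sub_le {d : ℕ} {X : Set E} (hX : Sub d X) : dimH X ≤ d := by
  have : ProperSpace E := FiniteDimensional.proper ℝ E
  by_contra h
  push Not at h
  obtain ⟨x, hx, ht⟩ := exists_mem_nhdsWithin_lt_dimH_of_lt_dimH h
  obtain ⟨f, V, hf, hxf⟩ := hX x hx
  obtain ⟨U, hU, he⟩ := hf.image_open V le_rfl hf.isOpen
  have hxU : x ∈ U := by
    rw [he] at hxf
    exact hxf.2
  have h1 : f '' V ∈ 𝓝[X] x := by
    rw [he]
    exact inter_mem_nhdsWithin X (hU.mem_nhds hxU)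
  have h2 := ht _ h1
  have h3 : dimH (f '' V) ≤ dimH V := dimH_image_le fun u hu => hf.contDiffAt hu
  have h4 : dimH V ≤ d := (dimH_mono (subset_univ V)).trans (dimH_Eu d).le
  exact absurd (h3.trans h4) (not_le.2 h2)




end Crest.Agent.R208.QH
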