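import Crest.Agent.R208.FG1
import Crest.Agent.R208.FH10
import Crest.Agent.R208.DEG1

/-! Row 208, block FG (helper586), part FG1b: base change of oriented submersions
`f : X → Y` along `f' : X' → Y`: `FP → X'`, orientation and fibre integrals. -/

set_option autoImplicit false
set_option linter.unusedSectionVars false

open Set Filter Topology Module
open scoped ContDiff
open Crest.Agent.R208.F Crest.Agent.R208.FI

noncomputable section

namespace Crest.Agent.R208.FG

variable {E : Type*} [NormedAddCommGroup E] [NormedSpace ℝ E] [FiniteDimensional ℝ E]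
  {E' : Type*} [NormedAddCommGroup E'] [NormedSpace ℝ E'] [FiniteDimensional ℝ E']
  {B : Type*} [NormedAddCommGroup B] [NormedSpace ℝ B] [FiniteDimensional ℝ B]
  {r b a' : ℕ} {X : Set E} {Y : Set B} {X' : Set E'} {f : E → B} {f' : E' → B}
  {oV η : E → Ext E} {oY : B → Ext B} {oX' om : E' → Ext E'}

/-- a map `f' : X' → Y` along which we base change -/
structure BC (a' : ℕ) (X' : Set E') (Y : Set B) (f' : E' → B) : Prop where
  clo : Clo a' X'
  smooth : ∀ x ∈ X', ContDiffAt ℝ ∞ f' x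
  maps : MapsTo f' X' Y

theorem fpd (h : Subm r b X Y f) (h' : BC a' X' Y f') : FPD (r + b) a' b X X' Y f f' :=
  ⟨h.cloZ.sub, h'.clo.sub, h.cloX.sub, h.smooth, h'.smooth, h.mapsTo, h'.maps, h.sub⟩

theorem bc_clo (h : Subm r b X Y f) (h' : BC a' X' Y f') : Clo (r + a') (FP X X' f f') := by
  have h1 := (fpd h h').clo h.cloZ.compact h'.clo.compact
  rwa [show r + b + a' - b = r + a' by omega] at h1

/-- the base change is a submersion -/
theorem bc_subm (h : Subm r b X Y f) (h' : BC a' X' Y f') :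
    Subm r a' (FP X X' f f') X' Prod.snd where
  cloZ := bc_clo h h'
  cloX := h'.clo
  smooth := fun z _ => contDiffAt_snd
  mapsTo := fun z hz => hz.2.1
  sub := by
    rintro ⟨x, x'⟩ hz u' hu'
    have h1 : fderiv ℝ f' x' u' ∈ Tan Y (f x) := by
      rw [show f x = f' x' from hz.2.2]
      exact fderiv_mapsTo_Tan ((h'.smooth _ hz.2.1).differentiableAt (by simp)) h'.maps hu'
    obtain ⟨u, hu, huu⟩ := h.sub x hz.1 _ h1
    refine ⟨(u, u'), ((fpd h h').mem_Tan hz).2 ⟨hu, hu', huu⟩, ?_⟩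
    rw [hasFDerivAt_snd.fderiv]
    rfl

theorem pull_fst_apply (c : E → Ext E) (z : E × E') :
    pull Prod.fst c z = pb (ContinuousLinearMap.fst ℝ E E' : E × E' →ₗ[ℝ] E) (c z.1) := by
  rw [pull, hasFDerivAt_fst.fderiv]

theorem pull_snd_apply (c : E' → Ext E') (z : E × E') :
    pull Prod.snd c z = pb (ContinuousLinearMap.snd ℝ E E' : E × E' →ₗ[ℝ] E') (c z.2) := by
  rw [pull, hasFDerivAt_snd.fderiv]

theorem cont_pull_fst {Z : Set (E × E')} (hm : MapsTo Prod.fst Z X) (ho : ContinuousOn η X) :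
    ContinuousOn (pull (Prod.fst : E × E' → E) η) Z :=
  FI.continuousOn_pull continuous_fst.continuousOn
    (by
      have : fderiv ℝ (Prod.fst : E × E' → E) = fun _ => ContinuousLinearMap.fst ℝ E E' :=
        funext fun z => hasFDerivAt_fst.fderiv
      rw [this]; exact continuousOn_const) hm ho

theorem cont_pull_snd {Z : Set (E × E')} (hm : MapsTo Prod.snd Z X') (ho : ContinuousOn om X') :
    ContinuousOn (pull (Prod.snd : E × E' → E') om) Z :=
  FI.continuousOn_pull continuous_snd.continuousOn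
    (by
      have : fderiv ℝ (Prod.snd : E × E' → E') = fun _ => ContinuousLinearMap.snd ℝ E E' :=
        funext fun z => hasFDerivAt_snd.fderiv
      rw [this]; exact continuousOn_const) hm ho

/-- an oriented submersion -/
structure OSubm (r b : ℕ) (X : Set E) (Y : Set B) (f : E → B) (oV : E → Ext E) (oY : B → Ext B) :
    Prop where
  subm : Subm r b X Y f
  cV : ContinuousOn oV X
  tot : Ori (r + b) X (fun z => oV z * pull f oY z)
  base : Ori b Y oY
  dY : ∀ x, IsDeg b (oY x)

theorem OSubm.low (h : OSubm r b X Y f oV oY) : ∀ x ∈ Y, ∀ q < b, evA B q (oY x) = 0 :=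
  fun x _ q hq => h.dY x q (by omega)

theorem OSubm.fib (h : OSubm r b X Y f oV oY) (y : B) : Ori r (X ∩ f ⁻¹' {y}) oV :=
  h.subm.fibre_ori h.cV h.tot h.low y

/-- **orientation of the base change** -/
theorem bc_ori (h : OSubm r b X Y f oV oY) (h' : BC a' X' Y f') (ho : Ori a' X' oX')
    (hd : ∀ x, IsDeg a' (oX' x)) :
    OSubm r a' (FP X X' f f') X' Prod.snd (pull Prod.fst oV) oX' where
  subm := bc_subm h.subm h'
  cV := cont_pull_fst (fun z hz => hz.1) h.cV
  base := ho
  dY := hd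
  tot := by
    refine ori_of (bc_clo h.subm h') ?_ ?_
    · exact continuousOn_mul (cont_pull_fst (fun z hz => hz.1) h.cV)
        (cont_pull_snd (fun z hz => hz.2.1) ho.cont)
    · rintro ⟨x, x'⟩ hz
      obtain ⟨hx, hx', hxx⟩ := hz
      change x ∈ X at hx
      change x' ∈ X' at hx'
      change f x = f' x' at hxx
      set K := X ∩ f ⁻¹' {f x} with hK
      have hxK : x ∈ K := ⟨hx, rfl⟩
      have hcK : Clo r K := h.subm.clo_fibre (f x)
      set w : Fin r → E := frame r K x with hw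
      have hwK : ∀ i, w i ∈ Tan K x := fun i => (frame_isFrame (hcK.finrank_Tan hxK)).2 i
      have hw0 : evA E r (oV x) w ≠ 0 := (h.fib (f x)).ne x hxK
      set u' : Fin a' → E' := frame a' X' x' with hu'
      have hu'X : ∀ i, u' i ∈ Tan X' x' := fun i => (frame_isFrame (h'.clo.finrank_Tan hx')).2 i
      have hu'0 : evA E' a' (oX' x') u' ≠ 0 := ho.ne x' hx'
      have hlift : ∀ i, ∃ u ∈ Tan X x, fderiv ℝ f x u = fderiv ℝ f' x' (u' i) := by
        intro i
        refine h.subm.sub x hx _ ?_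
        rw [hxx]
        exact fderiv_mapsTo_Tan ((h'.smooth _ hx').differentiableAt (by simp)) h'.maps (hu'X i)
      choose u hu huu using hlift
      have hz : (x, x') ∈ FP X X' f f' := ⟨hx, hx', hxx⟩
      have htf := h.subm.tan_fibre hx
      refine ⟨Fin.append (fun i => (w i, 0)) (fun i => (u i, u' i)), ?_, ?_⟩
      · intro i
        refine Fin.addCases (fun i => ?_) (fun i => ?_) i
        · rw [Fin.append_left]
          refine ((fpd h.subm h').mem_Tan hz).2 ⟨?_, Submodule.zero_mem _, ?_⟩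
          · have := hwK i
            rw [hK, htf] at this
            exact this.1
          · have := hwK i
            rw [hK, htf] at this
            rw [map_zero]
            exact this.2
        · rw [Fin.append_right]
          exact ((fpd h.subm h').mem_Tan hz).2 ⟨hu i, hu'X i, huu i⟩
      · rw [pull_fst_apply, pull_snd_apply,
          evA_mul_pb (ContinuousLinearMap.snd ℝ E E' : E × E' →ₗ[ℝ] E') (oX' x')
            (fun q hq => hd x' q (by omega)) (fun i => (u i, u' i)) _ (fun i => (w i, 0))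
            (fun i => rfl), evA_pb]
        exact mul_ne_zero hw0 hu'0

/-- the fibres of the base change -/
theorem bc_bij {x' : E'} (hx' : x' ∈ X') :
    BijOn (Prod.fst : E × E' → E) (FP X X' f f' ∩ Prod.snd ⁻¹' {x'}) (X ∩ f ⁻¹' {f' x'}) := by
  refine ⟨?_, ?_, ?_⟩
  · rintro ⟨x, y⟩ ⟨⟨h1, h2, h3⟩, rfl⟩
    exact ⟨h1, h3⟩
  · rintro ⟨x, y⟩ ⟨⟨h1, h2, h3⟩, rfl⟩ ⟨x2, y2⟩ ⟨⟨h4, h5, h6⟩, h7⟩ h8
    exact Prod.ext h8 (show y = y2 from (show y2 = y from h7).symm)
  · rintro x ⟨h1, h2⟩
    exact ⟨(x, x'), ⟨⟨h1, hx', h2⟩, rfl⟩, rfl⟩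

theorem resZero_pull {g : E' → E} {X₁ : Set E'} (hg : ∀ x ∈ X₁, ContDiffAt ℝ 2 g x)
    (hm : MapsTo g X₁ X) (hη : ∀ z ∈ X, ContDiffAt ℝ 1 η z) (hcl : ResZero X (F.d η)) :
    ResZero X₁ (F.d (pull g η)) := by
  intro x hx
  rw [d_pull (hg x hx) ((hη _ (hm hx)).differentiableAt (by norm_num))]
  have hd : DifferentiableAt ℝ g x := (hg x hx).differentiableAt (by norm_num)
  have hmem : ∀ v : Tan X₁ x, fderiv ℝ g x v ∈ Tan X (g x) := fun v =>
    fderiv_mapsTo_Tan hd hm v.2
  let A : Tan X₁ x →ₗ[ℝ] Tan X (g x) :=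
    (((fderiv ℝ g x : E' →L[ℝ] E) : E' →ₗ[ℝ] E).domRestrict (Tan X₁ x)).codRestrict _ hmem
  have h1 : pb (Tan X₁ x).subtype (pull g (F.d η) x) = pb A (pb (Tan X (g x)).subtype
      (F.d η (g x))) := by
    rw [pull, pb_comp, pb_comp]
    rfl
  rw [h1, hcl _ (hm hx), map_zero]

/-- **fibre integral of the base change** -/
theorem bc_integral (h : OSubm r b X Y f oV oY) (h' : BC a' X' Y f') (ho : Ori a' X' oX')
    (hd : ∀ x, IsDeg a' (oX' x)) (hYc : IsPreconnected Y) (hXc : IsPreconnected X')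
    (hη : ∀ z ∈ X, ContDiffAt ℝ 1 η z) (hcl : ResZero X (F.d η))
    (hom : ContinuousOn om X') (hom0 : ∀ x ∈ X', ∀ q < a', evA E' q (om x) = 0) {y : B}
    (hy : y ∈ Y) (hne : X'.Nonempty) :
    J (r + a') (FP X X' f f') (fun z => pull Prod.fst oV z * pull Prod.snd oX' z)
      (fun z => pull Prod.fst η z * pull Prod.snd om z) =
      J r (X ∩ f ⁻¹' {y}) oV η * J a' X' oX' om := by
  obtain ⟨x', hx'⟩ := hne
  have h1 := bc_ori h h' ho hd
  have hη1 : ∀ z ∈ FP X X' f f', ContDiffAt ℝ 1 (pull (Prod.fst : E × E' → E) η) z :=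
    fun z hz => contDiffAt_pull (contDiffAt_fst (n := ∞)) one_add_one_le_infty (hη _ hz.1)
  have hcl1 : ResZero (FP X X' f f') (F.d (pull (Prod.fst : E × E' → E) η)) :=
    resZero_pull (fun z _ => contDiffAt_fst) (fun z hz => hz.1) hη hcl
  rw [fibre_integration_const h1.subm hXc h1.base h1.cV h1.tot h1.low hη1 hcl1 hom hom0 hx']
  congr 1
  have h2 : J r (FP X X' f f' ∩ Prod.snd ⁻¹' {x'}) (pull Prod.fst oV) (pull Prod.fst η) =
      J r (X ∩ f ⁻¹' {f' x'}) oV η :=
    J_pull (h1.subm.clo_fibre x') (h.subm.clo_fibre _) (fun z _ => differentiableAt_fst)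
      (bc_bij hx') (h.fib _) (fun z hz => ((hη z hz.1).continuousAt).continuousWithinAt)
  rw [h2]
  exact h.subm.const hYc h.base h.cV h.tot h.low hη hcl (h'.maps hx') hy

end Crest.Agent.R208.FG
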