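import Crest.Agent.R208.RRc365B
import Crest.Agent.R208.RR4
import Crest.Agent.R208.FG1b

/-! Row 208, block RR (helper365), piece [RRc], part C: products and naturality of the fibre
integral `RR.K`; **the value of `D^F`** in the names of helper427's `Fam`: `k = 2` (on `US`) and
with a bundle `τ : Z → US` and a closed form `h` on the cylinder (`k = 4`). -/

set_option autoImplicit false
set_option linter.unusedSectionVars false
set_option linter.unusedVariables false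

open MeasureTheory MeasureTheory.Measure Set Filter Topology Module Metric
open scoped ContDiff RealInnerProductSpace
open Crest.GeometryTopology.Submanifold
open Crest.Agent.R241.DDefs
open Crest.Agent.R241.D2
open Crest.Agent.R208.F Crest.Agent.R208.FI Crest.Agent.R208.CW Crest.Agent.R208.T
open Crest.Agent.R208.RR
open Crest.Agent.R208.L (US)

noncomputable section

namespace Crest.Agent.R208.RRC

section alg
universe u v
variable {E : Type u} [NormedAddCommGroup E] [NormedSpace ℝ E] [FiniteDimensional ℝ E]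
  {H : Type v} [NormedAddCommGroup H] [NormedSpace ℝ H] [FiniteDimensional ℝ H]
  {Z : Set E} {Om : E × ℝ → Ext (E × ℝ)} {x : E}

theorem pull_fst_apply' (β : E → Ext E) (p : E × ℝ) : F.pull (Prod.fst : E × ℝ → E) β p =
    pb (ContinuousLinearMap.fst ℝ E ℝ : E × ℝ →ₗ[ℝ] E) (β p.1) := by
  rw [F.pull, hasFDerivAt_fst.fderiv]

theorem hopL_mul_fst (c : Ext (E × ℝ)) (b : Ext E) :
    hopL (ContinuousLinearMap.inl ℝ E ℝ) ((0, 1) : E × ℝ)
      (c * pb (ContinuousLinearMap.fst ℝ E ℝ : E × ℝ →ₗ[ℝ] E) b) =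
      hopL (ContinuousLinearMap.inl ℝ E ℝ) ((0, 1) : E × ℝ) c * b := by
  rw [hopL_apply, hopL_apply, ii_mul, ii_pb]
  have h1 : (ContinuousLinearMap.fst ℝ E ℝ : E × ℝ →ₗ[ℝ] E) ((0, 1) : E × ℝ) = 0 := rfl
  rw [h1, map_zero (ii (E := E)), LinearMap.zero_apply, map_zero, mul_zero, add_zero, map_mul,
    pb_comp]
  congr 1
  exact pb_id b


/-- integrability along the slices -/
def IK (Om : E × ℝ → Ext (E × ℝ)) (x : E) : Prop :=
  IntervalIntegrable (fun t => hopL (ContinuousLinearMap.inl ℝ E ℝ) ((0, 1) : E × ℝ) (Om (x, t)))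
    volume 0 1

theorem K_apply (Om : E × ℝ → Ext (E × ℝ)) (x : E) : K Om x = ∫ t in (0 : ℝ)..1,
    hopL (ContinuousLinearMap.inl ℝ E ℝ) ((0, 1) : E × ℝ) (Om (x, t)) := by
  show ∫ t in (0 : ℝ)..1, hopg _ _ _ _ = _
  refine intervalIntegral.integral_congr fun t _ => ?_
  simp only [hopg, jv_inl]

theorem IK.of_sm (hs : Sm (Cyl Z) Om) (hx : x ∈ Z) : IK Om x := by
  have h := integrable_hopg hs hx
  exact h.congr fun t _ => by simp only [hopg, jv_inl]

/-- `K(Ω ∧ pr^*β) = K(Ω) ∧ β` -/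
theorem K_mul_fst (hi : IK Om x) (β : E → Ext E) :
    K (Om * F.pull (Prod.fst : E × ℝ → E) β) x = K Om x * β x := by
  have h1 := ((mulL E).flip (β x)).intervalIntegral_comp_comm hi
  rw [K_apply, K_apply]
  refine Eq.trans ?_ h1
  refine intervalIntegral.integral_congr fun t _ => ?_
  simp only [Pi.mul_apply]
  rw [pull_fst_apply', hopL_mul_fst]
  rfl





/-- degree of the fibre integral -/
theorem isDeg_K {p : ℕ} (h : ∀ y, IsDeg (p + 1) (Om y)) (x : E) : IsDeg p (K Om x) := by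
  rw [K_apply, intervalIntegral.integral_of_le zero_le_one]
  refine isDeg_integral _ fun t => ?_
  rw [hopL_apply]
  exact ((h _).ii _).pb _

end alg

/-! ### the value of `D^F` -/

/-- `(p,v,s) ↦ p` -/
def PP {N : ℕ} (z : (Euc N × Euc N) × ℝ) : Euc N := z.1.1

section two
variable {n N : ℕ} {κ : ℝ} {S : Set (Euc N)} {G : Geo n N κ S}
  {oS ξ : Euc N → Ext (Euc N)} {m d : ℕ}

theorem smap_EE : SMap (Cyl (US G)) S (EE G) :=
  ⟨fun y hy => contDiffAt_EE (mem_Cyl.1 hy).1 y.2, fun y hy => EE_mem (mem_Cyl.1 hy).1 y.2⟩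

theorem smap_PP : SMap (Cyl (US G)) S PP :=
  ⟨fun y hy => (contDiff_fst.comp contDiff_fst).contDiffAt, fun y hy => (mem_Cyl.1 hy).1.1⟩

theorem pull_PP (w : Euc N → Ext (Euc N)) : F.pull PP w =
    F.pull (Prod.fst : (Euc N × Euc N) × ℝ → Euc N × Euc N)
      (F.pull (Prod.fst : Euc N × Euc N → Euc N) w) := by
  funext y
  exact (pull_comp (f := (Prod.fst : (Euc N × Euc N) × ℝ → Euc N × Euc N))
    (g := (Prod.fst : Euc N × Euc N → Euc N)) (om := w) differentiableAt_fst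
    differentiableAt_fst).symm

/-- `W = E^*w' ∧ p^*w` -/
def W0 (G : Geo n N κ S) (w' w : Euc N → Ext (Euc N)) :
    (Euc N × Euc N) × ℝ → Ext ((Euc N × Euc N) × ℝ) := F.pull (EE G) w' * F.pull PP w

variable {w w' : Euc N → Ext (Euc N)}


theorem K_W0 (hw' : Sm S w') {u : Euc N × Euc N} (hu : u ∈ US G) :
    K (W0 G w' w) u = Hop (EE G) w' u * F.pull (Prod.fst : Euc N × Euc N → Euc N) w u := by
  rw [W0, pull_PP, K_mul_fst (IK.of_sm (hw'.pull smap_EE) hu)]
  rfl

theorem J_K_W0 (hB : Bl n N κ S G Real.pi) (hn : 2 ≤ n) (hd : d + 1 = 2 * n)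
    {o : Euc N × Euc N → Ext (Euc N × Euc N)} (ho : Ori d (US G) o) (hoS : Ori n S oS)
    (hw' : Sm S w') (hw : Sm S w) (hw0 : ∀ x ∈ S, ∀ q < n, evA (Euc N) q (w x) = 0) :
    |J d (US G) o (K (W0 G w' w))| = |J n S oS w'| * |J n S oS w| := by
  have hcl : Clo d (US G) := LB.clo_US (FV.sub_S hB) hB.cpt hd
  rw [J_congr' hcl fun u hu => K_W0 hw' hu]
  exact abs_fubini hB hn hd ho hoS (Sm.cont hw') (Sm.cont hw) hw0

/-- **the value of `D^F` for `k = 2`** -/
theorem DF_two (hB : Bl n N κ S G Real.pi) (hn : 2 ≤ n) (hd : d + 1 = 2 * n)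
    {o : Euc N × Euc N → Ext (Euc N × Euc N)} (ho : Ori d (US G) o) (hoS : Ori n S oS)
    (hs : Sm S ξ) (hx0 : ∀ x ∈ S, ∀ q < n, evA (Euc N) q ((ξ ^ m) x) = 0) :
    |J d (US G) o (K (1 * F.pull (EE G) ξ ^ m * F.pull PP ξ ^ m))| = (J n S oS (ξ ^ m)) ^ 2 := by
  rw [one_mul, ← pull_pow', ← pull_pow']
  have h1 := J_K_W0 hB hn hd ho hoS (Sm.pow hs m) (Sm.pow hs m) hx0
  rw [W0] at h1
  rw [h1, abs_mul_abs_self, sq]

end two

section bundle
universe v
variable {n N : ℕ} {κ : ℝ} {S : Set (Euc N)} {G : Geo n N κ S}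
  {oS w w' ξ : Euc N → Ext (Euc N)} {m d r : ℕ}
  {H : Type v} [NormedAddCommGroup H] [NormedSpace ℝ H] [FiniteDimensional ℝ H]
  {Z : Set H} {τ : H → Euc N × Euc N} {oV : H → Ext H}
  {oU : Euc N × Euc N → Ext (Euc N × Euc N)} {h : H × ℝ → Ext (H × ℝ)}

theorem smap_of_subm (hτ : Subm r d Z (US G) τ) : SMap Z (US G) τ := ⟨hτ.smooth, hτ.mapsTo⟩







end bundle

end Crest.Agent.R208.RRC
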