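import Crest.Agent.R208.RRc365
import Crest.Agent.R208.SN2
import Crest.Agent.R208.SB1
import Crest.Agent.R208.QH1
import Crest.Agent.R208.SN6
import Crest.Agent.R208.SO4
import Crest.Agent.R208.RR0
import Crest.Agent.R208.SN9
import Crest.Agent.R208.XF0
import Crest.Agent.R208.TY1
import Crest.Agent.R208.RRc365C

-- ▼ part R208/JV1
section

/-! Row 208, block JV (helper638).  JV1: the unit sphere bundle of `V ⊕ ℝ` is swept by the
meridians through the unit sphere bundle of `V`. -/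

set_option autoImplicit false
set_option linter.unusedSectionVars false

open MeasureTheory MeasureTheory.Measure Set Filter Topology Module
open scoped ContDiff RealInnerProductSpace ENNReal NNReal
open Crest.Agent.R208.F Crest.Agent.R208.FI Crest.Agent.R208.T Crest.Agent.R208.SN
open Crest.Agent.R208.RRC (Swp)

noncomputable section

namespace Crest.Agent.R208.JV

universe u v
variable {E : Type u} {H : Type v} [NormedAddCommGroup E] [NormedSpace ℝ E]
  [FiniteDimensional ℝ E] [NormedAddCommGroup H] [InnerProductSpace ℝ H] [FiniteDimensional ℝ H]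
  {X : Set E} {P : E → H →L[ℝ] H} {d r : ℕ}

/-- a smooth image of a set of dimension `d < n` is a null set for `μHE[n]` -/
theorem null_of_sub {F : Type*} [NormedAddCommGroup F] [NormedSpace ℝ F] [FiniteDimensional ℝ F]
    {n : ℕ} (hX : FI.Sub d X) (hd : d < n) {f : E → F} (hf : ∀ x ∈ X, ContDiffAt ℝ ∞ f x) :
    μHE[n] (TE F '' (f '' X)) = 0 := by
  have h1 : dimH (TE F '' (f '' X)) ≤ d := by
    rw [image_image]
    exact (QH.dimH_image_le fun x hx =>
      ((TE F).contDiff.contDiffAt (n := ∞)).comp x (hf x hx)).trans (QH.dimH_sub_le hX)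
  have h2 : dimH (TE F '' (f '' X)) < (n : ℝ≥0) := by
    refine h1.trans_lt ?_
    exact_mod_cast hd
  have h3 := hausdorffMeasure_of_dimH_lt h2
  rw [euclideanHausdorffMeasure_def, Measure.smul_apply]
  have h4 : ((n : ℝ≥0) : ℝ) = (n : ℝ) := by simp
  rw [h4] at h3
  rw [h3, smul_zero]

/-- the meridians -/
def ER (q : (E × H) × ℝ) : (E × H) × ℝ :=
  ((q.1.1, Real.sin (Real.pi * q.2) • q.1.2), Real.cos (Real.pi * q.2))

theorem contDiff_ER : ContDiff ℝ ∞ (ER : (E × H) × ℝ → (E × H) × ℝ) := by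
  have h1 : ContDiff ℝ ∞ (fun q : (E × H) × ℝ => Real.sin (Real.pi * q.2)) :=
    Real.contDiff_sin.comp (contDiff_const.mul contDiff_snd)
  have h2 : ContDiff ℝ ∞ (fun q : (E × H) × ℝ => Real.cos (Real.pi * q.2)) :=
    Real.contDiff_cos.comp (contDiff_const.mul contDiff_snd)
  exact (contDiff_fst.fst.prodMk (h1.smul contDiff_fst.snd)).prodMk h2

theorem ER_mem {z : E × H} (hz : z ∈ Sph X P) (t : ℝ) : ER (z, t) ∈ SB X P := by
  rw [SB_iff]
  refine ⟨hz.1.1, ?_, ?_⟩
  · show P z.1 (Real.sin (Real.pi * t) • z.2) = _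
    rw [map_smul, hz.1.2]; rfl
  · show ⟪Real.sin (Real.pi * t) • z.2, Real.sin (Real.pi * t) • z.2⟫ +
      Real.cos (Real.pi * t) * Real.cos (Real.pi * t) = 1
    rw [real_inner_smul_left, real_inner_smul_right, real_inner_self_eq_norm_sq, hz.2]
    nlinarith [Real.sin_sq_add_cos_sq (Real.pi * t)]

theorem sin_pos {t : ℝ} (ht : t ∈ Ioo (0 : ℝ) 1) : 0 < Real.sin (Real.pi * t) :=
  Real.sin_pos_of_pos_of_lt_pi (mul_pos Real.pi_pos ht.1) (by nlinarith [Real.pi_pos, ht.2])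

theorem hasFDerivAt_ER (q : (E × H) × ℝ) (w : E × H) (s : ℝ) :
    fderiv ℝ (ER : (E × H) × ℝ → (E × H) × ℝ) q (w, s) =
      ((w.1, Real.sin (Real.pi * q.2) • w.2 + (Real.cos (Real.pi * q.2) * (Real.pi * s)) • q.1.2),
        -Real.sin (Real.pi * q.2) * (Real.pi * s)) := by
  have hd : DifferentiableAt ℝ (ER : (E × H) × ℝ → (E × H) × ℝ) q :=
    contDiff_ER.contDiffAt.differentiableAt (by simp)
  -- along the line
  have h1 : HasDerivAt (fun y : ℝ => ER (q + y • (w, s)))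
      (fderiv ℝ (ER : (E × H) × ℝ → (E × H) × ℝ) q (w, s)) 0 := by
    have h2 : HasDerivAt (fun y : ℝ => q + y • (w, s)) (w, s) 0 := by
      have := ((hasDerivAt_id (0 : ℝ)).smul_const (w, s)).const_add q
      simpa using this
    have h3 : HasFDerivAt (ER : (E × H) × ℝ → (E × H) × ℝ) (fderiv ℝ ER q)
        (q + (0 : ℝ) • (w, s)) := by
      rw [zero_smul, add_zero]; exact hd.hasFDerivAt
    exact h3.comp_hasDerivAt (0 : ℝ) h2
  have ha : HasDerivAt (fun y : ℝ => Real.pi * (q.2 + y * s)) (Real.pi * s) 0 := by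
    have := (((hasDerivAt_id (0 : ℝ)).mul_const s).const_add q.2).const_mul Real.pi
    simpa using this
  have hs : HasDerivAt (fun y : ℝ => Real.sin (Real.pi * (q.2 + y * s)))
      (Real.cos (Real.pi * q.2) * (Real.pi * s)) 0 := by
    have := ha.sin
    simpa using this
  have hc : HasDerivAt (fun y : ℝ => Real.cos (Real.pi * (q.2 + y * s)))
      (-Real.sin (Real.pi * q.2) * (Real.pi * s)) 0 := by
    have := ha.cos
    simpa using this
  have hv : HasDerivAt (fun y : ℝ => q.1.2 + y • w.2) w.2 0 := by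
    have := ((hasDerivAt_id (0 : ℝ)).smul_const w.2).const_add q.1.2
    simpa using this
  have hx : HasDerivAt (fun y : ℝ => q.1.1 + y • w.1) w.1 0 := by
    have := ((hasDerivAt_id (0 : ℝ)).smul_const w.1).const_add q.1.1
    simpa using this
  have h4 := (hx.prodMk (hs.smul hv)).prodMk hc
  have h5 : (fun y : ℝ => ER (q + y • (w, s))) = fun y : ℝ =>
      ((q.1.1 + y • w.1, Real.sin (Real.pi * (q.2 + y * s)) • (q.1.2 + y • w.2)),
        Real.cos (Real.pi * (q.2 + y * s))) := rfl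
  rw [h5] at h1
  have h6 := h1.unique h4
  rw [h6]
  simp

/-- **the sweep** -/
theorem swp (hX : Clo d X) (hP : PField X (r + 1) P) :
    Swp (r + d) (Sph X P) (SB X P) (ER : (E × H) × ℝ → (E × H) × ℝ) where
  cloZ := SB.clo_Sph hX hP
  cloX := by
    have := clo_SB hX hP
    rwa [show r + 1 + d = 1 + (r + d) by ring] at this
  sm := fun z _ t => contDiff_ER.contDiffAt
  mem := fun z hz t => ER_mem hz t
  inj := by
    intro z hz z' hz' t ht t' ht' he
    have h1 : z.1 = z'.1 := congrArg (fun q => q.1.1) he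
    have h2 : Real.sin (Real.pi * t) • z.2 = Real.sin (Real.pi * t') • z'.2 :=
      congrArg (fun q => q.1.2) he
    have h3 : Real.cos (Real.pi * t) = Real.cos (Real.pi * t') := congrArg (fun q => q.2) he
    have hπ := Real.pi_pos
    have h4 : Real.pi * t = Real.pi * t' :=
      Real.injOn_cos ⟨by nlinarith [ht.1], by nlinarith [ht.2]⟩
        ⟨by nlinarith [ht'.1], by nlinarith [ht'.2]⟩ h3
    have h5 : t = t' := mul_left_cancel₀ hπ.ne' h4
    subst h5
    exact ⟨Prod.ext h1 (smul_right_injective _ (sin_pos ht).ne' h2), rfl⟩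
  dinj := by
    intro z hz t ht w hw s h0
    rw [hasFDerivAt_ER] at h0
    have h1 : w.1 = 0 := congrArg (fun q => q.1.1) h0
    have h2 : Real.sin (Real.pi * t) • w.2 + (Real.cos (Real.pi * t) * (Real.pi * s)) • z.2 = 0 :=
      congrArg (fun q => q.1.2) h0
    have h3 : -Real.sin (Real.pi * t) * (Real.pi * s) = 0 := congrArg (fun q => q.2) h0
    have hs := sin_pos ht
    have h4 : s = 0 := by
      have h5 := (mul_eq_zero.1 h3).resolve_left (neg_ne_zero.2 hs.ne')
      exact (mul_eq_zero.1 h5).resolve_left Real.pi_pos.ne'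
    rw [h4, mul_zero, mul_zero, zero_smul, add_zero] at h2
    exact ⟨Prod.ext h1 ((smul_eq_zero.1 h2).resolve_left hs.ne'), h4⟩
  null := by
    have hd : d < 1 + (r + d) := by omega
    have n1 := null_of_sub (F := (E × H) × ℝ) hX.sub hd (f := fun x => ((x, (0 : H)), (1 : ℝ)))
      fun x _ => (contDiff_id.prodMk contDiff_const).prodMk contDiff_const |>.contDiffAt
    have n2 := null_of_sub (F := (E × H) × ℝ) hX.sub hd (f := fun x => ((x, (0 : H)), (-1 : ℝ)))
      fun x _ => (contDiff_id.prodMk contDiff_const).prodMk contDiff_const |>.contDiffAt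
    refine measure_mono_null ?_ (measure_union_null n1 n2)
    rw [← image_union]
    refine image_mono ?_
    rintro ⟨⟨x, v⟩, t⟩ ⟨hz, hz2⟩
    obtain ⟨hx, hPv, hn⟩ := SB_iff.1 hz
    simp only at hx hPv hn
    have hn' : ‖v‖ ^ 2 + t * t = 1 := by rw [← real_inner_self_eq_norm_sq]; exact hn
    by_cases hv : v = 0
    · subst hv
      rw [norm_zero] at hn'
      have ht : t = 1 ∨ t = -1 := by
        have : (t - 1) * (t + 1) = 0 := by nlinarith
        rcases mul_eq_zero.1 this with h | h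
        · exact Or.inl (by linarith)
        · exact Or.inr (by linarith)
      rcases ht with rfl | rfl
      · exact Or.inl ⟨x, hx, rfl⟩
      · exact Or.inr ⟨x, hx, rfl⟩
    · exfalso
      apply hz2
      have hv0 : 0 < ‖v‖ := norm_pos_iff.2 hv
      have ht1 : -1 < t := by nlinarith
      have ht2 : t < 1 := by nlinarith
      have hπ := Real.pi_pos
      refine ⟨((x, ‖v‖⁻¹ • v), Real.arccos t / Real.pi), ⟨⟨⟨hx, ?_⟩, ?_⟩, ?_, ?_⟩, ?_⟩
      · show P x (‖v‖⁻¹ • v) = _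
        rw [map_smul, hPv]
      · show ‖‖v‖⁻¹ • v‖ = 1
        rw [norm_smul, norm_inv, norm_norm, inv_mul_cancel₀ hv0.ne']
      · exact div_pos (Real.arccos_pos.2 ht2) hπ
      · rw [div_lt_one hπ]
        exact lt_of_le_of_ne (Real.arccos_le_pi t) fun h => by
          have := Real.arccos_eq_pi.1 h
          linarith
      · have e1 : Real.pi * (Real.arccos t / Real.pi) = Real.arccos t := by
          field_simp
        show ((x, Real.sin (Real.pi * (Real.arccos t / Real.pi)) • ‖v‖⁻¹ • v),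
          Real.cos (Real.pi * (Real.arccos t / Real.pi))) = ((x, v), t)
        rw [e1, Real.cos_arccos ht1.le ht2.le, Real.sin_arccos, smul_smul]
        have e2 : Real.sqrt (1 - t ^ 2) = ‖v‖ := by
          rw [show 1 - t ^ 2 = ‖v‖ ^ 2 by nlinarith, Real.sqrt_sq hv0.le]
        rw [e2, mul_inv_cancel₀ hv0.ne', one_smul]

end Crest.Agent.R208.JV
end
end

-- ▼ part R208/JV2
section

/-! Row 208, block JV (helper638).  JV2: **the angular form** `kap P W` of an oriented field of even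
rank: `d κ = - π^* e` and its fibre integral is `± τ`. -/

set_option autoImplicit false
set_option linter.unusedSectionVars false

open MeasureTheory MeasureTheory.Measure Set Filter Topology Module Matrix
open scoped ContDiff RealInnerProductSpace ENNReal NNReal
open Crest.Agent.R208.F Crest.Agent.R208.FI Crest.Agent.R208.CW Crest.Agent.R208.T
open Crest.Agent.R208.SN
open Crest.Agent.R208.RRC (Swp)

noncomputable section

namespace Crest.Agent.R208.JV

universe u v
variable {n ι : Type} [Fintype n] [DecidableEq n] [Fintype ι] [DecidableEq ι]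
  {E : Type u} [NormedAddCommGroup E] [NormedSpace ℝ E] [FiniteDimensional ℝ E]
  {X : Set E} {P : E → EuclideanSpace ℝ n →L[ℝ] EuclideanSpace ℝ n}
  {W : E → (ι × Fin 2 → n) → ℝ} {d : ℕ}

/-- cut-off: `0` for `t ≤ 0`, `1` for `t ≥ 1/2` -/
def chi (t : ℝ) : ℝ := Real.smoothTransition (2 * t)

theorem contDiff_chi : ContDiff ℝ ∞ chi :=
  Real.smoothTransition.contDiff.comp (contDiff_const.mul contDiff_id)

theorem chi_of_nonpos {t : ℝ} (h : t ≤ 0) : chi t = 0 :=
  Real.smoothTransition.zero_of_nonpos (by linarith)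

theorem chi_of_ge {t : ℝ} (h : 1 / 2 ≤ t) : chi t = 1 :=
  Real.smoothTransition.one_of_one_le (by linarith)

/-- `(x, v, t) ↦ (x, 6 v)` -/
def sc6 (z : (E × EuclideanSpace ℝ n) × ℝ) : E × EuclideanSpace ℝ n := (z.1.1, (6 : ℝ) • z.1.2)

theorem contDiff_sc6 : ContDiff ℝ ∞ (sc6 : (E × EuclideanSpace ℝ n) × ℝ → _) :=
  contDiff_fst.fst.prodMk (contDiff_fst.snd.const_smul (6 : ℝ))

theorem smap_sc6 : SMap (SB X P) (Tot X P) sc6 :=
  ⟨fun z _ => contDiff_sc6.contDiffAt, fun z hz => by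
    obtain ⟨h1, h2, -⟩ := SB_iff.1 hz
    exact ⟨h1, by rw [sc6, map_smul, h2]⟩⟩

/-- the Thom form on `S(V ⊕ ℝ)` -/
def om (P : E → EuclideanSpace ℝ n →L[ℝ] EuclideanSpace ℝ n) (W : E → (ι × Fin 2 → n) → ℝ)
    (z : (E × EuclideanSpace ℝ n) × ℝ) : Ext ((E × EuclideanSpace ℝ n) × ℝ) :=
  chi z.2 • F.pull sc6 (thomF P W) z

theorem om_eq : om P W = fun z => chi z.2 • F.pull sc6 (thomF P W) z := rfl

theorem pull_zero_of [Nonempty ι] (hX : FI.Sub d X) (h : OR X P W)
    {z : (E × EuclideanSpace ℝ n) × ℝ} (hz : z ∈ SB X P) (h1 : -(1 / 2) ≤ z.2)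
    (h2 : z.2 ≤ 1 / 2) : F.pull sc6 (thomF P W) z = 0 := by
  obtain ⟨-, -, h3⟩ := SB_iff.1 hz
  rw [real_inner_self_eq_norm_sq] at h3
  have h4 : (3 : ℝ) < ‖(sc6 z).2‖ := by
    show (3 : ℝ) < ‖(6 : ℝ) • z.1.2‖
    rw [norm_smul, Real.norm_of_nonneg (by norm_num)]
    have h5 : z.2 * z.2 ≤ 1 / 4 := by nlinarith
    have h6 : 3 / 4 ≤ ‖z.1.2‖ ^ 2 := by linarith
    have h7 := norm_nonneg z.1.2
    nlinarith
  rw [F.pull, (csf_thomF hX h).supp _ h4, map_zero]

theorem sm_om [Nonempty ι] (hX : FI.Sub d X) (h : OR X P W) : Sm (SB X P) (om P W) := fun z hz =>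
  (contDiff_chi.comp contDiff_snd).contDiffAt.smul
    (((csf_thomF hX h).smooth.pull smap_sc6) z hz)

theorem hom_om [Nonempty ι] : Hom (2 * Fintype.card ι) (om P W) := fun z =>
  ((thomF_deg _).pb _).smul _


theorem cl_om [Nonempty ι] (hX : FI.Sub d X) (h : OR X P W) : Cl (SB X P) (om P W) := by
  have c0 : Cl (SB X P) (F.pull sc6 (thomF P W)) :=
    (csf_thomF hX h).closed.pull smap_sc6 (csf_thomF hX h).smooth
  have s0 : Sm (SB X P) (F.pull sc6 (thomF P W)) := (csf_thomF hX h).smooth.pull smap_sc6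
  intro z hz
  have hg : DifferentiableAt ℝ (fun z : (E × EuclideanSpace ℝ n) × ℝ => chi z.2) z :=
    (contDiff_chi.comp contDiff_snd).contDiffAt.differentiableAt (by simp)
  rw [om_eq, F.d_smul hg (s0.diff hz), map_add, map_smul, c0 z hz, smul_zero, add_zero]
  by_cases h1 : -(1 / 2) ≤ z.2 ∧ z.2 ≤ 1 / 2
  · rw [pull_zero_of hX h hz h1.1 h1.2, mul_zero, map_zero]
  · have h2 : fderiv ℝ (fun z : (E × EuclideanSpace ℝ n) × ℝ => chi z.2) z = 0 := by
      rw [not_and_or, not_le, not_le] at h1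
      rcases h1 with h1 | h1
      · have : (fun z : (E × EuclideanSpace ℝ n) × ℝ => chi z.2) =ᶠ[𝓝 z] fun _ => (0 : ℝ) := by
          filter_upwards [(isOpen_lt continuous_snd continuous_const).mem_nhds h1] with y hy
          exact chi_of_nonpos (by have : y.2 < -(1 / 2) := hy; linarith)
        rw [this.fderiv_eq, fderiv_const_apply]
      · have : (fun z : (E × EuclideanSpace ℝ n) × ℝ => chi z.2) =ᶠ[𝓝 z] fun _ => (1 : ℝ) := by
          filter_upwards [(isOpen_lt continuous_const continuous_snd).mem_nhds h1] with y hy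
          exact chi_of_ge (by have : 1 / 2 < y.2 := hy; linarith)
        rw [this.fderiv_eq, fderiv_const_apply]
    rw [h2]
    have h3 : ((0 : (E × EuclideanSpace ℝ n) × ℝ →L[ℝ] ℝ) :
      Module.Dual ℝ ((E × EuclideanSpace ℝ n) × ℝ)) = 0 := rfl
    rw [h3, map_zero, zero_mul, map_zero]

/-! ### the fibre integral of `om` -/

/-- the linear model of the fibre -/
def iR (x : E) (R : ℝ) (f : Matrix n (ι × Fin 2) ℝ)
    (a : Eu (Fintype.card ι * 2)) : E × EuclideanSpace ℝ n := (x, R • fA f a)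

theorem hasFDerivAt_iR (x : E) (R : ℝ) (f : Matrix n (ι × Fin 2) ℝ)
    (a : Eu (Fintype.card ι * 2)) : HasFDerivAt (iR x R f)
      ((ContinuousLinearMap.inr ℝ E (EuclideanSpace ℝ n)).comp (R • fA f)) a := by
  have : HasFDerivAt (fun a => (x, (R • fA f) a)) ((0 : Eu (Fintype.card ι * 2) →L[ℝ] E).prod
      (R • fA f)) a := (hasFDerivAt_const x a).prodMk (R • fA f).hasFDerivAt
  refine this.congr_fderiv ?_
  ext w <;> simp

theorem top_iR [Nonempty ι] (h : OR X P W) {x : E} (hx : x ∈ X) {f : Matrix n (ι × Fin 2) ℝ}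
    (hf : fᵀ * f = 1) (hPf : ∀ v i, P x v i = ∑ j, (f * fᵀ) i j * v j)
    (hWf : ∀ I, W x I = (f.submatrix I id).det) (R : ℝ) (a : Eu (Fintype.card ι * 2)) :
    top (Fintype.card ι * 2) (F.pull (iR x R f) (thomF P W) a)
      = GG ι (‖R • a‖ ^ 2) * R ^ (Fintype.card ι * 2) := by
  have h1 := pb_thomF (W := W) (h.sP x hx) hf hPf hWf (R • fA f a)
  have h2 : P x (R • fA f a) = R • fA f a := by rw [map_smul, P_fA hf hPf]
  rw [h2] at h1
  have h3 := congrArg (pb ((R • fA f : Eu (Fintype.card ι * 2) →L[ℝ] EuclideanSpace ℝ n) :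
      Eu (Fintype.card ι * 2) →ₗ[ℝ] EuclideanSpace ℝ n)) h1
  rw [pb_comp, map_smul] at h3
  have h4 : (((ContinuousLinearMap.inr ℝ E (EuclideanSpace ℝ n)).comp (P x) :
        EuclideanSpace ℝ n →L[ℝ] E × EuclideanSpace ℝ n) :
        EuclideanSpace ℝ n →ₗ[ℝ] E × EuclideanSpace ℝ n) ∘ₗ
      ((R • fA f : Eu (Fintype.card ι * 2) →L[ℝ] EuclideanSpace ℝ n) :
      Eu (Fintype.card ι * 2) →ₗ[ℝ] EuclideanSpace ℝ n)
      = ((fderiv ℝ (iR x R f) a : Eu (Fintype.card ι * 2) →L[ℝ] _) :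
        Eu (Fintype.card ι * 2) →ₗ[ℝ] _) := by
    rw [(hasFDerivAt_iR x R f a).fderiv]
    refine LinearMap.ext fun u => ?_
    show ((0 : E), P x (R • fA f u)) = (0, R • fA f u)
    rw [map_smul, P_fA hf hPf]
  rw [h4] at h3
  have h5 : F.pull (iR x R f) (thomF P W) a = GG ι (‖R • fA f a‖ ^ 2) •
    pb ((R • fA f : Eu (Fintype.card ι * 2) →L[ℝ] EuclideanSpace ℝ n) :
      Eu (Fintype.card ι * 2) →ₗ[ℝ] EuclideanSpace ℝ n) (Xi f) := h3
  rw [h5, map_smul, smul_eq_mul, top_Xi hf]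
  congr 3
  rw [norm_smul, norm_smul, norm_fA hf]

theorem pfR (h : OR X P W) : PField X (Fintype.card ι * 2) P := by
  have := h.pfield
  rwa [mul_comm] at this

theorem J_om [Nonempty ι] (hX : Clo d X) {oX : E → Ext E} (hoX : Ori d X oX)
    (hoX0 : ∀ x ∈ X, ∀ q < d, evA E q (oX x) = 0) (h : OR X P W) {x : E} (hx : x ∈ X) :
    |J (Fintype.card ι * 2) (SB X P ∩ pB ⁻¹' {x}) (oVf W) (om P W)| = |kGG ι| := by
  have hS := subm_SB hX (pfR h) (fun x hx => OR_sym h hx)
  have hoZ := ori_SB hX hoX h (fun x hx => OR_sym h hx) hoX0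
  have hF := hS.clo_fibre x
  have hoF := hS.fibre_ori (continuousOn_oVf h) hoZ hoX0 x
  obtain ⟨f, hf, hPf, hWf⟩ := h.fr _ hx
  have hch := chart_jj (P := P) (X := X) (x := x) hf hPf hx
  rw [J_eq_chart hF hch (fun z hz hz2 => by
    have h0 : ¬ 0 < z.2 := fun h0 =>
      hz2 ⟨_, (eq_jj (P := P) hf hPf hz h0).1, (eq_jj (P := P) hf hPf hz h0).2⟩
    rw [om, chi_of_nonpos (not_lt.1 h0), zero_smul, map_zero]
    rfl)]
  obtain ⟨ε, hε⟩ := hch.exists_sign hoF (convex_ball (0 : Eu _) 1).isPreconnected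
  have hε1 : |ε| = 1 := by
    have h0 : (0 : Eu (Fintype.card ι * 2)) ∈ Metric.ball (0 : Eu _) 1 :=
      Metric.mem_ball_self one_pos
    have h1 := hε 0 h0
    have h2 := hch.top_ne_zero hoF h0
    rcases lt_or_gt_of_ne h2 with h3 | h3
    · rw [← h1, Real.sign_of_neg h3]; simp
    · rw [← h1, Real.sign_of_pos h3]; simp
  have key : ∀ u ∈ Metric.ball (0 : Eu (Fintype.card ι * 2)) 1,
      top (Fintype.card ι * 2) (F.pull (jj f x) (om P W) u)
        = GG ι (‖(6 : ℝ) • u‖ ^ 2) * 6 ^ (Fintype.card ι * 2) := by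
    intro u hu
    have h1 : DifferentiableAt ℝ (jj f x : Eu (Fintype.card ι * 2) →
      (E × EuclideanSpace ℝ n) × ℝ) u := (contDiffAt_jj hu).differentiableAt (by simp)
    have h2 : DifferentiableAt ℝ (sc6 : (E × EuclideanSpace ℝ n) × ℝ → _) (jj f x u) :=
      contDiff_sc6.contDiffAt.differentiableAt (by simp)
    have h3 : F.pull (jj f x) (F.pull sc6 (thomF P W)) u = F.pull (iR x 6 f) (thomF P W) u :=
      F.pull_comp h1 h2
    have h4 : F.pull (jj f x) (om P W) u =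
        chi (jj f x u : (E × EuclideanSpace ℝ n) × ℝ).2 •
          F.pull (jj f x) (F.pull sc6 (thomF P W)) u := by
      rw [F.pull, om, map_smul]; rfl
    rw [h4, map_smul, h3, top_iR h hx hf hPf hWf 6 u, smul_eq_mul]
    rcases le_or_gt (1 / 2) (jj f x u : (E × EuclideanSpace ℝ n) × ℝ).2 with h5 | h5
    · rw [chi_of_ge h5, one_mul]
    · have h6 : 3 / 4 < ‖u‖ ^ 2 := by
        have h7 : Real.sqrt (1 - ‖u‖ ^ 2) < 1 / 2 := h5
        have h8 := Real.sq_sqrt (one_sub_pos hu).le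
        nlinarith [Real.sqrt_nonneg (1 - ‖u‖ ^ 2)]
      have h7 : (1 : ℝ) ≤ ‖(6 : ℝ) • u‖ ^ 2 := by
        rw [norm_smul, Real.norm_of_nonneg (by norm_num), mul_pow]
        nlinarith
      rw [GG_zero h7, zero_mul, mul_zero]
  rw [setIntegral_congr_fun Metric.isOpen_ball.measurableSet (fun u hu => by
    show _ = (GG ι (‖(6 : ℝ) • u‖ ^ 2) * 6 ^ (Fintype.card ι * 2)) * ε
    rw [key u hu, hε u hu]), integral_mul_const, integral_scaled (by norm_num), abs_mul, hε1,
    mul_one]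

end Crest.Agent.R208.JV
end
end

-- ▼ part R208/JV3
section

/-! Row 208, block JV (helper638).  JV3: **the angular form** `ang P W` of an oriented field of even
rank `2r`: `d κ ~ - π^* e` on the unit sphere bundle, and `∫ κ ∧ π^* b = ± τ ∫ b`. -/

set_option autoImplicit false
set_option linter.unusedSectionVars false

open MeasureTheory MeasureTheory.Measure Set Filter Topology Module Matrix
open scoped ContDiff RealInnerProductSpace ENNReal NNReal
open Crest.Agent.R208.F Crest.Agent.R208.FI Crest.Agent.R208.CW Crest.Agent.R208.T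
open Crest.Agent.R208.SN
open Crest.Agent.R208.RR (Cyl sl K)
open Crest.Agent.R208.RRC (Swp)

noncomputable section

namespace Crest.Agent.R208.JV

universe u v

theorem pull_pull_at {E₁ E₂ E₃ : Type*} [NormedAddCommGroup E₁] [NormedSpace ℝ E₁]
    [FiniteDimensional ℝ E₁] [NormedAddCommGroup E₂] [NormedSpace ℝ E₂] [FiniteDimensional ℝ E₂]
    [NormedAddCommGroup E₃] [NormedSpace ℝ E₃] [FiniteDimensional ℝ E₃] {f : E₁ → E₂} {g : E₂ → E₃}
    {h : E₁ → E₃} {x : E₁} (hf : DifferentiableAt ℝ f x) (hg : DifferentiableAt ℝ g (f x))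
    (he : g ∘ f = h) (w : E₃ → Ext E₃) : F.pull f (F.pull g w) x = F.pull h w x := by
  rw [← he]
  exact F.pull_comp hf hg

section conn
variable {E : Type u} {H : Type v} [NormedAddCommGroup E] [NormedSpace ℝ E]
  [FiniteDimensional ℝ E] [NormedAddCommGroup H] [InnerProductSpace ℝ H] [FiniteDimensional ℝ H]
  {X : Set E} {P : E → H →L[ℝ] H} {r : ℕ}

/-- the unit sphere bundle is connected (601's AF9 has the same lemma) -/
theorem preconn_Sph (hX : IsCompact X) (hXc : IsPreconnected X) (hP : PField X r P) (hr : 2 ≤ r) :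
    IsPreconnected (Sph X P) := by
  have key : ∀ x ∈ X, Sph X P ∩ Prod.fst ⁻¹' {x} =
      (fun v : H => (x, v)) '' {v : H | v ∈ LinearMap.range (P x : H →ₗ[ℝ] H) ∧ ‖v‖ = 1} := by
    intro x hx
    ext ⟨y, v⟩
    constructor
    · rintro ⟨⟨⟨h1, h2⟩, h3⟩, h4⟩
      obtain rfl : y = x := h4
      exact ⟨v, ⟨⟨v, h2⟩, h3⟩, rfl⟩
    · rintro ⟨w, ⟨⟨u, hu⟩, h3⟩, h4⟩
      obtain ⟨rfl, rfl⟩ := Prod.mk.inj h4
      have hu' : P x u = w := hu
      exact ⟨⟨⟨hx, by show P x w = w; rw [← hu', hP.idem x hx]⟩, h3⟩, rfl⟩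
  have hfr : ∀ x ∈ X, 2 ≤ finrank ℝ (LinearMap.range (P x : H →ₗ[ℝ] H)) := fun x hx => by
    rw [hP.rank x hx]; exact hr
  refine FV.preconn_of_fibres (SB.isCompact_Sph hX hP) continuousOn_fst ?_ hXc fun x hx => ?_
  · refine Subset.antisymm ?_ fun x hx => ?_
    · rintro _ ⟨z, hz, rfl⟩
      exact hz.1.1
    · have : Nontrivial (LinearMap.range (P x : H →ₗ[ℝ] H)) :=
        Module.nontrivial_of_finrank_pos (R := ℝ) (by have := hfr x hx; omega)
      obtain ⟨u, hu⟩ := exists_norm_eq (LinearMap.range (P x : H →ₗ[ℝ] H)) (c := 1) zero_le_one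
      have h1 : (x, (u : H)) ∈ Sph X P ∩ Prod.fst ⁻¹' {x} := by
        rw [key x hx]; exact ⟨u, ⟨u.2, hu⟩, rfl⟩
      exact ⟨_, h1.1, rfl⟩
  · rw [key x hx]
    exact (SN.preconn_sph (hfr x hx)).image _ (by fun_prop)

theorem smap_ER : SMap (Cyl (Sph X P)) (SB X P) ER :=
  ⟨fun _ _ => contDiff_ER.contDiffAt, fun z hz => ER_mem (RR.mem_Cyl.1 hz) z.2⟩

end conn

variable {n ι : Type} [Fintype n] [DecidableEq n] [Fintype ι] [DecidableEq ι]
  {E : Type u} [NormedAddCommGroup E] [NormedSpace ℝ E] [FiniteDimensional ℝ E]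
  {X : Set E} {P : E → EuclideanSpace ℝ n →L[ℝ] EuclideanSpace ℝ n}
  {W : E → (ι × Fin 2 → n) → ℝ} {d r : ℕ}

/-- the Thom form on the meridians -/
def pE (P : E → EuclideanSpace ℝ n →L[ℝ] EuclideanSpace ℝ n) (W : E → (ι × Fin 2 → n) → ℝ) :
    (E × EuclideanSpace ℝ n) × ℝ → Ext ((E × EuclideanSpace ℝ n) × ℝ) :=
  F.pull (ER (E := E) (H := EuclideanSpace ℝ n)) (om P W)

/-- **the angular form** -/
def ang (P : E → EuclideanSpace ℝ n →L[ℝ] EuclideanSpace ℝ n) (W : E → (ι × Fin 2 → n) → ℝ) :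
    E × EuclideanSpace ℝ n → Ext (E × EuclideanSpace ℝ n) :=
  (2⁻¹ : ℝ) • K (E := E × EuclideanSpace ℝ n) (pE P W)

theorem sm_pull_om [Nonempty ι] (hX : FI.Sub d X) (h : OR X P W) :
    Sm (Cyl (Sph X P)) (pE P W) := (sm_om hX h).pull smap_ER

theorem sm_ang [Nonempty ι] (hX : FI.Sub d X) (h : OR X P W) : Sm (Sph X P) (ang P W) :=
  Sm.smul _ (RR.Sm.K (E := E × EuclideanSpace ℝ n) (sm_pull_om hX h))

theorem hom_ang [Nonempty ι] (hr : r + 1 = Fintype.card ι * 2) : Hom r (ang P W) := fun z => by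
  have h1 : ∀ y, IsDeg (r + 1) (pE P W y) :=
    fun y => by
      rw [hr, mul_comm]
      exact (hom_om _).pb _
  exact (RRC.isDeg_K (E := E × EuclideanSpace ℝ n) h1 z).smul _

theorem sl1_pE (P : E → EuclideanSpace ℝ n →L[ℝ] EuclideanSpace ℝ n)
    (W : E → (ι × Fin 2 → n) → ℝ) :
    F.pull (sl (E := E × EuclideanSpace ℝ n) 1) (pE P W) = 0 := by
  funext z
  show pb _ (pb _ (om P W (ER (z, 1)))) = 0
  have : om P W (ER (z, 1)) = 0 := by
    rw [om]
    have h2 : (ER ((z, 1) : (E × EuclideanSpace ℝ n) × ℝ)).2 = -1 := by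
      show Real.cos (Real.pi * 1) = -1
      rw [mul_one, Real.cos_pi]
    rw [h2, chi_of_nonpos (by norm_num), zero_smul]
  rw [this, map_zero, map_zero]

/-- the top section -/
def zt (z : E × EuclideanSpace ℝ n) : (E × EuclideanSpace ℝ n) × ℝ :=
  ((z.1, (0 : EuclideanSpace ℝ n)), (1 : ℝ))

theorem contDiff_zt : ContDiff ℝ ∞ (zt : E × EuclideanSpace ℝ n → _) :=
  (contDiff_fst.prodMk contDiff_const).prodMk contDiff_const

/-- the zero section -/
def zs (x : E) : E × EuclideanSpace ℝ n := (x, 0)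

theorem contDiff_zs : ContDiff ℝ ∞ (zs : E → E × EuclideanSpace ℝ n) :=
  contDiff_id.prodMk contDiff_const

theorem ER_sl0 : (ER ∘ sl (E := E × EuclideanSpace ℝ n) 0 : E × EuclideanSpace ℝ n → _) = zt := by
  funext y
  show ((y.1, Real.sin (Real.pi * 0) • y.2), Real.cos (Real.pi * 0)) = _
  rw [mul_zero, Real.sin_zero, zero_smul, Real.cos_zero]
  rfl

theorem zs_fst : (zs (E := E) (n := n) ∘ Prod.fst : E × EuclideanSpace ℝ n → _)
    = sc6 (E := E) (n := n) ∘ zt (E := E) (n := n) := by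
  funext y
  show (y.1, (0 : EuclideanSpace ℝ n)) = (y.1, (6 : ℝ) • (0 : EuclideanSpace ℝ n))
  rw [smul_zero]

/-- the pulled back Thom form -/
def tF6 (P : E → EuclideanSpace ℝ n →L[ℝ] EuclideanSpace ℝ n) (W : E → (ι × Fin 2 → n) → ℝ) :
    (E × EuclideanSpace ℝ n) × ℝ → Ext ((E × EuclideanSpace ℝ n) × ℝ) :=
  F.pull (sc6 (E := E) (n := n)) (thomF P W)

theorem om_zt (P : E → EuclideanSpace ℝ n →L[ℝ] EuclideanSpace ℝ n)
    (W : E → (ι × Fin 2 → n) → ℝ) (z : E × EuclideanSpace ℝ n) :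
    om P W (zt z) = tF6 P W (zt z) := by
  have h6 : (zt z : (E × EuclideanSpace ℝ n) × ℝ).2 = 1 := rfl
  rw [om, h6, chi_of_ge (by norm_num), one_smul]
  rfl

theorem sl0_pE1 (P : E → EuclideanSpace ℝ n →L[ℝ] EuclideanSpace ℝ n)
    (W : E → (ι × Fin 2 → n) → ℝ) (z : E × EuclideanSpace ℝ n) :
    F.pull (sl (E := E × EuclideanSpace ℝ n) 0) (pE P W) z = F.pull zt (om P W) z :=
  pull_pull_at ((RR.contDiff_sl 0).contDiffAt.differentiableAt (by simp))
    (contDiff_ER.contDiffAt.differentiableAt (by simp)) ER_sl0 _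

theorem sl0_pE2a (w : E × EuclideanSpace ℝ n → Ext (E × EuclideanSpace ℝ n))
    (z : E × EuclideanSpace ℝ n) :
    F.pull (Prod.fst : E × EuclideanSpace ℝ n → E) (F.pull (zs (E := E) (n := n)) w) z =
      F.pull (sc6 (E := E) (n := n) ∘ zt (E := E) (n := n)) w z :=
  pull_pull_at (E₁ := E × EuclideanSpace ℝ n) (E₂ := E) (E₃ := E × EuclideanSpace ℝ n)
    (f := Prod.fst) (g := zs) (h := sc6 ∘ zt) differentiableAt_fst
    (contDiff_zs.contDiffAt.differentiableAt (by simp)) zs_fst w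

theorem sl0_pE2b (w : E × EuclideanSpace ℝ n → Ext (E × EuclideanSpace ℝ n))
    (z : E × EuclideanSpace ℝ n) :
    F.pull (zt (E := E) (n := n)) (F.pull (sc6 (E := E) (n := n)) w) z =
      F.pull (sc6 (E := E) (n := n) ∘ zt (E := E) (n := n)) w z :=
  pull_pull_at (E₁ := E × EuclideanSpace ℝ n) (E₂ := (E × EuclideanSpace ℝ n) × ℝ)
    (E₃ := E × EuclideanSpace ℝ n) (f := zt) (g := sc6) (h := sc6 ∘ zt)
    (contDiff_zt.contDiffAt.differentiableAt (by simp))
    (contDiff_sc6.contDiffAt.differentiableAt (by simp)) rfl w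

theorem sl0_pE2 (P : E → EuclideanSpace ℝ n →L[ℝ] EuclideanSpace ℝ n)
    (W : E → (ι × Fin 2 → n) → ℝ) (z : E × EuclideanSpace ℝ n) :
    F.pull (Prod.fst : E × EuclideanSpace ℝ n → E) (F.pull (zs (E := E) (n := n))
      (thomF P W)) z = F.pull (zt (E := E) (n := n)) (tF6 P W) z :=
  (sl0_pE2a (thomF P W) z).trans (sl0_pE2b (thomF P W) z).symm

theorem pull_of_eq {E₁ E₂ : Type*} [NormedAddCommGroup E₁] [NormedSpace ℝ E₁]
    [FiniteDimensional ℝ E₁] [NormedAddCommGroup E₂] [NormedSpace ℝ E₂] [FiniteDimensional ℝ E₂]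
    {f : E₁ → E₂} {a b : E₂ → Ext E₂} {x : E₁} (h : a (f x) = b (f x)) :
    F.pull f a x = F.pull f b x := by
  rw [F.pull, F.pull, h]

theorem sl0_pE (P : E → EuclideanSpace ℝ n →L[ℝ] EuclideanSpace ℝ n)
    (W : E → (ι × Fin 2 → n) → ℝ) :
    F.pull (sl (E := E × EuclideanSpace ℝ n) 0) (pE P W) =
      F.pull (Prod.fst : E × EuclideanSpace ℝ n → E) (F.pull (zs (E := E) (n := n))
        (thomF P W)) :=
  funext fun z => (sl0_pE1 P W z).trans ((pull_of_eq (om_zt P W z)).trans (sl0_pE2 P W z).symm)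

theorem sl0_eqv [Nonempty ι] (h : OR X P W) :
    Eqv (Sph X P) (F.pull (sl (E := E × EuclideanSpace ℝ n) 0) (pE P W))
      ((2 : ℝ) • F.pull Prod.fst (eR P W)) := by
  rw [sl0_pE]
  have := (thomF_zero h).pull (smap_fstS (X := X) (P := P))
  rwa [pull_smul'] at this

theorem d_KE [Nonempty ι] (hX : FI.Sub d X) (h : OR X P W) :
    Eqv (Sph X P) (F.d (K (E := E × EuclideanSpace ℝ n) (pE P W)))
      (-((2 : ℝ) • F.pull Prod.fst (eR P W))) := by
  have hs := sm_pull_om hX h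
  have h0 : Eqv (Sph X P) (K (E := E × EuclideanSpace ℝ n) (F.d (pE P W))) 0 := by
    refine resZero_iff.1 (RR.K_eqv0 (E := E × EuclideanSpace ℝ n) (Sm.d hs) ?_)
    exact Cl.pull smap_ER (sm_om hX h) (cl_om hX h)
  have h1 := RR.K_d_eqv (E := E × EuclideanSpace ℝ n) (Z := Sph X P) hs
  rw [sl1_pE, zero_sub] at h1
  have h7 := (h1.sub h0).trans (Eqv.trans (Eqv.of_eq fun x _ => by simp) ((sl0_eqv h).neg))
  exact (Eqv.of_eq fun x _ => by simp).trans h7

/-- **`d κ = - π^* e`** -/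
theorem d_ang [Nonempty ι] (hX : FI.Sub d X) (h : OR X P W) :
    Eqv (Sph X P) (F.d (ang P W)) (-(F.pull Prod.fst (eR P W))) := by
  have hs := RR.Sm.K (E := E × EuclideanSpace ℝ n) (sm_pull_om hX h)
  have h8 : Eqv (Sph X P) (F.d (ang P W))
      ((2⁻¹ : ℝ) • F.d (K (E := E × EuclideanSpace ℝ n) (pE P W))) := d_smul_eqv _ hs
  refine h8.trans (((d_KE hX h).smul 2⁻¹).trans (Eqv.of_eq fun x _ => ?_))
  rw [Pi.smul_apply, Pi.neg_apply, Pi.smul_apply, Pi.neg_apply, smul_neg, smul_smul,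
    inv_mul_cancel₀ (two_ne_zero' ℝ), one_smul]

end Crest.Agent.R208.JV
end
end

-- ▼ part R208/JV3b

/-! Row 208, block JV (helper638).  JV3b: the period of the angular form. -/

set_option autoImplicit false
set_option linter.unusedSectionVars false

open MeasureTheory MeasureTheory.Measure Set Filter Topology Module Matrix
open scoped ContDiff RealInnerProductSpace ENNReal NNReal
open Crest.Agent.R208.F Crest.Agent.R208.FI Crest.Agent.R208.CW Crest.Agent.R208.T
open Crest.Agent.R208.SN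
open Crest.Agent.R208.RR (Cyl sl K)
open Crest.Agent.R208.RRC (Swp)

noncomputable section

namespace Crest.Agent.R208.JV

universe u v

section gen
variable {E : Type u} [NormedAddCommGroup E] [NormedSpace ℝ E] [FiniteDimensional ℝ E]
  {X : Set E} {d : ℕ} {o o' : E → Ext E}

theorem abs_J_ori (hX : Clo d X) (hXc : IsPreconnected X) (ho : Ori d X o) (ho' : Ori d X o')
    (om : E → Ext E) : |J d X o' om| = |J d X o om| := by
  rcases J_ori_connected hX ho ho' hXc with h | h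
  · rw [h]
  · rw [h, abs_neg]

variable {H : Type v} [NormedAddCommGroup H] [InnerProductSpace ℝ H] [FiniteDimensional ℝ H]
  {P : E → H →L[ℝ] H} {r : ℕ}


theorem pull_ER_pB (b : E → Ext E) (q : (E × H) × ℝ) :
    F.pull (ER (E := E) (H := H)) (F.pull (pB (E := E) (H := H)) b) q =
      F.pull (Prod.fst : (E × H) × ℝ → E × H) (F.pull (Prod.fst : E × H → E) b) q :=
  (pull_pull_at (E₁ := (E × H) × ℝ) (E₂ := (E × H) × ℝ) (E₃ := E) (f := ER) (g := pB)
    (h := fun q => q.1.1) (contDiff_ER.contDiffAt.differentiableAt (by simp))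
    (by unfold pB; fun_prop) rfl b).trans
  (pull_pull_at (E₁ := (E × H) × ℝ) (E₂ := E × H) (E₃ := E) (f := Prod.fst) (g := Prod.fst)
    (h := fun q => q.1.1) differentiableAt_fst differentiableAt_fst rfl b).symm

theorem Hop_mul_pB {w : (E × H) × ℝ → Ext ((E × H) × ℝ)} (hw : Sm (SB X P) w) (b : E → Ext E)
    {z : E × H} (hz : z ∈ Sph X P) :
    Hop (ER (E := E) (H := H)) (w * F.pull (pB (E := E) (H := H)) b) z =
      Hop (ER (E := E) (H := H)) w z * F.pull (Prod.fst : E × H → E) b z := by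
  have h1 : F.pull (ER (E := E) (H := H)) (w * F.pull (pB (E := E) (H := H)) b) =
      F.pull (ER (E := E) (H := H)) w * F.pull (Prod.fst : (E × H) × ℝ → E × H)
        (F.pull (Prod.fst : E × H → E) b) := by
    rw [pull_mul']
    exact congrArg _ (funext fun q => pull_ER_pB b q)
  have h2 : RRC.IK (E := E × H) (F.pull (ER (E := E) (H := H)) w) z :=
    RRC.IK.of_sm (E := E × H) (Z := Sph X P) (Sm.pull smap_ER hw) hz
  show K (E := E × H) (F.pull (ER (E := E) (H := H)) (w * F.pull (pB (E := E) (H := H)) b)) z =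
    K (E := E × H) (F.pull (ER (E := E) (H := H)) w) z * F.pull (Prod.fst : E × H → E) b z
  rw [h1]
  exact RRC.K_mul_fst (E := E × H) h2 (F.pull (Prod.fst : E × H → E) b)

end gen

variable {n ι : Type} [Fintype n] [DecidableEq n] [Fintype ι] [DecidableEq ι]
  {E : Type u} [NormedAddCommGroup E] [NormedSpace ℝ E] [FiniteDimensional ℝ E]
  {X : Set E} {P : E → EuclideanSpace ℝ n →L[ℝ] EuclideanSpace ℝ n}
  {W : E → (ι × Fin 2 → n) → ℝ} {d r : ℕ} {oX b : E → Ext E}

theorem smap_pB : SMap (SB X P) X (pB : (E × EuclideanSpace ℝ n) × ℝ → E) :=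
  ⟨fun z _ => by unfold pB; fun_prop, fun z hz => (SB_iff.1 hz).1⟩

/-- the orientation of the sphere bundle of `V ⊕ ℝ` -/
def oSB (W : E → (ι × Fin 2 → n) → ℝ) (oX : E → Ext E) :
    (E × EuclideanSpace ℝ n) × ℝ → Ext ((E × EuclideanSpace ℝ n) × ℝ) :=
  oVf W * F.pull (pB (E := E) (H := EuclideanSpace ℝ n)) oX

theorem pfr (h : OR X P W) (hr : r + 1 = Fintype.card ι * 2) : PField X (r + 1) P := by
  rw [hr]
  exact pfR h

theorem ori_oSB (hX : Clo d X) (hoX : Ori d X oX) (dX : Hom d oX) (h : OR X P W)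
    (hr : r + 1 = Fintype.card ι * 2) : Ori (1 + (r + d)) (SB X P) (oSB W oX) := by
  have h1 := ori_SB hX hoX h (fun x hx => OR_sym h hx)
    (fun x _ q hq => SO.evA_lt_of_hom dX x q hq)
  rw [show 1 + (r + d) = Fintype.card ι * 2 + d by omega]
  exact h1

theorem J_om_mul [Nonempty ι] (hX : Clo d X) (hXc : IsPreconnected X) (hoX : Ori d X oX)
    (dX : Hom d oX) (h : OR X P W) (hr : r + 1 = Fintype.card ι * 2) (sb : Sm X b) (db : Hom d b)
    {x : E} (hx : x ∈ X) : J (1 + (r + d)) (SB X P) (oSB W oX)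
      (om P W * F.pull (pB (E := E) (H := EuclideanSpace ℝ n)) b) =
      J (Fintype.card ι * 2) (SB X P ∩ pB ⁻¹' {x}) (oVf W) (om P W) * J d X oX b :=
  SO.fib (by omega) (subm_SB hX (pfR h) (fun x hx => OR_sym h hx)) hXc hoX dX
    (continuousOn_oVf h) (ori_oSB hX hoX dX h hr) (sm_om hX.sub h) (cl_om hX.sub h) sb db hx

/-- **the period of the angular form** (orientation of `JV.swp`) -/
theorem abs_J_KE [Nonempty ι] (hX : Clo d X) (hXc : IsPreconnected X) (hoX : Ori d X oX)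
    (dX : Hom d oX) (h : OR X P W) (hr : r + 1 = Fintype.card ι * 2) (sb : Sm X b) (db : Hom d b)
    (hne : X.Nonempty) :
    |J (r + d) (Sph X P) (Hop (ER (E := E) (H := EuclideanSpace ℝ n)) (oSB W oX))
      (K (E := E × EuclideanSpace ℝ n) (pE P W) * F.pull Prod.fst b)| =
      |kGG ι| * |J d X oX b| := by
  obtain ⟨x, hx⟩ := hne
  have hS := swp hX (pfr h hr)
  have so := sm_om hX.sub h
  have h1 := hS.J_eq (ori_oSB hX hoX dX h hr)
    (w := om P W * F.pull (pB (E := E) (H := EuclideanSpace ℝ n)) b)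
    (RR.Sm.cont (so.mul (sb.pull smap_pB)))
  have h2 : J (r + d) (Sph X P) (Hop (ER (E := E) (H := EuclideanSpace ℝ n)) (oSB W oX))
      (K (E := E × EuclideanSpace ℝ n) (pE P W) * F.pull Prod.fst b) =
      J (r + d) (Sph X P) (Hop (ER (E := E) (H := EuclideanSpace ℝ n)) (oSB W oX))
      (Hop (ER (E := E) (H := EuclideanSpace ℝ n))
        (om P W * F.pull (pB (E := E) (H := EuclideanSpace ℝ n)) b)) :=
    SO.J_eqv hS.cloZ (Eqv.of_eq fun z hz => (Hop_mul_pB so b hz).symm)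
  rw [h2, h1, J_om_mul hX hXc hoX dX h hr sb db hx, abs_mul,
    J_om hX hoX (fun x _ q hq => SO.evA_lt_of_hom dX x q hq) h hx]

theorem kGG_tau (ι : Type) [Fintype ι] [Nonempty ι] : kGG ι = 2 * XF.tau ι := by
  rw [kGG_eq, XF.tau]

/-- **the period of the angular form** -/
theorem abs_J_ang [Nonempty ι] (hX : Clo d X) (hXc : IsPreconnected X) (hoX : Ori d X oX)
    (h : OR X P W) (hr : r + 1 = Fintype.card ι * 2) (sb : Sm X b) (db : Hom d b)
    (hne : X.Nonempty) {o : E × EuclideanSpace ℝ n → Ext (E × EuclideanSpace ℝ n)}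
    (ho : Ori (r + d) (Sph X P) o) :
    |J (r + d) (Sph X P) o (ang P W * F.pull Prod.fst b)| = XF.tau ι * |J d X oX b| := by
  have hoX' := ori_dp hoX
  have dX' : Hom d (dp d oX) := fun x => isDeg_dpl _ _
  have hcl : Clo (r + d) (Sph X P) := SB.clo_Sph hX (pfr h hr)
  have hcn : IsPreconnected (Sph X P) :=
    preconn_Sph hX.compact hXc (pfr h hr) (by have := Fintype.card_pos (α := ι); omega)
  have hS := swp hX (pfr h hr)
  have e1 := abs_J_KE hX hXc hoX' dX' h hr sb db hne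
  have e2 := abs_J_ori hcl hcn (hS.ori (ori_oSB hX hoX' dX' h hr)) ho
    (K (E := E × EuclideanSpace ℝ n) (pE P W) * F.pull Prod.fst b)
  have e3 : J (r + d) (Sph X P) o (ang P W * F.pull Prod.fst b) =
      2⁻¹ * J (r + d) (Sph X P) o
        (K (E := E × EuclideanSpace ℝ n) (pE P W) * F.pull Prod.fst b) := by
    rw [← RR.J_smul']
    congr 1
    funext z
    simp only [ang, Pi.smul_apply, Pi.mul_apply, smul_mul_assoc]
  rw [e3, abs_mul, e2, e1, abs_J_ori hX hXc hoX hoX' b, kGG_tau, abs_mul,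
    abs_of_pos (XF.tau_pos ι), abs_of_pos (by norm_num : (0 : ℝ) < 2⁻¹),
    abs_of_pos (by norm_num : (0 : ℝ) < 2)]
  ring

theorem OR.mono {X' : Set E} (hs : X' ⊆ X) (h : OR X P W) : OR X' P W where
  sP x hx := h.sP x (hs hx)
  sW x hx := h.sW x (hs hx)
  fr x hx := h.fr x (hs hx)

theorem Sph_point {x : E} (hx : x ∈ X) :
    Sph ({x} : Set E) P = Sph X P ∩ (Prod.fst : E × EuclideanSpace ℝ n → E) ⁻¹' {x} := by
  ext ⟨y, v⟩
  constructor
  · rintro ⟨⟨h1, h2⟩, h3⟩
    obtain rfl : y = x := h1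
    exact ⟨⟨⟨hx, h2⟩, h3⟩, rfl⟩
  · rintro ⟨⟨⟨h1, h2⟩, h3⟩, h4⟩
    exact ⟨⟨h4, h2⟩, h3⟩

/-- **the integral of the angular form over one sphere** -/
theorem abs_J_ang_fib [Nonempty ι] (h : OR X P W) (hr : r + 1 = Fintype.card ι * 2) {x : E}
    (hx : x ∈ X) {o : E × EuclideanSpace ℝ n → Ext (E × EuclideanSpace ℝ n)}
    (ho : Ori r (Sph X P ∩ (Prod.fst : E × EuclideanSpace ℝ n → E) ⁻¹' {x}) o) :
    |J r (Sph X P ∩ (Prod.fst : E × EuclideanSpace ℝ n → E) ⁻¹' {x}) o (ang P W)| = XF.tau ι := by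
  rw [← Sph_point hx] at ho ⊢
  have h1 := abs_J_ang (d := 0) (b := 1) (clo_point x) isPreconnected_singleton (ori_point x)
    (OR.mono (singleton_subset_iff.2 hx) h) hr (fun _ _ => contDiffAt_const)
    (fun _ => T.isDeg_one) (singleton_nonempty x) (o := o) ho
  rw [J_point, abs_one, mul_one] at h1
  rw [← h1, RR.pull_one', mul_one, Nat.add_zero]

end Crest.Agent.R208.JV
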