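import Mathlib

-- ▼ part R208/GH0
section

/-!
R208, block GH (helper378), file 0: the smooth functions `Cs (s^2) = cos s`, `s * Sn (s^2) = sin s`,
smoothness through local diffeomorphisms, the round polar map.
-/

set_option autoImplicit false

open Filter Topology Set
open scoped ContDiff RealInnerProductSpace

noncomputable section

namespace Crest.Agent.R208.GH

/-! ### The functions `Cs` and `Sn` -/

/-- the sum of a power series with infinite radius of convergence is smooth -/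
lemma contDiff_ofScalarsSum {c : ℕ → ℝ} (hc : ∀ n, c n ≠ 0)
    (h : Tendsto (fun n => ‖c n.succ‖ / ‖c n‖) atTop (𝓝 0)) :
    ContDiff ℝ ∞ (FormalMultilinearSeries.ofScalarsSum (E := ℝ) c) := by
  have hr : (FormalMultilinearSeries.ofScalars ℝ c).radius = ⊤ :=
    FormalMultilinearSeries.ofScalars_radius_eq_top_of_tendsto ℝ c (Eventually.of_forall hc) h
  have h1 : HasFPowerSeriesOnBall (FormalMultilinearSeries.ofScalarsSum (E := ℝ) c)
      (FormalMultilinearSeries.ofScalars ℝ c) 0 (FormalMultilinearSeries.ofScalars ℝ c).radius :=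
    (FormalMultilinearSeries.ofScalars ℝ c).hasFPowerSeriesOnBall (by rw [hr]; exact ENNReal.coe_lt_top)
  rw [contDiff_iff_contDiffAt]
  intro x
  refine (h1.analyticAt_of_mem ?_).contDiffAt
  rw [hr]; simp

/-- `cos √u` -/
def Cs : ℝ → ℝ := FormalMultilinearSeries.ofScalarsSum (E := ℝ)
  (fun k : ℕ => (-1) ^ k / ((2 * k).factorial : ℝ))

/-- `sin √u / √u` -/
def Sn : ℝ → ℝ := FormalMultilinearSeries.ofScalarsSum (E := ℝ)
  (fun k : ℕ => (-1) ^ k / ((2 * k + 1).factorial : ℝ))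

lemma contDiff_Cs : ContDiff ℝ ∞ Cs := by
  refine contDiff_ofScalarsSum (fun n => by positivity) ?_
  have h : ∀ k : ℕ, ‖(-1 : ℝ) ^ k.succ / ((2 * k.succ).factorial : ℝ)‖ /
      ‖(-1 : ℝ) ^ k / ((2 * k).factorial : ℝ)‖ = 1 / ((2 * k + 1) * (2 * k + 2)) := by
    intro k
    have h1 : ((2 * k.succ).factorial : ℝ) = (2 * k + 2) * ((2 * k + 1) * (2 * k).factorial) := by
      rw [show 2 * k.succ = (2 * k + 1) + 1 by omega, Nat.factorial_succ, Nat.factorial_succ]
      push_cast; ring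
    rw [h1]
    have h2 : (0 : ℝ) < (2 * k).factorial := by exact_mod_cast Nat.factorial_pos _
    simp only [norm_div, norm_pow, norm_neg, norm_one, one_pow, norm_mul, Real.norm_eq_abs]
    rw [abs_of_pos h2, abs_of_pos (by positivity : (0 : ℝ) < 2 * k + 2),
      abs_of_pos (by positivity : (0 : ℝ) < 2 * k + 1)]
    field_simp
  simp only [h]
  have h3 : Tendsto (fun k : ℕ => ((k : ℝ) + 1)⁻¹) atTop (𝓝 0) := by
    simpa using tendsto_one_div_add_atTop_nhds_zero_nat (𝕜 := ℝ)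
  refine squeeze_zero (fun k => by positivity) (fun k => ?_) h3
  rw [one_div]
  apply inv_anti₀ (by positivity)
  nlinarith [(Nat.cast_nonneg k : (0 : ℝ) ≤ k)]

lemma contDiff_Sn : ContDiff ℝ ∞ Sn := by
  refine contDiff_ofScalarsSum (fun n => by positivity) ?_
  have h : ∀ k : ℕ, ‖(-1 : ℝ) ^ k.succ / ((2 * k.succ + 1).factorial : ℝ)‖ /
      ‖(-1 : ℝ) ^ k / ((2 * k + 1).factorial : ℝ)‖ = 1 / ((2 * k + 2) * (2 * k + 3)) := by
    intro k
    have h1 : ((2 * k.succ + 1).factorial : ℝ)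
        = (2 * k + 3) * ((2 * k + 2) * (2 * k + 1).factorial) := by
      rw [show 2 * k.succ + 1 = ((2 * k + 1) + 1) + 1 by omega, Nat.factorial_succ,
        Nat.factorial_succ]
      push_cast; ring
    rw [h1]
    have h2 : (0 : ℝ) < (2 * k + 1).factorial := by exact_mod_cast Nat.factorial_pos _
    simp only [norm_div, norm_pow, norm_neg, norm_one, one_pow, norm_mul, Real.norm_eq_abs]
    rw [abs_of_pos h2, abs_of_pos (by positivity : (0 : ℝ) < 2 * k + 2),
      abs_of_pos (by positivity : (0 : ℝ) < 2 * k + 3)]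
    field_simp
  simp only [h]
  have h3 : Tendsto (fun k : ℕ => ((k : ℝ) + 1)⁻¹) atTop (𝓝 0) := by
    simpa using tendsto_one_div_add_atTop_nhds_zero_nat (𝕜 := ℝ)
  refine squeeze_zero (fun k => by positivity) (fun k => ?_) h3
  rw [one_div]
  apply inv_anti₀ (by positivity)
  nlinarith [(Nat.cast_nonneg k : (0 : ℝ) ≤ k)]

lemma Cs_sq (s : ℝ) : Cs (s ^ 2) = Real.cos s := by
  rw [Cs, FormalMultilinearSeries.ofScalars_sum_eq, Real.cos_eq_tsum]
  refine tsum_congr fun k => ?_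
  rw [smul_eq_mul, ← pow_mul]
  ring

lemma Sn_sq (s : ℝ) : s * Sn (s ^ 2) = Real.sin s := by
  rw [Sn, FormalMultilinearSeries.ofScalars_sum_eq, Real.sin_eq_tsum, ← tsum_mul_left]
  refine tsum_congr fun k => ?_
  rw [smul_eq_mul, ← pow_mul, pow_succ]
  ring

lemma Cs_zero : Cs 0 = 1 := by
  have h := Cs_sq 0
  simpa using h

lemma Sn_zero : Sn 0 = 1 := by
  rw [Sn, FormalMultilinearSeries.ofScalarsSum_zero]
  simp


lemma Sn_pos {q : ℝ} (h0 : 0 ≤ q) (h1 : q < Real.pi ^ 2) : 0 < Sn q := by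
  have hs : Real.sqrt q ^ 2 = q := Real.sq_sqrt h0
  have h2 := Sn_sq (Real.sqrt q)
  rw [hs] at h2
  rcases (Real.sqrt_nonneg q).eq_or_lt with h | h
  · rw [← h] at hs
    rw [← hs]; simp [Sn_zero]
  · have h3 : Real.sqrt q < Real.pi := by
      rw [Real.sqrt_lt' Real.pi_pos]; exact h1
    have h4 := Real.sin_pos_of_pos_of_lt_pi h h3
    rw [← h2] at h4
    exact (mul_pos_iff_of_pos_left h).1 h4

lemma Cs_sq_add {q : ℝ} (h0 : 0 ≤ q) : Cs q ^ 2 + q * Sn q ^ 2 = 1 := by
  have hs : Real.sqrt q ^ 2 = q := Real.sq_sqrt h0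
  have h1 := Cs_sq (Real.sqrt q)
  have h2 := Sn_sq (Real.sqrt q)
  rw [hs] at h1 h2
  have h3 : q * Sn q ^ 2 = (Real.sqrt q * Sn q) ^ 2 := by rw [mul_pow, hs]
  rw [h3, h1, h2]
  exact Real.cos_sq_add_sin_sq _

/-- derivative of `Cs` at a nonnegative point, times `√q` -/
lemma deriv_Cs {q : ℝ} (h0 : 0 < q) : deriv Cs q = -(Sn q) / 2 := by
  have hs : Real.sqrt q ^ 2 = q := Real.sq_sqrt h0.le
  have hs0 : 0 < Real.sqrt q := Real.sqrt_pos.2 h0
  have h1 : HasDerivAt Cs (deriv Cs q) q :=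
    ((contDiff_Cs.differentiable (by simp)) q).hasDerivAt
  have h2 : HasDerivAt (fun s : ℝ => s ^ 2) (2 * Real.sqrt q) (Real.sqrt q) := by
    simpa using hasDerivAt_pow 2 (Real.sqrt q)
  have h3 : HasDerivAt (fun s : ℝ => Cs (s ^ 2)) (deriv Cs q * (2 * Real.sqrt q)) (Real.sqrt q) := by
    have h1' : HasDerivAt Cs (deriv Cs q) ((fun s : ℝ => s ^ 2) (Real.sqrt q)) := by
      simp only [hs]; exact h1
    exact HasDerivAt.comp (h := fun s : ℝ => s ^ 2) (Real.sqrt q) h1' h2
  have h4 : HasDerivAt (fun s : ℝ => Cs (s ^ 2)) (-Real.sin (Real.sqrt q)) (Real.sqrt q) := by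
    have : (fun s : ℝ => Cs (s ^ 2)) = Real.cos := by ext s; exact Cs_sq s
    rw [this]; exact Real.hasDerivAt_cos _
  have h5 := h3.unique h4
  have h6 := Sn_sq (Real.sqrt q)
  rw [hs] at h6
  rw [← h6] at h5
  have h7 : Real.sqrt q * (deriv Cs q * 2 + Sn q) = 0 := by linarith
  rcases mul_eq_zero.1 h7 with h8 | h8
  · exact absurd h8 hs0.ne'
  · linarith

/-! ### Smoothness through a local diffeomorphism -/

section Transfer

variable {E F H : Type*} [NormedAddCommGroup E] [NormedSpace ℝ E] [FiniteDimensional ℝ E]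
  [NormedAddCommGroup F] [NormedSpace ℝ F] [FiniteDimensional ℝ F]
  [NormedAddCommGroup H] [NormedSpace ℝ H]

/-- a local inverse of a smooth map with injective derivative between spaces of the same
dimension -/
theorem exists_local_inverse {f : E → F} {x : E} (hf : ContDiffAt ℝ ∞ f x)
    (hinj : ∀ v, fderiv ℝ f x v = 0 → v = 0)
    (hdim : Module.finrank ℝ E = Module.finrank ℝ F) :
    ∃ h : F → E, ContDiffAt ℝ ∞ h (f x) ∧ h (f x) = x ∧ (∀ᶠ y in 𝓝 (f x), f (h y) = y) ∧
      ∀ᶠ y in 𝓝 x, h (f y) = y := by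
  have : CompleteSpace E := FiniteDimensional.complete ℝ E
  have hi : Function.Injective (fderiv ℝ f x : E →ₗ[ℝ] F) := by
    intro a b hab
    have h1 : fderiv ℝ f x (a - b) = 0 := by rw [map_sub]; exact sub_eq_zero.2 hab
    exact sub_eq_zero.1 (hinj _ h1)
  let e : E ≃L[ℝ] F :=
    (LinearEquiv.ofInjectiveOfFinrankEq (fderiv ℝ f x : E →ₗ[ℝ] F) hi hdim).toContinuousLinearEquiv
  have he : HasFDerivAt f (e : E →L[ℝ] F) x := by
    have h1 : (e : E →L[ℝ] F) = fderiv ℝ f x := by ext v; rfl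
    rw [h1]
    exact (hf.differentiableAt (by simp)).hasFDerivAt
  have hn : (∞ : WithTop ℕ∞) ≠ 0 := by simp
  refine ⟨hf.localInverse he hn, hf.to_localInverse he hn, hf.localInverse_apply_image he hn, ?_, ?_⟩
  · exact (hf.hasStrictFDerivAt' he hn).eventually_right_inverse
  · exact (hf.hasStrictFDerivAt' he hn).eventually_left_inverse

/-- **Transfer of smoothness**: if `g ∘ f` is smooth at `x` and `f` is a local diffeomorphism at
`x`, then `g` is smooth at `f x`. -/
theorem contDiffAt_of_comp {f : E → F} {g : F → H} {x : E} (hf : ContDiffAt ℝ ∞ f x)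
    (hinj : ∀ v, fderiv ℝ f x v = 0 → v = 0)
    (hdim : Module.finrank ℝ E = Module.finrank ℝ F)
    (hg : ContDiffAt ℝ ∞ (fun y => g (f y)) x) : ContDiffAt ℝ ∞ g (f x) := by
  obtain ⟨h, h1, h2, h3, -⟩ := exists_local_inverse hf hinj hdim
  have h4 : ContDiffAt ℝ ∞ (fun y => g (f (h y))) (f x) := by
    have h5 : ContDiffAt ℝ ∞ (fun y => g (f y)) (h (f x)) := by rw [h2]; exact hg
    exact h5.comp (f x) h1
  refine h4.congr_of_eventuallyEq ?_
  filter_upwards [h3] with y hy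
  rw [hy]

end Transfer

end Crest.Agent.R208.GH
end
end

-- ▼ part R208/GH0b

/-!
R208, block GH (helper378), file 0b: the round polar map
`RP x B (ρ x + w) = ρ (cos |w| x + (sin |w| / |w|) w)`, `|w|^2 = B w w`.
-/

set_option autoImplicit false

open Filter Topology Set
open scoped ContDiff RealInnerProductSpace

noncomputable section

namespace Crest.Agent.R208.GH

variable {V : Type*} [NormedAddCommGroup V] [InnerProductSpace ℝ V]

/-- component orthogonal to `x` -/
def orth (x η : V) : V := η - ⟪x, η⟫ • x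

lemma inner_orth {x : V} (hx : ‖x‖ = 1) (η : V) : ⟪x, orth x η⟫ = 0 := by
  rw [orth, inner_sub_right, inner_smul_right, real_inner_self_eq_norm_sq, hx]; ring

lemma orth_add (x a b : V) : orth x (a + b) = orth x a + orth x b := by
  simp only [orth, inner_add_right, add_smul]; abel

lemma orth_smul (x : V) (r : ℝ) (a : V) : orth x (r • a) = r • orth x a := by
  simp only [orth, inner_smul_right, smul_sub, smul_smul]

lemma orth_of_inner {x w : V} (h : ⟪x, w⟫ = 0) : orth x w = w := by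
  rw [orth, h, zero_smul, sub_zero]

lemma decomp (x η : V) : ⟪x, η⟫ • x + orth x η = η := by rw [orth]; abel

/-- the round polar map at `x` for the metric `B` -/
def RP (x : V) (B : V →L[ℝ] V →L[ℝ] ℝ) (η : V) : V :=
  ⟪x, η⟫ • (Cs (B (orth x η) (orth x η)) • x + Sn (B (orth x η) (orth x η)) • orth x η)

lemma RP_add {x w : V} (B : V →L[ℝ] V →L[ℝ] ℝ) (hx : ‖x‖ = 1) (hw : ⟪x, w⟫ = 0) (ρ : ℝ) :
    RP x B (ρ • x + w) = ρ • (Cs (B w w) • x + Sn (B w w) • w) := by
  have h1 : ⟪x, ρ • x + w⟫ = ρ := by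
    rw [inner_add_right, inner_smul_right, real_inner_self_eq_norm_sq, hx, hw]; ring
  have h2 : orth x (ρ • x + w) = w := by rw [orth, h1]; abel
  rw [RP, h1, h2]

/-- hypotheses on the metric at the unit vector `x` -/
structure Met (x : V) (B : V →L[ℝ] V →L[ℝ] ℝ) : Prop where
  unit : ‖x‖ = 1
  symm : ∀ a b, B a b = B b a
  pos : ∀ a, a ≠ 0 → 0 < B a a
  rad : ∀ a, B x a = ⟪x, a⟫

section

variable {x : V} {B : V →L[ℝ] V →L[ℝ] ℝ} (hB : Met x B)
include hB

lemma Met.nonneg (a : V) : 0 ≤ B a a := by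
  by_cases h : a = 0
  · rw [h]; simp
  · exact (hB.pos a h).le

lemma Met.self : B x x = 1 := by
  rw [hB.rad, real_inner_self_eq_norm_sq, hB.unit]; norm_num


/-- `|RP (ρ x + w)|² = ρ²` -/
lemma Met.norm_RP (η : V) : B (RP x B η) (RP x B η) = ⟪x, η⟫ ^ 2 := by
  have h0 : ⟪x, orth x η⟫ = 0 := inner_orth hB.unit η
  have h1 : B x (orth x η) = 0 := by rw [hB.rad, h0]
  have h2 : B (orth x η) x = 0 := by rw [hB.symm, h1]
  have h3 := Cs_sq_add (hB.nonneg (orth x η))
  simp only [RP, map_smul, map_add, _root_.add_apply, _root_.smul_apply,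
    smul_eq_mul, h1, h2, hB.self]
  set q := B (orth x η) (orth x η)
  calc _ = ⟪x, η⟫ ^ 2 * (Cs q ^ 2 + q * Sn q ^ 2) := by ring
    _ = _ := by rw [h3, mul_one]

lemma Met.inner_RP (η : V) : ⟪x, RP x B η⟫ = ⟪x, η⟫ * Cs (B (orth x η) (orth x η)) := by
  rw [RP, inner_smul_right, inner_add_right, inner_smul_right, inner_smul_right,
    inner_orth hB.unit, real_inner_self_eq_norm_sq, hB.unit]
  ring

lemma Met.orth_RP (η : V) : orth x (RP x B η)
    = (⟪x, η⟫ * Sn (B (orth x η) (orth x η))) • orth x η := by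
  have h1 : orth x x = 0 := by
    rw [orth, real_inner_self_eq_norm_sq, hB.unit]; simp
  rw [RP, orth_smul, orth_add, orth_smul, orth_smul, h1, smul_zero, zero_add,
    orth_of_inner (inner_orth hB.unit η), smul_smul]

end

lemma contDiff_RP : ContDiff ℝ ∞ (fun z : V × (V →L[ℝ] V →L[ℝ] ℝ) × V => RP z.1 z.2.1 z.2.2) := by
  have h1 : ContDiff ℝ ∞ (fun z : V × (V →L[ℝ] V →L[ℝ] ℝ) × V => ⟪z.1, z.2.2⟫) :=
    contDiff_fst.inner ℝ (contDiff_snd.comp contDiff_snd)
  have h2 : ContDiff ℝ ∞ (fun z : V × (V →L[ℝ] V →L[ℝ] ℝ) × V => orth z.1 z.2.2) :=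
    (contDiff_snd.comp contDiff_snd).sub (h1.smul contDiff_fst)
  have h3 : ContDiff ℝ ∞ (fun z : V × (V →L[ℝ] V →L[ℝ] ℝ) × V => z.2.1) :=
    contDiff_fst.comp contDiff_snd
  have h4 : ContDiff ℝ ∞ (fun z : V × (V →L[ℝ] V →L[ℝ] ℝ) × V =>
      z.2.1 (orth z.1 z.2.2) (orth z.1 z.2.2)) := (h3.clm_apply h2).clm_apply h2
  exact h1.smul (((contDiff_Cs.comp h4).smul contDiff_fst).add ((contDiff_Sn.comp h4).smul h2))

lemma contDiff_RP' (x : V) (B : V →L[ℝ] V →L[ℝ] ℝ) : ContDiff ℝ ∞ (RP x B) :=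
  contDiff_RP.comp (contDiff_const.prodMk (contDiff_const.prodMk contDiff_id))

lemma hasDerivAt_inner_const (x : V) {c : ℝ → V} {c' : V} {t : ℝ} (h : HasDerivAt c c' t) :
    HasDerivAt (fun t => ⟪x, c t⟫) ⟪x, c'⟫ t :=
  ((innerSL ℝ x).hasFDerivAt (x := c t)).comp_hasDerivAt t h

lemma hasDerivAt_quad (B : V →L[ℝ] V →L[ℝ] ℝ) {c : ℝ → V} {c' : V} {t : ℝ}
    (h : HasDerivAt c c' t) : HasDerivAt (fun t => B (c t) (c t)) (B c' (c t) + B (c t) c') t :=
  ((B.hasFDerivAt (x := c t)).comp_hasDerivAt t h).clm_apply h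

/-- the round polar map is a local diffeomorphism for `ρ ≠ 0`, `|w| < π` -/
theorem Met.fderiv_RP_inj {x : V} {B : V →L[ℝ] V →L[ℝ] ℝ} (hB : Met x B) {η v : V}
    (hρ : ⟪x, η⟫ ≠ 0) (hq : B (orth x η) (orth x η) < Real.pi ^ 2)
    (h : fderiv ℝ (RP x B) η v = 0) : v = 0 := by
  have hl : HasDerivAt (fun t : ℝ => η + t • v) v 0 := by
    simpa using ((hasDerivAt_id (0 : ℝ)).smul_const v).const_add η
  have hR : HasDerivAt (fun t : ℝ => RP x B (η + t • v)) 0 0 := by
    have h1 : HasFDerivAt (RP x B) (fderiv ℝ (RP x B) η) (η + (0 : ℝ) • v) := by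
      rw [zero_smul, add_zero]
      exact ((contDiff_RP' x B).differentiable (by simp) η).hasFDerivAt
    have h2 := h1.comp_hasDerivAt (0 : ℝ) hl
    rw [h] at h2
    exact h2
  -- ρ' = 0
  have hρ' : ⟪x, v⟫ = 0 := by
    have h1 : HasDerivAt (fun t : ℝ => B (RP x B (η + t • v)) (RP x B (η + t • v))) 0 0 := by
      have h3 := hasDerivAt_quad B hR
      simpa using h3
    have h2 : (fun t : ℝ => B (RP x B (η + t • v)) (RP x B (η + t • v)))
        = fun t : ℝ => ⟪x, η + t • v⟫ ^ 2 := by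
      ext t; exact hB.norm_RP _
    rw [h2] at h1
    have h3 : HasDerivAt (fun t : ℝ => ⟪x, η + t • v⟫) ⟪x, v⟫ 0 := hasDerivAt_inner_const x hl
    have h4 : HasDerivAt (fun t : ℝ => ⟪x, η + t • v⟫ ^ 2) (2 * ⟪x, η⟫ * ⟪x, v⟫) 0 := by
      have h5 := h3.fun_pow 2
      simp only [zero_smul, add_zero] at h5
      exact h5.congr_deriv (by norm_num)
    have h5 := h1.unique h4
    have h6 : (2 * ⟪x, η⟫) * ⟪x, v⟫ = 0 := h5.symm
    rcases mul_eq_zero.1 h6 with h7 | h7
    · exact absurd h7 (mul_ne_zero two_ne_zero hρ)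
    · exact h7
  set w := orth x η with hw
  have hov : orth x v = v := orth_of_inner hρ'
  have horth : ∀ t : ℝ, orth x (η + t • v) = w + t • v := by
    intro t; rw [orth_add, orth_smul, hov]
  have hinn : ∀ t : ℝ, ⟪x, η + t • v⟫ = ⟪x, η⟫ := by
    intro t; rw [inner_add_right, inner_smul_right, hρ', mul_zero, add_zero]
  -- derivative of q
  have hlw : HasDerivAt (fun t : ℝ => w + t • v) v 0 := by
    simpa using ((hasDerivAt_id (0 : ℝ)).smul_const v).const_add w
  have hqd : HasDerivAt (fun t : ℝ => B (w + t • v) (w + t • v)) (2 * B w v) 0 := by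
    have h3 := hasDerivAt_quad B hlw
    have h4 : B v w = B w v := hB.symm _ _
    simp only [zero_smul, add_zero, h4] at h3
    rw [two_mul]
    exact h3
  have hq' : B w v = 0 := by
    by_cases hw0 : w = 0
    · rw [hw0]; simp
    have hqpos : 0 < B w w := hB.pos w hw0
    have h1 : HasDerivAt (fun t : ℝ => ⟪x, RP x B (η + t • v)⟫) 0 0 := by
      have := hasDerivAt_inner_const x hR
      rwa [inner_zero_right] at this
    have h2 : (fun t : ℝ => ⟪x, RP x B (η + t • v)⟫)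
        = fun t : ℝ => ⟪x, η⟫ * Cs (B (w + t • v) (w + t • v)) := by
      ext t; rw [hB.inner_RP, hinn, horth]
    rw [h2] at h1
    have h3 : HasDerivAt Cs (deriv Cs (B w w)) (B w w) :=
      ((contDiff_Cs.differentiable (by simp)) _).hasDerivAt
    have h4 : HasDerivAt (fun t : ℝ => Cs (B (w + t • v) (w + t • v)))
        (deriv Cs (B w w) * (2 * B w v)) 0 := by
      have h3' : HasDerivAt Cs (deriv Cs (B w w))
          ((fun t : ℝ => B (w + t • v) (w + t • v)) 0) := by
        simpa using h3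
      exact HasDerivAt.comp (h := fun t : ℝ => B (w + t • v) (w + t • v)) (0 : ℝ) h3' hqd
    have h5 := h1.unique (h4.const_mul ⟪x, η⟫)
    rw [deriv_Cs hqpos] at h5
    have hS := Sn_pos hqpos.le hq
    have h6 : (⟪x, η⟫ * Sn (B w w)) * B w v = 0 := by linarith
    rcases mul_eq_zero.1 h6 with h7 | h7
    · exact absurd h7 (mul_ne_zero hρ hS.ne')
    · exact h7
  -- the tangential component
  have h1 : HasDerivAt (fun t : ℝ => orth x (RP x B (η + t • v))) 0 0 := by
    have h2 : HasDerivAt (fun t : ℝ => ⟪x, RP x B (η + t • v)⟫) 0 0 := by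
      have := hasDerivAt_inner_const x hR
      rwa [inner_zero_right] at this
    have h3 := hR.sub (h2.smul_const x)
    simp only [zero_smul, sub_zero] at h3
    exact h3
  have h2 : (fun t : ℝ => orth x (RP x B (η + t • v)))
      = fun t : ℝ => (⟪x, η⟫ * Sn (B (w + t • v) (w + t • v))) • (w + t • v) := by
    ext1 t; rw [hB.orth_RP, hinn, horth]
  rw [h2] at h1
  have h3 : HasDerivAt Sn (deriv Sn (B w w)) (B w w) :=
    ((contDiff_Sn.differentiable (by simp)) _).hasDerivAt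
  have h4 : HasDerivAt (fun t : ℝ => Sn (B (w + t • v) (w + t • v))) 0 0 := by
    have h3' : HasDerivAt Sn (deriv Sn (B w w))
        ((fun t : ℝ => B (w + t • v) (w + t • v)) 0) := by
      simpa using h3
    have h5 := HasDerivAt.comp (h := fun t : ℝ => B (w + t • v) (w + t • v)) (0 : ℝ) h3' hqd
    rw [hq', mul_zero, mul_zero] at h5
    exact h5
  have h5 := (h4.const_mul ⟪x, η⟫).smul hlw
  have h6 := h1.unique h5
  simp only [zero_smul, add_zero, mul_zero] at h6
  have hS := Sn_pos (hB.nonneg w) hq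
  rcases smul_eq_zero.1 h6.symm with h7 | h7
  · exact absurd h7 (mul_ne_zero hρ hS.ne')
  · exact h7

/-- every vector off the negative axis is in the image -/
theorem Met.exists_RP {x : V} {B : V →L[ℝ] V →L[ℝ] ℝ} (hB : Met x B) {ξ : V}
    (hneg : ∀ r : ℝ, 0 ≤ r → ξ ≠ -(r • x)) :
    ∃ (ρ : ℝ) (w : V), 0 < ρ ∧ ⟪x, w⟫ = 0 ∧ B w w < Real.pi ^ 2 ∧
      ρ • (Cs (B w w) • x + Sn (B w w) • w) = ξ := by
  set a := ⟪x, ξ⟫ with ha
  set u := orth x ξ with hu
  have hxu : ⟪x, u⟫ = 0 := inner_orth hB.unit ξ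
  have hdec : a • x + u = ξ := decomp x ξ
  by_cases hu0 : u = 0
  · have ha0 : 0 < a := by
      by_contra hcon
      have h1 : ξ = a • x := by rw [← hdec, hu0, add_zero]
      refine hneg (-a) (by linarith [not_lt.1 hcon]) ?_
      rw [h1, neg_smul, neg_neg]
    refine ⟨a, 0, ha0, by simp, by simp; positivity, ?_⟩
    rw [← hdec, hu0]
    simp [Cs_zero]
  · have hb : 0 < B u u := hB.pos u hu0
    set b := Real.sqrt (B u u) with hbdef
    have hb0 : 0 < b := Real.sqrt_pos.2 hb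
    have hb2 : b ^ 2 = B u u := Real.sq_sqrt hb.le
    set ρ := Real.sqrt (a ^ 2 + b ^ 2) with hρdef
    have hρ2 : ρ ^ 2 = a ^ 2 + b ^ 2 := Real.sq_sqrt (by positivity)
    have hρ0 : 0 < ρ := Real.sqrt_pos.2 (by positivity)
    have habs : |a / ρ| < 1 := by
      rw [abs_div, abs_of_pos hρ0, div_lt_one hρ0]
      rw [← abs_of_pos hρ0]
      exact sq_lt_sq.1 (by rw [hρ2]; nlinarith)
    have h1 : -1 ≤ a / ρ := (abs_lt.1 habs).1.le
    have h2 : a / ρ ≤ 1 := (abs_lt.1 habs).2.le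
    set s := Real.arccos (a / ρ) with hs
    have hs0 : 0 < s := Real.arccos_pos.2 (abs_lt.1 habs).2
    have hsπ : s < Real.pi := by
      refine lt_of_le_of_ne (Real.arccos_le_pi _) ?_
      intro h
      have := Real.arccos_eq_pi.1 h
      linarith [(abs_lt.1 habs).1]
    have hcos : Real.cos s = a / ρ := Real.cos_arccos h1 h2
    have hsin : Real.sin s = b / ρ := by
      rw [hs, Real.sin_arccos]
      have h3 : 1 - (a / ρ) ^ 2 = (b / ρ) ^ 2 := by
        field_simp
        nlinarith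
      rw [h3, Real.sqrt_sq (by positivity)]
    refine ⟨ρ, (s / b) • u, hρ0, by rw [inner_smul_right, hxu, mul_zero], ?_, ?_⟩
    · simp only [map_smul, _root_.smul_apply, smul_eq_mul, ← hb2]
      have : s / b * (s / b * b ^ 2) = s ^ 2 := by field_simp
      rw [this]
      exact pow_lt_pow_left₀ hsπ hs0.le two_ne_zero
    · have h3 : B ((s / b) • u) ((s / b) • u) = s ^ 2 := by
        simp only [map_smul, _root_.smul_apply, smul_eq_mul, ← hb2]
        field_simp
      rw [h3, Cs_sq, hcos, smul_smul]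
      have h4 : Sn (s ^ 2) * (s / b) = 1 / ρ := by
        have h5 := Sn_sq s
        rw [hsin] at h5
        have h6 : Sn (s ^ 2) = b / ρ / s := by
          rw [eq_div_iff hs0.ne', mul_comm]; exact h5
        rw [h6]; field_simp
      rw [h4, smul_add, smul_smul, smul_smul, mul_div_cancel₀ _ hρ0.ne',
        mul_one_div_cancel hρ0.ne', one_smul]
      exact hdec

end Crest.Agent.R208.GH
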