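import Crest.Agent.R208.K2
import Mathlib
import Crest.Agent.R241.D3c

-- ▼ part R208/K3
section

/-!
R208 (Blaschke), block G5, file K3: pair isometry, closedness of links, the open set `U1` of
linear links of minimal dimension, periodicity of the geodesics in `U1`.
-/

set_option autoImplicit false

open Set Filter Topology
open scoped ContDiff RealInnerProductSpace
open Crest.GeometryTopology.Submanifold
open Crest.Agent.R241.DDefs
open Crest.Agent.R241.D2

noncomputable section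

namespace Crest.Agent.R208.K

variable {n N : ℕ} {κ : ℝ} {S : Set (Euc N)} {G : Geo n N κ S} {D : ℝ}

namespace Hyp

/-- the pair isometry. -/
lemma inner_lk (H : Hyp G D) {p q v w : Euc N} (hp : p ∈ S) (hv : v ∈ Lk G D p q)
    (hw : w ∈ Lk G D p q) : ⟪v, w⟫ = ⟪(fl G ((p, v), D)).2, (fl G ((p, w), D)).2⟫ := by
  obtain ⟨C, hC, hF⟩ := H.f1
  have hvU := lk_US hp hv
  have hwU := lk_US hp hw
  set cp : ℝ → Euc N := fun s => (fl G ((p, v), s)).1 with hcp
  set cq : ℝ → Euc N := fun s => (fl G ((p, v), D + s)).1 with hcq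
  have hcp0 : cp 0 = p := by simp [hcp, fl_zero]
  have hcq0 : cq 0 = q := by simp only [hcq, add_zero]; exact hv.2.2
  have hdp : HasDerivAt cp v 0 := by
    have := hasDerivAt_fst G hvU.1 0
    rwa [fl_zero] at this
  have hdq : HasDerivAt cq (fl G ((p, v), D)).2 0 := by
    have h1 : HasDerivAt (fun s => (fl G ((p, v), s)).1) (fl G ((p, v), D)).2 (D + 0) := by
      rw [add_zero]; exact hasDerivAt_fst G hvU.1 D
    exact HasDerivAt.comp_const_add D 0 h1
  set g : ℝ → ℝ := fun s => -⟪w, cp s - p⟫ + ⟪(fl G ((p, w), D)).2, cq s - q⟫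
    + C * (‖cp s - p‖ ^ 2 + ‖cq s - q‖ ^ 2) with hg
  have hg0 : g 0 = 0 := by simp [hg, hcp0, hcq0]
  have hgpos : ∀ s, 0 ≤ g s := by
    intro s
    have h1 := hF (p, w) hwU D (by linarith [H.hD]) le_rfl (cp s) (fl_US G hvU s).1.1 (cq s)
      (fl_US G hvU _).1.1
    have h2 : intrinsicDist S (cp s) (cq s) = D := by
      have := H.mini _ (fl_US G hvU s) D H.hD.le le_rfl
      rw [← fl_add' G hvU.1, add_comm s D] at this
      exact this
    rw [h2, hw.2.2] at h1
    simp only [hg]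
    linarith
  have hmin : IsLocalMin g 0 := Eventually.of_forall fun s => by rw [hg0]; exact hgpos s
  have hder : HasDerivAt g (-⟪w, v⟫ + ⟪(fl G ((p, w), D)).2, (fl G ((p, v), D)).2⟫
      + C * (2 * ⟪cp 0 - p, v⟫ + 2 * ⟪cq 0 - q, (fl G ((p, v), D)).2⟫)) 0 := by
    have h1 : HasDerivAt (fun s => cp s - p) v 0 := hdp.sub_const p
    have h2 : HasDerivAt (fun s => cq s - q) (fl G ((p, v), D)).2 0 := hdq.sub_const q
    have h3 : HasDerivAt (fun s => ⟪w, cp s - p⟫) ⟪w, v⟫ 0 := by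
      have := (hasDerivAt_const (0 : ℝ) w).inner ℝ h1
      simpa using this
    have h4 : HasDerivAt (fun s => ⟪(fl G ((p, w), D)).2, cq s - q⟫)
        ⟪(fl G ((p, w), D)).2, (fl G ((p, v), D)).2⟫ 0 := by
      have := (hasDerivAt_const (0 : ℝ) (fl G ((p, w), D)).2).inner ℝ h2
      simpa using this
    exact (h3.neg.add h4).add ((h1.norm_sq.add h2.norm_sq).const_mul C)
  have h0 := hmin.hasDerivAt_eq_zero hder
  rw [hcp0, hcq0, sub_self, sub_self, inner_zero_left, inner_zero_left] at h0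
  rw [real_inner_comm w v, real_inner_comm (fl G ((p, w), D)).2]
  linarith

lemma lk_closed {q p u : ℕ → Euc N} {q0 p0 u0 : Euc N} (hq : ∀ j, q j ∈ S)
    (hu : ∀ j, u j ∈ Lk G D (q j) (p j)) (hql : Tendsto q atTop (𝓝 q0))
    (hpl : Tendsto p atTop (𝓝 p0)) (hul : Tendsto u atTop (𝓝 u0)) :
    q0 ∈ S ∧ u0 ∈ Lk G D q0 p0 := by
  have h1 : Tendsto (fun j => ((q j, u j) : Euc N × Euc N)) atTop (𝓝 (q0, u0)) :=
    hql.prodMk_nhds hul
  have h2 : ((q0, u0) : Euc N × Euc N) ∈ US G :=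
    (isClosed_US G).mem_of_tendsto h1 (Eventually.of_forall fun j => lk_US (hq j) (hu j))
  refine ⟨h2.1.1, h2.1.2, h2.2, ?_⟩
  have h3 : Tendsto (fun j => (fl G ((q j, u j), D)).1) atTop (𝓝 (fl G ((q0, u0), D)).1) :=
    (continuous_fst.tendsto _).comp
      ((continuousAt_fl G h2.1 D).tendsto.comp (h1.prodMk_nhds tendsto_const_nhds))
  exact tendsto_nhds_unique (h3.congr fun j => (hu j).2.2) hpl

/-- limits of orthonormal families in links. -/
lemma frames_limit {k : ℕ} {q p : ℕ → Euc N} {q0 p0 : Euc N} (hq : ∀ j, q j ∈ S)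
    (hql : Tendsto q atTop (𝓝 q0)) (hpl : Tendsto p atTop (𝓝 p0))
    {e : ℕ → Fin (k + 1) → Euc N} (he : ∀ j, Orthonormal ℝ (e j))
    (hL : ∀ j i, e j i ∈ Lk G D (q j) (p j)) :
    ∃ (e0 : Fin (k + 1) → Euc N) (φ : ℕ → ℕ), StrictMono φ ∧ Orthonormal ℝ e0 ∧
      Tendsto (e ∘ φ) atTop (𝓝 e0) ∧ ∀ i, e0 i ∈ Lk G D q0 p0 := by
  have hK : IsCompact (Set.pi univ fun _ : Fin (k + 1) => Metric.closedBall (0 : Euc N) 1) :=
    isCompact_univ_pi fun _ => isCompact_closedBall _ _
  have hmem : ∀ j, e j ∈ Set.pi univ fun _ : Fin (k + 1) => Metric.closedBall (0 : Euc N) 1 := by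
    intro j i _
    rw [Metric.mem_closedBall, dist_zero_right, (he j).1 i]
  obtain ⟨e0, -, φ, hφ, hlim⟩ := hK.tendsto_subseq hmem
  have hi : ∀ i, Tendsto (fun j => e (φ j) i) atTop (𝓝 (e0 i)) := fun i =>
    ((continuous_apply i).tendsto e0).comp hlim
  refine ⟨e0, φ, hφ, ?_, hlim, fun i => ?_⟩
  · rw [orthonormal_iff_ite]
    intro i i'
    have h1 : Tendsto (fun j => ⟪e (φ j) i, e (φ j) i'⟫) atTop (𝓝 ⟪e0 i, e0 i'⟫) :=
      (hi i).inner (hi i')
    have h2 : ∀ j, ⟪e (φ j) i, e (φ j) i'⟫ = if i = i' then (1 : ℝ) else 0 := fun j =>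
      (orthonormal_iff_ite.1 (he (φ j))) i i'
    exact tendsto_nhds_unique (h1.congr h2) tendsto_const_nhds |>.symm ▸ rfl
  · exact (lk_closed (fun j => hq (φ j)) (fun j => hL (φ j) i) (hql.comp hφ.tendsto_atTop)
      (hpl.comp hφ.tendsto_atTop) (hi i)).2

end Hyp

lemma card_le_of_orthonormal {k : ℕ} {L : Submodule ℝ (Euc N)} {e : Fin (k + 1) → Euc N}
    (he : Orthonormal ℝ e) (h : ∀ i, e i ∈ L) : k + 1 ≤ Module.finrank ℝ L := by
  have h2 : Submodule.span ℝ (range e) ≤ L := by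
    rw [Submodule.span_le]
    rintro _ ⟨i, rfl⟩
    exact h i
  have h3 := Submodule.finrank_mono h2
  rwa [finrank_span_eq_card he.linearIndependent, Fintype.card_fin] at h3

/-- end point at time `D`. -/
def ep (G : Geo n N κ S) (D : ℝ) (z : Euc N × Euc N) : Euc N := (fl G (z, D)).1

/-- the set of directions whose link has no `k+1` orthonormal vectors. -/
def U1 (G : Geo n N κ S) (D : ℝ) (k : ℕ) : Set (Euc N × Euc N) :=
  {z | z ∈ US G ∧ ¬ Star.Bad k (Lk G D z.1 (ep G D z))}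

lemma mem_lk_self {z : Euc N × Euc N} (hz : z ∈ US G) : z.2 ∈ Lk G D z.1 (ep G D z) :=
  ⟨hz.1.2, hz.2, rfl⟩

lemma ep_mem {z : Euc N × Euc N} (hz : z ∈ US G) : ep G D z ∈ S := (fl_US G hz D).1.1

namespace Hyp

lemma star' (H : Hyp G D) {z : Euc N × Euc N} (hz : z ∈ US G) :
    Star (G.T z.1) (Lk G D z.1 (ep G D z)) := by
  refine H.star (ep_mem hz) hz.1.1 ?_
  rw [H.sym _ (ep_mem hz) _ hz.1.1]
  exact H.mini z hz D H.hD.le le_rfl

/-- bad set is closed in the unit tangent bundle. -/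
lemma bad_closed (H : Hyp G D) {k : ℕ} :
    IsClosed {z | z ∈ US G ∧ Star.Bad k (Lk G D z.1 (ep G D z))} := by
  refine isSeqClosed_iff_isClosed.1 fun z z0 hz hlim => ?_
  have hz0 : z0 ∈ US G :=
    (isClosed_US G).mem_of_tendsto hlim (Eventually.of_forall fun j => (hz j).1)
  refine ⟨hz0, ?_⟩
  choose e he hL using fun j => (hz j).2
  have h1 : Tendsto (fun j => (z j).1) atTop (𝓝 z0.1) := (continuous_fst.tendsto _).comp hlim
  have h2 : Tendsto (fun j => ep G D (z j)) atTop (𝓝 (ep G D z0)) :=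
    (continuous_fst.tendsto _).comp
      ((continuousAt_fl G hz0.1 D).tendsto.comp (hlim.prodMk_nhds tendsto_const_nhds))
  obtain ⟨e0, φ, -, ho, -, hm⟩ := frames_limit (fun j => (hz j).1.1.1) h1 h2 he hL
  exact ⟨e0, ho, hm⟩

lemma U1_open (H : Hyp G D) {k : ℕ} {z : Euc N × Euc N} (hz : z ∈ U1 G D k) :
    ∀ᶠ z' in 𝓝[US G] z, z' ∈ U1 G D k := by
  have h1 : {z | z ∈ US G ∧ Star.Bad k (Lk G D z.1 (ep G D z))}ᶜ ∈ 𝓝 z :=
    (H.bad_closed (k := k)).isOpen_compl.mem_nhds fun h => hz.2 h.2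
  filter_upwards [self_mem_nhdsWithin, nhdsWithin_le_nhds h1] with z' h2 h3
  exact ⟨h2, fun h => h3 ⟨h2, h⟩⟩

/-- the minimal lineality dimension and the non-empty set of directions where it is attained by
linear links. -/
lemma exists_k (H : Hyp G D) : ∃ k : ℕ, 1 ≤ k ∧
    (∀ z ∈ US G, k ≤ Module.finrank ℝ (lin (G.T z.1) (Lk G D z.1 (ep G D z)))) ∧
    (U1 G D k).Nonempty := by
  classical
  -- some unit vector
  obtain ⟨p0, hp0⟩ := H.ne
  obtain ⟨v0, hv0, hv0n, -⟩ := H.hr p0 hp0 p0 hp0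
  have hz0 : ((p0, v0) : Euc N × Euc N) ∈ US G := ⟨⟨hp0, hv0⟩, hv0n⟩
  set A : Set ℕ := {m | ∃ z ∈ US G, Module.finrank ℝ (lin (G.T z.1) (Lk G D z.1 (ep G D z))) = m}
    with hA
  have hAne : A.Nonempty := ⟨_, (p0, v0), hz0, rfl⟩
  set k := sInf A with hk
  have hmin : ∀ z ∈ US G, k ≤ Module.finrank ℝ (lin (G.T z.1) (Lk G D z.1 (ep G D z))) :=
    fun z hz => Nat.sInf_le ⟨z, hz, rfl⟩
  obtain ⟨z, hz, hzk⟩ := Nat.sInf_mem hAne
  rw [← hk] at hzk
  have hst := H.star' hz
  refine ⟨k, by rw [← hzk]; exact hst.nontrivial, hmin, ?_⟩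
  set q := z.1 with hq
  set p := ep G D z with hp
  have hqS : q ∈ S := hz.1.1
  have hpS : p ∈ S := ep_mem hz
  have hpq : intrinsicDist S p q = D := by
    rw [H.sym _ hpS _ hqS]
    exact H.mini z hz D H.hD.le le_rfl
  obtain ⟨x, hx, hsep⟩ := hst.exists_sep
  obtain ⟨u0, hu0, h0, s, y, hs, hsl, hy, hyl⟩ := H.approach hpS hqS hpq hx.1
  have h00 : ⟪x, u0⟫ = 0 := le_antisymm (by rw [real_inner_comm]; exact hx.2 u0 hu0) h0
  rw [h00, zero_smul, sub_zero] at hyl
  have hyq : Tendsto y atTop (𝓝 q) := by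
    have h1 := (hsl.smul hyl).add_const q
    rw [zero_smul, zero_add] at h1
    refine h1.congr fun j => ?_
    rw [smul_smul, mul_inv_cancel₀ (hs j).ne', one_smul, sub_add_cancel]
  have hex : ∃ j, ¬ Star.Bad k (Lk G D (y j) p) := by
    by_contra hcon
    push_neg at hcon
    choose e he hL using hcon
    obtain ⟨e0, φ, hφ, ho, hel, hm⟩ := frames_limit (fun j => (hy j).1) hyq
      (tendsto_const_nhds (x := p)) he hL
    obtain ⟨C, hC, hF⟩ := H.f1_lk
    have hin : ∀ i, e0 i ∈ lin (G.T q) (Lk G D q p) := by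
      intro i
      refine hsep (e0 i) (hm i).1 (fun y' hy' => hy'.2 _ (hm i)) ?_
      have h1 : ∀ j, -(C * (s (φ j) * ‖(s (φ j))⁻¹ • (y (φ j) - q)‖ ^ 2)) ≤
          ⟪e (φ j) i, (s (φ j))⁻¹ • (y (φ j) - q)⟫ := by
        intro j
        have h2 := hF (y (φ j)) (hy _).1 p hpS (e (φ j) i) (hL _ i) q hqS
        rw [hpq] at h2
        have h3 : -(C * ‖y (φ j) - q‖ ^ 2) ≤ ⟪e (φ j) i, y (φ j) - q⟫ := by
          rw [← neg_sub (y (φ j)) q, inner_neg_right, norm_neg] at h2
          linarith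
        have h4 := mul_le_mul_of_nonneg_left h3 (inv_pos.2 (hs (φ j))).le
        rw [inner_smul_right]
        refine le_trans (le_of_eq ?_) h4
        rw [norm_smul, Real.norm_of_nonneg (inv_pos.2 (hs _)).le]
        have := (hs (φ j)).ne'
        field_simp
      have hφt := hφ.tendsto_atTop
      have h5 : Tendsto (fun j => ⟪e (φ j) i, (s (φ j))⁻¹ • (y (φ j) - q)⟫) atTop
          (𝓝 ⟪e0 i, x⟫) :=
        (((continuous_apply i).tendsto e0).comp hel).inner (hyl.comp hφt)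
      have h6 : Tendsto (fun j => -(C * (s (φ j) * ‖(s (φ j))⁻¹ • (y (φ j) - q)‖ ^ 2))) atTop
          (𝓝 0) := by
        have := (((hsl.comp hφt).mul ((hyl.comp hφt).norm.pow 2)).const_mul C).neg
        rwa [zero_mul, mul_zero, neg_zero] at this
      exact le_of_tendsto_of_tendsto' h6 h5 h1
    have := card_le_of_orthonormal ho hin
    omega
  obtain ⟨j, hj⟩ := hex
  have hstj := H.star hpS (hy j).1 (hy j).2
  obtain ⟨u, hu, -⟩ := hstj.star 0 (G.T _).zero_mem
  have hzU : ((y j, u) : Euc N × Euc N) ∈ US G := lk_US (hy j).1 hu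
  refine ⟨(y j, u), hzU, ?_⟩
  have : ep G D (y j, u) = p := hu.2.2
  rw [this]
  exact hj

/-- in `U1` links are linear. -/
lemma linear_of_U1 (H : Hyp G D) {k : ℕ}
    (hmin : ∀ z ∈ US G, k ≤ Module.finrank ℝ (lin (G.T z.1) (Lk G D z.1 (ep G D z))))
    {z : Euc N × Euc N} (hz : z ∈ U1 G D k) :
    Module.finrank ℝ (lin (G.T z.1) (Lk G D z.1 (ep G D z))) = k ∧
      ∀ u, u ∈ Lk G D z.1 (ep G D z) ↔ u ∈ lin (G.T z.1) (Lk G D z.1 (ep G D z)) ∧ ‖u‖ = 1 := by
  have hst := H.star' hz.1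
  obtain ⟨h1, h2⟩ := hst.linear_of_not_bad (hmin z hz.1) hz.2
  exact ⟨h1, fun u => ⟨fun h => ⟨h2 u h, h.2.1⟩, fun h => hst.lin_sub h.1 h.2⟩⟩

/-- geodesics with antipodal link are closed. -/
lemma periodic_of_neg (H : Hyp G D) {z : Euc N × Euc N} (hz : z ∈ US G)
    (hneg : -z.2 ∈ Lk G D z.1 (ep G D z)) : fl G (z, 2 * D) = z := by
  have h1 := H.inner_lk hz.1.1 (mem_lk_self (D := D) hz) hneg
  rw [inner_neg_right, real_inner_self_eq_norm_sq, hz.2] at h1
  have hz' : rev z ∈ US G := rev_US G hz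
  have ha := (fl_US G hz D).2
  have hb := (fl_US G hz' D).2
  have hzz : ((z.1, z.2) : Euc N × Euc N) = z := rfl
  have hrz : ((z.1, -z.2) : Euc N × Euc N) = rev z := rfl
  rw [hzz, hrz] at h1
  have h2 : (fl G (rev z, D)).2 = -(fl G (z, D)).2 := by
    have h3 : ‖(fl G (rev z, D)).2 + (fl G (z, D)).2‖ ^ 2 = 0 := by
      rw [norm_add_sq_real, ha, hb, real_inner_comm, ← h1]; norm_num
    have h4 : (fl G (rev z, D)).2 + (fl G (z, D)).2 = 0 := by
      rw [← norm_eq_zero]; exact pow_eq_zero_iff (two_ne_zero) |>.1 h3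
    exact eq_neg_of_add_eq_zero_left h4
  have h5 : (fl G (rev z, D)).1 = (fl G (z, D)).1 := hneg.2.2
  have h6 : rev (fl G (rev z, D)) = fl G (z, D) := by
    rw [rev, h5, h2, neg_neg]
  have h7 := fl_rev_back G hz'.1 D
  rw [h6, rev_rev, ← fl_add' G hz.1] at h7
  rw [two_mul]; exact h7

lemma periodic_of_U1 (H : Hyp G D) {k : ℕ}
    (hmin : ∀ z ∈ US G, k ≤ Module.finrank ℝ (lin (G.T z.1) (Lk G D z.1 (ep G D z))))
    {z : Euc N × Euc N} (hz : z ∈ U1 G D k) : fl G (z, 2 * D) = z := by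
  refine H.periodic_of_neg hz.1 ?_
  have h1 := (H.linear_of_U1 hmin hz).2
  have h2 := (h1 z.2).1 (mem_lk_self hz.1)
  exact (h1 (-z.2)).2 ⟨Submodule.neg_mem _ h2.1, by rw [norm_neg]; exact h2.2⟩

end Hyp

end Crest.Agent.R208.K
end
end

-- ▼ part R208/K4
section

/-!
R208 (Blaschke), block G5, file K4: kernel vectors of a map of locally constant rank are velocities
of curves in the fibre.
-/

set_option autoImplicit false

open Set Filter Topology
open scoped ContDiff

noncomputable section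

namespace Crest.Agent.R208.K

variable {V F : Type*} [NormedAddCommGroup V] [InnerProductSpace ℝ V] [FiniteDimensional ℝ V]
  [NormedAddCommGroup F] [InnerProductSpace ℝ F] [FiniteDimensional ℝ F]

/-- constant rank: kernel vectors are velocities of curves in the fibre. -/
theorem fibre_curve {f : V → F} {x0 : V} (hf : ContDiffAt ℝ 1 f x0)
    (hrank : ∀ᶠ x in 𝓝 x0, Module.finrank ℝ (LinearMap.ker (fderiv ℝ f x).toLinearMap) =
      Module.finrank ℝ (LinearMap.ker (fderiv ℝ f x0).toLinearMap))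
    {w : V} (hw : fderiv ℝ f x0 w = 0) :
    ∃ c : ℝ → V, c 0 = x0 ∧ HasDerivAt c w 0 ∧ ∀ᶠ t in 𝓝 (0 : ℝ), f (c t) = f x0 := by
  classical
  set B : V →L[ℝ] F := fderiv ℝ f x0 with hB
  set R : Submodule ℝ F := LinearMap.range B.toLinearMap with hR
  set W : Submodule ℝ V := LinearMap.ker B.toLinearMap with hW
  -- the map `x ↦ (proj_R (f x), proj_W x)`
  set A : V → R × W := fun x => (R.orthogonalProjectionOnto (f x), W.orthogonalProjectionOnto x) with hA
  have hdf : HasStrictFDerivAt f B x0 := hf.hasStrictFDerivAt (by simp)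
  set A' : V →L[ℝ] R × W := ((R.orthogonalProjectionOnto : F →L[ℝ] R).comp B).prod
    (W.orthogonalProjectionOnto : V →L[ℝ] W) with hA'
  have hdA : HasStrictFDerivAt A A' x0 :=
    ((R.orthogonalProjectionOnto : F →L[ℝ] R).hasStrictFDerivAt.comp x0 hdf).prodMk
      (W.orthogonalProjectionOnto : V →L[ℝ] W).hasStrictFDerivAt
  have hinj : Function.Injective A'.toLinearMap := by
    rw [← LinearMap.ker_eq_bot, LinearMap.ker_eq_bot']
    intro x hx
    have hx1 : R.orthogonalProjectionOnto (B x) = 0 := congrArg Prod.fst hx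
    have hx2 : W.orthogonalProjectionOnto x = 0 := congrArg Prod.snd hx
    have h1 : B x ∈ R := LinearMap.mem_range_self _ x
    have h2 : B x = 0 := by
      have := Submodule.orthogonalProjectionOnto_mem_subspace_eq_self (⟨B x, h1⟩ : R)
      simp only at this
      rw [hx1] at this
      exact (congrArg Subtype.val this).symm
    have h3 : x ∈ W := by rw [hW, LinearMap.mem_ker]; exact h2
    have h4 := Submodule.orthogonalProjectionOnto_mem_subspace_eq_self (⟨x, h3⟩ : W)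
    simp only at h4
    rw [hx2] at h4
    exact (congrArg Subtype.val h4).symm
  have hdim : Module.finrank ℝ V = Module.finrank ℝ (R × W) := by
    rw [Module.finrank_prod]
    exact (LinearMap.finrank_range_add_finrank_ker B.toLinearMap).symm
  let Ae : V ≃L[ℝ] (R × W) :=
    (LinearEquiv.ofInjectiveOfFinrankEq A'.toLinearMap hinj hdim).toContinuousLinearEquiv
  have hAe : (Ae : V →L[ℝ] R × W) = A' := by ext x <;> rfl
  have hdA2 : HasStrictFDerivAt A (Ae : V →L[ℝ] R × W) x0 := by rw [hAe]; exact hdA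
  set g : R × W → V := hdA2.localInverse A Ae x0 with hg
  have hg1 : HasStrictFDerivAt g (Ae.symm : R × W →L[ℝ] V) (A x0) := hdA2.to_localInverse
  have hg0 : g (A x0) = x0 := hdA2.localInverse_apply_image
  have hgr : ∀ᶠ y in 𝓝 (A x0), A (g y) = y := hdA2.eventually_right_inverse
  have hwW : w ∈ W := by rw [hW, LinearMap.mem_ker]; exact hw
  set l : ℝ → R × W := fun t => A x0 + t • ((0 : R), (⟨w, hwW⟩ : W)) with hl
  have hl0 : l 0 = A x0 := by simp [hl]
  have hdl : ∀ t, HasDerivAt l ((0 : R), (⟨w, hwW⟩ : W)) t := fun t => by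
    have := ((hasDerivAt_id t).smul_const ((0 : R), (⟨w, hwW⟩ : W))).const_add (A x0)
    rw [one_smul] at this
    exact this
  have hlc : Tendsto l (𝓝 0) (𝓝 (A x0)) := by
    rw [← hl0]; exact (hdl 0).continuousAt
  -- `g` is differentiable near `A x0`
  have hgd : ∀ᶠ y in 𝓝 (A x0), DifferentiableAt ℝ g y := by
    have hAc : ContDiffAt ℝ 1 A x0 :=
      ((R.orthogonalProjectionOnto : F →L[ℝ] R).contDiff.contDiffAt.comp x0 hf).prodMk
        (W.orthogonalProjectionOnto : V →L[ℝ] W).contDiff.contDiffAt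
    have h1 : ContDiffAt ℝ 1 g (A x0) := by
      have := hAc.to_localInverse (f' := Ae) hdA2.hasFDerivAt (by simp)
      exact this
    exact (h1.eventually (by simp)).mono fun y hy => hy.differentiableAt (by simp)
  refine ⟨fun t => g (l t), by simp only [hl0, hg0], ?_, ?_⟩
  · have h1 : HasFDerivAt g (Ae.symm : R × W →L[ℝ] V) (l 0) := by rw [hl0]; exact hg1.hasFDerivAt
    have h2 := h1.comp_hasDerivAt (0 : ℝ) (hdl 0)
    have h3 : Ae w = ((0 : R), (⟨w, hwW⟩ : W)) := by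
      have h4 : Ae w = A' w := rfl
      rw [h4, hA']
      refine Prod.ext ?_ ?_
      · show R.orthogonalProjectionOnto (B w) = 0
        rw [hw, map_zero]
      · exact Submodule.orthogonalProjectionOnto_mem_subspace_eq_self (⟨w, hwW⟩ : W)
    have h4 : (Ae.symm : R × W →L[ℝ] V) ((0 : R), (⟨w, hwW⟩ : W)) = w := by
      rw [← h3]
      exact Ae.symm_apply_apply w
    rw [h4] at h2
    exact h2
  -- `f ∘ g ∘ l` has zero derivative near 0
  · have hev : ∀ᶠ t in 𝓝 (0 : ℝ), DifferentiableAt ℝ f (g (l t)) ∧ DifferentiableAt ℝ g (l t) ∧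
        (∀ᶠ s in 𝓝 t, A (g (l s)) = l s) ∧
        Module.finrank ℝ (LinearMap.ker (fderiv ℝ f (g (l t))).toLinearMap) =
          Module.finrank ℝ W ∧
        Function.Injective ((R.orthogonalProjectionOnto : F →L[ℝ] R).comp (fderiv ℝ f (g (l t)))
          |>.prod (W.orthogonalProjectionOnto : V →L[ℝ] W)) := by
      have hgl : Tendsto (fun t => g (l t)) (𝓝 0) (𝓝 x0) := by
        have := hg1.hasFDerivAt.continuousAt.tendsto.comp hlc
        rwa [hg0] at this
      have e1 : ∀ᶠ x in 𝓝 x0, DifferentiableAt ℝ f x :=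
        (hf.eventually (by simp)).mono fun y hy => hy.differentiableAt (by simp)
      have e2 : ∀ᶠ x in 𝓝 x0, Function.Injective
          ((R.orthogonalProjectionOnto : F →L[ℝ] R).comp (fderiv ℝ f x)
          |>.prod (W.orthogonalProjectionOnto : V →L[ℝ] W)) := by
        have hc : ContinuousAt (fun x => ((R.orthogonalProjectionOnto : F →L[ℝ] R).comp
            (fderiv ℝ f x)).prod (W.orthogonalProjectionOnto : V →L[ℝ] W)) x0 := by
          have h5 : ContinuousAt (fderiv ℝ f) x0 :=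
            (hf.fderiv_right (m := 0) (by simp)).continuousAt
          have h6 : ContinuousAt (fun x => (R.orthogonalProjectionOnto : F →L[ℝ] R).comp
            (fderiv ℝ f x)) x0 := continuousAt_const.clm_comp h5
          have h7 : ContinuousAt (fun x => (ContinuousLinearMap.inl ℝ R W).comp
            ((R.orthogonalProjectionOnto : F →L[ℝ] R).comp (fderiv ℝ f x)) +
            (ContinuousLinearMap.inr ℝ R W).comp (W.orthogonalProjectionOnto : V →L[ℝ] W)) x0 :=
            (continuousAt_const.clm_comp h6).add continuousAt_const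
          refine h7.congr (Eventually.of_forall fun x => ?_)
          ext v <;> simp
        have hopen := ContinuousLinearMap.isOpen_injective (𝕜 := ℝ) (E := V) (F := R × W)
        have h8 : ((R.orthogonalProjectionOnto : F →L[ℝ] R).comp (fderiv ℝ f x0)).prod
            (W.orthogonalProjectionOnto : V →L[ℝ] W) ∈ {L : V →L[ℝ] R × W | Function.Injective L} :=
          hinj
        exact hc.eventually (hopen.mem_nhds h8)
      filter_upwards [hgl.eventually e1, hlc.eventually hgd,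
        (hlc.eventually hgr).eventually_nhds, hgl.eventually hrank, hgl.eventually e2]
        with t h1 h2 h3 h4 h5
      exact ⟨h1, h2, h3, h4, h5⟩
    obtain ⟨ε, hε, hball⟩ := Metric.eventually_nhds_iff_ball.1 hev
    have hderiv : ∀ t ∈ Metric.ball (0 : ℝ) ε, HasDerivAt (fun t => f (g (l t))) 0 t := by
      intro t ht
      obtain ⟨h1, h2, h3, h4, h5⟩ := hball t ht
      have hc : HasDerivAt (fun t => g (l t)) (fderiv ℝ g (l t) ((0 : R), (⟨w, hwW⟩ : W))) t :=
        h2.hasFDerivAt.comp_hasDerivAt t (hdl t)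
      set c' := fderiv ℝ g (l t) ((0 : R), (⟨w, hwW⟩ : W)) with hc'
      have hfc : HasDerivAt (fun t => f (g (l t))) (fderiv ℝ f (g (l t)) c') t :=
        h1.hasFDerivAt.comp_hasDerivAt t hc
      suffices h : fderiv ℝ f (g (l t)) c' = 0 by rwa [h] at hfc
      -- projection of the derivative vanishes
      have h6 : R.orthogonalProjectionOnto (fderiv ℝ f (g (l t)) c') = 0 := by
        have h7 : HasDerivAt (fun t => R.orthogonalProjectionOnto (f (g (l t))))
            (R.orthogonalProjectionOnto (fderiv ℝ f (g (l t)) c')) t :=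
          (R.orthogonalProjectionOnto : F →L[ℝ] R).hasFDerivAt.comp_hasDerivAt t hfc
        have h8 : (fun s => R.orthogonalProjectionOnto (f (g (l s)))) =ᶠ[𝓝 t]
            fun _ => (A x0).1 := by
          filter_upwards [h3] with s hs
          have : (A (g (l s))).1 = (l s).1 := by rw [hs]
          simpa [hl] using this
        have h9 := h7.congr_of_eventuallyEq h8.symm
        exact h9.unique (hasDerivAt_const t _)
      -- dimension count: ker (proj ∘ Df) = ker Df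
      set Bt : V →L[ℝ] F := fderiv ℝ f (g (l t)) with hBt
      set Ct : V →L[ℝ] R := (R.orthogonalProjectionOnto : F →L[ℝ] R).comp Bt with hCt
      have hle : LinearMap.ker Bt.toLinearMap ≤ LinearMap.ker Ct.toLinearMap := by
        intro x hx
        rw [LinearMap.mem_ker] at hx ⊢
        show R.orthogonalProjectionOnto (Bt x) = 0
        have : Bt x = 0 := hx
        rw [this, map_zero]
      have hfin : Module.finrank ℝ (LinearMap.ker Ct.toLinearMap) ≤ Module.finrank ℝ W := by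
        -- `W.proj` is injective on `ker Ct`
        let φ : LinearMap.ker Ct.toLinearMap →ₗ[ℝ] W :=
          ((W.orthogonalProjectionOnto : V →L[ℝ] W).toLinearMap).comp (Submodule.subtype _)
        have hφ : Function.Injective φ := by
          rw [← LinearMap.ker_eq_bot, LinearMap.ker_eq_bot']
          rintro ⟨x, hx⟩ hx2
          have hx3 : Ct x = 0 := hx
          have hx4 : W.orthogonalProjectionOnto x = 0 := hx2
          have : x = 0 := by
            apply h5
            rw [map_zero]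
            exact Prod.ext hx3 hx4
          exact Subtype.ext this
        exact LinearMap.finrank_le_finrank_of_injective hφ
      have heq : LinearMap.ker Bt.toLinearMap = LinearMap.ker Ct.toLinearMap :=
        Submodule.eq_of_le_of_finrank_le hle (by rw [h4]; exact hfin)
      have : c' ∈ LinearMap.ker Ct.toLinearMap := h6
      rw [← heq] at this
      exact this
    have hconst : ∀ t ∈ Metric.ball (0 : ℝ) ε, f (g (l t)) = f (g (l 0)) := by
      intro t ht
      have := Convex.norm_image_sub_le_of_norm_hasDerivWithin_le (𝕜 := ℝ)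
        (s := Metric.ball (0 : ℝ) ε) (f := fun t => f (g (l t))) (f' := fun _ => 0) (C := 0)
        (fun x hx => (hderiv x hx).hasDerivWithinAt) (fun x _ => by simp)
        (convex_ball _ _) (Metric.mem_ball_self hε) ht
      rw [zero_mul] at this
      exact sub_eq_zero.1 (norm_le_zero_iff.1 this)
    filter_upwards [Metric.ball_mem_nhds (0 : ℝ) hε] with t ht
    rw [hconst t ht, hl0, hg0]

end Crest.Agent.R208.K
end
end

-- ▼ part R208/K5

/-!
R208 (Blaschke), block G5, file K5: kernels of `dExp` at distance `D`, the link of a direction in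
`U1`, and the closing argument: every link is the unit sphere of a linear subspace of constant
dimension.  The only hypothesis not proved here is `MultConst`.
-/

set_option autoImplicit false

open Set Filter Topology
open scoped ContDiff RealInnerProductSpace
open Crest.GeometryTopology.Submanifold
open Crest.Agent.R241.DDefs
open Crest.Agent.R241.D2
open Crest.Agent.R241.D3b
open Crest.Agent.R241.D3c

noncomputable section

namespace Crest.Agent.R208.K

variable {n N : ℕ} {κ : ℝ} {S : Set (Euc N)} {G : Geo n N κ S} {D : ℝ}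

/-- tangent vectors in the kernel of `dExp` at `D v`. -/
def Mk (G : Geo n N κ S) (D : ℝ) (z : Euc N × Euc N) : Submodule ℝ (Euc N) :=
  G.T z.1 ⊓ LinearMap.ker (fderiv ℝ (Exp G z.1) (D • z.2)).toLinearMap

/-- multiplicity of the conjugate point at time `D`. -/
def mult (G : Geo n N κ S) (D : ℝ) (z : Euc N × Euc N) : ℕ := Module.finrank ℝ (Mk G D z)

/-- directions all of whose (normal) Jacobi fields vanishing at `0` vanish at `2D`. -/
def Zs (G : Geo n N κ S) (D : ℝ) : Set (Euc N × Euc N) :=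
  {z | z ∈ US G ∧ ∀ b ∈ G.T z.1, ⟪b, z.2⟫ = 0 →
    fderiv ℝ (Exp G z.1) ((2 * D) • z.2) b = 0}

/-- local constancy of the multiplicity on `Zs`. -/
def MultConst (G : Geo n N κ S) (D : ℝ) : Prop :=
  ∀ z0 ∈ Zs G D, ∀ᶠ z in 𝓝[Zs G D] z0, mult G D z = mult G D z0

lemma mem_Mk {z : Euc N × Euc N} {b : Euc N} :
    b ∈ Mk G D z ↔ b ∈ G.T z.1 ∧ fderiv ℝ (Exp G z.1) (D • z.2) b = 0 := Iff.rfl

/-- derivative of the normalised line -/
lemma hasDerivAt_normalize {E : Type*} [NormedAddCommGroup E] [InnerProductSpace ℝ E] {v w : E}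
    (hv : ‖v‖ = 1) : HasDerivAt (fun t : ℝ => (‖v + t • w‖⁻¹ : ℝ) • (v + t • w))
      (w - ⟪v, w⟫ • v) 0 := by
  have h1 : HasDerivAt (fun t : ℝ => v + t • w) w 0 := by
    simpa using ((hasDerivAt_id (0 : ℝ)).smul_const w).const_add v
  have h2 : HasDerivAt (fun t : ℝ => ‖v + t • w‖ ^ 2) (2 * ⟪v + (0:ℝ) • w, w⟫) 0 := h1.norm_sq
  have h3 : HasDerivAt (fun t : ℝ => ‖v + t • w‖) ⟪v, w⟫ 0 := by
    have h4 := h2.sqrt (by simp [hv])
    have h5 : (fun t : ℝ => √(‖v + t • w‖ ^ 2)) = fun t : ℝ => ‖v + t • w‖ := by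
      ext t; exact Real.sqrt_sq (norm_nonneg _)
    rw [h5] at h4
    convert h4 using 1
    simp [hv]
  have h6 := (h3.inv (by simp [hv])).smul h1
  have h7 : (fun t : ℝ => (‖v + t • w‖⁻¹ : ℝ) • (v + t • w)) =
      (fun t : ℝ => ‖v + t • w‖)⁻¹ • fun t : ℝ => v + t • w := rfl
  rw [h7]
  refine h6.congr_deriv ?_
  simp only [zero_smul, add_zero, hv, inv_one, one_smul, one_pow, div_one, Pi.inv_apply]
  rw [neg_smul, sub_eq_add_neg]

lemma normalize_mem {p v w : Euc N} (hv : v ∈ G.T p) (hw : w ∈ G.T p) (t : ℝ) :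
    (‖v + t • w‖⁻¹ : ℝ) • (v + t • w) ∈ G.T p :=
  (G.T p).smul_mem _ ((G.T p).add_mem hv ((G.T p).smul_mem t hw))

lemma norm_normalize {E : Type*} [NormedAddCommGroup E] [InnerProductSpace ℝ E] {x : E}
    (hx : x ≠ 0) : ‖(‖x‖⁻¹ : ℝ) • x‖ = 1 := by
  rw [norm_smul, norm_inv, norm_norm, inv_mul_cancel₀ (norm_ne_zero_iff.2 hx)]

/-- derivative of `Exp (r c(t))`, `c` the normalised line. -/
lemma hasDerivAt_Exp_normalize {p v w : Euc N} (hp : p ∈ S) (hv : v ∈ G.T p) (hvn : ‖v‖ = 1)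
    (r : ℝ) : HasDerivAt (fun t : ℝ => Exp G p (r • ((‖v + t • w‖⁻¹ : ℝ) • (v + t • w))))
      (fderiv ℝ (Exp G p) (r • v) (r • (w - ⟪v, w⟫ • v))) 0 := by
  have h1 := (hasDerivAt_normalize (w := w) hvn).const_smul r
  have h0 : r • ((‖v + (0:ℝ) • w‖⁻¹ : ℝ) • (v + (0:ℝ) • w)) = r • v := by
    simp [hvn]
  have h2 : HasFDerivAt (Exp G p) (fderiv ℝ (Exp G p) (r • v))
      (r • ((‖v + (0:ℝ) • w‖⁻¹ : ℝ) • (v + (0:ℝ) • w))) := by
    rw [h0]
    exact ((contDiffAt_Exp' G hp ((G.T p).smul_mem r hv)).differentiableAt (by simp)).hasFDerivAt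
  exact h2.comp_hasDerivAt (0 : ℝ) h1

lemma eventually_ne_zero {v w : Euc N} (hvn : ‖v‖ = 1) :
    ∀ᶠ t in 𝓝 (0 : ℝ), v + t • w ≠ 0 := by
  have h1 : ContinuousAt (fun t : ℝ => v + t • w) 0 := by fun_prop
  have h2 : v + (0 : ℝ) • w ≠ 0 := by
    rw [zero_smul, add_zero]; intro h; rw [h, norm_zero] at hvn; norm_num at hvn
  exact h1.eventually_ne h2

lemma inner_of_Mk {z : Euc N × Euc N} (hz : z ∈ US G) (hD : 0 < D) {b : Euc N}
    (hb : b ∈ Mk G D z) : ⟪z.2, b⟫ = 0 := by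
  have h1 := gauss G hz.1.1 ((G.T z.1).smul_mem D hz.1.2) (w := b) hb.1
  have h2 : fderiv ℝ (Exp G z.1) (D • z.2) b = 0 := hb.2
  rw [h2, inner_zero_left, inner_smul_left] at h1
  simp only [conj_trivial] at h1
  rcases mul_eq_zero.1 h1.symm with h | h
  · exact absurd h hD.ne'
  · exact h

namespace Hyp

/-- one-sided differentiation along the (spherically convex) link. -/
lemma sub_mem_Mk (H : Hyp G D) {p q v w : Euc N} (hp : p ∈ S) (hq : q ∈ S)
    (hv : v ∈ Lk G D p q) (hw : w ∈ Lk G D p q) : w - ⟪v, w⟫ • v ∈ Mk G D (p, v) := by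
  have hpq := H.dist_of_lk hp hv
  have hst : Star (G.T p) (Lk G D p q) := H.star hq hp (by rw [H.sym _ hq _ hp]; exact hpq)
  refine ⟨(G.T p).sub_mem hw.1 ((G.T p).smul_mem _ hv.1), ?_⟩
  have h1 := hasDerivAt_Exp_normalize (G := G) (w := w) hp hv.1 hv.2.1 D
  have h2 : (fun t : ℝ => Exp G p (D • ((‖v + t • w‖⁻¹ : ℝ) • (v + t • w)))) =ᶠ[𝓝[Ici 0] 0]
      fun _ => q := by
    filter_upwards [nhdsWithin_le_nhds (eventually_ne_zero (w := w) hv.2.1),
      self_mem_nhdsWithin] with t ht ht0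
    have h3 : (‖v + t • w‖⁻¹ : ℝ) • (v + t • w) ∈ Lk G D p q := by
      have := hst.conv hv hw (zero_le_one) (mem_Ici.1 ht0) (by rwa [one_smul])
      rwa [one_smul] at this
    rw [Exp_smul G hp h3.1]
    exact h3.2.2
  have h4 : HasDerivWithinAt (fun _ : ℝ => q)
      (fderiv ℝ (Exp G p) (D • v) (D • (w - ⟪v, w⟫ • v))) (Ici 0) 0 := by
    refine (h1.hasDerivWithinAt (s := Ici 0)).congr_of_eventuallyEq h2.symm ?_
    have := h2.self_of_nhdsWithin (mem_Ici.2 le_rfl)
    exact this.symm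
  have h5 := (uniqueDiffWithinAt_Ici (0:ℝ)).eq_deriv _ h4
    ((hasDerivAt_const (0:ℝ) q).hasDerivWithinAt)
  rw [map_smul] at h5
  show fderiv ℝ (Exp G p) (D • v) (w - ⟪v, w⟫ • v) = 0
  rcases smul_eq_zero.1 h5 with h | h
  · exact absurd h H.hD.ne'
  · exact h

/-- orthonormal vectors of a link bound the multiplicity from below. -/
lemma card_le_mult (H : Hyp G D) {p q v : Euc N} (hp : p ∈ S) (hq : q ∈ S)
    (hv : v ∈ Lk G D p q) {m : ℕ} {e : Fin m → Euc N} (he : Orthonormal ℝ e)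
    (hL : ∀ i, e i ∈ Lk G D p q) : m ≤ mult G D (p, v) + 1 := by
  set W : Submodule ℝ (Euc N) := Submodule.span ℝ (range e) with hW
  have hfin : Module.finrank ℝ W = m := by
    rw [hW, finrank_span_eq_card he.linearIndependent, Fintype.card_fin]
  let L : Euc N →ₗ[ℝ] Euc N := LinearMap.id - (innerₛₗ ℝ v).smulRight v
  have hLx : ∀ x, L x = x - ⟪v, x⟫ • v := fun x => rfl
  have hmem : ∀ x ∈ W, L x ∈ Mk G D (p, v) := by
    intro x hx
    have : W ≤ (Mk G D (p, v)).comap L := by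
      rw [hW, Submodule.span_le]
      rintro _ ⟨i, rfl⟩
      exact H.sub_mem_Mk hp hq hv (hL i)
    exact this hx
  let φ : W →ₗ[ℝ] Mk G D (p, v) := (L.comp W.subtype).codRestrict _ fun x => hmem x x.2
  have h1 := LinearMap.finrank_range_add_finrank_ker φ
  have h2 : Module.finrank ℝ (LinearMap.range φ) ≤ mult G D (p, v) :=
    Submodule.finrank_le _
  have h3 : Module.finrank ℝ (LinearMap.ker φ) ≤ 1 := by
    -- the kernel embeds into `ℝ v`
    let ψ : LinearMap.ker φ →ₗ[ℝ] ℝ :=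
      ((innerₛₗ ℝ v).comp W.subtype).comp (Submodule.subtype _)
    have hψ : Function.Injective ψ := by
      rw [← LinearMap.ker_eq_bot, LinearMap.ker_eq_bot']
      rintro ⟨⟨x, hx⟩, hx1⟩ hx2
      have h4 : x - ⟪v, x⟫ • v = 0 := congrArg Subtype.val hx1
      have h5 : ⟪v, x⟫ = 0 := hx2
      rw [h5, zero_smul, sub_zero] at h4
      exact Subtype.ext (Subtype.ext h4)
    have := LinearMap.finrank_le_finrank_of_injective hψ
    rwa [Module.finrank_self] at this
  omega

/-- `U1 ⊆ Zs`. -/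
lemma U1_sub_Zs (H : Hyp G D) {k : ℕ}
    (hmin : ∀ z ∈ US G, k ≤ Module.finrank ℝ (lin (G.T z.1) (Lk G D z.1 (ep G D z))))
    {z : Euc N × Euc N} (hz : z ∈ U1 G D k) : z ∈ Zs G D := by
  refine ⟨hz.1, fun b hb hb0 => ?_⟩
  obtain ⟨p, v⟩ := z
  have hp : p ∈ S := hz.1.1.1
  have hv : v ∈ G.T p := hz.1.1.2
  have hvn : ‖v‖ = 1 := hz.1.2
  simp only at hb hb0 ⊢
  have h1 := hasDerivAt_Exp_normalize (G := G) (w := b) hp hv hvn (2 * D)
  have hU : ∀ᶠ t in 𝓝 (0 : ℝ),
      ((p, (‖v + t • b‖⁻¹ : ℝ) • (v + t • b)) : Euc N × Euc N) ∈ U1 G D k := by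
    have h2 : Tendsto (fun t : ℝ => ((p, (‖v + t • b‖⁻¹ : ℝ) • (v + t • b)) : Euc N × Euc N))
        (𝓝 0) (𝓝 (p, v)) := by
      have h3 := (hasDerivAt_normalize (w := b) hvn).continuousAt.tendsto
      simp only [zero_smul, add_zero, hvn, inv_one, one_smul] at h3
      exact tendsto_const_nhds.prodMk_nhds h3
    have h4 : ∀ᶠ t in 𝓝 (0 : ℝ),
        ((p, (‖v + t • b‖⁻¹ : ℝ) • (v + t • b)) : Euc N × Euc N) ∈ US G := by
      filter_upwards [eventually_ne_zero (w := b) hvn] with t ht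
      exact ⟨⟨hp, normalize_mem hv hb t⟩, norm_normalize ht⟩
    exact (tendsto_nhdsWithin_iff.2 ⟨h2, h4⟩).eventually (H.U1_open hz)
  have h5 : (fun t : ℝ => Exp G p ((2 * D) • ((‖v + t • b‖⁻¹ : ℝ) • (v + t • b)))) =ᶠ[𝓝 0]
      fun _ => p := by
    filter_upwards [hU] with t ht
    have h6 := H.periodic_of_U1 hmin ht
    rw [Exp_smul G hp ht.1.1.2, h6]
  have h7 := (h1.congr_of_eventuallyEq h5.symm).unique (hasDerivAt_const (0:ℝ) p)
  have hb0' : ⟪v, b⟫ = 0 := by rw [real_inner_comm]; exact hb0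
  rw [hb0', zero_smul, sub_zero, map_smul] at h7
  rcases smul_eq_zero.1 h7 with h | h
  · exact absurd h (by have := H.hD; positivity)
  · exact h

end Hyp

/-- the degree zero extension of `v ↦ Exp (D v)`, on the tangent space. -/
def hom0 (G : Geo n N κ S) (D : ℝ) (p : Euc N) (x : G.T p) : Euc N :=
  Exp G p (D • ((‖(x : Euc N)‖⁻¹ : ℝ) • (x : Euc N)))

lemma contDiffAt_hom0 {p : Euc N} (hp : p ∈ S) {x : G.T p} (hx : x ≠ 0) :
    ContDiffAt ℝ 1 (hom0 G D p) x := by
  have hx' : (x : Euc N) ≠ 0 := fun h => hx (Subtype.ext h)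
  have h1 : ContDiffAt ℝ 1 (fun y : G.T p => (y : Euc N)) x :=
    (G.T p).subtypeL.contDiff.contDiffAt
  have h2 : ContDiffAt ℝ 1 (fun y : G.T p => ‖(y : Euc N)‖) x := h1.norm ℝ hx'
  have h3 : ContDiffAt ℝ 1 (fun y : G.T p => (‖(y : Euc N)‖⁻¹ : ℝ)) x :=
    h2.inv (norm_ne_zero_iff.2 hx')
  have h4 : ContDiffAt ℝ 1 (fun y : G.T p => D • ((‖(y : Euc N)‖⁻¹ : ℝ) • (y : Euc N))) x :=
    (h3.smul h1).const_smul D
  have h5 : ContDiffAt ℝ 1 (Exp G p) (D • ((‖(x : Euc N)‖⁻¹ : ℝ) • (x : Euc N))) :=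
    (contDiffAt_Exp' G hp ((G.T p).smul_mem _ ((G.T p).smul_mem _ x.2))).of_le (by simp)
  exact h5.comp x h4

/-- kernel of the derivative of the degree zero extension. -/
lemma fderiv_hom0 {p : Euc N} (hp : p ∈ S) {x : G.T p} (hx : x ≠ 0) (b : G.T p) :
    fderiv ℝ (hom0 G D p) x b = fderiv ℝ (Exp G p) (D • ((‖(x : Euc N)‖⁻¹ : ℝ) • (x : Euc N)))
      ((D * (‖(x : Euc N)‖⁻¹ : ℝ)) • ((b : Euc N) - ⟪(‖(x : Euc N)‖⁻¹ : ℝ) • (x : Euc N),
        (b : Euc N)⟫ • ((‖(x : Euc N)‖⁻¹ : ℝ) • (x : Euc N)))) := by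
  have hx' : (x : Euc N) ≠ 0 := fun h => hx (Subtype.ext h)
  set r : ℝ := ‖(x : Euc N)‖ with hr
  have hr0 : 0 < r := norm_pos_iff.2 hx'
  set u : Euc N := (r⁻¹ : ℝ) • (x : Euc N) with hu
  have hun : ‖u‖ = 1 := norm_normalize hx'
  have huT : u ∈ G.T p := (G.T p).smul_mem _ x.2
  -- both sides are the derivative of `t ↦ hom0 (x + t b)` at `0`
  have h1 : HasDerivAt (fun t : ℝ => hom0 G D p (x + t • b)) (fderiv ℝ (hom0 G D p) x b) 0 := by
    have h2 : HasDerivAt (fun t : ℝ => x + t • b) b 0 := by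
      simpa using ((hasDerivAt_id (0 : ℝ)).smul_const b).const_add x
    have h3 : HasFDerivAt (hom0 G D p) (fderiv ℝ (hom0 G D p) x) (x + (0:ℝ) • b) := by
      rw [zero_smul, add_zero]
      exact ((contDiffAt_hom0 hp hx).differentiableAt (by simp)).hasFDerivAt
    exact h3.comp_hasDerivAt (0:ℝ) h2
  have h4 := hasDerivAt_Exp_normalize (G := G) (w := (r⁻¹ : ℝ) • (b : Euc N)) hp huT hun D
  have h5 : (fun t : ℝ => hom0 G D p (x + t • b)) = fun t : ℝ =>
      Exp G p (D • ((‖u + t • ((r⁻¹ : ℝ) • (b : Euc N))‖⁻¹ : ℝ) •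
        (u + t • ((r⁻¹ : ℝ) • (b : Euc N))))) := by
    ext1 t
    have h6 : u + t • ((r⁻¹ : ℝ) • (b : Euc N)) = (r⁻¹ : ℝ) • ((x + t • b : G.T p) : Euc N) := by
      rw [hu]
      push_cast
      rw [smul_add, smul_comm t]
    rw [h6, hom0, norm_smul, norm_inv, Real.norm_of_nonneg hr0.le]
    congr 1
    congr 1
    rw [smul_smul, mul_inv, inv_inv, mul_comm r, mul_assoc, mul_inv_cancel₀ hr0.ne', mul_one]
  rw [h5] at h1
  rw [h1.unique h4]
  congr 1
  rw [inner_smul_right, mul_smul, ← smul_smul, smul_sub, smul_sub, smul_sub]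

lemma finrank_ker_hom0 {p : Euc N} (hp : p ∈ S) (hD : 0 < D) {x : G.T p} (hx : x ≠ 0) :
    Module.finrank ℝ (LinearMap.ker (fderiv ℝ (hom0 G D p) x).toLinearMap) =
      mult G D (p, (‖(x : Euc N)‖⁻¹ : ℝ) • (x : Euc N)) + 1 := by
  have hx' : (x : Euc N) ≠ 0 := fun h => hx (Subtype.ext h)
  set u : Euc N := (‖(x : Euc N)‖⁻¹ : ℝ) • (x : Euc N) with hu
  have hun : ‖u‖ = 1 := norm_normalize hx'
  have huT : u ∈ G.T p := (G.T p).smul_mem _ x.2
  have hU : ((p, u) : Euc N × Euc N) ∈ US G := ⟨⟨hp, huT⟩, hun⟩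
  have hker : ∀ b : G.T p, b ∈ LinearMap.ker (fderiv ℝ (hom0 G D p) x).toLinearMap ↔
      (b : Euc N) - ⟪u, (b : Euc N)⟫ • u ∈ Mk G D (p, u) := by
    intro b
    rw [LinearMap.mem_ker, ContinuousLinearMap.coe_coe, fderiv_hom0 hp hx b, ← hu, map_smul,
      smul_eq_zero, mem_Mk]
    have : D * ‖(x : Euc N)‖⁻¹ ≠ 0 := mul_ne_zero hD.ne' (inv_ne_zero (norm_ne_zero_iff.2 hx'))
    constructor
    · rintro (h | h)
      · exact absurd h this
      · exact ⟨(G.T p).sub_mem b.2 ((G.T p).smul_mem _ huT), h⟩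
    · exact fun h => Or.inr h.2
  -- linear equivalence with `Mk × ℝ`
  have huu : ⟪u, u⟫ = 1 := by rw [real_inner_self_eq_norm_sq, hun]; norm_num
  let φ : (Mk G D (p, u)) × ℝ →ₗ[ℝ] LinearMap.ker (fderiv ℝ (hom0 G D p) x).toLinearMap :=
    { toFun := fun m => ⟨⟨(m.1 : Euc N) + m.2 • u,
          (G.T p).add_mem m.1.2.1 ((G.T p).smul_mem _ huT)⟩, by
        rw [hker]
        simp only
        rw [inner_add_right, inner_smul_right, inner_of_Mk hU hD m.1.2, huu, zero_add, mul_one,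
          add_sub_cancel_right]
        exact m.1.2⟩
      map_add' := fun a b => by
        apply Subtype.ext; apply Subtype.ext
        simp only [Prod.fst_add, Prod.snd_add, Submodule.coe_add, add_smul]
        abel
      map_smul' := fun c a => by
        apply Subtype.ext; apply Subtype.ext
        simp only [Prod.smul_fst, Prod.smul_snd, Submodule.coe_smul, smul_eq_mul, mul_smul,
          RingHom.id_apply, smul_add] }
  have hφ : Function.Bijective φ := by
    constructor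
    · rw [← LinearMap.ker_eq_bot, LinearMap.ker_eq_bot']
      rintro ⟨m, t⟩ h
      have h1 : (m : Euc N) + t • u = 0 :=
        congrArg (fun y : LinearMap.ker (fderiv ℝ (hom0 G D p) x).toLinearMap =>
          ((y : G.T p) : Euc N)) h
      have h2 : t = 0 := by
        have := congrArg (fun y => ⟪u, y⟫) h1
        simp only [inner_add_right, inner_smul_right, inner_of_Mk hU hD m.2, huu, zero_add,
          mul_one, inner_zero_right] at this
        exact this
      rw [h2, zero_smul, add_zero] at h1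
      exact Prod.ext (Subtype.ext h1) h2
    · rintro ⟨b, hb⟩
      refine ⟨(⟨(b : Euc N) - ⟪u, (b : Euc N)⟫ • u, (hker b).1 hb⟩, ⟪u, (b : Euc N)⟫), ?_⟩
      apply Subtype.ext; apply Subtype.ext
      show (b : Euc N) - ⟪u, (b : Euc N)⟫ • u + ⟪u, (b : Euc N)⟫ • u = b
      abel
  have h1 := (LinearEquiv.ofBijective φ hφ).finrank_eq
  rw [← h1, Module.finrank_prod, Module.finrank_self]
  rfl

namespace Hyp

/-- in `U1` the kernel is contained in the linear link. -/
lemma Mk_le (H : Hyp G D) (hmc : MultConst G D) {k : ℕ}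
    (hmin : ∀ z ∈ US G, k ≤ Module.finrank ℝ (lin (G.T z.1) (Lk G D z.1 (ep G D z))))
    {z : Euc N × Euc N} (hz : z ∈ U1 G D k) :
    Mk G D z ≤ lin (G.T z.1) (Lk G D z.1 (ep G D z)) := by
  intro b hb
  obtain ⟨p, v⟩ := z
  have hp : p ∈ S := hz.1.1.1
  have hv : v ∈ G.T p := hz.1.1.2
  have hvn : ‖v‖ = 1 := hz.1.2
  have hbT : b ∈ G.T p := hb.1
  set q := ep G D (p, v) with hq
  set V := lin (G.T p) (Lk G D p q) with hV
  have hlin := (H.linear_of_U1 hmin hz).2
  have hv0 : v ≠ 0 := by intro h; rw [h, norm_zero] at hvn; norm_num at hvn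
  set x0 : G.T p := ⟨v, hv⟩ with hx0
  have hx00 : x0 ≠ 0 := fun h => hv0 (congrArg Subtype.val h)
  -- constant rank near `x0`
  have hZ := H.U1_sub_Zs hmin hz
  have hcont : Tendsto (fun x : G.T p => ((p, (‖(x : Euc N)‖⁻¹ : ℝ) • (x : Euc N)) :
      Euc N × Euc N)) (𝓝 x0) (𝓝[US G] (p, v)) := by
    refine tendsto_nhdsWithin_iff.2 ⟨?_, ?_⟩
    · have h1 : ContinuousAt (fun x : G.T p => (‖(x : Euc N)‖⁻¹ : ℝ) • (x : Euc N)) x0 :=
        ((continuous_subtype_val.norm.continuousAt).inv₀ (by simp [hx0, hvn])).smul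
          continuous_subtype_val.continuousAt
      have h2 : (‖(x0 : Euc N)‖⁻¹ : ℝ) • (x0 : Euc N) = v := by simp [hx0, hvn]
      have h3 := h1.tendsto
      rw [h2] at h3
      exact tendsto_const_nhds.prodMk_nhds h3
    · have h1 : ∀ᶠ x in 𝓝 x0, x ≠ 0 := continuousAt_id.eventually_ne hx00
      filter_upwards [h1] with x hx
      exact ⟨⟨hp, (G.T p).smul_mem _ x.2⟩,
        norm_normalize fun h => hx (Subtype.ext h)⟩
  have hU := hcont.eventually (H.U1_open hz)
  have hrank : ∀ᶠ x in 𝓝 x0,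
      Module.finrank ℝ (LinearMap.ker (fderiv ℝ (hom0 G D p) x).toLinearMap) =
      Module.finrank ℝ (LinearMap.ker (fderiv ℝ (hom0 G D p) x0).toLinearMap) := by
    have h1 : ∀ᶠ x in 𝓝 x0, x ≠ 0 := continuousAt_id.eventually_ne hx00
    have h2 : Tendsto (fun x : G.T p => ((p, (‖(x : Euc N)‖⁻¹ : ℝ) • (x : Euc N)) :
        Euc N × Euc N)) (𝓝 x0) (𝓝[Zs G D] (p, v)) :=
      tendsto_nhdsWithin_iff.2 ⟨(tendsto_nhdsWithin_iff.1 hcont).1,
        hU.mono fun x hx => H.U1_sub_Zs hmin hx⟩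
    filter_upwards [h1, h2.eventually (hmc _ hZ)] with x hx hx2
    rw [finrank_ker_hom0 hp H.hD hx, finrank_ker_hom0 hp H.hD hx00, hx2]
    simp [hx0, hvn]
  have hbker : fderiv ℝ (hom0 G D p) x0 ⟨b, hbT⟩ = 0 := by
    rw [fderiv_hom0 hp hx00]
    have h1 : (‖(x0 : Euc N)‖⁻¹ : ℝ) • (x0 : Euc N) = v := by simp [hx0, hvn]
    have h2 := inner_of_Mk hz.1 H.hD hb
    simp only at h2
    rw [h1]
    simp only
    rw [h2, zero_smul, sub_zero, map_smul]
    have h3 : fderiv ℝ (Exp G p) (D • v) b = 0 := hb.2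
    rw [h3, smul_zero]
  obtain ⟨c, hc0, hcd, hcf⟩ := fibre_curve (contDiffAt_hom0 hp hx00) hrank hbker
  -- the curve stays in `V`
  have hval : hom0 G D p x0 = q := by
    rw [hom0]
    have h1 : (‖(x0 : Euc N)‖⁻¹ : ℝ) • (x0 : Euc N) = v := by simp [hx0, hvn]
    rw [h1, Exp_smul G hp hv]
    rfl
  have hcV : ∀ᶠ t in 𝓝 (0 : ℝ), ((c t : G.T p) : Euc N) ∈ V := by
    have h1 : ∀ᶠ t in 𝓝 (0 : ℝ), c t ≠ 0 := by
      have := hcd.continuousAt
      exact this.eventually_ne (by rw [hc0]; exact hx00)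
    filter_upwards [h1, hcf] with t ht1 ht2
    have ht1' : ((c t : G.T p) : Euc N) ≠ 0 := fun h => ht1 (Subtype.ext h)
    rw [hval, hom0, Exp_smul G hp ((G.T p).smul_mem _ (c t).2)] at ht2
    have h2 : (‖((c t : G.T p) : Euc N)‖⁻¹ : ℝ) • ((c t : G.T p) : Euc N) ∈ Lk G D p q :=
      ⟨(G.T p).smul_mem _ (c t).2, norm_normalize ht1', ht2⟩
    have h3 := ((hlin _).1 h2).1
    have h4 := V.smul_mem ‖((c t : G.T p) : Euc N)‖ h3
    rwa [smul_smul, mul_inv_cancel₀ (norm_ne_zero_iff.2 ht1'), one_smul] at h4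
  have hcd' : HasDerivAt (fun t => ((c t : G.T p) : Euc N)) b 0 :=
    (G.T p).subtypeL.hasFDerivAt.comp_hasDerivAt (0:ℝ) hcd
  -- derivative of a curve in a closed subspace
  have h5 : HasDerivAt (fun t => V.starProjection ((c t : G.T p) : Euc N))
      (V.starProjection b) 0 := V.starProjection.hasFDerivAt.comp_hasDerivAt (0:ℝ) hcd'
  have h6 : (fun t => V.starProjection ((c t : G.T p) : Euc N)) =ᶠ[𝓝 0]
      fun t => ((c t : G.T p) : Euc N) := by
    filter_upwards [hcV] with t ht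
    exact Submodule.starProjection_eq_self_iff.2 ht
  have h7 := (h5.congr_of_eventuallyEq h6.symm).unique hcd'
  exact Submodule.starProjection_eq_self_iff.1 h7

/-- the multiplicity on `U1`. -/
lemma mult_U1 (H : Hyp G D) (hmc : MultConst G D) {k : ℕ}
    (hmin : ∀ z ∈ US G, k ≤ Module.finrank ℝ (lin (G.T z.1) (Lk G D z.1 (ep G D z))))
    {z : Euc N × Euc N} (hz : z ∈ U1 G D k) : mult G D z + 1 = k := by
  obtain ⟨h1, h2⟩ := H.linear_of_U1 hmin hz
  have hle := H.Mk_le hmc hmin hz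
  set V := lin (G.T z.1) (Lk G D z.1 (ep G D z)) with hV
  have hzV : z.2 ∈ V := ((h2 z.2).1 (mem_lk_self hz.1)).1
  refine le_antisymm ?_ ?_
  · -- `Mk ⊔ ℝ v ≤ V`, disjoint
    have hz0 : z.2 ≠ 0 := by
      intro h; have := hz.1.2; rw [h, norm_zero] at this; norm_num at this
    have h3 : Mk G D z ⊓ Submodule.span ℝ {z.2} = ⊥ := by
      rw [Submodule.eq_bot_iff]
      rintro x ⟨hx1, hx2⟩
      obtain ⟨a, rfl⟩ := Submodule.mem_span_singleton.1 hx2
      have := inner_of_Mk hz.1 H.hD hx1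
      rw [inner_smul_right, real_inner_self_eq_norm_sq, hz.1.2] at this
      have ha : a = 0 := by simpa using this
      rw [ha, zero_smul]
    have h4 := Submodule.finrank_sup_add_finrank_inf_eq (Mk G D z) (Submodule.span ℝ {z.2})
    rw [h3, finrank_bot, add_zero, finrank_span_singleton hz0] at h4
    have h5 : Mk G D z ⊔ Submodule.span ℝ {z.2} ≤ V := by
      refine sup_le hle ?_
      rw [Submodule.span_singleton_le_iff_mem]
      exact hzV
    have h6 := Submodule.finrank_mono h5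
    rw [h4, h1] at h6
    exact h6
  · -- orthonormal basis of `V`
    set b := stdOrthonormalBasis ℝ V with hb
    have hbo : Orthonormal ℝ (fun i => (b i : Euc N)) :=
      b.orthonormal.comp_linearIsometry V.subtypeₗᵢ
    have hbK : ∀ i, (b i : Euc N) ∈ Lk G D z.1 (ep G D z) := fun i =>
      (h2 _).2 ⟨(b i).2, by rw [← Submodule.coe_norm]; exact b.orthonormal.1 i⟩
    have := H.card_le_mult hz.1.1.1 (ep_mem hz.1) (mem_lk_self hz.1) hbo hbK
    rw [h1] at this
    exact this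

end Hyp

end Crest.Agent.R208.K
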