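import Mathlib
import Crest.Agent.R208.J5
import Crest.Agent.R208.K5

-- ▼ part R208/IC1
section

/-!
R208, block G5 / (6): crossing lemma.  A continuous family `Q z t` of symmetric operators,
nondegenerate for `t ≠ D`, with negative definite `t`-derivative at `(z0, D)`, has locally
constant nullity at `t = D`.
-/

set_option autoImplicit false
set_option linter.unusedSectionVars false

open Set Filter Topology
open scoped RealInnerProductSpace

noncomputable section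

namespace Crest.Agent.R208.IC

variable {E : Type*} [NormedAddCommGroup E] [InnerProductSpace ℝ E] [FiniteDimensional ℝ E]

/-- Negative semidefinite symmetric forms: null vectors are in the kernel. -/
theorem null_of_nonpos {K0 : Submodule ℝ E} {A : E →L[ℝ] E} (hs : ∀ x y, ⟪A x, y⟫ = ⟪x, A y⟫)
    (hK : ∀ x ∈ K0, A x ∈ K0) (hn : ∀ x ∈ K0, ⟪A x, x⟫ ≤ 0) {x : E} (hx : x ∈ K0)
    (h0 : ⟪A x, x⟫ = 0) : A x = 0 := by
  by_contra hne
  set y := A x with hy
  have hyK : y ∈ K0 := hK x hx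
  have hpos : 0 < ⟪y, y⟫ := by
    rw [real_inner_self_eq_norm_sq]
    have := norm_pos_iff.2 hne
    positivity
  have key : ∀ s : ℝ, 2 * s * ⟪y, y⟫ + s ^ 2 * ⟪A y, y⟫ ≤ 0 := by
    intro s
    have h1 := hn (x + s • y) (K0.add_mem hx (K0.smul_mem _ hyK))
    have h2 : ⟪A (x + s • y), x + s • y⟫ = ⟪A x, x⟫ + 2 * s * ⟪y, y⟫ + s ^ 2 * ⟪A y, y⟫ := by
      rw [map_add, map_smul, inner_add_left, inner_add_right, inner_add_right, inner_smul_left,
        inner_smul_right, inner_smul_left, inner_smul_right, hs y x, ← hy]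
      simp only [conj_trivial]
      ring
    rw [h2, h0] at h1
    linarith
  -- choose small positive s
  set c := |⟪A y, y⟫| with hc
  have hc0 : 0 ≤ c := abs_nonneg _
  set s : ℝ := ⟪y, y⟫ / (c + 1) with hsdef
  have hspos : 0 < s := by positivity
  have h3 := key s
  have h4 : s * c ≤ ⟪y, y⟫ := by
    rw [hsdef, div_mul_eq_mul_div, div_le_iff₀ (by positivity)]
    nlinarith
  have h5 : -c ≤ ⟪A y, y⟫ := neg_abs_le _
  nlinarith [mul_pos hspos hpos, mul_le_mul_of_nonneg_left h4 hspos.le,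
    mul_le_mul_of_nonneg_left h5 (sq_nonneg s)]

/-- one-sided version of the crossing argument -/
theorem half {K0 : Submodule ℝ E} {σ : ℝ → E →L[ℝ] E} {a b : ℝ} (hab : a < b)
    (hc : ContinuousOn σ (Icc a b))
    (hs : ∀ t ∈ Icc a b, ∀ x y, ⟪σ t x, y⟫ = ⟪x, σ t y⟫)
    (hK : ∀ t ∈ Icc a b, ∀ x ∈ K0, σ t x ∈ K0)
    (hinj : ∀ t ∈ Ioc a b, ∀ x ∈ K0, σ t x = 0 → x = 0)
    (hneg : ∀ x ∈ K0, x ≠ 0 → ⟪σ b x, x⟫ < 0) :
    ∀ x ∈ K0, ⟪σ a x, x⟫ ≤ 0 := by
  -- continuity of the form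
  have hform : ∀ x : E, ContinuousOn (fun t => ⟪σ t x, x⟫) (Icc a b) := by
    intro x
    exact (hc.clm_apply continuousOn_const).inner continuousOn_const
  -- limits from the right
  have hlim : ∀ τ ∈ Ico a b, (∀ t ∈ Ioc τ b, ∀ x ∈ K0, x ≠ 0 → ⟪σ t x, x⟫ < 0) →
      ∀ x ∈ K0, ⟪σ τ x, x⟫ ≤ 0 := by
    intro τ hτ h x hx
    by_cases hx0 : x = 0
    · subst hx0; simp
    have h1 : Tendsto (fun t => ⟪σ t x, x⟫) (𝓝[>] τ) (𝓝 ⟪σ τ x, x⟫) := by
      have h2 : ContinuousWithinAt (fun t => ⟪σ t x, x⟫) (Icc a b) τ := hform x τ ⟨hτ.1, hτ.2.le⟩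
      apply h2.mono_of_mem_nhdsWithin
      have : Icc τ b ∈ 𝓝[>] τ := Icc_mem_nhdsGT hτ.2
      exact mem_of_superset this (Icc_subset_Icc_left hτ.1)
    apply le_of_tendsto h1
    filter_upwards [Ioc_mem_nhdsGT hτ.2] with t ht
    exact (h t ht x hx hx0).le
  set B : Set ℝ := {t | t ∈ Icc a b ∧ ∃ x ∈ K0, ‖x‖ = 1 ∧ 0 ≤ ⟪σ t x, x⟫} with hB
  by_cases hcase : ∃ t ∈ B, a < t
  · exfalso
    obtain ⟨t1, ht1, hat1⟩ := hcase
    have hBb : BddAbove B := ⟨b, fun t ht => ht.1.2⟩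
    have hBc : IsClosed B := by
      rw [← isSeqClosed_iff_isClosed]
      intro u t hu hut
      have htI : t ∈ Icc a b := isClosed_Icc.mem_of_tendsto hut (Eventually.of_forall fun n => (hu n).1)
      refine ⟨htI, ?_⟩
      choose x hxK hx1 hx2 using fun n => (hu n).2
      obtain ⟨y, hy, φ, hφ, hφy⟩ := (isCompact_sphere (0 : E) 1).tendsto_subseq
        (x := x) (fun n => by simpa using hx1 n)
      have hK0c : IsClosed (K0 : Set E) := K0.closed_of_finiteDimensional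
      refine ⟨y, hK0c.mem_of_tendsto hφy (Eventually.of_forall fun n => hxK _), by simpa using hy, ?_⟩
      have h1 : Tendsto (fun n => σ (u (φ n))) atTop (𝓝 (σ t)) := by
        have h2 : Tendsto σ (𝓝[Icc a b] t) (𝓝 (σ t)) := hc t htI
        apply h2.comp
        rw [tendsto_nhdsWithin_iff]
        exact ⟨hut.comp hφ.tendsto_atTop, Eventually.of_forall fun n => (hu _).1⟩
      have h3 : Tendsto (fun n => σ (u (φ n)) (x (φ n))) atTop (𝓝 (σ t y)) :=
        (isBoundedBilinearMap_apply.continuous.tendsto (σ t, y)).comp (h1.prodMk_nhds hφy)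
      have h4 : Tendsto (fun n => ⟪σ (u (φ n)) (x (φ n)), x (φ n)⟫) atTop (𝓝 ⟪σ t y, y⟫) :=
        h3.inner hφy
      exact ge_of_tendsto' h4 (fun n => hx2 _)
    set τ := sSup B with hτ
    have hτB : τ ∈ B := hBc.csSup_mem ⟨t1, ht1⟩ hBb
    have hτa : a < τ := lt_of_lt_of_le hat1 (le_csSup hBb ht1)
    obtain ⟨x, hxK, hx1, hx2⟩ := hτB.2
    have hx0 : x ≠ 0 := by
      intro h; rw [h, norm_zero] at hx1; exact zero_ne_one hx1
    have hτb : τ < b := by
      rcases lt_or_eq_of_le hτB.1.2 with h | h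
      · exact h
      · exfalso
        have := hneg x hxK hx0
        rw [← h] at this
        linarith
    have hafter : ∀ t ∈ Ioc τ b, ∀ y ∈ K0, y ≠ 0 → ⟪σ t y, y⟫ < 0 := by
      intro t ht y hy hy0
      by_contra hcon
      rw [not_lt] at hcon
      have hyn : 0 < ‖y‖ := norm_pos_iff.2 hy0
      have : t ∈ B := by
        refine ⟨⟨by linarith [ht.1], ht.2⟩, ‖y‖⁻¹ • y, K0.smul_mem _ hy, ?_, ?_⟩
        · rw [norm_smul, norm_inv, norm_norm, inv_mul_cancel₀ hyn.ne']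
        · rw [map_smul, inner_smul_left, inner_smul_right]
          simp only [conj_trivial]
          positivity
      have h2 := le_csSup hBb this
      linarith [ht.1]
    have hnp := hlim τ ⟨hτa.le, hτb⟩ hafter
    have h0 : ⟪σ τ x, x⟫ = 0 := le_antisymm (hnp x hxK) hx2
    have h1 := null_of_nonpos (hs τ hτB.1) (hK τ hτB.1) hnp hxK h0
    exact hx0 (hinj τ ⟨hτa, hτB.1.2⟩ x hxK h1)
  · push Not at hcase
    apply hlim a ⟨le_rfl, hab⟩
    intro t ht y hy hy0
    by_contra hcon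
    rw [not_lt] at hcon
    have hyn : 0 < ‖y‖ := norm_pos_iff.2 hy0
    have : t ∈ B := by
      refine ⟨⟨by linarith [ht.1], ht.2⟩, ‖y‖⁻¹ • y, K0.smul_mem _ hy, ?_, ?_⟩
      · rw [norm_smul, norm_inv, norm_norm, inv_mul_cancel₀ hyn.ne']
      · rw [map_smul, inner_smul_left, inner_smul_right]
        simp only [conj_trivial]
        positivity
    have h2 := hcase t this
    linarith [ht.1]

/-! ### Schur complement -/

section schur

variable (K0 : Submodule ℝ E)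

/-- projection on `K0` -/
def P0 : E →L[ℝ] E := K0.starProjection

/-- projection on the orthogonal complement -/
def P1 : E →L[ℝ] E := 1 - P0 K0

lemma P0_P0 : P0 K0 * P0 K0 = P0 K0 := K0.isIdempotentElem_starProjection

lemma P0_P1 : P0 K0 * P1 K0 = 0 := by rw [P1, mul_sub, mul_one, P0_P0, sub_self]

lemma P1_P0 : P1 K0 * P0 K0 = 0 := by rw [P1, sub_mul, one_mul, P0_P0, sub_self]

lemma P1_P1 : P1 K0 * P1 K0 = P1 K0 := by
  conv_lhs => rw [P1]
  rw [sub_mul, one_mul, ← P1, P0_P1, sub_zero]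

lemma sa_P0 : IsSelfAdjoint (P0 K0) := isSelfAdjoint_starProjection K0

lemma sa_P1 : IsSelfAdjoint (P1 K0) := by
  rw [P1]; exact (IsSelfAdjoint.one _).sub (sa_P0 K0)

lemma P0_mem (x : E) : P0 K0 x ∈ K0 := Submodule.starProjection_apply_mem _ _

lemma P0_of_mem {x : E} (hx : x ∈ K0) : P0 K0 x = x := Submodule.starProjection_eq_self_iff.2 hx


lemma mem_of_P1 {x : E} (hx : P1 K0 x = 0) : x ∈ K0 := by
  rw [P1, sub_apply, sub_eq_zero] at hx
  have : x = P0 K0 x := hx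
  rw [this]; exact P0_mem K0 x

/-- the block on the complement, extended by the identity -/
def Cm (Q : E →L[ℝ] E) : E →L[ℝ] E := P1 K0 * Q * P1 K0 + P0 K0

/-- Schur complement -/
def Sg (Q : E →L[ℝ] E) : E →L[ℝ] E := Q - Q * P1 K0 * Ring.inverse (Cm K0 Q) * P1 K0 * Q

/-- lifting map -/
def Lf (Q : E →L[ℝ] E) : E →L[ℝ] E := 1 - P1 K0 * Ring.inverse (Cm K0 Q) * P1 K0 * Q

variable {K0} {Q : E →L[ℝ] E}

lemma Q_Lf : Q * Lf K0 Q = Sg K0 Q := by
  rw [Lf, Sg]; noncomm_ring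

lemma Cm_P1 : Cm K0 Q * P1 K0 = P1 K0 * Q * P1 K0 := by
  rw [Cm, add_mul, P0_P1, add_zero, mul_assoc, P1_P1]

lemma P1_Cm : P1 K0 * Cm K0 Q = P1 K0 * Q * P1 K0 := by
  rw [Cm, mul_add, P1_P0, add_zero, ← mul_assoc, ← mul_assoc, P1_P1]

lemma inv_comm (hu : IsUnit (Cm K0 Q)) :
    Ring.inverse (Cm K0 Q) * P1 K0 = P1 K0 * Ring.inverse (Cm K0 Q) := by
  have h1 : Cm K0 Q * Ring.inverse (Cm K0 Q) = 1 := Ring.mul_inverse_cancel _ hu
  have h2 : Ring.inverse (Cm K0 Q) * Cm K0 Q = 1 := Ring.inverse_mul_cancel _ hu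
  calc Ring.inverse (Cm K0 Q) * P1 K0
      = Ring.inverse (Cm K0 Q) * P1 K0 * (Cm K0 Q * Ring.inverse (Cm K0 Q)) := by
        rw [h1, mul_one]
    _ = Ring.inverse (Cm K0 Q) * (P1 K0 * Cm K0 Q) * Ring.inverse (Cm K0 Q) := by noncomm_ring
    _ = Ring.inverse (Cm K0 Q) * (Cm K0 Q * P1 K0) * Ring.inverse (Cm K0 Q) := by
        rw [P1_Cm, Cm_P1]
    _ = (Ring.inverse (Cm K0 Q) * Cm K0 Q) * P1 K0 * Ring.inverse (Cm K0 Q) := by noncomm_ring
    _ = P1 K0 * Ring.inverse (Cm K0 Q) := by rw [h2, one_mul]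

lemma P1_Sg (hu : IsUnit (Cm K0 Q)) : P1 K0 * Sg K0 Q = 0 := by
  have h1 : Cm K0 Q * Ring.inverse (Cm K0 Q) = 1 := Ring.mul_inverse_cancel _ hu
  have h3 : P1 K0 * Q * P1 K0 * Ring.inverse (Cm K0 Q) * P1 K0 = P1 K0 := by
    calc P1 K0 * Q * P1 K0 * Ring.inverse (Cm K0 Q) * P1 K0
        = Cm K0 Q * (P1 K0 * Ring.inverse (Cm K0 Q)) * P1 K0 := by
          rw [← Cm_P1]; noncomm_ring
      _ = (Cm K0 Q * Ring.inverse (Cm K0 Q)) * P1 K0 * P1 K0 := by
          rw [← inv_comm hu]; noncomm_ring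
      _ = P1 K0 := by rw [h1, one_mul, P1_P1]
  calc P1 K0 * Sg K0 Q = P1 K0 * Q - (P1 K0 * Q * P1 K0 * Ring.inverse (Cm K0 Q) * P1 K0) * Q := by
        rw [Sg]; noncomm_ring
    _ = 0 := by rw [h3, sub_self]

lemma Sg_mem (hu : IsUnit (Cm K0 Q)) (x : E) : Sg K0 Q x ∈ K0 := by
  apply mem_of_P1
  have := congrArg (fun T : E →L[ℝ] E => T x) (P1_Sg hu)
  simpa using this

lemma sa_Cm (hQ : IsSelfAdjoint Q) : IsSelfAdjoint (Cm K0 Q) := by
  rw [Cm]
  refine IsSelfAdjoint.add ?_ (sa_P0 K0)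
  have := hQ.conjugate_self (sa_P1 K0)
  exact this

lemma sa_inv (hQ : IsSelfAdjoint Q) : IsSelfAdjoint (Ring.inverse (Cm K0 Q)) := by
  rw [IsSelfAdjoint, ← Ring.inverse_star, (sa_Cm hQ).star_eq]

lemma sa_Sg (hQ : IsSelfAdjoint Q) : IsSelfAdjoint (Sg K0 Q) := by
  rw [Sg]
  refine hQ.sub ?_
  have h1 := (sa_inv (K0 := K0) hQ).star_eq
  rw [IsSelfAdjoint]
  simp only [star_mul, h1, hQ.star_eq, (sa_P1 K0).star_eq]
  noncomm_ring

lemma Q_of_Sg {x : E} (h : Sg K0 Q x = 0) : Q (Lf K0 Q x) = 0 := by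
  rw [← Q_Lf] at h
  exact h

lemma P0_Lf {x : E} (hx : x ∈ K0) : P0 K0 (Lf K0 Q x) = x := by
  have h1 : P0 K0 * Lf K0 Q = P0 K0 := by
    rw [Lf, mul_sub, mul_one]
    have : P0 K0 * (P1 K0 * Ring.inverse (Cm K0 Q) * P1 K0 * Q) =
        (P0 K0 * P1 K0) * (Ring.inverse (Cm K0 Q) * P1 K0 * Q) := by noncomm_ring
    rw [this, P0_P1, zero_mul, sub_zero]
  have := congrArg (fun T : E →L[ℝ] E => T x) h1
  simp only [mul_apply_eq_comp] at this
  rw [this, P0_of_mem K0 hx]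

lemma Sg_inj (hinj : ∀ x, Q x = 0 → x = 0) {x : E} (hx : x ∈ K0) (h : Sg K0 Q x = 0) : x = 0 := by
  have h1 := hinj _ (Q_of_Sg h)
  have h2 := P0_Lf (Q := Q) hx
  rw [h1, map_zero] at h2
  exact h2.symm

/-- if the Schur complement vanishes on `K0`, then the nullity is `dim K0` -/
lemma finrank_of_Sg (hu : IsUnit (Cm K0 Q)) (h : ∀ x ∈ K0, Sg K0 Q x = 0) :
    Module.finrank ℝ (LinearMap.ker (Q : E →ₗ[ℝ] E)) = Module.finrank ℝ K0 := by
  apply le_antisymm
  · -- P0 is injective on ker Q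
    let f : LinearMap.ker (Q : E →ₗ[ℝ] E) →ₗ[ℝ] K0 :=
      LinearMap.codRestrict K0 ((P0 K0 : E →ₗ[ℝ] E) ∘ₗ Submodule.subtype _) (fun x => P0_mem K0 _)
    apply LinearMap.finrank_le_finrank_of_injective (f := f)
    rw [← LinearMap.ker_eq_bot, LinearMap.ker_eq_bot']
    rintro ⟨w, hw⟩ h0
    have h1 : P0 K0 w = 0 := congrArg Subtype.val h0
    have hw' : Q w = 0 := hw
    have h2 : P1 K0 w = w := by rw [P1, sub_apply, h1]; simp
    have h3 : Cm K0 Q w = 0 := by
      rw [Cm, add_apply, h1, add_zero, mul_apply_eq_comp, mul_apply_eq_comp, h2, hw', map_zero]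
    have h4 : w = 0 := by
      have h5 : Ring.inverse (Cm K0 Q) * Cm K0 Q = 1 := Ring.inverse_mul_cancel _ hu
      have h6 := congrArg (fun T : E →L[ℝ] E => T w) h5
      simp only [mul_apply_eq_comp, h3, map_zero, one_apply_eq_self] at h6
      exact h6.symm
    exact Subtype.ext h4
  · let f : K0 →ₗ[ℝ] LinearMap.ker (Q : E →ₗ[ℝ] E) :=
      LinearMap.codRestrict _ ((Lf K0 Q : E →ₗ[ℝ] E) ∘ₗ Submodule.subtype _)
        (fun x => Q_of_Sg (h x x.2))
    apply LinearMap.finrank_le_finrank_of_injective (f := f)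
    rw [← LinearMap.ker_eq_bot, LinearMap.ker_eq_bot']
    rintro ⟨x, hx⟩ h0
    have h1 : Lf K0 Q x = 0 := congrArg Subtype.val h0
    have h2 := P0_Lf (Q := Q) hx
    rw [h1, map_zero] at h2
    exact Subtype.ext h2.symm

/-- the base point: `K0 = ker Q`. -/
lemma isUnit_Cm_base (hQ : IsSelfAdjoint Q) (hK : K0 = LinearMap.ker (Q : E →ₗ[ℝ] E)) :
    IsUnit (Cm K0 Q) := by
  have hsym : ∀ x y, ⟪Q x, y⟫ = ⟪x, Q y⟫ :=
    fun x y => (ContinuousLinearMap.isSelfAdjoint_iff_isSymmetric.1 hQ) x y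
  have hinj : Function.Injective (Cm K0 Q) := by
    rw [injective_iff_map_eq_zero]
    intro w hw
    have h1 : P0 K0 w = 0 := by
      have h2 : P0 K0 * Cm K0 Q = P0 K0 := by
        rw [Cm, mul_add, P0_P0]
        have : P0 K0 * (P1 K0 * Q * P1 K0) = (P0 K0 * P1 K0) * (Q * P1 K0) := by noncomm_ring
        rw [this, P0_P1, zero_mul, zero_add]
      have h3 := congrArg (fun T : E →L[ℝ] E => T w) h2
      simp only [mul_apply_eq_comp, hw, map_zero] at h3
      exact h3.symm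
    have h2 : P1 K0 w = w := by rw [P1, sub_apply, h1]; simp
    rw [Cm, add_apply, h1, add_zero, mul_apply_eq_comp, mul_apply_eq_comp, h2] at hw
    have h3 : Q w ∈ K0 := mem_of_P1 K0 hw
    have h4 : Q w = 0 := by
      have h5 : Q (Q w) = 0 := by rw [hK] at h3; exact h3
      have h6 : ⟪Q w, Q w⟫ = 0 := by rw [hsym, h5, inner_zero_right]
      exact inner_self_eq_zero.1 h6
    have h5 : w ∈ K0 := by rw [hK]; exact h4
    rw [P0_of_mem K0 h5] at h1
    exact h1
  have hs : Function.Surjective (Cm K0 Q) := by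
    have := LinearMap.injective_iff_surjective (f := ((Cm K0 Q) : E →ₗ[ℝ] E))
    exact this.1 hinj
  let e : E ≃L[ℝ] E :=
    (LinearEquiv.ofBijective ((Cm K0 Q) : E →ₗ[ℝ] E) ⟨hinj, hs⟩).toContinuousLinearEquiv
  refine ⟨⟨Cm K0 Q, e.symm, ?_, ?_⟩, rfl⟩
  · ext x
    change e (e.symm x) = x
    simp
  · ext x
    change e.symm (e x) = x
    simp

lemma Sg_base (hK : K0 = LinearMap.ker (Q : E →ₗ[ℝ] E)) {x : E} (hx : x ∈ K0) :
    Sg K0 Q x = 0 := by
  have h : Q x = 0 := by rw [hK] at hx; exact hx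
  rw [Sg, sub_apply, mul_apply_eq_comp, h, map_zero, sub_zero]

end schur


/-- negative definite forms are uniformly so -/
lemma exists_bound {A : E →L[ℝ] E} (hneg : ∀ x, x ≠ 0 → ⟪A x, x⟫ < 0) :
    ∃ m > 0, ∀ x, ⟪A x, x⟫ ≤ -(m * ‖x‖ ^ 2) := by
  rcases (Metric.sphere (0 : E) 1).eq_empty_or_nonempty with h | h
  · refine ⟨1, one_pos, fun x => ?_⟩
    by_cases hx : x = 0
    · subst hx; simp
    · exfalso
      have : ‖x‖⁻¹ • x ∈ Metric.sphere (0 : E) 1 := by
        rw [mem_sphere_zero_iff_norm, norm_smul, norm_inv, norm_norm,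
          inv_mul_cancel₀ (norm_ne_zero_iff.2 hx)]
      rw [h] at this
      exact this
  · obtain ⟨y, hy, hmax⟩ := (isCompact_sphere (0 : E) 1).exists_isMaxOn h
      (f := fun x => ⟪A x, x⟫) (by fun_prop)
    have hy1 : ‖y‖ = 1 := by simpa using hy
    have hy0 : y ≠ 0 := by
      intro h0; rw [h0, norm_zero] at hy1; exact zero_ne_one hy1
    refine ⟨-⟪A y, y⟫, by have := hneg y hy0; linarith, fun x => ?_⟩
    by_cases hx : x = 0
    · subst hx; simp
    · have hxn : 0 < ‖x‖ := norm_pos_iff.2 hx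
      have h1 : ‖x‖⁻¹ • x ∈ Metric.sphere (0 : E) 1 := by
        rw [mem_sphere_zero_iff_norm, norm_smul, norm_inv, norm_norm,
          inv_mul_cancel₀ hxn.ne']
      have h2 : ⟪A (‖x‖⁻¹ • x), ‖x‖⁻¹ • x⟫ ≤ ⟪A y, y⟫ := hmax h1
      rw [map_smul, inner_smul_left, inner_smul_right] at h2
      simp only [conj_trivial] at h2
      have h3 : ‖x‖ ^ 2 * (‖x‖⁻¹ * (‖x‖⁻¹ * ⟪A x, x⟫)) = ⟪A x, x⟫ := by
        field_simp
      have h4 := mul_le_mul_of_nonneg_left h2 (sq_nonneg ‖x‖)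
      rw [h3] at h4
      linarith

theorem crossing {X : Type*} [TopologicalSpace X] (Q : X → ℝ → (E →L[ℝ] E)) {S : Set X} {z0 : X}
    {D ε : ℝ} (hε : 0 < ε) (hz0 : z0 ∈ S)
    (hsymm : ∀ z ∈ S, ∀ t ∈ Icc (D - ε) (D + ε), IsSelfAdjoint (Q z t))
    (hcont : ∀ z ∈ S, ∀ t ∈ Icc (D - ε) (D + ε), ContinuousAt (fun p : X × ℝ => Q p.1 p.2) (z, t))
    (hinj : ∀ z ∈ S, ∀ t ∈ Icc (D - ε) (D + ε), t ≠ D → ∀ x, Q z t x = 0 → x = 0)
    {Q' : E →L[ℝ] E} (hder : HasDerivAt (Q z0) Q' D) (hneg : ∀ x, x ≠ 0 → ⟪Q' x, x⟫ < 0) :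
    ∀ᶠ z in 𝓝[S] z0, Module.finrank ℝ (LinearMap.ker (Q z D : E →ₗ[ℝ] E)) =
      Module.finrank ℝ (LinearMap.ker (Q z0 D : E →ₗ[ℝ] E)) := by
  set K0 : Submodule ℝ E := LinearMap.ker (Q z0 D : E →ₗ[ℝ] E) with hK0
  have hDI : D ∈ Icc (D - ε) (D + ε) := ⟨by linarith, by linarith⟩
  have hsa0 : IsSelfAdjoint (Q z0 D) := hsymm z0 hz0 D hDI
  have hu0 : IsUnit (Cm K0 (Q z0 D)) := isUnit_Cm_base hsa0 hK0
  -- continuity of Cm and Sg
  have hCmc : ∀ z ∈ S, ∀ t ∈ Icc (D - ε) (D + ε),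
      ContinuousAt (fun p : X × ℝ => Cm K0 (Q p.1 p.2)) (z, t) := by
    intro z hz t ht
    have h1 := hcont z hz t ht
    exact ((continuousAt_const.mul h1).mul continuousAt_const).add continuousAt_const
  have hSgc : ∀ z ∈ S, ∀ t ∈ Icc (D - ε) (D + ε), IsUnit (Cm K0 (Q z t)) →
      ContinuousAt (fun p : X × ℝ => Sg K0 (Q p.1 p.2)) (z, t) := by
    intro z hz t ht hu
    have h1 := hcont z hz t ht
    have h2 : ContinuousAt (fun p : X × ℝ => Ring.inverse (Cm K0 (Q p.1 p.2))) (z, t) := by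
      obtain ⟨u, hu⟩ := hu
      have h3 := NormedRing.inverse_continuousAt u
      rw [hu] at h3
      exact ContinuousAt.comp (g := Ring.inverse) (f := fun p : X × ℝ => Cm K0 (Q p.1 p.2))
        (x := (z, t)) h3 (hCmc z hz t ht)
    exact h1.sub ((((h1.mul continuousAt_const).mul h2).mul continuousAt_const).mul h1)
  -- neighbourhood where Cm is invertible
  have hunit : ∀ᶠ p in 𝓝 (z0, D), IsUnit (Cm K0 (Q p.1 p.2)) :=
    (hCmc z0 hz0 D hDI).eventually (Units.isOpen.mem_nhds hu0)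
  rw [nhds_prod_eq, Filter.eventually_prod_iff] at hunit
  obtain ⟨pa, hpa, pb, hpb, hab⟩ := hunit
  obtain ⟨η1, hη1, hη1b⟩ := Metric.eventually_nhds_iff_ball.1 hpb
  -- derivative of the Schur complement at z0
  have hinvd : DifferentiableAt ℝ (fun t => Ring.inverse (Cm K0 (Q z0 t))) D := by
    have h1 : DifferentiableAt ℝ (fun t => Cm K0 (Q z0 t)) D :=
      (((differentiableAt_const _).mul hder.differentiableAt).mul (differentiableAt_const _)).add
        (differentiableAt_const _)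
    obtain ⟨u, hu⟩ := hu0
    have h2 := (hasFDerivAt_ringInverse (𝕜 := ℝ) u).differentiableAt
    rw [hu] at h2
    exact DifferentiableAt.comp D (g := Ring.inverse) (f := fun t => Cm K0 (Q z0 t)) h2 h1
  have hSgd : DifferentiableAt ℝ (fun t => Sg K0 (Q z0 t)) D := by
    have h1 := hder.differentiableAt
    exact h1.sub ((((h1.mul (differentiableAt_const _)).mul hinvd).mul
      (differentiableAt_const _)).mul h1)
  obtain ⟨σ', hσ'⟩ : ∃ σ' : E →L[ℝ] E, HasDerivAt (fun t => Sg K0 (Q z0 t)) σ' D :=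
    ⟨_, hSgd.hasDerivAt⟩
  have hσ'x : ∀ x ∈ K0, ⟪σ' x, x⟫ = ⟪Q' x, x⟫ := by
    intro x hx
    have hQx : Q z0 D x = 0 := by rw [hK0] at hx; exact hx
    have h1 : HasDerivAt (fun t => ⟪Sg K0 (Q z0 t) x, x⟫) ⟪σ' x, x⟫ D := by
      have := (hσ'.clm_apply (hasDerivAt_const D x)).inner ℝ (hasDerivAt_const D x)
      simpa using this
    -- y t = P1 Q x
    have hQd : HasDerivAt (fun t => Q z0 t x) (Q' x) D := by
      simpa using hder.clm_apply (hasDerivAt_const D x)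
    have hyd : HasDerivAt (fun t => P1 K0 (Q z0 t x)) (P1 K0 (Q' x)) D := by
      simpa using (hasDerivAt_const D (P1 K0)).clm_apply hQd
    have hgy : DifferentiableAt ℝ (fun t => Ring.inverse (Cm K0 (Q z0 t)) (P1 K0 (Q z0 t x))) D :=
      hinvd.clm_apply hyd.differentiableAt
    have hzd : HasDerivAt (fun t => Q z0 t (P1 K0 (Ring.inverse (Cm K0 (Q z0 t))
        (P1 K0 (Q z0 t x))))) (Q z0 D (deriv (fun t => P1 K0 (Ring.inverse (Cm K0 (Q z0 t))
        (P1 K0 (Q z0 t x)))) D)) D := by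
      have h3 : DifferentiableAt ℝ (fun t => P1 K0 (Ring.inverse (Cm K0 (Q z0 t))
        (P1 K0 (Q z0 t x)))) D := (differentiableAt_const _).clm_apply hgy
      have h4 := hder.clm_apply h3.hasDerivAt
      simpa [hQx] using h4
    have h5 : HasDerivAt (fun t => ⟪Sg K0 (Q z0 t) x, x⟫) ⟪Q' x, x⟫ D := by
      have h6 : (fun t => ⟪Sg K0 (Q z0 t) x, x⟫) = fun t => ⟪Q z0 t x, x⟫ -
          ⟪Q z0 t (P1 K0 (Ring.inverse (Cm K0 (Q z0 t)) (P1 K0 (Q z0 t x)))), x⟫ := by
        ext t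
        rw [Sg, sub_apply, inner_sub_left]
        rfl
      rw [h6]
      have h7 := (hQd.inner ℝ (hasDerivAt_const D x)).sub (hzd.inner ℝ (hasDerivAt_const D x))
      refine h7.congr_deriv ?_
      have h8 : ∀ w, ⟪Q z0 D w, x⟫ = 0 := fun w => by
        have h9 : ⟪Q z0 D w, x⟫ = ⟪w, Q z0 D x⟫ :=
          ContinuousLinearMap.isSelfAdjoint_iff_isSymmetric.1 hsa0 w x
        rw [h9, hQx, inner_zero_right]
      simp only [h8, inner_zero_right, zero_add, sub_zero, add_zero]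
    exact h1.unique h5
  obtain ⟨m, hm, hmb⟩ := exists_bound hneg
  -- choose η
  have hlo := hσ'.isLittleO.def (show (0 : ℝ) < m / 2 by positivity)
  obtain ⟨η2, hη2, hη2b⟩ := Metric.eventually_nhds_iff_ball.1 hlo
  set η : ℝ := min ε (min (η1 / 2) (η2 / 2)) with hη
  have hηpos : 0 < η := lt_min hε (lt_min (by positivity) (by positivity))
  have hηε : η ≤ ε := min_le_left _ _
  have hη1' : η < η1 := lt_of_le_of_lt ((min_le_right _ _).trans (min_le_left _ _)) (by linarith)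
  have hη2' : η < η2 := lt_of_le_of_lt ((min_le_right _ _).trans (min_le_right _ _)) (by linarith)
  have hbase : ∀ x ∈ K0, Sg K0 (Q z0 D) x = 0 := fun x hx => Sg_base hK0 hx
  have hup : ∀ x ∈ K0, ⟪Sg K0 (Q z0 (D + η)) x, x⟫ ≤ -(m * η / 2 * ‖x‖ ^ 2) := by
    intro x hx
    have h1 := hη2b (D + η) (by rw [Metric.mem_ball, dist_eq_norm]; simpa [abs_of_pos hηpos] using hη2')
    rw [add_sub_cancel_left, Real.norm_eq_abs, abs_of_pos hηpos] at h1
    have h2 : ⟪Sg K0 (Q z0 (D + η)) x, x⟫ = η * ⟪Q' x, x⟫ +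
        ⟪(Sg K0 (Q z0 (D + η)) - Sg K0 (Q z0 D) - η • σ') x, x⟫ := by
      rw [← hσ'x x hx, sub_apply, sub_apply, hbase x hx, smul_apply, inner_sub_left,
        inner_sub_left, inner_smul_left]
      simp
    have h3 : ⟪(Sg K0 (Q z0 (D + η)) - Sg K0 (Q z0 D) - η • σ') x, x⟫ ≤ m / 2 * η * ‖x‖ ^ 2 := by
      calc _ ≤ ‖(Sg K0 (Q z0 (D + η)) - Sg K0 (Q z0 D) - η • σ') x‖ * ‖x‖ :=
            real_inner_le_norm _ _
        _ ≤ (‖Sg K0 (Q z0 (D + η)) - Sg K0 (Q z0 D) - η • σ'‖ * ‖x‖) * ‖x‖ := by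
            gcongr; exact ContinuousLinearMap.le_opNorm _ _
        _ ≤ (m / 2 * η * ‖x‖) * ‖x‖ := by gcongr
        _ = m / 2 * η * ‖x‖ ^ 2 := by ring
    rw [h2]
    nlinarith [mul_le_mul_of_nonneg_left (hmb x) hηpos.le]
  have hdown : ∀ x ∈ K0, m * η / 2 * ‖x‖ ^ 2 ≤ ⟪Sg K0 (Q z0 (D - η)) x, x⟫ := by
    intro x hx
    have h1 := hη2b (D - η) (by rw [Metric.mem_ball, dist_eq_norm]; simpa [abs_of_pos hηpos] using hη2')
    rw [sub_sub_cancel_left, Real.norm_eq_abs, abs_neg, abs_of_pos hηpos] at h1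
    have h2 : ⟪Sg K0 (Q z0 (D - η)) x, x⟫ = -(η * ⟪Q' x, x⟫) +
        ⟪(Sg K0 (Q z0 (D - η)) - Sg K0 (Q z0 D) - (-η) • σ') x, x⟫ := by
      rw [← hσ'x x hx, sub_apply, sub_apply, hbase x hx, smul_apply, inner_sub_left,
        inner_sub_left, inner_smul_left]
      simp
    have h3 : -(m / 2 * η * ‖x‖ ^ 2) ≤
        ⟪(Sg K0 (Q z0 (D - η)) - Sg K0 (Q z0 D) - (-η) • σ') x, x⟫ := by
      have h4 : |⟪(Sg K0 (Q z0 (D - η)) - Sg K0 (Q z0 D) - (-η) • σ') x, x⟫| ≤
          m / 2 * η * ‖x‖ ^ 2 := by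
        calc _ ≤ ‖(Sg K0 (Q z0 (D - η)) - Sg K0 (Q z0 D) - (-η) • σ') x‖ * ‖x‖ :=
              abs_real_inner_le_norm _ _
          _ ≤ (‖Sg K0 (Q z0 (D - η)) - Sg K0 (Q z0 D) - (-η) • σ'‖ * ‖x‖) * ‖x‖ := by
              gcongr; exact ContinuousLinearMap.le_opNorm _ _
          _ ≤ (m / 2 * η * ‖x‖) * ‖x‖ := by gcongr
          _ = m / 2 * η * ‖x‖ ^ 2 := by ring
      linarith [neg_abs_le ⟪(Sg K0 (Q z0 (D - η)) - Sg K0 (Q z0 D) - (-η) • σ') x, x⟫]
    rw [h2]
    nlinarith [mul_le_mul_of_nonneg_left (hmb x) hηpos.le]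
  have huz : ∀ z, pa z → ∀ t ∈ Icc (D - η) (D + η), IsUnit (Cm K0 (Q z t)) := by
    intro z hz t ht
    apply hab hz
    apply hη1b
    rw [Metric.mem_ball, Real.dist_eq, abs_lt]
    exact ⟨by linarith [ht.1], by linarith [ht.2]⟩
  have hIsub : Icc (D - η) (D + η) ⊆ Icc (D - ε) (D + ε) :=
    Icc_subset_Icc (by linarith) (by linarith)
  have hpaz0 : pa z0 := hpa.self_of_nhds
  -- nearby z
  have hnear : ∀ t ∈ Icc (D - η) (D + η),
      ∀ᶠ z in 𝓝 z0, ‖Sg K0 (Q z t) - Sg K0 (Q z0 t)‖ < m * η / 4 := by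
    intro t ht
    have h1 : ContinuousAt (fun z => Sg K0 (Q z t)) z0 :=
      ContinuousAt.comp (g := fun p : X × ℝ => Sg K0 (Q p.1 p.2)) (f := fun z => (z, t)) (x := z0)
        (hSgc z0 hz0 t (hIsub ht) (huz z0 hpaz0 t ht)) (by fun_prop)
    have h2 : Tendsto (fun z => ‖Sg K0 (Q z t) - Sg K0 (Q z0 t)‖) (𝓝 z0)
        (𝓝 ‖Sg K0 (Q z0 t) - Sg K0 (Q z0 t)‖) := ((h1.sub continuousAt_const).norm).tendsto
    rw [sub_self, norm_zero] at h2
    exact h2.eventually_lt_const (by positivity)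
  have hmem1 : D + η ∈ Icc (D - η) (D + η) := ⟨by linarith, le_rfl⟩
  have hmem2 : D - η ∈ Icc (D - η) (D + η) := ⟨le_rfl, by linarith⟩
  have hpaS : ∀ᶠ z in 𝓝[S] z0, pa z := nhdsWithin_le_nhds hpa
  filter_upwards [hpaS, nhdsWithin_le_nhds (hnear _ hmem1), nhdsWithin_le_nhds (hnear _ hmem2),
    self_mem_nhdsWithin] with z hpz hz1 hz2 hzS
  have hsy : ∀ t ∈ Icc (D - η) (D + η), ∀ x y, ⟪Sg K0 (Q z t) x, y⟫ = ⟪x, Sg K0 (Q z t) y⟫ :=
    fun t ht x y => ContinuousLinearMap.isSelfAdjoint_iff_isSymmetric.1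
      (sa_Sg (hsymm z hzS t (hIsub ht))) x y
  have hcz : ContinuousOn (fun t => Sg K0 (Q z t)) (Icc (D - η) (D + η)) := by
    intro t ht
    exact (ContinuousAt.comp (g := fun p : X × ℝ => Sg K0 (Q p.1 p.2)) (f := fun t => (z, t))
      (x := t) (hSgc z hzS t (hIsub ht) (huz z hpz t ht)) (by fun_prop)).continuousWithinAt
  have hdiff : ∀ t : ℝ, ‖Sg K0 (Q z t) - Sg K0 (Q z0 t)‖ < m * η / 4 → ∀ x : E,
      |⟪Sg K0 (Q z t) x, x⟫ - ⟪Sg K0 (Q z0 t) x, x⟫| ≤ m * η / 4 * ‖x‖ ^ 2 := by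
    intro t ht x
    rw [← inner_sub_left, ← sub_apply]
    calc _ ≤ ‖(Sg K0 (Q z t) - Sg K0 (Q z0 t)) x‖ * ‖x‖ := abs_real_inner_le_norm _ _
      _ ≤ (‖Sg K0 (Q z t) - Sg K0 (Q z0 t)‖ * ‖x‖) * ‖x‖ := by
          gcongr; exact ContinuousLinearMap.le_opNorm _ _
      _ ≤ (m * η / 4 * ‖x‖) * ‖x‖ := by gcongr
      _ = m * η / 4 * ‖x‖ ^ 2 := by ring
  have hA : ∀ x ∈ K0, ⟪Sg K0 (Q z D) x, x⟫ ≤ 0 := by
    apply half (K0 := K0) (σ := fun t => Sg K0 (Q z t)) (a := D) (b := D + η) (by linarith)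
    · exact hcz.mono (Icc_subset_Icc_left (by linarith))
    · exact fun t ht => hsy t ⟨by linarith [ht.1], ht.2⟩
    · exact fun t ht x _ => Sg_mem (huz z hpz t ⟨by linarith [ht.1], ht.2⟩) x
    · intro t ht x hx h
      exact Sg_inj (hinj z hzS t (hIsub ⟨by linarith [ht.1], ht.2⟩) (ne_of_gt ht.1)) hx h
    · intro x hx hx0
      have h1 := hdiff _ hz1 x
      have h2 := hup x hx
      have h3 : 0 < m * η / 4 * ‖x‖ ^ 2 := by
        have := norm_pos_iff.2 hx0; positivity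
      rw [abs_le] at h1
      linarith [h1.2]
  have hB : ∀ x ∈ K0, ⟪(-(Sg K0 (Q z D))) x, x⟫ ≤ 0 := by
    have := half (K0 := K0) (σ := fun t => -(Sg K0 (Q z (-t)))) (a := -D) (b := -(D - η))
      (by linarith) ?_ ?_ ?_ ?_ ?_
    · simpa using this
    · apply ContinuousOn.neg
      exact hcz.comp (by fun_prop) (fun t ht => ⟨by linarith [ht.2], by linarith [ht.1]⟩)
    · intro t ht x y
      rw [neg_apply, neg_apply, inner_neg_left, inner_neg_right,
        hsy (-t) ⟨by linarith [ht.2], by linarith [ht.1]⟩ x y]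
    · intro t ht x _
      rw [neg_apply]
      exact K0.neg_mem (Sg_mem (huz z hpz (-t) ⟨by linarith [ht.2], by linarith [ht.1]⟩) x)
    · intro t ht x hx h
      rw [neg_apply, neg_eq_zero] at h
      exact Sg_inj (hinj z hzS (-t) (hIsub ⟨by linarith [ht.2], by linarith [ht.1]⟩)
        (by intro h2; linarith [ht.1])) hx h
    · intro x hx hx0
      have h1 := hdiff _ hz2 x
      have h2 := hdown x hx
      have h3 : 0 < m * η / 4 * ‖x‖ ^ 2 := by
        have := norm_pos_iff.2 hx0; positivity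
      rw [abs_le] at h1
      simp only [neg_neg]
      rw [neg_apply, inner_neg_left]
      linarith [h1.1]
  have hzero : ∀ x ∈ K0, Sg K0 (Q z D) x = 0 := by
    have hDm : D ∈ Icc (D - η) (D + η) := ⟨by linarith, by linarith⟩
    intro x hx
    apply null_of_nonpos (hsy D hDm) (fun x _ => Sg_mem (huz z hpz D hDm) x) hA hx
    have h1 := hB x hx
    rw [neg_apply, inner_neg_left] at h1
    exact le_antisymm (hA x hx) (by linarith)
  exact finrank_of_Sg (huz z hpz D ⟨by linarith, by linarith⟩) hzero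

end Crest.Agent.R208.IC
end
end

-- ▼ part R208/IC2

/-!
R208, block G5 / (6): `MultConst`, the multiplicity of the conjugate point at distance `D` is
locally constant on `Zs`.
-/

set_option autoImplicit false
set_option linter.unusedSectionVars false


open Set Filter Topology
open scoped ContDiff RealInnerProductSpace
open Crest.GeometryTopology.Submanifold
open Crest.Agent.R241.DDefs
open Crest.Agent.R241.D2
open Crest.Agent.R208.J
open Crest.Agent.R208.K

noncomputable section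

namespace Crest.Agent.R208.IC

variable {n N : ℕ} {κ : ℝ} {S : Set (Euc N)} {G : Geo n N κ S} {D : ℝ} {q : Euc N × Euc N}

/-- Jacobi tensor, extended to the normal space. -/
def Xe (G : Geo n N κ S) (q : Euc N × Euc N) (s t : ℝ) : Euc N →L[ℝ] Euc N :=
  At G q s t + (t - s) • (1 - G.P q.1)

def Xe' (G : Geo n N κ S) (q : Euc N × Euc N) (s t : ℝ) : Euc N →L[ℝ] Euc N :=
  At' G q s t + (1 - G.P q.1)

lemma Xe_apply (s t : ℝ) (w : Euc N) :
    Xe G q s t w = At G q s t w + (t - s) • (w - G.P q.1 w) := rfl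

lemma Xe'_apply (s t : ℝ) (w : Euc N) :
    Xe' G q s t w = At' G q s t w + (w - G.P q.1 w) := rfl

lemma hasDerivAt_Xe (hq : q ∈ TS G) (s t : ℝ) :
    HasDerivAt (fun t => Xe G q s t) (Xe' G q s t) t := by
  have h0 : HasDerivAt (fun t : ℝ => t - s) 1 t := (hasDerivAt_id t).sub_const s
  have h1 := h0.smul_const (1 - G.P q.1 : Euc N →L[ℝ] Euc N)
  rw [one_smul] at h1
  exact (hasDerivAt_At hq s t).add h1

lemma isJac_Xe (hq : q ∈ TS G) (s : ℝ) (w : Euc N) :
    IsJac (Rh G q) (fun t => Xe G q s t w) (fun t => Xe' G q s t w) := by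
  refine ⟨fun t => ?_, fun t => ?_⟩
  · simpa using (hasDerivAt_Xe hq s t).clm_apply (hasDerivAt_const t w)
  · have h1 := ((isJac_At hq s w).snd t).add_const (w - G.P q.1 w)
    refine h1.congr_deriv ?_
    rw [Xe_apply, map_add, map_smul, map_sub, Rh_P hq, sub_self, smul_zero, add_zero]

lemma Xe_self (hq : q ∈ TS G) (s : ℝ) (w : Euc N) : Xe G q s s w = 0 := by
  rw [Xe_apply, At_self hq, sub_self, zero_smul, add_zero]

lemma Xe'_self (hq : q ∈ TS G) (s : ℝ) (w : Euc N) : Xe' G q s s w = w := by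
  rw [Xe'_apply, At'_self hq]; abel

/-- Wronskian identities -/
lemma wr_self (hq : q ∈ TS G) (s t : ℝ) (w u : Euc N) :
    ⟪Xe' G q s t w, Xe G q s t u⟫ = ⟪Xe G q s t w, Xe' G q s t u⟫ := by
  have h := (isJac_Xe hq s w).wronskian (fun t a b => inner_Rh hq t a b) (isJac_Xe hq s u) s t
  rw [Xe_self hq, Xe_self hq, inner_zero_right, inner_zero_left, sub_zero] at h
  linarith

lemma wr_mixed (hq : q ∈ TS G) (s t : ℝ) (w u : Euc N) :
    ⟪Xe' G q s t w, Xe G q 0 t u⟫ - ⟪Xe G q s t w, Xe' G q 0 t u⟫ = ⟪w, Xe G q 0 s u⟫ := by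
  have h := (isJac_Xe hq s w).wronskian (fun t a b => inner_Rh hq t a b) (isJac_Xe hq 0 u) s t
  rw [Xe_self hq, Xe'_self hq, inner_zero_left, sub_zero] at h
  exact h

/-- kernel of the extended tensor -/
lemma Xe_eq_zero (hq : q ∈ TS G) {s t : ℝ} (hst : t - s ≠ 0) {w : Euc N} :
    Xe G q s t w = 0 ↔ w ∈ G.T q.1 ∧ At G q s t w = 0 := by
  constructor
  · intro h
    rw [Xe_apply] at h
    have h1 : G.P q.1 (At G q s t w) = At G q s t w := (P_eq_self G hq.1).1 (At_mem hq s t w)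
    have h2 : At G q s t w = 0 := by
      have h3 := congrArg (G.P q.1) h
      rw [map_add, map_smul, map_sub, P_idem G hq.1, sub_self, smul_zero, add_zero, h1,
        map_zero] at h3
      exact h3
    rw [h2, zero_add] at h
    have h4 : w - G.P q.1 w = 0 := (smul_eq_zero.1 h).resolve_left hst
    refine ⟨?_, h2⟩
    rw [sub_eq_zero] at h4
    rw [h4]; exact P_mem G hq.1
  · rintro ⟨h1, h2⟩
    rw [Xe_apply, h2, (P_eq_self G hq.1).1 h1, sub_self, smul_zero, add_zero]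

/-- no conjugate points before `D`. -/
def NC (G : Geo n N κ S) (D : ℝ) : Prop :=
  ∀ z ∈ US G, ∀ t, 0 < t → t < D → ∀ b ∈ G.T z.1, fderiv ℝ (Exp G z.1) (t • z.2) b = 0 → b = 0

lemma At_inj (hnc : NC G D) (hq : q ∈ US G) {s t : ℝ} (h0 : 0 < t - s) (hD : t - s < D)
    {w : Euc N} (hw : w ∈ G.T q.1) (h : At G q s t w = 0) : w = 0 := by
  have hs := fl_US G hq s
  have h1 := At_shift_zero hq.1 s (t - s) (w := PT G q s w) (PT_mem hq.1 s hw)
  rw [PTi_PT hq.1, add_sub_cancel, h, map_zero] at h1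
  have h2 := (fderiv_Exp_eq_zero_iff hs.1 h0.ne' (PT_mem hq.1 s hw)).2 h1
  have h3 := hnc _ hs (t - s) h0 hD _ (PT_mem hq.1 s hw) h2
  have h4 := PTi_PT hq.1 s w
  rw [h3, map_zero] at h4
  exact h4.symm

lemma Xe_inj (hnc : NC G D) (hq : q ∈ US G) {s t : ℝ} (h0 : 0 < t - s) (hD : t - s < D)
    {w : Euc N} (h : Xe G q s t w = 0) : w = 0 := by
  obtain ⟨h1, h2⟩ := (Xe_eq_zero hq.1 h0.ne').1 h
  exact At_inj hnc hq h0 hD h1 h2

/-- directions in `Zs` have no conjugate points in `(D, 2D)`. -/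
lemma Xe_inj_after (hnc : NC G D) (hq : q ∈ Zs G D) {t : ℝ} (h0 : D < t) (h2D : t < 2 * D)
    (hD : 0 < D) {w : Euc N} (h : Xe G q 0 t w = 0) : w = 0 := by
  have hqU := hq.1
  obtain ⟨h1, h2⟩ := (Xe_eq_zero hqU.1 (by simp; linarith)).1 h
  have h3 : ⟪w, q.2⟫ = 0 := inner_eq_zero_of_At hqU.1 (by simp; linarith) h2
  have h4 := hq.2 w h1 h3
  have h5 : At G q 0 (2 * D) w = 0 :=
    (fderiv_Exp_eq_zero_iff hqU.1 (by positivity) h1).1 h4
  -- the Jacobi field
  set u : Euc N := At' G q 0 t w with hu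
  have huT : u ∈ G.T q.1 := At'_mem hqU.1 0 t w
  have huniq := (isJac_At hqU.1 0 w).unique (contDiff_Rh hqU.1).continuous (isJac_At hqU.1 t u)
    (t₀ := t) (by simp only [h2, At_self hqU.1])
    (by rw [At'_self hqU.1, (P_eq_self G hqU.1.1).1 huT])
  have h6 : At G q t (2 * D) u = 0 := by rw [← (huniq (2 * D)).1, h5]
  have h7 : u = 0 := At_inj hnc hqU (by linarith) (by linarith) huT h6
  have h8 := (huniq 0).2
  simp only [h7, map_zero, At'_self hqU.1] at h8
  rw [(P_eq_self G hqU.1.1).1 h1] at h8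
  exact h8

/-- injective operators are units -/
lemma isUnit_of_inj {B : Euc N →L[ℝ] Euc N} (hB : ∀ x, B x = 0 → x = 0) : IsUnit B := by
  have hinj : Function.Injective B := (injective_iff_map_eq_zero B).2 hB
  have hs : Function.Surjective B := by
    have := LinearMap.injective_iff_surjective (f := (B : Euc N →ₗ[ℝ] Euc N))
    exact this.1 hinj
  let e : Euc N ≃L[ℝ] Euc N :=
    (LinearEquiv.ofBijective (B : Euc N →ₗ[ℝ] Euc N) ⟨hinj, hs⟩).toContinuousLinearEquiv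
  refine ⟨⟨B, e.symm, ?_, ?_⟩, rfl⟩
  · ext1 x
    change e (e.symm x) = x
    simp
  · ext1 x
    change e.symm (e x) = x
    simp

/-- the crossing form -/
def Qf (G : Geo n N κ S) (s : ℝ) (q : Euc N × Euc N) (t : ℝ) : Euc N →L[ℝ] Euc N :=
  star (Xe G q 0 s) * Ring.inverse (Xe G q s t) * Xe G q 0 t

section alg

variable {A : Type*} [Ring A] [StarRing A]

/-- the algebra behind the crossing form: `X1 = Y'* X - Y* X'`. -/
lemma alg_sa {X X' Y Y' X1 Yi : A} (hX : star X' * X = star X * X') (hY : star Y' * Y = star Y * Y')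
    (hm : X1 = star Y' * X - star Y * X') (h1 : Y * Yi = 1) :
    star (star X1 * Yi * X) = star X1 * Yi * X := by
  have h1' : star Yi * star Y = 1 := by rw [← star_mul, h1, star_one]
  -- M = Y' Yi is self-adjoint
  have hM : star Yi * star Y' = Y' * Yi := by
    calc star Yi * star Y' = star Yi * star Y' * (Y * Yi) := by rw [h1, mul_one]
      _ = star Yi * (star Y' * Y) * Yi := by simp only [mul_assoc]
      _ = star Yi * (star Y * Y') * Yi := by rw [hY]
      _ = (star Yi * star Y) * Y' * Yi := by simp only [mul_assoc]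
      _ = Y' * Yi := by rw [h1', one_mul]
  have hm' : star X1 = star X * Y' - star X' * Y := by
    rw [hm, star_sub, star_mul, star_mul, star_star, star_star]
  have e1 : star X1 * Yi * X = star X * (Y' * Yi) * X - star X' * X := by
    rw [hm', sub_mul, sub_mul]
    have : star X' * Y * Yi * X = star X' * (Y * Yi) * X := by simp only [mul_assoc]
    rw [this, h1, mul_one]
    simp only [mul_assoc]
  have e2 : star (star X1 * Yi * X) = star X * (star Yi * star Y') * X - star X * X' := by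
    rw [star_mul, star_mul, star_star, hm, mul_sub, mul_sub]
    have : star X * (star Yi * (star Y * X')) = star X * ((star Yi * star Y) * X') := by
      simp only [mul_assoc]
    rw [this, h1', one_mul]
    simp only [mul_assoc]
  rw [e2, e1, hM, hX]

lemma alg_der {X X' Y Y' X1 Yi : A} (hY : star Y' * Y = star Y * Y')
    (hm : X1 = star Y' * X - star Y * X') (h1 : Y * Yi = 1) :
    star X1 * (-(Yi * Y' * Yi)) * X + star X1 * Yi * X' = -(star X1 * (Yi * star Yi) * X1) := by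
  have h1' : star Yi * star Y = 1 := by rw [← star_mul, h1, star_one]
  have hM : star Yi * star Y' = Y' * Yi := by
    calc star Yi * star Y' = star Yi * star Y' * (Y * Yi) := by rw [h1, mul_one]
      _ = star Yi * (star Y' * Y) * Yi := by simp only [mul_assoc]
      _ = star Yi * (star Y * Y') * Yi := by rw [hY]
      _ = (star Yi * star Y) * Y' * Yi := by simp only [mul_assoc]
      _ = Y' * Yi := by rw [h1', one_mul]
  have e : star Yi * X1 = Y' * Yi * X - X' := by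
    rw [hm, mul_sub, ← mul_assoc, ← mul_assoc, h1', one_mul, hM]
  calc star X1 * (-(Yi * Y' * Yi)) * X + star X1 * Yi * X'
      = -(star X1 * Yi * (Y' * Yi * X - X')) := by noncomm_ring
    _ = -(star X1 * Yi * (star Yi * X1)) := by rw [e]
    _ = -(star X1 * (Yi * star Yi) * X1) := by simp only [mul_assoc]

end alg

section opE

variable {E : Type*} [NormedAddCommGroup E] [InnerProductSpace ℝ E] [FiniteDimensional ℝ E]

lemma sa_abs {X X' Y Y' X1 : E →L[ℝ] E} (hX : star X' * X = star X * X')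
    (hY : star Y' * Y = star Y * Y')
    (hm : X1 = star Y' * X - star Y * X') (hu : IsUnit Y) :
    IsSelfAdjoint (star X1 * Ring.inverse Y * X) := by
  have h1 : Y * Ring.inverse Y = 1 := Ring.mul_inverse_cancel _ hu
  exact alg_sa hX hY hm h1

lemma der_abs {X Y : ℝ → E →L[ℝ] E} {X' Y' X1 : E →L[ℝ] E} {t : ℝ}
    (hY : star Y' * Y t = star (Y t) * Y')
    (hm : X1 = star Y' * X t - star (Y t) * X') (hu : IsUnit (Y t))
    (hXd : HasDerivAt X X' t) (hYd : HasDerivAt Y Y' t) :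
    HasDerivAt (fun t => star X1 * Ring.inverse (Y t) * X t)
      (-(star X1 * (Ring.inverse (Y t) * star (Ring.inverse (Y t))) * X1)) t := by
  have h1 : Y t * Ring.inverse (Y t) = 1 := Ring.mul_inverse_cancel _ hu
  have hinv : HasDerivAt (fun t => Ring.inverse (Y t))
      (-(Ring.inverse (Y t) * Y' * Ring.inverse (Y t))) t := by
    obtain ⟨u, hu'⟩ := hu
    have h2 := hasFDerivAt_ringInverse (𝕜 := ℝ) u
    have h3 : Ring.inverse (Y t) = (↑u⁻¹ : E →L[ℝ] E) := by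
      rw [← hu', Ring.inverse_unit]
    rw [hu'] at h2
    have h4 := h2.comp_hasDerivAt t hYd
    refine h4.congr_deriv ?_
    rw [h3]
    simp
  have h5 := (((hasDerivAt_const t (star X1)).mul hinv).mul hXd)
  have h6 := alg_der hY hm h1
  refine h5.congr_deriv ?_
  rw [zero_mul, zero_add]
  exact h6

end opE

lemma star_mul_eq_of_inner {A B C D' : Euc N →L[ℝ] Euc N}
    (h : ∀ w u, ⟪A w, B u⟫ = ⟪C w, D' u⟫) : star A * B = star C * D' := by
  ext1 u
  refine ext_inner_left ℝ fun w => ?_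
  rw [ContinuousLinearMap.star_eq_adjoint, ContinuousLinearMap.star_eq_adjoint,
    mul_apply_eq_comp, mul_apply_eq_comp, ContinuousLinearMap.adjoint_inner_right,
    ContinuousLinearMap.adjoint_inner_right, h]

lemma op_self (hq : q ∈ TS G) (s t : ℝ) :
    star (Xe' G q s t) * Xe G q s t = star (Xe G q s t) * Xe' G q s t :=
  star_mul_eq_of_inner (wr_self hq s t)

lemma op_mixed (hq : q ∈ TS G) (s t : ℝ) :
    Xe G q 0 s = star (Xe' G q s t) * Xe G q 0 t - star (Xe G q s t) * Xe' G q 0 t := by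
  ext1 u
  refine ext_inner_left ℝ fun w => ?_
  rw [sub_apply, inner_sub_right, ContinuousLinearMap.star_eq_adjoint,
    ContinuousLinearMap.star_eq_adjoint,
    mul_apply_eq_comp, mul_apply_eq_comp, ContinuousLinearMap.adjoint_inner_right,
    ContinuousLinearMap.adjoint_inner_right, wr_mixed hq]


/-- abbreviation of the inverse -/
def Yi (G : Geo n N κ S) (q : Euc N × Euc N) (s t : ℝ) : Euc N →L[ℝ] Euc N :=
  Ring.inverse (Xe G q s t)

lemma unit_Xe (hnc : NC G D) (hq : q ∈ US G) {s t : ℝ} (h0 : 0 < t - s) (hD : t - s < D) :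
    IsUnit (Xe G q s t) := isUnit_of_inj fun _ h => Xe_inj hnc hq h0 hD h

lemma sa_Qf (hnc : NC G D) (hq : q ∈ US G) {s t : ℝ} (h0 : 0 < t - s) (hD : t - s < D) :
    IsSelfAdjoint (Qf G s q t) :=
  sa_abs (op_self hq.1 0 t) (op_self hq.1 s t) (op_mixed hq.1 s t) (unit_Xe hnc hq h0 hD)

lemma hasDerivAt_Qf (hnc : NC G D) (hq : q ∈ US G) {s t : ℝ} (h0 : 0 < t - s) (hD : t - s < D) :
    HasDerivAt (Qf G s q) (-(star (Xe G q 0 s) * (Yi G q s t * star (Yi G q s t)) * Xe G q 0 s))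
      t :=
  der_abs (X := fun t => Xe G q 0 t) (Y := fun t => Xe G q s t) (op_self hq.1 s t)
    (op_mixed hq.1 s t) (unit_Xe hnc hq h0 hD) (hasDerivAt_Xe hq.1 0 t) (hasDerivAt_Xe hq.1 s t)

lemma Qf_zero_iff (hnc : NC G D) (hq : q ∈ US G) {s t : ℝ} (hs : 0 < s) (hsD : s < D)
    (h0 : 0 < t - s) (hD : t - s < D) {x : Euc N} : Qf G s q t x = 0 ↔ Xe G q 0 t x = 0 := by
  have hu := unit_Xe hnc hq h0 hD
  have hu0 : IsUnit (star (Xe G q 0 s)) :=
    (unit_Xe (s := 0) (t := s) hnc hq (by simpa using hs) (by simpa using hsD)).star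
  have hu2 : IsUnit (Ring.inverse (Xe G q s t)) := hu.ringInverse
  constructor
  · intro h
    rw [Qf, mul_apply_eq_comp, mul_apply_eq_comp] at h
    obtain ⟨a, ha⟩ := hu0
    obtain ⟨b, hb⟩ := hu2
    have h1 : Ring.inverse (Xe G q s t) (Xe G q 0 t x) = 0 := by
      have h2 : (↑a⁻¹ : Euc N →L[ℝ] Euc N) * star (Xe G q 0 s) = 1 := by
        rw [← ha]; exact a.inv_mul
      have h3 := congrArg (fun T : Euc N →L[ℝ] Euc N =>
        T (Ring.inverse (Xe G q s t) (Xe G q 0 t x))) h2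
      simp only [mul_apply_eq_comp, h, map_zero, one_apply_eq_self] at h3
      exact h3.symm
    have h2 : (↑b⁻¹ : Euc N →L[ℝ] Euc N) * Ring.inverse (Xe G q s t) = 1 := by
      rw [← hb]; exact b.inv_mul
    have h3 := congrArg (fun T : Euc N →L[ℝ] Euc N => T (Xe G q 0 t x)) h2
    simp only [mul_apply_eq_comp, h1, map_zero, one_apply_eq_self] at h3
    exact h3.symm
  · intro h
    rw [Qf, mul_apply_eq_comp, h, map_zero]

lemma continuousAt_Xe (hq : q ∈ TS G) (s t : ℝ) :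
    ContinuousAt (fun p : (Euc N × Euc N) × ℝ => Xe G p.1 s p.2) (q, t) := by
  have h1 : ContinuousAt (fun p : (Euc N × Euc N) × ℝ => At G p.1 s p.2) (q, t) :=
    ContinuousAt.comp (g := fun z : (Euc N × Euc N) × ℝ × ℝ => At G z.1 z.2.1 z.2.2)
      (f := fun p : (Euc N × Euc N) × ℝ => (p.1, s, p.2)) (x := (q, t))
      (contDiffAt_At hq s t).continuousAt (by fun_prop)
  have h2 : ContinuousAt (fun p : (Euc N × Euc N) × ℝ => G.P p.1.1) (q, t) :=
    ContinuousAt.comp (g := G.P) (f := fun p : (Euc N × Euc N) × ℝ => p.1.1) (x := (q, t))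
      G.contDiff_P.continuous.continuousAt (by fun_prop)
  have h3 : ContinuousAt (fun p : (Euc N × Euc N) × ℝ => (p.2 - s)) (q, t) := by fun_prop
  exact h1.add (h3.smul (continuousAt_const.sub h2))

lemma continuousAt_Qf (hnc : NC G D) (hq : q ∈ US G) {s t : ℝ} (h0 : 0 < t - s)
    (hD : t - s < D) :
    ContinuousAt (fun p : (Euc N × Euc N) × ℝ => Qf G s p.1 p.2) (q, t) := by
  have hu := unit_Xe hnc hq h0 hD
  have h1 : ContinuousAt (fun p : (Euc N × Euc N) × ℝ => Xe G p.1 0 s) (q, t) :=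
    ContinuousAt.comp (g := fun p : (Euc N × Euc N) × ℝ => Xe G p.1 0 p.2)
      (f := fun p : (Euc N × Euc N) × ℝ => (p.1, s)) (x := (q, t))
      (continuousAt_Xe hq.1 0 s) (by fun_prop)
  have h2 : ContinuousAt (fun p : (Euc N × Euc N) × ℝ => Ring.inverse (Xe G p.1 s p.2)) (q, t) := by
    obtain ⟨u, hu⟩ := hu
    have h3 := NormedRing.inverse_continuousAt u
    rw [hu] at h3
    exact ContinuousAt.comp (g := Ring.inverse) (f := fun p : (Euc N × Euc N) × ℝ => Xe G p.1 s p.2)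
      (x := (q, t)) h3 (continuousAt_Xe hq.1 s t)
  have h4 : ContinuousAt (fun p : (Euc N × Euc N) × ℝ => star (Xe G p.1 0 s)) (q, t) :=
    ContinuousAt.comp (g := fun L : Euc N →L[ℝ] Euc N => ContinuousLinearMap.adjoint L)
      (f := fun p : (Euc N × Euc N) × ℝ => Xe G p.1 0 s) (x := (q, t))
      (ContinuousLinearMap.adjoint (𝕜 := ℝ) (E := Euc N) (F := Euc N)).continuous.continuousAt h1
  exact (h4.mul h2).mul (continuousAt_Xe hq.1 0 t)

/-- **(6)**: the multiplicity is locally constant on `Zs`. -/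
theorem multConst (hD : 0 < D) (hnc : NC G D) : MultConst G D := by
  intro z0 hz0
  have hs : 0 < D / 2 := by positivity
  have hsD : D / 2 < D := by linarith
  have hker : ∀ z ∈ Zs G D, Module.finrank ℝ (LinearMap.ker (Qf G (D / 2) z D :
      Euc N →ₗ[ℝ] Euc N)) = mult G D z := by
    intro z hz
    have : LinearMap.ker (Qf G (D / 2) z D : Euc N →ₗ[ℝ] Euc N) = Mk G D z := by
      ext x
      rw [mem_Mk]
      change Qf G (D / 2) z D x = 0 ↔ _
      rw [Qf_zero_iff hnc hz.1 hs hsD (by linarith) (by linarith),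
        Xe_eq_zero hz.1.1 (by simpa using hD.ne')]
      constructor
      · rintro ⟨h1, h2⟩
        exact ⟨h1, (fderiv_Exp_eq_zero_iff hz.1.1 hD.ne' h1).2 h2⟩
      · rintro ⟨h1, h2⟩
        exact ⟨h1, (fderiv_Exp_eq_zero_iff hz.1.1 hD.ne' h1).1 h2⟩
    rw [mult, this]
  have hcr := crossing (E := Euc N) (Qf G (D / 2)) (S := Zs G D) (z0 := z0) (D := D) (ε := D / 4)
    (by positivity) hz0
    (fun z hz t ht => sa_Qf hnc hz.1 (by linarith [ht.1]) (by linarith [ht.2]))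
    (fun z hz t ht => continuousAt_Qf hnc hz.1 (by linarith [ht.1]) (by linarith [ht.2]))
    (fun z hz t ht htD x hx => by
      rw [Qf_zero_iff hnc hz.1 hs hsD (by linarith [ht.1]) (by linarith [ht.2])] at hx
      rcases lt_or_gt_of_ne htD with h | h
      · exact Xe_inj hnc hz.1 (by linarith [ht.1]) (by linarith) hx
      · exact Xe_inj_after hnc hz h (by linarith [ht.2]) hD hx)
    (hasDerivAt_Qf hnc hz0.1 (by linarith) (by linarith))
    (fun x hx => by
      rw [neg_apply, inner_neg_left, neg_lt_zero, mul_apply_eq_comp, mul_apply_eq_comp,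
        mul_apply_eq_comp, ContinuousLinearMap.star_eq_adjoint,
        ContinuousLinearMap.adjoint_inner_left, ← ContinuousLinearMap.adjoint_inner_right,
        ContinuousLinearMap.star_eq_adjoint, real_inner_self_eq_norm_sq]
      have h1 : ContinuousLinearMap.adjoint (Yi G z0 (D / 2) D) (Xe G z0 0 (D / 2) x) ≠ 0 := by
        intro h
        have hu : IsUnit (star (Yi G z0 (D / 2) D)) :=
          (unit_Xe (s := D / 2) (t := D) hnc hz0.1 (by linarith) (by linarith)).ringInverse.star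
        obtain ⟨a, ha⟩ := hu
        have h2 : (↑a⁻¹ : Euc N →L[ℝ] Euc N) * star (Yi G z0 (D / 2) D) = 1 := by
          rw [← ha]; exact a.inv_mul
        have h3 := congrArg (fun T : Euc N →L[ℝ] Euc N => T (Xe G z0 0 (D / 2) x)) h2
        simp only [mul_apply_eq_comp, ContinuousLinearMap.star_eq_adjoint, h, map_zero,
          one_apply_eq_self] at h3
        exact hx (Xe_inj hnc hz0.1 (by linarith) (by linarith) h3.symm)
      have := norm_pos_iff.2 h1
      positivity)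
  filter_upwards [hcr, self_mem_nhdsWithin] with z hz hzZ
  rw [← hker z hzZ, ← hker z0 hz0]
  exact hz

end Crest.Agent.R208.IC
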