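import Crest.Agent.R208.JT2_Mg
import Crest.Agent.R208.JTDefs
import Crest.Agent.R208.FH9a

-- ▼ part R208/JT6
section

/-!
R208, block JT (helper631), part 6: the mixed Hessian form on `V × V` and its top power.
-/

set_option autoImplicit false
set_option linter.unusedSectionVars false

open Set Filter Topology Module MeasureTheory
open scoped NNReal ContDiff RealInnerProductSpace

noncomputable section

namespace Crest.Agent.R208.JT

open Crest.Agent.R208.F (Ext io inv pb top ii wd io_mul inv_io pb_io ii_mul ii_io_mul ii_io ii_pb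
  ii_one wd_apply evA evA_ii sb top_pb_det pb_comp)
open Crest.Agent.R208.FI (kap)

section pbwd
variable {E E' : Type*} [NormedAddCommGroup E] [NormedSpace ℝ E] [FiniteDimensional ℝ E]
  [NormedAddCommGroup E'] [NormedSpace ℝ E'] [FiniteDimensional ℝ E']

/-- pull-back of a bilinear form -/
def pbt (A : E →L[ℝ] E') (t : E' →L[ℝ] (E' →L[ℝ] ℝ)) : E →L[ℝ] (E →L[ℝ] ℝ) :=
  ((ContinuousLinearMap.compL ℝ E E' ℝ).flip A).comp (t.comp A)

@[simp] lemma pbt_apply (A : E →L[ℝ] E') (t : E' →L[ℝ] (E' →L[ℝ] ℝ)) (u v : E) :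
    pbt A t u v = t (A u) (A v) := rfl

lemma pb_wd_io (A : E →L[ℝ] E') (t : E' →L[ℝ] (E' →L[ℝ] ℝ)) :
    pb (A : E →ₗ[ℝ] E') (wd E' ((ioL E').comp t)) = wd E ((ioL E).comp (pbt A t)) := by
  rw [wd_apply, wd_apply, map_sum]
  set b := finBasis ℝ E'
  set c := finBasis ℝ E
  have h1 : ∀ i, pb (A : E →ₗ[ℝ] E') (io (b.coord i) * ((ioL E').comp t) (b i)) =
      ∑ j, b.coord i (A (c j)) • (io (c.coord j) *
        io (((t (b i)).comp A : E →L[ℝ] ℝ) : Module.Dual ℝ E)) := by
    intro i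
    have e1 : pb (A : E →ₗ[ℝ] E') (((ioL E').comp t) (b i)) =
        io (((t (b i)).comp A : E →L[ℝ] ℝ) : Module.Dual ℝ E) := by
      change pb (A : E →ₗ[ℝ] E') (io _) = _
      rw [pb_io]; rfl
    rw [map_mul, pb_io, e1]
    have e2 : io (b.coord i ∘ₗ (A : E →ₗ[ℝ] E')) =
        ∑ j, b.coord i (A (c j)) • io (c.coord j) := by
      conv_lhs => rw [← F.coord_sum c (b.coord i ∘ₗ (A : E →ₗ[ℝ] E'))]
      simp only [map_sum, map_smul]
      rfl
    rw [e2, Finset.sum_mul]
    refine Finset.sum_congr rfl fun j _ => ?_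
    rw [smul_mul_assoc]
  simp only [h1]
  rw [Finset.sum_comm]
  refine Finset.sum_congr rfl fun j _ => ?_
  have h2 : ((ioL E).comp (pbt A t)) (c j) = ∑ i, b.coord i (A (c j)) •
      io (((t (b i)).comp A : E →L[ℝ] ℝ) : Module.Dual ℝ E) := by
    have e3 : t (A (c j)) = ∑ i, b.coord i (A (c j)) • t (b i) := by
      conv_lhs => rw [← b.sum_repr (A (c j))]
      simp only [map_sum, map_smul]
      rfl
    have e4 : pbt A t (c j) = ∑ i, b.coord i (A (c j)) • (t (b i)).comp A := by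
      ext u
      rw [pbt_apply, e3]
      simp
    rw [ContinuousLinearMap.comp_apply, e4, map_sum]
    refine Finset.sum_congr rfl fun i _ => ?_
    rw [map_smul]; rfl
  rw [h2, Finset.mul_sum]
  refine Finset.sum_congr rfl fun i _ => ?_
  rw [mul_smul_comm]

end pbwd

section mixed
variable {m : ℕ}

/-- pairs -/
abbrev PP (m : ℕ) := Eu m × Eu m

/-- `(a, b) ↦ (a, 0)` -/
def prX (m : ℕ) : PP m →L[ℝ] PP m :=
  (ContinuousLinearMap.inl ℝ (Eu m) (Eu m)).comp (ContinuousLinearMap.fst ℝ (Eu m) (Eu m))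

/-- `(a, b) ↦ (0, b)` -/
def prY (m : ℕ) : PP m →L[ℝ] PP m :=
  (ContinuousLinearMap.inr ℝ (Eu m) (Eu m)).comp (ContinuousLinearMap.snd ℝ (Eu m) (Eu m))

@[simp] lemma prX_apply (u : PP m) : prX m u = (u.1, 0) := rfl

@[simp] lemma prY_apply (u : PP m) : prY m u = (0, u.2) := rfl

lemma prX_add_prY (u : PP m) : (u.1, (0 : Eu m)) + ((0 : Eu m), u.2) = u := by
  ext <;> simp

/-- the antisymmetrised covector -/
def lamL (m : ℕ) : (PP m →L[ℝ] ℝ) →L[ℝ] (PP m →L[ℝ] ℝ) :=
  (1 / 2 : ℝ) • ((ContinuousLinearMap.compL ℝ (PP m) (PP m) ℝ).flip (prY m) -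
    (ContinuousLinearMap.compL ℝ (PP m) (PP m) ℝ).flip (prX m))

lemma lamL_apply (l : PP m →L[ℝ] ℝ) (u : PP m) :
    lamL m l u = (1 / 2 : ℝ) * (l (0, u.2) - l (u.1, 0)) := rfl

/-- the bilinear form `(u, v) ↦ M u₁ v₂` -/
def tM (M : Eu m →L[ℝ] Eu m →L[ℝ] ℝ) : PP m →L[ℝ] (PP m →L[ℝ] ℝ) :=
  ((ContinuousLinearMap.compL ℝ (PP m) (Eu m) ℝ).flip
    (ContinuousLinearMap.snd ℝ (Eu m) (Eu m))).comp
    (M.comp (ContinuousLinearMap.fst ℝ (Eu m) (Eu m)))

@[simp] lemma tM_apply (M : Eu m →L[ℝ] Eu m →L[ℝ] ℝ) (u v : PP m) : tM M u v = M u.1 v.2 := rfl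

/-- the two-form `∑ M(eᵢ, eⱼ) dXᵢ ∧ dYⱼ` -/
def Om (M : Eu m →L[ℝ] Eu m →L[ℝ] ℝ) : Ext (PP m) := wd (PP m) ((ioL (PP m)).comp (tM M))

lemma Om_two (M : Eu m →L[ℝ] Eu m →L[ℝ] ℝ) : Om M ∈ Two (PP m) := wd_io_two _

lemma ii_Om (M : Eu m →L[ℝ] Eu m →L[ℝ] ℝ) (w : PP m) :
    ii w (Om M) = io ((tM M w - (tM M).flip w : PP m →L[ℝ] ℝ) : Module.Dual ℝ (PP m)) :=
  ii_wd_io _ _

/-- the mixed part of a bilinear form -/
def mixH (B : PP m →L[ℝ] PP m →L[ℝ] ℝ) : Eu m →L[ℝ] Eu m →L[ℝ] ℝ :=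
  ((ContinuousLinearMap.compL ℝ (Eu m) (PP m) ℝ).flip
    (ContinuousLinearMap.inr ℝ (Eu m) (Eu m))).comp
    (B.comp (ContinuousLinearMap.inl ℝ (Eu m) (Eu m)))

@[simp] lemma mixH_apply (B : PP m →L[ℝ] PP m →L[ℝ] ℝ) (a b : Eu m) :
    mixH B a b = B (a, 0) (0, b) := rfl

/-- the differential of the antisymmetrised form is the mixed Hessian. -/
theorem d_lam {f : PP m → ℝ} {p : PP m} (hf : ContDiffAt ℝ 2 f p) :
    F.d (fun q => ioL (PP m) (lamL m (fderiv ℝ f q))) p =
      Om (mixH (fderiv ℝ (fderiv ℝ f) p)) := by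
  set B := fderiv ℝ (fderiv ℝ f) p with hB
  have h1 : HasFDerivAt (fderiv ℝ f) B p :=
    ((hf.fderiv_right (m := 1) (by norm_num)).differentiableAt (by norm_num)).hasFDerivAt
  have h2 : HasFDerivAt (fun q => ioL (PP m) (lamL m (fderiv ℝ f q)))
      ((ioL (PP m)).comp ((lamL m).comp B)) p :=
    (ioL (PP m)).hasFDerivAt.comp p ((lamL m).hasFDerivAt.comp p h1)
  rw [F.d_of_hasFDerivAt h2, Om, ← sub_eq_zero, ← map_sub, ← ContinuousLinearMap.comp_sub]
  refine wd_io_symm _ fun u v => ?_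
  have hs : ∀ x y, B x y = B y x := fun x y => F.fderiv_symm hf x y
  have e : ∀ u v : PP m, ((lamL m).comp B - tM (mixH B)) u v =
      (1 / 2 : ℝ) * (B u (0, v.2) - B u (v.1, 0)) - B (u.1, 0) (0, v.2) := fun u v => rfl
  rw [e, e]
  have u1 : B u (0, v.2) = B (u.1, 0) (0, v.2) + B (0, u.2) (0, v.2) := by
    conv_lhs => rw [← prX_add_prY u, map_add, add_apply]
  have u2 : B u (v.1, 0) = B (u.1, 0) (v.1, 0) + B (0, u.2) (v.1, 0) := by
    conv_lhs => rw [← prX_add_prY u, map_add, add_apply]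
  have v1 : B v (0, u.2) = B (v.1, 0) (0, u.2) + B (0, v.2) (0, u.2) := by
    conv_lhs => rw [← prX_add_prY v, map_add, add_apply]
  have v2 : B v (u.1, 0) = B (v.1, 0) (u.1, 0) + B (0, v.2) (u.1, 0) := by
    conv_lhs => rw [← prX_add_prY v, map_add, add_apply]
  rw [u1, u2, v1, v2, hs (0, v.2) (0, u.2), hs (0, v.2) (u.1, 0), hs (v.1, 0) (u.1, 0),
    hs (0, u.2) (v.1, 0)]
  ring

end mixed

section ring
variable {R : Type*} [Ring R]

lemma add_pow_sq_zero {a S : R} (hc : a * S = S * a) (h : a * a = 0) (k : ℕ) :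
    (a + S) ^ (k + 1) = S ^ (k + 1) + (k + 1) * (a * S ^ k) := by
  induction k with
  | zero => simp [add_comm]
  | succ k ih =>
    have hc' : ∀ j, a * S ^ j = S ^ j * a := fun j => ((show Commute a S from hc).pow_right j)
    rw [pow_succ (a + S), ih, add_mul, mul_add, ← pow_succ, mul_add, mul_assoc ((k : R) + 1),
      mul_assoc ((k : R) + 1), mul_assoc a, mul_assoc a, ← hc' k, ← mul_assoc a a, h, zero_mul,
      mul_zero, zero_add, ← pow_succ, ← hc' (k + 1)]
    push_cast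
    noncomm_ring

lemma sum_pow_prod {n : ℕ} (a : Fin n → R) (hc : ∀ i x, a i * x = x * a i)
    (h : ∀ i, a i * a i = 0) :
    (∑ i, a i) ^ n = (n.factorial : R) * (List.ofFn a).prod ∧ (∑ i, a i) ^ (n + 1) = 0 := by
  induction n with
  | zero => simp
  | succ n ih =>
    obtain ⟨h1, h2⟩ := ih (fun i => a i.succ) (fun i => hc i.succ) fun i => h i.succ
    rw [Fin.sum_univ_succ]
    constructor
    · rw [add_pow_sq_zero (hc 0 _) (h 0), h2, zero_add, h1, List.ofFn_succ, List.prod_cons,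
        Nat.factorial_succ]
      push_cast
      have : a 0 * ((n.factorial : R) * (List.ofFn fun i => a i.succ).prod) =
          (n.factorial : R) * (a 0 * (List.ofFn fun i => a i.succ).prod) := by
        rw [← mul_assoc, hc 0, mul_assoc]
      rw [this]
      noncomm_ring
    · rw [add_pow_sq_zero (hc 0 _) (h 0), pow_succ, h2, zero_mul, mul_zero, mul_zero, add_zero]

end ring

section evl
variable {E : Type*} [AddCommGroup E] [Module ℝ E]

lemma ii_prod_zero (Z : E) {n : ℕ} (l l' : Fin n → Module.Dual ℝ E) (h : ∀ i, l i Z = 0)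
    (h' : ∀ i, l' i Z = 0) : ii Z (List.ofFn fun i => io (l i) * io (l' i)).prod = 0 := by
  induction n with
  | zero => simp
  | succ n ih =>
    rw [List.ofFn_succ, List.prod_cons, mul_assoc, ii_io_mul, h 0, zero_smul, ii_io_mul, h' 0,
      zero_smul, ih (fun i => l i.succ) (fun i => l' i.succ) (fun i => h i.succ)
        (fun i => h' i.succ), mul_zero, sub_zero, mul_zero, sub_zero]

lemma exists_evA_prod {n : ℕ} (l l' : Fin n → Module.Dual ℝ E) (e f : Fin n → E)
    (h1 : ∀ i j, l i (e j) = if i = j then 1 else 0) (h2 : ∀ i j, l' i (f j) = if i = j then 1 else 0)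
    (h3 : ∀ i j, l i (f j) = 0) (h4 : ∀ i j, l' i (e j) = 0) :
    ∃ v : Fin (2 * n) → E, evA E (2 * n) (List.ofFn fun i => io (l i) * io (l' i)).prod v = 1 := by
  induction n with
  | zero =>
    refine ⟨fun i => i.elim0, ?_⟩
    have := F.evA_zero_algebraMap (E := E) 1 (fun i => i.elim0)
    rw [map_one] at this
    simpa using this
  | succ n ih =>
    obtain ⟨v, hv⟩ := ih (fun i => l i.succ) (fun i => l' i.succ) (fun i => e i.succ)
      (fun i => f i.succ) (fun i j => by rw [h1]; simp [Fin.succ_inj])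
      (fun i j => by rw [h2]; simp [Fin.succ_inj]) (fun i j => h3 _ _) (fun i j => h4 _ _)
    set P := (List.ofFn fun i : Fin n => io (l i.succ) * io (l' i.succ)).prod with hP
    have e1 : ii (e 0) P = 0 := ii_prod_zero _ _ _
      (fun i => by rw [h1]; exact if_neg (Fin.succ_ne_zero i)) fun i => h4 _ _
    have e2 : ii (f 0) P = 0 := ii_prod_zero _ _ _ (fun i => h3 _ _)
      (fun i => by rw [h2]; exact if_neg (Fin.succ_ne_zero i))
    refine ⟨(Matrix.vecCons (e 0) (Matrix.vecCons (f 0) v) : Fin (2 * n + 1 + 1) → E), ?_⟩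
    change evA E (2 * n + 1 + 1) _ _ = 1
    rw [List.ofFn_succ, List.prod_cons, evA_ii, evA_ii, mul_assoc, ← hP, ii_io_mul, h1, if_pos rfl,
      one_smul, ii_io_mul, h4, zero_smul, e1, mul_zero, sub_zero, mul_zero, sub_zero, ii_io_mul, h2,
      if_pos rfl, one_smul, e2, mul_zero, sub_zero]
    exact hv

end evl

section topOm
variable {m : ℕ}

/-- determinant of a bilinear form on `ℝ^m` -/
def detM (M : Eu m →L[ℝ] Eu m →L[ℝ] ℝ) : ℝ :=
  (Matrix.of fun i j : Fin m =>
    M (EuclideanSpace.basisFun (Fin m) ℝ i) (EuclideanSpace.basisFun (Fin m) ℝ j)).det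

/-- the euclidean form -/
def M₀ (m : ℕ) : Eu m →L[ℝ] Eu m →L[ℝ] ℝ := innerSL ℝ

@[simp] lemma M₀_apply (a b : Eu m) : M₀ m a b = ⟪a, b⟫ := rfl

/-- `κ` as a linear map -/
def kl (m : ℕ) : Eu (m + m) →L[ℝ] PP m := (kap m m : Eu (m + m) →L[ℝ] PP m)

@[simp] lemma kl_apply (z : Eu (m + m)) : kl m z = kap m m z := rfl

/-- normalisation constant -/
def c₀ (m : ℕ) : ℝ := top (m + m) (pb (kl m : Eu (m + m) →ₗ[ℝ] PP m) (Om (M₀ m)) ^ m)

lemma pb_Om₀ : pb (kl m : Eu (m + m) →ₗ[ℝ] PP m) (Om (M₀ m)) =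
    ∑ i : Fin m, io ((sb (m + m)).coord (Fin.castAdd m i)) *
      io ((sb (m + m)).coord (Fin.natAdd m i)) := by
  rw [Om, pb_wd_io, F.wd_basis (sb (m + m)), Fin.sum_univ_add]
  have h2 : ∀ i : Fin m, io ((sb (m + m)).coord (Fin.natAdd m i)) *
      ((ioL (Eu (m + m))).comp (pbt (kl m) (tM (M₀ m)))) (sb (m + m) (Fin.natAdd m i)) = 0 := by
    intro i
    have : pbt (kl m) (tM (M₀ m)) (sb (m + m) (Fin.natAdd m i)) = 0 := by
      ext u
      rw [pbt_apply, tM_apply, kl_apply, FI.kap_natAdd]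
      simp
    rw [ContinuousLinearMap.comp_apply, this, map_zero, mul_zero]
  rw [Finset.sum_eq_zero (fun i _ => h2 i), add_zero]
  refine Finset.sum_congr rfl fun i _ => ?_
  congr 1
  rw [ContinuousLinearMap.comp_apply, ioL_apply]
  congr 1
  ext u
  change tM (M₀ m) (kl m (sb (m + m) (Fin.castAdd m i))) (kl m u) = _
  rw [tM_apply, kl_apply, FI.kap_castAdd, M₀_apply, kl_apply]
  simp [EuclideanSpace.basisFun_apply, EuclideanSpace.inner_single_left]

lemma top_ne_zero_of_evA {k : ℕ} {c : Ext (Eu k)} {v : Fin k → Eu k} (h : evA (Eu k) k c v ≠ 0) :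
    top k c ≠ 0 := by
  intro h0
  apply h
  rw [F.evA_comb k c (sb k) v (Matrix.of fun i j => (sb k).repr (v i) j)
    (fun i => ((sb k).sum_repr (v i)).symm)]
  rw [F.top_apply] at h0
  rw [h0, mul_zero]

theorem c₀_ne (m : ℕ) : c₀ m ≠ 0 := by
  have hT : ∀ i : Fin m, io ((sb (m + m)).coord (Fin.castAdd m i)) *
      io ((sb (m + m)).coord (Fin.natAdd m i)) ∈ Two (Eu (m + m)) := fun i => two_io_io _ _
  have h1 := (sum_pow_prod (fun i : Fin m => io ((sb (m + m)).coord (Fin.castAdd m i)) *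
      io ((sb (m + m)).coord (Fin.natAdd m i))) (fun i x => Two.comm (hT i) x) (fun i => by
        rw [mul_assoc, ← mul_assoc (io ((sb (m + m)).coord (Fin.natAdd m i))), F.io_anti
          ((sb (m + m)).coord (Fin.natAdd m i)), neg_mul, mul_neg, mul_assoc, F.io_sq, mul_zero,
          mul_zero, neg_zero])).1
  rw [c₀, pb_Om₀, h1]
  have h2 : ((m.factorial : Ext (Eu (m + m)))) * (List.ofFn fun i : Fin m =>
      io ((sb (m + m)).coord (Fin.castAdd m i)) * io ((sb (m + m)).coord (Fin.natAdd m i))).prod =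
      (m.factorial : ℝ) • (List.ofFn fun i : Fin m =>
      io ((sb (m + m)).coord (Fin.castAdd m i)) * io ((sb (m + m)).coord (Fin.natAdd m i))).prod := by
    rw [Algebra.smul_def, map_natCast]
  rw [h2, map_smul, smul_eq_mul]
  refine mul_ne_zero (by exact_mod_cast m.factorial_ne_zero) ?_
  obtain ⟨v, hv⟩ := exists_evA_prod (n := m) (fun i => (sb (m + m)).coord (Fin.castAdd m i))
    (fun i => (sb (m + m)).coord (Fin.natAdd m i)) (fun i => sb (m + m) (Fin.castAdd m i))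
    (fun i => sb (m + m) (Fin.natAdd m i))
    (fun i j => by
      rw [Basis.coord_apply, Basis.repr_self, Finsupp.single_apply]
      simp [Fin.ext_iff, eq_comm])
    (fun i j => by
      rw [Basis.coord_apply, Basis.repr_self, Finsupp.single_apply]
      simp [Fin.ext_iff, eq_comm])
    (fun i j => by
      rw [Basis.coord_apply, Basis.repr_self, Finsupp.single_apply]
      refine if_neg ?_
      intro h
      have := congrArg Fin.val h
      simp at this
      omega)
    (fun i j => by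
      rw [Basis.coord_apply, Basis.repr_self, Finsupp.single_apply]
      refine if_neg ?_
      intro h
      have := congrArg Fin.val h
      simp at this
      omega)
  refine top_ne_zero_of_evA (v := v ∘ Fin.cast (two_mul m).symm) ?_
  rw [FI.evA_cast, hv]
  exact one_ne_zero

/-- the endomorphism of a bilinear form -/
def sM (M : Eu m →L[ℝ] Eu m →L[ℝ] ℝ) : Eu m →L[ℝ] Eu m :=
  ∑ i, (M (EuclideanSpace.basisFun (Fin m) ℝ i)).smulRight (EuclideanSpace.basisFun (Fin m) ℝ i)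

lemma sM_inner (M : Eu m →L[ℝ] Eu m →L[ℝ] ℝ) (a b : Eu m) : ⟪a, sM M b⟫ = M a b := by
  have h := (EuclideanSpace.basisFun (Fin m) ℝ).sum_repr' a
  conv_rhs => rw [← h]
  simp only [sM, sum_apply, ContinuousLinearMap.smulRight_apply, inner_sum,
    inner_smul_right, map_sum, map_smul]
  refine Finset.sum_congr rfl fun i _ => ?_
  rw [smul_apply, smul_eq_mul, real_inner_comm]
  ring

lemma det_sM (M : Eu m →L[ℝ] Eu m →L[ℝ] ℝ) : (sM M).det = detM M := by
  rw [ContinuousLinearMap.det, ← LinearMap.det_toMatrix (sb m), detM]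
  congr 1
  ext i j
  rw [LinearMap.toMatrix_apply, Matrix.of_apply, ← sM_inner]
  simp [EuclideanSpace.inner_single_left]

lemma Om_eq_pb (M : Eu m →L[ℝ] Eu m →L[ℝ] ℝ) : Om M =
    pb (((ContinuousLinearMap.id ℝ (Eu m)).prodMap (sM M) : PP m →L[ℝ] PP m) : PP m →ₗ[ℝ] PP m)
      (Om (M₀ m)) := by
  rw [Om, Om, pb_wd_io]
  congr 2
  ext u v
  all_goals
    simp [sM_inner]

theorem top_pb_Om (A : Eu (m + m) →L[ℝ] Eu (m + m)) (M : Eu m →L[ℝ] Eu m →L[ℝ] ℝ) :
    top (m + m) (pb (((kl m).comp A : Eu (m + m) →L[ℝ] PP m) : Eu (m + m) →ₗ[ℝ] PP m) (Om M) ^ m) =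
      A.det * (detM M * c₀ m) := by
  have h1 : pb (((kl m).comp A : Eu (m + m) →L[ℝ] PP m) : Eu (m + m) →ₗ[ℝ] PP m) (Om M) =
      pb (A : Eu (m + m) →ₗ[ℝ] Eu (m + m)) (pb (kl m : Eu (m + m) →ₗ[ℝ] PP m) (Om M)) := by
    rw [pb_comp]; rfl
  set T : PP m →ₗ[ℝ] PP m :=
    (((ContinuousLinearMap.id ℝ (Eu m)).prodMap (sM M) : PP m →L[ℝ] PP m) : PP m →ₗ[ℝ] PP m) with hT
  set B : Eu (m + m) →ₗ[ℝ] Eu (m + m) :=
    ((kap m m).symm.toLinearEquiv : PP m →ₗ[ℝ] Eu (m + m)) ∘ₗ T ∘ₗ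
      (((kap m m).symm.toLinearEquiv.symm : Eu (m + m) ≃ₗ[ℝ] PP m) : Eu (m + m) →ₗ[ℝ] PP m) with hB
  have h2 : pb (kl m : Eu (m + m) →ₗ[ℝ] PP m) (Om M) =
      pb B (pb (kl m : Eu (m + m) →ₗ[ℝ] PP m) (Om (M₀ m))) := by
    rw [pb_comp, Om_eq_pb M, pb_comp, ← hT]
    have hXY : T ∘ₗ (kl m : Eu (m + m) →ₗ[ℝ] PP m) = (kl m : Eu (m + m) →ₗ[ℝ] PP m) ∘ₗ B := by
      refine LinearMap.ext fun z => ?_
      simp only [LinearMap.comp_apply, hB]
      exact ((kap m m).apply_symm_apply _).symm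
    rw [hXY]
  have hdet : LinearMap.det B = detM M := by
    rw [hB, LinearMap.det_conj, hT, ← det_sM]
    change LinearMap.det ((LinearMap.id : Eu m →ₗ[ℝ] Eu m).prodMap (sM M : Eu m →ₗ[ℝ] Eu m)) = _
    rw [LinearMap.det_prodMap, LinearMap.det_id, one_mul]
  rw [h1, ← map_pow, top_pb_det, h2, ← map_pow, top_pb_det, hdet, c₀]

end topOm

end Crest.Agent.R208.JT
end
end

-- ▼ part R208/JT3
section

/-!
R208, block JT (helper631), part 3: the degree of a smooth proper map by integrals.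
-/

set_option autoImplicit false
set_option linter.unusedSectionVars false

open Set Filter Topology Module MeasureTheory
open scoped NNReal ContDiff

noncomputable section

namespace Crest.Agent.R208.JT

open Crest.Agent.R208.F (Ext io inv pb d pull top ii d_pull top_pb_det d_smul contDiffAt_pull)
open Crest.Agent.R208.FI (vol top_io_ii_vol integral_functional_d_eq_zero)

variable {k : ℕ}

lemma two_le_inf : (2 : WithTop ℕ∞) ≤ ∞ := WithTop.coe_le_coe.2 le_top

/-- smooth and proper -/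
structure Sm (f : Eu k → Eu k) : Prop where
  smooth : ContDiff ℝ ∞ f
  proper : ∃ C : ℝ, ∀ z, ‖z‖ ≤ ‖f z‖ + C

/-- integral of a pulled back density -/
def Ig (f : Eu k → Eu k) (g : Eu k → ℝ) : ℝ := ∫ z, g (f z) * (fderiv ℝ f z).det

lemma Sm.cpt {f : Eu k → Eu k} (hf : Sm f) {K : Set (Eu k)} (hK : IsCompact K) :
    IsCompact (f ⁻¹' K) := by
  obtain ⟨C, hC⟩ := hf.proper
  obtain ⟨R, hR⟩ := hK.isBounded.subset_closedBall (0 : Eu k)
  refine (isCompact_closedBall (0 : Eu k) (R + C)).of_isClosed_subset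
    (hK.isClosed.preimage hf.smooth.continuous) fun z hz => ?_
  have h1 := hR hz
  rw [mem_closedBall_zero_iff] at h1 ⊢
  linarith [hC z]

lemma continuous_det' : Continuous fun A : Eu k →L[ℝ] Eu k => A.det :=
  ContinuousLinearMap.continuous_det

lemma Sm.cont_det {f : Eu k → Eu k} (hf : Sm f) : Continuous fun z => (fderiv ℝ f z).det :=
  continuous_det'.comp (hf.smooth.continuous_fderiv (by simp))

/-- integration by parts -/
theorem Sm.Ig_fderiv {f : Eu k → Eu k} (hf : Sm f) {g : Eu k → ℝ} (hg : ContDiff ℝ ∞ g)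
    (hc : HasCompactSupport g) (v : Eu k) : ∫ z, fderiv ℝ g (f z) v * (fderiv ℝ f z).det = 0 := by
  set η : Eu k → Ext (Eu k) := fun y => g y • ii v (vol k) with hη
  have hηs : ContDiff ℝ ∞ η := hg.smul contDiff_const
  have hpull : ContDiff ℝ 1 (pull f η) := contDiff_iff_contDiffAt.2 fun x =>
    contDiffAt_pull (n := 2) (m := 1) ((hf.smooth.of_le two_le_inf).contDiffAt)
      (by norm_num) (hηs.of_le (by simp)).contDiffAt
  have hcs : HasCompactSupport (pull f η) := by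
    refine HasCompactSupport.intro (hf.cpt hc) fun z hz => ?_
    have h1 : g (f z) = 0 := image_eq_zero_of_notMem_tsupport hz
    simp only [pull, hη, h1, zero_smul, map_zero]
  have h := integral_functional_d_eq_zero (volume : Measure (Eu k)) hpull hcs (top k)
  rw [← h]
  congr 1
  funext z
  rw [d_pull ((hf.smooth.of_le two_le_inf).contDiffAt)
    ((hηs.differentiable (by simp)) _), pull, top_pb_det]
  have h2 : d η (f z) = io ((fderiv ℝ g (f z) : Eu k →L[ℝ] ℝ) : Module.Dual ℝ (Eu k)) *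
      ii v (vol k) := by
    rw [hη, d_smul ((hg.differentiable (by simp)) _) (differentiableAt_const _), F.d_const,
      smul_zero, add_zero]
  rw [h2, top_io_ii_vol, mul_comm]
  rfl

/-- translation invariance -/
theorem Sm.Ig_translate {f : Eu k → Eu k} (hf : Sm f) {g : Eu k → ℝ} (hg : ContDiff ℝ ∞ g)
    (hc : HasCompactSupport g) (y : Eu k) :
    ∫ z, g (f z - y) * (fderiv ℝ f z).det = ∫ z, g (f z) * (fderiv ℝ f z).det := by
  set Φ : Eu k → ℝ := fun y => ∫ z, g (f z - y) * (fderiv ℝ f z).det with hΦ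
  have hd : ∀ y, HasFDerivAt Φ (0 : Eu k →L[ℝ] ℝ) y := by
    intro y
    obtain ⟨R, hR⟩ := hc.isBounded.subset_closedBall (0 : Eu k)
    have hK : IsCompact (f ⁻¹' Metric.closedBall 0 (R + ‖y‖ + 1)) :=
      hf.cpt (isCompact_closedBall _ _)
    obtain ⟨M, hM⟩ : ∃ M : ℝ, ∀ x, ‖fderiv ℝ g x‖ ≤ M :=
      (hc.fderiv ℝ).exists_bound_of_continuous (hg.continuous_fderiv (by simp))
    have hM0 : 0 ≤ M := (norm_nonneg _).trans (hM 0)
    have hF' : ∀ y : Eu k, Continuous fun z => -((fderiv ℝ f z).det • fderiv ℝ g (f z - y)) := by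
      intro y
      refine ((hf.cont_det).smul ?_).neg
      exact (hg.continuous_fderiv (by simp)).comp (hf.smooth.continuous.sub continuous_const)
    have hFc : ∀ y : Eu k, Continuous fun z => g (f z - y) * (fderiv ℝ f z).det := fun y =>
      (hg.continuous.comp (hf.smooth.continuous.sub continuous_const)).mul hf.cont_det
    have hFs : ∀ y : Eu k, HasCompactSupport fun z => g (f z - y) * (fderiv ℝ f z).det := by
      intro y
      refine HasCompactSupport.intro (hf.cpt (K := Metric.closedBall 0 (R + ‖y‖))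
        (isCompact_closedBall _ _)) fun z hz => ?_
      have h1 : g (f z - y) = 0 := by
        by_contra h
        apply hz
        have h2 := hR (subset_tsupport g (Function.mem_support.2 h))
        rw [mem_closedBall_zero_iff] at h2
        rw [mem_preimage, mem_closedBall_zero_iff]
        calc ‖f z‖ = ‖(f z - y) + y‖ := by rw [sub_add_cancel]
          _ ≤ ‖f z - y‖ + ‖y‖ := norm_add_le _ _
          _ ≤ R + ‖y‖ := by linarith
      rw [h1, zero_mul]
    have h := hasFDerivAt_integral_of_dominated_of_fderiv_le (μ := (volume : Measure (Eu k)))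
      (F := fun y z => g (f z - y) * (fderiv ℝ f z).det)
      (F' := fun y z => -((fderiv ℝ f z).det • fderiv ℝ g (f z - y)))
      (x₀ := y) (s := Metric.ball y 1)
      (bound := (f ⁻¹' Metric.closedBall 0 (R + ‖y‖ + 1)).indicator
        fun z => |(fderiv ℝ f z).det| * M) (Metric.ball_mem_nhds y one_pos)
      (Eventually.of_forall fun y' => (hFc y').aestronglyMeasurable)
      ((hFc y).integrable_of_hasCompactSupport (hFs y)) (hF' y).aestronglyMeasurable
      (Eventually.of_forall fun z y' hy' => ?_) ?_ (Eventually.of_forall fun z y' _ => ?_)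
    · have h2 : (∫ z, -((fderiv ℝ f z).det • fderiv ℝ g (f z - y)) : Eu k →L[ℝ] ℝ) = 0 := by
        ext v
        have hint : Integrable fun z => -((fderiv ℝ f z).det • fderiv ℝ g (f z - y)) := by
          refine (hF' y).integrable_of_hasCompactSupport ?_
          refine HasCompactSupport.intro (hf.cpt (K := Metric.closedBall 0 (R + ‖y‖))
            (isCompact_closedBall _ _)) fun z hz => ?_
          have h1 : fderiv ℝ g (f z - y) = 0 := by
            by_contra h
            apply hz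
            have h2 := hR ((tsupport_fderiv_subset ℝ) (subset_tsupport _ (Function.mem_support.2 h)))
            rw [mem_closedBall_zero_iff] at h2
            rw [mem_preimage, mem_closedBall_zero_iff]
            calc ‖f z‖ = ‖(f z - y) + y‖ := by rw [sub_add_cancel]
              _ ≤ ‖f z - y‖ + ‖y‖ := norm_add_le _ _
              _ ≤ R + ‖y‖ := by linarith
          rw [h1, smul_zero, neg_zero]
        rw [ContinuousLinearMap.integral_apply hint v]
        set gy : Eu k → ℝ := fun x => g (x - y) with hgy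
        have hgys : ContDiff ℝ ∞ gy := hg.comp (contDiff_id.sub contDiff_const)
        have hgyc : HasCompactSupport gy := hc.comp_homeomorph (Homeomorph.subRight y)
        have h3 := hf.Ig_fderiv hgys hgyc v
        have h4 : ∀ x, fderiv ℝ gy x = fderiv ℝ g (x - y) := fun x => by
          rw [hgy]; exact fderiv_comp_sub y
        simp only [h4] at h3
        rw [zero_apply]
        rw [← neg_eq_zero, ← integral_neg]
        rw [← h3]
        congr 1
        funext z
        simp [mul_comm]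
      rw [h2] at h
      exact h
    · by_cases hz : z ∈ f ⁻¹' Metric.closedBall 0 (R + ‖y‖ + 1)
      · rw [indicator_of_mem hz, norm_neg, norm_smul, Real.norm_eq_abs]
        gcongr
        exact hM _
      · rw [indicator_of_notMem hz]
        have h1 : fderiv ℝ g (f z - y') = 0 := by
          by_contra h
          apply hz
          have h2 := hR ((tsupport_fderiv_subset ℝ) (subset_tsupport _ (Function.mem_support.2 h)))
          rw [mem_closedBall_zero_iff] at h2
          rw [mem_preimage, mem_closedBall_zero_iff]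
          have h3 : ‖y' - y‖ < 1 := by rwa [← dist_eq_norm]
          calc ‖f z‖ = ‖(f z - y') + y + (y' - y)‖ := by congr 1; abel
            _ ≤ ‖f z - y'‖ + ‖y‖ + ‖y' - y‖ := norm_add₃_le
            _ ≤ R + ‖y‖ + 1 := by linarith
        rw [h1, smul_zero, neg_zero, norm_zero]
    · rw [integrable_indicator_iff hK.measurableSet]
      exact ((hf.cont_det.abs.mul continuous_const).continuousOn).integrableOn_compact hK
    · have h1 : HasFDerivAt (fun y : Eu k => g (f z - y))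
          ((fderiv ℝ g (f z - y')).comp (-ContinuousLinearMap.id ℝ (Eu k))) y' := by
        have h2 : HasFDerivAt (fun y : Eu k => f z - y) (-ContinuousLinearMap.id ℝ (Eu k)) y' :=
          (hasFDerivAt_id y').const_sub (f z)
        exact ((hg.differentiable (by simp)) _).hasFDerivAt.comp y' h2
      have h2 := h1.mul_const ((fderiv ℝ f z).det)
      refine h2.congr_fderiv ?_
      ext v
      simp
  have h := is_const_of_fderiv_eq_zero (𝕜 := ℝ) (f := Φ) (fun y => (hd y).differentiableAt)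
    (fun y => (hd y).fderiv) y 0
  simp only [hΦ, sub_zero] at h
  exact h

/-- proportionality -/
theorem Sm.Ig_mul {f : Eu k → Eu k} (hf : Sm f) {g h : Eu k → ℝ} (hg : ContDiff ℝ ∞ g)
    (hgc : HasCompactSupport g) (hh : ContDiff ℝ ∞ h) (hhc : HasCompactSupport h) :
    Ig f g * ∫ y, h y = Ig f h * ∫ y, g y := by
  obtain ⟨R, hR⟩ := hgc.isBounded.subset_closedBall (0 : Eu k)
  obtain ⟨R', hR'⟩ := hhc.isBounded.subset_closedBall (0 : Eu k)
  have key : ∀ {a b : Eu k → ℝ}, ContDiff ℝ ∞ a → HasCompactSupport a → ContDiff ℝ ∞ b →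
      HasCompactSupport b → Integrable (Function.uncurry fun y z =>
        b y * (a (f z - y) * (fderiv ℝ f z).det)) ((volume : Measure (Eu k)).prod volume) := by
    intro a b ha hac hb hbc
    obtain ⟨R, hR⟩ := hac.isBounded.subset_closedBall (0 : Eu k)
    obtain ⟨R', hR'⟩ := hbc.isBounded.subset_closedBall (0 : Eu k)
    have hcont : Continuous (Function.uncurry fun y z =>
        b y * (a (f z - y) * (fderiv ℝ f z).det)) := by
      have e1 : Continuous fun p : Eu k × Eu k => b p.1 := hb.continuous.comp continuous_fst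
      have e2 : Continuous fun p : Eu k × Eu k => a (f p.2 - p.1) :=
        ha.continuous.comp ((hf.smooth.continuous.comp continuous_snd).sub continuous_fst)
      exact e1.mul (e2.mul (hf.cont_det.comp continuous_snd))
    refine hcont.integrable_of_hasCompactSupport ?_
    refine HasCompactSupport.intro ((isCompact_closedBall (0 : Eu k) R').prod
      (hf.cpt (K := Metric.closedBall 0 (R + R')) (isCompact_closedBall _ _))) fun p hp => ?_
    obtain ⟨y, z⟩ := p
    change b y * (a (f z - y) * (fderiv ℝ f z).det) = 0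
    by_cases hy : b y = 0
    · rw [hy, zero_mul]
    · by_cases hz : a (f z - y) = 0
      · rw [hz, zero_mul, mul_zero]
      · exfalso
        apply hp
        have h1 := hR' (subset_tsupport _ (Function.mem_support.2 hy))
        have h2 := hR (subset_tsupport _ (Function.mem_support.2 hz))
        rw [mem_closedBall_zero_iff] at h2
        refine ⟨h1, ?_⟩
        rw [mem_closedBall_zero_iff] at h1
        change f z ∈ Metric.closedBall (0 : Eu k) (R + R')
        rw [mem_closedBall_zero_iff]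
        calc ‖f z‖ = ‖(f z - y) + y‖ := by rw [sub_add_cancel]
          _ ≤ ‖f z - y‖ + ‖y‖ := norm_add_le _ _
          _ ≤ R + R' := by linarith
  have side : ∀ {a b : Eu k → ℝ}, ContDiff ℝ ∞ a → HasCompactSupport a → ContDiff ℝ ∞ b →
      HasCompactSupport b → Ig f a * ∫ y, b y =
        ∫ z, ∫ y, b y * (a (f z - y) * (fderiv ℝ f z).det) := by
    intro a b ha hac hb hbc
    rw [← integral_integral_swap (key ha hac hb hbc), mul_comm, ← integral_mul_const]
    congr 1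
    funext y
    rw [integral_const_mul, hf.Ig_translate ha hac, Ig]
  rw [side hg hgc hh hhc, side hh hhc hg hgc]
  congr 1
  funext z
  have e := integral_sub_left_eq_self (fun y => h y * (g (f z - y) * (fderiv ℝ f z).det))
    (volume : Measure (Eu k)) (f z)
  rw [← e]
  congr 1
  funext y
  rw [sub_sub_cancel]
  ring

/-- the set of regular points near which a smooth map is injective -/
lemma Sm.locInj {f : Eu k → Eu k} (hf : Sm f) {z : Eu k} (hz : (fderiv ℝ f z).det ≠ 0) :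
    ∃ U : Set (Eu k), IsOpen U ∧ z ∈ U ∧ InjOn f U ∧ (∀ V ⊆ U, IsOpen V → IsOpen (f '' V)) ∧
      ((∀ x ∈ U, 0 < (fderiv ℝ f x).det) ∨ (∀ x ∈ U, (fderiv ℝ f x).det < 0)) := by
  have hs : HasStrictFDerivAt f (fderiv ℝ f z) z :=
    hf.smooth.contDiffAt.hasStrictFDerivAt (by simp)
  set e : Eu k ≃L[ℝ] Eu k := ContinuousLinearEquiv.ofBijective (fderiv ℝ f z) (by
      have hu : IsUnit (LinearMap.det ((fderiv ℝ f z : Eu k →L[ℝ] Eu k) : Eu k →ₗ[ℝ] Eu k)) :=
        isUnit_iff_ne_zero.2 hz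
      have := LinearMap.equivOfIsUnitDet hu
      exact (LinearMap.ker_eq_bot_of_injective ((LinearMap.isUnit_iff_isUnit_det _).2 hu |>
        fun h => ((Module.End.isUnit_iff _).1 h).1)))
    (by
      have hu : IsUnit (LinearMap.det ((fderiv ℝ f z : Eu k →L[ℝ] Eu k) : Eu k →ₗ[ℝ] Eu k)) :=
        isUnit_iff_ne_zero.2 hz
      exact LinearMap.range_eq_top.2 ((LinearMap.isUnit_iff_isUnit_det _).2 hu |>
        fun h => ((Module.End.isUnit_iff _).1 h).2)) with he
  have hs' : HasStrictFDerivAt f (e : Eu k →L[ℝ] Eu k) z := by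
    rw [he, ContinuousLinearEquiv.coe_ofBijective]; exact hs
  set P := hs'.toOpenPartialHomeomorph f with hP
  have hPf : (P : Eu k → Eu k) = f := hs'.toOpenPartialHomeomorph_coe
  have hPz : z ∈ P.source := hs'.mem_toOpenPartialHomeomorph_source
  have hcont := hf.cont_det
  have hsign : ∃ W : Set (Eu k), IsOpen W ∧ z ∈ W ∧
      ((∀ x ∈ W, 0 < (fderiv ℝ f x).det) ∨ (∀ x ∈ W, (fderiv ℝ f x).det < 0)) := by
    rcases lt_or_gt_of_ne hz with h | h
    · exact ⟨{x | (fderiv ℝ f x).det < 0}, isOpen_lt hcont continuous_const, h,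
        Or.inr fun x hx => hx⟩
    · exact ⟨{x | 0 < (fderiv ℝ f x).det}, isOpen_lt continuous_const hcont, h,
        Or.inl fun x hx => hx⟩
  obtain ⟨W, hW, hzW, hWs⟩ := hsign
  refine ⟨P.source ∩ W, P.open_source.inter hW, ⟨hPz, hzW⟩, ?_, ?_, ?_⟩
  · have := P.injOn
    rw [hPf] at this
    exact this.mono inter_subset_left
  · intro V hV hVo
    have := P.isOpen_image_of_subset_source hVo (hV.trans inter_subset_left)
    rwa [hPf] at this
  · rcases hWs with h | h
    · exact Or.inl fun x hx => h x hx.2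
    · exact Or.inr fun x hx => h x hx.2

set_option maxHeartbeats 400000 in
/-- **the degree is an integer** -/
theorem Sm.exists_int {f : Eu k → Eu k} (hf : Sm f) : ∃ N : ℤ, ∀ g : Eu k → ℝ, ContDiff ℝ ∞ g →
    HasCompactSupport g → Ig f g = N * ∫ y, g y := by
  -- a regular value
  obtain ⟨y, hy⟩ : ∃ y, ∀ z, f z = y → (fderiv ℝ f z).det ≠ 0 := by
    have h1 : (volume : Measure (Eu k)) (f '' {z | (fderiv ℝ f z).det = 0}) = 0 :=
      addHaar_image_eq_zero_of_det_fderivWithin_eq_zero volume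
        (fun x _ => ((hf.smooth.differentiable (by simp)) x).hasFDerivAt.hasFDerivWithinAt)
        (fun x hx => hx)
    have h2 : f '' {z | (fderiv ℝ f z).det = 0} ≠ univ := by
      intro h
      rw [h] at h1
      exact (NeZero.ne (volume : Measure (Eu k))) (Measure.measure_univ_eq_zero.1 h1)
    obtain ⟨y, hy⟩ := (ne_univ_iff_exists_notMem _).1 h2
    exact ⟨y, fun z hz h => hy ⟨z, h, hz⟩⟩
  set S : Set (Eu k) := f ⁻¹' {y} with hS
  have hSc : IsCompact S := hf.cpt isCompact_singleton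
  choose! U hUo hUm hUi hUimg hUs using fun z (hz : z ∈ S) => hf.locInj (hy z hz)
  have hSf : S.Finite := by
    obtain ⟨t, ht, hcov⟩ := hSc.elim_nhds_subcover U fun z hz => (hUo z hz).mem_nhds (hUm z hz)
    refine t.finite_toSet.subset fun x hx => ?_
    obtain ⟨z, hz, hxz⟩ := mem_iUnion₂.1 (hcov hx)
    have hzS := ht z hz
    have : f x = f z := by rw [show f x = y from hx, show f z = y from hzS]
    rw [hUi z hzS hxz (hUm z hzS) this]
    exact hz
  obtain ⟨T, hT, hTd⟩ := hSf.t2_separation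
  set W : Eu k → Set (Eu k) := fun z => U z ∩ T z with hW
  have hWo : ∀ z ∈ S, IsOpen (W z) := fun z hz => (hUo z hz).inter (hT z).2
  have hWm : ∀ z ∈ S, z ∈ W z := fun z hz => ⟨hUm z hz, (hT z).1⟩
  -- the radius
  obtain ⟨r, hr0, hr1, hr2, hr3⟩ : ∃ r : ℝ, 0 < r ∧ r ≤ 1 ∧
      (∀ z, f z ∈ Metric.ball y r → ∃ w ∈ S, z ∈ W w) ∧ ∀ w ∈ S, Metric.ball y r ⊆ f '' W w := by
    have hKc : IsCompact (f ⁻¹' Metric.closedBall y 1 \ ⋃ w ∈ S, W w) :=
      (hf.cpt (isCompact_closedBall _ _)).diff (isOpen_biUnion hWo)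
    have h1 : y ∉ f '' (f ⁻¹' Metric.closedBall y 1 \ ⋃ w ∈ S, W w) := by
      rintro ⟨z, hz, hzy⟩
      exact hz.2 (mem_biUnion (show z ∈ S from hzy) (hWm z hzy))
    have h2 : (f '' (f ⁻¹' Metric.closedBall y 1 \ ⋃ w ∈ S, W w))ᶜ ∈ 𝓝 y :=
      (hKc.image hf.smooth.continuous).isClosed.isOpen_compl.mem_nhds h1
    have h3 : ∀ w ∈ S, f '' W w ∈ 𝓝 y := fun w hw =>
      (hUimg w hw _ inter_subset_left (hWo w hw)).mem_nhds ⟨w, hWm w hw, hw⟩
    have h4 : (⋂ w ∈ S, f '' W w) ∈ 𝓝 y := (biInter_mem hSf).2 h3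
    obtain ⟨r, hr, hrs⟩ := Metric.mem_nhds_iff.1 (Filter.inter_mem h2 h4)
    refine ⟨min r 1, lt_min hr one_pos, min_le_right _ _, fun z hz => ?_, fun w hw => ?_⟩
    · have h5 := hrs (Metric.ball_subset_ball (min_le_left _ _) hz)
      have h6 := h5.1
      by_contra hcon
      push Not at hcon
      apply h6
      have h8 : f z ∈ Metric.closedBall y 1 :=
        Metric.ball_subset_closedBall (Metric.ball_subset_ball (min_le_right r 1) hz)
      refine mem_image_of_mem f ⟨h8, ?_⟩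
      · intro h7
        obtain ⟨w, hw, hw2⟩ := mem_iUnion₂.1 h7
        exact hcon w hw hw2
    · intro x hx
      have h5 := hrs (Metric.ball_subset_ball (min_le_left _ _) hx)
      exact mem_iInter₂.1 h5.2 w hw
  -- the bump
  let φ : ContDiffBump y := ⟨r / 4, r / 2, by positivity, by linarith⟩
  set g₀ : Eu k → ℝ := φ.normed volume with hg₀
  have hg₀C : ContDiff ℝ ∞ g₀ := φ.contDiff_normed
  have hg₀s : HasCompactSupport g₀ := φ.hasCompactSupport_normed
  have hg₀i : ∫ x, g₀ x = 1 := φ.integral_normed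
  have hg₀v : ∀ x, x ∉ Metric.ball y r → g₀ x = 0 := by
    intro x hx
    refine image_eq_zero_of_notMem_tsupport fun h => hx ?_
    rw [hg₀, φ.tsupport_normed_eq] at h
    have h1 : dist x y ≤ r / 2 := h
    exact lt_of_le_of_lt h1 (by linarith)
  -- signs
  choose! σ hσ using fun w (hw : w ∈ S) => show ∃ s : ℤ, ∀ x ∈ U w,
      (fderiv ℝ f x).det = s * |(fderiv ℝ f x).det| from by
    rcases hUs w hw with h | h
    · exact ⟨1, fun x hx => by rw [abs_of_pos (h x hx)]; simp⟩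
    · exact ⟨-1, fun x hx => by rw [abs_of_neg (h x hx)]; simp⟩
  set V : Eu k → Set (Eu k) := fun w => W w ∩ f ⁻¹' Metric.ball y r with hV
  have hVm : ∀ w ∈ S, MeasurableSet (V w) := fun w hw =>
    ((hWo w hw).inter (Metric.isOpen_ball.preimage hf.smooth.continuous)).measurableSet
  have hVi : ∀ w ∈ S, ∫ z in V w, g₀ (f z) * (fderiv ℝ f z).det = σ w := by
    intro w hw
    have himg : f '' V w = Metric.ball y r := by
      ext x
      constructor
      · rintro ⟨z, hz, rfl⟩; exact hz.2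
      · intro hx
        obtain ⟨z, hz, hzx⟩ := hr3 w hw hx
        exact ⟨z, ⟨hz, by rw [mem_preimage, hzx]; exact hx⟩, hzx⟩
    have h1 := integral_image_eq_integral_abs_det_fderiv_smul (volume : Measure (Eu k))
      (hVm w hw) (f' := fun z => fderiv ℝ f z)
      (fun x _ => ((hf.smooth.differentiable (by simp)) x).hasFDerivAt.hasFDerivWithinAt)
      ((hUi w hw).mono (inter_subset_left.trans inter_subset_left)) g₀
    rw [himg, setIntegral_eq_integral_of_forall_compl_eq_zero hg₀v, hg₀i] at h1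
    calc ∫ z in V w, g₀ (f z) * (fderiv ℝ f z).det
        = ∫ z in V w, (σ w : ℝ) * (|(fderiv ℝ f z).det| • g₀ (f z)) := by
          refine setIntegral_congr_fun (hVm w hw) fun z hz => ?_
          simp only [smul_eq_mul]
          rw [hσ w hw z hz.1.1, abs_mul, abs_abs]
          have hs : |(σ w : ℝ)| * |(fderiv ℝ f z).det| = |(fderiv ℝ f z).det| := by
            conv_rhs => rw [hσ w hw z hz.1.1]
            rw [abs_mul, abs_abs]
          rw [hs]; ring
      _ = σ w := by rw [integral_const_mul, ← h1, mul_one]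
  have hIg : Ig f g₀ = ((∑ w ∈ hSf.toFinset, σ w : ℤ) : ℝ) := by
    have h1 : Ig f g₀ = ∫ z in ⋃ w ∈ hSf.toFinset, V w, g₀ (f z) * (fderiv ℝ f z).det := by
      rw [Ig, setIntegral_eq_integral_of_forall_compl_eq_zero]
      intro z hz
      by_cases h : f z ∈ Metric.ball y r
      · obtain ⟨w, hw, hzw⟩ := hr2 z h
        exfalso
        apply hz
        simp only [Set.Finite.mem_toFinset]
        exact mem_biUnion hw ⟨hzw, h⟩
      · rw [hg₀v _ h, zero_mul]
    rw [h1, integral_biUnion_finset]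
    · push_cast
      refine Finset.sum_congr rfl fun w hw => ?_
      exact hVi w (hSf.mem_toFinset.1 hw)
    · intro w hw
      exact hVm w (hSf.mem_toFinset.1 hw)
    · intro a ha b hb hab
      rw [hSf.coe_toFinset] at ha hb
      have := hTd ha hb hab
      exact this.mono (inter_subset_left.trans inter_subset_right)
        (inter_subset_left.trans inter_subset_right)
    · intro w hw
      refine Integrable.integrableOn ?_
      refine Continuous.integrable_of_hasCompactSupport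
        ((hg₀C.continuous.comp hf.smooth.continuous).mul hf.cont_det) ?_
      refine HasCompactSupport.intro (hf.cpt hg₀s) fun z hz => ?_
      have h1 : g₀ (f z) = 0 := image_eq_zero_of_notMem_tsupport hz
      rw [h1, zero_mul]
  refine ⟨∑ w ∈ hSf.toFinset, σ w, fun g hg hgc => ?_⟩
  have := hf.Ig_mul hg hgc hg₀C hg₀s
  rw [hg₀i, mul_one, hIg] at this
  exact this

end Crest.Agent.R208.JT
end
end

-- ▼ part R208/JT4
section

/-!
R208, block JT (helper631), part 4: mollification of a Lipschitz map; its degree.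
-/

set_option autoImplicit false
set_option linter.unusedSectionVars false

open Set Filter Topology Module MeasureTheory ContinuousLinearMap
open scoped NNReal ContDiff Convolution

noncomputable section

namespace Crest.Agent.R208.JT

variable {k : ℕ}

/-- approximation of a Lipschitz map by smooth ones -/
structure Approx (Φ : Eu k → Eu k) (K : ℝ≥0) (f : ℕ → Eu k → Eu k) : Prop where
  smooth : ∀ n, ContDiff ℝ ∞ (f n)
  near : ∀ n z, ‖f n z - Φ z‖ ≤ K
  lim : ∀ z, Tendsto (fun n => f n z) atTop (𝓝 (Φ z))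
  bound : ∀ n z, ‖fderiv ℝ (f n) z‖ ≤ K
  limD : ∀ᵐ z, Tendsto (fun n => fderiv ℝ (f n) z) atTop (𝓝 (fderiv ℝ Φ z))

/-- the mollifier -/
def bmp (k n : ℕ) : ContDiffBump (0 : Eu k) :=
  ⟨1 / (2 * (n + 1)), 1 / (n + 1), by positivity, by
    have : (0 : ℝ) < n + 1 := by positivity
    rw [div_lt_div_iff₀ (by positivity) this]
    linarith⟩

lemma bmp_rOut (n : ℕ) : (bmp k n).rOut = 1 / (n + 1) := rfl

lemma bmp_rIn (n : ℕ) : (bmp k n).rIn = 1 / (2 * (n + 1)) := rfl

lemma bmp_le (n : ℕ) : (bmp k n).rOut ≤ 1 := by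
  rw [bmp_rOut, div_le_one (by positivity)]
  have : (0 : ℝ) ≤ n := n.cast_nonneg
  linarith

lemma bmp_tendsto : Tendsto (fun n => (bmp k n).rOut) atTop (𝓝 0) :=
  tendsto_one_div_add_atTop_nhds_zero_nat

variable {Φ : Eu k → Eu k} {K : ℝ≥0}

/-- mollified map -/
def moll (Φ : Eu k → Eu k) (n : ℕ) : Eu k → Eu k :=
  (bmp k n).normed volume ⋆[lsmul ℝ ℝ, (volume : Measure (Eu k))] Φ

lemma norm_fderiv_le_lip (hΦ : LipschitzWith K Φ) (z : Eu k) : ‖fderiv ℝ Φ z‖ ≤ K :=
  norm_fderiv_le_of_lipschitz ℝ hΦ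

lemma hasFDerivAt_moll (hΦ : LipschitzWith K Φ) (n : ℕ) (x : Eu k) :
    HasFDerivAt (moll Φ n) (((bmp k n).normed volume ⋆[lsmul ℝ ℝ, (volume : Measure (Eu k))]
      fderiv ℝ Φ) x) x := by
  set ψ := (bmp k n).normed (volume : Measure (Eu k)) with hψ
  have hψc : Continuous ψ := (bmp k n).continuous_normed
  have hψs : HasCompactSupport ψ := (bmp k n).hasCompactSupport_normed
  have hψ0 : ∀ t, 0 ≤ ψ t := (bmp k n).nonneg_normed
  have h := hasFDerivAt_integral_of_dominated_loc_of_lip (μ := (volume : Measure (Eu k)))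
    (𝕜 := ℝ) (F := fun x t => ψ t • Φ (x - t)) (F' := fun t => ψ t • fderiv ℝ Φ (x - t))
    (x₀ := x) (s := univ) (bound := fun t => ψ t * K) univ_mem
    (Eventually.of_forall fun x => ?_) ?_ ?_ (Eventually.of_forall fun t => ?_) ?_ ?_
  · exact h.2
  · exact (hψc.smul (hΦ.continuous.comp (continuous_const.sub continuous_id))).aestronglyMeasurable
  · refine Continuous.integrable_of_hasCompactSupport
      (hψc.smul (hΦ.continuous.comp (continuous_const.sub continuous_id))) ?_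
    exact hψs.smul_right
  · refine hψc.aestronglyMeasurable.smul ?_
    exact ((measurable_fderiv ℝ Φ).comp (measurable_const.sub measurable_id)).aestronglyMeasurable
  · refine LipschitzWith.lipschitzOnWith (LipschitzWith.of_dist_le_mul fun a b => ?_)
    rw [dist_eq_norm, ← smul_sub, norm_smul, Real.norm_of_nonneg (hψ0 t), dist_eq_norm,
      Real.coe_nnabs, abs_of_nonneg (mul_nonneg (hψ0 t) K.coe_nonneg), mul_assoc]
    refine mul_le_mul_of_nonneg_left ?_ (hψ0 t)
    have := hΦ.norm_sub_le (a - t) (b - t)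
    rwa [sub_sub_sub_cancel_right] at this
  · exact (hψc.integrable_of_hasCompactSupport hψs).mul_const _
  · have h1 : ∀ᵐ y : Eu k, DifferentiableAt ℝ Φ y := hΦ.ae_differentiableAt
    have h2 : ∀ᵐ t : Eu k, DifferentiableAt ℝ Φ (x - t) :=
      (quasiMeasurePreserving_sub_left_of_right_invariant (volume : Measure (Eu k)) x).ae h1
    filter_upwards [h2] with t ht
    have h3 : HasFDerivAt (fun x : Eu k => Φ (x - t)) (fderiv ℝ Φ (x - t)) x :=
      (hasFDerivAt_comp_sub t).2 ht.hasFDerivAt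
    exact h3.const_smul (ψ t)

theorem approx_moll (hΦ : LipschitzWith K Φ) : Approx Φ K (moll Φ) := by
  have hdist : ∀ n z, ‖moll Φ n z - Φ z‖ ≤ K * (bmp k n).rOut := by
    intro n z
    rw [← dist_eq_norm]
    refine (bmp k n).dist_normed_convolution_le hΦ.continuous.aestronglyMeasurable fun y hy => ?_
    refine (hΦ.dist_le_mul y z).trans ?_
    gcongr
    exact (Metric.mem_ball.1 hy).le
  have hLI : LocallyIntegrable (fderiv ℝ Φ) (volume : Measure (Eu k)) := by
    refine (locallyIntegrable_const (K : ℝ)).mono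
      (measurable_fderiv ℝ Φ).aestronglyMeasurable (Eventually.of_forall fun z => ?_)
    rw [Real.norm_of_nonneg K.coe_nonneg]
    exact norm_fderiv_le_lip hΦ z
  refine ⟨fun n => ?_, fun n z => ?_, fun z => ?_, fun n z => ?_, ?_⟩
  · exact (bmp k n).hasCompactSupport_normed.contDiff_convolution_left _
      (bmp k n).contDiff_normed hΦ.continuous.locallyIntegrable
  · refine (hdist n z).trans ?_
    calc (K : ℝ) * (bmp k n).rOut ≤ K * 1 := by
          gcongr
          exact bmp_le n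
      _ = K := mul_one _
  · rw [tendsto_iff_norm_sub_tendsto_zero]
    refine squeeze_zero (fun _ => norm_nonneg _) (fun n => hdist n z) ?_
    have := (bmp_tendsto (k := k)).const_mul (K : ℝ)
    rwa [mul_zero] at this
  · rw [(hasFDerivAt_moll hΦ n z).fderiv, convolution_def]
    have h1 : ∫ t, (bmp k n).normed (volume : Measure (Eu k)) t * K = K := by
      rw [integral_mul_const, (bmp k n).integral_normed, one_mul]
    refine (norm_integral_le_of_norm_le (g := fun t => (bmp k n).normed volume t * K) ?_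
      (Eventually.of_forall fun t => ?_)).trans h1.le
    · exact ((bmp k n).continuous_normed.integrable_of_hasCompactSupport
        (bmp k n).hasCompactSupport_normed).mul_const _
    · rw [lsmul_apply, norm_smul, Real.norm_of_nonneg ((bmp k n).nonneg_normed t)]
      exact mul_le_mul_of_nonneg_left (norm_fderiv_le_lip hΦ _) ((bmp k n).nonneg_normed t)
  · have h := ContDiffBump.ae_convolution_tendsto_right_of_locallyIntegrable
      (μ := (volume : Measure (Eu k))) (φ := bmp k) (l := atTop) (K := 2) bmp_tendsto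
      (Eventually.of_forall fun n => by
        rw [bmp_rOut, bmp_rIn]
        refine le_of_eq ?_
        have : (0 : ℝ) < n + 1 := by positivity
        field_simp) hLI
    filter_upwards [h] with z hz
    refine hz.congr fun n => ?_
    exact (hasFDerivAt_moll hΦ n z).fderiv.symm

/-- dominated convergence for functionals of the map and its differential -/
theorem Approx.tendsto_integral {f : ℕ → Eu k → Eu k} (h : Approx Φ K f) (hΦ : LipschitzWith K Φ)
    {T : Eu k → Eu k → (Eu k →L[ℝ] Eu k) → ℝ}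
    (hc : Continuous fun q : Eu k × Eu k × (Eu k →L[ℝ] Eu k) => T q.1 q.2.1 q.2.2) {R : ℝ}
    (h0 : ∀ z p A, R < ‖z‖ → ‖p - Φ z‖ ≤ K → T z p A = 0) :
    Tendsto (fun n => ∫ z, T z (f n z) (fderiv ℝ (f n) z)) atTop
      (𝓝 (∫ z, T z (Φ z) (fderiv ℝ Φ z))) := by
  -- a bound on the compact set
  obtain ⟨R', hR'⟩ : ∃ R' : ℝ, ∀ z : Eu k, ‖z‖ ≤ R → ‖Φ z‖ ≤ R' := by
    obtain ⟨C, hC⟩ := (isCompact_closedBall (0 : Eu k) R).exists_bound_of_continuousOn
      hΦ.continuous.continuousOn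
    exact ⟨C, fun z hz => hC z (mem_closedBall_zero_iff.2 hz)⟩
  obtain ⟨M, hM⟩ := ((isCompact_closedBall (0 : Eu k) R).prod
    ((isCompact_closedBall (0 : Eu k) (R' + K)).prod
      (isCompact_closedBall (0 : Eu k →L[ℝ] Eu k) K))).exists_bound_of_continuousOn hc.continuousOn
  have hb : ∀ n z, ‖T z (f n z) (fderiv ℝ (f n) z)‖ ≤
      (Metric.closedBall (0 : Eu k) R).indicator (fun _ => |M|) z := by
    intro n z
    by_cases hz : z ∈ Metric.closedBall (0 : Eu k) R
    · rw [indicator_of_mem hz]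
      refine (hM (z, f n z, fderiv ℝ (f n) z) ⟨hz, ?_, ?_⟩).trans (le_abs_self M)
      · rw [mem_closedBall_zero_iff]
        have h1 := hR' z (mem_closedBall_zero_iff.1 hz)
        have h2 := h.near n z
        calc ‖f n z‖ = ‖Φ z + (f n z - Φ z)‖ := by congr 1; abel
          _ ≤ ‖Φ z‖ + ‖f n z - Φ z‖ := norm_add_le _ _
          _ ≤ R' + K := add_le_add h1 h2
      · rw [mem_closedBall_zero_iff]
        exact h.bound n z
    · rw [indicator_of_notMem hz]
      rw [mem_closedBall_zero_iff, not_le] at hz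
      rw [h0 z _ _ hz (h.near n z), norm_zero]
  refine tendsto_integral_of_dominated_convergence
    ((Metric.closedBall (0 : Eu k) R).indicator fun _ => |M|) (fun n => ?_) ?_
    (fun n => Eventually.of_forall (hb n)) ?_
  · have h1 : Continuous fun z => (z, f n z, fderiv ℝ (f n) z) :=
      continuous_id.prodMk ((h.smooth n).continuous.prodMk
        ((h.smooth n).continuous_fderiv (by simp)))
    exact (hc.comp h1).aestronglyMeasurable
  · rw [integrable_indicator_iff Metric.isClosed_closedBall.measurableSet]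
    exact continuousOn_const.integrableOn_compact (isCompact_closedBall _ _)
  · filter_upwards [h.limD] with z hz
    have h1 : Tendsto (fun n => (z, f n z, fderiv ℝ (f n) z)) atTop
        (𝓝 (z, Φ z, fderiv ℝ Φ z)) :=
      tendsto_const_nhds.prodMk_nhds ((h.lim z).prodMk_nhds hz)
    exact (hc.tendsto _).comp h1

/-- **T1**: the degree of a norm preserving Lipschitz map -/
theorem exists_degree (hΦ : LipschitzWith K Φ) (hn : ∀ z, ‖Φ z‖ = ‖z‖) :
    ∃ N : ℤ, ∀ g : Eu k → ℝ, ContDiff ℝ ∞ g → HasCompactSupport g →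
      ∫ z, g (Φ z) * (fderiv ℝ Φ z).det = N * ∫ y, g y := by
  have hA := approx_moll hΦ
  have hsm : ∀ n, Sm (moll Φ n) := fun n => ⟨hA.smooth n, K, fun z => by
    have h1 := hA.near n z
    have h2 := norm_sub_norm_le (Φ z) (moll Φ n z)
    rw [norm_sub_rev] at h2
    rw [hn] at h2
    linarith⟩
  choose N hN using fun n => (hsm n).exists_int
  have hlim : ∀ g : Eu k → ℝ, ContDiff ℝ ∞ g → HasCompactSupport g →
      Tendsto (fun n => (N n : ℝ) * ∫ y, g y) atTop
        (𝓝 (∫ z, g (Φ z) * (fderiv ℝ Φ z).det)) := by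
    intro g hg hgc
    obtain ⟨R, hR⟩ := hgc.isBounded.subset_closedBall (0 : Eu k)
    have h1 := hA.tendsto_integral hΦ (T := fun z p A => g p * A.det) (R := R + K)
      ((hg.continuous.comp (continuous_fst.comp continuous_snd)).mul
        (continuous_det'.comp (continuous_snd.comp continuous_snd))) (fun z p A hz hp => by
          have : g p = 0 := by
            by_contra h
            have h2 := hR (subset_tsupport _ (Function.mem_support.2 h))
            rw [mem_closedBall_zero_iff] at h2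
            have h3 := norm_sub_norm_le (Φ z) p
            rw [norm_sub_rev, hn] at h3
            linarith
          simp only [this, zero_mul])
    refine h1.congr fun n => ?_
    exact hN n g hg hgc
  let φ : ContDiffBump (0 : Eu k) := ⟨1, 2, by norm_num, by norm_num⟩
  have h0 := hlim (φ.normed volume) φ.contDiff_normed φ.hasCompactSupport_normed
  rw [φ.integral_normed] at h0
  simp only [mul_one] at h0
  have h1 : (∫ z, φ.normed volume (Φ z) * (fderiv ℝ Φ z).det) ∈ range ((↑) : ℤ → ℝ) :=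
    Int.isClosedEmbedding_coe_real.isClosed_range.mem_of_tendsto h0
      (Eventually.of_forall fun n => ⟨N n, rfl⟩)
  obtain ⟨M, hM⟩ := h1
  refine ⟨M, fun g hg hgc => ?_⟩
  rw [← hM] at h0
  exact tendsto_nhds_unique (hlim g hg hgc) (h0.mul_const _)

end Crest.Agent.R208.JT
end
end

-- ▼ part R208/JT7
section

/-!
R208, block JT (helper631), part 7: Stokes for the difference of the top powers.
-/

set_option autoImplicit false
set_option linter.unusedSectionVars false

open Set Filter Topology Module MeasureTheory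
open scoped NNReal ContDiff RealInnerProductSpace

noncomputable section

namespace Crest.Agent.R208.JT

open Crest.Agent.R208.F (Ext io inv pb top ii wd d pull mulL contDiff_mul d_mul d_smul d_sub
  contDiffAt_pull d_pull)
open Crest.Agent.R208.FI (kap integral_functional_d_eq_zero)

section cont
variable {E : Type*} [NormedAddCommGroup E] [NormedSpace ℝ E] [FiniteDimensional ℝ E]
  {E' : Type*} [NormedAddCommGroup E'] [NormedSpace ℝ E'] [FiniteDimensional ℝ E']
  {X : Type*} [TopologicalSpace X]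

lemma cont_mul {f g : X → Ext E} (hf : Continuous f) (hg : Continuous g) :
    Continuous fun x => f x * g x := by
  have : (fun x => f x * g x) = fun x => mulL E (f x) (g x) := rfl
  rw [this]
  exact ((mulL E).continuous.comp hf).clm_apply hg

lemma cont_pow {f : X → Ext E} (hf : Continuous f) (n : ℕ) : Continuous fun x => f x ^ n := by
  induction n with
  | zero => simp only [pow_zero]; exact continuous_const
  | succ n ih => simp only [pow_succ]; exact cont_mul ih hf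

lemma cont_pbt {A : X → E →L[ℝ] E'} {t : X → E' →L[ℝ] (E' →L[ℝ] ℝ)} (hA : Continuous A)
    (ht : Continuous t) : Continuous fun x => pbt (A x) (t x) := by
  unfold pbt
  exact (((ContinuousLinearMap.compL ℝ E E' ℝ).flip).continuous.comp hA).clm_comp
    (ht.clm_comp hA)

lemma cont_top {k : ℕ} {f : X → Ext (Eu k)} (hf : Continuous f) :
    Continuous fun x => top k (f x) :=
  (LinearMap.toContinuousLinearMap (top k)).continuous.comp hf

end cont

variable {m : ℕ}

/-- the two form pulled back by `A` -/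
def omA (A : Eu (m + m) →L[ℝ] Eu (m + m)) (M : Eu m →L[ℝ] Eu m →L[ℝ] ℝ) : Ext (Eu (m + m)) :=
  pb (((kl m).comp A : Eu (m + m) →L[ℝ] PP m) : Eu (m + m) →ₗ[ℝ] PP m) (Om M)

/-- the euclidean two-form -/
def w₀ (m : ℕ) : Ext (Eu (m + m)) := pb (kl m : Eu (m + m) →ₗ[ℝ] PP m) (Om (M₀ m))

lemma omA_two (A : Eu (m + m) →L[ℝ] Eu (m + m)) (M : Eu m →L[ℝ] Eu m →L[ℝ] ℝ) :
    omA A M ∈ Two (Eu (m + m)) := Two.pb (Om_two M) _

lemma w₀_two : w₀ m ∈ Two (Eu (m + m)) := Two.pb (Om_two _) _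

/-- the euclidean scalar product -/
def F₀ (m : ℕ) (p : PP m) : ℝ := ⟪p.1, p.2⟫

lemma F₀_smooth : ContDiff ℝ ∞ (F₀ m) := contDiff_fst.inner ℝ contDiff_snd

/-- difference of the one-forms -/
def bA (z : Eu (m + m)) (A : Eu (m + m) →L[ℝ] Eu (m + m)) (l : PP m →L[ℝ] ℝ) :
    Eu (m + m) →L[ℝ] ℝ :=
  (lamL m l).comp ((kl m).comp A) - (lamL m (fderiv ℝ (F₀ m) (kl m z))).comp (kl m)

/-- the boundary integrand -/
def Rr (η : Eu (m + m) → ℝ) (z : Eu (m + m)) (A : Eu (m + m) →L[ℝ] Eu (m + m))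
    (l : PP m →L[ℝ] ℝ) (M : Eu m →L[ℝ] Eu m →L[ℝ] ℝ) : ℝ :=
  top (m + m) (ioL _ (fderiv ℝ η z) * (ioL _ (bA z A l) *
    ∑ i ∈ Finset.range m, omA A M ^ i * w₀ m ^ (m - 1 - i)))

/-- the whole integrand -/
def Tt (η : Eu (m + m) → ℝ) (z : Eu (m + m)) (A : Eu (m + m) →L[ℝ] Eu (m + m))
    (l : PP m →L[ℝ] ℝ) (M : Eu m →L[ℝ] Eu m →L[ℝ] ℝ) : ℝ :=
  Rr η z A l M + η z * (top (m + m) (omA A M ^ m) - c₀ m)

lemma cont_omA {X : Type*} [TopologicalSpace X] {A : X → Eu (m + m) →L[ℝ] Eu (m + m)}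
    {M : X → Eu m →L[ℝ] Eu m →L[ℝ] ℝ} (hA : Continuous A) (hM : Continuous M) :
    Continuous fun x => omA (A x) (M x) := by
  have h : (fun x => omA (A x) (M x)) =
      fun x => wd (Eu (m + m)) ((ioL (Eu (m + m))).comp (pbt ((kl m).comp (A x)) (tM (M x)))) := by
    funext q
    rw [omA, Om, pb_wd_io]
  rw [h]
  refine (wd (Eu (m + m))).continuous.comp (continuous_const.clm_comp (cont_pbt ?_ ?_))
  · exact continuous_const.clm_comp hA
  · unfold tM
    exact continuous_const.clm_comp (hM.clm_comp continuous_const)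

lemma cont_Rr {X : Type*} [TopologicalSpace X] {η : Eu (m + m) → ℝ} (hη : ContDiff ℝ 1 η)
    {z : X → Eu (m + m)} {A : X → Eu (m + m) →L[ℝ] Eu (m + m)} {l : X → PP m →L[ℝ] ℝ}
    {M : X → Eu m →L[ℝ] Eu m →L[ℝ] ℝ} (hz : Continuous z) (hA : Continuous A)
    (hl : Continuous l) (hM : Continuous M) :
    Continuous fun q => Rr η (z q) (A q) (l q) (M q) := by
  unfold Rr
  refine cont_top (cont_mul ?_ (cont_mul ?_ ?_))
  · exact (ioL _).continuous.comp ((hη.continuous_fderiv (by norm_num)).comp hz)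
  · refine (ioL _).continuous.comp ?_
    unfold bA
    refine Continuous.sub ?_ ?_
    · exact ((lamL m).continuous.comp hl).clm_comp (continuous_const.clm_comp hA)
    · refine Continuous.clm_comp ((lamL m).continuous.comp ?_) continuous_const
      exact (F₀_smooth.continuous_fderiv (by simp)).comp ((kl m).continuous.comp hz)
  · exact continuous_finsetSum _ fun i _ => cont_mul (cont_pow (cont_omA hA hM) i)
      continuous_const

lemma cont_Tt {X : Type*} [TopologicalSpace X] {η : Eu (m + m) → ℝ} (hη : ContDiff ℝ 1 η)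
    {z : X → Eu (m + m)} {A : X → Eu (m + m) →L[ℝ] Eu (m + m)} {l : X → PP m →L[ℝ] ℝ}
    {M : X → Eu m →L[ℝ] Eu m →L[ℝ] ℝ} (hz : Continuous z) (hA : Continuous A)
    (hl : Continuous l) (hM : Continuous M) :
    Continuous fun q => Tt η (z q) (A q) (l q) (M q) := by
  unfold Tt
  refine (cont_Rr hη hz hA hl hM).add (((hη.continuous).comp hz).mul (Continuous.sub ?_
    continuous_const))
  exact cont_top (cont_pow (cont_omA hA hM) m)

lemma d_pow_mul {E : Type*} [NormedAddCommGroup E] [NormedSpace ℝ E] [FiniteDimensional ℝ E]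
    {a : E → Ext E} (ha : ContDiff ℝ 1 a) (hd : ∀ z, d a z = 0) (c : Ext E) (i : ℕ) :
    ContDiff ℝ 1 (fun z => a z ^ i * c) ∧ ∀ z, d (fun z => a z ^ i * c) z = 0 := by
  induction i with
  | zero =>
    simp only [pow_zero, one_mul]
    exact ⟨contDiff_const, fun z => F.d_const _ _⟩
  | succ i ih =>
    have e : (fun z => a z ^ (i + 1) * c) = fun z => a z * (a z ^ i * c) := by
      funext z; rw [pow_succ', mul_assoc]
    rw [e]
    refine ⟨contDiff_mul ha ih.1, fun z => ?_⟩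
    rw [d_mul (ha.differentiable (by norm_num) z) (ih.1.differentiable (by norm_num) z), hd, ih.2,
      zero_mul, mul_zero, add_zero]

/-- differential of the euclidean product -/
def L₀ (m : ℕ) : PP m →L[ℝ] PP m →L[ℝ] ℝ := tM (M₀ m) + (tM (M₀ m)).flip

lemma L₀_apply (u v : PP m) : L₀ m u v = ⟪u.1, v.2⟫ + ⟪v.1, u.2⟫ := rfl

lemma fderiv_F₀ (p : PP m) : fderiv ℝ (F₀ m) p = L₀ m p := by
  have h : HasFDerivAt (F₀ m) (L₀ m p) p := by
    have h1 := (hasFDerivAt_fst (𝕜 := ℝ) (p := p)).inner ℝ (hasFDerivAt_snd (𝕜 := ℝ) (p := p))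
    refine h1.congr_fderiv ?_
    ext u
    all_goals simp [L₀_apply, fderivInnerCLM_apply, real_inner_comm]
  exact h.fderiv

lemma mixH_F₀ (p : PP m) : mixH (fderiv ℝ (fderiv ℝ (F₀ m)) p) = M₀ m := by
  have h : fderiv ℝ (F₀ m) = fun p => L₀ m p := funext fderiv_F₀
  rw [h, (L₀ m).fderiv]
  ext a b
  rw [mixH_apply, L₀_apply]
  simp

/-- **Stokes** -/
theorem integral_Tt_smooth {f : Eu (m + m) → Eu (m + m)} (hf : ContDiff ℝ ∞ f) {F₁ : PP m → ℝ}
    (hF : ContDiff ℝ ∞ F₁) {η : Eu (m + m) → ℝ} (hη : ContDiff ℝ ∞ η)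
    (hηc : HasCompactSupport η) :
    ∫ z, Tt η z (fderiv ℝ f z) (fderiv ℝ F₁ (kl m (f z)))
      (mixH (fderiv ℝ (fderiv ℝ F₁) (kl m (f z)))) = 0 := by
  have two_le : (2 : WithTop ℕ∞) ≤ ∞ := WithTop.coe_le_coe.2 le_top
  have three_le : (3 : WithTop ℕ∞) ≤ ∞ := WithTop.coe_le_coe.2 le_top
  have smo : ∀ {G : PP m → ℝ}, ContDiff ℝ ∞ G →
      ContDiff ℝ 3 fun p => ioL (PP m) (lamL m (fderiv ℝ G p)) := fun hG =>
    (ioL (PP m)).contDiff.comp ((lamL m).contDiff.comp
      (hG.fderiv_right (m := 3) (WithTop.coe_le_coe.2 le_top)))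
  set g : Eu (m + m) → PP m := fun z => kl m (f z) with hg
  have hgs : ContDiff ℝ ∞ g := (kl m).contDiff.comp hf
  have hgd : ∀ z, fderiv ℝ g z = (kl m).comp (fderiv ℝ f z) := fun z =>
    ((kl m).hasFDerivAt.comp z ((hf.differentiable (by simp)) z).hasFDerivAt).fderiv
  set la : PP m → Ext (PP m) := fun p => ioL (PP m) (lamL m (fderiv ℝ F₁ p)) with hla
  set la₀ : PP m → Ext (PP m) := fun p => ioL (PP m) (lamL m (fderiv ℝ (F₀ m) p)) with hla₀
  have hlas : ContDiff ℝ 3 la := smo hF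
  have hla₀s : ContDiff ℝ 3 la₀ := smo F₀_smooth
  have hdla : ∀ p, d la p = Om (mixH (fderiv ℝ (fderiv ℝ F₁) p)) := fun p =>
    d_lam (hF.of_le two_le).contDiffAt
  have hdla₀ : ∀ p, d la₀ p = Om (M₀ m) := fun p => by
    rw [hla₀, d_lam (F₀_smooth.of_le two_le).contDiffAt, mixH_F₀]
  have hkd : ∀ z, fderiv ℝ (kl m) z = kl m := fun z => (kl m).fderiv
  set a : Eu (m + m) → Ext (Eu (m + m)) := pull g (d la) with ha
  have haz : ∀ z, a z = omA (fderiv ℝ f z) (mixH (fderiv ℝ (fderiv ℝ F₁) (g z))) := fun z => by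
    rw [ha, pull, hgd, hdla]; rfl
  have hdlas : ContDiff ℝ 2 (d la) := contDiff_iff_contDiffAt.2 fun p =>
    F.contDiffAt_d (n := 3) hlas.contDiffAt (by norm_num)
  have has : ContDiff ℝ 1 a := contDiff_iff_contDiffAt.2 fun z =>
    contDiffAt_pull (n := 2) (m := 1) (hgs.of_le two_le).contDiffAt (by norm_num)
      (hdlas.of_le (by norm_num)).contDiffAt
  have had : ∀ z, d a z = 0 := fun z => by
    rw [ha, d_pull (hgs.of_le two_le).contDiffAt ((hdlas.differentiable (by norm_num)) _), pull,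
      F.d_d (hlas.of_le (by norm_num)).contDiffAt, map_zero]
  set b : Eu (m + m) → Ext (Eu (m + m)) := fun z => pull g la z - pull (kl m) la₀ z with hb
  have hp1 : ContDiff ℝ 1 (pull g la) := contDiff_iff_contDiffAt.2 fun z =>
    contDiffAt_pull (n := 2) (m := 1) (hgs.of_le two_le).contDiffAt (by norm_num)
      (hlas.of_le (by norm_num)).contDiffAt
  have hp0 : ContDiff ℝ 1 (pull (kl m) la₀) := contDiff_iff_contDiffAt.2 fun z =>
    contDiffAt_pull (n := 2) (m := 1) (kl m).contDiff.contDiffAt (by norm_num)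
      (hla₀s.of_le (by norm_num)).contDiffAt
  have hbs : ContDiff ℝ 1 b := hp1.sub hp0
  have hbz : ∀ z, b z = ioL _ (bA z (fderiv ℝ f z) (fderiv ℝ F₁ (g z))) := fun z => by
    simp only [hb, bA, map_sub]
    congr 1
    · rw [pull, hgd, hla]
      change pb _ (io _) = io _
      rw [F.pb_io]; rfl
    · rw [pull, hkd, hla₀]
      change pb _ (io _) = io _
      rw [F.pb_io]; rfl
  have hbd : ∀ z, d b z = a z - w₀ m := fun z => by
    rw [hb, d_sub (hp1.differentiable (by norm_num) z) (hp0.differentiable (by norm_num) z),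
      d_pull (hgs.of_le two_le).contDiffAt ((hlas.differentiable (by norm_num)) _),
      d_pull (kl m).contDiff.contDiffAt ((hla₀s.differentiable (by norm_num)) _)]
    congr 1
    rw [pull, hkd, hdla₀]; rfl
  set S : Eu (m + m) → Ext (Eu (m + m)) := fun z =>
    ∑ i ∈ Finset.range m, a z ^ i * w₀ m ^ (m - 1 - i) with hS
  have hSs : ContDiff ℝ 1 S := ContDiff.sum fun i _ => (d_pow_mul has had _ i).1
  have hSd : ∀ z, d S z = 0 := fun z => by
    rw [hS, F.d_sum _ fun i _ => (d_pow_mul has had (w₀ m ^ (m - 1 - i)) i).1.differentiable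
      (by norm_num) z]
    exact Finset.sum_eq_zero fun i _ => (d_pow_mul has had _ i).2 z
  have hbS : ContDiff ℝ 1 fun z => b z * S z := contDiff_mul hbs hSs
  have hbSd : ∀ z, d (fun z => b z * S z) z = a z ^ m - w₀ m ^ m := fun z => by
    rw [d_mul (hbs.differentiable (by norm_num) z) (hSs.differentiable (by norm_num) z), hSd,
      mul_zero, add_zero, hbd, hS]
    have hcomm : Commute (a z) (w₀ m) := by
      rw [haz]; exact Two.comm (omA_two _ _) _
    exact hcomm.mul_geom_sum₂ m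
  have hη1 : ContDiff ℝ 1 η := hη.of_le (by simp)
  have hT : ContDiff ℝ 1 fun z => η z • (b z * S z) := hη1.smul hbS
  have hTc : HasCompactSupport fun z => η z • (b z * S z) := hηc.smul_right
  rw [← integral_functional_d_eq_zero volume hT hTc (top (m + m))]
  congr 1
  funext z
  rw [d_smul (hη1.differentiable (by norm_num) z) (hbS.differentiable (by norm_num) z), hbSd,
    map_add, map_smul, map_sub, Tt, Rr, smul_eq_mul]
  congr 1
  · rw [← hbz, hS]
    simp only [haz]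
    rfl
  · rw [haz]
    rfl

/-- the same for Lipschitz maps -/
theorem integral_Tt_lip {Φ : Eu (m + m) → Eu (m + m)} {K : ℝ≥0} (hΦ : LipschitzWith K Φ)
    {F₁ : PP m → ℝ} (hF : ContDiff ℝ ∞ F₁) {η : Eu (m + m) → ℝ} (hη : ContDiff ℝ ∞ η)
    (hηc : HasCompactSupport η) :
    ∫ z, Tt η z (fderiv ℝ Φ z) (fderiv ℝ F₁ (kl m (Φ z)))
      (mixH (fderiv ℝ (fderiv ℝ F₁) (kl m (Φ z)))) = 0 := by
  obtain ⟨R, hR⟩ := hηc.isBounded.subset_closedBall (0 : Eu (m + m))
  have two_le : (2 : WithTop ℕ∞) ≤ ∞ := WithTop.coe_le_coe.2 le_top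
  have hmix : Continuous fun B : PP m →L[ℝ] PP m →L[ℝ] ℝ => mixH B := by
    unfold mixH
    exact continuous_const.clm_comp (continuous_id.clm_comp continuous_const)
  have h1 : Continuous fun p : Eu (m + m) => fderiv ℝ F₁ (kl m p) :=
    (hF.continuous_fderiv (by simp)).comp (kl m).continuous
  have h2 : Continuous fun p : Eu (m + m) => mixH (fderiv ℝ (fderiv ℝ F₁) (kl m p)) := by
    have h3 : ContDiff ℝ 1 (fderiv ℝ F₁) := hF.fderiv_right (m := 1) two_le
    exact hmix.comp ((h3.continuous_fderiv (by norm_num)).comp (kl m).continuous)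
  have h := (approx_moll hΦ).tendsto_integral hΦ
    (T := fun z p A => Tt η z A (fderiv ℝ F₁ (kl m p)) (mixH (fderiv ℝ (fderiv ℝ F₁) (kl m p))))
    (R := R) (by
      exact cont_Tt (hη.of_le (by simp)) continuous_fst (continuous_snd.comp continuous_snd)
        (h1.comp (continuous_fst.comp continuous_snd))
        (h2.comp (continuous_fst.comp continuous_snd))) (fun z p A hz _ => by
        have hz' : z ∉ tsupport η := fun h => by
          have := hR h
          rw [mem_closedBall_zero_iff] at this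
          linarith
        have e1 : η z = 0 := image_eq_zero_of_notMem_tsupport hz'
        have e2 : fderiv ℝ η z = 0 := by
          by_contra h
          exact hz' ((tsupport_fderiv_subset ℝ) (subset_tsupport _ (Function.mem_support.2 h)))
        simp only [Tt, Rr, e1, e2, map_zero, zero_mul, add_zero])
  refine tendsto_nhds_unique h ?_
  have h6 : ∀ n, ∫ z, Tt η z (fderiv ℝ (moll Φ n) z) (fderiv ℝ F₁ (kl m (moll Φ n z)))
      (mixH (fderiv ℝ (fderiv ℝ F₁) (kl m (moll Φ n z)))) = 0 := fun n =>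
    integral_Tt_smooth ((approx_moll hΦ).smooth n) hF hη hηc
  simp only [h6]
  exact tendsto_const_nhds

end Crest.Agent.R208.JT
end
end

-- ▼ part R208/JT8
section

/-!
R208, block JT (helper631), part 8: cutting off the singularities of `F`, uniform bounds.
-/

set_option autoImplicit false
set_option linter.unusedSectionVars false

open Set Filter Topology Module MeasureTheory
open scoped NNReal ContDiff RealInnerProductSpace

noncomputable section

namespace Crest.Agent.R208.JT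

open Crest.Agent.R208.FI (kap)

variable {m : ℕ}

/-- cut-off -/
def chi (X : Eu m) : ℝ := Real.smoothTransition (‖X‖ ^ 2 - 1)

lemma chi_smooth : ContDiff ℝ ∞ (chi (m := m)) :=
  Real.smoothTransition.contDiff.comp ((contDiff_norm_sq ℝ).sub contDiff_const)

lemma chi_zero {X : Eu m} (h : ‖X‖ ^ 2 ≤ 1) : chi X = 0 :=
  Real.smoothTransition.zero_of_nonpos (by linarith)

lemma chi_one {X : Eu m} (h : 2 ≤ ‖X‖ ^ 2) : chi X = 1 :=
  Real.smoothTransition.one_of_one_le (by linarith)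

lemma chi_scale {r : ℝ} {X : Eu m} (h : r = 1 ∨ (1 ≤ r ∧ 2 < ‖X‖ ^ 2)) :
    ∀ᶠ X' in 𝓝 X, chi (r • X') = chi X' := by
  rcases h with h | ⟨h1, h2⟩
  · subst h; simp
  · have h3 : ∀ᶠ X' in 𝓝 X, 2 < ‖X'‖ ^ 2 :=
      (continuous_norm.pow 2).continuousAt.eventually (lt_mem_nhds h2)
    filter_upwards [h3] with X' hX'
    rw [chi_one hX'.le, chi_one]
    rw [norm_smul, mul_pow, Real.norm_eq_abs, sq_abs]
    nlinarith [sq_nonneg ‖X'‖]

/-- cut off scalar product -/
def JD.Fc (J : JD m) (p : PP m) : ℝ := J.F p * (chi p.1 * chi p.2)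

lemma JD.Fc_zero_fst (J : JD m) {p : PP m} (h : ‖p.1‖ ^ 2 < 1) : J.Fc =ᶠ[𝓝 p] fun _ => 0 := by
  have h1 : ∀ᶠ q : PP m in 𝓝 p, ‖q.1‖ ^ 2 < 1 :=
    (continuous_fst.norm.pow 2).continuousAt.eventually (gt_mem_nhds h)
  filter_upwards [h1] with q hq
  rw [JD.Fc, chi_zero hq.le, zero_mul, mul_zero]

lemma JD.Fc_zero_snd (J : JD m) {p : PP m} (h : ‖p.2‖ ^ 2 < 1) : J.Fc =ᶠ[𝓝 p] fun _ => 0 := by
  have h1 : ∀ᶠ q : PP m in 𝓝 p, ‖q.2‖ ^ 2 < 1 :=
    (continuous_snd.norm.pow 2).continuousAt.eventually (gt_mem_nhds h)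
  filter_upwards [h1] with q hq
  rw [JD.Fc, chi_zero hq.le, mul_zero, mul_zero]

lemma JD.Fc_smooth (J : JD m) : ContDiff ℝ ∞ J.Fc := by
  rw [contDiff_iff_contDiffAt]
  intro p
  by_cases h1 : ‖p.1‖ ^ 2 < 1
  · exact contDiffAt_const.congr_of_eventuallyEq (J.Fc_zero_fst h1)
  by_cases h2 : ‖p.2‖ ^ 2 < 1
  · exact contDiffAt_const.congr_of_eventuallyEq (J.Fc_zero_snd h2)
  have h1' : p.1 ≠ 0 := by
    intro h; rw [h] at h1; simp at h1
  have h2' : p.2 ≠ 0 := by
    intro h; rw [h] at h2; simp at h2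
  have h3 : ContDiffAt ℝ ∞ J.F p := J.smooth p.1 p.2 h1' h2'
  exact h3.mul ((chi_smooth.contDiffAt.comp p contDiffAt_fst).mul
    (chi_smooth.contDiffAt.comp p contDiffAt_snd))

lemma JD.F_smul₂ (J : JD m) (r s : ℝ) (X Y : Eu m) : J.F (r • X, s • Y) = r * s * J.F (X, Y) := by
  rw [J.F_smul, J.F_smul_right, mul_assoc]

/-- scaling -/
def sc (r s : ℝ) : PP m →L[ℝ] PP m :=
  (r • ContinuousLinearMap.id ℝ (Eu m)).prodMap (s • ContinuousLinearMap.id ℝ (Eu m))

@[simp] lemma sc_apply (r s : ℝ) (p : PP m) : sc r s p = (r • p.1, s • p.2) := rfl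

lemma JD.Fc_scale (J : JD m) {r s : ℝ} {p : PP m} (hr : r = 1 ∨ (1 ≤ r ∧ 2 < ‖p.1‖ ^ 2))
    (hs : s = 1 ∨ (1 ≤ s ∧ 2 < ‖p.2‖ ^ 2)) :
    (fun q => J.Fc (sc r s q)) =ᶠ[𝓝 p] fun q => (r * s) * J.Fc q := by
  have h1 : ∀ᶠ q : PP m in 𝓝 p, chi (r • q.1) = chi q.1 :=
    continuous_fst.continuousAt.eventually (chi_scale hr)
  have h2 : ∀ᶠ q : PP m in 𝓝 p, chi (s • q.2) = chi q.2 :=
    continuous_snd.continuousAt.eventually (chi_scale hs)
  filter_upwards [h1, h2] with q hq1 hq2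
  rw [JD.Fc, JD.Fc, sc_apply, hq1, hq2, J.F_smul₂]
  ring

/-- second differential under a linear change -/
lemma fderiv2_comp {f : PP m → ℝ} (hf : ContDiff ℝ ∞ f) (S : PP m →L[ℝ] PP m) (p u v : PP m) :
    fderiv ℝ (fderiv ℝ fun q => f (S q)) p u v = fderiv ℝ (fderiv ℝ f) (S p) (S u) (S v) := by
  have h1 : (fderiv ℝ fun q => f (S q)) = fun q => (fderiv ℝ f (S q)).comp S := by
    funext q
    exact (((hf.differentiable (by simp)) (S q)).hasFDerivAt.comp q S.hasFDerivAt).fderiv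
  have h2 : ContDiff ℝ 1 (fderiv ℝ f) := hf.fderiv_right (m := 1) (WithTop.coe_le_coe.2 le_top)
  have h3 : HasFDerivAt (fun q => fderiv ℝ f (S q)) ((fderiv ℝ (fderiv ℝ f) (S p)).comp S) p :=
    ((h2.differentiable (by norm_num)) (S p)).hasFDerivAt.comp p S.hasFDerivAt
  have h4 : HasFDerivAt (fun q => (fderiv ℝ f (S q)).comp S)
      (((ContinuousLinearMap.compL ℝ (PP m) (PP m) ℝ).flip S).comp
        ((fderiv ℝ (fderiv ℝ f) (S p)).comp S)) p :=
    ((ContinuousLinearMap.compL ℝ (PP m) (PP m) ℝ).flip S).hasFDerivAt.comp p h3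
  rw [h1, h4.fderiv]
  rfl

lemma JD.mix_scale (J : JD m) {r s : ℝ} {p : PP m} (hr : r = 1 ∨ (1 ≤ r ∧ 2 < ‖p.1‖ ^ 2))
    (hs : s = 1 ∨ (1 ≤ s ∧ 2 < ‖p.2‖ ^ 2)) :
    mixH (fderiv ℝ (fderiv ℝ J.Fc) (sc r s p)) = mixH (fderiv ℝ (fderiv ℝ J.Fc) p) := by
  have hr0 : r ≠ 0 := by
    rcases hr with h | h
    · rw [h]; exact one_ne_zero
    · intro h0; rw [h0] at h; linarith [h.1]
  have hs0 : s ≠ 0 := by
    rcases hs with h | h
    · rw [h]; exact one_ne_zero
    · intro h0; rw [h0] at h; linarith [h.1]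
  ext a b
  rw [mixH_apply, mixH_apply]
  have h1 := fderiv2_comp J.Fc_smooth (sc r s) p (a, 0) (0, b)
  have h2 : fderiv ℝ (fderiv ℝ fun q => J.Fc (sc r s q)) p =
      (r * s) • fderiv ℝ (fderiv ℝ J.Fc) p := by
    have h3 := (J.Fc_scale hr hs).fderiv (𝕜 := ℝ)
    rw [h3.fderiv_eq]
    have h4 : (fderiv ℝ fun q => (r * s) * J.Fc q) = fun q => (r * s) • fderiv ℝ J.Fc q := by
      funext q
      exact fderiv_const_mul ((J.Fc_smooth.differentiable (by simp)) q) _
    rw [h4]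
    have h5 : ContDiff ℝ 1 (fderiv ℝ J.Fc) :=
      J.Fc_smooth.fderiv_right (m := 1) (WithTop.coe_le_coe.2 le_top)
    exact (((h5.differentiable (by norm_num)) p).hasFDerivAt.const_smul (r * s)).fderiv
  rw [h2] at h1
  simp only [sc_apply, smul_zero] at h1
  have h6 : fderiv ℝ (fderiv ℝ J.Fc) (r • p.1, s • p.2) (r • a, 0) (0, s • b) =
      (r * s) * fderiv ℝ (fderiv ℝ J.Fc) (r • p.1, s • p.2) (a, 0) (0, b) := by
    have e1 : ((r • a, 0) : PP m) = r • (a, 0) := by simp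
    have e2 : ((0, s • b) : PP m) = s • (0, b) := by simp
    rw [e1, e2, map_smul, map_smul, smul_apply, smul_eq_mul, smul_eq_mul]
    ring
  rw [h6, smul_apply, smul_apply, smul_eq_mul] at h1
  exact (mul_left_cancel₀ (mul_ne_zero hr0 hs0) h1).symm

lemma cont_mixH {X : Type*} [TopologicalSpace X] {B : X → PP m →L[ℝ] PP m →L[ℝ] ℝ}
    (hB : Continuous B) : Continuous fun x => mixH (B x) := by
  unfold mixH
  exact continuous_const.clm_comp (hB.clm_comp continuous_const)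

theorem JD.mix_bound (J : JD m) : ∃ C : ℝ, 0 ≤ C ∧
    ∀ p, ‖mixH (fderiv ℝ (fderiv ℝ J.Fc) p)‖ ≤ C := by
  have h5 : ContDiff ℝ 1 (fderiv ℝ J.Fc) :=
    J.Fc_smooth.fderiv_right (m := 1) (WithTop.coe_le_coe.2 le_top)
  have hc0 : Continuous fun p : PP m => mixH (fderiv ℝ (fderiv ℝ J.Fc) p) :=
    cont_mixH (h5.continuous_fderiv (by norm_num))
  have hn : Continuous fun M : Eu m →L[ℝ] Eu m →L[ℝ] ℝ => ‖M‖ :=
    continuous_norm (E := Eu m →L[ℝ] Eu m →L[ℝ] ℝ)
  have hc : Continuous fun p : PP m => ‖mixH (fderiv ℝ (fderiv ℝ J.Fc) p)‖ := hn.comp hc0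
  obtain ⟨C, hC⟩ := (((isCompact_closedBall (0 : Eu m) 3).prod
    (isCompact_closedBall (0 : Eu m) 3)).bddAbove_image hc.continuousOn)
  have key : ∀ X : Eu m, ∃ (r : ℝ) (X' : Eu m), X = r • X' ∧ ‖X'‖ ≤ 3 ∧
      (r = 1 ∨ (1 ≤ r ∧ 2 < ‖X'‖ ^ 2)) := by
    intro X
    by_cases h : ‖X‖ ≤ 3
    · exact ⟨1, X, (one_smul _ _).symm, h, Or.inl rfl⟩
    · push Not at h
      have h0 : 0 < ‖X‖ := by linarith
      have hn : ‖(3 / ‖X‖) • X‖ = 3 := by
        rw [norm_smul, norm_div, norm_norm, div_mul_cancel₀ _ h0.ne']; norm_num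
      refine ⟨‖X‖ / 3, (3 / ‖X‖) • X, ?_, hn.le, Or.inr ⟨?_, ?_⟩⟩
      · rw [smul_smul]
        have : ‖X‖ / 3 * (3 / ‖X‖) = 1 := by field_simp
        rw [this, one_smul]
      · linarith
      · rw [hn]; norm_num
  have hC' : ∀ q : PP m, ‖q.1‖ ≤ 3 → ‖q.2‖ ≤ 3 →
      ‖mixH (fderiv ℝ (fderiv ℝ J.Fc) q)‖ ≤ |C| := by
    intro q h1 h2
    refine le_trans (hC (mem_image_of_mem _ ?_)) (le_abs_self C)
    exact ⟨mem_closedBall_zero_iff.2 h1, mem_closedBall_zero_iff.2 h2⟩
  refine ⟨|C|, abs_nonneg _, fun p => ?_⟩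
  obtain ⟨r, X, hX, hX3, hr⟩ := key p.1
  obtain ⟨s, Y, hY, hY3, hs⟩ := key p.2
  have hp : p = sc r s (X, Y) := by
    rw [sc_apply, ← hX, ← hY]
  have e := J.mix_scale (p := (X, Y)) hr hs
  rw [hp, e]
  exact hC' (X, Y) hX3 hY3

/-- a bound for the differential from one for the mixed Hessian -/
lemma fderiv_le_of_mix {f : PP m → ℝ} (hf : ContDiff ℝ ∞ f) {C : ℝ}
    (hC : ∀ p, ‖mixH (fderiv ℝ (fderiv ℝ f) p)‖ ≤ C)
    (h1 : ∀ Y : Eu m, f =ᶠ[𝓝 (0, Y)] fun _ => 0) (h2 : ∀ X : Eu m, f =ᶠ[𝓝 (X, 0)] fun _ => 0)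
    (p : PP m) : ‖fderiv ℝ f p‖ ≤ 2 * C * ‖p‖ := by
  have hC0 : 0 ≤ C := (norm_nonneg (mixH (fderiv ℝ (fderiv ℝ f) p))).trans (hC p)
  have h5 : ContDiff ℝ 1 (fderiv ℝ f) := hf.fderiv_right (m := 1) (WithTop.coe_le_coe.2 le_top)
  have hd : ∀ q, HasFDerivAt (fderiv ℝ f) (fderiv ℝ (fderiv ℝ f) q) q := fun q =>
    ((h5.differentiable (by norm_num)) q).hasFDerivAt
  obtain ⟨X, Y⟩ := p
  have hX : ‖X‖ ≤ ‖(X, Y)‖ := norm_fst_le (X, Y)
  have hY : ‖Y‖ ≤ ‖(X, Y)‖ := norm_snd_le (X, Y)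
  have k1 : ∀ b : Eu m, |fderiv ℝ f (X, Y) (0, b)| ≤ C * ‖X‖ * ‖b‖ := by
    intro b
    have hder : ∀ t ∈ Icc (0 : ℝ) 1, HasDerivWithinAt
        (fun t : ℝ => fderiv ℝ f (t • X, Y) (0, b))
        (fderiv ℝ (fderiv ℝ f) (t • X, Y) (X, 0) (0, b)) (Icc 0 1) t := by
      intro t _
      have e1 : HasDerivAt (fun t : ℝ => ((t • X, Y) : PP m)) (X, 0) t := by
        have := ((hasDerivAt_id t).smul_const X).prodMk (hasDerivAt_const t Y)
        simpa using this
      have e2 := (hd (t • X, Y)).comp_hasDerivAt t e1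
      exact (e2.clm_apply (hasDerivAt_const t ((0, b) : PP m))).hasDerivWithinAt.congr_deriv
        (by simp)
    have := norm_image_sub_le_of_norm_deriv_le_segment_01' hder (C := C * ‖X‖ * ‖b‖)
      (fun t _ => by
        have e3 := hC (t • X, Y)
        change ‖mixH (fderiv ℝ (fderiv ℝ f) (t • X, Y)) X b‖ ≤ _
        refine ((mixH (fderiv ℝ (fderiv ℝ f) (t • X, Y))).le_opNorm₂ X b).trans ?_
        gcongr)
    simp only [one_smul, zero_smul] at this
    have e4 : fderiv ℝ f ((0, Y) : PP m) = 0 := by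
      rw [(h1 Y).fderiv_eq]; exact fderiv_const_apply _
    rw [e4, zero_apply, sub_zero] at this
    exact this
  have k2 : ∀ a : Eu m, |fderiv ℝ f (X, Y) (a, 0)| ≤ C * ‖a‖ * ‖Y‖ := by
    intro a
    have hder : ∀ t ∈ Icc (0 : ℝ) 1, HasDerivWithinAt
        (fun t : ℝ => fderiv ℝ f (X, t • Y) (a, 0))
        (fderiv ℝ (fderiv ℝ f) (X, t • Y) (a, 0) (0, Y)) (Icc 0 1) t := by
      intro t _
      have e1 : HasDerivAt (fun t : ℝ => ((X, t • Y) : PP m)) (0, Y) t := by
        have := (hasDerivAt_const t X).prodMk ((hasDerivAt_id t).smul_const Y)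
        simpa using this
      have e2 := (hd (X, t • Y)).comp_hasDerivAt t e1
      have e3 := (e2.clm_apply (hasDerivAt_const t ((a, 0) : PP m)))
      refine e3.hasDerivWithinAt.congr_deriv ?_
      rw [map_zero, add_zero]
      exact F.fderiv_symm (hf.of_le (WithTop.coe_le_coe.2 le_top)).contDiffAt _ _
    have := norm_image_sub_le_of_norm_deriv_le_segment_01' hder (C := C * ‖a‖ * ‖Y‖)
      (fun t _ => by
        have e3 := hC (X, t • Y)
        change ‖mixH (fderiv ℝ (fderiv ℝ f) (X, t • Y)) a Y‖ ≤ _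
        refine ((mixH (fderiv ℝ (fderiv ℝ f) (X, t • Y))).le_opNorm₂ a Y).trans ?_
        gcongr)
    simp only [one_smul, zero_smul] at this
    have e4 : fderiv ℝ f ((X, 0) : PP m) = 0 := by
      rw [(h2 X).fderiv_eq]; exact fderiv_const_apply _
    rw [e4, zero_apply, sub_zero] at this
    exact this
  refine ContinuousLinearMap.opNorm_le_bound _ (by positivity) fun u => ?_
  have hu1 : ‖u.1‖ ≤ ‖u‖ := norm_fst_le u
  have hu2 : ‖u.2‖ ≤ ‖u‖ := norm_snd_le u
  have e5 : fderiv ℝ f (X, Y) u = fderiv ℝ f (X, Y) (u.1, 0) + fderiv ℝ f (X, Y) (0, u.2) := by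
    rw [← map_add, prX_add_prY]
  rw [e5]
  refine (norm_add_le _ _).trans ?_
  have k1' := k1 u.2
  have k2' := k2 u.1
  rw [Real.norm_eq_abs, Real.norm_eq_abs]
  have e6 : C * ‖X‖ * ‖u.2‖ ≤ C * ‖(X, Y)‖ * ‖u‖ := by gcongr
  have e7 : C * ‖u.1‖ * ‖Y‖ ≤ C * ‖u‖ * ‖(X, Y)‖ := by gcongr
  calc |fderiv ℝ f (X, Y) (u.1, 0)| + |fderiv ℝ f (X, Y) (0, u.2)|
      ≤ C * ‖u‖ * ‖(X, Y)‖ + C * ‖(X, Y)‖ * ‖u‖ := by linarith
    _ = 2 * C * ‖(X, Y)‖ * ‖u‖ := by ring

/-- the approximations -/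
def JD.Fn (J : JD m) (n : ℕ) (p : PP m) : ℝ :=
  (((n : ℝ) + 1) * ((n : ℝ) + 1))⁻¹ * J.Fc (sc ((n : ℝ) + 1) ((n : ℝ) + 1) p)

lemma JD.Fn_smooth (J : JD m) (n : ℕ) : ContDiff ℝ ∞ (J.Fn n) :=
  contDiff_const.mul (J.Fc_smooth.comp (sc ((n : ℝ) + 1) ((n : ℝ) + 1)).contDiff)

lemma JD.Fn_mix (J : JD m) (n : ℕ) (p : PP m) : mixH (fderiv ℝ (fderiv ℝ (J.Fn n)) p) =
    mixH (fderiv ℝ (fderiv ℝ J.Fc) (sc ((n : ℝ) + 1) ((n : ℝ) + 1) p)) := by
  set c : ℝ := (n : ℝ) + 1 with hc
  have hc0 : c ≠ 0 := by positivity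
  have hs : ContDiff ℝ ∞ fun q => J.Fc (sc c c q) := J.Fc_smooth.comp (sc c c).contDiff
  have h1 : fderiv ℝ (J.Fn n) = fun q => (c * c)⁻¹ • fderiv ℝ (fun q => J.Fc (sc c c q)) q := by
    funext q
    exact fderiv_const_mul ((hs.differentiable (by simp)) q) _
  have h5 : ContDiff ℝ 1 (fderiv ℝ fun q => J.Fc (sc c c q)) :=
    hs.fderiv_right (m := 1) (WithTop.coe_le_coe.2 le_top)
  have h2 : fderiv ℝ (fderiv ℝ (J.Fn n)) p =
      (c * c)⁻¹ • fderiv ℝ (fderiv ℝ fun q => J.Fc (sc c c q)) p := by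
    rw [h1]
    exact (((h5.differentiable (by norm_num)) p).hasFDerivAt.const_smul (c * c)⁻¹).fderiv
  ext a b
  rw [mixH_apply, mixH_apply, h2, smul_apply, smul_apply,
    fderiv2_comp J.Fc_smooth]
  have e1 : sc c c ((a, 0) : PP m) = c • (a, 0) := by simp
  have e2 : sc c c ((0, b) : PP m) = c • (0, b) := by simp
  rw [e1, e2, map_smul, map_smul, smul_apply, smul_eq_mul, smul_eq_mul, smul_eq_mul]
  field_simp

lemma JD.Fn_zero_fst (J : JD m) (n : ℕ) (Y : Eu m) : J.Fn n =ᶠ[𝓝 (0, Y)] fun _ => 0 := by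
  set c : ℝ := (n : ℝ) + 1 with hc
  have h1 : J.Fc =ᶠ[𝓝 (sc c c ((0, Y) : PP m))] fun _ => 0 := J.Fc_zero_fst (by simp)
  have h2 := (sc c c).continuous.continuousAt.eventually h1
  filter_upwards [h2] with q hq
  rw [JD.Fn, hq, mul_zero]

lemma JD.Fn_zero_snd (J : JD m) (n : ℕ) (X : Eu m) : J.Fn n =ᶠ[𝓝 (X, 0)] fun _ => 0 := by
  set c : ℝ := (n : ℝ) + 1 with hc
  have h1 : J.Fc =ᶠ[𝓝 (sc c c ((X, 0) : PP m))] fun _ => 0 := J.Fc_zero_snd (by simp)
  have h2 := (sc c c).continuous.continuousAt.eventually h1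
  filter_upwards [h2] with q hq
  rw [JD.Fn, hq, mul_zero]

/-- **uniform bounds** -/
theorem JD.Fn_bound (J : JD m) : ∃ C : ℝ, 0 ≤ C ∧
    (∀ n p, ‖mixH (fderiv ℝ (fderiv ℝ (J.Fn n)) p)‖ ≤ C) ∧
    ∀ n p, ‖fderiv ℝ (J.Fn n) p‖ ≤ 2 * C * ‖p‖ := by
  obtain ⟨C, hC0, hC⟩ := J.mix_bound
  have h1 : ∀ n p, ‖mixH (fderiv ℝ (fderiv ℝ (J.Fn n)) p)‖ ≤ C := fun n p => by
    rw [J.Fn_mix]; exact hC _
  exact ⟨C, hC0, h1, fun n p => fderiv_le_of_mix (J.Fn_smooth n) (h1 n) (J.Fn_zero_fst n)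
    (J.Fn_zero_snd n) p⟩

/-- eventually the cut-off is invisible -/
theorem JD.Fn_eventually (J : JD m) {p : PP m} (h1 : p.1 ≠ 0) (h2 : p.2 ≠ 0) :
    ∀ᶠ n in atTop, J.Fn n =ᶠ[𝓝 p] J.F := by
  have ht : Tendsto (fun n : ℕ => (n : ℝ) + 1) atTop atTop :=
    tendsto_atTop_add_const_right _ _ tendsto_natCast_atTop_atTop
  have k1 : ∀ᶠ n : ℕ in atTop, 2 < ((n : ℝ) + 1) * ‖p.1‖ :=
    (ht.atTop_mul_const (norm_pos_iff.2 h1)).eventually_gt_atTop 2
  have k2 : ∀ᶠ n : ℕ in atTop, 2 < ((n : ℝ) + 1) * ‖p.2‖ :=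
    (ht.atTop_mul_const (norm_pos_iff.2 h2)).eventually_gt_atTop 2
  filter_upwards [k1, k2] with n hn1 hn2
  set c : ℝ := (n : ℝ) + 1 with hc
  have hc0 : 0 < c := by positivity
  have e1 : ∀ᶠ q : PP m in 𝓝 p, 2 < c * ‖q.1‖ :=
    (continuous_const.mul continuous_fst.norm).continuousAt.eventually (lt_mem_nhds hn1)
  have e2 : ∀ᶠ q : PP m in 𝓝 p, 2 < c * ‖q.2‖ :=
    (continuous_const.mul continuous_snd.norm).continuousAt.eventually (lt_mem_nhds hn2)
  filter_upwards [e1, e2] with q hq1 hq2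
  have f1 : chi (c • q.1) = 1 := chi_one (by
    rw [norm_smul, Real.norm_of_nonneg hc0.le]; nlinarith)
  have f2 : chi (c • q.2) = 1 := chi_one (by
    rw [norm_smul, Real.norm_of_nonneg hc0.le]; nlinarith)
  rw [JD.Fn, JD.Fc, ← hc, sc_apply, f1, f2, J.F_smul₂]
  field_simp

end Crest.Agent.R208.JT
end
end

-- ▼ part R208/JT9
section

/-!
R208, block JT (helper631), part 9: consequences of the axioms at a point, contraction with the
Hopf field.
-/

set_option autoImplicit false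
set_option linter.unusedSectionVars false

open Set Filter Topology Module MeasureTheory
open scoped NNReal ContDiff RealInnerProductSpace

noncomputable section

namespace Crest.Agent.R208.JT

open Crest.Agent.R208.F (Ext io inv pb top ii ii_pb pb_io)
open Crest.Agent.R208.FI (kap)

variable {m : ℕ} (J : JD m)

lemma eventually_ne_pair {p : PP m} (h1 : p.1 ≠ 0) (h2 : p.2 ≠ 0) :
    ∀ᶠ q : PP m in 𝓝 p, q.1 ≠ 0 ∧ q.2 ≠ 0 :=
  (continuous_fst.continuousAt.eventually_ne h1).and (continuous_snd.continuousAt.eventually_ne h2)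

lemma JD.smoothAt {p : PP m} (h1 : p.1 ≠ 0) (h2 : p.2 ≠ 0) : ContDiffAt ℝ ∞ J.F p :=
  J.smooth p.1 p.2 h1 h2

lemma JD.hasFDerivAt {p : PP m} (h1 : p.1 ≠ 0) (h2 : p.2 ≠ 0) :
    HasFDerivAt J.F (fderiv ℝ J.F p) p :=
  ((J.smoothAt h1 h2).differentiableAt (by simp)).hasFDerivAt

lemma JD.hasFDerivAt2 {p : PP m} (h1 : p.1 ≠ 0) (h2 : p.2 ≠ 0) :
    HasFDerivAt (fderiv ℝ J.F) (fderiv ℝ (fderiv ℝ J.F) p) p :=
  (((J.smoothAt h1 h2).fderiv_right (m := 1)
    (WithTop.coe_le_coe.2 le_top)).differentiableAt (by norm_num)).hasFDerivAt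

/-- exchange of the factors -/
def sw (m : ℕ) : PP m →L[ℝ] PP m :=
  (ContinuousLinearMap.snd ℝ (Eu m) (Eu m)).prod (ContinuousLinearMap.fst ℝ (Eu m) (Eu m))

@[simp] lemma sw_apply (p : PP m) : sw m p = (p.2, p.1) := rfl

lemma JD.F_sw (p : PP m) : J.F (sw m p) = J.F p := by
  rw [sw_apply, J.F_comm]

lemma JD.fderiv_sw {p : PP m} (h1 : p.1 ≠ 0) (h2 : p.2 ≠ 0) (u : PP m) :
    fderiv ℝ J.F p u = fderiv ℝ J.F (sw m p) (sw m u) := by
  have h := (J.hasFDerivAt (p := sw m p) h2 h1).comp p (sw m).hasFDerivAt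
  have e : (J.F ∘ sw m) = J.F := funext J.F_sw
  rw [e] at h
  rw [h.fderiv]
  rfl

lemma JD.mix_sw {p : PP m} (h1 : p.1 ≠ 0) (h2 : p.2 ≠ 0) (a b : Eu m) :
    mixH (fderiv ℝ (fderiv ℝ J.F) p) a b = mixH (fderiv ℝ (fderiv ℝ J.F) (sw m p)) b a := by
  have e : fderiv ℝ J.F =ᶠ[𝓝 p] fun q => (fderiv ℝ J.F (sw m q)).comp (sw m) := by
    filter_upwards [eventually_ne_pair h1 h2] with q hq
    exact ContinuousLinearMap.ext fun u => J.fderiv_sw hq.1 hq.2 u
  have h3 : HasFDerivAt (fun q => fderiv ℝ J.F (sw m q))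
      ((fderiv ℝ (fderiv ℝ J.F) (sw m p)).comp (sw m)) p :=
    (J.hasFDerivAt2 (p := sw m p) h2 h1).comp p (sw m).hasFDerivAt
  have h4 : HasFDerivAt (fun q => (fderiv ℝ J.F (sw m q)).comp (sw m))
      (((ContinuousLinearMap.compL ℝ (PP m) (PP m) ℝ).flip (sw m)).comp
        ((fderiv ℝ (fderiv ℝ J.F) (sw m p)).comp (sw m))) p :=
    ((ContinuousLinearMap.compL ℝ (PP m) (PP m) ℝ).flip (sw m)).hasFDerivAt.comp p h3
  rw [mixH_apply, mixH_apply, e.fderiv_eq, h4.fderiv]
  change fderiv ℝ (fderiv ℝ J.F) (sw m p) (sw m (a, 0)) (sw m (0, b)) = _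
  exact F.fderiv_symm ((J.smoothAt (p := sw m p) h2 h1).of_le (WithTop.coe_le_coe.2 le_top)) _ _

/-- the differential in the second variable -/
lemma JD.fderiv_snd {X Y : Eu m} (h1 : X ≠ 0) (h2 : Y ≠ 0) (b : Eu m) :
    fderiv ℝ J.F (X, Y) (0, b) = J.G Y (J.Z Y X) b := by
  rw [J.fderiv_sw (p := (X, Y)) h1 h2]
  exact J.grad Y X b h2 h1

/-- the metric as an isomorphism -/
lemma JD.G_inj {X : Eu m} (h : X ≠ 0) {a b : Eu m} (hab : J.G X a = J.G X b) : a = b := by
  by_contra hne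
  have h1 := J.G_pos X (a - b) h (sub_ne_zero.2 hne)
  have h2 : J.G X (a - b) = 0 := by rw [map_sub, hab, sub_self]
  rw [h2, zero_apply] at h1
  exact lt_irrefl _ h1

/-- the metric as a linear equivalence -/
def JD.Ge {X : Eu m} (h : X ≠ 0) : Eu m ≃L[ℝ] (Eu m →L[ℝ] ℝ) :=
  ContinuousLinearEquiv.ofBijective (J.G X)
    (LinearMap.ker_eq_bot_of_injective fun _ _ hab => J.G_inj h hab) (by
      have hfin : finrank ℝ (Eu m) = finrank ℝ (Eu m →L[ℝ] ℝ) := by
        rw [(InnerProductSpace.toDual ℝ (Eu m)).toLinearEquiv.finrank_eq]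
      have hinj : Function.Injective ((J.G X : Eu m →L[ℝ] (Eu m →L[ℝ] ℝ)) :
        Eu m →ₗ[ℝ] (Eu m →L[ℝ] ℝ)) := fun _ _ hab => J.G_inj h hab
      exact LinearMap.range_eq_top.2
        ((LinearMap.injective_iff_surjective_of_finrank_eq_finrank hfin).1 hinj))


/-- `a ↦ (a, 0)` restricted covector -/
def resX (m : ℕ) : (PP m →L[ℝ] ℝ) →L[ℝ] (Eu m →L[ℝ] ℝ) :=
  (ContinuousLinearMap.compL ℝ (Eu m) (PP m) ℝ).flip (ContinuousLinearMap.inl ℝ (Eu m) (Eu m))

@[simp] lemma resX_apply (l : PP m →L[ℝ] ℝ) (a : Eu m) : resX m l a = l (a, 0) := rfl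

lemma JD.Z_eq {X Y : Eu m} (h1 : X ≠ 0) (h2 : Y ≠ 0) :
    J.Z X Y = (J.Ge h1).symm (resX m (fderiv ℝ J.F (X, Y))) := by
  rw [ContinuousLinearEquiv.eq_symm_apply]
  ext1 δ
  exact (J.grad X Y δ h1 h2).symm

/-- `Z X` is differentiable -/
lemma JD.hasFDerivAt_Z {X Y : Eu m} (h1 : X ≠ 0) (h2 : Y ≠ 0) :
    HasFDerivAt (J.Z X) (fderiv ℝ (J.Z X) Y) Y ∧ ∀ b δ : Eu m,
      J.G X (fderiv ℝ (J.Z X) Y b) δ = mixH (fderiv ℝ (fderiv ℝ J.F) (X, Y)) δ b := by
  have e : J.Z X =ᶠ[𝓝 Y] fun Y' => (J.Ge h1).symm (resX m (fderiv ℝ J.F (X, Y'))) := by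
    filter_upwards [isOpen_ne.mem_nhds h2] with Y' hY'
    exact J.Z_eq h1 hY'
  have h3 : HasFDerivAt (fun Y' : Eu m => fderiv ℝ J.F (X, Y'))
      ((fderiv ℝ (fderiv ℝ J.F) (X, Y)).comp (ContinuousLinearMap.inr ℝ (Eu m) (Eu m))) Y :=
    (J.hasFDerivAt2 (p := (X, Y)) h1 h2).comp Y (hasFDerivAt_prodMk_right X Y)
  have h4 : HasFDerivAt (fun Y' : Eu m => (J.Ge h1).symm (resX m (fderiv ℝ J.F (X, Y'))))
      (((J.Ge h1).symm : (Eu m →L[ℝ] ℝ) →L[ℝ] Eu m).comp ((resX m).comp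
        ((fderiv ℝ (fderiv ℝ J.F) (X, Y)).comp (ContinuousLinearMap.inr ℝ (Eu m) (Eu m))))) Y :=
    ((J.Ge h1).symm : (Eu m →L[ℝ] ℝ) →L[ℝ] Eu m).hasFDerivAt.comp Y
      ((resX m).hasFDerivAt.comp Y h3)
  have h5 := h4.congr_of_eventuallyEq e
  refine ⟨h5.differentiableAt.hasFDerivAt, fun b δ => ?_⟩
  rw [h5.fderiv]
  change J.Ge h1 ((J.Ge h1).symm _) δ = _
  rw [ContinuousLinearEquiv.apply_symm_apply]
  change fderiv ℝ (fderiv ℝ J.F) (X, Y) (0, b) (δ, 0) = _
  rw [mixH_apply]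
  exact F.fderiv_symm ((J.smoothAt (p := (X, Y)) h1 h2).of_le (WithTop.coe_le_coe.2 le_top)) _ _

/-- **the mixed Hessian on the plane** -/
lemma JD.mix_Z {X Y : Eu m} (h1 : X ≠ 0) (h2 : Y ≠ 0) (b : Eu m) :
    mixH (fderiv ℝ (fderiv ℝ J.F) (X, Y)) (J.Z X Y) b = ⟪Y, b⟫ := by
  obtain ⟨hd, hmix⟩ := J.hasFDerivAt_Z h1 h2
  have h3 : HasFDerivAt (fun Y' => J.G X (J.Z X Y')) ((J.G X).comp (fderiv ℝ (J.Z X) Y)) Y :=
    (J.G X).hasFDerivAt.comp Y hd
  have h4 := h3.clm_apply hd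
  have h5 : (fun Y' => J.G X (J.Z X Y') (J.Z X Y')) =ᶠ[𝓝 Y] fun Y' => ‖Y'‖ ^ 2 := by
    filter_upwards [isOpen_ne.mem_nhds h2] with Y' hY'
    exact J.eik X Y' h1 hY'
  have h6 : HasFDerivAt (fun Y' : Eu m => ‖Y'‖ ^ 2) (2 • (innerSL ℝ Y)) Y :=
    (hasStrictFDerivAt_norm_sq Y).hasFDerivAt
  have h7 := (h4.congr_of_eventuallyEq h5.symm).unique h6
  have h8 := congrArg (fun L : Eu m →L[ℝ] ℝ => L b) h7
  simp only [add_apply, ContinuousLinearMap.comp_apply, ContinuousLinearMap.flip_apply,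
    smul_apply, innerSL_apply_apply, nsmul_eq_mul, Nat.cast_ofNat] at h8
  rw [J.G_symm X (J.Z X Y), hmix] at h8
  linarith

lemma JD.mix_Z' {X Y : Eu m} (h1 : X ≠ 0) (h2 : Y ≠ 0) (a : Eu m) :
    mixH (fderiv ℝ (fderiv ℝ J.F) (X, Y)) a (J.Z Y X) = ⟪X, a⟫ := by
  rw [J.mix_sw (p := (X, Y)) h1 h2]
  exact J.mix_Z h2 h1 a

lemma JD.fderiv_Z {X Y : Eu m} (h1 : X ≠ 0) (h2 : Y ≠ 0) :
    fderiv ℝ J.F (X, Y) (J.Z X Y, 0) = ‖Y‖ ^ 2 := by
  rw [J.grad X Y _ h1 h2, J.eik X Y h1 h2]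

lemma JD.fderiv_Z' {X Y : Eu m} (h1 : X ≠ 0) (h2 : Y ≠ 0) :
    fderiv ℝ J.F (X, Y) (0, J.Z Y X) = ‖X‖ ^ 2 := by
  rw [J.fderiv_snd h1 h2, J.eik Y X h2 h1]

end Crest.Agent.R208.JT
end
end

-- ▼ part R208/JT10
section

/-!
R208, block JT (helper631), part 10: the Hopf field, vanishing of the boundary integrand.
-/

set_option autoImplicit false
set_option linter.unusedSectionVars false

open Set Filter Topology Module MeasureTheory
open scoped NNReal ContDiff RealInnerProductSpace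

noncomputable section

namespace Crest.Agent.R208.JT

open Crest.Agent.R208.F (Ext io inv pb top ii ii_pb pb_io)
open Crest.Agent.R208.FI (kap)

variable {m : ℕ} (J : JD m)

/-- the map of the join -/
structure JoinMap (J : JD m) (Φ : Eu (m + m) → Eu (m + m)) : Prop where
  lip : ∃ K : ℝ≥0, LipschitzWith K Φ
  norm : ∀ z, ‖Φ z‖ = ‖z‖
  equi : ∀ ζ z, ‖ζ‖ = 1 → Φ (Rs ζ z) = J.rot ζ (Φ z)

theorem JD.exists_joinMap : ∃ Φ, JoinMap J Φ := by
  obtain ⟨Φ, h1, h2, -, h4⟩ := J.exists_Phi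
  exact ⟨Φ, h1, h2, h4⟩

/-- the Hopf field -/
def hopf (z : Eu (m + m)) : Eu (m + m) := (kap m m).symm ((kap m m z).2, -(kap m m z).1)

/-- `cos s + i sin s` -/
def cis (s : ℝ) : ℂ := ⟨Real.cos s, Real.sin s⟩

@[simp] lemma cis_re (s : ℝ) : (cis s).re = Real.cos s := rfl

@[simp] lemma cis_im (s : ℝ) : (cis s).im = Real.sin s := rfl

lemma norm_cis (s : ℝ) : ‖cis s‖ = 1 := by
  have h : ‖cis s‖ ^ 2 = 1 := by
    rw [Complex.sq_norm, Complex.normSq_apply, cis_re, cis_im]
    nlinarith [Real.sin_sq_add_cos_sq s]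
  have h0 := norm_nonneg (cis s)
  nlinarith

lemma cis_mul (s t : ℝ) : cis s * cis t = cis (s + t) := by
  apply Complex.ext
  · rw [Complex.mul_re, cis_re, cis_im, cis_re, cis_im, cis_re, Real.cos_add]
  · rw [Complex.mul_im, cis_re, cis_im, cis_re, cis_im, cis_im, Real.sin_add]; ring

lemma inner_kap_symm (a b c d : Eu m) :
    ⟪(kap m m).symm (a, b), (kap m m).symm (c, d)⟫ = ⟪a, c⟫ + ⟪b, d⟫ := by
  have h1 := norm_sq_kap_symm (a + c) (b + d)
  have e : (kap m m).symm (a + c, b + d) = (kap m m).symm (a, b) + (kap m m).symm (c, d) := by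
    rw [← map_add]; rfl
  rw [e, norm_add_sq_real, norm_sq_kap_symm, norm_sq_kap_symm, norm_add_sq_real,
    norm_add_sq_real] at h1
  linarith

lemma inner_kap (z w : Eu (m + m)) :
    ⟪z, w⟫ = ⟪(kap m m z).1, (kap m m w).1⟫ + ⟪(kap m m z).2, (kap m m w).2⟫ := by
  rw [← inner_kap_symm]
  simp only [Prod.mk.eta, ContinuousLinearEquiv.symm_apply_apply]

lemma inner_hopf (z : Eu (m + m)) : ⟪z, hopf z⟫ = 0 := by
  rw [inner_kap, hopf, ContinuousLinearEquiv.apply_symm_apply]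
  simp only [inner_neg_right]
  rw [real_inner_comm]
  ring

lemma norm_hopf (z : Eu (m + m)) : ‖hopf z‖ = ‖z‖ := by
  refine (sq_eq_sq₀ (norm_nonneg _) (norm_nonneg _)).1 ?_
  rw [hopf, norm_sq_kap_symm, norm_sq_kap z, norm_neg]
  ring

lemma hasDerivAt_Rs (z : Eu (m + m)) : HasDerivAt (fun s : ℝ => Rs (cis s) z) (hopf z) 0 := by
  have h1 : HasDerivAt (fun s : ℝ => ((Real.cos s • (kap m m z).1 + Real.sin s • (kap m m z).2,
      -Real.sin s • (kap m m z).1 + Real.cos s • (kap m m z).2) : PP m))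
      ((kap m m z).2, -(kap m m z).1) 0 := by
    have hc := Real.hasDerivAt_cos 0
    have hs := Real.hasDerivAt_sin 0
    have k1 := (hc.smul_const (kap m m z).1).add (hs.smul_const (kap m m z).2)
    have k2 := (hs.neg.smul_const (kap m m z).1).add (hc.smul_const (kap m m z).2)
    refine (k1.prodMk k2).congr_deriv ?_
    simp
  exact ((kap m m).symm : PP m →L[ℝ] Eu (m + m)).hasFDerivAt.comp_hasDerivAt 0 h1

lemma JD.hasDerivAt_rot {q : Eu (m + m)} (h1 : (kap m m q).1 ≠ 0) (h2 : (kap m m q).2 ≠ 0) :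
    HasDerivAt (fun s : ℝ => J.rot (cis s) q)
      ((kap m m).symm (J.Z (kap m m q).1 (kap m m q).2, -J.Z (kap m m q).2 (kap m m q).1)) 0 := by
  set X := (kap m m q).1
  set Y := (kap m m q).2
  have k1 := J.hasDeriv X Y h1 h2
  have k2 : HasDerivAt (fun s : ℝ => J.A (-Real.sin s • X) (Real.cos s • Y)) (-J.Z Y X) 0 := by
    have k3 := J.hasDeriv Y X h2 h1
    rw [← neg_zero] at k3
    have k4 := k3.scomp (0 : ℝ) (hasDerivAt_neg (0 : ℝ))
    rw [neg_one_smul] at k4
    refine k4.congr_of_eventuallyEq (Eventually.of_forall fun s => ?_)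
    simp only [Function.comp, Real.cos_neg, Real.sin_neg]
    rw [J.A_comm]
  exact ((kap m m).symm : PP m →L[ℝ] Eu (m + m)).hasFDerivAt.comp_hasDerivAt 0 (k1.prodMk k2)

lemma Rs_one (z : Eu (m + m)) : Rs (cis 0) z = z := by
  rw [Rs]
  simp only [cis_re, cis_im, Real.cos_zero, Real.sin_zero, one_smul, zero_smul, add_zero, neg_zero,
    zero_add]
  exact (kap m m).symm_apply_apply z

variable {J} {Φ : Eu (m + m) → Eu (m + m)}

/-- the differential maps the Hopf field to the generator of the action. -/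
lemma JoinMap.fderiv_hopf (hΦ : JoinMap J Φ) {z : Eu (m + m)} (hd : DifferentiableAt ℝ Φ z)
    (h1 : (kap m m (Φ z)).1 ≠ 0) (h2 : (kap m m (Φ z)).2 ≠ 0) :
    kap m m (fderiv ℝ Φ z (hopf z)) = (J.Z (kap m m (Φ z)).1 (kap m m (Φ z)).2,
      -J.Z (kap m m (Φ z)).2 (kap m m (Φ z)).1) := by
  have k1 : HasDerivAt (fun s : ℝ => Φ (Rs (cis s) z)) (fderiv ℝ Φ z (hopf z)) 0 := by
    have hd' : HasFDerivAt Φ (fderiv ℝ Φ z) (Rs (cis 0) z) := by
      rw [Rs_one]; exact hd.hasFDerivAt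
    exact hd'.comp_hasDerivAt 0 (hasDerivAt_Rs z)
  have k2 := J.hasDerivAt_rot h1 h2
  have e : (fun s : ℝ => Φ (Rs (cis s) z)) = fun s : ℝ => J.rot (cis s) (Φ z) :=
    funext fun s => hΦ.equi _ _ (norm_cis s)
  rw [e] at k1
  rw [k1.unique k2, ContinuousLinearEquiv.apply_symm_apply]

lemma JoinMap.inner_fderiv (hΦ : JoinMap J Φ) {z : Eu (m + m)} (hd : DifferentiableAt ℝ Φ z)
    (v : Eu (m + m)) : ⟪Φ z, fderiv ℝ Φ z v⟫ = ⟪z, v⟫ := by
  have k1 : HasFDerivAt (fun w => ‖Φ w‖ ^ 2) ((2 • innerSL ℝ (Φ z)).comp (fderiv ℝ Φ z)) z :=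
    (hasStrictFDerivAt_norm_sq (Φ z)).hasFDerivAt.comp z hd.hasFDerivAt
  have k2 : HasFDerivAt (fun w : Eu (m + m) => ‖w‖ ^ 2) (2 • innerSL ℝ z) z :=
    (hasStrictFDerivAt_norm_sq z).hasFDerivAt
  have e : (fun w => ‖Φ w‖ ^ 2) = fun w : Eu (m + m) => ‖w‖ ^ 2 := funext fun w => by
    rw [hΦ.norm]
  rw [e] at k1
  have h := congrArg (fun L : Eu (m + m) →L[ℝ] ℝ => L v) (k1.unique k2)
  simp only [ContinuousLinearMap.comp_apply, smul_apply, innerSL_apply_apply, nsmul_eq_mul,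
    Nat.cast_ofNat] at h
  linarith

lemma ii_omA (A : Eu (m + m) →L[ℝ] Eu (m + m)) (M : Eu m →L[ℝ] Eu m →L[ℝ] ℝ)
    (h : Eu (m + m)) : ii h (omA A M) = ioL (Eu (m + m))
      ((tM M (kl m (A h)) - (tM M).flip (kl m (A h))).comp ((kl m).comp A)) := by
  rw [omA, ii_pb]
  change pb _ (ii (kl m (A h)) _) = _
  rw [ii_Om, pb_io]
  rfl

lemma ii_w₀ (h : Eu (m + m)) : ii h (w₀ m) = ioL (Eu (m + m))
      ((tM (M₀ m) (kl m h) - (tM (M₀ m)).flip (kl m h)).comp (kl m)) := by
  rw [w₀, ii_pb]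
  change pb _ (ii (kl m h) _) = _
  rw [ii_Om, pb_io]
  rfl

/-- **the boundary integrand vanishes** -/
theorem JoinMap.Rr_zero (hΦ : JoinMap J Φ) {z : Eu (m + m)} (hd : DifferentiableAt ℝ Φ z)
    (h1 : (kap m m (Φ z)).1 ≠ 0) (h2 : (kap m m (Φ z)).2 ≠ 0) {η : Eu (m + m) → ℝ}
    {c : ℝ} (hη : fderiv ℝ η z = c • innerSL ℝ z) :
    Rr η z (fderiv ℝ Φ z) (fderiv ℝ J.F (kl m (Φ z)))
      (mixH (fderiv ℝ (fderiv ℝ J.F) (kl m (Φ z)))) = 0 := by
  set X := (kap m m (Φ z)).1 with hX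
  set Y := (kap m m (Φ z)).2 with hY
  have hXY : kl m (Φ z) = (X, Y) := rfl
  set A := fderiv ℝ Φ z with hA
  have hAh : kl m (A (hopf z)) = (J.Z X Y, -J.Z Y X) := hΦ.fderiv_hopf hd h1 h2
  have hz0 : z ≠ 0 := by
    intro h
    have h3 : ‖Φ z‖ = 0 := by rw [hΦ.norm, h, norm_zero]
    rw [norm_eq_zero] at h3
    apply h1
    rw [hX, h3, map_zero]; rfl
  have hH : hopf z ≠ 0 := by
    intro h
    have := norm_hopf z
    rw [h, norm_zero] at this
    exact hz0 (norm_eq_zero.1 this.symm)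
  set θ : Module.Dual ℝ (Eu (m + m)) := ((innerSL ℝ z : Eu (m + m) →L[ℝ] ℝ) :
    Eu (m + m) →ₗ[ℝ] ℝ) with hθ
  have hθH : θ (hopf z) = 0 := inner_hopf z
  set β := bA z A (fderiv ℝ J.F (X, Y)) with hβ
  have hβH : β (hopf z) = 0 := by
    rw [hβ, bA]
    change lamL m (fderiv ℝ J.F (X, Y)) (kl m (A (hopf z))) -
      lamL m (fderiv ℝ (F₀ m) (kl m z)) (kl m (hopf z)) = 0
    rw [hAh, lamL_apply, lamL_apply, fderiv_F₀]
    have e1 : kl m (hopf z) = ((kap m m z).2, -(kap m m z).1) := by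
      rw [kl_apply, hopf, ContinuousLinearEquiv.apply_symm_apply]
    rw [e1, L₀_apply, L₀_apply]
    have e2 : fderiv ℝ J.F (X, Y) (0, -J.Z Y X) = -‖X‖ ^ 2 := by
      have : ((0, -J.Z Y X) : PP m) = -(0, J.Z Y X) := by simp
      rw [this, map_neg, J.fderiv_Z' h1 h2]
    have e3 : ‖X‖ ^ 2 + ‖Y‖ ^ 2 = ‖z‖ ^ 2 := by rw [← hΦ.norm z, norm_sq_kap (Φ z)]
    have e4 := norm_sq_kap z
    simp only [kl_apply, inner_neg_right, real_inner_self_eq_norm_sq, inner_zero_left, add_zero,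
      inner_zero_right, zero_add]
    rw [e2, J.fderiv_Z h1 h2]
    linarith
  -- contractions
  have hia : ii (hopf z) (omA A (mixH (fderiv ℝ (fderiv ℝ J.F) (X, Y)))) = io θ := by
    rw [ii_omA, hAh]
    change ioL _ _ = ioL _ (innerSL ℝ z)
    congr 1
    refine ContinuousLinearMap.ext fun v => ?_
    have e5 : (A v : Eu (m + m)) = fderiv ℝ Φ z v := rfl
    rw [ContinuousLinearMap.comp_apply, sub_apply, ContinuousLinearMap.flip_apply,
      ContinuousLinearMap.comp_apply, tM_apply, tM_apply, map_neg, J.mix_Z h1 h2, J.mix_Z' h1 h2,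
      sub_neg_eq_add, innerSL_apply_apply, ← hΦ.inner_fderiv hd v, inner_kap (Φ z), ← e5, ← hX,
      ← hY, kl_apply, add_comm]
  have hic : ii (hopf z) (w₀ m) = io θ := by
    have e1 : kl m (hopf z) = ((kap m m z).2, -(kap m m z).1) := by
      rw [kl_apply, hopf, ContinuousLinearEquiv.apply_symm_apply]
    rw [ii_w₀, e1]
    change ioL _ _ = ioL _ (innerSL ℝ z)
    congr 1
    refine ContinuousLinearMap.ext fun v => ?_
    rw [ContinuousLinearMap.comp_apply, sub_apply, ContinuousLinearMap.flip_apply,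
      tM_apply, tM_apply, M₀_apply, M₀_apply, innerSL_apply_apply, inner_neg_right, inner_kap z v,
      kl_apply, real_inner_comm ((kap m m v).1) ((kap m m z).1)]
    ring
  have key := top_vanish hH hθH (β := (β : Eu (m + m) →ₗ[ℝ] ℝ)) hβH (omA_two A _) w₀_two hia hic m
  rw [Rr, hη, hXY, map_smul, smul_mul_assoc, map_smul, smul_eq_mul]
  refine mul_eq_zero_of_right _ ?_
  exact key

end Crest.Agent.R208.JT
end
end

-- ▼ part R208/JT11
section

/-!
R208, block JT (helper631), part 11: null sets, the limit of the cut-off.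
-/

set_option autoImplicit false
set_option linter.unusedSectionVars false

open Set Filter Topology Module MeasureTheory
open scoped NNReal ContDiff RealInnerProductSpace

noncomputable section

namespace Crest.Agent.R208.JT

open Crest.Agent.R208.FI (kap)

variable {m : ℕ} {J : JD m} {Φ : Eu (m + m) → Eu (m + m)}

lemma norm_Rs {ζ : ℂ} (hζ : ‖ζ‖ = 1) (z : Eu (m + m)) : ‖Rs ζ z‖ = ‖z‖ := by
  have hr : ζ.re ^ 2 + ζ.im ^ 2 = 1 := by
    have := Complex.sq_norm ζ
    rw [hζ, Complex.normSq_apply] at this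
    linarith
  refine (sq_eq_sq₀ (norm_nonneg _) (norm_nonneg _)).1 ?_
  rw [Rs, norm_sq_kap_symm, norm_sq_kap z, norm_add_sq_real, norm_add_sq_real, norm_smul,
    norm_smul, norm_smul, norm_smul, norm_neg, mul_pow, mul_pow, mul_pow, mul_pow,
    Real.norm_eq_abs, Real.norm_eq_abs, sq_abs, sq_abs, real_inner_smul_left,
    real_inner_smul_right, real_inner_smul_left, real_inner_smul_right]
  linear_combination (‖(kap m m z).1‖ ^ 2 + ‖(kap m m z).2‖ ^ 2) * hr

/-- the rotation as a linear isometry -/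
def RsI (ζ : ℂ) (hζ : ‖ζ‖ = 1) : Eu (m + m) →ₗᵢ[ℝ] Eu (m + m) where
  toFun := Rs ζ
  map_add' x y := by
    rw [Rs, Rs, Rs, ← map_add]
    congr 1
    rw [map_add, Prod.fst_add, Prod.snd_add, Prod.mk_add_mk]
    congr 1 <;> module
  map_smul' r x := by
    rw [Rs, Rs, RingHom.id_apply, ← map_smul, map_smul, Prod.smul_fst, Prod.smul_snd, Prod.smul_mk]
    congr 2 <;> module
  norm_map' z := norm_Rs hζ z

lemma measurePreserving_Rs {ζ : ℂ} (hζ : ‖ζ‖ = 1) :
    MeasurePreserving (Rs ζ : Eu (m + m) → Eu (m + m)) :=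
  ((RsI ζ hζ).toLinearIsometryEquiv rfl).measurePreserving

lemma JD.A_zero_left (J : JD m) (Y : Eu m) : J.A 0 Y = Y := by rw [J.A_comm, J.A_zero]

lemma JoinMap.null_fst (hm : 1 ≤ m) (hΦ : JoinMap J Φ) :
    (volume : Measure (Eu (m + m))) {z | (kap m m (Φ z)).1 = 0} = 0 := by
  obtain ⟨K, hK⟩ := hΦ.lip
  set N : Set (Eu (m + m)) := {z | z ≠ 0 ∧ (kap m m (Φ z)).1 = 0} with hN
  have hNm : MeasurableSet N := by
    refine (isOpen_ne.measurableSet).inter (IsClosed.measurableSet ?_)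
    exact isClosed_eq ((continuous_fst.comp (kap m m).continuous).comp hK.continuous)
      continuous_const
  have hN0 : (volume : Measure (Eu (m + m))) N = 0 := by
    by_contra hne
    set As : Ico (0 : ℝ) Real.pi → Set (Eu (m + m)) := fun s => Rs (cis s) ⁻¹' N with hAs
    have hAm : ∀ s, MeasurableSet (As s) := fun s =>
      (measurePreserving_Rs (norm_cis s)).measurable hNm
    have hAv : ∀ s, (volume : Measure (Eu (m + m))) (As s) = volume N := fun s =>
      (measurePreserving_Rs (norm_cis s)).measure_preimage hNm.nullMeasurableSet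
    have hdisj : Pairwise (Function.onFun Disjoint As) := by
      intro s t hst
      rw [Function.onFun, Set.disjoint_left]
      intro z hs ht
      have hs1 : Rs (cis s) z ≠ 0 := hs.1
      have hs2 : (kap m m (Φ (Rs (cis s) z))).1 = 0 := hs.2
      have ht2 : (kap m m (Φ (Rs (cis t) z))).1 = 0 := ht.2
      have e1 : Φ (Rs (cis t) z) = J.rot (cis (t - s)) (Φ (Rs (cis s) z)) := by
        rw [hΦ.equi _ _ (norm_cis s), hΦ.equi _ _ (norm_cis t),
          J.rotRot.mul _ _ _ (norm_cis _) (norm_cis _), cis_mul, sub_add_cancel]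
      rw [e1, JD.rot, ContinuousLinearEquiv.apply_symm_apply, hs2] at ht2
      simp only [smul_zero] at ht2
      rw [J.A_zero_left, cis_im, smul_eq_zero] at ht2
      rcases ht2 with h | h
      · have h1 := s.2
        have h2 := t.2
        have h3 : (t : ℝ) - s = 0 := by
          by_contra h4
          rcases lt_or_gt_of_ne h4 with h5 | h5
          · have := Real.sin_neg_of_neg_of_neg_pi_lt h5 (by linarith [h1.1, h1.2, h2.1, h2.2])
            linarith
          · have := Real.sin_pos_of_pos_of_lt_pi h5 (by linarith [h1.1, h1.2, h2.1, h2.2])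
            linarith
        exact hst (Subtype.ext (by linarith))
      · have h1 := norm_sq_kap (Φ (Rs (cis s) z))
        rw [hs2, h, norm_zero, hΦ.norm] at h1
        have h2 : ‖Rs (cis s) z‖ = 0 := by nlinarith [norm_nonneg (Rs (cis s) z)]
        exact hs1 (norm_eq_zero.1 h2)
    have hc := Measure.countable_meas_pos_of_disjoint_iUnion
      (μ := (volume : Measure (Eu (m + m)))) hAm hdisj
    have huniv : {s | 0 < (volume : Measure (Eu (m + m))) (As s)} = univ := by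
      ext s
      simp only [mem_ofPred_eq, mem_univ, iff_true]
      rw [hAv]
      exact pos_iff_ne_zero.2 hne
    rw [huniv, Set.countable_univ_iff] at hc
    have h3 : (Ico (0 : ℝ) Real.pi).Countable := hc
    have h4 := h3.measure_zero volume
    rw [Real.volume_Ico, sub_zero] at h4
    have := Real.pi_pos
    simp at h4
    linarith
  have : Nonempty (Fin (m + m)) := ⟨⟨0, by omega⟩⟩
  have : Nontrivial (Eu (m + m)) := inferInstance
  refine measure_mono_null (t := N ∪ {0}) ?_ (measure_union_null hN0 (measure_singleton 0))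
  intro z hz
  by_cases h : z = 0
  · exact Or.inr h
  · exact Or.inl ⟨h, hz⟩

lemma JoinMap.null_snd (hm : 1 ≤ m) (hΦ : JoinMap J Φ) :
    (volume : Measure (Eu (m + m))) {z | (kap m m (Φ z)).2 = 0} = 0 := by
  have h1 := hΦ.null_fst hm
  have h2 := (measurePreserving_Rs (m := m) (norm_cis (Real.pi / 2))).quasiMeasurePreserving.preimage_null h1
  refine measure_mono_null ?_ h2
  intro z hz
  change (kap m m (Φ (Rs (cis (Real.pi / 2)) z))).1 = 0
  rw [hΦ.equi _ _ (norm_cis _), JD.rot, ContinuousLinearEquiv.apply_symm_apply, cis_re, cis_im,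
    Real.cos_pi_div_two, Real.sin_pi_div_two]
  simp only [zero_smul, one_smul]
  rw [J.A_zero_left]
  exact hz

theorem JoinMap.ae_ne (hm : 1 ≤ m) (hΦ : JoinMap J Φ) :
    ∀ᵐ z : Eu (m + m), (kap m m (Φ z)).1 ≠ 0 ∧ (kap m m (Φ z)).2 ≠ 0 := by
  have h1 : ∀ᵐ z : Eu (m + m), (kap m m (Φ z)).1 ≠ 0 := by
    rw [ae_iff]; simpa using hΦ.null_fst hm
  have h2 : ∀ᵐ z : Eu (m + m), (kap m m (Φ z)).2 ≠ 0 := by
    rw [ae_iff]; simpa using hΦ.null_snd hm
  filter_upwards [h1, h2] with z a b using ⟨a, b⟩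

lemma ae_ne_pair (hm : 1 ≤ m) : ∀ᵐ z : Eu (m + m), (kap m m z).1 ≠ 0 ∧ (kap m m z).2 ≠ 0 := by
  have : Nonempty (Fin m) := ⟨⟨0, by omega⟩⟩
  have h0 : ∀ᵐ X : Eu m, X ≠ 0 := by
    rw [ae_iff]; simp
  have h1 : ∀ᵐ p : Eu m × Eu m ∂((volume : Measure (Eu m)).prod volume), p.1 ≠ 0 :=
    Measure.quasiMeasurePreserving_fst.ae h0
  have h2 : ∀ᵐ p : Eu m × Eu m ∂((volume : Measure (Eu m)).prod volume), p.2 ≠ 0 :=
    Measure.quasiMeasurePreserving_snd.ae h0
  have h3 : ∀ᵐ p : Eu m × Eu m ∂(volume : Measure (Eu m × Eu m)), p.1 ≠ 0 ∧ p.2 ≠ 0 := by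
    filter_upwards [h1, h2] with p a b using ⟨a, b⟩
  exact (FI.measurePreserving_kap m m).quasiMeasurePreserving.ae h3

end Crest.Agent.R208.JT
end
end

-- ▼ part R208/JT12
section

/-!
R208, block JT (helper631), part 12: the identity `N ∫ η det F_XY = ∫ η`.
-/

set_option autoImplicit false
set_option linter.unusedSectionVars false

open Set Filter Topology Module MeasureTheory
open scoped NNReal ContDiff RealInnerProductSpace

noncomputable section

namespace Crest.Agent.R208.JT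

open Crest.Agent.R208.F (top)
open Crest.Agent.R208.FI (kap)

section eta
variable {k : ℕ}

/-- radial cut-off -/
def eta (z : Eu k) : ℝ := Real.smoothTransition (1 - ‖z‖ ^ 2)

lemma eta_smooth : ContDiff ℝ ∞ (eta (k := k)) :=
  Real.smoothTransition.contDiff.comp (contDiff_const.sub (contDiff_norm_sq ℝ))

lemma eta_zero {z : Eu k} (h : 1 ≤ ‖z‖) : eta z = 0 :=
  Real.smoothTransition.zero_of_nonpos (by nlinarith)

lemma eta_nonneg (z : Eu k) : 0 ≤ eta z := Real.smoothTransition.nonneg _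

lemma eta_le_one (z : Eu k) : eta z ≤ 1 := Real.smoothTransition.le_one _

lemma eta_pos {z : Eu k} (h : ‖z‖ < 1) : 0 < eta z :=
  Real.smoothTransition.pos_of_pos (by nlinarith [norm_nonneg z])

lemma eta_cpt : HasCompactSupport (eta (k := k)) := by
  refine HasCompactSupport.intro (isCompact_closedBall (0 : Eu k) 1) fun z hz => ?_
  rw [mem_closedBall_zero_iff, not_le] at hz
  exact eta_zero hz.le

lemma fderiv_eta (z : Eu k) : ∃ c : ℝ, fderiv ℝ (eta (k := k)) z = c • innerSL ℝ z := by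
  set h : ℝ → ℝ := fun t => Real.smoothTransition (1 - t) with hh
  have hs : ContDiff ℝ ∞ h := Real.smoothTransition.contDiff.comp (contDiff_const.sub contDiff_id)
  have h1 : HasDerivAt h (deriv h (‖z‖ ^ 2)) (‖z‖ ^ 2) :=
    ((hs.differentiable (by simp)) _).hasDerivAt
  have h2 : HasFDerivAt (fun w : Eu k => ‖w‖ ^ 2) (2 • innerSL ℝ z) z :=
    (hasStrictFDerivAt_norm_sq z).hasFDerivAt
  have h3 : HasFDerivAt (eta (k := k)) (deriv h (‖z‖ ^ 2) • (2 • innerSL ℝ z)) z := by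
    have h4 := HasDerivAt.comp_hasFDerivAt (h₂ := h) (f := fun w : Eu k => ‖w‖ ^ 2) z h1 h2
    exact h4
  refine ⟨deriv h (‖z‖ ^ 2) * 2, ?_⟩
  rw [h3.fderiv]
  ext v
  simp only [smul_apply, smul_eq_mul, nsmul_eq_mul]
  push_cast
  ring

lemma fderiv_eta_zero {z : Eu k} (h : 1 < ‖z‖) : fderiv ℝ (eta (k := k)) z = 0 := by
  have h1 : eta (k := k) =ᶠ[𝓝 z] fun _ => 0 := by
    filter_upwards [continuous_norm.continuousAt.eventually (lt_mem_nhds h)] with w hw
    exact eta_zero hw.le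
  rw [h1.fderiv_eq]
  exact fderiv_const_apply _

end eta

section detM
variable {m : ℕ}

lemma detM_contDiff : ContDiff ℝ ∞ fun M : Eu m →L[ℝ] Eu m →L[ℝ] ℝ => detM M := by
  have h : (fun M : Eu m →L[ℝ] Eu m →L[ℝ] ℝ => detM M) = fun M =>
      ∑ σ : Equiv.Perm (Fin m), ((Equiv.Perm.sign σ : ℤ) : ℝ) * ∏ i,
        M (EuclideanSpace.basisFun (Fin m) ℝ (σ i)) (EuclideanSpace.basisFun (Fin m) ℝ i) := by
    funext M
    rw [detM, Matrix.det_apply']
    rfl
  rw [h]
  refine ContDiff.sum fun σ _ => contDiff_const.mul (contDiff_prod fun i _ => ?_)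
  exact (contDiff_id.clm_apply contDiff_const).clm_apply contDiff_const

lemma mixH_contDiff {E : Type*} [NormedAddCommGroup E] [NormedSpace ℝ E] {n : WithTop ℕ∞}
    {B : E → PP m →L[ℝ] PP m →L[ℝ] ℝ} {x : E} (hB : ContDiffAt ℝ n B x) :
    ContDiffAt ℝ n (fun x => mixH (B x)) x := by
  unfold mixH
  exact contDiffAt_const.clm_comp (hB.clm_comp contDiffAt_const)

end detM

section integ
variable {k : ℕ} {Φ : Eu k → Eu k} {K : ℝ≥0}

theorem integrable_comp (hΦ : LipschitzWith K Φ)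
    {T : Eu k → Eu k → (Eu k →L[ℝ] Eu k) → ℝ}
    (hc : Continuous fun q : Eu k × Eu k × (Eu k →L[ℝ] Eu k) => T q.1 q.2.1 q.2.2) {R : ℝ}
    (h0 : ∀ z p A, R < ‖z‖ → T z p A = 0) :
    Integrable fun z => T z (Φ z) (fderiv ℝ Φ z) := by
  have h := approx_moll hΦ
  have hm : AEStronglyMeasurable (fun z => T z (Φ z) (fderiv ℝ Φ z))
      (volume : Measure (Eu k)) := by
    refine aestronglyMeasurable_of_tendsto_ae atTop
      (f := fun n z => T z (moll Φ n z) (fderiv ℝ (moll Φ n) z)) (fun n => ?_) ?_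
    · have h1 : Continuous fun z => (z, moll Φ n z, fderiv ℝ (moll Φ n) z) :=
        continuous_id.prodMk ((h.smooth n).continuous.prodMk
          ((h.smooth n).continuous_fderiv (by simp)))
      exact (hc.comp h1).aestronglyMeasurable
    · filter_upwards [h.limD] with z hz
      have h1 : Tendsto (fun n => (z, moll Φ n z, fderiv ℝ (moll Φ n) z)) atTop
          (𝓝 (z, Φ z, fderiv ℝ Φ z)) :=
        tendsto_const_nhds.prodMk_nhds ((h.lim z).prodMk_nhds hz)
      exact (hc.tendsto _).comp h1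
  obtain ⟨R', hR'⟩ := (isCompact_closedBall (0 : Eu k) R).exists_bound_of_continuousOn
    hΦ.continuous.continuousOn
  obtain ⟨M, hM⟩ := ((isCompact_closedBall (0 : Eu k) R).prod
    ((isCompact_closedBall (0 : Eu k) R').prod
      (isCompact_closedBall (0 : Eu k →L[ℝ] Eu k) K))).exists_bound_of_continuousOn hc.continuousOn
  refine Integrable.mono' (g := (Metric.closedBall (0 : Eu k) R).indicator fun _ => |M|) ?_ hm
    (Eventually.of_forall fun z => ?_)
  · rw [integrable_indicator_iff Metric.isClosed_closedBall.measurableSet]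
    exact continuousOn_const.integrableOn_compact (isCompact_closedBall _ _)
  · by_cases hz : z ∈ Metric.closedBall (0 : Eu k) R
    · rw [indicator_of_mem hz]
      refine (hM (z, Φ z, fderiv ℝ Φ z) ⟨hz, ?_, ?_⟩).trans (le_abs_self M)
      · exact mem_closedBall_zero_iff.2 (hR' z hz)
      · exact mem_closedBall_zero_iff.2 (norm_fderiv_le_lip hΦ z)
    · rw [indicator_of_notMem hz]
      rw [mem_closedBall_zero_iff, not_le] at hz
      rw [h0 z _ _ hz, norm_zero]

end integ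

variable {m : ℕ} (J : JD m)

/-- determinant of the mixed Hessian -/
def JD.D (q : Eu (m + m)) : ℝ := detM (mixH (fderiv ℝ (fderiv ℝ J.F) (kl m q)))

/-- cut-off version -/
def JD.Dn (n : ℕ) (q : Eu (m + m)) : ℝ := detM (mixH (fderiv ℝ (fderiv ℝ (J.Fn n)) (kl m q)))

lemma JD.Dn_smooth (n : ℕ) : ContDiff ℝ ∞ (J.Dn n) := by
  have h1 : ContDiff ℝ ∞ (fderiv ℝ (J.Fn n)) :=
    (J.Fn_smooth n).fderiv_right (m := ∞) (by simp)
  have h2 : ContDiff ℝ ∞ (fderiv ℝ (fderiv ℝ (J.Fn n))) := h1.fderiv_right (m := ∞) (by simp)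
  have h3 : ContDiff ℝ ∞ fun q : Eu (m + m) => mixH (fderiv ℝ (fderiv ℝ (J.Fn n)) (kl m q)) :=
    contDiff_iff_contDiffAt.2 fun q => mixH_contDiff (h2.comp (kl m).contDiff).contDiffAt
  exact detM_contDiff.comp h3

lemma JD.Dn_eventually {q : Eu (m + m)} (h1 : (kap m m q).1 ≠ 0) (h2 : (kap m m q).2 ≠ 0) :
    ∀ᶠ n in atTop, J.Dn n q = J.D q ∧ fderiv ℝ (J.Fn n) (kl m q) = fderiv ℝ J.F (kl m q) ∧
      mixH (fderiv ℝ (fderiv ℝ (J.Fn n)) (kl m q)) = mixH (fderiv ℝ (fderiv ℝ J.F) (kl m q)) := by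
  filter_upwards [J.Fn_eventually (p := kl m q) h1 h2] with n hn
  have e1 : fderiv ℝ (J.Fn n) =ᶠ[𝓝 (kl m q)] fderiv ℝ J.F := hn.fderiv (𝕜 := ℝ)
  have e2 : fderiv ℝ (fderiv ℝ (J.Fn n)) (kl m q) = fderiv ℝ (fderiv ℝ J.F) (kl m q) :=
    e1.fderiv_eq (𝕜 := ℝ)
  refine ⟨?_, e1.eq_of_nhds, ?_⟩
  · rw [JD.Dn, JD.D, e2]
  · rw [e2]

lemma isCompact_ballM (C : ℝ) : IsCompact {M : Eu m →L[ℝ] Eu m →L[ℝ] ℝ | ‖M‖ ≤ C} := by
  have h2 := FiniteDimensional.proper ℝ (Eu m →L[ℝ] Eu m →L[ℝ] ℝ)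
  have h3 : {M : Eu m →L[ℝ] Eu m →L[ℝ] ℝ | ‖M‖ ≤ C} = Metric.closedBall 0 C := by
    ext M
    exact (mem_closedBall_zero_iff (E := Eu m →L[ℝ] Eu m →L[ℝ] ℝ)).symm
  rw [h3]
  exact isCompact_closedBall (α := Eu m →L[ℝ] Eu m →L[ℝ] ℝ) _ _

lemma exists_bound_detM (C : ℝ) : ∃ B : ℝ, 0 ≤ B ∧
    ∀ M : Eu m →L[ℝ] Eu m →L[ℝ] ℝ, ‖M‖ ≤ C → |detM M| ≤ B := by
  obtain ⟨B, hB⟩ := (isCompact_ballM (m := m) C).exists_bound_of_continuousOn
    detM_contDiff.continuous.continuousOn
  exact ⟨|B|, abs_nonneg _, fun M hM => (hB M hM).trans (le_abs_self B)⟩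

lemma exists_bound_Rr (K C : ℝ) : ∃ B : ℝ, 0 ≤ B ∧ ∀ (z : Eu (m + m))
    (A : Eu (m + m) →L[ℝ] Eu (m + m)) (l : PP m →L[ℝ] ℝ) (M : Eu m →L[ℝ] Eu m →L[ℝ] ℝ),
    ‖z‖ ≤ 1 → ‖A‖ ≤ K → ‖l‖ ≤ C → ‖M‖ ≤ C → |Rr eta z A l M| ≤ B := by
  have h1 : IsCompact (Metric.closedBall (0 : Eu (m + m)) 1) := isCompact_closedBall _ _
  have h2 : IsCompact (Metric.closedBall (0 : Eu (m + m) →L[ℝ] Eu (m + m)) K) :=
    isCompact_closedBall _ _
  have h3 : IsCompact (Metric.closedBall (0 : PP m →L[ℝ] ℝ) C) := isCompact_closedBall _ _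
  have hc : Continuous fun q : Eu (m + m) × (Eu (m + m) →L[ℝ] Eu (m + m)) × (PP m →L[ℝ] ℝ) ×
      (Eu m →L[ℝ] Eu m →L[ℝ] ℝ) => Rr eta q.1 q.2.1 q.2.2.1 q.2.2.2 :=
    cont_Rr (eta_smooth.of_le (by simp)) continuous_fst (continuous_fst.comp continuous_snd)
      (continuous_fst.comp (continuous_snd.comp continuous_snd))
      (continuous_snd.comp (continuous_snd.comp continuous_snd))
  obtain ⟨B, hB⟩ := (h1.prod (h2.prod (h3.prod (isCompact_ballM C)))).exists_bound_of_continuousOn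
    hc.continuousOn
  refine ⟨|B|, abs_nonneg _, fun z A l M hz hA hl hM => ?_⟩
  exact (hB (z, A, l, M) ⟨mem_closedBall_zero_iff.2 hz, mem_closedBall_zero_iff.2 hA,
    mem_closedBall_zero_iff.2 hl, hM⟩).trans (le_abs_self B)

lemma norm_kl_le (z : Eu (m + m)) : ‖kl m z‖ ≤ ‖z‖ :=
  max_le (norm_fst_kap z) (norm_snd_kap z)

/-- **the key identity** -/
theorem JD.main_identity (hm : 1 ≤ m) : ∃ N : ℤ,
    (N : ℝ) * ∫ q : Eu (m + m), eta q * J.D q = ∫ q : Eu (m + m), eta q := by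
  obtain ⟨Φ, hΦ⟩ := J.exists_joinMap
  obtain ⟨K, hK⟩ := hΦ.lip
  obtain ⟨N, hN⟩ := exists_degree hK hΦ.norm
  refine ⟨N, ?_⟩
  obtain ⟨C, hC0, hC1, hC2⟩ := J.Fn_bound
  have hF1 : ∀ n, Continuous fun p : Eu (m + m) => fderiv ℝ (J.Fn n) (kl m p) := fun n =>
    ((J.Fn_smooth n).continuous_fderiv (by simp)).comp (kl m).continuous
  have hF2 : ∀ n, Continuous fun p : Eu (m + m) => mixH (fderiv ℝ (fderiv ℝ (J.Fn n)) (kl m p)) := by
    intro n
    have h3 : ContDiff ℝ 1 (fderiv ℝ (J.Fn n)) :=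
      (J.Fn_smooth n).fderiv_right (m := 1) (WithTop.coe_le_coe.2 le_top)
    exact cont_mixH ((h3.continuous_fderiv (by norm_num)).comp (kl m).continuous)
  have heta : ∀ z, eta (Φ z) = eta z := fun z => by rw [eta, eta, hΦ.norm]
  set g : ℕ → Eu (m + m) → ℝ := fun n q => eta q * J.Dn n q with hg
  have hgs : ∀ n, ContDiff ℝ ∞ (g n) := fun n => eta_smooth.mul (J.Dn_smooth n)
  have hgc : ∀ n, HasCompactSupport (g n) := fun n => eta_cpt.mul_right
  set Rn : ℕ → Eu (m + m) → ℝ := fun n z => Rr eta z (fderiv ℝ Φ z)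
    (fderiv ℝ (J.Fn n) (kl m (Φ z))) (mixH (fderiv ℝ (fderiv ℝ (J.Fn n)) (kl m (Φ z)))) with hRn
  -- integrability
  have hRi : ∀ n, Integrable (Rn n) := fun n => by
    refine integrable_comp hK (T := fun z p A => Rr eta z A (fderiv ℝ (J.Fn n) (kl m p))
      (mixH (fderiv ℝ (fderiv ℝ (J.Fn n)) (kl m p)))) ?_ (R := 1) ?_
    · exact cont_Rr (eta_smooth.of_le (by simp)) continuous_fst
        (continuous_snd.comp continuous_snd)
        ((hF1 n).comp (continuous_fst.comp continuous_snd))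
        ((hF2 n).comp (continuous_fst.comp continuous_snd))
    · intro z p A hz
      simp only [Rr, fderiv_eta_zero hz, map_zero, zero_mul]
  have hgi : ∀ n, Integrable fun z => g n (Φ z) * (fderiv ℝ Φ z).det := fun n => by
    have h1 := integrable_comp hK (T := fun z p A => eta z * (J.Dn n p * A.det)) (R := 1)
      ((eta_smooth.continuous.comp continuous_fst).mul
        (((J.Dn_smooth n).continuous.comp (continuous_fst.comp continuous_snd)).mul
          (continuous_det'.comp (continuous_snd.comp continuous_snd))))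
      (fun z p A hz => by simp only [eta_zero hz.le, zero_mul])
    refine h1.congr (Eventually.of_forall fun z => ?_)
    simp only [hg, heta]
    ring
  have hei : Integrable (eta (k := m + m)) :=
    eta_smooth.continuous.integrable_of_hasCompactSupport eta_cpt
  have hid : ∀ n, (∫ z, Rn n z) + (c₀ m * (N * ∫ q, g n q) - c₀ m * ∫ z : Eu (m + m), eta z) = 0 := by
    intro n
    have h1 := integral_Tt_lip hK (J.Fn_smooth n) eta_smooth eta_cpt
    have h2 : ∀ z, Tt eta z (fderiv ℝ Φ z) (fderiv ℝ (J.Fn n) (kl m (Φ z)))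
        (mixH (fderiv ℝ (fderiv ℝ (J.Fn n)) (kl m (Φ z)))) =
        Rn n z + (c₀ m * (g n (Φ z) * (fderiv ℝ Φ z).det) - c₀ m * eta z) := by
      intro z
      rw [Tt, omA, top_pb_Om]
      simp only [hRn, hg, heta, JD.Dn]
      ring
    simp only [h2] at h1
    have i1 : Integrable fun z => c₀ m * (g n (Φ z) * (fderiv ℝ Φ z).det) := (hgi n).const_mul _
    have i2 : Integrable fun z : Eu (m + m) => c₀ m * eta z := hei.const_mul _
    have i3 : Integrable fun z => c₀ m * (g n (Φ z) * (fderiv ℝ Φ z).det) - c₀ m * eta z :=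
      i1.sub i2
    rw [integral_add (hRi n) i3, integral_sub i1 i2, integral_const_mul,
      integral_const_mul, hN (g n) (hgs n) (hgc n)] at h1
    exact h1
  -- limits
  obtain ⟨B, hB0, hB⟩ := exists_bound_Rr (m := m) K (2 * C)
  have hR : Tendsto (fun n => ∫ z, Rn n z) atTop (𝓝 0) := by
    have h0 : ∫ _z : Eu (m + m), (0 : ℝ) = 0 := by simp
    rw [← h0]
    refine tendsto_integral_of_dominated_convergence
      ((Metric.closedBall (0 : Eu (m + m)) 1).indicator fun _ => B)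
      (fun n => (hRi n).aestronglyMeasurable) ?_ (fun n => Eventually.of_forall fun z => ?_) ?_
    · rw [integrable_indicator_iff Metric.isClosed_closedBall.measurableSet]
      exact continuousOn_const.integrableOn_compact (isCompact_closedBall _ _)
    · by_cases hz : z ∈ Metric.closedBall (0 : Eu (m + m)) 1
      · rw [indicator_of_mem hz]
        rw [mem_closedBall_zero_iff] at hz
        refine hB z _ _ _ hz (norm_fderiv_le_lip hK z) ?_ ?_
        · refine (hC2 n _).trans ?_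
          have h1 := norm_kl_le (Φ z)
          rw [hΦ.norm] at h1
          have h2 : 2 * C * ‖kl m (Φ z)‖ ≤ 2 * C * 1 := by gcongr; linarith
          linarith
        · exact (hC1 n _).trans (by linarith)
      · rw [indicator_of_notMem hz]
        rw [mem_closedBall_zero_iff, not_le] at hz
        simp only [hRn, Rr, fderiv_eta_zero hz, map_zero, zero_mul, norm_zero, le_refl]
    · have hd : ∀ᵐ z : Eu (m + m), DifferentiableAt ℝ Φ z := hK.ae_differentiableAt
      filter_upwards [hd, hΦ.ae_ne hm] with z hz hne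
      obtain ⟨c, hc⟩ := fderiv_eta z
      refine tendsto_const_nhds.congr' ?_
      filter_upwards [J.Dn_eventually hne.1 hne.2] with n hn
      simp only [hRn]
      rw [hn.2.1, hn.2.2, hΦ.Rr_zero hz hne.1 hne.2 hc]
  obtain ⟨B', hB0', hB'⟩ := exists_bound_detM (m := m) C
  have hG : Tendsto (fun n => ∫ q, g n q) atTop (𝓝 (∫ q, eta q * J.D q)) := by
    refine tendsto_integral_of_dominated_convergence
      ((Metric.closedBall (0 : Eu (m + m)) 1).indicator fun _ => B')
      (fun n => (hgs n).continuous.aestronglyMeasurable) ?_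
      (fun n => Eventually.of_forall fun z => ?_) ?_
    · rw [integrable_indicator_iff Metric.isClosed_closedBall.measurableSet]
      exact continuousOn_const.integrableOn_compact (isCompact_closedBall _ _)
    · by_cases hz : z ∈ Metric.closedBall (0 : Eu (m + m)) 1
      · rw [indicator_of_mem hz]
        simp only [hg]
        rw [norm_mul, Real.norm_of_nonneg (eta_nonneg z), Real.norm_eq_abs]
        have h1 : |J.Dn n z| ≤ B' := hB' _ (hC1 n _)
        calc eta z * |J.Dn n z| ≤ 1 * B' := by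
              gcongr
              exact eta_le_one z
          _ = B' := one_mul _
      · rw [indicator_of_notMem hz]
        rw [mem_closedBall_zero_iff, not_le] at hz
        simp only [hg, eta_zero hz.le, zero_mul, norm_zero, le_refl]
    · filter_upwards [ae_ne_pair hm] with q hq
      refine tendsto_const_nhds.congr' ?_
      filter_upwards [J.Dn_eventually hq.1 hq.2] with n hn
      simp only [hg]
      rw [hn.1]
  have hlim := hR.add (((hG.const_mul (N : ℝ)).const_mul (c₀ m)).sub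
    (tendsto_const_nhds (x := c₀ m * ∫ z : Eu (m + m), eta z)))
  simp only [hid] at hlim
  have h3 := tendsto_nhds_unique hlim tendsto_const_nhds
  have h4 : c₀ m * ((N : ℝ) * (∫ q, eta q * J.D q) - ∫ z : Eu (m + m), eta z) = 0 := by
    linarith
  have h5 := (mul_eq_zero.1 h4).resolve_left (c₀_ne m)
  linarith

end Crest.Agent.R208.JT
end
end

-- ▼ part R208/JT13
section

/-!
R208, block JT (helper631), part 13: the integral of the mixed Hessian over one factor.
-/

set_option autoImplicit false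
set_option linter.unusedSectionVars false

open Set Filter Topology Module MeasureTheory
open scoped NNReal ContDiff RealInnerProductSpace MatrixOrder

noncomputable section

namespace Crest.Agent.R208.JT

open Crest.Agent.R208.F (sb)
open Crest.Agent.R208.FI (kap)

lemma exists_msqrt {m : ℕ} {A : Matrix (Fin m) (Fin m) ℝ} (hA : A.PosSemidef) :
    ∃ B : Matrix (Fin m) (Fin m) ℝ, A = B.transpose * B := by
  obtain ⟨B, hB⟩ := CStarAlgebra.nonneg_iff_eq_star_mul_self.mp hA.nonneg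
  exact ⟨B, by rw [hB]; rfl⟩

variable {m : ℕ}

/-- the matrix of a bilinear form -/
def matM (g : Eu m →L[ℝ] Eu m →L[ℝ] ℝ) : Matrix (Fin m) (Fin m) ℝ :=
  Matrix.of fun i j =>
    g (EuclideanSpace.basisFun (Fin m) ℝ i) (EuclideanSpace.basisFun (Fin m) ℝ j)

lemma detM_eq (g : Eu m →L[ℝ] Eu m →L[ℝ] ℝ) : detM g = (matM g).det := rfl

lemma matM_apply (g : Eu m →L[ℝ] Eu m →L[ℝ] ℝ) (i j : Fin m) : matM g i j =
    g (EuclideanSpace.basisFun (Fin m) ℝ i) (EuclideanSpace.basisFun (Fin m) ℝ j) := rfl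

lemma g_expand (g : Eu m →L[ℝ] Eu m →L[ℝ] ℝ) (a b : Eu m) :
    g a b = ∑ i, ∑ j, a i * b j * matM g i j := by
  have ha : a = ∑ i, a i • EuclideanSpace.basisFun (Fin m) ℝ i := by
    conv_lhs => rw [← (EuclideanSpace.basisFun (Fin m) ℝ).sum_repr a]
    rfl
  have hb : b = ∑ i, b i • EuclideanSpace.basisFun (Fin m) ℝ i := by
    conv_lhs => rw [← (EuclideanSpace.basisFun (Fin m) ℝ).sum_repr b]
    rfl
  have h1 : g a b = ∑ i, a i * g (EuclideanSpace.basisFun (Fin m) ℝ i) b := by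
    conv_lhs => rw [ha]
    rw [map_sum, sum_apply]
    refine Finset.sum_congr rfl fun i _ => ?_
    rw [map_smul, smul_apply, smul_eq_mul]
  have h2 : ∀ i, g (EuclideanSpace.basisFun (Fin m) ℝ i) b = ∑ j, b j * matM g i j := by
    intro i
    conv_lhs => rw [hb]
    rw [map_sum]
    refine Finset.sum_congr rfl fun j _ => ?_
    rw [map_smul, smul_eq_mul, matM_apply]
  rw [h1]
  refine Finset.sum_congr rfl fun i _ => ?_
  rw [h2, Finset.mul_sum]
  refine Finset.sum_congr rfl fun j _ => ?_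
  ring

lemma posDef_matM {g : Eu m →L[ℝ] Eu m →L[ℝ] ℝ} (hs : ∀ a b, g a b = g b a)
    (hp : ∀ a, a ≠ 0 → 0 < g a a) : (matM g).PosDef := by
  refine Matrix.PosDef.of_dotProduct_mulVec_pos ?_ fun x hx => ?_
  · ext i j
    rw [Matrix.conjTranspose_apply, matM_apply, matM_apply, hs]
    rfl
  · have h1 : (WithLp.toLp 2 x : Eu m) ≠ 0 := by
      intro h
      apply hx
      have := congrArg WithLp.ofLp h
      simpa using this
    have h2 := hp _ h1
    rw [g_expand] at h2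
    refine lt_of_lt_of_eq h2 ?_
    simp only [dotProduct, Matrix.mulVec, Finset.mul_sum, Pi.star_apply, star_trivial]
    refine Finset.sum_congr rfl fun i _ => Finset.sum_congr rfl fun j _ => ?_
    ring

/-- integral of a function of a quadratic form -/
theorem integral_quad {g : Eu m →L[ℝ] Eu m →L[ℝ] ℝ} (hs : ∀ a b, g a b = g b a)
    (hp : ∀ a, a ≠ 0 → 0 < g a a) (ψ : ℝ → ℝ) : 0 < detM g ∧
      ∫ ξ : Eu m, ψ (‖ξ‖ ^ 2) = Real.sqrt (detM g) * ∫ ξ : Eu m, ψ (g ξ ξ) := by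
  have hpd := posDef_matM hs hp
  have hdet : 0 < detM g := hpd.det_pos
  refine ⟨hdet, ?_⟩
  obtain ⟨B, hB⟩ := exists_msqrt hpd.posSemidef
  have hd2 : detM g = B.det ^ 2 := by
    rw [detM_eq, hB, Matrix.det_mul, Matrix.det_transpose, sq]
  set T : Eu m →L[ℝ] Eu m := LinearMap.toContinuousLinearMap (Matrix.toEuclideanLin B) with hT
  have hTdet : T.det = B.det := by
    rw [ContinuousLinearMap.det, hT, LinearMap.coe_toContinuousLinearMap,
      Matrix.toEuclideanLin_eq_toLin_orthonormal, LinearMap.det_toLin]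
  have hTn : ∀ ξ, ‖T ξ‖ ^ 2 = g ξ ξ := by
    intro ξ
    rw [g_expand, hB, EuclideanSpace.norm_sq_eq]
    have h1 : ∀ k, T ξ k = ∑ i, B k i * ξ i := fun k => rfl
    have h2 : ∀ k, ‖T ξ k‖ ^ 2 = ∑ i, ∑ j, (B k i * ξ i) * (B k j * ξ j) := by
      intro k
      rw [h1, Real.norm_eq_abs, sq_abs, sq, Finset.sum_mul_sum]
    simp only [h2, Matrix.mul_apply, Matrix.transpose_apply, Finset.mul_sum]
    rw [Finset.sum_comm]
    refine Finset.sum_congr rfl fun i _ => ?_
    rw [Finset.sum_comm]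
    refine Finset.sum_congr rfl fun j _ => Finset.sum_congr rfl fun k _ => ?_
    ring
  have hinj : Function.Injective T := by
    intro a b hab
    by_contra hne
    have h1 := hp (a - b) (sub_ne_zero.2 hne)
    rw [← hTn, map_sub, hab, sub_self, norm_zero] at h1
    simp at h1
  have hsurj : Function.Surjective T :=
    (LinearMap.injective_iff_surjective (f := (T : Eu m →ₗ[ℝ] Eu m))).1 hinj
  have h := integral_image_eq_integral_abs_det_fderiv_smul (volume : Measure (Eu m))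
    MeasurableSet.univ (f := T) (f' := fun _ => T)
    (fun x _ => T.hasFDerivAt.hasFDerivWithinAt) hinj.injOn (fun x => ψ (‖x‖ ^ 2))
  rw [image_univ, hsurj.range_eq, setIntegral_univ, setIntegral_univ] at h
  rw [h, hd2, Real.sqrt_sq_eq_abs, ← hTdet, ← integral_const_mul]
  simp only [hTn, smul_eq_mul]

lemma detM_comp {g M : Eu m →L[ℝ] Eu m →L[ℝ] ℝ} {L : Eu m →L[ℝ] Eu m}
    (h : ∀ a b, M a b = g (L a) b) : detM M = L.det * detM g := by
  have h1 : matM M = (LinearMap.toMatrix (sb m) (sb m) (L : Eu m →ₗ[ℝ] Eu m)).transpose *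
      matM g := by
    ext i j
    rw [matM_apply, h, Matrix.mul_apply]
    have h2 : L (EuclideanSpace.basisFun (Fin m) ℝ i) = ∑ k,
        L (EuclideanSpace.basisFun (Fin m) ℝ i) k • EuclideanSpace.basisFun (Fin m) ℝ k := by
      conv_lhs => rw [← (EuclideanSpace.basisFun (Fin m) ℝ).sum_repr
        (L (EuclideanSpace.basisFun (Fin m) ℝ i))]
      rfl
    rw [h2, map_sum, sum_apply]
    refine Finset.sum_congr rfl fun k _ => ?_
    rw [map_smul, smul_apply, smul_eq_mul, Matrix.transpose_apply, LinearMap.toMatrix_apply,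
      matM_apply]
    simp
  rw [detM_eq, h1, Matrix.det_mul, Matrix.det_transpose, LinearMap.det_toMatrix, ← detM_eq]

variable (J : JD m)

lemma JD.detG_eq (Y : Eu m) : J.detG Y = detM (J.G Y) := rfl

/-- the mixed Hessian and the differential of `Z Y` -/
lemma JD.mix_eq {X Y : Eu m} (h1 : X ≠ 0) (h2 : Y ≠ 0) :
    detM (mixH (fderiv ℝ (fderiv ℝ J.F) (X, Y))) =
      (fderiv ℝ (J.Z Y) X).det * J.detG Y := by
  refine detM_comp fun a b => ?_
  rw [(J.hasFDerivAt_Z h2 h1).2 a b, J.mix_sw (p := (X, Y)) h1 h2]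
  rfl

lemma JD.detG_pos {Y : Eu m} (h : Y ≠ 0) : 0 < J.detG Y :=
  (integral_quad (fun a b => J.G_symm Y a b) (fun a ha => J.G_pos Y a h ha) fun _ => 0).1

lemma JD.detZ_ne {X Y : Eu m} (h1 : X ≠ 0) (h2 : Y ≠ 0) : (fderiv ℝ (J.Z Y) X).det ≠ 0 := by
  have h3 := J.inj Y X h2 h1
  intro h
  have h4 : ¬ IsUnit (LinearMap.det ((fderiv ℝ (J.Z Y) X : Eu m →L[ℝ] Eu m) :
      Eu m →ₗ[ℝ] Eu m)) := by
    intro hu
    exact hu.ne_zero h
  apply h4
  rw [← LinearMap.isUnit_iff_isUnit_det, Module.End.isUnit_iff]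
  exact ⟨h3, (LinearMap.injective_iff_surjective
    (f := ((fderiv ℝ (J.Z Y) X : Eu m →L[ℝ] Eu m) : Eu m →ₗ[ℝ] Eu m))).1 h3⟩

/-- **integration over one factor** -/
theorem JD.integral_slice (hm : 1 ≤ m) {Y : Eu m} (hY : Y ≠ 0) (ψ : ℝ → ℝ) :
    ∫ X : Eu m, ψ (‖X‖ ^ 2) * |detM (mixH (fderiv ℝ (fderiv ℝ J.F) (X, Y)))| =
      Real.sqrt (J.detG Y) * ∫ X : Eu m, ψ (‖X‖ ^ 2) := by
  have : Nonempty (Fin m) := ⟨⟨0, by omega⟩⟩
  have hG := J.detG_pos hY
  have hquad := (integral_quad (fun a b => J.G_symm Y a b) (fun a ha => J.G_pos Y a hY ha) ψ).2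
  rw [← J.detG_eq] at hquad
  have hms : MeasurableSet {X : Eu m | X ≠ 0} := isOpen_ne.measurableSet
  have hnull : ∀ f : Eu m → ℝ, ∫ X in {X : Eu m | X ≠ 0}, f X = ∫ X, f X := by
    intro f
    have h1 : {X : Eu m | X ≠ 0} = ({0} : Set (Eu m))ᶜ := rfl
    rw [h1, restrict_compl_singleton]
  have hcv := integral_image_eq_integral_abs_det_fderiv_smul (volume : Measure (Eu m)) hms
    (f := J.Z Y) (f' := fun X => fderiv ℝ (J.Z Y) X)
    (fun X hX => (J.hasFDerivAt_Z hY hX).1.hasFDerivWithinAt) (J.bij Y hY).injOn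
    (fun ξ => ψ (J.G Y ξ ξ))
  rw [(J.bij Y hY).image_eq, hnull] at hcv
  have h2 : ∫ X in {X : Eu m | X ≠ 0}, |(fderiv ℝ (J.Z Y) X).det| •
      ψ (J.G Y (J.Z Y X) (J.Z Y X)) = (J.detG Y)⁻¹ *
      ∫ X : Eu m, ψ (‖X‖ ^ 2) * |detM (mixH (fderiv ℝ (fderiv ℝ J.F) (X, Y)))| := by
    rw [← hnull, ← integral_const_mul]
    refine setIntegral_congr_fun hms fun X hX => ?_
    simp only [smul_eq_mul]
    rw [J.eik Y X hY hX, J.mix_eq hX hY, abs_mul, abs_of_pos hG]
    field_simp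
  rw [h2] at hcv
  rw [hquad, hcv]
  have h3 : Real.sqrt (J.detG Y) * Real.sqrt (J.detG Y) = J.detG Y := Real.mul_self_sqrt hG.le
  rw [← mul_assoc, ← mul_assoc, h3, mul_inv_cancel₀ hG.ne', one_mul]

end Crest.Agent.R208.JT
end
end

-- ▼ part R208/JT14

/-!
R208, block JT (helper631), part 14: conclusion of the abstract half of the join trick.
-/

set_option autoImplicit false
set_option linter.unusedSectionVars false

open Set Filter Topology Module MeasureTheory
open scoped NNReal ContDiff RealInnerProductSpace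

noncomputable section

namespace Crest.Agent.R208.JT

open Crest.Agent.R208.FI (kap)

variable {m : ℕ}

/-- polar coordinates for a homogeneous function times a radial one -/
theorem integral_homog (hm : 1 ≤ m) {s : Eu m → ℝ} (hs : ∀ (r : ℝ) Y, 0 < r → s (r • Y) = s Y)
    (h : ℝ → ℝ) :
    ∫ Y : Eu m, s Y * h ‖Y‖ =
      (∫ u : Metric.sphere (0 : Eu m) 1, s u ∂(volume : Measure (Eu m)).toSphere) *
        ∫ r : Ioi (0 : ℝ), h r ∂(Measure.volumeIoiPow (finrank ℝ (Eu m) - 1)) := by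
  have : Nonempty (Fin m) := ⟨⟨0, by omega⟩⟩
  have : Nontrivial (Eu m) := inferInstance
  calc ∫ Y : Eu m, s Y * h ‖Y‖
      = ∫ x : ({(0)}ᶜ : Set (Eu m)), s x.1 * h ‖x.1‖ ∂((volume : Measure (Eu m)).comap (↑)) := by
        rw [integral_subtype_comap (measurableSet_singleton _).compl fun x => s x * h ‖x‖,
          restrict_compl_singleton]
    _ = ∫ x, s (x.1 : Eu m) * h (x.2 : ℝ) ∂((volume : Measure (Eu m)).toSphere.prod
          (.volumeIoiPow (finrank ℝ (Eu m) - 1))) := by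
        rw [← (volume : Measure (Eu m)).measurePreserving_homeomorphUnitSphereProd.integral_comp
          (Homeomorph.measurableEmbedding _)
          (fun x : Metric.sphere (0 : Eu m) 1 × Ioi (0 : ℝ) => s (x.1 : Eu m) * h (x.2 : ℝ))]
        congr 1
        funext x
        simp only [homeomorphUnitSphereProd_apply_fst_coe, homeomorphUnitSphereProd_apply_snd_coe]
        rw [hs]
        exact inv_pos.2 (norm_pos_iff.2 x.2)
    _ = _ := integral_prod_mul (fun u : Metric.sphere (0 : Eu m) 1 => s u)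
        (fun r : Ioi (0 : ℝ) => h r)

variable (J : JD m)

/-- determinant of the mixed Hessian on pairs -/
def JD.Dp (p : PP m) : ℝ := detM (mixH (fderiv ℝ (fderiv ℝ J.F) p))

lemma JD.Dp_continuousAt {p : PP m} (h1 : p.1 ≠ 0) (h2 : p.2 ≠ 0) : ContinuousAt J.Dp p := by
  have h3 : ContDiffAt ℝ ∞ (fderiv ℝ J.F) p := (J.smoothAt h1 h2).fderiv_right (m := ∞) (by simp)
  have h4 : ContDiffAt ℝ ∞ (fderiv ℝ (fderiv ℝ J.F)) p := h3.fderiv_right (m := ∞) (by simp)
  have h5 := detM_contDiff.contDiffAt.comp p (mixH_contDiff h4)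
  exact h5.continuousAt

lemma JD.Dp_ne {p : PP m} (h1 : p.1 ≠ 0) (h2 : p.2 ≠ 0) : J.Dp p ≠ 0 := by
  have h := J.mix_eq (X := p.1) (Y := p.2) h1 h2
  rw [JD.Dp]
  rw [Prod.mk.eta] at h
  rw [h]
  exact mul_ne_zero (J.detZ_ne h1 h2) (J.detG_pos h2).ne'

lemma JD.Dp_sign (hm : 2 ≤ m) : ∃ σ : ℤ, σ * σ = 1 ∧
    ∀ p : PP m, p.1 ≠ 0 → p.2 ≠ 0 → J.Dp p = σ * |J.Dp p| := by
  have hrank : 1 < Module.rank ℝ (Eu m) := by
    rw [← Module.finrank_eq_rank, finrank_euclideanSpace, Fintype.card_fin]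
    exact_mod_cast hm
  have hc1 : IsPreconnected ({0}ᶜ : Set (Eu m)) :=
    (isConnected_compl_singleton_of_one_lt_rank hrank 0).isPreconnected
  have hc : IsPreconnected (({0}ᶜ : Set (Eu m)) ×ˢ ({0}ᶜ : Set (Eu m))) := hc1.prod hc1
  have hcont : ContinuousOn J.Dp (({0}ᶜ : Set (Eu m)) ×ˢ ({0}ᶜ : Set (Eu m))) := fun p hp =>
    (J.Dp_continuousAt hp.1 hp.2).continuousWithinAt
  have hord := (hc.image _ hcont).ordConnected
  by_cases hneg : ∃ p : PP m, p.1 ≠ 0 ∧ p.2 ≠ 0 ∧ J.Dp p < 0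
  · obtain ⟨p, hp1, hp2, hp⟩ := hneg
    refine ⟨-1, by norm_num, fun q hq1 hq2 => ?_⟩
    have hq : J.Dp q < 0 := by
      by_contra hcon
      push Not at hcon
      have h0 := hord.out ⟨p, ⟨hp1, hp2⟩, rfl⟩ ⟨q, ⟨hq1, hq2⟩, rfl⟩
        (show (0 : ℝ) ∈ Icc (J.Dp p) (J.Dp q) from ⟨hp.le, hcon⟩)
      obtain ⟨r, hr, hr0⟩ := h0
      exact J.Dp_ne hr.1 hr.2 hr0
    rw [abs_of_neg hq]
    push_cast
    ring
  · push Not at hneg
    refine ⟨1, by norm_num, fun q hq1 hq2 => ?_⟩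
    rw [abs_of_nonneg (hneg q hq1 hq2)]
    push_cast
    ring

/-- integrability -/
lemma JD.integrable_eta_D (hm : 1 ≤ m) : Integrable fun q : Eu (m + m) => eta q * J.D q := by
  obtain ⟨C, hC0, hC1, hC2⟩ := J.Fn_bound
  obtain ⟨B', hB0', hB'⟩ := exists_bound_detM (m := m) C
  have hlim : ∀ᵐ q : Eu (m + m), Tendsto (fun n => eta q * J.Dn n q) atTop (𝓝 (eta q * J.D q)) := by
    filter_upwards [ae_ne_pair hm] with q hq
    refine tendsto_const_nhds.congr' ?_
    filter_upwards [J.Dn_eventually hq.1 hq.2] with n hn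
    rw [hn.1]
  have hb : ∀ n (z : Eu (m + m)), ‖eta z * J.Dn n z‖ ≤
      (Metric.closedBall (0 : Eu (m + m)) 1).indicator (fun _ => B') z := by
    intro n z
    by_cases hz : z ∈ Metric.closedBall (0 : Eu (m + m)) 1
    · rw [indicator_of_mem hz]
      rw [norm_mul, Real.norm_of_nonneg (eta_nonneg z), Real.norm_eq_abs]
      have h1 : |J.Dn n z| ≤ B' := hB' _ (hC1 n _)
      calc eta z * |J.Dn n z| ≤ 1 * B' := by
            gcongr
            exact eta_le_one z
        _ = B' := one_mul _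
    · rw [indicator_of_notMem hz]
      rw [mem_closedBall_zero_iff, not_le] at hz
      simp only [eta_zero hz.le, zero_mul, norm_zero, le_refl]
  refine Integrable.mono' (g := (Metric.closedBall (0 : Eu (m + m)) 1).indicator fun _ => B') ?_
    (aestronglyMeasurable_of_tendsto_ae atTop (fun n => ?_) hlim) ?_
  · rw [integrable_indicator_iff Metric.isClosed_closedBall.measurableSet]
    exact continuousOn_const.integrableOn_compact (isCompact_closedBall _ _)
  · exact (eta_smooth.mul (J.Dn_smooth n)).continuous.aestronglyMeasurable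
  · filter_upwards [hlim] with z hz
    exact le_of_tendsto hz.norm (Eventually.of_forall fun n => hb n z)

/-- the radial cut-off on pairs -/
def etap (p : PP m) : ℝ := Real.smoothTransition (1 - ‖p.1‖ ^ 2 - ‖p.2‖ ^ 2)

lemma etap_kap (q : Eu (m + m)) : etap (kap m m q) = eta q := by
  rw [etap, eta, norm_sq_kap q]
  congr 1
  ring

lemma integral_kap (f : PP m → ℝ) : ∫ q : Eu (m + m), f (kap m m q) = ∫ p : PP m, f p :=
  (FI.measurePreserving_kap m m).integral_comp
    (kap m m).toHomeomorph.measurableEmbedding f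

lemma integrable_kap {f : PP m → ℝ} (h : Integrable fun q : Eu (m + m) => f (kap m m q)) :
    Integrable f :=
  ((FI.measurePreserving_kap m m).integrable_comp_emb
    (kap m m).toHomeomorph.measurableEmbedding).1 h

/-- **the abstract half of the join trick** -/
theorem JD.concl (hm : 2 ≤ m) : J.Concl := by
  have hm1 : 1 ≤ m := by omega
  have : Nonempty (Fin m) := ⟨⟨0, by omega⟩⟩
  obtain ⟨N, hN⟩ := J.main_identity hm1
  obtain ⟨σ, hσ, hsign⟩ := J.Dp_sign hm
  -- abbreviations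
  set s : Eu m → ℝ := fun Y => Real.sqrt (J.detG Y) with hs
  have hsh : ∀ (r : ℝ) Y, 0 < r → s (r • Y) = s Y := by
    intro r Y hr
    simp only [hs, JD.detG, J.G_smul r Y hr]
  set H : ℝ → ℝ := fun ρ => ∫ X : Eu m, Real.smoothTransition (1 - ‖X‖ ^ 2 - ρ ^ 2) with hH
  set S1 : ℝ := ∫ u : Metric.sphere (0 : Eu m) 1, (1 : ℝ) ∂(volume : Measure (Eu m)).toSphere
  set Ss : ℝ := ∫ u : Metric.sphere (0 : Eu m) 1, s u ∂(volume : Measure (Eu m)).toSphere with hSs
  set RH : ℝ := ∫ r : Ioi (0 : ℝ), H r ∂(Measure.volumeIoiPow (finrank ℝ (Eu m) - 1)) with hRH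
  set R1 : ℝ := ∫ r : Ioi (0 : ℝ), (Iio (1 : ℝ)).indicator (fun _ => (1 : ℝ)) r
    ∂(Measure.volumeIoiPow (finrank ℝ (Eu m) - 1)) with hR1
  have p1 : ∫ Y : Eu m, s Y * H ‖Y‖ = Ss * RH := integral_homog hm1 hsh H
  have p2 : ∫ Y : Eu m, H ‖Y‖ = S1 * RH := by
    have := integral_homog hm1 (s := fun _ => (1 : ℝ)) (fun _ _ _ => rfl) H
    simp only [one_mul] at this
    exact this
  have ind : ∀ (f : Eu m → ℝ), ∫ Y in Metric.ball (0 : Eu m) 1, f Y =
      ∫ Y : Eu m, f Y * (Iio (1 : ℝ)).indicator (fun _ => (1 : ℝ)) ‖Y‖ := by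
    intro f
    rw [← integral_indicator Metric.isOpen_ball.measurableSet]
    congr 1
    funext Y
    by_cases h : ‖Y‖ < 1
    · rw [indicator_of_mem (mem_ball_zero_iff.2 h), indicator_of_mem (mem_Iio.2 h), mul_one]
    · rw [indicator_of_notMem (fun h' => h (mem_ball_zero_iff.1 h')),
        indicator_of_notMem (fun h' => h (mem_Iio.1 h')), mul_zero]
  have p3 : ∫ Y in Metric.ball (0 : Eu m) 1, s Y = Ss * R1 := by
    rw [ind, integral_homog hm1 hsh]
  have p4 : (volume (Metric.ball (0 : Eu m) 1)).toReal = S1 * R1 := by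
    have h1 : ∫ _Y in Metric.ball (0 : Eu m) 1, (1 : ℝ) = (volume (Metric.ball (0 : Eu m) 1)).toReal := by
      rw [setIntegral_const, smul_eq_mul, mul_one]
      rfl
    rw [← h1, ind, integral_homog hm1 (s := fun _ => (1 : ℝ)) (fun _ _ _ => rfl)]
  -- the two integrals over pairs
  have hi0 : Integrable (eta (k := m + m)) :=
    eta_smooth.continuous.integrable_of_hasCompactSupport eta_cpt
  have hi1 : Integrable (etap (m := m)) := by
    refine integrable_kap ?_
    simp only [etap_kap]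
    exact hi0
  have hi2 : Integrable fun p : PP m => etap p * J.Dp p := by
    refine integrable_kap ?_
    simp only [etap_kap]
    exact J.integrable_eta_D hm1
  have q1 : ∫ q : Eu (m + m), eta q = S1 * RH := by
    have h1 : ∫ q : Eu (m + m), eta q = ∫ p : PP m, etap p := by
      rw [← integral_kap]
      simp only [etap_kap]
    rw [h1, ← p2, Measure.volume_eq_prod, integral_prod_symm _ hi1]
    rfl
  have hnep : ∀ᵐ p : PP m, p.1 ≠ 0 ∧ p.2 ≠ 0 := by
    have h0 : ∀ᵐ X : Eu m, X ≠ 0 := by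
      rw [ae_iff]; simp
    have h1 : ∀ᵐ p : Eu m × Eu m ∂((volume : Measure (Eu m)).prod volume), p.1 ≠ 0 :=
      Measure.quasiMeasurePreserving_fst.ae h0
    have h2 : ∀ᵐ p : Eu m × Eu m ∂((volume : Measure (Eu m)).prod volume), p.2 ≠ 0 :=
      Measure.quasiMeasurePreserving_snd.ae h0
    filter_upwards [h1, h2] with p a b using ⟨a, b⟩
  have q2 : ∫ q : Eu (m + m), eta q * J.D q = σ * (Ss * RH) := by
    have h1 : ∫ q : Eu (m + m), eta q * J.D q = ∫ p : PP m, etap p * J.Dp p := by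
      rw [← integral_kap]
      simp only [etap_kap]
      rfl
    have h2 : ∫ p : PP m, etap p * J.Dp p = σ * ∫ p : PP m, etap p * |J.Dp p| := by
      rw [← integral_const_mul]
      refine integral_congr_ae ?_
      filter_upwards [hnep] with p hp
      nth_rewrite 1 [hsign p hp.1 hp.2]
      ring
    have hi3 : Integrable fun p : PP m => etap p * |J.Dp p| := by
      have h3 : (fun p : PP m => etap p * |J.Dp p|) = fun p => ‖etap p * J.Dp p‖ := by
        funext p
        have h6 : 0 ≤ etap p := Real.smoothTransition.nonneg _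
        rw [norm_mul, Real.norm_eq_abs, Real.norm_eq_abs, abs_of_nonneg h6]
      rw [h3]
      exact hi2.norm
    have h4 : ∫ p : PP m, etap p * |J.Dp p| = ∫ Y : Eu m, s Y * H ‖Y‖ := by
      rw [Measure.volume_eq_prod, integral_prod_symm _ hi3]
      refine integral_congr_ae ?_
      have h0 : ∀ᵐ Y : Eu m, Y ≠ 0 := by
        rw [ae_iff]; simp
      filter_upwards [h0] with Y hY
      have h5 := J.integral_slice hm1 hY fun t => Real.smoothTransition (1 - t - ‖Y‖ ^ 2)
      exact h5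
    rw [h1, h2, h4, p1]
  have q0 : 0 < ∫ q : Eu (m + m), eta q := by
    rw [integral_pos_iff_support_of_nonneg (fun z => eta_nonneg z) hi0]
    refine lt_of_lt_of_le (Metric.measure_ball_pos volume (0 : Eu (m + m)) one_pos)
      (measure_mono fun z hz => ?_)
    exact (eta_pos (mem_ball_zero_iff.1 hz)).ne'
  rw [q1] at q0
  rw [q1, q2] at hN
  have hRH : RH ≠ 0 := by
    intro h
    rw [h, mul_zero] at q0
    exact lt_irrefl _ q0
  have key : (N : ℝ) * σ * Ss = S1 := by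
    have h1 : ((N : ℝ) * σ * Ss) * RH = S1 * RH := by linarith
    exact mul_right_cancel₀ hRH h1
  refine ⟨N * σ, ?_⟩
  rw [p4]
  change ((N * σ : ℤ) : ℝ) * ∫ X in Metric.ball (0 : Eu m) 1, s X = _
  rw [p3, ← key]
  push_cast
  ring

theorem mainStmt : MainStmt := fun _ J hm => J.concl hm

end Crest.Agent.R208.JT
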