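import Crest.Agent.R208.LB2
import Crest.Agent.R208.I7

-- ▼ part R208/LB3
section

/-!
R208, block LB (helper971), part 3: linear algebra of the contact form in charts of the tangent bundle, and
the measure preserving identification `ℝ^d × ℝ ≃ ℝ^n × ℝ^n`.
-/

set_option autoImplicit false
set_option linter.unusedSectionVars false

open MeasureTheory Measure Set Filter Topology Module
open scoped ContDiff RealInnerProductSpace ENNReal
open Crest.GeometryTopology.Submanifold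
open Crest.Agent.R241.DDefs
open Crest.Agent.R241.D2
open Crest.Agent.R241
open Crest.Agent.R241.AF (jac jac_nonneg jac_sq_gram finrank_Euc)
open Crest.Agent.R208.F
open Crest.Agent.R208.FI (Clo Sub Chart Tan J Ori dens frame)
open Crest.Agent.R208.L (US TS0)

noncomputable section

namespace Crest.Agent.R208.LB

/-! ### bases -/
section bases

/-- interleaving -/
def eqv (n : ℕ) : Fin n ⊕ Fin n ≃ Fin (2 * n) where
  toFun := Sum.elim (fun j => ⟨2 * (j : ℕ) + 1, by omega⟩) (fun j => ⟨2 * (j : ℕ), by omega⟩)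
  invFun := fun i => if (i : ℕ) % 2 = 0 then Sum.inr ⟨(i : ℕ) / 2, by omega⟩
    else Sum.inl ⟨(i : ℕ) / 2, by omega⟩
  left_inv := by
    rintro (j | j)
    · have h1 : ¬ ((2 * (j : ℕ) + 1) % 2 = 0) := by omega
      have h2 : (2 * (j : ℕ) + 1) / 2 = j := by omega
      simp [h2]
    · have h1 : (2 * (j : ℕ)) % 2 = 0 := by omega
      have h2 : (2 * (j : ℕ)) / 2 = j := by omega
      simp
  right_inv := by
    intro i
    by_cases h : (i : ℕ) % 2 = 0
    · simp only [h, if_true, Sum.elim_inr]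
      apply Fin.ext
      change 2 * ((i : ℕ) / 2) = i
      omega
    · simp only [h, if_false, Sum.elim_inl]
      apply Fin.ext
      change 2 * ((i : ℕ) / 2) + 1 = i
      omega

variable {n d : ℕ}

/-- the standard symplectic basis of `ℝ^n × ℝ^n` -/
def b₂ (hd : d + 1 = 2 * n) : Basis (Fin (d + 1)) ℝ (Euc n × Euc n) :=
  (L.bb n).reindex ((eqv n).trans (finCongr hd.symm))

theorem b₂_apply (hd : d + 1 = 2 * n) (i : Fin (d + 1)) :
    b₂ hd i = if (i : ℕ) % 2 = 0 then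
      ((0, EuclideanSpace.basisFun (Fin n) ℝ ⟨(i : ℕ) / 2, by omega⟩) : Euc n × Euc n)
    else (EuclideanSpace.basisFun (Fin n) ℝ ⟨(i : ℕ) / 2, by omega⟩, 0) := by
  rw [b₂, Basis.reindex_apply]
  have h1 : ((eqv n).trans (finCongr hd.symm)).symm i = if (i : ℕ) % 2 = 0 then
      Sum.inr ⟨(i : ℕ) / 2, by omega⟩ else Sum.inl ⟨(i : ℕ) / 2, by omega⟩ := rfl
  rw [h1]
  by_cases h : (i : ℕ) % 2 = 0
  · simp only [h, if_true, L.bb_inr]
  · simp only [h, if_false, L.bb_inl]

theorem om_b₂ (hd : d + 1 = 2 * n) (i j : Fin (d + 1)) :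
    L.om (b₂ hd i) (b₂ hd j) = Jm i j := by
  have hbb : ∀ i j, ⟪EuclideanSpace.basisFun (Fin n) ℝ i, EuclideanSpace.basisFun (Fin n) ℝ j⟫ =
      if i = j then (1 : ℝ) else 0 := fun i j =>
    orthonormal_iff_ite.1 (EuclideanSpace.basisFun (Fin n) ℝ).orthonormal i j
  rw [b₂_apply, b₂_apply]
  unfold L.om Jm
  have hi : (i : ℕ) % 2 = 0 ∨ (i : ℕ) % 2 = 1 := Nat.mod_two_eq_zero_or_one _
  have hj : (j : ℕ) % 2 = 0 ∨ (j : ℕ) % 2 = 1 := Nat.mod_two_eq_zero_or_one _
  rcases hi with hi | hi <;> rcases hj with hj | hj <;>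
    simp only [hi, hj, hbb, Fin.ext_iff, if_true, if_false, one_ne_zero,
      zero_ne_one, inner_zero_left, inner_zero_right, sub_zero, zero_sub, and_true, true_and,
      and_false, false_and] <;>
    by_cases hij : (i : ℕ) / 2 = (j : ℕ) / 2 <;> simp [hij, Ne.symm]

variable (d) in
/-- the basis of `ℝ^d × ℝ`, the last factor first -/
def b₁ : Basis (Fin (d + 1)) ℝ (Eu d × ℝ) :=
  ((sb d).prod (Basis.singleton Unit ℝ)).reindex
    ((finSuccEquiv d).trans (Equiv.optionEquivSumPUnit.{0} (Fin d))).symm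

theorem b₁_zero : b₁ d 0 = (0, 1) := by
  rw [b₁, Basis.reindex_apply]
  have : (((finSuccEquiv d).trans (Equiv.optionEquivSumPUnit.{0} (Fin d))).symm).symm 0 =
    Sum.inr PUnit.unit := by simp
  rw [this]
  ext1 <;> simp

theorem b₁_succ (i : Fin d) : b₁ d i.succ = (sb d i, 0) := by
  rw [b₁, Basis.reindex_apply]
  have : (((finSuccEquiv d).trans (Equiv.optionEquivSumPUnit.{0} (Fin d))).symm).symm i.succ =
    Sum.inl i := by simp
  rw [this]
  ext1 <;> simp

/-- the linear identification -/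
def kap (hd : d + 1 = 2 * n) : (Eu d × ℝ) ≃L[ℝ] Euc n × Euc n :=
  ((b₁ d).equiv (b₂ hd) (Equiv.refl _)).toContinuousLinearEquiv

theorem kap_b₁ (hd : d + 1 = 2 * n) (i : Fin (d + 1)) : kap hd (b₁ d i) = b₂ hd i := by
  change (b₁ d).equiv (b₂ hd) (Equiv.refl _) (b₁ d i) = _
  rw [Basis.equiv_apply]; rfl

theorem kap_symm_b₂ (hd : d + 1 = 2 * n) (i : Fin (d + 1)) :
    (kap hd).symm (b₂ hd i) = b₁ d i := by
  rw [← kap_b₁ hd, ContinuousLinearEquiv.symm_apply_apply]

theorem addHaar_sb (k : ℕ) : (sb k).addHaar = volume :=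
  (EuclideanSpace.basisFun (Fin k) ℝ).addHaar_eq_volume

theorem addHaar_b₂ (hd : d + 1 = 2 * n) : (b₂ hd).addHaar = volume := by
  rw [b₂, Basis.addHaar_reindex, L.bb, Basis.prod_addHaar, OrthonormalBasis.addHaar_eq_volume]
  rfl

theorem addHaar_b₁ : (b₁ d).addHaar = volume := by
  have h1 : (Basis.singleton Unit ℝ).addHaar = (volume : Measure ℝ) := by
    have h2 := (OrthonormalBasis.singleton Unit ℝ).addHaar_eq_volume
    rw [← h2]
    congr 1
    ext i
    simp
  rw [b₁, Basis.addHaar_reindex, Basis.prod_addHaar, h1, addHaar_sb]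
  rfl

theorem measurePreserving_kap (hd : d + 1 = 2 * n) :
    MeasurePreserving (kap hd) volume volume := by
  refine ⟨(kap hd).continuous.measurable, ?_⟩
  rw [← addHaar_b₁, Basis.map_addHaar, ← addHaar_b₂ hd]
  congr 1
  ext i : 1
  rw [Basis.map_apply]
  exact kap_b₁ hd i

end bases

/-! ### the power of `dal` in a chart of the tangent bundle -/
section chart
variable {n N d : ℕ}

/-- an endomorphism compatible with `om` -/
theorem exists_M {B C : Euc n →L[ℝ] Euc N} (hB : Function.Injective B)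
    {L : Euc n × Euc n →L[ℝ] Euc N × Euc N}
    (h1 : ∀ b, L (0, b) = (0, B b)) (h2 : ∀ a, L (a, 0) = (B a, C a)) :
    ∃ M : Euc n × Euc n →L[ℝ] Euc n × Euc n, |M.det| * jac B ^ 2 = 1 ∧
      ∀ ξ η, R208.L.om (L (M ξ)) (L (M η)) = R208.L.om ξ η := by
  -- isometric frame with the same range
  set T : Submodule ℝ (Euc N) := LinearMap.range (B : Euc n →ₗ[ℝ] Euc N) with hT
  have hdim : finrank ℝ T = n := by
    rw [hT, LinearMap.finrank_range_of_inj hB]; simp
  let e : Euc n ≃ₗᵢ[ℝ] T :=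
    ((stdOrthonormalBasis ℝ T).reindex (finCongr hdim)).repr.symm
  let A : Euc n →L[ℝ] Euc N := T.subtypeL.comp e.toContinuousLinearEquiv.toContinuousLinearMap
  have hA : ∀ v w, ⟪A v, A w⟫ = ⟪v, w⟫ := fun v w => e.inner_map_map v w
  have hAT : ∀ v, A v ∈ T := fun v => (e v).2
  -- inverse of `B` on `T`
  let Be : Euc n ≃ₗ[ℝ] T := LinearEquiv.ofInjective (B : Euc n →ₗ[ℝ] Euc N) hB
  let Bi : T →L[ℝ] Euc n := LinearMap.toContinuousLinearMap (Be.symm : T →ₗ[ℝ] Euc n)
  have hBi : ∀ t : T, B (Bi t) = t := fun t => congrArg Subtype.val (Be.apply_symm_apply t)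
  let K : Euc n →L[ℝ] Euc n := Bi.comp e.toContinuousLinearEquiv.toContinuousLinearMap
  have hK : ∀ a, B (K a) = A a := fun a => hBi (e a)
  let π : Euc N →L[ℝ] T := T.orthogonalProjectionOnto
  let H : Euc n →L[ℝ] Euc n := -(Bi.comp (π.comp (C.comp K)))
  have hH : ∀ a, B (H a) = -(π (C (K a)) : Euc N) := fun a => by
    change B (-(Bi (π (C (K a))))) = _
    rw [map_neg, hBi]
  let M : Euc n × Euc n →L[ℝ] Euc n × Euc n :=
    (K.comp (ContinuousLinearMap.fst ℝ _ _)).prod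
      (K.comp (ContinuousLinearMap.snd ℝ _ _) + H.comp (ContinuousLinearMap.fst ℝ _ _))
  have hL : ∀ a b, L (a, b) = (B a, C a + B b) := fun a b => by
    have : ((a, b) : Euc n × Euc n) = (a, 0) + (0, b) := by simp
    rw [this, map_add, h1, h2]; simp
  have hLM : ∀ ξ, L (M ξ) = (A ξ.1, (C (K ξ.1) - (π (C (K ξ.1)) : Euc N)) + A ξ.2) := by
    intro ξ
    change L (K ξ.1, K ξ.2 + H ξ.1) = _
    rw [hL, hK, map_add, hK, hH]
    congr 1
    abel
  have hnorm : ∀ z : Euc N, ∀ t ∈ T, ⟪z - (π z : Euc N), t⟫ = 0 := fun z t ht =>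
    Submodule.starProjection_inner_eq_zero z t ht
  have key : ∀ ξ η, R208.L.om (L (M ξ)) (L (M η)) = R208.L.om ξ η := by
    intro ξ η
    rw [hLM, hLM]
    unfold R208.L.om
    simp only [inner_add_left, hnorm _ _ (hAT _), hA, zero_add]
  refine ⟨M, ?_, key⟩
  have h3 : ∀ ξ, (A.prodMap A) ξ = (A ξ.1, A ξ.2) := fun ξ => rfl
  have h4 := R208.L.abs_det_mul (L₁ := A.prodMap A) (L₂ := L) (B₁ := A) (C₁ := 0) (B₂ := B)
    (C₂ := C) (fun b => by rw [h3, map_zero]) (fun a => by rw [h3, map_zero]; rfl) h1 h2 (M := M)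
    (fun ξ η => by
      rw [key, h3, h3]
      unfold R208.L.om
      simp only [hA])
  rw [h4, R208.L.jac_isometry A hA]
  norm_num

theorem abs_evA_chart (hd : d + 1 = 2 * n) {B C : Euc n →L[ℝ] Euc N} (hB : Function.Injective B)
    {L : Euc n × Euc n →L[ℝ] Euc N × Euc N}
    (h1 : ∀ b, L (0, b) = (0, B b)) (h2 : ∀ a, L (a, 0) = (B a, C a)) :
    |evA _ (d + 1) (dal N ^ n) (fun i => L (b₂ hd i))| = (n.factorial : ℝ) * jac B ^ 2 := by
  obtain ⟨M, hM, hom⟩ := exists_M hB h1 h2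
  have e1 : evA _ (d + 1) (dal N ^ n) (fun i => L (M (b₂ hd i))) = (n.factorial : ℝ) := by
    refine two_dal.evA_pow' hd _ fun i j => ?_
    rw [omB_apply, hom, om_b₂]
  have e2 : evA _ (d + 1) (dal N ^ n) (fun i => L (M (b₂ hd i))) =
      M.det * evA _ (d + 1) (dal N ^ n) (fun i => L (b₂ hd i)) := by
    have h3 := evA_det (b₂ hd) M (F.pb (L : Euc n × Euc n →ₗ[ℝ] Euc N × Euc N) (dal N ^ n))
    rw [evA_pb, evA_pb] at h3
    exact h3
  rw [e2] at e1
  have h5 : |M.det| * |evA _ (d + 1) (dal N ^ n) (fun i => L (b₂ hd i))| = (n.factorial : ℝ) := by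
    rw [← abs_mul, e1, abs_of_nonneg (by positivity)]
  have h6 : |M.det| ≠ 0 := by
    intro h; rw [h, zero_mul] at hM; exact zero_ne_one hM
  have h7 : |M.det| * |evA _ (d + 1) (dal N ^ n) (fun i => L (b₂ hd i))| =
      |M.det| * ((n.factorial : ℝ) * jac B ^ 2) := by
    rw [h5]
    calc (n.factorial : ℝ) = (n.factorial : ℝ) * (|M.det| * jac B ^ 2) := by rw [hM, mul_one]
      _ = _ := by ring
  exact mul_left_cancel₀ h6 h7

/-- the dilation `(p, v) ↦ (p, r v)` -/
def Dr (r : ℝ) : Euc N × Euc N →L[ℝ] Euc N × Euc N :=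
  (ContinuousLinearMap.fst ℝ _ _).prod (r • ContinuousLinearMap.snd ℝ _ _)

theorem Dr_apply (r : ℝ) (ξ : Euc N × Euc N) : Dr r ξ = (ξ.1, r • ξ.2) := rfl

theorem pb_Dr_al (r : ℝ) (q : Euc N × Euc N) :
    F.pb (Dr (N := N) r : Euc N × Euc N →ₗ[ℝ] Euc N × Euc N) (al q) = al q := by
  unfold al
  rw [pb_io]
  rfl

theorem pb_Dr_dal (r : ℝ) :
    F.pb (Dr (N := N) r : Euc N × Euc N →ₗ[ℝ] Euc N × Euc N) (dal N) = r • dal N := by
  unfold dal
  rw [_root_.map_sum, Finset.smul_sum]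
  refine Finset.sum_congr rfl fun i _ => ?_
  rw [map_mul, pb_io, pb_io]
  have h1 : sL (EuclideanSpace.basisFun (Fin N) ℝ i) ∘ₗ
      (Dr (N := N) r : Euc N × Euc N →ₗ[ℝ] Euc N × Euc N) =
      r • sL (EuclideanSpace.basisFun (Fin N) ℝ i) := by
    refine LinearMap.ext fun ξ => ?_
    change ⟪_, r • ξ.2⟫ = r * ⟪_, ξ.2⟫
    rw [inner_smul_right]
  rw [h1, map_smul, smul_mul_assoc]
  rfl

/-- the cone over a piece of the unit tangent bundle -/
theorem evA_cone {m : ℕ} (hm : m + 1 = n) (q : Euc N × Euc N) (r : ℝ)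
    (w : Fin d → Euc N × Euc N) :
    evA _ (d + 1) (dal N ^ n) (Matrix.vecCons ((0, q.2) : Euc N × Euc N) fun i => Dr r (w i)) =
      (n : ℝ) * r ^ m * evA _ d (oUS n N q) w := by
  subst hm
  rw [evA_ii, two_dal.ii_pow, map_smul, AlternatingMap.smul_apply, smul_eq_mul]
  have h1 : omB ((0, q.2) : Euc N × Euc N) = alL q := by
    refine LinearMap.ext fun η => ?_
    change ⟪q.2, η.1⟫ - ⟪η.2, (0 : Euc N)⟫ = ⟪q.2, η.1⟫
    rw [inner_zero_right, sub_zero]
  rw [h1]
  have h2 := evA_pb d (Dr (N := N) r : Euc N × Euc N →ₗ[ℝ] Euc N × Euc N)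
    (io (alL q) * dal N ^ m) w
  have h3 : evA _ d (io (alL q) * dal N ^ m) (fun i => Dr r (w i)) =
      evA _ d (io (alL q) * dal N ^ m)
        (fun i => (Dr (N := N) r : Euc N × Euc N →ₗ[ℝ] Euc N × Euc N) (w i)) := rfl
  rw [h3, ← h2, map_mul, map_pow, pb_Dr_dal]
  have h4 := pb_Dr_al r q
  unfold al at h4
  rw [h4, smul_pow, mul_smul_comm, map_smul, AlternatingMap.smul_apply, smul_eq_mul]
  unfold oUS al
  rw [Nat.add_sub_cancel]
  push_cast
  ring

end chart

end Crest.Agent.R208.LB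
end
end

-- ▼ part R208/LB4
section

/-!
R208, block LB (helper971), part 4: the Liouville measure `nu` in a chart of the unit tangent bundle is
given by the contact volume form `al * dal^(n-1)` (times `1/(n-1)!`).
-/

set_option autoImplicit false
set_option linter.unusedSectionVars false

open MeasureTheory Measure Set Filter Topology Module
open scoped ContDiff RealInnerProductSpace ENNReal
open Crest.GeometryTopology.Submanifold
open Crest.Agent.R241.DDefs
open Crest.Agent.R241.D2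
open Crest.Agent.R241
open Crest.Agent.R241.AF (jac jac_nonneg jac_sq_gram finrank_Euc)
open Crest.Agent.R208.F
open Crest.Agent.R208.FI (Clo Sub Chart Tan J Ori dens frame)
open Crest.Agent.R208.L (US TS0 gd gam measurable_gd cst nu Lg dir nrm Fc Lc rho)

noncomputable section

namespace Crest.Agent.R208.LB

/-- normalisation constant of the radial Gaussian -/
def KK (n : ℕ) : ℝ≥0∞ := ∫⁻ r in Ioi (0 : ℝ), ENNReal.ofReal (r ^ (n - 1)) *
    ENNReal.ofReal (Real.exp (-Real.pi * r ^ 2))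

theorem cst_mul_KK {n : ℕ} (hn : 1 ≤ n) : cst n * KK n = 1 := by
  have hV := L.nontrivial_Euc hn
  have h1 : ∫⁻ v : Euc n, gd v = 1 := by
    have h2 : gam (Euc n) univ = 1 := measure_univ
    unfold gam at h2
    rw [withDensity_apply _ MeasurableSet.univ, Measure.restrict_univ] at h2
    exact h2
  rw [L.lintegral_polar (measurable_gd (Euc n)) hV] at h1
  rw [← h1, finrank_Euc]
  have h3 : ∀ u : Metric.sphere (0 : Euc n) 1, ∫⁻ r in Ioi (0 : ℝ), ENNReal.ofReal (r ^ (n - 1)) *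
      gd (r • (u : Euc n)) = KK n := by
    intro u
    have hu : ‖(u : Euc n)‖ = 1 := mem_sphere_zero_iff_norm.1 u.2
    unfold KK
    refine setLIntegral_congr_fun measurableSet_Ioi fun r hr => ?_
    have hr' : (0 : ℝ) < r := hr
    unfold L.gd
    rw [norm_smul, hu, mul_one, Real.norm_of_nonneg hr'.le]
  rw [lintegral_congr h3, lintegral_const, mul_comm]
  rfl

variable {n N d : ℕ} {κ : ℝ} {S : Set (Euc N)} {G : Geo n N κ S}

section cone
variable {g : Eu d → Euc N × Euc N} {W : Set (Eu d)}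

/-- the cone over a chart of the unit tangent bundle -/
def Th (g : Eu d → Euc N × Euc N) (z : Eu d × ℝ) : Euc N × Euc N := ((g z.1).1, z.2 • (g z.1).2)

/-- its derivative -/
def DTh (g : Eu d → Euc N × Euc N) (z : Eu d × ℝ) : Eu d × ℝ →L[ℝ] Euc N × Euc N :=
  ((ContinuousLinearMap.fst ℝ _ _).comp ((fderiv ℝ g z.1).comp (ContinuousLinearMap.fst ℝ _ _))).prod
    (z.2 • ((ContinuousLinearMap.snd ℝ _ _).comp
      ((fderiv ℝ g z.1).comp (ContinuousLinearMap.fst ℝ _ _))) +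
      (ContinuousLinearMap.snd ℝ (Eu d) ℝ).smulRight (g z.1).2)

theorem hasFDerivAt_Th {z : Eu d × ℝ} (hg : DifferentiableAt ℝ g z.1) :
    HasFDerivAt (Th g) (DTh g z) z := by
  have h1 : HasFDerivAt (fun z : Eu d × ℝ => g z.1)
      ((fderiv ℝ g z.1).comp (ContinuousLinearMap.fst ℝ _ _)) z :=
    hg.hasFDerivAt.comp z hasFDerivAt_fst
  have h2 : HasFDerivAt (fun z : Eu d × ℝ => (g z.1).1) _ z :=
    (ContinuousLinearMap.fst ℝ (Euc N) (Euc N)).hasFDerivAt.comp z h1
  have h3 : HasFDerivAt (fun z : Eu d × ℝ => (g z.1).2) _ z :=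
    (ContinuousLinearMap.snd ℝ (Euc N) (Euc N)).hasFDerivAt.comp z h1
  have h4 : HasFDerivAt (fun z : Eu d × ℝ => z.2) (ContinuousLinearMap.snd ℝ (Eu d) ℝ) z :=
    hasFDerivAt_snd
  exact h2.prodMk (h4.smul h3)

theorem DTh_b₁ (z : Eu d × ℝ) :
    (fun i => DTh g z (b₁ d i)) = Matrix.vecCons ((0, (g z.1).2) : Euc N × Euc N)
      fun i => Dr z.2 (fderiv ℝ g z.1 (sb d i)) := by
  funext i
  refine Fin.cases ?_ (fun i => ?_) i
  · rw [b₁_zero]
    simp [DTh]
  · rw [b₁_succ]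
    simp [DTh, Dr_apply]

end cone

/-- **the Liouville measure in a chart of `US`** -/
theorem nu_chart (hn : 1 ≤ n) (hd : d + 1 = 2 * n) {g : Eu d → Euc N × Euc N} {W : Set (Eu d)}
    (hg : Chart d (US G) g W) {p0 : Euc N} {f : Euc n → Euc N} {V : Set (Euc n)}
    (hf : IsLocalParam n N S p0 f V) {O : Set (Euc N)} {ℓ : Euc N → Euc n} (hO : IsOpen O)
    (hℓ : ContDiffOn ℝ ∞ ℓ O) (hℓV : ∀ q ∈ O, ℓ q ∈ V) (hℓS : ∀ q ∈ O, q ∈ S → f (ℓ q) = q)
    {A : Set (Euc N × Euc N)} (hA : MeasurableSet A) (hAg : A ⊆ g '' W) (hAO : ∀ q ∈ A, q.1 ∈ O) :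
    ((n - 1).factorial : ℝ≥0∞) * nu G A =
      ∫⁻ u in g ⁻¹' A ∩ W, ENNReal.ofReal |top d (pull g (oUS n N) u)| := by
  classical
  have hfS : ∀ x ∈ V, f x ∈ S := fun x hx => D.mem_S hf hx
  have hT : ∀ p ∈ S, G.T p = D.Tan S p := fun p hp => T_eq_Tan G hp
  have hAUS : ∀ q ∈ A, q ∈ US G := fun q hq => hg.image_subset (hAg hq)
  -- measurability
  have hVm : MeasurableSet W := hg.isOpen.measurableSet
  have hA₀m : MeasurableSet (g ⁻¹' A ∩ W) := by
    obtain ⟨u, u_meas, uf⟩ : ∃ u, Measurable u ∧ EqOn u g W := by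
      refine ⟨piecewise W g 0, ?_, piecewise_eqOn _ _ _⟩
      exact ContinuousOn.measurable_piecewise hg.contDiffOn.continuousOn
        continuous_zero.continuousOn hVm
    have h1 : g ⁻¹' A ∩ W = u ⁻¹' A ∩ W := by
      ext x
      constructor
      · rintro ⟨h1, h2⟩; exact ⟨by rw [mem_preimage, uf h2]; exact h1, h2⟩
      · rintro ⟨h1, h2⟩; exact ⟨by rw [mem_preimage, ← uf h2]; exact h1, h2⟩
    rw [h1]
    exact (u_meas hA).inter hVm
  set A₀ : Set (Eu d) := g ⁻¹' A ∩ W with hA₀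
  set A' : Set (Euc N × Euc N) := dir ⁻¹' A with hA'
  have hA'm : MeasurableSet A' := L.measurable_dir hA
  -- points of the cone
  have hA'TS : ∀ q ∈ A', q ∈ TS0 G := by
    intro q hq
    have h1 : dir q ∈ US G := hAUS _ hq
    have h2 : q.2 ≠ 0 := by
      intro h
      have h3 : ‖(dir q).2‖ = 1 := h1.2
      have h4 : (dir q).2 = 0 := by
        change nrm q.2 = 0
        rw [h]; unfold L.nrm; rw [smul_zero]
      rw [h4, norm_zero] at h3
      exact zero_ne_one h3
    refine ⟨⟨h1.1.1, ?_⟩, h2⟩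
    have h5 : nrm q.2 ∈ G.T q.1 := h1.1.2
    have h6 : ‖q.2‖ • nrm q.2 = q.2 := by
      unfold L.nrm
      rw [smul_smul, mul_inv_cancel₀ (norm_ne_zero_iff.2 h2), one_smul]
    rw [← h6]
    exact (G.T q.1).smul_mem _ h5
  set B : Set (Eu d × ℝ) := A₀ ×ˢ Ioi (0 : ℝ) with hB
  have hBm : MeasurableSet B := hA₀m.prod measurableSet_Ioi
  set Φ : Eu d × ℝ → Euc n × Euc n := fun z => Lc ℓ (Th g z) with hΦ
  -- facts about the cone
  have hgUS : ∀ u ∈ W, g u ∈ US G := fun u hu => hg.mem hu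
  have hThTS : ∀ z : Eu d × ℝ, z.1 ∈ W → Th g z ∈ TS G := fun z hz =>
    ⟨(hgUS _ hz).1.1, (G.T _).smul_mem _ (hgUS _ hz).1.2⟩
  have hdirTh : ∀ z : Eu d × ℝ, z.1 ∈ W → 0 < z.2 → dir (Th g z) = g z.1 := by
    intro z hz hr
    refine Prod.ext rfl ?_
    exact L.nrm_smul hr (hgUS _ hz).2
  have hThO : ∀ z ∈ B, (Th g z).1 ∈ O := fun z hz => hAO (g z.1) hz.1.1
  have hFΦ : ∀ z ∈ B, Fc f (Φ z) = Th g z := fun z hz =>
    L.Fc_Lc (G := G) hf hO hℓ hℓV hℓS (hThTS z hz.1.2) (hThO z hz)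
  have hΦV : ∀ z ∈ B, Φ z ∈ V ×ˢ (univ : Set (Euc n)) := fun z hz =>
    ⟨hℓV _ (hThO z hz), mem_univ _⟩
  have himg : Φ '' B = Fc f ⁻¹' A' ∩ V ×ˢ univ := by
    apply Subset.antisymm
    · rintro _ ⟨z, hz, rfl⟩
      refine ⟨?_, hΦV z hz⟩
      rw [mem_preimage, hFΦ z hz, hA', mem_preimage, hdirTh z hz.1.2 hz.2]
      exact hz.1.1
    · rintro w ⟨hwA, hw⟩
      have hwA' : dir (Fc f w) ∈ A := hwA
      obtain ⟨u, hu, hgu⟩ := hAg hwA'
      have h0 : (Fc f w).2 ≠ 0 := (hA'TS _ hwA).2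
      have hTh : Th g (u, ‖(Fc f w).2‖) = Fc f w := by
        refine Prod.ext ?_ ?_
        · change (g u).1 = _
          rw [hgu]; rfl
        · change ‖(Fc f w).2‖ • (g u).2 = _
          rw [hgu]
          change ‖(Fc f w).2‖ • (‖(Fc f w).2‖⁻¹ • (Fc f w).2) = _
          rw [smul_smul, mul_inv_cancel₀ (norm_ne_zero_iff.2 h0), one_smul]
      have hzB : (u, ‖(Fc f w).2‖) ∈ B :=
        ⟨⟨by rw [mem_preimage, hgu]; exact hwA', hu⟩, norm_pos_iff.2 h0⟩
      refine ⟨(u, ‖(Fc f w).2‖), hzB, ?_⟩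
      apply L.injOn_Fc hf (hΦV _ hzB) hw
      rw [hFΦ _ hzB, hTh]
  have hΦinj : InjOn Φ B := by
    intro z hz z' hz' hzz
    have h1 : Th g z = Th g z' := by rw [← hFΦ z hz, ← hFΦ z' hz', hzz]
    have h2 : g z.1 = g z'.1 := by
      rw [← hdirTh z hz.1.2 hz.2, ← hdirTh z' hz'.1.2 hz'.2, h1]
    have h3 : z.1 = z'.1 := hg.injOn hz.1.2 hz'.1.2 h2
    have h4 : ‖(Th g z).2‖ = ‖(Th g z').2‖ := by rw [h1]
    change ‖z.2 • (g z.1).2‖ = ‖z'.2 • (g z'.1).2‖ at h4
    rw [norm_smul, norm_smul, (hgUS _ hz.1.2).2, (hgUS _ hz'.1.2).2, mul_one, mul_one,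
      Real.norm_of_nonneg (le_of_lt hz.2), Real.norm_of_nonneg (le_of_lt hz'.2)] at h4
    exact Prod.ext h3 h4
  have hgd : ∀ u ∈ W, DifferentiableAt ℝ g u := fun u hu => hg.differentiableAt hu
  have hΦd : ∀ z ∈ B, DifferentiableAt ℝ Φ z := by
    intro z hz
    have h1 : DifferentiableAt ℝ (Th g) z := (hasFDerivAt_Th (hgd _ hz.1.2)).differentiableAt
    have h3 : DifferentiableAt ℝ (Lc ℓ) (Th g z) := L.differentiableAt_Lc hO hℓ (hThO z hz)
    exact DifferentiableAt.comp z h3 h1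
  -- the derivative of the chart
  set L' : Eu d × ℝ → Euc n × Euc n →L[ℝ] Euc n × Euc n := fun z =>
    (fderiv ℝ Φ z).comp ((kap hd).symm : Euc n × Euc n →L[ℝ] Eu d × ℝ) with hL'
  have hm : n - 1 + 1 = n := by omega
  have key : ∀ z ∈ B, |(L' z).det| * jac (fderiv ℝ f (Φ z).1) ^ 2 * ((n - 1).factorial : ℝ) =
      z.2 ^ (n - 1) * |top d (pull g (oUS n N) z.1)| := by
    intro z hz
    have hw1 : (Φ z).1 ∈ V := (hΦV z hz).1
    have hcTh : ContinuousAt (Th g) z := (hasFDerivAt_Th (hgd _ hz.1.2)).continuousAt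
    have hev : (fun z => Fc f (Φ z)) =ᶠ[𝓝 z] Th g := by
      have e1 : ∀ᶠ z' in 𝓝 z, z'.1 ∈ W :=
        continuous_fst.continuousAt.eventually (hg.isOpen.mem_nhds hz.1.2)
      have e3 : ∀ᶠ z' in 𝓝 z, (Th g z').1 ∈ O :=
        (continuous_fst.continuousAt.comp hcTh).eventually (hO.mem_nhds (hThO z hz))
      filter_upwards [e1, e3] with z' h1 h3
      exact L.Fc_Lc (G := G) hf hO hℓ hℓV hℓS (hThTS z' h1) h3
    have hd1 : HasFDerivAt (fun z => Fc f (Φ z))
        ((fderiv ℝ (Fc f) (Φ z)).comp (fderiv ℝ Φ z)) z :=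
      (L.hasFDerivAt_Fc hf hw1).comp z (hΦd z hz).hasFDerivAt
    have hd3 := (hd1.congr_of_eventuallyEq hev.symm).unique (hasFDerivAt_Th (hgd _ hz.1.2))
    have e1 := evA_det (b₂ hd) (L' z)
      (F.pb (fderiv ℝ (Fc f) (Φ z) : Euc n × Euc n →ₗ[ℝ] Euc N × Euc N) (dal N ^ n))
    rw [evA_pb, evA_pb] at e1
    have e2 : (fun i => (fderiv ℝ (Fc f) (Φ z) : Euc n × Euc n →ₗ[ℝ] Euc N × Euc N)
        (L' z (b₂ hd i))) = fun i => DTh g z (b₁ d i) := by
      funext i
      change fderiv ℝ (Fc f) (Φ z) (fderiv ℝ Φ z ((kap hd).symm (b₂ hd i))) = _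
      rw [kap_symm_b₂, ← hd3]
      rfl
    rw [e2, DTh_b₁, evA_cone hm] at e1
    have e3 := abs_evA_chart (N := N) hd (hf.injective_fderiv _ hw1)
      (B := fderiv ℝ f (Φ z).1) (C := (fderiv ℝ (fderiv ℝ f) (Φ z).1).flip (Φ z).2)
      (L := fderiv ℝ (Fc f) (Φ z))
      (fun b => by rw [L.fderiv_Fc_apply hf hw1]; simp)
      (fun a => by rw [L.fderiv_Fc_apply hf hw1]; simp)
    have e4 : evA _ d (oUS n N (g z.1)) (fun i => fderiv ℝ g z.1 (sb d i)) =
        top d (pull g (oUS n N) z.1) := by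
      unfold pull
      rw [top_pb]
      rfl
    rw [e4] at e1
    have e5 : (n : ℝ) * (z.2 ^ (n - 1) * |top d (pull g (oUS n N) z.1)|) =
        (n : ℝ) * (|(L' z).det| * jac (fderiv ℝ f (Φ z).1) ^ 2 * ((n - 1).factorial : ℝ)) := by
      have e6 : |(n : ℝ) * z.2 ^ (n - 1) * top d (pull g (oUS n N) z.1)| =
          |(L' z).det| * ((n.factorial : ℝ) * jac (fderiv ℝ f (Φ z).1) ^ 2) := by
        rw [e1, abs_mul]
        congr 1
      rw [abs_mul, abs_of_nonneg (mul_nonneg (Nat.cast_nonneg n)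
        (pow_nonneg (le_of_lt hz.2) _))] at e6
      have e7 : (n.factorial : ℝ) = n * ((n - 1).factorial : ℝ) := by
        rw [← Nat.mul_factorial_pred (by omega)]
        push_cast; ring
      rw [e7] at e6
      calc _ = (n : ℝ) * z.2 ^ (n - 1) * |top d (pull g (oUS n N) z.1)| := by ring
        _ = _ := by rw [e6]; ring
    have hn0 : (n : ℝ) ≠ 0 := by
      have : n ≠ 0 := by omega
      exact_mod_cast this
    exact (mul_left_cancel₀ hn0 e5).symm
  -- change of variables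
  have hcv : Lg G A' = ∫⁻ z in B, ENNReal.ofReal |(L' z).det| * rho f (Φ z) := by
    rw [L.Lg_chart G hT hf hfS hA'm (by
      intro q hq _
      have h1 : (dir q).1 ∈ O := hAO _ hq
      have h2 : (dir q).1 ∈ S := (hAUS _ hq).1.1
      exact ⟨ℓ (dir q).1, hℓV _ h1, hℓS _ h1 h2⟩), ← himg]
    have hmp := measurePreserving_kap (n := n) hd
    have himg2 : Φ '' B = (fun y => Φ ((kap hd).symm y)) '' (kap hd '' B) := by
      rw [image_image]
      simp only [ContinuousLinearEquiv.symm_apply_apply]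
    have hme : MeasurableEmbedding (kap (n := n) hd) :=
      (kap (n := n) hd).toHomeomorph.measurableEmbedding
    have hkBm : MeasurableSet (kap (n := n) hd '' B) := hme.measurableSet_image.2 hBm
    have hder : ∀ y ∈ kap hd '' B, HasFDerivWithinAt (fun y => Φ ((kap hd).symm y))
        (L' ((kap hd).symm y)) (kap hd '' B) y := by
      rintro _ ⟨z, hz, rfl⟩
      have h1 : HasFDerivAt Φ (fderiv ℝ Φ z) ((kap hd).symm (kap hd z)) := by
        rw [ContinuousLinearEquiv.symm_apply_apply]; exact (hΦd z hz).hasFDerivAt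
      have h2 := h1.comp (kap hd z) ((kap hd).symm : Euc n × Euc n →L[ℝ] Eu d × ℝ).hasFDerivAt
      rw [hL']
      simp only [ContinuousLinearEquiv.symm_apply_apply]
      exact h2.hasFDerivWithinAt
    have hinj : InjOn (fun y => Φ ((kap hd).symm y)) (kap hd '' B) := by
      rintro _ ⟨z, hz, rfl⟩ _ ⟨z', hz', rfl⟩ h
      simp only [ContinuousLinearEquiv.symm_apply_apply] at h
      rw [hΦinj hz hz' h]
    have hHaar : IsAddHaarMeasure (volume : Measure (Euc n × Euc n)) :=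
      prod.instIsAddHaarMeasure volume volume
    have h3 := lintegral_image_eq_lintegral_abs_det_fderiv_mul volume hkBm hder hinj (rho f)
    rw [himg2, h3]
    have h4 := hmp.setLIntegral_comp_preimage_emb hme
      (fun y => ENNReal.ofReal |(L' ((kap hd).symm y)).det| * rho f (Φ ((kap hd).symm y)))
      (kap hd '' B)
    rw [← h4, (kap (n := n) hd).injective.preimage_image]
    simp only [ContinuousLinearEquiv.symm_apply_apply]
  -- the integrand
  have hint : ∀ z ∈ B, ((n - 1).factorial : ℝ≥0∞) * (ENNReal.ofReal |(L' z).det| * rho f (Φ z)) =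
      ENNReal.ofReal |top d (pull g (oUS n N) z.1)| *
        (ENNReal.ofReal (z.2 ^ (n - 1)) * ENNReal.ofReal (Real.exp (-Real.pi * z.2 ^ 2))) := by
    intro z hz
    have h1 : gd (fderiv ℝ f (Φ z).1 (Φ z).2) = ENNReal.ofReal (Real.exp (-Real.pi * z.2 ^ 2)) := by
      have h2 : fderiv ℝ f (Φ z).1 (Φ z).2 = z.2 • (g z.1).2 := congrArg Prod.snd (hFΦ z hz)
      rw [h2]
      unfold L.gd
      rw [norm_smul, (hgUS _ hz.1.2).2, mul_one, Real.norm_of_nonneg (le_of_lt hz.2)]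
    unfold L.rho
    rw [h1, ← ENNReal.ofReal_natCast, ← mul_assoc, ← mul_assoc, ← mul_assoc,
      ← ENNReal.ofReal_mul (Nat.cast_nonneg _), ← ENNReal.ofReal_mul (by positivity),
      ← ENNReal.ofReal_mul (abs_nonneg _)]
    congr 2
    have := key z hz
    nlinarith [this]
  have hfac : ((n - 1).factorial : ℝ≥0∞) ≠ ⊤ := ENNReal.natCast_ne_top _
  have hLg : ((n - 1).factorial : ℝ≥0∞) * Lg G A' =
      (∫⁻ u in A₀, ENNReal.ofReal |top d (pull g (oUS n N) u)|) * KK n := by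
    rw [hcv, ← lintegral_const_mul' _ _ hfac, setLIntegral_congr_fun hBm hint, volume_eq_prod,
      hB, ← Measure.prod_restrict]
    rw [lintegral_prod_mul (μ := volume.restrict A₀) (ν := volume.restrict (Ioi (0 : ℝ)))
      (f := fun u => ENNReal.ofReal |top d (pull g (oUS n N) u)|)
      (g := fun r => ENNReal.ofReal (r ^ (n - 1)) * ENNReal.ofReal (Real.exp (-Real.pi * r ^ 2)))]
    · rfl
    · have h1 : ContinuousOn (fun u => |top d (pull g (oUS n N) u)|) W :=
        (FI.continuous_top.comp_continuousOn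
          (hg.continuousOn_pull continuous_oUS.continuousOn)).abs
      have h2 : AEMeasurable (fun u => |top d (pull g (oUS n N) u)|) (volume.restrict W) :=
        h1.aemeasurable hVm
      exact (h2.mono_measure (Measure.restrict_mono inter_subset_right le_rfl)).ennreal_ofReal
    · fun_prop
  rw [L.nu_eq, Measure.smul_apply, map_apply L.measurable_dir hA, smul_eq_mul, mul_left_comm,
    hLg, mul_left_comm, cst_mul_KK hn, mul_one]

end Crest.Agent.R208.LB
end
end

-- ▼ part R208/LB5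

/-!
R208, block LB (helper971), part 5: **integration of the contact volume form over the unit tangent bundle
is integration with respect to the Liouville measure** (times `(n-1)!`); reformulation of `VolLe`.
-/

set_option autoImplicit false
set_option linter.unusedSectionVars false

open MeasureTheory Measure Set Filter Topology Module
open scoped ContDiff RealInnerProductSpace ENNReal
open Crest.GeometryTopology.Submanifold
open Crest.Agent.R241.DDefs
open Crest.Agent.R241.D2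
open Crest.Agent.R241
open Crest.Agent.R241.AF (jac jac_nonneg jac_sq_gram finrank_Euc)
open Crest.Agent.R208.F
open Crest.Agent.R208.FI (Clo Sub Chart Tan J Ori dens frame LE)
open Crest.Agent.R208.L (US TS0 cst nu)

noncomputable section

namespace Crest.Agent.R208.LB

variable {n N d : ℕ} {κ : ℝ} {S : Set (Euc N)} {G : Geo n N κ S}

/-- the contact volume as a measure -/
def mu1 (G : Geo n N κ S) (d : ℕ) : Measure (Euc N × Euc N) :=
  Measure.map (toEuclidean : (Euc N × Euc N) ≃L[ℝ] _).symm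
    ((μHE[d].restrict ((toEuclidean : (Euc N × Euc N) ≃L[ℝ] _) '' US G)).withDensity
      fun y => ENNReal.ofReal (dens d (US G) (oUS n N) (oUS n N)
        ((toEuclidean : (Euc N × Euc N) ≃L[ℝ] _).symm y)))

theorem measurable_te : Measurable ((toEuclidean : (Euc N × Euc N) ≃L[ℝ] _).symm) :=
  (toEuclidean : (Euc N × Euc N) ≃L[ℝ] _).symm.continuous.measurable

theorem embedding_te : MeasurableEmbedding ((toEuclidean : (Euc N × Euc N) ≃L[ℝ] _).symm) :=
  (toEuclidean : (Euc N × Euc N) ≃L[ℝ] _).symm.toHomeomorph.measurableEmbedding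

theorem te_preimage (A : Set (Euc N × Euc N)) :
    (toEuclidean : (Euc N × Euc N) ≃L[ℝ] _).symm ⁻¹' A = (toEuclidean : (Euc N × Euc N) ≃L[ℝ] _) '' A := by
  ext y
  constructor
  · intro h
    exact ⟨_, h, (toEuclidean : (Euc N × Euc N) ≃L[ℝ] _).apply_symm_apply y⟩
  · rintro ⟨x, hx, rfl⟩
    rw [mem_preimage, ContinuousLinearEquiv.symm_apply_apply]; exact hx

theorem mu1_apply {A : Set (Euc N × Euc N)} (hA : MeasurableSet A) (hAU : A ⊆ US G) :
    mu1 G d A = ∫⁻ y in (toEuclidean : (Euc N × Euc N) ≃L[ℝ] _) '' A,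
      ENNReal.ofReal (dens d (US G) (oUS n N) (oUS n N)
        ((toEuclidean : (Euc N × Euc N) ≃L[ℝ] _).symm y)) ∂μHE[d] := by
  unfold mu1
  rw [map_apply measurable_te hA, withDensity_apply _ (measurable_te hA),
    Measure.restrict_restrict (measurable_te hA), te_preimage,
    inter_eq_left.2 (image_mono hAU)]

theorem mu1_compl (hc : IsCompact S) : mu1 G d (US G)ᶜ = 0 := by
  have hm : MeasurableSet (US G) := (L.isClosed_US G).measurableSet
  unfold mu1
  rw [map_apply measurable_te hm.compl, withDensity_apply _ (measurable_te hm.compl),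
    Measure.restrict_restrict (measurable_te hm.compl), te_preimage]
  have h1 : (toEuclidean : (Euc N × Euc N) ≃L[ℝ] _) '' (US G)ᶜ ∩
      (toEuclidean : (Euc N × Euc N) ≃L[ℝ] _) '' US G = ∅ := by
    rw [← image_inter (toEuclidean : (Euc N × Euc N) ≃L[ℝ] _).injective, compl_inter_self,
      image_empty]
  rw [h1]
  simp

/-- `mu1` in a chart -/
theorem mu1_chart {g : Eu d → Euc N × Euc N} {W : Set (Eu d)}
    (hg : Chart d (US G) g W) {A : Set (Euc N × Euc N)} (hA : MeasurableSet A)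
    (hAg : A ⊆ g '' W) :
    mu1 G d A = ∫⁻ u in g ⁻¹' A ∩ W, ENNReal.ofReal |top d (pull g (oUS n N) u)| := by
  classical
  have hVm : MeasurableSet W := hg.isOpen.measurableSet
  have hA₀m : MeasurableSet (g ⁻¹' A ∩ W) := by
    obtain ⟨u, u_meas, uf⟩ : ∃ u, Measurable u ∧ EqOn u g W := by
      refine ⟨piecewise W g 0, ?_, piecewise_eqOn _ _ _⟩
      exact ContinuousOn.measurable_piecewise hg.contDiffOn.continuousOn
        continuous_zero.continuousOn hVm
    have h1 : g ⁻¹' A ∩ W = u ⁻¹' A ∩ W := by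
      ext x
      constructor
      · rintro ⟨h1, h2⟩; exact ⟨by rw [mem_preimage, uf h2]; exact h1, h2⟩
      · rintro ⟨h1, h2⟩; exact ⟨by rw [mem_preimage, ← uf h2]; exact h1, h2⟩
    rw [h1]
    exact (u_meas hA).inter hVm
  rw [mu1_apply hA (hAg.trans hg.image_subset)]
  have h1 : ∀ u ∈ g ⁻¹' A ∩ W, HasFDerivWithinAt (fun u => (toEuclidean : (Euc N × Euc N) ≃L[ℝ] _) (g u))
      (LE (Euc N × Euc N) ∘L fderiv ℝ g u) (g ⁻¹' A ∩ W) u := fun u hu =>
    ((toEuclidean : (Euc N × Euc N) ≃L[ℝ] _).hasFDerivAt.comp u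
      (hg.differentiableAt hu.2).hasFDerivAt).hasFDerivWithinAt
  have h2 : InjOn (fun u => (toEuclidean : (Euc N × Euc N) ≃L[ℝ] _) (g u)) (g ⁻¹' A ∩ W) :=
    fun u hu v hv huv => hg.injOn hu.2 hv.2 ((toEuclidean : (Euc N × Euc N) ≃L[ℝ] _).injective huv)
  have h3 := AF.lintegral_image_eq hA₀m h1 h2 (fun y =>
    ENNReal.ofReal (dens d (US G) (oUS n N) (oUS n N)
        ((toEuclidean : (Euc N × Euc N) ≃L[ℝ] _).symm y)))
  have hdim : finrank ℝ (Eu d) = d := finrank_euclideanSpace_fin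
  rw [hdim] at h3
  have h4 : (fun u => (toEuclidean : (Euc N × Euc N) ≃L[ℝ] _) (g u)) '' (g ⁻¹' A ∩ W) =
      (toEuclidean : (Euc N × Euc N) ≃L[ℝ] _) '' A := by
    rw [← image_image (toEuclidean : (Euc N × Euc N) ≃L[ℝ] _) g]
    congr 1
    apply Subset.antisymm
    · rintro _ ⟨u, hu, rfl⟩; exact hu.1
    · intro q hq
      obtain ⟨u, hu, rfl⟩ := hAg hq
      exact ⟨u, ⟨hq, hu⟩, rfl⟩
  rw [h4] at h3
  rw [h3]
  refine setLIntegral_congr_fun hA₀m fun u hu => ?_
  rw [← ENNReal.ofReal_mul (jac_nonneg _)]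
  congr 1
  rw [ContinuousLinearEquiv.symm_apply_apply,
    FI.jac_mul_dens (FI.finrank_Tan_chart hg hu.2) (fun w => hg.fderiv_mem hu.2 w)]
  exact FI.mul_sign _

/-- **the contact volume is `(n-1)!` times the Liouville measure** -/
theorem mu1_eq (hn : 1 ≤ n) (hd : d + 1 = 2 * n) (hS : IsSubmanifold n N S) (hc : IsCompact S) :
    mu1 G d = ((n - 1).factorial : ℝ≥0∞) • nu G := by
  classical
  have hX : Clo d (US G) := clo_US (FI.clo_of_isSubmanifold hS hc).sub hc hd
  have hm : MeasurableSet (US G) := (L.isClosed_US G).measurableSet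
  -- local equality
  have hloc : ∀ q ∈ US G, ∃ O : Set (Euc N × Euc N), IsOpen O ∧ q ∈ O ∧
      ∀ A ⊆ US G ∩ O, MeasurableSet A →
        mu1 G d A = ((n - 1).factorial : ℝ≥0∞) * nu G A := by
    intro q hq
    obtain ⟨g, W, hg, hqW⟩ := hX.chart q hq
    obtain ⟨f, V, hf⟩ := hS q.1 hq.1.1
    obtain ⟨O, ℓ, hO, h0O, hℓ, hℓV, -, hℓS⟩ := D.exists_coord hf hf.zero_mem
    rw [hf.map_zero] at h0O
    obtain ⟨U, hU, hUX⟩ := hg.image_open W le_rfl hg.isOpen
    refine ⟨U ∩ {z | z.1 ∈ O}, hU.inter (hO.preimage continuous_fst), ⟨?_, h0O⟩, ?_⟩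
    · rw [hUX] at hqW; exact hqW.2
    · intro A hA hAm
      have hAg : A ⊆ g '' W := by
        rw [hUX]; exact fun z hz => ⟨(hA hz).1, (hA hz).2.1⟩
      rw [mu1_chart hg hAm hAg, nu_chart hn hd hg hf hO hℓ hℓV hℓS hAm hAg
        (fun z hz => (hA hz).2.2)]
  choose! O hO hqO hOA using hloc
  obtain ⟨t, hts, htc, ht⟩ := TopologicalSpace.countable_cover_nhdsWithin (s := US G) (f := O)
    (fun q hq => mem_nhdsWithin_of_mem_nhds ((hO q hq).mem_nhds (hqO q hq)))
  -- restrictions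
  have hres : ∀ q ∈ t, (mu1 G d).restrict (US G ∩ O q) =
      (((n - 1).factorial : ℝ≥0∞) • nu G).restrict (US G ∩ O q) := by
    intro q hq
    have hm2 : MeasurableSet (US G ∩ O q) := hm.inter (hO q (hts hq)).measurableSet
    ext A hA
    rw [Measure.restrict_apply hA, Measure.restrict_apply hA,
      hOA q (hts hq) _ inter_subset_right (hA.inter hm2), Measure.smul_apply, smul_eq_mul]
  have hU := (Measure.restrict_biUnion_congr (μ := mu1 G d)
    (ν := ((n - 1).factorial : ℝ≥0∞) • nu G) htc).2 hres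
  have hcov : (⋃ i ∈ t, US G ∩ O i) = US G := by
    apply Subset.antisymm
    · exact iUnion₂_subset fun _ _ => inter_subset_left
    · intro q hq
      obtain ⟨x, hx, hqx⟩ := mem_iUnion₂.1 (ht hq)
      exact mem_iUnion₂.2 ⟨x, hx, hq, hqx⟩
  rw [hcov] at hU
  have h1 : (mu1 G d).restrict (US G) = mu1 G d :=
    Measure.restrict_eq_self_of_ae_mem (by rw [ae_iff]; exact mu1_compl hc)
  have h2 : (((n - 1).factorial : ℝ≥0∞) • nu G).restrict (US G) =
      ((n - 1).factorial : ℝ≥0∞) • nu G :=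
    Measure.restrict_eq_self_of_ae_mem (by
      rw [ae_iff, Measure.smul_apply]
      have : nu G {a | ¬a ∈ US G} = 0 := L.nu_compl_US G hn
      rw [this, smul_zero])
  rw [h1, h2] at hU
  exact hU

theorem continuousOn_densU (hn : 1 ≤ n) (hd : d + 1 = 2 * n) (hS : IsSubmanifold n N S)
    (hc : IsCompact S) : ContinuousOn (dens d (US G) (oUS n N) (oUS n N)) (US G) :=
  FI.continuousOn_dens (clo_US (FI.clo_of_isSubmanifold hS hc).sub hc hd)
    (ori_US (FI.clo_of_isSubmanifold hS hc).sub hc hn hd) continuous_oUS.continuousOn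

/-- **integration of the contact volume form = integration for the Liouville measure** -/
theorem J_smul (hn : 1 ≤ n) (hd : d + 1 = 2 * n) (hS : IsSubmanifold n N S) (hc : IsCompact S)
    (h : Euc N × Euc N → ℝ) :
    J d (US G) (oUS n N) (fun z => h z • oUS n N z) =
      ((n - 1).factorial : ℝ) * ∫ z, h z ∂(nu G) := by
  have hX : Clo d (US G) := clo_US (FI.clo_of_isSubmanifold hS hc).sub hc hd
  have e1 : ∫ z, h z ∂(mu1 G d) = ((n - 1).factorial : ℝ) * ∫ z, h z ∂(nu G) := by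
    rw [mu1_eq hn hd hS hc, integral_smul_measure, smul_eq_mul, ENNReal.toReal_natCast]
  rw [← e1]
  unfold mu1
  rw [embedding_te.integral_map]
  have hcont : ContinuousOn (fun y => ENNReal.ofReal (dens d (US G) (oUS n N) (oUS n N)
        ((toEuclidean : (Euc N × Euc N) ≃L[ℝ] _).symm y)))
        ((toEuclidean : (Euc N × Euc N) ≃L[ℝ] _) '' US G) := by
    refine ENNReal.continuous_ofReal.comp_continuousOn ?_
    refine (continuousOn_densU hn hd hS hc).comp
      (toEuclidean : (Euc N × Euc N) ≃L[ℝ] _).symm.continuous.continuousOn ?_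
    rintro _ ⟨x, hx, rfl⟩
    rw [ContinuousLinearEquiv.symm_apply_apply]; exact hx
  rw [integral_withDensity_eq_integral_toReal_smul₀ (hcont.aemeasurable hX.measurableSet)
    (ae_of_all _ fun _ => ENNReal.ofReal_lt_top)]
  unfold J
  refine setIntegral_congr_fun hX.measurableSet ?_
  rintro _ ⟨x, hx, rfl⟩
  simp only [ContinuousLinearEquiv.symm_apply_apply]
  have h3 : 0 ≤ dens d (US G) (oUS n N) (oUS n N) x := by
    unfold dens; rw [FI.mul_sign]; exact abs_nonneg _
  rw [ENNReal.toReal_ofReal h3]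
  unfold dens
  rw [map_smul, AlternatingMap.smul_apply, smul_eq_mul, smul_eq_mul]
  ring

/-- **volume of the unit tangent bundle** -/
theorem J_vol (hn : 1 ≤ n) (hd : d + 1 = 2 * n) (hS : IsSubmanifold n N S) (hc : IsCompact S) :
    J d (US G) (oUS n N) (oUS n N) =
      ((n - 1).factorial : ℝ) * ((cst n).toReal * (μHE[n] S).toReal) := by
  have h1 := J_smul (G := G) hn hd hS hc (fun _ => 1)
  have h2 : (fun z => (1 : ℝ) • oUS n N z) = oUS n N := by funext z; rw [one_smul]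
  rw [h2] at h1
  rw [h1, integral_const, smul_eq_mul, mul_one]
  congr 1
  rw [Measure.real, L.nu_univ, ENNReal.toReal_mul]

/-- the form version of the volume bound of `VolLe` -/
theorem vol_le_of_J (hn : 1 ≤ n) (hd : d + 1 = 2 * n) (hS : IsSubmanifold n N S) (hc : IsCompact S)
    {a b : ℕ} (h : J d (US G) (oUS n N) (oUS n N) ≤
      ((n - 1).factorial : ℝ) * ((cst n).toReal ^ 2 * (I.IM a b).toReal)) :
    μHE[n] S ≤ cst n * I.IM a b := by
  rw [J_vol hn hd hS hc] at h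
  have h1 : (0 : ℝ) < ((n - 1).factorial : ℝ) := by positivity
  have h2 := le_of_mul_le_mul_left h h1
  have h3 : 0 < (cst n).toReal := ENNReal.toReal_pos (L.cst_ne_zero hn) (L.cst_ne_top n)
  have h4 : (μHE[n] S).toReal ≤ (cst n * I.IM a b).toReal := by
    rw [ENNReal.toReal_mul]
    refine le_of_mul_le_mul_left ?_ h3
    calc _ ≤ _ := h2
      _ = _ := by ring
  exact (ENNReal.toReal_le_toReal (L.muHE_lt_top hS hc).ne
    (ENNReal.mul_ne_top (L.cst_ne_top n) (I.IM_ne_top a b))).1 h4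

end Crest.Agent.R208.LB
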