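import Mathlib
import Crest.Agent.R208.LB5

-- ▼ part R208/NU1
section

/-!
# R208, NU1 (helper385): the Beta integrals behind the Weinstein numbers
-/

set_option autoImplicit false

open MeasureTheory Set Filter Topology intervalIntegral
open scoped ENNReal Nat

namespace Crest.Agent.R208.NU

/-- `∫_0^1 t^p (1-t)^q = p! q! / (p+q+1)!` -/
theorem beta_nat (p q : ℕ) :
    ∫ t in (0:ℝ)..1, t ^ p * (1 - t) ^ q = (p ! * q ! : ℝ) / (p + q + 1)! := by
  induction q generalizing p with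
  | zero =>
    simp only [pow_zero, mul_one, integral_pow, one_pow, Nat.factorial_zero, Nat.cast_one,
      add_zero, zero_pow (Nat.succ_ne_zero p), sub_zero]
    rw [Nat.factorial_succ]
    push_cast
    have : (p ! : ℝ) ≠ 0 := by positivity
    field_simp
  | succ q ih =>
    have hu : ∀ x ∈ uIcc (0:ℝ) 1, HasDerivAt (fun t : ℝ => (1 - t) ^ (q + 1))
        (-((q + 1 : ℝ) * (1 - x) ^ q)) x := by
      intro x _
      have h1 : HasDerivAt (fun t : ℝ => 1 - t) (-1) x := by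
        simpa using (hasDerivAt_id x).const_sub 1
      refine (h1.fun_pow (q + 1)).congr_deriv ?_
      push_cast
      ring
    have hv : ∀ x ∈ uIcc (0:ℝ) 1, HasDerivAt (fun t : ℝ => t ^ (p + 1) / (p + 1 : ℝ)) (x ^ p) x := by
      intro x _
      refine ((hasDerivAt_pow (p + 1) x).div_const (p + 1 : ℝ)).congr_deriv ?_
      have : (p + 1 : ℝ) ≠ 0 := by positivity
      push_cast
      field_simp
    have key := intervalIntegral.integral_mul_deriv_eq_deriv_mul hu hv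
      (by apply Continuous.intervalIntegrable; fun_prop)
      (by apply Continuous.intervalIntegrable; fun_prop)
    have e1 : ∫ t in (0:ℝ)..1, t ^ p * (1 - t) ^ (q + 1) = ∫ t in (0:ℝ)..1, (1 - t) ^ (q + 1) * t ^ p := by
      congr 1; ext t; ring
    rw [e1, key]
    simp only [sub_self, ne_eq, Nat.add_eq_zero_iff, one_ne_zero, and_false, not_false_eq_true,
      zero_pow, one_pow, zero_mul, sub_zero, zero_div, mul_zero, zero_sub]
    have e2 : ∫ x in (0:ℝ)..1, -((q + 1 : ℝ) * (1 - x) ^ q) * (x ^ (p + 1) / (p + 1 : ℝ))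
        = -((q + 1 : ℝ) / (p + 1 : ℝ)) * ∫ t in (0:ℝ)..1, t ^ (p + 1) * (1 - t) ^ q := by
      rw [← intervalIntegral.integral_const_mul]
      congr 1; ext t; ring
    rw [e2, ih (p + 1)]
    rw [show p + 1 + q + 1 = p + (q + 1) + 1 by ring, Nat.factorial_succ q, Nat.factorial_succ p]
    push_cast
    have : (p + 1 : ℝ) ≠ 0 := by positivity
    field_simp

/-- the model integral as a real integral, `k = 2a`, `n = 2b`. -/
theorem trig_beta (a b : ℕ) (ha : 1 ≤ a) (hab : a ≤ b) :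
    ∫ u in (0:ℝ)..Real.pi, Real.sin u ^ (2 * a - 1) * (2 * Real.sin (u / 2)) ^ (2 * b - 2 * a)
      = 2 ^ (2 * b - 1) * (((b - 1)! * (a - 1)! : ℝ) / (a + b - 1)!) := by
  obtain ⟨p, rfl⟩ : ∃ p, a = p + 1 := ⟨a - 1, by omega⟩
  obtain ⟨r, rfl⟩ : ∃ r, b = p + 1 + r := ⟨b - (p + 1), by omega⟩
  have e1 : 2 * (p + 1) - 1 = 2 * p + 1 := by omega
  have e2 : 2 * (p + 1 + r) - 2 * (p + 1) = 2 * r := by omega
  have e3 : 2 * (p + 1 + r) - 1 = 2 * (p + r) + 1 := by omega
  have e4 : p + 1 + r - 1 = p + r := by omega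
  have e5 : p + 1 + (p + 1 + r) - 1 = p + r + p + 1 := by omega
  rw [e1, e2, e3, e4, e5, Nat.add_sub_cancel, ← beta_nat (p + r) p]
  have hf : ∀ x ∈ uIcc (0:ℝ) Real.pi, HasDerivAt (fun u : ℝ => Real.sin (u / 2) ^ 2)
      (Real.sin x / 2) x := by
    intro x _
    have h1 : HasDerivAt (fun u : ℝ => u / 2) (1 / 2) x := (hasDerivAt_id x).div_const 2
    refine ((h1.sin).fun_pow 2).congr_deriv ?_
    have : Real.sin x = 2 * Real.sin (x / 2) * Real.cos (x / 2) := by
      rw [← Real.sin_two_mul]; congr 1; ring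
    rw [this]
    push_cast
    ring
  have key := intervalIntegral.integral_comp_mul_deriv' (g := fun t : ℝ =>
    2 ^ (2 * (p + r) + 1) * (t ^ (p + r) * (1 - t) ^ p)) hf
    (by fun_prop) (by fun_prop)
  simp only [zero_div, Real.sin_zero, Real.sin_pi_div_two, one_pow] at key
  rw [show ((0:ℝ) ^ 2) = 0 by norm_num, intervalIntegral.integral_const_mul] at key
  rw [← key]
  apply intervalIntegral.integral_congr
  intro u _
  simp only [Function.comp]
  have hs : Real.sin u = 2 * Real.sin (u / 2) * Real.cos (u / 2) := by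
    rw [← Real.sin_two_mul]; congr 1; ring
  have hc : 1 - Real.sin (u / 2) ^ 2 = Real.cos (u / 2) ^ 2 := by
    rw [← Real.sin_sq_add_cos_sq (u / 2)]; ring
  rw [hc]
  have h3 : Real.sin u ^ (2 * p + 1) = Real.sin u * (Real.sin u ^ 2) ^ p := by
    rw [pow_succ, pow_mul]; ring
  rw [h3, hs]
  rw [pow_mul (2 * Real.sin (u / 2)) 2 r]
  simp only [mul_pow, pow_add, pow_mul, pow_one]
  ring

end Crest.Agent.R208.NU
end

-- ▼ part R208/NU1b
section

/-!
# R208, NU1b (helper385): the model volume number in closed form (even degrees)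
-/

set_option autoImplicit false

open MeasureTheory Measure Set Filter Topology Module
open scoped ENNReal Nat
open Crest.GeometryTopology.Submanifold
open Crest.Agent.R241.DDefs
open Crest.Agent.R208.L (US cst)
open Crest.Agent.R208.LB (oUS)
open Crest.Agent.R208.FI (J)

namespace Crest.Agent.R208.NU

/-- area of the unit sphere in `ℝ^(2b)`: `2 π^b / (b-1)!`. -/
theorem cst_even (b : ℕ) (hb : 1 ≤ b) :
    (cst (2 * b)).toReal = 2 * Real.pi ^ b / (b - 1)! := by
  have hne : Nontrivial (Euc (2 * b)) := L.nontrivial_Euc (by omega)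
  have hfin : finrank ℝ (Euc (2 * b)) = 2 * b := finrank_euclideanSpace_fin
  have hne' : Nonempty (Fin (2 * b)) := ⟨⟨0, by omega⟩⟩
  unfold cst
  rw [Measure.toSphere_apply_univ, hfin, EuclideanSpace.volume_ball, ENNReal.toReal_mul,
    ENNReal.toReal_mul, ENNReal.toReal_pow, ENNReal.toReal_natCast, Fintype.card_fin]
  have h1 : Real.Gamma (((2 * b : ℕ) : ℝ) / 2 + 1) = b ! := by
    rw [show (((2 * b : ℕ) : ℝ) / 2 + 1) = (b : ℝ) + 1 by push_cast; ring]
    exact Real.Gamma_nat_eq_factorial b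
  rw [h1, ENNReal.ofReal_one, ENNReal.toReal_one, one_pow, one_mul, ENNReal.toReal_ofReal (by positivity),
    pow_mul, Real.sq_sqrt Real.pi_pos.le]
  obtain ⟨c, rfl⟩ : ∃ c, b = c + 1 := ⟨b - 1, by omega⟩
  rw [Nat.add_sub_cancel, Nat.factorial_succ]
  have : (c ! : ℝ) ≠ 0 := by positivity
  have h2 : ((c : ℝ) + 1) ≠ 0 := by positivity
  push_cast
  field_simp

/-- the model integral is a real integral. -/
theorem IM_toReal (p q : ℕ) :
    (I.IM p q).toReal = ∫ u in (0:ℝ)..Real.pi, Real.sin u ^ p * (2 * Real.sin (u / 2)) ^ q := by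
  unfold I.IM
  rw [intervalIntegral.integral_of_le Real.pi_pos.le, integral_Ioc_eq_integral_Ioo,
    integral_eq_lintegral_of_nonneg_ae]
  · filter_upwards [ae_restrict_mem measurableSet_Ioo] with u hu
    exact mul_nonneg (pow_nonneg (I.sin_pos' hu).le _) (pow_nonneg (I.sin_half_pos hu).le _)
  · exact (Continuous.aestronglyMeasurable (by fun_prop))

/-- the model value of the Weinstein integer: `i0 a b = (2b-1)! (a-1)! / ((b-1)! (a+b-1)!)`,
`k = 2a`, `n = 2b`. -/
noncomputable def i0 (a b : ℕ) : ℝ := ((2 * b - 1)! * (a - 1)! : ℝ) / ((b - 1)! * (a + b - 1)!)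


theorem model (a b : ℕ) (ha : 1 ≤ a) (hab : a ≤ b) :
    ((2 * b - 1)! : ℝ) * ((cst (2 * b)).toReal ^ 2 * (I.IM (2 * a - 1) (2 * b - 2 * a)).toReal)
      = (2 * Real.pi) ^ (2 * b) * (2 * i0 a b) := by
  rw [cst_even b (by omega), IM_toReal, trig_beta a b ha hab, i0]
  have h1 : (2 * Real.pi) ^ (2 * b) = 2 ^ (2 * b) * (Real.pi ^ b) ^ 2 := by
    rw [mul_pow, ← pow_mul, mul_comm b 2]
  have h2 : (2:ℝ) ^ (2 * b) = 2 * 2 ^ (2 * b - 1) := by
    rw [← pow_succ']; congr 1; omega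
  rw [h1, h2]
  have h3 : ((b - 1)! : ℝ) ≠ 0 := by positivity
  have h4 : ((a + b - 1)! : ℝ) ≠ 0 := by positivity
  field_simp

variable {n N d : ℕ} {κ : ℝ} {S : Set (Euc N)} {G : Geo n N κ S}

/-- the volume bound of `VolLe` from a bound of the integral of the contact volume form. -/
theorem volLe_of_J (a b : ℕ) (ha : 1 ≤ a) (hab : a ≤ b) (hnb : n = 2 * b) (hd : d + 1 = 2 * n)
    (hS : IsSubmanifold n N S) (hc : IsCompact S)
    (h : J d (US G) (oUS n N) (oUS n N) ≤ (2 * Real.pi) ^ n * (2 * i0 a b)) :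
    μHE[n] S ≤ cst n * I.IM (2 * a - 1) (n - 2 * a) := by
  subst hnb
  refine LB.vol_le_of_J (G := G) (by omega) hd hS hc ?_
  have hm := model a b ha hab
  rw [hm]
  exact h

/-! ### values -/

/-- projective spaces over ℂ (`k = 2`). -/
theorem i0_one (m : ℕ) (hm : 1 ≤ m) : i0 1 m = ((2 * m - 1).choose m : ℝ) := by
  obtain ⟨c, rfl⟩ : ∃ c, m = c + 1 := ⟨m - 1, by omega⟩
  rw [show 2 * (c + 1) - 1 = 2 * c + 1 by omega, Nat.cast_choose ℝ (by omega : c + 1 ≤ 2 * c + 1)]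
  unfold i0
  rw [show 2 * (c + 1) - 1 = 2 * c + 1 by omega, show c + 1 - 1 = c by omega,
    show 1 + (c + 1) - 1 = c + 1 by omega, show 2 * c + 1 - (c + 1) = c by omega]
  simp only [Nat.sub_self, Nat.factorial_zero, Nat.cast_one, mul_one]
  rw [mul_comm (c ! : ℝ)]

/-- projective spaces over ℍ (`k = 4`, `n = 4 m`, `b = 2 m`). -/
theorem i0_two (m : ℕ) (hm : 1 ≤ m) :
    i0 2 (2 * m) = ((4 * m - 1).choose (2 * m - 1) : ℝ) / (2 * m + 1) := by
  obtain ⟨c, rfl⟩ : ∃ c, m = c + 1 := ⟨m - 1, by omega⟩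
  rw [show 4 * (c + 1) - 1 = 4 * c + 3 by omega, show 2 * (c + 1) - 1 = 2 * c + 1 by omega,
    Nat.cast_choose ℝ (by omega : 2 * c + 1 ≤ 4 * c + 3)]
  unfold i0
  rw [show 2 * (2 * (c + 1)) - 1 = 4 * c + 3 by omega, show 2 * (c + 1) - 1 = 2 * c + 1 by omega,
    show 2 + 2 * (c + 1) - 1 = (2 * c + 2) + 1 by omega,
    show 4 * c + 3 - (2 * c + 1) = 2 * c + 2 by omega, Nat.factorial_succ (2 * c + 2)]
  simp only [Nat.factorial_one, Nat.cast_one, mul_one, show 2 - 1 = 1 by norm_num]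
  have h3 : ((2 * c + 1)! : ℝ) ≠ 0 := by positivity
  have h4 : ((2 * c + 2)! : ℝ) ≠ 0 := by positivity
  have h5 : (2 * (c : ℝ) + 2 + 1) ≠ 0 := by positivity
  have h6 : (2 * ((c : ℝ) + 1) + 1) ≠ 0 := by positivity
  push_cast
  field_simp

/-- the Cayley plane (`k = 8`, `m = 2`). -/
theorem i0_cayley : i0 4 8 = 39 := by
  unfold i0
  norm_num [Nat.factorial]

end Crest.Agent.R208.NU
end

-- ▼ part R208/NU2
section

/-!
# R208, NU2 (helper385): the endgame algebra of the topological half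

`z² = l z (A+B) - (A-B)²`, `A^(m+1) = B^(m+1) = 0`, `I` a linear functional antisymmetric under
`A ↔ B`.  Then `I ((A-B) z^(2m-1)) = 2 c_m(l) I (z A^m B^(m-1))`.
-/

set_option autoImplicit false

open Polynomial Finset

noncomputable section

namespace Crest.Agent.R208.NU

/-- dehomogenised `U_N`: `u_0 = 1`, `u_1 = l(1+X)`, `u_{N+2} = l(1+X)u_{N+1} - (1-X)²u_N`. -/
def up (l : ℝ) : ℕ → ℝ[X]
  | 0 => 1
  | 1 => C l * (1 + X)
  | (N + 2) => C l * (1 + X) * up l (N + 1) - (1 - X) ^ 2 * up l N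

/-- the coefficient `c_m(l)` -/
def cm (l : ℝ) (m : ℕ) : ℝ := (up l (2 * m - 2)).coeff (m - 1) - (up l (2 * m - 2)).coeff m

lemma natDegree_up (l : ℝ) : ∀ N, (up l N).natDegree ≤ N := by
  intro N
  induction N using Nat.strong_induction_on with
  | _ N ih =>
    match N with
    | 0 => simp [up]
    | 1 =>
      rw [up]
      compute_degree
    | (N + 2) =>
      rw [up]
      have h1 := ih (N + 1) (by omega)
      have h2 := ih N (by omega)
      refine (natDegree_sub_le _ _).trans (max_le ?_ ?_)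
      · refine natDegree_mul_le.trans ?_
        have : (C l * (1 + X) : ℝ[X]).natDegree ≤ 1 := by compute_degree
        omega
      · refine natDegree_mul_le.trans ?_
        have : ((1 - X) ^ 2 : ℝ[X]).natDegree ≤ 2 := by compute_degree
        omega

section hom

variable {H : Type*} [CommRing H] [Algebra ℝ H] (A B : H)

/-- homogenisation in degree `N` -/
def hm (N : ℕ) (p : ℝ[X]) : H := ∑ j ∈ range (N + 1), p.coeff j • (A ^ (N - j) * B ^ j)

lemma hm_add (N : ℕ) (p q : ℝ[X]) : hm A B N (p + q) = hm A B N p + hm A B N q := by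
  simp only [hm, coeff_add, add_smul, sum_add_distrib]

lemma hm_sub (N : ℕ) (p q : ℝ[X]) : hm A B N (p - q) = hm A B N p - hm A B N q := by
  simp only [hm, coeff_sub, sub_smul, sum_sub_distrib]

lemma hm_C_mul (N : ℕ) (a : ℝ) (p : ℝ[X]) : hm A B N (C a * p) = a • hm A B N p := by
  simp only [hm, coeff_C_mul, smul_sum, smul_smul]

lemma hm_one_zero : hm A B 0 1 = 1 := by simp [hm]

/-- multiplying by `X` is multiplying by `B`. -/
lemma hm_X_mul (N : ℕ) (p : ℝ[X]) : hm A B (N + 1) (X * p) = B * hm A B N p := by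
  unfold hm
  rw [sum_range_succ']
  simp only [coeff_X_mul, coeff_X_mul_zero, zero_smul, add_zero, mul_sum]
  refine sum_congr rfl fun j _ => ?_
  rw [Nat.add_sub_add_right, mul_smul_comm]
  congr 1
  ring

/-- same polynomial in one degree more is multiplying by `A`. -/
lemma hm_succ (N : ℕ) (p : ℝ[X]) (hp : p.natDegree ≤ N) : hm A B (N + 1) p = A * hm A B N p := by
  unfold hm
  rw [sum_range_succ, coeff_eq_zero_of_natDegree_lt (by omega : p.natDegree < N + 1), zero_smul,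
    add_zero, mul_sum]
  refine sum_congr rfl fun j hj => ?_
  rw [mem_range] at hj
  rw [show N + 1 - j = (N - j) + 1 by omega, mul_smul_comm]
  congr 1
  ring

lemma hm_one_add (N : ℕ) (p : ℝ[X]) (hp : p.natDegree ≤ N) :
    hm A B (N + 1) ((1 + X) * p) = (A + B) * hm A B N p := by
  rw [add_mul, one_mul, hm_add, hm_succ A B N p hp, hm_X_mul]; ring

lemma hm_one_sub (N : ℕ) (p : ℝ[X]) (hp : p.natDegree ≤ N) :
    hm A B (N + 1) ((1 - X) * p) = (A - B) * hm A B N p := by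
  rw [sub_mul, one_mul, hm_sub, hm_succ A B N p hp, hm_X_mul]; ring

lemma hm_one_sub_sq (N : ℕ) (p : ℝ[X]) (hp : p.natDegree ≤ N) :
    hm A B (N + 2) ((1 - X) ^ 2 * p) = (A - B) ^ 2 * hm A B N p := by
  rw [pow_two, mul_assoc, hm_one_sub A B (N + 1), hm_one_sub A B N p hp]
  · ring
  · refine natDegree_mul_le.trans ?_
    have : ((1 - X) : ℝ[X]).natDegree ≤ 1 := by compute_degree
    omega

/-- `(A-B)^N` is the homogenisation of `(1-X)^N`. -/
lemma hm_pow (N : ℕ) : hm A B N ((1 - X) ^ N) = (A - B) ^ N := by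
  induction N with
  | zero => simp [hm]
  | succ N ih =>
    rw [pow_succ', hm_one_sub A B N _ ?_, ih, pow_succ']
    refine natDegree_pow_le.trans ?_
    have : ((1 - X) : ℝ[X]).natDegree ≤ 1 := by compute_degree
    nlinarith

/-- `z^(N+2) = U_{N+1} z - (A-B)² U_N`. -/
lemma z_pow (l : ℝ) (z : H) (hz : z ^ 2 = l • (z * (A + B)) - (A - B) ^ 2) (N : ℕ) :
    z ^ (N + 2) = hm A B (N + 1) (up l (N + 1)) * z - (A - B) ^ 2 * hm A B N (up l N) := by
  induction N with
  | zero =>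
    rw [up, up, hm_C_mul, show (1 + X : ℝ[X]) = (1 + X) * 1 by ring, hm_one_add A B 0 1 (by simp),
      hm_one_zero, Nat.zero_add, hz]
    simp only [mul_one, smul_mul_assoc, sub_left_inj]
    congr 1; ring
  | succ N ih =>
    have h1 : hm A B (N + 1 + 1) (up l (N + 1 + 1))
        = l • ((A + B) * hm A B (N + 1) (up l (N + 1))) - (A - B) ^ 2 * hm A B N (up l N) := by
      rw [up, hm_sub, mul_assoc, hm_C_mul, hm_one_add A B (N + 1) _ (natDegree_up l _),
        hm_one_sub_sq A B N _ (natDegree_up l _)]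
    calc z ^ (N + 1 + 2) = z ^ (N + 2) * z := by ring
      _ = hm A B (N + 1) (up l (N + 1)) * z ^ 2 - (A - B) ^ 2 * hm A B N (up l N) * z := by
        rw [ih]; ring
      _ = _ := by
        rw [hz, h1]
        simp only [Algebra.smul_def]
        ring

end hom

/-! ### symmetry of the coefficients -/

lemma reflect_one_add : reflect 1 (1 + X : ℝ[X]) = 1 + X := by
  ext i
  rw [coeff_reflect]
  rcases i with _ | _ | i
  · simp [revAt_le, coeff_one]
  · simp [revAt_le, coeff_one]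
  · rw [revAt_eq_self_of_lt (by omega)]

lemma reflect_one_sub_sq : reflect 2 ((1 - X) ^ 2 : ℝ[X]) = (1 - X) ^ 2 := by
  have h : ((1 - X) ^ 2 : ℝ[X]) = C 1 * X ^ 0 - C 2 * X ^ 1 + C 1 * X ^ 2 := by
    simp only [map_one, C_ofNat]; ring
  rw [h, reflect_add, reflect_sub, reflect_C_mul_X_pow, reflect_C_mul_X_pow, reflect_C_mul_X_pow]
  simp [revAt_le]
  ring

lemma reflect_up (l : ℝ) (N : ℕ) : reflect N (up l N) = up l N := by
  induction N using Nat.strong_induction_on with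
  | _ N ih =>
    match N with
    | 0 => simp [up]
    | 1 => rw [up, reflect_C_mul, reflect_one_add]
    | (N + 2) =>
      have h1 := ih (N + 1) (by omega)
      have h2 := ih N (by omega)
      rw [up, reflect_sub, mul_assoc, reflect_C_mul]
      have d1 : (1 + X : ℝ[X]).natDegree ≤ 1 := by compute_degree
      have d2 : ((1 - X) ^ 2 : ℝ[X]).natDegree ≤ 2 := by compute_degree
      have e1 := reflect_mul (1 + X : ℝ[X]) (up l (N + 1)) d1 (natDegree_up l (N + 1))
      have e2 := reflect_mul ((1 - X) ^ 2 : ℝ[X]) (up l N) d2 (natDegree_up l N)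
      rw [show N + 2 = 1 + (N + 1) by ring, e1, h1, show 1 + (N + 1) = 2 + N by ring, e2, h2,
        reflect_one_add, reflect_one_sub_sq]

lemma coeff_up_symm (l : ℝ) {N j : ℕ} (hj : j ≤ N) : (up l N).coeff (N - j) = (up l N).coeff j := by
  conv_rhs => rw [← reflect_up l N]
  rw [coeff_reflect, revAt_le hj]

section main

variable {H : Type*} [CommRing H] [Algebra ℝ H] (A B : H)

/-- the homogenisation in degree `2m-1` with `A^(m+1) = B^(m+1) = 0`. -/
lemma hm_trunc_odd (m : ℕ) (hm1 : 1 ≤ m) (hA : A ^ (m + 1) = 0) (hB : B ^ (m + 1) = 0) (p : ℝ[X]) :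
    hm A B (2 * m - 1) p = p.coeff (m - 1) • (A ^ m * B ^ (m - 1)) +
      p.coeff m • (A ^ (m - 1) * B ^ m) := by
  unfold hm
  have hsub : ({m - 1, m} : Finset ℕ) ⊆ range (2 * m - 1 + 1) := by
    intro x hx
    simp only [mem_insert, mem_singleton] at hx
    rw [mem_range]; omega
  rw [← sum_subset hsub, sum_pair (by omega)]
  · rw [show 2 * m - 1 - (m - 1) = m by omega, show 2 * m - 1 - m = m - 1 by omega]
  · intro x hx hx'
    simp only [mem_insert, mem_singleton, not_or] at hx'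
    rw [mem_range] at hx
    rcases lt_or_ge x (m - 1) with h | h
    · obtain ⟨c, hc⟩ : ∃ c, 2 * m - 1 - x = m + 1 + c := ⟨2 * m - 1 - x - (m + 1), by omega⟩
      rw [hc, pow_add, hA, zero_mul, zero_mul, smul_zero]
    · obtain ⟨c, hc⟩ : ∃ c, x = m + 1 + c := ⟨x - (m + 1), by omega⟩
      rw [hc, pow_add B, hB, zero_mul, mul_zero, smul_zero]

/-- the homogenisation in degree `2m` with `A^(m+1) = B^(m+1) = 0`. -/
lemma hm_trunc_even (m : ℕ) (hA : A ^ (m + 1) = 0) (hB : B ^ (m + 1) = 0) (p : ℝ[X]) :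
    hm A B (2 * m) p = p.coeff m • (A ^ m * B ^ m) := by
  unfold hm
  have hsub : ({m} : Finset ℕ) ⊆ range (2 * m + 1) := by
    intro x hx
    simp only [mem_singleton] at hx
    rw [mem_range]; omega
  rw [← sum_subset hsub, sum_singleton]
  · rw [show 2 * m - m = m by omega]
  · intro x hx hx'
    simp only [mem_singleton] at hx'
    rw [mem_range] at hx
    rcases lt_or_ge x m with h | h
    · obtain ⟨c, hc⟩ : ∃ c, 2 * m - x = m + 1 + c := ⟨2 * m - x - (m + 1), by omega⟩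
      rw [hc, pow_add, hA, zero_mul, zero_mul, smul_zero]
    · obtain ⟨c, hc⟩ : ∃ c, x = m + 1 + c := ⟨x - (m + 1), by omega⟩
      rw [hc, pow_add B, hB, zero_mul, mul_zero, smul_zero]

/-- `(A-B) z^(2m-1) = c_m (z A^m B^(m-1) - z A^(m-1) B^m)`. -/
theorem sub_mul_z_pow (l : ℝ) (m : ℕ) (hm1 : 1 ≤ m) (z : H) (hA : A ^ (m + 1) = 0)
    (hB : B ^ (m + 1) = 0) (hz : z ^ 2 = l • (z * (A + B)) - (A - B) ^ 2) :
    (A - B) * z ^ (2 * m - 1) = cm l m • (z * (A ^ m * B ^ (m - 1)) - z * (A ^ (m - 1) * B ^ m)) := by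
  obtain ⟨c, rfl⟩ : ∃ c, m = c + 1 := ⟨m - 1, by omega⟩
  rcases Nat.eq_zero_or_pos c with rfl | hc
  · simp [cm, up, coeff_one]
    ring
  obtain ⟨q, rfl⟩ : ∃ q, c = q + 1 := ⟨c - 1, by omega⟩
  rw [show 2 * (q + 1 + 1) - 1 = (2 * q + 1) + 2 by omega, z_pow A B l z hz]
  have h1 : (A - B) * hm A B (2 * q + 1 + 1) (up l (2 * q + 1 + 1))
      = hm A B (2 * (q + 1 + 1) - 1) ((1 - X) * up l (2 * q + 1 + 1)) := by
    rw [show 2 * (q + 1 + 1) - 1 = (2 * q + 1 + 1) + 1 by omega,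
      hm_one_sub A B _ _ (natDegree_up l _)]
  have h2 : (A - B) * ((A - B) ^ 2 * hm A B (2 * q + 1) (up l (2 * q + 1)))
      = hm A B (2 * (q + 1 + 1)) ((1 - X) * ((1 - X) ^ 2 * up l (2 * q + 1))) := by
    rw [show 2 * (q + 1 + 1) = (2 * q + 1 + 2) + 1 by omega,
      hm_one_sub A B _ _ ?_, hm_one_sub_sq A B _ _ (natDegree_up l _)]
    refine natDegree_mul_le.trans ?_
    have d2 : ((1 - X) ^ 2 : ℝ[X]).natDegree ≤ 2 := by compute_degree
    have := natDegree_up l (2 * q + 1)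
    omega
  have e1 : ((1 - X) * ((1 - X) ^ 2 * up l (2 * q + 1)) : ℝ[X]).coeff (q + 1 + 1) = 0 := by
    have h3 : reflect (3 + (2 * q + 1)) ((1 - X) * ((1 - X) ^ 2 * up l (2 * q + 1)) : ℝ[X])
        = - ((1 - X) * ((1 - X) ^ 2 * up l (2 * q + 1)) : ℝ[X]) := by
      have d3 : ((1 - X) ^ 3 : ℝ[X]).natDegree ≤ 3 := by compute_degree
      have e2 := reflect_mul ((1 - X) ^ 3 : ℝ[X]) (up l (2 * q + 1)) d3 (natDegree_up l _)
      have e3 : reflect 3 ((1 - X) ^ 3 : ℝ[X]) = - (1 - X) ^ 3 := by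
        have h : ((1 - X) ^ 3 : ℝ[X]) = C 1 * X ^ 0 - C 3 * X ^ 1 + C 3 * X ^ 2 - C 1 * X ^ 3 := by
          simp only [map_one, C_ofNat]; ring
        rw [h, reflect_sub, reflect_add, reflect_sub, reflect_C_mul_X_pow, reflect_C_mul_X_pow,
          reflect_C_mul_X_pow, reflect_C_mul_X_pow]
        simp [revAt_le]
        ring
      rw [show ((1 - X) * ((1 - X) ^ 2 * up l (2 * q + 1)) : ℝ[X]) = (1 - X) ^ 3 * up l (2 * q + 1)
        by ring, e2, e3, reflect_up]
      ring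
    have h4 := congrArg (fun p : ℝ[X] => p.coeff (q + 1 + 1)) h3
    simp only [coeff_reflect, coeff_neg] at h4
    rw [revAt_le (by omega), show 3 + (2 * q + 1) - (q + 1 + 1) = q + 1 + 1 by omega] at h4
    linarith
  have e2 : ((1 - X) * up l (2 * q + 1 + 1) : ℝ[X]).coeff (q + 1 + 1) = - cm l (q + 1 + 1) := by
    rw [sub_mul, one_mul, coeff_sub, coeff_X_mul, cm]
    rw [show 2 * (q + 1 + 1) - 2 = 2 * q + 1 + 1 by omega, show q + 1 + 1 - 1 = q + 1 by omega]
    ring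
  have e3 : ((1 - X) * up l (2 * q + 1 + 1) : ℝ[X]).coeff (q + 1) = cm l (q + 1 + 1) := by
    rw [sub_mul, one_mul, coeff_sub, coeff_X_mul, cm]
    rw [show 2 * (q + 1 + 1) - 2 = 2 * q + 1 + 1 by omega, show q + 1 + 1 - 1 = q + 1 by omega]
    rw [← coeff_up_symm l (show q + 1 + 1 ≤ 2 * q + 1 + 1 by omega)]
    rw [show 2 * q + 1 + 1 - (q + 1 + 1) = q by omega]
  calc (A - B) * (hm A B (2 * q + 1 + 1) (up l (2 * q + 1 + 1)) * z
          - (A - B) ^ 2 * hm A B (2 * q + 1) (up l (2 * q + 1)))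
      = ((A - B) * hm A B (2 * q + 1 + 1) (up l (2 * q + 1 + 1))) * z
        - (A - B) * ((A - B) ^ 2 * hm A B (2 * q + 1) (up l (2 * q + 1))) := by ring
    _ = _ := by
      rw [h1, h2, hm_trunc_even A B _ hA hB, hm_trunc_odd A B _ hm1 hA hB, e1, e2,
        show q + 1 + 1 - 1 = q + 1 by omega, e3]
      simp only [Algebra.smul_def, map_neg, map_zero]
      ring

/-- `(A-B)^(2m-1) z = (-1)^(m-1) binom(2m-1,m) (z A^m B^(m-1) - z A^(m-1) B^m)`. -/
theorem sub_pow_mul_z (m : ℕ) (hm1 : 1 ≤ m) (z : H) (hA : A ^ (m + 1) = 0)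
    (hB : B ^ (m + 1) = 0) :
    (A - B) ^ (2 * m - 1) * z = ((-1 : ℝ) ^ (m - 1) * ((2 * m - 1).choose m : ℝ)) •
      (z * (A ^ m * B ^ (m - 1)) - z * (A ^ (m - 1) * B ^ m)) := by
  obtain ⟨c, rfl⟩ : ∃ c, m = c + 1 := ⟨m - 1, by omega⟩
  have hcoef : ∀ j, ((1 - X) ^ (2 * (c + 1) - 1) : ℝ[X]).coeff j
      = (-1) ^ j * ((2 * (c + 1) - 1).choose j : ℝ) := by
    intro j
    have h : ((1 - X) ^ (2 * (c + 1) - 1) : ℝ[X]) = (1 + C (-1) * X) ^ (2 * (c + 1) - 1) := by
      simp [sub_eq_add_neg]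
    rw [h, add_comm, add_pow, finsetSum_coeff]
    simp only [one_pow, mul_one, mul_pow, ← C_pow]
    rw [Finset.sum_eq_single j]
    · rw [mul_comm, ← C_eq_natCast, coeff_C_mul, coeff_C_mul_X_pow, if_pos rfl, mul_comm]
    · intro b _ hb
      rw [mul_comm, ← C_eq_natCast, coeff_C_mul, coeff_C_mul_X_pow, if_neg (Ne.symm hb), mul_zero]
    · intro hj
      rw [mem_range, not_lt] at hj
      rw [Nat.choose_eq_zero_of_lt (by omega)]
      simp
  rw [← hm_pow, hm_trunc_odd A B _ hm1 hA hB, hcoef, hcoef, show c + 1 - 1 = c by omega,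
    show 2 * (c + 1) - 1 = 2 * c + 1 by omega]
  have hs : (2 * c + 1).choose c = (2 * c + 1).choose (c + 1) := by
    rw [← Nat.choose_symm (by omega : c ≤ 2 * c + 1)]
    congr 1; omega
  rw [hs, show ((-1 : ℝ)) ^ (c + 1) = -(-1) ^ c by ring, neg_mul, neg_smul]
  simp only [Algebra.smul_def]
  ring

end main

end Crest.Agent.R208.NU
end
private theorem rz_b180c8dde5 : type_of% @_root_.Crest.Agent.R208.NU.up.eq_def := @_root_.Crest.Agent.R208.NU.up.eq_def -- L19
private theorem rz_bf94203a24 : type_of% @_root_.Crest.Agent.R208.NU.up.eq_1 := @_root_.Crest.Agent.R208.NU.up.eq_1 -- L19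
end

-- ▼ part R208/NU3
section

/-!
# R208, NU3 (helper385): closed forms of `cm` and the endgame identity
-/

set_option autoImplicit false

open Polynomial Finset
open scoped Nat

noncomputable section

namespace Crest.Agent.R208.NU

lemma coeff_one_sub_X_pow (n j : ℕ) : ((1 - X) ^ n : ℝ[X]).coeff j = (-1) ^ j * (n.choose j : ℝ) := by
  have h : ((1 - X) ^ n : ℝ[X]) = (1 + C (-1) * X) ^ n := by
    simp [sub_eq_add_neg]
  rw [h, add_comm, add_pow, finsetSum_coeff]
  simp only [one_pow, mul_one, mul_pow, ← C_pow]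
  rw [Finset.sum_eq_single j]
  · rw [mul_comm, ← C_eq_natCast, coeff_C_mul, coeff_C_mul_X_pow, if_pos rfl, mul_comm]
  · intro b _ hb
    rw [mul_comm, ← C_eq_natCast, coeff_C_mul, coeff_C_mul_X_pow, if_neg (Ne.symm hb), mul_zero]
  · intro hj
    rw [mem_range, not_lt] at hj
    rw [Nat.choose_eq_zero_of_lt (by omega)]
    simp





lemma up_two_expand (N : ℕ) :
    4 * X * expand ℝ 2 (up 2 N) = (1 + X) ^ (2 * N + 2) - (1 - X) ^ (2 * N + 2) := by
  induction N using Nat.strong_induction_on with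
  | _ N ih =>
    match N with
    | 0 => simp [up]; ring
    | 1 =>
      simp only [up, map_mul, map_add, map_one, expand_X, C_ofNat, map_ofNat]
      ring
    | (N + 2) =>
      have h1 := ih (N + 1) (by omega)
      have h2 := ih N (by omega)
      have h3 : expand ℝ 2 (up 2 (N + 2)) = 2 * (1 + X ^ 2) * expand ℝ 2 (up 2 (N + 1))
          - (1 - X ^ 2) ^ 2 * expand ℝ 2 (up 2 N) := by
        simp only [up, map_sub, map_mul, map_add, map_one, map_pow, expand_X, C_ofNat, map_ofNat]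
      rw [h3]
      calc 4 * X * (2 * (1 + X ^ 2) * expand ℝ 2 (up 2 (N + 1))
            - (1 - X ^ 2) ^ 2 * expand ℝ 2 (up 2 N))
          = 2 * (1 + X ^ 2) * (4 * X * expand ℝ 2 (up 2 (N + 1)))
            - (1 - X ^ 2) ^ 2 * (4 * X * expand ℝ 2 (up 2 N)) := by ring
        _ = _ := by rw [h1, h2]; ring

lemma coeff_up_two (N j : ℕ) : (up 2 N).coeff j = ((2 * N + 2).choose (2 * j + 1) : ℝ) / 2 := by
  have h := congrArg (fun p : ℝ[X] => p.coeff (2 * j + 1)) (up_two_expand N)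
  simp only [coeff_sub] at h
  rw [show (4 * X * expand ℝ 2 (up 2 N) : ℝ[X]) = X * (C 4 * expand ℝ 2 (up 2 N)) by
    simp only [C_ofNat]; ring, coeff_X_mul, coeff_C_mul, mul_comm 2 j,
    coeff_expand_mul (by norm_num), coeff_one_sub_X_pow, coeff_one_add_X_pow] at h
  rw [show ((-1 : ℝ)) ^ (j * 2 + 1) = -1 by rw [pow_succ, mul_comm j 2, pow_mul]; norm_num] at h
  rw [mul_comm 2 j]
  linarith

/-- `c_m(2) = binom(4m-1,2m-1)/(2m+1)`. -/
theorem cm_two (m : ℕ) (hm : 1 ≤ m) :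
    cm 2 m = ((4 * m - 1).choose (2 * m - 1) : ℝ) / (2 * m + 1) := by
  obtain ⟨c, rfl⟩ : ∃ c, m = c + 1 := ⟨m - 1, by omega⟩
  unfold cm
  rw [show 2 * (c + 1) - 2 = 2 * c by omega, show c + 1 - 1 = c by omega,
    show 4 * (c + 1) - 1 = 4 * c + 3 by omega, show 2 * (c + 1) - 1 = 2 * c + 1 by omega,
    coeff_up_two, coeff_up_two, show 2 * (2 * c) + 2 = 4 * c + 2 by ring,
    show 2 * (c + 1) + 1 = 2 * c + 3 by ring]
  have h1 : ((4 * c + 2).choose (2 * c + 2) : ℝ) * (2 * c + 2) = (4 * c + 2).choose (2 * c + 1) *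
      (2 * c + 1) := by
    have := Nat.choose_succ_right_eq (4 * c + 2) (2 * c + 1)
    rw [show 4 * c + 2 - (2 * c + 1) = 2 * c + 1 by omega] at this
    exact_mod_cast this
  have h2 : ((4 * c + 2).choose (2 * c + 3) : ℝ) * (2 * c + 3) = (4 * c + 2).choose (2 * c + 2) *
      (2 * c) := by
    have := Nat.choose_succ_right_eq (4 * c + 2) (2 * c + 2)
    rw [show 4 * c + 2 - (2 * c + 2) = 2 * c by omega] at this
    exact_mod_cast this
  have h3 : ((4 * c + 3).choose (2 * c + 1) : ℝ) * (2 * c + 2) = (4 * c + 2).choose (2 * c + 1) *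
      (4 * c + 3) := by
    have h4 := Nat.choose_succ_right_eq (4 * c + 2) (2 * c)
    rw [show 4 * c + 2 - 2 * c = 2 * c + 2 by omega] at h4
    have h5 : (4 * c + 3).choose (2 * c + 1) = (4 * c + 2).choose (2 * c) +
        (4 * c + 2).choose (2 * c + 1) := Nat.choose_succ_succ (4 * c + 2) (2 * c)
    have h6 : ((4 * c + 2).choose (2 * c + 1) : ℝ) * (2 * c + 1) = (4 * c + 2).choose (2 * c) *
        (2 * c + 2) := by exact_mod_cast h4
    rw [h5]
    push_cast
    linear_combination -h6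
  have p1 : (2 * (c : ℝ) + 2) ≠ 0 := by positivity
  have p2 : (2 * (c : ℝ) + 3) ≠ 0 := by positivity
  have e1 : ((4 * c + 2).choose (2 * c + 2) : ℝ) = (4 * c + 2).choose (2 * c + 1) *
      (2 * c + 1) / (2 * c + 2) := by rw [eq_div_iff p1, h1]
  have e2 : ((4 * c + 2).choose (2 * c + 3) : ℝ) = (4 * c + 2).choose (2 * c + 2) *
      (2 * c) / (2 * c + 3) := by rw [eq_div_iff p2, h2]
  have e3 : ((4 * c + 3).choose (2 * c + 1) : ℝ) = (4 * c + 2).choose (2 * c + 1) *
      (4 * c + 3) / (2 * c + 2) := by rw [eq_div_iff p1, h3]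
  rw [e3, e2, e1]
  push_cast
  have p3 : (2 * ((c : ℝ) + 1) + 1) ≠ 0 := by positivity
  field_simp
  ring



section endgame

variable {H : Type*} [CommRing H] [Algebra ℝ H]

/-- the scaled relation. -/
theorem sub_mul_z_pow_scaled (A B : H) (s l : ℝ) (hs : s ≠ 0) (m : ℕ) (hm1 : 1 ≤ m) (z : H)
    (hA : A ^ (m + 1) = 0) (hB : B ^ (m + 1) = 0)
    (hz : (A - B) ^ 2 = -(s ^ 2 • z ^ 2) + l • (z * (A + B))) :
    (A - B) * z ^ (2 * m - 1) = (s / s ^ (2 * m - 1) * cm (l / s) m) •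
      (z * (A ^ m * B ^ (m - 1)) - z * (A ^ (m - 1) * B ^ m)) := by
  have h1 : (s • z) ^ 2 = (l / s) • ((s • z) * (A + B)) - (A - B) ^ 2 := by
    rw [hz, _root_.smul_pow, smul_mul_assoc, smul_smul, div_mul_cancel₀ _ hs]
    ring
  have h2 := sub_mul_z_pow A B (l / s) m hm1 (s • z) hA hB h1
  have h3 : (A - B) * (s • z) ^ (2 * m - 1) = s ^ (2 * m - 1) • ((A - B) * z ^ (2 * m - 1)) := by
    rw [_root_.smul_pow, mul_smul_comm]
  rw [h3] at h2
  have h4 : s ^ (2 * m - 1) ≠ 0 := pow_ne_zero _ hs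
  calc (A - B) * z ^ (2 * m - 1)
      = (s ^ (2 * m - 1))⁻¹ • (s ^ (2 * m - 1) • ((A - B) * z ^ (2 * m - 1))) := by
        rw [smul_smul, inv_mul_cancel₀ h4, one_smul]
    _ = _ := by
        rw [h2, smul_mul_assoc, smul_mul_assoc, ← smul_sub, smul_smul, smul_smul]
        congr 1
        field_simp

/-- **The endgame.**  `R = H^*(Y)`, `Y = S(N) → CM`, `e` the contact class, `w` the vertical Euler
class (`w` has degree `±2` on the fibres), `A, B` the two pull backs of the generator of `H^k(M)`,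
`I = ∫_Y`.  With
* `e w = A - B`,
* `w² = -s² e^(k-2) + l e^(k/2-2) (A + B)`,
* `A^(m+1) = B^(m+1) = 0`,
* `I` antisymmetric under the fibre antipode,
* 427's normalisation `|∫_Y w^(2m+1) e^(2m-1)| = 2 binom(2m,m)`,
one has `|∫_Y w e^(km-1)| = 4 s^(-2m) |c_m(l/s)|`.  (`k = 2a`.) -/
theorem endgame (a m : ℕ) (ha : 2 ≤ a) (hm1 : 1 ≤ m) (e w A B : H) (s l : ℝ) (hs : 0 < s)
    (I : H →ₗ[ℝ] ℝ) (h1 : e * w = A - B)
    (h2 : w ^ 2 = -(s ^ 2 • e ^ (2 * a - 2)) + l • (e ^ (a - 2) * (A + B)))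
    (hA : A ^ (m + 1) = 0) (hB : B ^ (m + 1) = 0)
    (hI : I (e ^ (2 * a - 2) * (A ^ m * B ^ (m - 1))) = - I (e ^ (2 * a - 2) * (A ^ (m - 1) * B ^ m)))
    (hN : |I (w ^ (2 * m + 1) * e ^ (2 * m - 1))| = 2 * ((2 * m).choose m : ℝ)) :
    |I (w * e ^ (2 * a * m - 1))| = 4 * (|cm (l / s) m| / s ^ (2 * m)) := by
  obtain ⟨b, rfl⟩ : ∃ b, a = b + 2 := ⟨a - 2, by omega⟩
  obtain ⟨c, rfl⟩ : ∃ c, m = c + 1 := ⟨m - 1, by omega⟩
  rw [show 2 * (b + 2) - 2 = 2 * b + 2 by omega] at h2 hI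
  rw [show b + 2 - 2 = b by omega] at h2
  set v : ℝ := I (e ^ (2 * b + 2) * (A ^ (c + 1) * B ^ (c + 1 - 1))) with hv
  -- `z = e^(b+2)`
  have hz : (A - B) ^ 2 = -(s ^ 2 • (e ^ (b + 2)) ^ 2) + l • (e ^ (b + 2) * (A + B)) := by
    rw [← h1, mul_pow, h2]
    simp only [Algebra.smul_def]
    ring
  have g1 := sub_mul_z_pow_scaled A B s l hs.ne' (c + 1) hm1 (e ^ (b + 2)) hA hB hz
  have g2 := sub_pow_mul_z A B (c + 1) hm1 (e ^ (b + 2)) hA hB
  -- first integral
  have k1 : w * e ^ (2 * (b + 2) * (c + 1) - 1)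
      = e ^ b * ((A - B) * (e ^ (b + 2)) ^ (2 * (c + 1) - 1)) := by
    rw [← h1, ← pow_mul]
    have : 2 * (b + 2) * (c + 1) - 1 = b + 1 + (b + 2) * (2 * (c + 1) - 1) := by
      rw [show 2 * (c + 1) - 1 = 2 * c + 1 by omega]
      have : 2 * (b + 2) * (c + 1) = (b + 1 + (b + 2) * (2 * c + 1)) + 1 := by ring
      omega
    rw [this, pow_add, pow_succ]
    ring
  have k2 : ∀ x : H, e ^ b * (e ^ (b + 2) * x) = e ^ (2 * b + 2) * x := by
    intro x
    rw [← mul_assoc, ← pow_add]; congr 2; ring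
  have k3 : I (e ^ b * (e ^ (b + 2) * (A ^ (c + 1) * B ^ (c + 1 - 1)) -
      e ^ (b + 2) * (A ^ (c + 1 - 1) * B ^ (c + 1)))) = 2 * v := by
    rw [mul_sub, k2, k2, map_sub]
    linarith [hI]
  -- second integral
  have k4 : w ^ (2 * (c + 1) + 1) * e ^ (2 * (c + 1) - 1)
      = -(s ^ 2 • (e ^ b * ((A - B) ^ (2 * (c + 1) - 1) * e ^ (b + 2))))
        + l • (e ^ b * ((A - B) ^ (2 * (c + 1) - 1) * (A + B))) := by
    rw [← h1]
    have : w ^ (2 * (c + 1) + 1) * e ^ (2 * (c + 1) - 1)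
        = (e * w) ^ (2 * (c + 1) - 1) * w ^ 2 := by
      rw [show 2 * (c + 1) + 1 = (2 * (c + 1) - 1) + 2 by omega]
      ring
    rw [this, h2]
    simp only [Algebra.smul_def]
    ring
  have k5 : (A - B) ^ (2 * (c + 1) - 1) * (A + B) = 0 := by
    have e1 : (A - B) ^ (2 * (c + 1) - 1) * (A + B)
        = hm A B (2 * (c + 1)) ((1 + X) * (1 - X) ^ (2 * (c + 1) - 1)) := by
      rw [show 2 * (c + 1) = (2 * (c + 1) - 1) + 1 by omega,
        hm_one_add A B _ _ ?_, show (2 * (c + 1) - 1) + 1 - 1 = 2 * (c + 1) - 1 by omega, hm_pow,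
        mul_comm]
      have : ((1 - X) : ℝ[X]).natDegree ≤ 1 := by compute_degree
      exact (natDegree_pow_le.trans (Nat.mul_le_mul_left _ this)).trans (by omega)
    rw [e1, hm_trunc_even A B _ hA hB]
    have e2 : ((1 + X) * (1 - X) ^ (2 * (c + 1) - 1) : ℝ[X]).coeff (c + 1) = 0 := by
      rw [add_mul, one_mul, coeff_add, coeff_X_mul, coeff_one_sub_X_pow, coeff_one_sub_X_pow,
        show 2 * (c + 1) - 1 = 2 * c + 1 by omega]
      have hs : (2 * c + 1).choose c = (2 * c + 1).choose (c + 1) := by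
        rw [← Nat.choose_symm (by omega : c ≤ 2 * c + 1)]
        congr 1; omega
      rw [hs]; ring
    rw [e2, zero_smul]
  rw [k5, mul_zero, smul_zero, add_zero, g2] at k4
  have k6 : I (w ^ (2 * (c + 1) + 1) * e ^ (2 * (c + 1) - 1))
      = -(s ^ 2 * ((-1) ^ (c + 1 - 1) * ((2 * (c + 1) - 1).choose (c + 1) : ℝ) * (2 * v))) := by
    rw [k4, map_neg, map_smul, mul_smul_comm, map_smul, k3]
    simp only [smul_eq_mul]
  have hchoose : ((2 * (c + 1)).choose (c + 1) : ℝ) = 2 * ((2 * (c + 1) - 1).choose (c + 1) : ℝ) := by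
    rw [show 2 * (c + 1) - 1 = 2 * c + 1 by omega, show 2 * (c + 1) = 2 * c + 1 + 1 by ring,
      Nat.choose_succ_succ]
    have hs : (2 * c + 1).choose c = (2 * c + 1).choose (c + 1) := by
      rw [← Nat.choose_symm (by omega : c ≤ 2 * c + 1)]
      congr 1; omega
    rw [show (2 * c + 1).choose (c.succ) = (2 * c + 1).choose (c + 1) from rfl, hs]
    push_cast; ring
  have hpos : (0 : ℝ) < ((2 * (c + 1) - 1).choose (c + 1) : ℝ) := by
    have := Nat.choose_pos (show c + 1 ≤ 2 * (c + 1) - 1 by omega)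
    exact_mod_cast this
  have hv2 : s ^ 2 * |v| = 2 := by
    rw [k6, hchoose, abs_neg, abs_mul, abs_mul, abs_mul, abs_mul, abs_neg_one_pow,
      one_mul, abs_of_pos hpos, abs_of_pos (by positivity : (0:ℝ) < s ^ 2),
      abs_of_pos (by norm_num : (0:ℝ) < 2)] at hN
    have : ((2 * (c + 1) - 1).choose (c + 1) : ℝ) * (s ^ 2 * |v|)
        = ((2 * (c + 1) - 1).choose (c + 1) : ℝ) * 2 := by linarith
    exact mul_left_cancel₀ hpos.ne' this
  rw [k1, g1, mul_smul_comm, map_smul, k3, smul_eq_mul, abs_mul, abs_mul, abs_mul,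
    abs_of_pos (by norm_num : (0:ℝ) < 2), abs_of_pos (by positivity : (0:ℝ) < s / s ^ (2 * (c + 1) - 1))]
  have hvv : |v| = 2 / s ^ 2 := by
    rw [eq_div_iff (by positivity)]; linarith
  rw [hvv]
  have hs2 : s ^ (2 * (c + 1)) = s ^ (2 * (c + 1) - 1) * s := by
    rw [← pow_succ]; congr 1
  rw [hs2]
  have := hs.ne'
  field_simp
  ring

end endgame

end Crest.Agent.R208.NU
end
end

-- ▼ part R208/NU4

/-!
# R208, NU4 (helper385): the endgame, with the model numbers
-/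

set_option autoImplicit false

open Polynomial Finset
open scoped Nat

noncomputable section

namespace Crest.Agent.R208.NU


theorem i0_two_eq (m : ℕ) (hm : 1 ≤ m) : cm 2 m = i0 2 (2 * m) := by
  rw [cm_two m hm, i0_two m hm]

lemma choose_eq (m : ℕ) (hm : 1 ≤ m) : ((2 * m).choose m : ℝ) = 2 * i0 1 m := by
  obtain ⟨c, rfl⟩ : ∃ c, m = c + 1 := ⟨m - 1, by omega⟩
  rw [i0_one _ hm, show 2 * (c + 1) - 1 = 2 * c + 1 by omega, show 2 * (c + 1) = 2 * c + 1 + 1 by ring,
    Nat.choose_succ_succ]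
  have hs : (2 * c + 1).choose c = (2 * c + 1).choose (c + 1) := by
    rw [← Nat.choose_symm (by omega : c ≤ 2 * c + 1)]
    congr 1; omega
  rw [show (2 * c + 1).choose (c.succ) = (2 * c + 1).choose (c + 1) from rfl, hs]
  push_cast; ring


variable {H : Type*} [CommRing H] [Algebra ℝ H]



end Crest.Agent.R208.NU
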