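import Crest.Agent.R208.G3b

/-!
R208, block G3s (helper882): the metric space `XB` of Blaschke data; scaling to diameter `π`.
-/

set_option autoImplicit false

open Set Filter Topology MeasureTheory
open scoped ContDiff RealInnerProductSpace
open Crest.GeometryTopology.Submanifold
open Crest.Agent.R241.DDefs Crest.Agent.R241.D Crest.Agent.R241.D2

noncomputable section

namespace Crest.Agent.R208

variable {n N : ℕ} {κ : ℝ} {S : Set (Euc N)} {G : Geo n N κ S} {D : ℝ}

/-! ### The metric space -/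

/-- `S` with the intrinsic distance -/
def XB (_ : Bl n N κ S G D) : Type := S

instance XB.instMetricSpace (h : Bl n N κ S G D) : MetricSpace (XB h) where
  dist p q := intrinsicDist S p.1 q.1
  dist_self p := intrinsicDist_self p.2
  dist_comm p q := intrinsicDist_comm S p.1 q.1
  dist_triangle p q r := h.tri p.2 q.2 r.2
  eq_of_dist_eq_zero {p q} h0 := Subtype.ext (h.eq_of_dist_eq_zero p.2 q.2 h0)

theorem XB.dist_def (h : Bl n N κ S G D) (p q : XB h) :
    dist p q = intrinsicDist S p.1 q.1 := rfl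

/-- the underlying point -/
def XB.pt (h : Bl n N κ S G D) (p : XB h) : S := p

/-- a point of `S` as a point of `XB` -/
def XB.of (h : Bl n N κ S G D) (p : S) : XB h := p


/-! ### Scaling -/

section scale

variable {c : ℝ} (hc : 0 < c)

/-- the scaled set -/
def sc (c : ℝ) (S : Set (Euc N)) : Set (Euc N) := (fun x => c • x) '' S

include hc in
theorem mem_sc {x : Euc N} : c • x ∈ sc c S ↔ x ∈ S := by
  constructor
  · rintro ⟨y, hy, hyx⟩
    have : y = x := by
      have := congrArg (fun z => c⁻¹ • z) hyx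
      simpa [smul_smul, inv_mul_cancel₀ hc.ne'] using this
    rwa [← this]
  · intro hx
    exact ⟨x, hx, rfl⟩

include hc in
theorem mem_sc' {x : Euc N} : x ∈ sc c S ↔ c⁻¹ • x ∈ S := by
  have h := mem_sc hc (S := S) (x := c⁻¹ • x)
  rw [smul_smul, mul_inv_cancel₀ hc.ne', one_smul] at h
  exact h

include hc in
theorem isSubmanifold_sc (hS : IsSubmanifold n N S) : IsSubmanifold n N (sc c S) := by
  rintro _ ⟨p, hp, rfl⟩
  obtain ⟨f, V, hf⟩ := hS p hp
  refine ⟨fun x => c • f x, V, ⟨hf.isOpen, hf.zero_mem, by simp [hf.map_zero],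
    hf.contDiffOn.const_smul c, ?_, ?_, ?_⟩⟩
  · intro x hx y hy hxy
    apply hf.injOn hx hy
    have := congrArg (fun z => c⁻¹ • z) hxy
    simpa [smul_smul, inv_mul_cancel₀ hc.ne'] using this
  · intro x hx
    have hd : DifferentiableAt ℝ f x :=
      (hf.contDiffOn.contDiffAt (hf.isOpen.mem_nhds hx)).differentiableAt (by simp)
    have h1 : fderiv ℝ (fun x => c • f x) x = c • fderiv ℝ f x := fderiv_const_smul hd c
    rw [h1]
    intro a b hab
    apply hf.injective_fderiv x hx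
    have := congrArg (fun z => c⁻¹ • z) hab
    simpa [smul_smul, inv_mul_cancel₀ hc.ne'] using this
  · intro W hW hWo
    obtain ⟨U, hU, hUS⟩ := hf.image_open W hW hWo
    refine ⟨(fun x => c⁻¹ • x) ⁻¹' U, hU.preimage (continuous_const_smul _), ?_⟩
    ext y
    constructor
    · rintro ⟨x, hx, rfl⟩
      have : f x ∈ S ∩ U := by rw [← hUS]; exact ⟨x, hx, rfl⟩
      refine ⟨(mem_sc hc).2 this.1, ?_⟩
      simp only [mem_preimage, smul_smul, inv_mul_cancel₀ hc.ne', one_smul]
      exact this.2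
    · rintro ⟨h1, h2⟩
      have : c⁻¹ • y ∈ f '' W := by
        rw [hUS]; exact ⟨(mem_sc' hc).1 h1, h2⟩
      obtain ⟨x, hx, hxy⟩ := this
      exact ⟨x, hx, by simp only [hxy, smul_smul, mul_inv_cancel₀ hc.ne', one_smul]⟩

include hc in
theorem joinedLen_sc {p q : Euc N} {ℓ : ℝ} (h : JoinedLen S p q ℓ) :
    JoinedLen (sc c S) (c • p) (c • q) (c * ℓ) := by
  obtain ⟨γ, h1, rfl, rfl, rfl⟩ := h
  refine ⟨fun t => c • γ t, ⟨h1.1.const_smul c, fun t => (mem_sc hc).2 (h1.2 t)⟩, rfl, rfl,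
    ?_⟩
  rw [curveLength_eq, curveLength_eq]
  unfold len
  rw [← intervalIntegral.integral_const_mul]
  refine intervalIntegral.integral_congr fun t _ => ?_
  have h2 : deriv (fun t => c • γ t) t = c • deriv γ t :=
    ((hasDerivAt_deriv_of_contDiff h1.1 t).const_smul c).deriv
  rw [h2, norm_smul, Real.norm_eq_abs, abs_of_pos hc]

include hc in
theorem sc_inv_sc : sc c⁻¹ (sc c S) = S := by
  ext x
  rw [mem_sc' (inv_pos.2 hc), inv_inv, mem_sc hc]

include hc in
theorem joinedLen_sc_iff {p q : Euc N} {ℓ : ℝ} :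
    JoinedLen (sc c S) (c • p) (c • q) ℓ ↔ JoinedLen S p q (c⁻¹ * ℓ) := by
  constructor
  · intro h
    have := joinedLen_sc (inv_pos.2 hc) h
    rwa [sc_inv_sc hc, smul_smul, smul_smul, inv_mul_cancel₀ hc.ne', one_smul, one_smul] at this
  · intro h
    have := joinedLen_sc hc h
    rwa [← mul_assoc, mul_inv_cancel₀ hc.ne', one_mul] at this

include hc in
theorem intrinsicDist_sc (p q : Euc N) :
    intrinsicDist (sc c S) (c • p) (c • q) = c * intrinsicDist S p q := by
  rw [intrinsicDist_eq, intrinsicDist_eq, ← smul_eq_mul, ← Real.sInf_smul_of_nonneg hc.le]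
  congr 1
  ext ℓ
  change JoinedLen (sc c S) (c • p) (c • q) ℓ ↔ _
  rw [joinedLen_sc_iff hc, Set.mem_smul_set]
  constructor
  · intro h
    exact ⟨c⁻¹ * ℓ, h, by rw [smul_eq_mul, ← mul_assoc, mul_inv_cancel₀ hc.ne', one_mul]⟩
  · rintro ⟨ℓ', h, rfl⟩
    rwa [smul_eq_mul, ← mul_assoc, inv_mul_cancel₀ hc.ne', one_mul]

include hc in
theorem Tan_le_sc {x : Euc N} : Tan S x ≤ Tan (sc c S) (c • x) := by
  rw [Tan, Submodule.span_le]
  rintro v ⟨γ, h0, hγ, hS⟩
  have h1 : c • v ∈ Tan (sc c S) (c • x) := by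
    refine Submodule.subset_span ⟨fun t => c • γ t, by simp [h0], hγ.const_smul c, ?_⟩
    filter_upwards [hS] with t ht using (mem_sc hc).2 ht
  have := (Tan (sc c S) (c • x)).smul_mem c⁻¹ h1
  rwa [smul_smul, inv_mul_cancel₀ hc.ne', one_smul] at this

include hc in
/-- a unit speed geodesic of `c • S` gives a unit speed geodesic of `S` -/
theorem isGeodesicIn_sc (hS : IsSubmanifold n N S) {γ : ℝ → Euc N}
    (h : IsGeodesicIn (sc c S) γ) : IsGeodesicIn S (fun t => c⁻¹ • γ (c * t)) := by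
  have hsm : ContDiff ℝ ∞ (fun t => c⁻¹ • γ (c * t)) :=
    (h.1.1.comp (by fun_prop : ContDiff ℝ ∞ fun t : ℝ => c * t)).const_smul c⁻¹
  have hmem : ∀ t, c⁻¹ • γ (c * t) ∈ S := fun t => (mem_sc' hc).1 (h.1.2 _)
  refine ⟨⟨hsm, hmem⟩, fun t => ?_⟩
  have hd1 : ∀ t, HasDerivAt (fun t => c⁻¹ • γ (c * t)) (deriv γ (c * t)) t := by
    intro t
    have h1 : HasDerivAt (fun t : ℝ => c * t) c t := by
      simpa using (hasDerivAt_id t).const_mul c
    have h2 := ((hasDerivAt_deriv_of_contDiff h.1.1 (c * t)).scomp t h1).const_smul c⁻¹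
    rwa [smul_smul, inv_mul_cancel₀ hc.ne', one_smul] at h2
  have hd2 : ∀ t, HasDerivAt (fun t => deriv γ (c * t)) (c • deriv (deriv γ) (c * t)) t := by
    intro t
    have h1 : HasDerivAt (fun t : ℝ => c * t) c t := by
      simpa using (hasDerivAt_id t).const_mul c
    exact (hasDerivAt_deriv_of_contDiff (contDiff_deriv h.1.1) (c * t)).scomp t h1
  have e1 : deriv (fun t => c⁻¹ • γ (c * t)) = fun t => deriv γ (c * t) :=
    funext fun t => (hd1 t).deriv
  rw [iteratedDeriv_succ, iteratedDeriv_one, e1, (hd2 t).deriv]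
  have h3 := h.2 (c * t)
  rw [iteratedDeriv_succ, iteratedDeriv_one] at h3
  rw [span_tangentConeAt hS (hmem t)]
  rw [span_tangentConeAt (isSubmanifold_sc hc hS) (h.1.2 _)] at h3
  refine Submodule.smul_mem _ _ ?_
  rw [Submodule.mem_orthogonal] at h3 ⊢
  intro u hu
  refine h3 u ?_
  have := Tan_le_sc hc hu
  rwa [smul_smul, mul_inv_cancel₀ hc.ne', one_smul] at this

end scale

/-- The conclusion of S0321 -/
def TwoPt (S : Set (Euc N)) : Prop :=
  ∀ p q p' q' : S, intrinsicDist S p q = intrinsicDist S p' q' →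
    ∃ Φ : S → S, IsIntrinsicIsometry S Φ ∧ Φ p = p' ∧ Φ q = q'

/-- It suffices to treat diameter `π`. -/
theorem of_pi (H : ∀ (n N : ℕ) (κ : ℝ) (S : Set (Euc N)) (G : Geo n N κ S),
      Bl n N κ S G Real.pi → TwoPt S)
    {n N : ℕ} (hn : 1 ≤ n) {S : Set (Euc N)} (hS : IsSubmanifold n N S)
    (hcpt : IsCompact S) (hconn : IsConnected S)
    (hmin : ∀ γ : ℝ → Euc N, IsGeodesicIn S γ → (∀ t, ‖deriv γ t‖ = 1) →
      ∀ a b : ℝ, a ≤ b → b - a ≤ intrinsicDiam S → intrinsicDist S (γ a) (γ b) = b - a) :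
    TwoPt S := by
  obtain ⟨κ₀, G₀, hB⟩ := exists_bl hn hS hcpt hconn hmin
  set D := intrinsicDiam S with hD
  have hDpos : 0 < D := hB.D_pos
  set c : ℝ := Real.pi / D with hcdef
  have hc : 0 < c := div_pos Real.pi_pos hDpos
  have hcD : c * D = Real.pi := by rw [hcdef]; field_simp
  have hS' := isSubmanifold_sc hc hS
  have hcpt' : IsCompact (sc c S) := hcpt.image (continuous_const_smul c)
  have hconn' : IsConnected (sc c S) := hconn.image _ (continuous_const_smul c).continuousOn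
  obtain ⟨κ, -, ⟨G⟩⟩ := exists_geo hS' hcpt'
  have hBl : Bl n N κ (sc c S) G Real.pi := by
    refine ⟨hS', hcpt', hconn', hn, Real.pi_pos, ?_, ?_⟩
    · rintro _ ⟨p, hp, rfl⟩ _ ⟨q, hq, rfl⟩
      simp only
      rw [intrinsicDist_sc hc, ← hcD]
      exact mul_le_mul_of_nonneg_left (hB.dist_le p hp q hq) hc.le
    · intro q hq hq1 a b hab hbD
      set γ : ℝ → Euc N := fun t => (fl G (q, t)).1 with hγ
      have hgeo : IsGeodesicIn (sc c S) γ := (isGeodesicIn_iff hS' G).2 ⟨q, hq, fun _ => rfl⟩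
      have hgeo' := isGeodesicIn_sc hc hS hgeo
      have hunit : ∀ t, ‖deriv (fun t => c⁻¹ • γ (c * t)) t‖ = 1 := by
        intro t
        have h1 : HasDerivAt (fun t : ℝ => c * t) c t := by
          simpa using (hasDerivAt_id t).const_mul c
        have h2 := ((hasDerivAt_deriv_of_contDiff hgeo.1.1 (c * t)).scomp t h1).const_smul c⁻¹
        rw [smul_smul, inv_mul_cancel₀ hc.ne', one_smul] at h2
        have h3 : deriv (fun t => c⁻¹ • γ (c * t)) t = deriv γ (c * t) := h2.deriv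
        rw [h3, hγ, (norm_deriv_fl G hq (c * t)).2, hq1]
      have h4 := hmin _ hgeo' hunit (c⁻¹ * a) (c⁻¹ * b)
        (mul_le_mul_of_nonneg_left hab (inv_pos.2 hc).le) (by
          rw [← mul_sub, inv_mul_le_iff₀ hc, hcD]; exact hbD)
      have e1 : ∀ x : ℝ, c * (c⁻¹ * x) = x := fun x => by
        rw [← mul_assoc, mul_inv_cancel₀ hc.ne', one_mul]
      simp only [e1] at h4
      have h5 := intrinsicDist_sc (S := S) hc (c⁻¹ • γ a) (c⁻¹ • γ b)
      rw [smul_smul, smul_smul, mul_inv_cancel₀ hc.ne', one_smul, one_smul, h4, ← mul_sub,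
        e1] at h5
      exact h5
  have key := H n N κ (sc c S) G hBl
  intro p q p' q' hpq
  let s : S → sc c S := fun x => ⟨c • (x : Euc N), (mem_sc hc).2 x.2⟩
  let r : sc c S → S := fun x => ⟨c⁻¹ • (x : Euc N), (mem_sc' hc).1 x.2⟩
  have hrs : ∀ x, r (s x) = x := fun x => Subtype.ext (by
    simp only [r, s, smul_smul, inv_mul_cancel₀ hc.ne', one_smul])
  have hsr : ∀ x, s (r x) = x := fun x => Subtype.ext (by
    simp only [r, s, smul_smul, mul_inv_cancel₀ hc.ne', one_smul])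
  have hds : ∀ x y : S, intrinsicDist (sc c S) (s x) (s y) = c * intrinsicDist S x y :=
    fun x y => intrinsicDist_sc hc _ _
  obtain ⟨Φ, ⟨hΦb, hΦd⟩, hΦp, hΦq⟩ := key (s p) (s q) (s p') (s q') (by rw [hds, hds, hpq])
  refine ⟨fun x => r (Φ (s x)), ⟨?_, ?_⟩, ?_, ?_⟩
  · have hsb : Function.Bijective s :=
      ⟨fun a b hab => by rw [← hrs a, ← hrs b, hab], fun b => ⟨r b, hsr b⟩⟩
    have hrb : Function.Bijective r :=
      ⟨fun a b hab => by rw [← hsr a, ← hsr b, hab], fun b => ⟨s b, hrs b⟩⟩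
    exact hrb.comp (hΦb.comp hsb)
  · intro x y
    have h1 := hds (r (Φ (s x))) (r (Φ (s y)))
    rw [hsr, hsr, hΦd, hds] at h1
    exact (mul_left_cancel₀ hc.ne' h1).symm
  · change r (Φ (s p)) = p'
    rw [hΦp, hrs]
  · change r (Φ (s q)) = q'
    rw [hΦq, hrs]

end Crest.Agent.R208
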