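import Crest.Agent.R208.G3
import Crest.Agent.R208.I1

-- ▼ part R208/I2
section

/-!
R208, block I, file 2: first variation inequality (F1) and no conjugate points before `D` (V4).
-/

set_option autoImplicit false

open Set Filter Topology
open scoped ContDiff RealInnerProductSpace
open Crest.GeometryTopology.Submanifold
open Crest.Agent.R241.DDefs
open Crest.Agent.R241.D2
open Crest.Agent.R241.D3b
open Crest.Agent.R241.D3c

noncomputable section

namespace Crest.Agent.R208.I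

variable {n N : ℕ} {κ : ℝ} {S : Set (Euc N)} {G : Geo n N κ S} {D : ℝ}

/-- `Exp` along a ray is the flow. -/
lemma Exp_smul_unit {p v : Euc N} (hp : p ∈ S) (hv : v ∈ G.T p) (hv0 : v ≠ 0) :
    Exp G p v = (fl G ((p, ‖v‖⁻¹ • v), ‖v‖)).1 := by
  have h1 := Exp_smul G hp ((G.T p).smul_mem ‖v‖⁻¹ hv) ‖v‖
  rwa [smul_smul, mul_inv_cancel₀ (norm_ne_zero_iff.2 hv0), one_smul] at h1

lemma norm_unit {v : Euc N} (hv0 : v ≠ 0) : ‖‖v‖⁻¹ • v‖ = 1 := by
  rw [norm_smul, norm_inv, norm_norm, inv_mul_cancel₀ (norm_ne_zero_iff.2 hv0)]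

section basic

variable (hB : Bl n N κ S G D)
include hB

lemma joined {p q : Euc N} (hp : p ∈ S) (hq : q ∈ S) : JoinedS S p q :=
  joinedS_of_connected hB.sub hB.conn hp hq

lemma tri {p q r : Euc N} (hp : p ∈ S) (hq : q ∈ S) (hr : r ∈ S) :
    intrinsicDist S p r ≤ intrinsicDist S p q + intrinsicDist S q r :=
  intrinsicDist_triangle (joined hB hp hq) (joined hB hq hr)

lemma dist_Exp {p v : Euc N} (hp : p ∈ S) (hv : v ∈ G.T p) (hvD : ‖v‖ ≤ D) :
    intrinsicDist S p (Exp G p v) = ‖v‖ := by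
  by_cases hv0 : v = 0
  · subst hv0
    rw [Exp_zero G hp, norm_zero, intrinsicDist_self hp]
  · have h1 := hB.dist_fl (p, ‖v‖⁻¹ • v) ⟨hp, (G.T p).smul_mem _ hv⟩ (norm_unit hv0) 0 ‖v‖
      (norm_nonneg _) (by simpa using hvD)
    rwa [fl_zero, ← Exp_smul_unit hp hv hv0, sub_zero] at h1

/-- uniform comparison of the two distances at small scale -/
lemma exists_near {ε : ℝ} (hε : 0 < ε) : ∃ η > 0, ∀ x ∈ S, ∀ y ∈ S, ‖x - y‖ < η →
    intrinsicDist S x y ≤ ε := by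
  obtain ⟨δ, hδ, h⟩ := uniform_joinedLen hB.sub hB.cpt zero_lt_one
  refine ⟨min δ (ε / 2), lt_min hδ (by positivity), fun x hx y hy hxy => ?_⟩
  obtain ⟨ℓ, h1, h2⟩ := h x hx y hy (by rw [dist_eq_norm]; exact hxy.trans_le (min_le_left _ _))
  refine (intrinsicDist_le h1).trans (h2.trans ?_)
  rw [norm_sub_rev]
  have := hxy.trans_le (min_le_right δ (ε / 2))
  linarith

end basic

/-- Hopf–Rinow, as a hypothesis -/
def HR (G : Geo n N κ S) : Prop :=
  ∀ p ∈ S, ∀ q ∈ S, ∃ v ∈ G.T p, ‖v‖ = intrinsicDist S p q ∧ Exp G p v = q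

section F1

variable (hB : Bl n N κ S G D) (hHR : HR G) {ρ C : ℝ} (hL : LocC G ρ C)
include hHR hL

/-- local first variation inequality -/
lemma fv_local {x c0 p' : Euc N} (hx : x ∈ S) (hc0 : c0 ∈ G.T x) (h0 : 0 < ‖c0‖)
    (h1 : ‖c0‖ ≤ ρ) (hp' : p' ∈ S) (hd : intrinsicDist S x p' ≤ ρ) :
    intrinsicDist S x p' ≤ ‖c0‖ + ⟪p' - Exp G x c0, Vel G x c0⟫ / ‖c0‖ +
      (4 * C + 2) / ‖c0‖ * ‖p' - Exp G x c0‖ ^ 2 := by
  obtain ⟨c, hc, hcn, hce⟩ := hHR x hx p' hp'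
  rw [← hcn] at hd ⊢
  rw [← hce]
  set p := Exp G x c0 with hpdef
  set p1 := Exp G x c with hp1def
  have h2 := hL.taylor x hx c0 hc0 c hc h1 hd
  have h3 := hL.norm_sub_le hx hc0 hc h1 hd
  have hC := hL.C_nonneg
  rw [← hpdef, ← hp1def] at h2 h3
  have h4 := gauss G hx hc0 ((G.T x).sub_mem hc hc0)
  have h5 : ‖Vel G x c0‖ = ‖c0‖ := norm_Vel G hx hc0
  have hρ1 := hL.ρ_le
  -- `⟨c0, c - c0⟩`
  have h6 : ⟪c0, c - c0⟫ ≤ ⟪p1 - p, Vel G x c0⟫ + 4 * C * ‖p1 - p‖ ^ 2 := by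
    have h7 : ⟪c0, c - c0⟫ = ⟪p1 - p, Vel G x c0⟫ -
        ⟪p1 - p - fderiv ℝ (Exp G x) c0 (c - c0), Vel G x c0⟫ := by
      rw [inner_sub_left (p1 - p), h4]; ring
    have h8 : -⟪p1 - p - fderiv ℝ (Exp G x) c0 (c - c0), Vel G x c0⟫ ≤
        C * ‖c - c0‖ ^ 2 * ‖c0‖ := by
      have h9 := neg_le_of_abs_le (abs_real_inner_le_norm
        (p1 - p - fderiv ℝ (Exp G x) c0 (c - c0)) (Vel G x c0))
      rw [h5] at h9
      have h10 : ‖p1 - p - fderiv ℝ (Exp G x) c0 (c - c0)‖ * ‖c0‖ ≤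
        C * ‖c - c0‖ ^ 2 * ‖c0‖ := by gcongr
      linarith
    have h9 : C * ‖c - c0‖ ^ 2 * ‖c0‖ ≤ 4 * C * ‖p1 - p‖ ^ 2 := by
      have h10 : ‖c - c0‖ ^ 2 ≤ (2 * ‖p1 - p‖) ^ 2 := by gcongr
      calc C * ‖c - c0‖ ^ 2 * ‖c0‖ ≤ C * (2 * ‖p1 - p‖) ^ 2 * 1 := by
            gcongr
            exact h1.trans hρ1
        _ = 4 * C * ‖p1 - p‖ ^ 2 := by ring
    linarith
  have h7 : ‖c‖ ^ 2 = ‖c0‖ ^ 2 + 2 * ⟪c0, c - c0⟫ + ‖c - c0‖ ^ 2 := by
    have : c = c0 + (c - c0) := by abel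
    conv_lhs => rw [this]
    rw [norm_add_sq_real]
  have h8 : ‖c - c0‖ ^ 2 ≤ 4 * ‖p1 - p‖ ^ 2 := by
    have h10 : ‖c - c0‖ ^ 2 ≤ (2 * ‖p1 - p‖) ^ 2 := by gcongr
    linarith [h10, mul_pow 2 ‖p1 - p‖ 2]
  have h9 : ‖c‖ ^ 2 ≤ ‖c0‖ ^ 2 + 2 * ⟪p1 - p, Vel G x c0⟫ + (8 * C + 4) * ‖p1 - p‖ ^ 2 := by
    nlinarith
  have h10 : 2 * ‖c0‖ * ‖c‖ ≤ ‖c‖ ^ 2 + ‖c0‖ ^ 2 := by nlinarith [sq_nonneg (‖c‖ - ‖c0‖)]
  have h11 : ‖c0‖ * ‖c‖ ≤ ‖c0‖ ^ 2 + ⟪p1 - p, Vel G x c0⟫ + (4 * C + 2) * ‖p1 - p‖ ^ 2 := by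
    nlinarith
  have h12 : ‖c‖ = ‖c0‖ * ‖c‖ / ‖c0‖ := by field_simp
  rw [h12]
  have h13 : ‖c0‖ + ⟪p1 - p, Vel G x c0⟫ / ‖c0‖ + (4 * C + 2) / ‖c0‖ * ‖p1 - p‖ ^ 2 =
      (‖c0‖ ^ 2 + ⟪p1 - p, Vel G x c0⟫ + (4 * C + 2) * ‖p1 - p‖ ^ 2) / ‖c0‖ := by
    field_simp
  rw [h13]
  gcongr

include hB in
/-- uniform first variation inequality from a point at small distance `δ` -/
lemma fv_unif {δ : ℝ} (hδ : 0 < δ) (hδρ : δ ≤ ρ / 2) (hδD : δ ≤ D) :
    ∃ K : ℝ, 0 ≤ K ∧ ∀ x ∈ S, ∀ c0 ∈ G.T x, ‖c0‖ = δ → ∀ p' ∈ S,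
      intrinsicDist S x p' ≤ δ + ⟪p' - Exp G x c0, Vel G x c0⟫ / δ +
        K * ‖p' - Exp G x c0‖ ^ 2 := by
  have hρ := hL.ρ_pos
  have hC := hL.C_nonneg
  have hD := hB.D_pos
  obtain ⟨η, hη, hnear⟩ := exists_near hB (ε := ρ / 2) (by positivity)
  refine ⟨max ((4 * C + 2) / δ) (1 / η + D / η ^ 2), ?_, fun x hx c0 hc0 hn p' hp' => ?_⟩
  · exact le_max_of_le_left (by positivity)
  have hpS : Exp G x c0 ∈ S := Exp_mem G hx hc0
  by_cases hcase : ‖p' - Exp G x c0‖ < η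
  · have h1 := hnear p' hp' _ hpS hcase
    have h2 := tri hB hx hpS hp'
    rw [dist_Exp hB hx hc0 (by rw [hn]; exact hδD), hn, intrinsicDist_comm S (Exp G x c0) p'] at h2
    have h3 := fv_local hHR hL hx hc0 (by rw [hn]; exact hδ) (by rw [hn]; linarith) hp'
      (by linarith)
    rw [hn] at h3
    refine h3.trans ?_
    gcongr
    exact le_max_left _ _
  · rw [not_lt] at hcase
    set t := ‖p' - Exp G x c0‖ with ht
    have h1 : -t ≤ ⟪p' - Exp G x c0, Vel G x c0⟫ / δ := by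
      have h2 := neg_le_of_abs_le (abs_real_inner_le_norm (p' - Exp G x c0) (Vel G x c0))
      rw [norm_Vel G hx hc0, hn, ← ht] at h2
      rw [le_div_iff₀ hδ]
      linarith
    have h2 := hB.dist_le x hx p' hp'
    have h3 : t + D ≤ (1 / η + D / η ^ 2) * t ^ 2 := by
      have h4 : t ≤ 1 / η * t ^ 2 := by
        rw [div_mul_eq_mul_div, le_div_iff₀ hη]
        nlinarith
      have h5 : D ≤ D / η ^ 2 * t ^ 2 := by
        rw [div_mul_eq_mul_div, le_div_iff₀ (by positivity)]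
        gcongr
      linarith
    have h4 : (1 / η + D / η ^ 2) * t ^ 2 ≤
        max ((4 * C + 2) / δ) (1 / η + D / η ^ 2) * t ^ 2 := by
      gcongr
      exact le_max_right _ _
    linarith

end F1

/-- (F1): uniform first variation inequality for geodesics of length in `[D/2, D]`. -/
theorem first_variation (hB : Bl n N κ S G D) (hHR : HR G) :
    ∃ K : ℝ, 0 ≤ K ∧ ∀ z ∈ TS G, ‖z.2‖ = 1 → ∀ l : ℝ, D / 2 ≤ l → l ≤ D →
      ∀ p' ∈ S, ∀ q' ∈ S, intrinsicDist S p' q' ≤ l - ⟪z.2, p' - z.1⟫ +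
        ⟪(fl G (z, l)).2, q' - (fl G (z, l)).1⟫ +
        K * (‖p' - z.1‖ ^ 2 + ‖q' - (fl G (z, l)).1‖ ^ 2) := by
  obtain ⟨ρ, C, hL⟩ := exists_LocC G hB.cpt
  have hρ := hL.ρ_pos
  have hD := hB.D_pos
  set δ := min (ρ / 2) (D / 4) with hδdef
  have hδ : 0 < δ := lt_min (by positivity) (by positivity)
  have hδD : δ ≤ D / 4 := min_le_right _ _
  obtain ⟨K, hK, h⟩ := fv_unif hB hHR hL hδ (min_le_left _ _) (by linarith)
  refine ⟨K, hK, fun z hz hz1 l hl hlD p' hp' q' hq' => ?_⟩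
  -- the two intermediate points
  have hx := fl_mem G hz δ
  have hy := fl_mem G hz (l - δ)
  have hxn : ‖(fl G (z, δ)).2‖ = 1 := by rw [norm_fl G hz, hz1]
  have hyn : ‖(fl G (z, l - δ)).2‖ = 1 := by rw [norm_fl G hz, hz1]
  have hxy : intrinsicDist S (fl G (z, δ)).1 (fl G (z, l - δ)).1 = l - 2 * δ := by
    rw [hB.dist_fl z hz hz1 δ (l - δ) (by linarith) (by linarith)]
    ring
  -- distance from `x` to `p'`
  have h1 : intrinsicDist S (fl G (z, δ)).1 p' ≤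
      δ - ⟪z.2, p' - z.1⟫ + K * ‖p' - z.1‖ ^ 2 := by
    have hm : -(fl G (z, δ)).2 ∈ G.T (fl G (z, δ)).1 := (G.T _).neg_mem hx.2
    have h2 := h (fl G (z, δ)).1 hx.1 (δ • (-(fl G (z, δ)).2)) ((G.T _).smul_mem _ hm)
      (by rw [norm_smul, norm_neg, hxn, mul_one, Real.norm_of_nonneg hδ.le]) p' hp'
    have h3 : fl G (((fl G (z, δ)).1, -(fl G (z, δ)).2), δ) = rev z := by
      have h4 := (fl_rev G (q := fl G (z, δ)) (t := -δ) (complete G hx (-δ))).2
      rw [← fl_add' G hz δ (-δ), add_neg_cancel, fl_zero, neg_neg] at h4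
      exact h4
    rw [Exp_smul G hx.1 hm, Vel_smul G hx.1 hm, h3] at h2
    have h5 : ⟪p' - (rev z).1, δ • (rev z).2⟫ / δ = -⟪z.2, p' - z.1⟫ := by
      show ⟪p' - z.1, δ • (-z.2)⟫ / δ = _
      rw [inner_smul_right, inner_neg_right, real_inner_comm]
      field_simp
    rw [h5] at h2
    have h6 : (rev z).1 = z.1 := rfl
    rw [h6] at h2
    linarith
  have h2 : intrinsicDist S (fl G (z, l - δ)).1 q' ≤
      δ + ⟪(fl G (z, l)).2, q' - (fl G (z, l)).1⟫ + K * ‖q' - (fl G (z, l)).1‖ ^ 2 := by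
    have h2 := h (fl G (z, l - δ)).1 hy.1 (δ • (fl G (z, l - δ)).2) ((G.T _).smul_mem _ hy.2)
      (by rw [norm_smul, hyn, mul_one, Real.norm_of_nonneg hδ.le]) q' hq'
    have h3 : fl G (((fl G (z, l - δ)).1, (fl G (z, l - δ)).2), δ) = fl G (z, l) := by
      rw [← fl_add' G hz (l - δ) δ, sub_add_cancel]
    rw [Exp_smul G hy.1 hy.2, Vel_smul G hy.1 hy.2, h3] at h2
    have h5 : ⟪q' - (fl G (z, l)).1, δ • (fl G (z, l)).2⟫ / δ =
        ⟪(fl G (z, l)).2, q' - (fl G (z, l)).1⟫ := by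
      rw [inner_smul_right, real_inner_comm]
      field_simp
    rw [h5] at h2
    exact h2
  have h3 := tri hB hp' hx.1 hq'
  have h4 := tri hB hx.1 hy.1 hq'
  rw [intrinsicDist_comm S p' (fl G (z, δ)).1] at h3
  rw [hxy] at h4
  linarith

end Crest.Agent.R208.I
end
end

-- ▼ part R208/I3

/-!
R208, block I, file 3: no conjugate points at distance `< D` (V4).
-/

set_option autoImplicit false

open Set Filter Topology
open scoped ContDiff RealInnerProductSpace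
open Crest.GeometryTopology.Submanifold
open Crest.Agent.R241.DDefs
open Crest.Agent.R241.D2
open Crest.Agent.R241.D3b
open Crest.Agent.R241.D3c

noncomputable section

namespace Crest.Agent.R208.I

variable {n N : ℕ} {κ : ℝ} {S : Set (Euc N)} {G : Geo n N κ S} {D : ℝ}
variable {p v w : Euc N}

lemma al_shift (s s' t : ℝ) : al G p v w (s + s', t) = al G p (v + s • w) w (s', t) := by
  unfold al
  have : v + (s + s') • w = v + s • w + s' • w := by module
  simp only [this]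

lemma ta_shift (s s' t : ℝ) : ta G p v w (s + s', t) = ta G p (v + s • w) w (s', t) := by
  unfold ta
  have : v + (s + s') • w = v + s • w + s' • w := by module
  simp only [this]

lemma fderiv_al_s (hp : p ∈ S) (hv : v ∈ G.T p) (hw : w ∈ G.T p) (s t : ℝ) :
    fderiv ℝ (al G p v w) (s, t) (1, 0) = J G p (v + s • w) w t := by
  have hv' : v + s • w ∈ G.T p := (G.T p).add_mem hv ((G.T p).smul_mem _ hw)
  have h1 := hasDerivAt_s (q := (s, t)) ((contDiff_al G hp hv hw).differentiable (by simp) (s, t))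
  have h2 := hasDerivAt_s (q := ((0 : ℝ), t))
    ((contDiff_al G hp hv' hw).differentiable (by simp) ((0 : ℝ), t))
  have h3 : HasDerivAt (fun r : ℝ => r - s) 1 s := (hasDerivAt_id s).sub_const s
  have h2' : HasDerivAt (fun s' => al G p (v + s • w) w (s', t))
      (J G p (v + s • w) w t) (s - s) := by
    rw [sub_self]; exact h2
  have h4 := HasDerivAt.scomp (h := fun r : ℝ => r - s) s h2' h3
  rw [one_smul] at h4
  have h5 : (fun s' => al G p (v + s • w) w (s', t)) ∘ (fun r : ℝ => r - s) =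
      fun r => al G p v w (r, t) := by
    ext1 r
    simp only [Function.comp_apply]
    rw [← al_shift]
    congr 2
    ring
  rw [h5] at h4
  exact h1.unique h4

/-- Gauss along the whole variation -/
lemma gauss_al (hp : p ∈ S) (hv : v ∈ G.T p) (hw : w ∈ G.T p) (s t : ℝ) :
    ⟪fderiv ℝ (al G p v w) (s, t) (1, 0), ta G p v w (s, t)⟫ = t * ⟪v + s • w, w⟫ := by
  have hv' : v + s • w ∈ G.T p := (G.T p).add_mem hv ((G.T p).smul_mem _ hw)
  have h1 := inner_J_ta G hp hv' hw t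
  rw [fderiv_al_s hp hv hw]
  have h2 : ta G p v w (s, t) = ta G p (v + s • w) w (0, t) := by
    rw [← ta_shift, add_zero]
  rw [h2]
  exact h1

/-- differentiated Gauss identity -/
lemma inner_second (hp : p ∈ S) (hv : v ∈ G.T p) (hw : w ∈ G.T p) (t : ℝ) :
    ⟪fderiv ℝ (fderiv ℝ (al G p v w)) (0, t) (1, 0) (1, 0), ta G p v w (0, t)⟫ =
      t * ‖w‖ ^ 2 - ⟪J' G p v w t, J G p v w t⟫ := by
  have hsm := contDiff_al G hp hv hw
  have hd2 : ∀ q, DifferentiableAt ℝ (fderiv ℝ (al G p v w)) q :=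
    (diff_fderiv hsm).differentiable (by simp)
  have h6 : HasDerivAt (fun s => fderiv ℝ (al G p v w) (s, t) (1, 0))
      (fderiv ℝ (fderiv ℝ (al G p v w)) (0, t) (1, 0) (1, 0)) 0 := by
    have h2 := hasDerivAt_s (F := ℝ × ℝ →L[ℝ] Euc N)
      (g := fderiv ℝ (al G p v w)) (q := ((0 : ℝ), t)) (hd2 (0, t))
    have h3 := h2.clm_apply (hasDerivAt_const (0 : ℝ) ((1 : ℝ), (0 : ℝ)))
    refine h3.congr_deriv ?_
    simp
  have h7 : HasDerivAt (fun s => ta G p v w (s, t)) (J' G p v w t) 0 := by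
    rw [J'_eq G hp hv hw]
    exact hasDerivAt_s (q := ((0 : ℝ), t))
      ((contDiff_ta G hp hv hw).differentiable (by simp) ((0 : ℝ), t))
  have h8 := h6.inner ℝ h7
  have h9 : (fun s => ⟪fderiv ℝ (al G p v w) (s, t) (1, 0), ta G p v w (s, t)⟫) =
      fun s => t * ⟪v + s • w, w⟫ := by
    ext1 s
    exact gauss_al hp hv hw s t
  rw [h9] at h8
  have h10 : HasDerivAt (fun s : ℝ => t * ⟪v + s • w, w⟫) (t * ‖w‖ ^ 2) 0 := by
    have h11 : HasDerivAt (fun s : ℝ => v + s • w) w 0 := by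
      simpa using ((hasDerivAt_id (0 : ℝ)).smul_const w).const_add v
    have h12 := (h11.inner ℝ (hasDerivAt_const (0 : ℝ) w)).const_mul t
    refine h12.congr_deriv ?_
    rw [inner_zero_right, zero_add, real_inner_self_eq_norm_sq]
  have h11 := h8.unique h10
  have h12 : ⟪fderiv ℝ (al G p v w) (0, t) (1, 0), J' G p v w t⟫ =
      ⟪J' G p v w t, J G p v w t⟫ := by
    rw [real_inner_comm]; rfl
  rw [h12] at h11
  linarith

/-- the pair `(J, J')` vanishes only if `w = 0`. -/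
lemma J_unique (hp : p ∈ S) (hv : v ∈ G.T p) (hw : w ∈ G.T p) {t : ℝ}
    (h1 : J G p v w t = 0) (h2 : J' G p v w t = 0) : w = 0 := by
  have hq : (p, v) ∈ TS G := ⟨hp, hv⟩
  have h3 := hasDerivAt_s (q := ((0 : ℝ), t))
    ((contDiff_alta G hp hv hw).differentiable (by simp) ((0 : ℝ), t))
  have h4 : fderiv ℝ (fun q : ℝ × ℝ => fl G ((p, v + q.1 • w), q.2)) (0, t) (1, 0) = 0 := by
    have h5 := hasDerivAt_s (q := ((0 : ℝ), t))
      ((contDiff_al G hp hv hw).differentiable (by simp) ((0 : ℝ), t))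
    have h6 := hasDerivAt_s (q := ((0 : ℝ), t))
      ((contDiff_ta G hp hv hw).differentiable (by simp) ((0 : ℝ), t))
    have h7 := h5.prodMk h6
    have h8 := h3.unique h7
    rw [h8, Prod.mk_eq_zero]
    refine ⟨h1, ?_⟩
    rw [← J'_eq G hp hv hw]
    exact h2
  rw [h4] at h3
  have h5 : ContDiffAt ℝ ∞ (fun q => fl G (q, -t)) (fl G ((p, v), t)) := by
    have h6 := contDiffAt_fl' G (fl_mem G hq t) (-t)
    have h7 : ContDiffAt ℝ ∞ (fun q : Euc N × Euc N => (q, -t)) (fl G ((p, v), t)) := by fun_prop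
    exact ContDiffAt.comp _ h6 h7
  have h6 : HasFDerivAt (fun q => fl G (q, -t)) (fderiv ℝ (fun q => fl G (q, -t))
      (fl G ((p, v), t))) (fl G ((p, v + (0 : ℝ) • w), t)) := by
    have h7 := (h5.differentiableAt (by simp)).hasFDerivAt
    rwa [zero_smul, add_zero]
  have h7 := h6.comp_hasDerivAt (0 : ℝ) h3
  rw [map_zero] at h7
  have h8 : (fun q => fl G (q, -t)) ∘ (fun s : ℝ => fl G ((p, v + s • w), ((0 : ℝ), t).2)) =
      fun s : ℝ => (p, v + s • w) := by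
    ext1 s
    simp only [Function.comp_apply]
    rw [← fl_add' G (mem_TS' G hp hv hw s), add_neg_cancel, fl_zero]
  rw [h8] at h7
  have h9 : HasDerivAt (fun s : ℝ => (p, v + s • w)) ((0 : Euc N), w) 0 := by
    refine (hasDerivAt_const (0 : ℝ) p).prodMk ?_
    simpa using ((hasDerivAt_id (0 : ℝ)).smul_const w).const_add v
  have h10 := h9.unique h7
  exact (Prod.mk_eq_zero.1 h10).2

lemma J_eq_fderiv (hp : p ∈ S) (hv : v ∈ G.T p) (hw : w ∈ G.T p) (t : ℝ) :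
    J G p v w t = t • fderiv ℝ (Exp G p) (t • v) w := by
  have h1 := hasDerivAt_s (q := ((0 : ℝ), t))
    ((contDiff_al G hp hv hw).differentiable (by simp) ((0 : ℝ), t))
  have hm : t • v ∈ G.T p := (G.T p).smul_mem _ hv
  have h2 := hasDerivAt_line (w := t • w) ((contDiffAt_Exp' G hp hm).differentiableAt (by simp))
  rw [map_smul] at h2
  have h3 : (fun s : ℝ => al G p v w (s, ((0 : ℝ), t).2)) =
      fun s => Exp G p (t • v + s • t • w) := by
    ext1 s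
    have h4 := Exp_smul G hp ((G.T p).add_mem hv ((G.T p).smul_mem s hw)) t
    have h5 : t • (v + s • w) = t • v + s • t • w := by module
    rw [h5] at h4
    rw [h4]
    rfl
  rw [h3] at h1
  exact h1.unique h2

/-- a twice differentiable function with a local minimum has nonnegative second derivative. -/
lemma second_nonneg {f f' : ℝ → ℝ} {f'' : ℝ} (h1 : ∀ᶠ s in 𝓝 (0 : ℝ), HasDerivAt f (f' s) s)
    (h2 : HasDerivAt f' f'' 0) (h3 : ∀ᶠ s in 𝓝 (0 : ℝ), f 0 ≤ f s) : 0 ≤ f'' := by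
  by_contra hneg
  rw [not_le] at hneg
  have h0 : f' 0 = 0 := IsLocalMin.hasDerivAt_eq_zero h3 h1.self_of_nhds
  -- `f' s < 0` for small `s > 0`
  have h4 : ∀ᶠ s in 𝓝[>] (0 : ℝ), f' s < 0 := by
    have h5 : Tendsto (slope f' 0) (𝓝[>] 0) (𝓝 f'') :=
      (hasDerivAt_iff_tendsto_slope.1 h2).mono_left
        (nhdsWithin_mono _ fun x hx => ne_of_gt hx)
    filter_upwards [h5.eventually (gt_mem_nhds hneg), self_mem_nhdsWithin] with s hs hs0
    rw [slope_def_field, h0, sub_zero, sub_zero] at hs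
    exact (div_neg_iff.1 hs).resolve_left (fun h => absurd h.2 (not_lt.2 (le_of_lt hs0))) |>.1
  obtain ⟨ε, hε, h5⟩ := (mem_nhdsGT_iff_exists_Ioo_subset (a := (0 : ℝ))).1 h4
  obtain ⟨ε', hε', h6⟩ := Metric.eventually_nhds_iff.1 (h1.and h3)
  set r := min ε ε' / 2 with hr
  have hr0 : 0 < r := by
    have : 0 < min ε ε' := lt_min hε hε'
    positivity
  have hrε : r < ε := by
    have := min_le_left ε ε'
    have h7 : (0 : ℝ) < ε := hε
    rw [hr]; linarith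
  have hrε' : r < ε' := by
    have := min_le_right ε ε'
    rw [hr]; linarith
  have hcont : ContinuousOn f (Icc 0 r) := fun s hs => by
    refine (h6 ?_).1.continuousAt.continuousWithinAt
    rw [Real.dist_eq, sub_zero, abs_of_nonneg hs.1]
    exact lt_of_le_of_lt hs.2 hrε'
  obtain ⟨c, hc, hce⟩ := exists_hasDerivAt_eq_slope f f' hr0 hcont (fun s hs => by
    refine (h6 ?_).1
    rw [Real.dist_eq, sub_zero, abs_of_pos hs.1]
    exact hs.2.trans hrε')
  have h7 : f' c < 0 := h5 ⟨hc.1, hc.2.trans hrε⟩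
  have h8 : f 0 ≤ f r := (h6 (by
    rw [Real.dist_eq, sub_zero, abs_of_pos hr0]; exact hrε')).2
  rw [hce, sub_zero] at h7
  have := div_nonneg (sub_nonneg.2 h8) hr0.le
  linarith

/-- reversal along a flow line -/
lemma fl_reverse {z : Euc N × Euc N} (hz : z ∈ TS G) (a t : ℝ) :
    fl G (rev (fl G (z, a)), a - t) = rev (fl G (z, t)) := by
  have h1 := fl_mem G hz a
  have h4 := (fl_rev G (q := fl G (z, a)) (t := t - a) (complete G h1 (t - a))).2
  rw [← fl_add' G hz a (t - a), add_sub_cancel, neg_sub] at h4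
  exact h4

lemma J_def (p v w : Euc N) (t : ℝ) :
    fderiv ℝ (al G p v w) (0, t) (1, 0) = J G p v w t := rfl

section V4

variable (hB : Bl n N κ S G D)
include hB

set_option maxHeartbeats 1000000 in
/-- the key inequality before the limit -/
lemma key_ineq {ρ C : ℝ} (hL : LocC G ρ C) (hp : p ∈ S) (hv : v ∈ G.T p) (hv1 : ‖v‖ = 1)
    (hw : w ∈ G.T p) (hvw : ⟪v, w⟫ = 0) {t t1 : ℝ} (ht : 0 < t) (htt : t < t1) (ht1 : t1 ≤ D)
    (htρ : t1 - t ≤ ρ) :
    0 ≤ (t1 - t) * ⟪J' G p v w t, J G p v w t⟫ + 2 * C * ‖J G p v w t‖ ^ 2 := by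
  have hD := hB.D_pos
  have hz : (p, v) ∈ TS G := ⟨hp, hv⟩
  -- the end point `r`
  have hr := fl_mem G hz t1
  set r := (fl G ((p, v), t1)).1 with hrdef
  set vr := (fl G ((p, v), t1)).2 with hvrdef
  have hvr1 : ‖vr‖ = 1 := by rw [hvrdef, norm_fl G hz]; exact hv1
  have hrS : r ∈ S := hr.1
  have hvrT : vr ∈ G.T r := hr.2
  obtain ⟨fr, hfr⟩ := exists_frame G hrS
  obtain ⟨u1, hu1⟩ := exists_frame_eq hfr hvrT
  -- the point `c0`
  set c0 : Euc n := (t1 - t) • (-u1) with hc0def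
  have hfc0 : fr c0 = (t1 - t) • (-vr) := by
    rw [hc0def, map_smul, map_neg, hu1]
  have hrev : fl G ((r, -vr), t1 - t) = rev (fl G ((p, v), t)) := fl_reverse hz t1 t
  have hmem : -vr ∈ G.T r := (G.T r).neg_mem hvrT
  have hE0 : Exp G r (fr c0) = al G p v w (0, t) := by
    rw [hfc0, Exp_smul G hrS hmem, hrev]
    simp [al, rev]
  have hV0 : Vel G r (fr c0) = -((t1 - t) • ta G p v w (0, t)) := by
    rw [hfc0, Vel_smul G hrS hmem, hrev]
    simp [ta, rev]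
  have hn0 : ‖fr c0‖ = t1 - t := by
    rw [hfc0, norm_smul, norm_neg, hvr1, mul_one, Real.norm_of_nonneg (by linarith)]
  -- local inverse
  have hΦ : ∀ u : Euc n, ContDiffAt ℝ ∞ (fun u => Exp G r (fr u)) u := fun u =>
    ContDiffAt.comp (g := Exp G r) u (contDiffAt_Exp' G hrS (frame_mem hfr u))
      fr.toContinuousLinearMap.contDiff.contDiffAt
  have hΦd : ∀ u w' : Euc n, fderiv ℝ (fun u => Exp G r (fr u)) u w' =
      fderiv ℝ (Exp G r) (fr u) (fr w') := by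
    intro u w'
    have h1 : HasFDerivAt (fun u => Exp G r (fr u))
        ((fderiv ℝ (Exp G r) (fr u)).comp fr.toContinuousLinearMap) u :=
      ((contDiffAt_Exp' G hrS (frame_mem hfr u)).differentiableAt (by simp)).hasFDerivAt.comp u
        fr.toContinuousLinearMap.hasFDerivAt
    rw [h1.fderiv]
    rfl
  have hnear : ∀ u : Euc n, ‖fr u‖ ≤ ρ → ∀ w' : Euc n,
      ‖fr w'‖ ≤ 2 * ‖fderiv ℝ (Exp G r) (fr u) (fr w')‖ := by
    intro u hu w'
    have h1 := hL.near r hrS (fr u) (frame_mem hfr u) hu (fr w') (frame_mem hfr w')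
    have h2 : ‖fr w'‖ ≤ ‖fderiv ℝ (Exp G r) (fr u) (fr w')‖ +
        ‖fderiv ℝ (Exp G r) (fr u) (fr w') - fr w'‖ := by
      have := norm_sub_le (fderiv ℝ (Exp G r) (fr u) (fr w'))
        (fderiv ℝ (Exp G r) (fr u) (fr w') - fr w')
      rwa [sub_sub_cancel] at this
    linarith
  obtain ⟨R, hR, hR0, -, hRS⟩ := local_inverse hB.sub (Φ := fun u => Exp G r (fr u)) (v₀ := c0)
    (hΦ c0) (Eventually.of_forall fun u => Exp_mem G hrS (frame_mem hfr u)) (by
      intro a b hab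
      have h1 : fderiv ℝ (Exp G r) (fr c0) (fr (a - b)) = 0 := by
        rw [← hΦd, map_sub, hab, sub_self]
      have h2 := hnear c0 (by rw [hn0]; exact htρ) (a - b)
      rw [h1, norm_zero, mul_zero, fr.norm_map] at h2
      exact sub_eq_zero.1 (norm_le_zero_iff.1 h2))
  simp only [hE0] at hR hR0 hRS
  -- the curve `c`
  set c : ℝ → Euc n := fun s => R (al G p v w (s, t)) with hcdef
  have hal : ContDiff ℝ ∞ (fun s : ℝ => al G p v w (s, t)) :=
    (contDiff_al G hp hv hw).comp (contDiff_id.prodMk contDiff_const)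
  have hc : ContDiffAt ℝ ∞ c 0 := ContDiffAt.comp (0 : ℝ) hR hal.contDiffAt
  have hc0 : c 0 = c0 := hR0
  have hcE : ∀ᶠ s in 𝓝 (0 : ℝ), Exp G r (fr (c s)) = al G p v w (s, t) := by
    have h1 : Tendsto (fun s : ℝ => al G p v w (s, t)) (𝓝 0) (𝓝[S] (al G p v w (0, t))) := by
      rw [tendsto_nhdsWithin_iff]
      exact ⟨hal.continuous.tendsto 0, Eventually.of_forall fun s => al_mem G hp hv hw _⟩
    exact h1.eventually hRS
  have hcd : ∀ᶠ s in 𝓝 (0 : ℝ), HasDerivAt c (deriv c s) s := by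
    filter_upwards [(hc.of_le one_le_top).eventually (by simp)] with s hs
    exact (hs.differentiableAt (by simp)).hasDerivAt
  -- the derivative of `Exp ∘ c`
  have hcs : ∀ᶠ s in 𝓝 (0 : ℝ), fderiv ℝ (Exp G r) (fr (c s)) (fr (deriv c s)) =
      fderiv ℝ (al G p v w) (s, t) (1, 0) := by
    filter_upwards [hcd, eventually_eventually_nhds.2 hcE] with s h1 h2
    have h3 : HasDerivAt (fun s => fr (c s)) (fr (deriv c s)) s :=
      fr.toContinuousLinearMap.hasFDerivAt.comp_hasDerivAt s h1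
    have h4 := ((contDiffAt_Exp' G hrS (frame_mem hfr (c s))).differentiableAt
      (by simp)).hasFDerivAt.comp_hasDerivAt s h3
    have h5 := hasDerivAt_s (q := (s, t))
      ((contDiff_al G hp hv hw).differentiable (by simp) (s, t))
    have h6 : (Exp G r ∘ fun s => fr (c s)) =ᶠ[𝓝 s] fun s => al G p v w (s, t) := h2
    exact h4.unique (h5.congr_of_eventuallyEq h6)
  -- first derivative of `e`
  have he1 : ∀ᶠ s in 𝓝 (0 : ℝ), HasDerivAt (fun s => ‖c s‖ ^ 2)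
      (2 * ⟪fderiv ℝ (al G p v w) (s, t) (1, 0), Vel G r (fr (c s))⟫) s := by
    filter_upwards [hcd, hcs] with s h1 h2
    refine h1.norm_sq.congr_deriv ?_
    rw [← h2, gauss G hrS (frame_mem hfr _) (frame_mem hfr _), fr.inner_map_map]
  -- second derivative
  have hJs : HasDerivAt (fun s => fderiv ℝ (al G p v w) (s, t) (1, 0))
      (fderiv ℝ (fderiv ℝ (al G p v w)) (0, t) (1, 0) (1, 0)) 0 := by
    have h2 := hasDerivAt_s (F := ℝ × ℝ →L[ℝ] Euc N)
      (g := fderiv ℝ (al G p v w)) (q := ((0 : ℝ), t))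
      ((diff_fderiv (contDiff_al G hp hv hw)).differentiable (by simp) (0, t))
    have h3 := h2.clm_apply (hasDerivAt_const (0 : ℝ) ((1 : ℝ), (0 : ℝ)))
    refine h3.congr_deriv ?_
    simp
  have hVs : HasDerivAt (fun s => Vel G r (fr (c s)))
      (fderiv ℝ (Vel G r) (fr c0) (fr (deriv c 0))) 0 := by
    have h3 : HasDerivAt (fun s => fr (c s)) (fr (deriv c 0)) 0 :=
      fr.toContinuousLinearMap.hasFDerivAt.comp_hasDerivAt (0 : ℝ) hcd.self_of_nhds
    have h4 : HasFDerivAt (Vel G r) (fderiv ℝ (Vel G r) (fr c0)) (fr (c 0)) := by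
      rw [hc0]
      exact ((contDiffAt_Vel' G hrS (frame_mem hfr c0)).differentiableAt (by simp)).hasFDerivAt
    exact h4.comp_hasDerivAt (0 : ℝ) h3
  set V' := fderiv ℝ (Vel G r) (fr c0) (fr (deriv c 0)) with hV'def
  have he2 := ((hJs.inner ℝ hVs).const_mul 2)
  -- the function `g`
  set K := (t1 - t) * t * ‖w‖ ^ 2 with hK
  have hg1 : ∀ᶠ s in 𝓝 (0 : ℝ), HasDerivAt (fun s => ‖c s‖ ^ 2 + K * s ^ 2)
      (2 * ⟪fderiv ℝ (al G p v w) (s, t) (1, 0), Vel G r (fr (c s))⟫ + K * (2 * s)) s := by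
    filter_upwards [he1] with s h1
    refine h1.add (((hasDerivAt_pow 2 s).const_mul K).congr_deriv ?_)
    norm_num
  have hg2 := he2.add (((hasDerivAt_id (0 : ℝ)).const_mul 2).const_mul K)
  have hg3 : ∀ᶠ s in 𝓝 (0 : ℝ), ‖c 0‖ ^ 2 + K * (0 : ℝ) ^ 2 ≤ ‖c s‖ ^ 2 + K * s ^ 2 := by
    have hnc : ‖c 0‖ = t1 - t := by rw [hc0, ← fr.norm_map, hn0]
    have h1 : ∀ᶠ s in 𝓝 (0 : ℝ), ‖fr (c s)‖ < D := by
      have h2 : ContinuousAt (fun s => ‖fr (c s)‖) 0 :=
        (fr.continuous.continuousAt.comp hc.continuousAt).norm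
      refine h2.eventually_lt continuousAt_const ?_
      show ‖fr (c 0)‖ < D
      rw [hc0, hn0]; linarith
    have h2 : ∀ᶠ s in 𝓝 (0 : ℝ), ‖t • (v + s • w)‖ < D := by
      have h3 : Continuous (fun s : ℝ => ‖t • (v + s • w)‖) := by fun_prop
      refine h3.continuousAt.eventually_lt continuousAt_const ?_
      rw [zero_smul, add_zero, norm_smul, hv1, mul_one, Real.norm_of_nonneg ht.le]
      linarith
    have h4 : ∀ᶠ s in 𝓝 (0 : ℝ), t * (s ^ 2 * ‖w‖ ^ 2 / 2) < t1 - t := by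
      have h3 : Continuous (fun s : ℝ => t * (s ^ 2 * ‖w‖ ^ 2 / 2)) := by fun_prop
      refine h3.continuousAt.eventually_lt continuousAt_const ?_
      simp only [ne_eq, OfNat.ofNat_ne_zero, not_false_eq_true, zero_pow, zero_mul, zero_div,
        mul_zero]
      linarith
    filter_upwards [h1, h2, h4, hcE] with s h1 h2 h4 h5
    have hvs : v + s • w ∈ G.T p := (G.T p).add_mem hv ((G.T p).smul_mem _ hw)
    have ha : al G p v w (s, t) = Exp G p (t • (v + s • w)) := by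
      rw [Exp_smul G hp hvs]; rfl
    have hd1 := dist_Exp hB hp ((G.T p).smul_mem t hvs) h2.le
    have hd2 := dist_Exp hB hrS (frame_mem hfr (c s)) h1.le
    rw [h5, ha] at hd2
    have hd3 : intrinsicDist S p r = t1 := by
      have := hB.dist_fl (p, v) hz hv1 0 t1 (by linarith) (by linarith)
      rwa [fl_zero, sub_zero] at this
    have hd4 := tri hB hp (Exp_mem G hp ((G.T p).smul_mem t hvs)) hrS
    rw [hd3, hd1, intrinsicDist_comm S _ r, hd2, fr.norm_map] at hd4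
    have h6 : ‖t • (v + s • w)‖ ≤ t * (1 + s ^ 2 * ‖w‖ ^ 2 / 2) := by
      rw [norm_smul, Real.norm_of_nonneg ht.le]
      gcongr
      refine le_of_sq_le_sq ?_ (by positivity) |> fun h => h
      rw [norm_add_sq_real, inner_smul_right, hvw, norm_smul, hv1, mul_pow, Real.norm_eq_abs,
        sq_abs]
      nlinarith [sq_nonneg (s ^ 2 * ‖w‖ ^ 2)]
    rw [hnc]
    have h7 : t1 - t - t * (s ^ 2 * ‖w‖ ^ 2 / 2) ≤ ‖c s‖ := by nlinarith
    have h8 : (t1 - t - t * (s ^ 2 * ‖w‖ ^ 2 / 2)) ^ 2 ≤ ‖c s‖ ^ 2 := by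
      apply pow_le_pow_left₀ (by linarith) h7
    rw [hK]
    nlinarith [sq_nonneg (t * (s ^ 2 * ‖w‖ ^ 2 / 2))]
  have hfin := second_nonneg hg1 hg2 hg3
  -- evaluate
  have h1 : ⟪fderiv ℝ (fderiv ℝ (al G p v w)) (0, t) (1, 0) (1, 0), Vel G r (fr (c 0))⟫ =
      -((t1 - t) * (t * ‖w‖ ^ 2 - ⟪J' G p v w t, J G p v w t⟫)) := by
    rw [hc0, hV0, inner_neg_right, inner_smul_right, inner_second hp hv hw]
  have h2 : ‖V'‖ ≤ C * (2 * ‖J G p v w t‖) := by
    have h3 := hL.vel r hrS (fr c0) (frame_mem hfr c0) (by rw [hn0]; exact htρ)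
      (fr (deriv c 0)) (frame_mem hfr _)
    have h4 := hnear c0 (by rw [hn0]; exact htρ) (deriv c 0)
    have h5 := hcs.self_of_nhds
    rw [hc0, J_def] at h5
    rw [h5] at h4
    refine h3.trans ?_
    have := hL.C_nonneg
    gcongr
  have h3 : ⟪fderiv ℝ (al G p v w) (0, t) (1, 0), V'⟫ ≤ 2 * C * ‖J G p v w t‖ ^ 2 := by
    have h4 := real_inner_le_norm (fderiv ℝ (al G p v w) (0, t) (1, 0)) V'
    rw [J_def] at h4 ⊢
    have h6 : ‖J G p v w t‖ * ‖V'‖ ≤ ‖J G p v w t‖ * (C * (2 * ‖J G p v w t‖)) := by gcongr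
    nlinarith
  rw [h1] at hfin
  rw [hK] at hfin
  nlinarith

/-- (V4): no conjugate points before `D`. -/
theorem no_conj {z : Euc N × Euc N} (hz : z ∈ TS G) (hz1 : ‖z.2‖ = 1) {t0 : ℝ} (h0 : 0 < t0)
    (h0D : t0 < D) {b : Euc N} (hb : b ∈ G.T z.1)
    (h : fderiv ℝ (Exp G z.1) (t0 • z.2) b = 0) : b = 0 := by
  obtain ⟨p, v⟩ := z
  obtain ⟨hp, hv⟩ := hz
  simp only at hp hv hz1 hb h
  have hvb : ⟪v, b⟫ = 0 := by
    have h1 := gauss G hp ((G.T p).smul_mem t0 hv) hb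
    rw [h, inner_zero_left, inner_smul_left] at h1
    exact (mul_eq_zero.1 h1.symm).resolve_left (by simpa using h0.ne')
  have hJ0 : J G p v b t0 = 0 := by rw [J_eq_fderiv hp hv hb, h, smul_zero]
  obtain ⟨ρ, C, hL⟩ := exists_LocC G hB.cpt
  have hρ := hL.ρ_pos
  set t1 := min D (t0 + ρ / 2) with ht1
  have ht01 : t0 < t1 := lt_min h0D (by linarith)
  have ht1ρ : t1 ≤ t0 + ρ / 2 := min_le_right _ _
  -- the inequality near `t0`
  have hin : ∀ᶠ t in 𝓝[<] t0, 0 ≤ (t1 - t) * ⟪J' G p v b t, (t - t0)⁻¹ • J G p v b t⟫ * (-1) +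
      2 * C * ⟪J G p v b t, (t - t0)⁻¹ • J G p v b t⟫ * (-1) := by
    have h1 : ∀ᶠ t in 𝓝[<] t0, max (t0 / 2) (t0 - ρ / 2) < t :=
      nhdsWithin_le_nhds (lt_mem_nhds (max_lt (by linarith) (by linarith)))
    filter_upwards [h1, self_mem_nhdsWithin] with t h1 h2
    have h2' : t < t0 := h2
    have h3 := key_ineq hB hL hp hv hz1 hb hvb (t := t) (t1 := t1)
      (by have := (le_max_left (t0 / 2) (t0 - ρ / 2)).trans_lt h1; linarith) (h2'.trans ht01)
      (min_le_left _ _) (by have := (le_max_right (t0 / 2) (t0 - ρ / 2)).trans_lt h1; linarith)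
    rw [inner_smul_right, inner_smul_right, real_inner_self_eq_norm_sq]
    have h4 : 0 < (-1 : ℝ) * (t - t0)⁻¹ := by
      have h5 : (t - t0)⁻¹ < 0 := inv_lt_zero.2 (by linarith)
      linarith
    have h5 : (t1 - t) * ((t - t0)⁻¹ * ⟪J' G p v b t, J G p v b t⟫) * (-1) +
        2 * C * ((t - t0)⁻¹ * ‖J G p v b t‖ ^ 2) * (-1) = (-1 * (t - t0)⁻¹) *
        ((t1 - t) * ⟪J' G p v b t, J G p v b t⟫ + 2 * C * ‖J G p v b t‖ ^ 2) := by ring
    rw [h5]
    positivity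
  -- limits
  have hJc : Tendsto (J G p v b) (𝓝[<] t0) (𝓝 0) := by
    have := (hasDerivAt_J G hp hv hb t0).continuousAt.tendsto
    rw [hJ0] at this
    exact this.mono_left nhdsWithin_le_nhds
  have hJ'c : Tendsto (J' G p v b) (𝓝[<] t0) (𝓝 (J' G p v b t0)) := by
    have h1 : Continuous (fun t : ℝ => J' G p v b t) := by
      unfold J'
      have h2 := (diff_fderiv (diff_fderiv (contDiff_al G hp hv hb))).continuous
      have h3 : Continuous (fun t : ℝ => fderiv ℝ (fderiv ℝ (al G p v b)) (0, t)) :=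
        h2.comp (Continuous.prodMk continuous_const continuous_id)
      exact (h3.clm_apply continuous_const).clm_apply continuous_const
    exact (h1.tendsto t0).mono_left nhdsWithin_le_nhds
  have hsl : Tendsto (fun t => (t - t0)⁻¹ • J G p v b t) (𝓝[<] t0) (𝓝 (J' G p v b t0)) := by
    have h1 := (hasDerivAt_iff_tendsto_slope.1 (hasDerivAt_J G hp hv hb t0)).mono_left
      (nhdsWithin_mono t0 (fun x (hx : x < t0) => ne_of_lt hx))
    refine h1.congr fun t => ?_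
    rw [slope_def_module, hJ0, sub_zero]
  have hlim : Tendsto (fun t => (t1 - t) * ⟪J' G p v b t, (t - t0)⁻¹ • J G p v b t⟫ * (-1) +
      2 * C * ⟪J G p v b t, (t - t0)⁻¹ • J G p v b t⟫ * (-1)) (𝓝[<] t0)
      (𝓝 ((t1 - t0) * ⟪J' G p v b t0, J' G p v b t0⟫ * (-1) +
        2 * C * ⟪(0 : Euc N), J' G p v b t0⟫ * (-1))) := by
    have h1 : Tendsto (fun t : ℝ => t1 - t) (𝓝[<] t0) (𝓝 (t1 - t0)) :=
      ((continuous_const.sub continuous_id).tendsto t0).mono_left nhdsWithin_le_nhds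
    exact ((h1.mul (hJ'c.inner hsl)).mul_const _).add
      (((hJc.inner hsl).const_mul _).mul_const _)
  have h1 := ge_of_tendsto hlim hin
  rw [inner_zero_left, real_inner_self_eq_norm_sq] at h1
  have h2 : ‖J' G p v b t0‖ ^ 2 ≤ 0 := by nlinarith
  have h3 : J' G p v b t0 = 0 := by
    have h4 : ‖J' G p v b t0‖ = 0 := by
      have := sq_nonneg ‖J' G p v b t0‖
      exact pow_eq_zero_iff (two_ne_zero) |>.1 (le_antisymm h2 this)
    exact norm_eq_zero.1 h4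
  exact J_unique hp hv hb hJ0 h3

end V4

end Crest.Agent.R208.I
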