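import Crest.Agent.R208.N3

-- ▼ part R208/N4
section

/-!
R208, block G6 (helper589), part N4: reduction of the loop by the isotropic space `P` of Jacobi
fields vanishing at `0` and at `π`.
-/

set_option autoImplicit false

open Real Matrix Filter Topology

namespace Crest.Agent.R208.N

/-- orthonormal frame adapted to the kernel of `B` -/
structure Fr {m : ℕ} (B : Matrix (Fin m) (Fin m) ℝ) (α β : Type) [Fintype α] [DecidableEq α]
    [Fintype β] [DecidableEq β] where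
  X : Matrix (Fin m) α ℝ
  Y : Matrix (Fin m) β ℝ
  XX : Xᵀ * X = 1
  YY : Yᵀ * Y = 1
  XY : Xᵀ * Y = 0
  sum : X * Xᵀ + Y * Yᵀ = 1
  BX : B * X = 0
  inj : ∀ y : β → ℝ, B *ᵥ (Y *ᵥ y) = 0 → y = 0

theorem exists_fr {m : ℕ} (B : Matrix (Fin m) (Fin m) ℝ) :
    ∃ (α β : Type) (_ : Fintype α) (_ : DecidableEq α) (_ : Fintype β) (_ : DecidableEq β),
      Fintype.card α + B.rank = m ∧ Fintype.card β = B.rank ∧ Nonempty (Fr B α β) := by
  classical
  have hH : (Bᵀ * B).IsHermitian := by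
    have := Matrix.isHermitian_conjTranspose_mul_self B
    simpa [conjTranspose_eq_transpose_of_trivial] using this
  set l := hH.eigenvalues with hl
  let O : Matrix (Fin m) (Fin m) ℝ := Matrix.of fun i j => hH.eigenvectorBasis j i
  have hO : Oᵀ * O = 1 := by
    ext i j
    have h := orthonormal_iff_ite.1 hH.eigenvectorBasis.orthonormal i j
    rw [EuclideanSpace.inner_eq_star_dotProduct] at h
    simp only [Matrix.mul_apply, transpose_apply, Matrix.one_apply, O, Matrix.of_apply]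
    simpa [dotProduct, mul_comm] using h
  have hO' : O * Oᵀ = 1 := mul_eq_one_comm.1 hO
  have hsub : ∀ {γ δ : Type} (f : γ → Fin m) (g : δ → Fin m),
      (Oᵀ.submatrix f id) * (O.submatrix id g) = (Oᵀ * O).submatrix f g := by
    intro γ δ f g; ext i j; simp [Matrix.mul_apply]
  have hev : ∀ j, (Bᵀ * B) *ᵥ (fun i => O i j) = l j • (fun i => O i j) := by
    intro j
    exact hH.mulVec_eigenvectorBasis j
  let α := {j : Fin m // l j = 0}
  let β := {j : Fin m // l j ≠ 0}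
  refine ⟨α, β, inferInstance, inferInstance, inferInstance, inferInstance, ?_, ?_, ⟨⟨
    O.submatrix id Subtype.val, O.submatrix id Subtype.val, ?_, ?_, ?_, ?_, ?_, ?_⟩⟩⟩
  · have h1 := hH.rank_eq_card_non_zero_eigs
    rw [rank_transpose_mul_self] at h1
    rw [h1]
    have h2 := Fintype.card_subtype_compl (fun j : Fin m => l j = 0)
    have h3 := Fintype.card_subtype_le (fun j : Fin m => l j = 0)
    simp only [Fintype.card_fin] at h2 h3
    show Fintype.card {j : Fin m // l j = 0} + Fintype.card {j : Fin m // ¬ (l j = 0)} = m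
    rw [h2]; omega
  · have h1 := hH.rank_eq_card_non_zero_eigs
    rw [rank_transpose_mul_self] at h1
    exact h1.symm
  · rw [transpose_submatrix, hsub, hO]
    exact submatrix_one _ Subtype.val_injective
  · rw [transpose_submatrix, hsub, hO]
    exact submatrix_one _ Subtype.val_injective
  · rw [transpose_submatrix, hsub, hO]
    ext i j
    have : (i : Fin m) ≠ j := by
      intro h; exact j.2 (h ▸ i.2)
    simp [this]
  · rw [← hO']
    ext i j
    simp only [Matrix.add_apply, Matrix.mul_apply, submatrix_apply, transpose_apply, id]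
    exact Fintype.sum_subtype_add_sum_subtype (fun k => l k = 0) (fun k => O i k * O j k)
  · have : ∀ j : α, B *ᵥ (fun i => O i j) = 0 := by
      intro j
      have h := hev j
      rw [j.2, zero_smul] at h
      rw [← conjTranspose_eq_transpose_of_trivial] at h
      exact (conjTranspose_mul_self_mulVec_eq_zero _ _).1 h
    ext i j
    have h := congrFun (this j) i
    simpa [Matrix.mul_apply, mulVec, dotProduct] using h
  · intro y hy
    have h1 : (Bᵀ * B) *ᵥ ((O.submatrix id (Subtype.val : β → Fin m)) *ᵥ y) = 0 := by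
      rw [← mulVec_mulVec, hy, mulVec_zero]
    have h2 : (Bᵀ * B) *ᵥ ((O.submatrix id (Subtype.val : β → Fin m)) *ᵥ y) =
        (O.submatrix id (Subtype.val : β → Fin m)) *ᵥ (fun j => l j * y j) := by
      rw [mulVec_mulVec]
      ext i
      simp only [mulVec, dotProduct, Matrix.mul_apply, submatrix_apply, id]
      refine Finset.sum_congr rfl fun j _ => ?_
      have h := congrFun (hev j) i
      simp only [mulVec, dotProduct, Matrix.mul_apply, Pi.smul_apply, smul_eq_mul] at h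
      rw [h]; ring
    rw [h1] at h2
    have h3 : (O.submatrix id (Subtype.val : β → Fin m))ᵀ *ᵥ
      ((O.submatrix id (Subtype.val : β → Fin m)) *ᵥ (fun j => l j * y j)) = 0 := by
      rw [← h2, mulVec_zero]
    rw [mulVec_mulVec, transpose_submatrix, hsub, hO,
      submatrix_one _ Subtype.val_injective, one_mulVec] at h3
    ext j
    have h := congrFun h3 j
    simp only [Pi.zero_apply, mul_eq_zero] at h
    exact h.resolve_left j.2


section bord

variable {m : ℕ} {B : Matrix (Fin m) (Fin m) ℝ} {α β : Type} [Fintype α] [DecidableEq α]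
    [Fintype β] [DecidableEq β] (F : Fr B α β)

lemma Fr.YX : F.Yᵀ * F.X = 0 := by
  have h := congrArg Matrix.transpose F.XY
  simpa [transpose_mul] using h

include F in
lemma Fr.card : Fintype.card α + Fintype.card β = m := by
  have h := congrArg Matrix.trace F.sum
  rw [trace_add, trace_mul_comm, trace_mul_comm F.Y, F.XX, F.YY, trace_one, trace_one,
    trace_one, Fintype.card_fin] at h
  exact_mod_cast h

theorem abs_det_bord (N : Matrix (Fin m) (Fin m) ℝ) :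
    |(fromBlocks N F.X F.Xᵀ 0).det| = |(F.Yᵀ * N * F.Y).det| := by
  set S : Matrix (Fin m ⊕ α) (Fin m ⊕ α) ℝ := fromBlocks (F.Y * F.Yᵀ) F.X F.Xᵀ 0 with hS
  have hSS : S * S = 1 := by
    rw [hS, fromBlocks_multiply, ← fromBlocks_one]
    congr 1
    · rw [Matrix.mul_assoc, ← Matrix.mul_assoc F.Yᵀ, F.YY, Matrix.one_mul, add_comm]
      exact F.sum
    · rw [Matrix.mul_assoc, F.YX]; simp
    · rw [← Matrix.mul_assoc, F.XY]; simp
    · rw [F.XX]; simp
  have hdS : |S.det| = 1 := by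
    have h := congrArg Matrix.det hSS
    rw [det_mul, det_one] at h
    have h2 : |S.det| * |S.det| = 1 := by rw [← abs_mul, h, abs_one]
    nlinarith [abs_nonneg S.det]
  have hJS : fromBlocks N F.X F.Xᵀ 0 * S =
      fromBlocks (1 + ((N - 1) * F.Y) * F.Yᵀ) (N * F.X) 0 1 := by
    rw [hS, fromBlocks_multiply]
    congr 1
    · have h := F.sum
      rw [← eq_sub_iff_add_eq] at h
      rw [h, Matrix.sub_mul, Matrix.sub_mul, Matrix.one_mul, Matrix.mul_assoc]
      abel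
    · simp
    · rw [← Matrix.mul_assoc, F.XY]; simp
    · rw [F.XX]; simp
  have h1 : |(fromBlocks N F.X F.Xᵀ 0).det| = |(fromBlocks N F.X F.Xᵀ 0 * S).det| := by
    rw [det_mul, abs_mul, hdS, mul_one]
  rw [h1, hJS, det_fromBlocks_zero₂₁, det_one, mul_one, det_one_add_mul_comm]
  congr 2
  rw [← Matrix.mul_assoc, Matrix.mul_sub, Matrix.sub_mul, Matrix.mul_one, F.YY]
  abel

end bord


lemma dot_mul {ι κ μ : Type*} [Fintype ι] [Fintype κ] [Fintype μ] (A : Matrix μ ι ℝ)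
    (B : Matrix μ κ ℝ) (x : ι → ℝ) (y : κ → ℝ) :
    (A *ᵥ x) ⬝ᵥ (B *ᵥ y) = x ⬝ᵥ ((Aᵀ * B) *ᵥ y) := by
  rw [dotProduct_comm, dotProduct_mulVec, ← mulVec_transpose, mulVec_mulVec, dotProduct_comm]

namespace JLoop

variable {m a : ℕ} (G : JLoop m a) {α β : Type} [Fintype α] [DecidableEq α]
    [Fintype β] [DecidableEq β] (F : Fr (G.V π) α β)

lemma VX_of_sin {s : ℝ} (h : sin s = 0) : G.V s * F.X = 0 := by
  have key : ∀ (f : ℝ → Matrix (Fin m) α ℝ), (∀ s, f (s + 2 * π) = G.Q * f s) →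
      ∀ (k : ℤ) (x : ℝ), f x = 0 → f (x + k * (2 * π)) = 0 := by
    intro f hf k
    induction k using Int.induction_on with
    | zero => intro x hx; simpa using hx
    | succ k ih =>
      intro x hx
      have h1 := ih x hx
      have h2 := hf (x + k * (2 * π))
      have e : x + ((k : ℤ) + 1 : ℤ) * (2 * π) = x + ((k : ℤ) : ℝ) * (2 * π) + 2 * π := by
        push_cast; ring
      rw [e]
      have h1' : f (x + ((k : ℤ) : ℝ) * (2 * π)) = 0 := h1
      rw [hf, h1', Matrix.mul_zero]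
    | pred k ih =>
      intro x hx
      have h1 := ih x hx
      have e : x + (-(k : ℤ) : ℤ) * (2 * π) = x + ((-(k : ℤ) - 1 : ℤ) : ℝ) * (2 * π) + 2 * π := by
        push_cast; ring
      rw [e, hf] at h1
      have h3 := congrArg (fun M => (G.Q)ᵀ * M) h1
      simp only [← Matrix.mul_assoc, G.Q_orth, Matrix.one_mul, Matrix.mul_zero] at h3
      exact h3
  have hper : ∀ s, G.V (s + 2 * π) * F.X = G.Q * (G.V s * F.X) := by
    intro s; rw [G.V_per, Matrix.mul_assoc]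
  obtain ⟨n, hn⟩ := sin_eq_zero_iff.1 h
  rcases Int.even_or_odd' n with ⟨k, hk | hk⟩
  · have h0 := key (fun s => G.V s * F.X) hper k 0 (by simp [G.V_zero])
    have e : s = 0 + k * (2 * π) := by rw [← hn, hk]; push_cast; ring
    rw [e]; exact h0
  · have h0 := key (fun s => G.V s * F.X) hper k π F.BX
    have e : s = π + k * (2 * π) := by rw [← hn, hk]; push_cast; ring
    rw [e]; exact h0

/-- normalised frame of the fields of `P` at `s` -/
noncomputable def Mt (s : ℝ) : Matrix (Fin m) α ℝ :=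
  if sin s = 0 then (cos s)⁻¹ • (G.Vd s * F.X) else (sin s)⁻¹ • (G.V s * F.X)

lemma Mt_spec (s : ℝ) : sin s • G.Mt F s = G.V s * F.X := by
  unfold Mt
  split_ifs with h
  · rw [h, zero_smul, G.VX_of_sin F h]
  · rw [smul_smul, mul_inv_cancel₀ h, one_smul]

lemma cos_ne_of_sin {s : ℝ} (h : sin s = 0) : cos s ≠ 0 := by
  intro h2
  have := sin_sq_add_cos_sq s
  rw [h, h2] at this; norm_num at this

lemma Mt_per (s : ℝ) : G.Mt F (s + 2 * π) = G.Q * G.Mt F s := by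
  unfold Mt
  rw [sin_add_two_pi, cos_add_two_pi, G.V_per, G.Vd_per]
  split_ifs <;> simp [Matrix.mul_assoc]

lemma Mt_zero : G.Mt F 0 = F.X := by
  unfold Mt; simp [G.Vd_zero]

lemma continuous_Mt : Continuous (G.Mt F) := by
  refine continuous_iff_continuousAt.2 fun s₀ => ?_
  have hVX : ∀ s, HD (fun s => G.V s * F.X) (G.Vd s * F.X) s := fun s => (G.hV s).mul_const _
  by_cases h0 : sin s₀ = 0
  · refine continuousAt_pi.2 fun i => continuousAt_pi.2 fun j => ?_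
    rw [continuousAt_iff_punctured_nhds]
    have h1 := hasDerivAt_iff_tendsto_slope.1 (hVX s₀ i j)
    have h2 := hasDerivAt_iff_tendsto_slope.1 (hasDerivAt_sin s₀)
    have hc := cos_ne_of_sin h0
    have h3 := h1.div h2 hc
    have hev : ∀ᶠ s in 𝓝[≠] s₀, sin s ≠ 0 := (hasDerivAt_sin s₀).eventually_ne hc
    have e : G.Mt F s₀ i j = (G.Vd s₀ * F.X) i j / cos s₀ := by
      unfold Mt; rw [if_pos h0, Matrix.smul_apply, smul_eq_mul]; ring
    show Tendsto (fun s => G.Mt F s i j) (𝓝[≠] s₀) (𝓝 (G.Mt F s₀ i j))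
    rw [e]
    refine h3.congr' ?_
    filter_upwards [hev, self_mem_nhdsWithin] with s hs hs'
    have hs'' : s - s₀ ≠ 0 := sub_ne_zero.2 hs'
    have hz := G.VX_of_sin F h0
    have e2 : G.Mt F s i j = (sin s)⁻¹ * (G.V s * F.X) i j := by
      unfold Mt; rw [if_neg hs, Matrix.smul_apply, smul_eq_mul]
    rw [Pi.div_apply, slope_def_field, slope_def_field, e2, h0, hz]
    simp only [Matrix.zero_apply, sub_zero]
    field_simp
  · have h1 : ContinuousAt (fun s => (sin s)⁻¹ • (G.V s * F.X)) s₀ :=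
      (continuous_sin.continuousAt.inv₀ h0).smul (hVX s₀).continuousAt
    refine h1.congr ?_
    filter_upwards [continuous_sin.continuousAt.eventually_ne h0] with s hs
    unfold Mt; rw [if_neg hs]

/-- desingularised `V` -/
noncomputable def Vt (s : ℝ) : Matrix (Fin m) (Fin m) ℝ :=
  G.V s * (F.Y * F.Yᵀ) + G.Mt F s * F.Xᵀ

lemma continuous_V : Continuous G.V := continuous_of_HD G.hV
lemma continuous_U : Continuous G.U := continuous_of_HD G.hU
lemma continuous_Vd : Continuous G.Vd := continuous_of_HD G.hVd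
lemma continuous_Ud : Continuous G.Ud := continuous_of_HD G.hUd

lemma continuous_Vt : Continuous (G.Vt F) :=
  (G.continuous_V.matrix_mul continuous_const).add
    ((G.continuous_Mt F).matrix_mul continuous_const)

lemma Vt_X (s : ℝ) : G.Vt F s * F.X = G.Mt F s := by
  rw [Vt, Matrix.add_mul, Matrix.mul_assoc, Matrix.mul_assoc, F.YX, Matrix.mul_assoc, F.XX]
  simp

lemma Vt_Y (s : ℝ) : G.Vt F s * F.Y = G.V s * F.Y := by
  rw [Vt, Matrix.add_mul, Matrix.mul_assoc, Matrix.mul_assoc, F.YY, Matrix.mul_assoc, F.XY]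
  simp

/-- `E s = Y Yᵀ + sin s X Xᵀ` -/
noncomputable def Es (s : ℝ) : Matrix (Fin m) (Fin m) ℝ := F.Y * F.Yᵀ + sin s • (F.X * F.Xᵀ)

lemma V_eq (s : ℝ) : G.V s = G.Vt F s * G.Es F s := by
  rw [Es, Matrix.mul_add, ← Matrix.mul_assoc, Vt_Y, Matrix.mul_smul, ← Matrix.mul_assoc, Vt_X,
    ← Matrix.smul_mul, Mt_spec, Matrix.mul_assoc, Matrix.mul_assoc, ← Matrix.mul_add, add_comm,
    F.sum, Matrix.mul_one]

lemma Y_Es (s : ℝ) : F.Yᵀ * G.Es F s = F.Yᵀ := by
  rw [Es, Matrix.mul_add, ← Matrix.mul_assoc, F.YY, Matrix.mul_smul, ← Matrix.mul_assoc, F.YX]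
  simp

lemma Es_Y (s : ℝ) : G.Es F s * F.Y = F.Y := by
  rw [Es, Matrix.add_mul, Matrix.mul_assoc, F.YY, Matrix.smul_mul, Matrix.mul_assoc, F.XY]
  simp

lemma Es_transpose (s : ℝ) : (G.Es F s)ᵀ = G.Es F s := by
  rw [Es, transpose_add, transpose_smul, transpose_mul, transpose_mul, transpose_transpose,
    transpose_transpose]

lemma det_Vt_ne {s : ℝ} (h0 : 0 < s) (h1 : s < 2 * π) : (G.Vt F s).det ≠ 0 := by
  by_cases hs : s = π
  · subst hs
    intro hdet
    obtain ⟨z, hz, hz'⟩ := Matrix.exists_mulVec_eq_zero_iff.2 hdet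
    apply hz
    -- decompose
    set x := F.X *ᵥ (F.Xᵀ *ᵥ z) with hx
    set p := F.Y *ᵥ (F.Yᵀ *ᵥ z) with hp
    have hzxp : z = x + p := by
      rw [hx, hp, mulVec_mulVec, mulVec_mulVec, ← add_mulVec, F.sum, one_mulVec]
    have hM : G.Mt F π = -(G.Vd π * F.X) := by
      unfold Mt; simp
    have h2 : G.V π *ᵥ p = G.Vd π *ᵥ x := by
      rw [Vt, add_mulVec, hM] at hz'
      have e1 : (G.V π * (F.Y * F.Yᵀ)) *ᵥ z = G.V π *ᵥ p := by
        rw [hp, mulVec_mulVec, mulVec_mulVec, Matrix.mul_assoc]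
      have e2 : (-(G.Vd π * F.X) * F.Xᵀ) *ᵥ z = - (G.Vd π *ᵥ x) := by
        rw [hx, mulVec_mulVec, mulVec_mulVec, Matrix.neg_mul, neg_mulVec]
      rw [e1, e2, ← sub_eq_add_neg, sub_eq_zero] at hz'
      exact hz'
    have hVx : G.V π *ᵥ x = 0 := by
      rw [hx, mulVec_mulVec, F.BX, zero_mulVec]
    have h3 : (G.Vd π *ᵥ x) ⬝ᵥ (G.Vd π *ᵥ x) = 0 := by
      have e : (G.Vd π *ᵥ x) ⬝ᵥ (G.Vd π *ᵥ x) = (G.Vd π *ᵥ x) ⬝ᵥ (G.V π *ᵥ p) := by rw [h2]
      rw [e, dot_mul, ← G.w_VV, ← dot_mul, hVx, zero_dotProduct]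
    have h4 : G.Vd π *ᵥ x = 0 := dotProduct_self_eq_zero.1 h3
    have hx0 : x = 0 := by
      have h5 := congrArg (fun M => M *ᵥ x) (G.w_UV π)
      simp only [sub_mulVec, one_mulVec, ← mulVec_mulVec, h4, hVx, mulVec_zero, sub_zero] at h5
      exact h5.symm
    have hp0 : p = 0 := by
      rw [h4] at h2
      have := F.inj _ (by rw [← hp]; exact h2)
      rw [hp, this, mulVec_zero]
    rw [hzxp, hx0, hp0, add_zero]
  · have h2 := G.det_ne (s := 0) (t := s) (by linarith) (by linarith) (by simpa using hs)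
    have h3 : G.V s = G.Vt F s * G.Es F s := G.V_eq F s
    intro h4
    apply h2
    show (G.V s).det = 0
    rw [h3, det_mul, h4, zero_mul]

end JLoop

end Crest.Agent.R208.N
end

-- ▼ part R208/N4b

/-!
R208, block G6 (helper589), part N4b: the chart `KP` of the reduced loop, its monotonicity, the
bordered determinant `DP` and its properties.
-/

set_option autoImplicit false

open Real Matrix Filter Topology Set

namespace Crest.Agent.R208.N
namespace JLoop

variable {m a : ℕ} (G : JLoop m a) {α β : Type} [Fintype α] [DecidableEq α]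
    [Fintype β] [DecidableEq β] (F : Fr (G.V π) α β)

/-- the chart of the reduced loop at `Λ_0` -/
noncomputable def KP (s : ℝ) : Matrix β β ℝ := -(F.Yᵀ * (G.Vt F s)⁻¹ * G.U s * F.Y)

lemma continuousAt_KP {s : ℝ} (h0 : 0 < s) (h1 : s < 2 * π) : ContinuousAt (G.KP F) s := by
  have h2 : ContinuousAt (fun s => (G.Vt F s)⁻¹) s :=
    continuousAt_inv' (G.continuous_Vt F).continuousAt (G.det_Vt_ne F h0 h1)
  unfold KP
  have h3 : ContinuousAt (fun s => F.Yᵀ * (G.Vt F s)⁻¹) s :=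
    (Continuous.matrix_mul (continuous_const (y := F.Yᵀ)) continuous_id).continuousAt.comp h2
  have h4 : ContinuousAt (fun s => F.Yᵀ * (G.Vt F s)⁻¹ * G.U s) s := by
    have : Continuous fun p : Matrix β (Fin m) ℝ × Matrix (Fin m) (Fin m) ℝ => p.1 * p.2 :=
      continuous_fst.matrix_mul continuous_snd
    exact this.continuousAt.comp (h3.prodMk G.continuous_U.continuousAt)
  have h5 : ContinuousAt (fun s => F.Yᵀ * (G.Vt F s)⁻¹ * G.U s * F.Y) s :=
    (Continuous.matrix_mul continuous_id (continuous_const (y := F.Y))).continuousAt.comp h4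
  exact h5.neg

lemma isUnit_Vt {s : ℝ} (h0 : 0 < s) (h1 : s < 2 * π) : IsUnit (G.Vt F s).det :=
  isUnit_iff_ne_zero.2 (G.det_Vt_ne F h0 h1)

/-- `A` in the desingularised frames -/
noncomputable def NN (s t : ℝ) : Matrix (Fin m) (Fin m) ℝ :=
  (G.Vt F t)⁻¹ * G.A s t * ((G.Vt F s)⁻¹)ᵀ

lemma A_eq_NN {s t : ℝ} (hs0 : 0 < s) (hs1 : s < 2 * π) (ht0 : 0 < t) (ht1 : t < 2 * π) :
    G.A s t = G.Vt F t * G.NN F s t * (G.Vt F s)ᵀ := by
  unfold NN
  have e : ((G.Vt F s)⁻¹)ᵀ * (G.Vt F s)ᵀ = 1 := by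
    rw [← transpose_mul, Matrix.mul_nonsing_inv _ (G.isUnit_Vt F hs0 hs1), transpose_one]
  rw [Matrix.mul_assoc, Matrix.mul_assoc, Matrix.mul_assoc, e, Matrix.mul_one,
    ← Matrix.mul_assoc, Matrix.mul_nonsing_inv _ (G.isUnit_Vt F ht0 ht1), Matrix.one_mul]

lemma Y_NN_Y {s t : ℝ} (hs0 : 0 < s) (hs1 : s < 2 * π) (ht0 : 0 < t) (ht1 : t < 2 * π) :
    F.Yᵀ * G.NN F s t * F.Y = G.KP F t - (G.KP F s)ᵀ := by
  have hs := G.isUnit_Vt F hs0 hs1
  have ht := G.isUnit_Vt F ht0 ht1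
  have e1 : (G.Vt F t)⁻¹ * G.V t = G.Es F t := by
    conv_lhs => rw [G.V_eq F t]
    rw [← Matrix.mul_assoc, Matrix.nonsing_inv_mul _ ht, Matrix.one_mul]
  have e2 : (G.V s)ᵀ * ((G.Vt F s)⁻¹)ᵀ = G.Es F s := by
    rw [← transpose_mul]
    conv_lhs => rw [G.V_eq F s]
    rw [← Matrix.mul_assoc, Matrix.nonsing_inv_mul _ hs, Matrix.one_mul, G.Es_transpose]
  have e3 : G.NN F s t = G.Es F t * ((G.U s)ᵀ * ((G.Vt F s)⁻¹)ᵀ)
      - (G.Vt F t)⁻¹ * G.U t * G.Es F s := by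
    unfold NN
    rw [G.A_eq, Matrix.mul_sub, Matrix.sub_mul, ← e1, ← e2]
    simp only [Matrix.mul_assoc]
  rw [e3, Matrix.mul_sub, Matrix.sub_mul, ← Matrix.mul_assoc F.Yᵀ (G.Es F t), G.Y_Es]
  have e4 : F.Yᵀ * ((G.Vt F t)⁻¹ * G.U t * G.Es F s) * F.Y = F.Yᵀ * ((G.Vt F t)⁻¹ * G.U t) * F.Y := by
    rw [Matrix.mul_assoc, Matrix.mul_assoc ((G.Vt F t)⁻¹ * G.U t), G.Es_Y, ← Matrix.mul_assoc]
  rw [e4]
  unfold KP
  simp only [transpose_neg, transpose_mul, transpose_transpose, Matrix.mul_assoc]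
  abel

lemma KP_symm {s : ℝ} (hs0 : 0 < s) (hs1 : s < 2 * π) : (G.KP F s)ᵀ = G.KP F s := by
  have h := G.Y_NN_Y F hs0 hs1 hs0 hs1
  have e : G.NN F s s = 0 := by unfold NN; rw [G.A_diag]; simp
  rw [e] at h
  simp only [Matrix.mul_zero, Matrix.zero_mul] at h
  exact (sub_eq_zero.1 h.symm).symm

lemma hKP {s : ℝ} (hs0 : 0 < s) (hs1 : s < 2 * π) (hs : s ≠ π) :
    HD (G.KP F) (F.Yᵀ * ((G.V s)⁻¹ * ((G.V s)⁻¹)ᵀ) * F.Y) s := by
  have hdet : (G.V s).det ≠ 0 := G.det_ne (s := 0) (by linarith) (by linarith) (by simpa using hs)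
  have hu : IsUnit (G.V s).det := isUnit_iff_ne_zero.2 hdet
  have h1 := ((G.hV s).inv hdet).mul (G.hU s)
  have h2 := ((h1.const_mul F.Yᵀ).mul_const F.Y).neg
  have hev : G.KP F =ᶠ[𝓝 s] fun s => -(F.Yᵀ * ((G.V s)⁻¹ * G.U s) * F.Y) := by
    have hev1 : ∀ᶠ t in 𝓝 s, 0 < t := eventually_gt_nhds hs0
    have hev2 : ∀ᶠ t in 𝓝 s, t < 2 * π := eventually_lt_nhds hs1
    filter_upwards [hev1, hev2, eventually_det_ne G.continuous_V.continuousAt hdet] with t a1 a2 a3
    have hut : IsUnit (G.V t).det := isUnit_iff_ne_zero.2 a3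
    have e1 : (G.Vt F t)⁻¹ * G.V t = G.Es F t := by
      conv_lhs => rw [G.V_eq F t]
      rw [← Matrix.mul_assoc, Matrix.nonsing_inv_mul _ (G.isUnit_Vt F a1 a2), Matrix.one_mul]
    have e2 : F.Yᵀ * (G.Vt F t)⁻¹ = F.Yᵀ * (G.V t)⁻¹ := by
      have e3 : F.Yᵀ * ((G.Vt F t)⁻¹ * G.V t) * (G.V t)⁻¹ = F.Yᵀ * (G.V t)⁻¹ := by
        rw [e1, G.Y_Es]
      rw [← e3, Matrix.mul_assoc, Matrix.mul_assoc, Matrix.mul_nonsing_inv _ hut, Matrix.mul_one]
    show -(F.Yᵀ * (G.Vt F t)⁻¹ * G.U t * F.Y) = _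
    rw [e2, Matrix.mul_assoc F.Yᵀ]
  have h3 : HD (G.KP F) (-(F.Yᵀ * (-((G.V s)⁻¹ * G.Vd s * (G.V s)⁻¹) * G.U s + (G.V s)⁻¹ * G.Ud s)
      * F.Y)) s := by
    intro i j
    refine (h2 i j).congr_of_eventuallyEq ?_
    filter_upwards [hev] with t ht
    rw [ht]
  refine h3.congr_deriv ?_
  have e1 : (G.V s)⁻¹ * G.U s = (G.U s)ᵀ * ((G.V s)⁻¹)ᵀ := by
    have h := (G.sympl s).2.1
    have e : (G.V s)⁻¹ * (G.U s * (G.V s)ᵀ) * ((G.V s)⁻¹)ᵀ =
        (G.V s)⁻¹ * (G.V s * (G.U s)ᵀ) * ((G.V s)⁻¹)ᵀ := by rw [h]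
    rw [← Matrix.mul_assoc, Matrix.mul_assoc ((G.V s)⁻¹ * G.U s), ← transpose_mul,
      Matrix.nonsing_inv_mul _ hu, transpose_one, Matrix.mul_one, ← Matrix.mul_assoc,
      Matrix.nonsing_inv_mul _ hu, Matrix.one_mul] at e
    exact e
  have e2 : G.Vd s * (G.U s)ᵀ * ((G.V s)⁻¹)ᵀ - G.Ud s = ((G.V s)⁻¹)ᵀ := by
    have h := (G.sympl s).2.2.2
    have e : (G.Vd s * (G.U s)ᵀ - G.Ud s * (G.V s)ᵀ) * ((G.V s)⁻¹)ᵀ = 1 * ((G.V s)⁻¹)ᵀ := by rw [h]
    rw [Matrix.sub_mul, Matrix.mul_assoc (G.Ud s), ← transpose_mul,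
      Matrix.nonsing_inv_mul _ hu, transpose_one, Matrix.mul_one, Matrix.one_mul] at e
    exact e
  rw [← Matrix.neg_mul, ← Matrix.mul_neg]
  congr 2
  rw [← e2, Matrix.mul_sub, Matrix.mul_assoc (G.Vd s), ← e1]
  simp only [neg_add_rev, Matrix.neg_mul, neg_neg, Matrix.mul_assoc]
  abel

/-- the quadratic form of `KP` -/
noncomputable def kq (y : β → ℝ) (s : ℝ) : ℝ := y ⬝ᵥ (G.KP F s *ᵥ y)

lemma kq_eq (y : β → ℝ) (s : ℝ) : G.kq F y s = ∑ i, ∑ j, y i * (G.KP F s i j * y j) := by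
  simp only [kq, dotProduct, mulVec, Finset.mul_sum]

lemma continuousAt_kq (y : β → ℝ) {s : ℝ} (h0 : 0 < s) (h1 : s < 2 * π) :
    ContinuousAt (G.kq F y) s := by
  have h := G.continuousAt_KP F h0 h1
  have e : G.kq F y = fun s => ∑ i, ∑ j, y i * (G.KP F s i j * y j) := by
    funext s; exact G.kq_eq F y s
  rw [e]
  refine tendsto_finsetSum _ fun i _ => tendsto_finsetSum _ fun j _ => ?_
  have h2 : ContinuousAt (fun s => G.KP F s i j) s :=
    continuousAt_pi.1 (continuousAt_pi.1 h i) j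
  exact (continuousAt_const.mul (h2.mul continuousAt_const) :)

lemma hasDerivAt_kq (y : β → ℝ) {s : ℝ} (hs0 : 0 < s) (hs1 : s < 2 * π) (hs : s ≠ π) :
    HasDerivAt (G.kq F y)
      ((((G.V s)⁻¹)ᵀ *ᵥ (F.Y *ᵥ y)) ⬝ᵥ (((G.V s)⁻¹)ᵀ *ᵥ (F.Y *ᵥ y))) s := by
  have h := G.hKP F hs0 hs1 hs
  have e : G.kq F y = fun s => ∑ i, ∑ j, y i * (G.KP F s i j * y j) := by
    funext s; exact G.kq_eq F y s
  rw [e]
  have h2 : HasDerivAt (fun s => ∑ i, ∑ j, y i * (G.KP F s i j * y j))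
      (∑ i, ∑ j, y i * ((F.Yᵀ * ((G.V s)⁻¹ * ((G.V s)⁻¹)ᵀ) * F.Y) i j * y j)) s :=
    HasDerivAt.fun_sum fun i _ => HasDerivAt.fun_sum fun j _ =>
      ((h i j).mul_const (y j)).const_mul (y i)
  refine h2.congr_deriv ?_
  have e3 : ∑ i, ∑ j, y i * ((F.Yᵀ * ((G.V s)⁻¹ * ((G.V s)⁻¹)ᵀ) * F.Y) i j * y j) =
      y ⬝ᵥ ((F.Yᵀ * ((G.V s)⁻¹ * ((G.V s)⁻¹)ᵀ) * F.Y) *ᵥ y) := by
    simp only [dotProduct, mulVec, Finset.mul_sum]
  rw [e3, mulVec_mulVec, dot_mul]
  congr 2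
  simp only [transpose_mul, transpose_transpose, Matrix.mul_assoc]

lemma kq_strictMono {y : β → ℝ} (hy : y ≠ 0) : StrictMonoOn (G.kq F y) (Ioo 0 (2 * π)) := by
  have hpos : ∀ s, 0 < s → s < 2 * π → s ≠ π → 0 < deriv (G.kq F y) s := by
    intro s h0 h1 h2
    rw [(G.hasDerivAt_kq F y h0 h1 h2).deriv]
    have hdet : (G.V s).det ≠ 0 :=
      G.det_ne (s := 0) (by linarith) (by linarith) (by simpa using h2)
    have hu : IsUnit (G.V s).det := isUnit_iff_ne_zero.2 hdet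
    have hne : ((G.V s)⁻¹)ᵀ *ᵥ (F.Y *ᵥ y) ≠ 0 := by
      intro h
      apply hy
      have h3 : (F.Yᵀ * (G.V s)ᵀ) *ᵥ (((G.V s)⁻¹)ᵀ *ᵥ (F.Y *ᵥ y)) = 0 := by rw [h, mulVec_zero]
      rw [mulVec_mulVec, mulVec_mulVec, Matrix.mul_assoc F.Yᵀ, ← transpose_mul,
        Matrix.nonsing_inv_mul _ hu, transpose_one, Matrix.mul_one, F.YY, one_mulVec] at h3
      exact h3
    have h4 := dotProduct_star_self_nonneg (((G.V s)⁻¹)ᵀ *ᵥ (F.Y *ᵥ y))
    have h5 : (((G.V s)⁻¹)ᵀ *ᵥ (F.Y *ᵥ y)) ⬝ᵥ (((G.V s)⁻¹)ᵀ *ᵥ (F.Y *ᵥ y)) ≠ 0 :=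
      fun h => hne (dotProduct_self_eq_zero.1 h)
    simp only [star_trivial] at h4
    exact lt_of_le_of_ne h4 (Ne.symm h5)
  have hpi := pi_pos
  have hA : StrictMonoOn (G.kq F y) (Ioc 0 π) := by
    refine strictMonoOn_of_deriv_pos (convex_Ioc _ _) (fun s hs => ?_) (fun s hs => ?_)
    · exact (G.continuousAt_kq F y hs.1 (by linarith [hs.2])).continuousWithinAt
    · rw [interior_Ioc] at hs
      exact hpos s hs.1 (by linarith [hs.2]) (ne_of_lt hs.2)
  have hB : StrictMonoOn (G.kq F y) (Ico π (2 * π)) := by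
    refine strictMonoOn_of_deriv_pos (convex_Ico _ _) (fun s hs => ?_) (fun s hs => ?_)
    · exact (G.continuousAt_kq F y (by linarith [hs.1]) hs.2).continuousWithinAt
    · rw [interior_Ico] at hs
      exact hpos s (by linarith [hs.1]) hs.2 (ne_of_gt hs.1)
  have h := hA.union hB (c := π) ⟨⟨hpi, le_rfl⟩, fun x hx => hx.2⟩
    ⟨⟨le_rfl, by linarith⟩, fun x hx => hx.1⟩
  rwa [Ioc_union_Ico_eq_Ioo hpi (by linarith)] at h

lemma KP_posDef {s t : ℝ} (hs0 : 0 < s) (hst : s < t) (ht1 : t < 2 * π) :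
    (G.KP F t - G.KP F s).PosDef := by
  refine Matrix.PosDef.of_dotProduct_mulVec_pos ?_ fun y hy => ?_
  · rw [Matrix.IsHermitian, conjTranspose_eq_transpose_of_trivial, transpose_sub,
      G.KP_symm F hs0 (by linarith), G.KP_symm F (by linarith) ht1]
  · have h := (G.kq_strictMono F hy) (⟨hs0, by linarith⟩ : s ∈ Ioo 0 (2 * π))
      (⟨by linarith, ht1⟩ : t ∈ Ioo 0 (2 * π)) hst
    simp only [star_trivial, sub_mulVec, dotProduct_sub]
    have h2 : G.kq F y s < G.kq F y t := h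
    unfold kq at h2
    linarith

/-! ### the bordered determinant -/

/-- bordered matrix -/
noncomputable def Bm (s t : ℝ) : Matrix (Fin m ⊕ α) (Fin m ⊕ α) ℝ :=
  fromBlocks (G.A s t) (G.Mt F t) (G.Mt F s)ᵀ 0

/-- Gram determinant of `Mt` -/
noncomputable def gr (s : ℝ) : ℝ := ((G.Mt F s)ᵀ * G.Mt F s).det

lemma gr_per (s : ℝ) : G.gr F (s + 2 * π) = G.gr F s := by
  unfold gr
  rw [G.Mt_per, transpose_mul, Matrix.mul_assoc, ← Matrix.mul_assoc (G.Q)ᵀ, G.Q_orth,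
    Matrix.one_mul]

lemma continuous_gr : Continuous (G.gr F) :=
  ((G.continuous_Mt F).matrix_transpose.matrix_mul (G.continuous_Mt F)).matrix_det

lemma gr_zero : G.gr F 0 = 1 := by
  unfold gr; rw [G.Mt_zero, F.XX, det_one]

lemma X_inj {z : α → ℝ} (h : F.X *ᵥ z = 0) : z = 0 := by
  have h2 : F.Xᵀ *ᵥ (F.X *ᵥ z) = 0 := by rw [h, mulVec_zero]
  rwa [mulVec_mulVec, F.XX, one_mulVec] at h2

lemma gr_pos_aux {s : ℝ} (h0 : 0 < s) (h1 : s < 2 * π) : 0 < G.gr F s := by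
  have hp : ((G.Mt F s)ᵀ * G.Mt F s).PosDef := by
    refine Matrix.PosDef.of_dotProduct_mulVec_pos ?_ fun y hy => ?_
    · rw [Matrix.IsHermitian, conjTranspose_eq_transpose_of_trivial, transpose_mul,
        transpose_transpose]
    · simp only [star_trivial]
      rw [← dot_mul]
      have hne : G.Mt F s *ᵥ y ≠ 0 := by
        intro h
        rw [← G.Vt_X, ← mulVec_mulVec] at h
        have h2 : (G.Vt F s)⁻¹ *ᵥ (G.Vt F s *ᵥ (F.X *ᵥ y)) = 0 := by rw [h, mulVec_zero]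
        rw [mulVec_mulVec, Matrix.nonsing_inv_mul _ (G.isUnit_Vt F h0 h1), one_mulVec] at h2
        exact hy (G.X_inj F h2)
      have h4 := dotProduct_star_self_nonneg (G.Mt F s *ᵥ y)
      simp only [star_trivial] at h4
      exact lt_of_le_of_ne h4 (fun h => hne (dotProduct_self_eq_zero.1 h.symm))
  exact hp.det_pos

lemma gr_pos (s : ℝ) : 0 < G.gr F s := by
  have hper : Function.Periodic (G.gr F) (2 * π) := G.gr_per F
  obtain ⟨y, hy, hxy⟩ := hper.exists_mem_Ico₀ two_pi_pos s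
  rw [hxy]
  rcases eq_or_lt_of_le hy.1 with h | h
  · rw [← h, gr_zero]; exact one_pos
  · exact G.gr_pos_aux F h hy.2

/-- the reduced `D` -/
noncomputable def DP (s t : ℝ) : ℝ := |(G.Bm F s t).det| / (√(G.gr F s) * √(G.gr F t))


lemma det_Bm_symm (s t : ℝ) : |(G.Bm F s t).det| = |(G.Bm F t s).det| := by
  have h : G.Bm F t s =
      fromBlocks (-1) 0 0 1 * (G.Bm F s t)ᵀ * fromBlocks 1 0 0 (-1 : Matrix α α ℝ) := by
    unfold Bm
    rw [fromBlocks_transpose, fromBlocks_multiply, fromBlocks_multiply, G.A_transpose]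
    simp
  rw [h, det_mul, det_mul, det_transpose, det_fromBlocks_zero₂₁, det_fromBlocks_zero₂₁]
  simp [abs_mul, det_neg]

lemma DP_symm (s t : ℝ) : G.DP F s t = G.DP F t s := by
  unfold DP; rw [G.det_Bm_symm, mul_comm (√(G.gr F s))]

lemma DP_per (s t : ℝ) : G.DP F s (t + 2 * π) = G.DP F s t := by
  have h : G.Bm F s (t + 2 * π) = fromBlocks G.Q 0 0 1 * G.Bm F s t := by
    unfold Bm
    rw [fromBlocks_multiply, G.per, G.Mt_per]
    simp
  have h2 : |(G.Bm F s (t + 2 * π)).det| = |(G.Bm F s t).det| := by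
    rw [h, det_mul, det_fromBlocks_zero₂₁, det_one, mul_one, abs_mul, G.abs_det_Q, one_mul]
  unfold DP; rw [h2, G.gr_per]

lemma DP_per' (s t : ℝ) : G.DP F (s + 2 * π) t = G.DP F s t := by
  rw [G.DP_symm, G.DP_per, G.DP_symm]

/-- weight -/
noncomputable def wt (s : ℝ) : ℝ := |(G.Vt F s).det| / √(G.gr F s)

lemma wt_pos {s : ℝ} (h0 : 0 < s) (h1 : s < 2 * π) : 0 < G.wt F s :=
  div_pos (abs_pos.2 (G.det_Vt_ne F h0 h1)) (Real.sqrt_pos.2 (G.gr_pos F s))

lemma DP_eq {s t : ℝ} (hs0 : 0 < s) (hs1 : s < 2 * π) (ht0 : 0 < t) (ht1 : t < 2 * π) :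
    G.DP F s t = |(G.KP F t - G.KP F s).det| * (G.wt F s * G.wt F t) := by
  have h : G.Bm F s t = fromBlocks (G.Vt F t) 0 0 1 * fromBlocks (G.NN F s t) F.X F.Xᵀ 0 *
      fromBlocks (G.Vt F s)ᵀ 0 0 1 := by
    unfold Bm
    rw [fromBlocks_multiply, fromBlocks_multiply, G.A_eq_NN F hs0 hs1 ht0 ht1, ← G.Vt_X F t,
      ← G.Vt_X F s]
    simp
  have h2 : |(G.Bm F s t).det| = |(G.Vt F t).det| * |(G.KP F t - G.KP F s).det| *
      |(G.Vt F s).det| := by
    rw [h, det_mul, det_mul, abs_mul, abs_mul, abs_det_bord, det_fromBlocks_zero₂₁,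
      det_fromBlocks_zero₂₁, det_one, mul_one, mul_one, det_transpose,
      G.Y_NN_Y F hs0 hs1 ht0 ht1, G.KP_symm F hs0 hs1]
  unfold DP wt
  rw [h2]; field_simp

lemma DP_zero {t : ℝ} (_ht0 : 0 < t) (_ht1 : t < 2 * π) : G.DP F 0 t = G.wt F t := by
  have h : G.Bm F 0 t = fromBlocks (G.Vt F t) 0 0 1 * fromBlocks (G.Es F t) F.X F.Xᵀ 0 := by
    unfold Bm
    rw [fromBlocks_multiply, G.Mt_zero, ← G.Vt_X F t]
    have : G.A 0 t = G.Vt F t * G.Es F t := G.V_eq F t
    rw [this]; simp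
  have h2 : |(G.Bm F 0 t).det| = |(G.Vt F t).det| := by
    rw [h, det_mul, abs_mul, abs_det_bord, det_fromBlocks_zero₂₁, det_one, mul_one, G.Y_Es, F.YY,
      det_one, abs_one, mul_one]
  unfold DP wt
  rw [h2, G.gr_zero, Real.sqrt_one, one_mul]

lemma DP_pos_aux {s t : ℝ} (hs0 : 0 ≤ s) (hs1 : s < t) (ht1 : t < 2 * π) : 0 < G.DP F s t := by
  rcases eq_or_lt_of_le hs0 with h | h
  · rw [← h, G.DP_zero F (by linarith) ht1]; exact G.wt_pos F (by linarith) ht1
  · rw [G.DP_eq F h (by linarith) (by linarith) ht1]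
    have h1 := (G.KP_posDef F h hs1 ht1).det_pos
    have h2 := G.wt_pos F h (by linarith)
    have h3 := G.wt_pos F (by linarith) ht1
    positivity

lemma DP_shift (s t : ℝ) (k : ℤ) : G.DP F (s + k * (2 * π)) (t + k * (2 * π)) = G.DP F s t := by
  have h1 : ∀ s, Function.Periodic (fun t => G.DP F s t) (2 * π) := fun s t => G.DP_per F s t
  have h2 : ∀ t, Function.Periodic (fun s => G.DP F s t) (2 * π) := fun t s => G.DP_per' F s t
  have h3 := (h1 (s + k * (2 * π))).int_mul k t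
  have h4 := (h2 t).int_mul k s
  rw [h3, h4]

lemma exists_shift (s : ℝ) : ∃ k : ℤ, 0 ≤ s + k * (2 * π) ∧ s + k * (2 * π) < 2 * π := by
  refine ⟨-⌊s / (2 * π)⌋, ?_, ?_⟩
  · have h := Int.floor_le (s / (2 * π))
    rw [le_div_iff₀ two_pi_pos] at h
    push_cast; linarith
  · have h := Int.lt_floor_add_one (s / (2 * π))
    rw [div_lt_iff₀ two_pi_pos] at h
    push_cast; linarith

lemma DP_pos {s t : ℝ} (h0 : 0 < t - s) (h1 : t - s < 2 * π) : 0 < G.DP F s t := by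
  obtain ⟨k, hk0, hk1⟩ := exists_shift s
  rw [← G.DP_shift F s t k]
  set s' := s + k * (2 * π)
  set t' := t + k * (2 * π) with ht'
  have e : t' - s' = t - s := by simp only [s', t']; ring
  by_cases h : t' < 2 * π
  · exact G.DP_pos_aux F hk0 (by linarith) h
  · have h2 : G.DP F s' t' = G.DP F (t' - 2 * π) s' := by
      rw [G.DP_symm F (t' - 2 * π), ← G.DP_per F s' (t' - 2 * π)]
      congr 1; ring
    rw [h2]
    exact G.DP_pos_aux F (by linarith) (by linarith) hk1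

lemma continuous_A : Continuous fun p : ℝ × ℝ => G.A p.1 p.2 := by
  have h : (fun p : ℝ × ℝ => G.A p.1 p.2) =
      fun p => G.V p.2 * (G.U p.1)ᵀ - G.U p.2 * (G.V p.1)ᵀ := by
    funext p; rw [G.A_eq]
  rw [h]
  exact ((G.continuous_V.comp continuous_snd).matrix_mul
    (G.continuous_U.comp continuous_fst).matrix_transpose).sub
    ((G.continuous_U.comp continuous_snd).matrix_mul
    (G.continuous_V.comp continuous_fst).matrix_transpose)

lemma continuous_Bm : Continuous fun p : ℝ × ℝ => G.Bm F p.1 p.2 := by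
  unfold Bm
  exact Continuous.matrix_fromBlocks G.continuous_A ((G.continuous_Mt F).comp continuous_snd)
    ((G.continuous_Mt F).comp continuous_fst).matrix_transpose continuous_const

lemma continuous_DP : Continuous fun p : ℝ × ℝ => G.DP F p.1 p.2 := by
  unfold DP
  refine ((G.continuous_Bm F).matrix_det.abs).div
    ((Real.continuous_sqrt.comp ((G.continuous_gr F).comp continuous_fst)).mul
    (Real.continuous_sqrt.comp ((G.continuous_gr F).comp continuous_snd))) fun p => ?_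
  have h1 := Real.sqrt_pos.2 (G.gr_pos F p.1)
  have h2 := Real.sqrt_pos.2 (G.gr_pos F p.2)
  exact (mul_pos h1 h2).ne'

end JLoop
end Crest.Agent.R208.N
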