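import Crest.Agent.R208.K6_Mg
import Crest.Agent.R208.G3s
import Crest.Agent.R208.I3
import Mathlib
import Crest.Agent.R208.N4b
import Crest.Agent.R208.N1
import Crest.Agent.R208.IB1
import Crest.Agent.R208.I7

-- ▼ part R208/N5
section

/-!
# R208 / G6 / N5 : the scalar Ptolemy–Kazdan lemma

`ptolemy_kazdan`: a symmetric, `2π`-periodic, continuous kernel `f` which is positive off the
diagonal, satisfies the (reversed) Ptolemy inequality and has slope at least one along the
diagonal satisfies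
`log (2 sin (u/2)) ≤ (1/2π) ∫_0^{2π} log f(s, s+u) ds`.
-/

open Real Set MeasureTheory

namespace Crest.Agent.R208.N

/-- The mean of `log f (s, s+u)` over one period. -/
noncomputable def pkG (f : ℝ → ℝ → ℝ) (u : ℝ) : ℝ :=
  (1 / (2 * π)) * ∫ s in (0:ℝ)..(2 * π), Real.log (f s (s + u))

/-- Weighted form of convexity of log-sum-exp. -/
lemma pk_logsumexp (a b : ℝ) (l m : ℝ) (hl : 0 < l) (hm : 0 < m) (hlm : l + m = 1) :
    l * (a - Real.log l) + m * (b - Real.log m) ≤ Real.log (Real.exp a + Real.exp b) := by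
  have h := Real.geom_mean_le_arith_mean2_weighted (w₁ := l) (w₂ := m)
    (p₁ := Real.exp a / l) (p₂ := Real.exp b / m) hl.le hm.le (by positivity) (by positivity) hlm
  have e1 : l * (Real.exp a / l) + m * (Real.exp b / m) = Real.exp a + Real.exp b := by
    field_simp
  rw [e1] at h
  have hp : 0 < (Real.exp a / l) ^ l * (Real.exp b / m) ^ m := by positivity
  have h2 := Real.log_le_log hp h
  rw [Real.log_mul (by positivity) (by positivity), Real.log_rpow (by positivity),
    Real.log_rpow (by positivity), Real.log_div (by positivity) (by positivity),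
    Real.log_div (by positivity) (by positivity), Real.log_exp, Real.log_exp] at h2
  exact h2

section

variable {f : ℝ → ℝ → ℝ}
  (hpos : ∀ s t, 0 < t - s → t - s < 2 * π → 0 < f s t)
  (hsymm : ∀ s t, f s t = f t s)
  (hper : ∀ s t, f s (t + 2 * π) = f s t)
  (hcont : Continuous fun p : ℝ × ℝ => f p.1 p.2)

include hpos hcont in
lemma pk_cont (u : ℝ) (h0 : 0 < u) (h1 : u < 2 * π) :
    Continuous fun s => Real.log (f s (s + u)) := by
  have h : Continuous fun s : ℝ => f s (s + u) :=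
    hcont.comp (f := fun s : ℝ => (s, s + u)) (by fun_prop)
  exact h.log (fun s => (hpos s (s + u) (by linarith) (by linarith)).ne')

include hsymm hper in
lemma pk_periodic (u : ℝ) : Function.Periodic (fun s => Real.log (f s (s + u))) (2 * π) := by
  intro s
  have : f (s + 2 * π) (s + 2 * π + u) = f s (s + u) := by
    rw [show s + 2 * π + u = (s + u) + 2 * π by ring, hper, hsymm, hper, hsymm]
  simp only [this]

include hsymm hper in
/-- shift invariance -/
lemma pk_shift (u c : ℝ) :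
    ∫ s in (0:ℝ)..(2 * π), Real.log (f (s + c) (s + c + u)) =
      ∫ s in (0:ℝ)..(2 * π), Real.log (f s (s + u)) := by
  have h1 : ∫ s in (0:ℝ)..(2 * π), Real.log (f (s + c) (s + c + u)) =
      ∫ s in (0 + c)..(2 * π + c), Real.log (f s (s + u)) :=
    intervalIntegral.integral_comp_add_right (fun s => Real.log (f s (s + u))) c
  rw [h1]
  have h2 := (pk_periodic hsymm hper u).intervalIntegral_add_eq c 0
  simp only [zero_add] at h2 ⊢
  rw [add_comm (2 * π) c, h2]

include hpos hcont in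
omit hsymm hper in
lemma pk_contG (u a b : ℝ) (ha : 0 < a) (hb : b < 2 * π) (hab : a ≤ b) (_hu : u ∈ Icc a b) :
    ContinuousOn (pkG f) (Icc a b) := by
  -- clamp
  have hc : Continuous (Function.uncurry fun (u s : ℝ) =>
      Real.log (f s (s + max a (min b u)))) := by
    have h : Continuous fun p : ℝ × ℝ => f p.2 (p.2 + max a (min b p.1)) :=
      hcont.comp (f := fun p : ℝ × ℝ => (p.2, p.2 + max a (min b p.1))) (by fun_prop)
    refine h.log (fun p => ?_)
    have h1 : a ≤ max a (min b p.1) := le_max_left _ _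
    have h2 : max a (min b p.1) ≤ b := max_le hab (min_le_left _ _)
    exact (hpos _ _ (by linarith) (by linarith)).ne'
  have hI := intervalIntegral.continuous_parametric_intervalIntegral_of_continuous'
    (μ := volume) hc 0 (2 * π)
  have hG : Continuous fun u => (1 / (2 * π)) *
      ∫ s in (0:ℝ)..(2 * π), Real.log (f s (s + max a (min b u))) := continuous_const.mul hI
  refine hG.continuousOn.congr ?_
  intro x hx
  have : max a (min b x) = x := by
    rw [min_eq_right hx.2, max_eq_right hx.1]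
  simp only [pkG, this]

include hpos hcont in
lemma pk_lower (u c : ℝ) (h0 : 0 < u) (h1 : u < 2 * π) (h : ∀ s, c ≤ Real.log (f s (s + u))) :
    c ≤ pkG f u := by
  have hpi : (0:ℝ) < 2 * π := by positivity
  have : ∫ _s in (0:ℝ)..(2 * π), c ≤ ∫ s in (0:ℝ)..(2 * π), Real.log (f s (s + u)) := by
    apply intervalIntegral.integral_mono_on hpi.le
    · exact intervalIntegrable_const
    · exact (pk_cont hpos hcont u h0 h1).intervalIntegrable _ _
    · intro x _; exact h x
  rw [intervalIntegral.integral_const, smul_eq_mul, sub_zero] at this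
  rw [pkG, one_div, ← div_eq_inv_mul, le_div_iff₀ hpi]
  linarith

include hpos hsymm hper hcont in
/-- the key inequality -/
lemma pk_key
    (hpt : ∀ s t u v, s < t → t < u → u < v → v < s + 2 * π →
      f s t * f u v + f t u * f s v ≤ f s u * f t v)
    (u e : ℝ) (he : 0 < e) (heu : e < u) (hue : u + e < 2 * π) :
    Real.exp (2 * pkG f e) + Real.exp (pkG f (u - e) + pkG f (u + e)) ≤
      Real.exp (2 * pkG f u) := by
  have hpi : (0:ℝ) < 2 * π := by positivity
  set A := 2 * pkG f e with hA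
  set B := pkG f (u - e) + pkG f (u + e) with hB
  set S := Real.exp A + Real.exp B with hS
  have hSpos : 0 < S := by positivity
  set l := Real.exp A / S with hl
  set m := Real.exp B / S with hm
  have hlpos : 0 < l := by positivity
  have hmpos : 0 < m := by positivity
  have hlm : l + m = 1 := by rw [hl, hm, ← add_div]; exact div_self hSpos.ne'
  have hlogl : Real.log l = A - Real.log S := by
    rw [hl, Real.log_div (by positivity) (by positivity), Real.log_exp]
  have hlogm : Real.log m = B - Real.log S := by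
    rw [hm, Real.log_div (by positivity) (by positivity), Real.log_exp]
  -- pointwise inequality
  have hpw : ∀ s : ℝ,
      l * ((Real.log (f s (s + e)) + Real.log (f (s + u) (s + u + e))) - Real.log l) +
      m * ((Real.log (f (s + e) (s + e + (u - e))) + Real.log (f s (s + (u + e)))) - Real.log m) ≤
      Real.log (f s (s + u)) + Real.log (f (s + e) (s + e + u)) := by
    intro s
    have p1 : 0 < f s (s + e) := hpos _ _ (by linarith) (by linarith)
    have p2 : 0 < f (s + u) (s + u + e) := hpos _ _ (by linarith) (by linarith)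
    have p3 : 0 < f (s + e) (s + e + (u - e)) := hpos _ _ (by linarith) (by linarith)
    have p4 : 0 < f s (s + (u + e)) := hpos _ _ (by linarith) (by linarith)
    have p5 : 0 < f s (s + u) := hpos _ _ (by linarith) (by linarith)
    have p6 : 0 < f (s + e) (s + e + u) := hpos _ _ (by linarith) (by linarith)
    refine (pk_logsumexp _ _ l m hlpos hmpos hlm).trans ?_
    rw [← Real.log_mul p1.ne' p2.ne', ← Real.log_mul p3.ne' p4.ne', ← Real.log_mul p5.ne' p6.ne',
      Real.exp_log (mul_pos p1 p2), Real.exp_log (mul_pos p3 p4)]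
    apply Real.log_le_log (by positivity)
    have h := hpt s (s + e) (s + u) (s + u + e) (by linarith) (by linarith) (by linarith)
      (by linarith)
    have e1 : s + e + (u - e) = s + u := by ring
    have e2 : s + (u + e) = s + u + e := by ring
    have e3 : s + e + u = s + u + e := by ring
    rw [e1, e2, e3]
    exact h
  -- integrate
  have c1 := pk_cont hpos hcont e he (by linarith)
  have c2 : Continuous fun s => Real.log (f (s + u) (s + u + e)) :=
    c1.comp (f := fun s : ℝ => s + u) (by fun_prop)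
  have c3 : Continuous fun s => Real.log (f (s + e) (s + e + (u - e))) :=
    (pk_cont hpos hcont (u - e) (by linarith) (by linarith)).comp
      (f := fun s : ℝ => s + e) (by fun_prop)
  have c4 := pk_cont hpos hcont (u + e) (by linarith) (by linarith)
  have c5 := pk_cont hpos hcont u (by linarith) (by linarith)
  have c6 : Continuous fun s => Real.log (f (s + e) (s + e + u)) :=
    c5.comp (f := fun s : ℝ => s + e) (by fun_prop)
  have i1 := c1.intervalIntegrable (μ := volume) 0 (2 * π)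
  have i2 := c2.intervalIntegrable (μ := volume) 0 (2 * π)
  have i3 := c3.intervalIntegrable (μ := volume) 0 (2 * π)
  have i4 := c4.intervalIntegrable (μ := volume) 0 (2 * π)
  have i5 := c5.intervalIntegrable (μ := volume) 0 (2 * π)
  have i6 := c6.intervalIntegrable (μ := volume) 0 (2 * π)
  have hint : ∫ s in (0:ℝ)..(2 * π),
      (l * ((Real.log (f s (s + e)) + Real.log (f (s + u) (s + u + e))) - Real.log l) +
      m * ((Real.log (f (s + e) (s + e + (u - e))) + Real.log (f s (s + (u + e)))) - Real.log m)) ≤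
      ∫ s in (0:ℝ)..(2 * π), (Real.log (f s (s + u)) + Real.log (f (s + e) (s + e + u))) := by
    apply intervalIntegral.integral_mono_on hpi.le
    · exact (((c1.add c2).sub continuous_const).const_mul l |>.add
        ((((c3.add c4).sub continuous_const)).const_mul m)).intervalIntegrable _ _
    · exact (c5.add c6).intervalIntegrable _ _
    · intro x _; exact hpw x
  have s2 := pk_shift hsymm hper e u
  have s3 := pk_shift hsymm hper (u - e) e
  have s6 := pk_shift hsymm hper u e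
  rw [intervalIntegral.integral_add (by
        exact ((((c1.add c2).sub continuous_const).const_mul l)).intervalIntegrable _ _) (by
        exact ((((c3.add c4).sub continuous_const)).const_mul m).intervalIntegrable _ _),
    intervalIntegral.integral_const_mul, intervalIntegral.integral_const_mul,
    intervalIntegral.integral_sub (i1.add i2) intervalIntegrable_const,
    intervalIntegral.integral_sub (i3.add i4) intervalIntegrable_const,
    intervalIntegral.integral_add i1 i2, intervalIntegral.integral_add i3 i4,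
    intervalIntegral.integral_add i5 i6, intervalIntegral.integral_const,
    intervalIntegral.integral_const, smul_eq_mul, smul_eq_mul, sub_zero, s2, s3, s6] at hint
  have g1 : ∫ s in (0:ℝ)..(2 * π), Real.log (f s (s + e)) = 2 * π * pkG f e := by
    rw [pkG]; field_simp
  have g2 : ∫ s in (0:ℝ)..(2 * π), Real.log (f s (s + (u - e))) = 2 * π * pkG f (u - e) := by
    rw [pkG]; field_simp
  have g3 : ∫ s in (0:ℝ)..(2 * π), Real.log (f s (s + (u + e))) = 2 * π * pkG f (u + e) := by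
    rw [pkG]; field_simp
  have g4 : ∫ s in (0:ℝ)..(2 * π), Real.log (f s (s + u)) = 2 * π * pkG f u := by
    rw [pkG]; field_simp
  rw [g1, g2, g3, g4, hlogl, hlogm] at hint
  have hfin : Real.log S ≤ 2 * pkG f u := by
    have h7 : 2 * π * (l * (A - (A - Real.log S)) + m * (B - (B - Real.log S))) ≤
        2 * π * (2 * pkG f u) := by
      calc 2 * π * (l * (A - (A - Real.log S)) + m * (B - (B - Real.log S)))
          = l * (2 * π * pkG f e + 2 * π * pkG f e - 2 * π * (A - Real.log S)) +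
            m * (2 * π * pkG f (u - e) + 2 * π * pkG f (u + e) - 2 * π * (B - Real.log S)) := by
              rw [hA, hB]; ring
        _ ≤ 2 * π * pkG f u + 2 * π * pkG f u := hint
        _ = 2 * π * (2 * pkG f u) := by ring
    have h8 := le_of_mul_le_mul_left h7 hpi
    have h9 : l * (A - (A - Real.log S)) + m * (B - (B - Real.log S)) = Real.log S := by
      calc l * (A - (A - Real.log S)) + m * (B - (B - Real.log S))
          = (l + m) * Real.log S := by ring
        _ = Real.log S := by rw [hlm, one_mul]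
    rw [h9] at h8
    exact h8
  calc S = Real.exp (Real.log S) := (Real.exp_log hSpos).symm
    _ ≤ Real.exp (2 * pkG f u) := Real.exp_le_exp.mpr hfin

include hpos hsymm hper hcont in
/-- behaviour at the two ends of `(0, 2π)` -/
lemma pk_ends
    (hdiag : ∀ η < 1, ∃ δ > 0, ∀ s ε, 0 < ε → ε < δ → η * ε ≤ f s (s + ε))
    (c : ℝ) (hc : c < 0) : ∃ δ > 0, δ < π ∧ ∀ e, 0 < e → e < δ →
      (c + Real.log (2 * Real.sin (e / 2)) ≤ pkG f e ∧
       c + Real.log (2 * Real.sin ((2 * π - e) / 2)) ≤ pkG f (2 * π - e)) := by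
  obtain ⟨δ, hδ, H⟩ := hdiag (Real.exp c) (by rw [Real.exp_lt_one_iff]; exact hc)
  refine ⟨min δ (π / 2), lt_min hδ (by positivity), ?_, ?_⟩
  · exact (min_le_right _ _).trans_lt (by linarith [Real.pi_pos])
  intro e he hed
  have hpi := Real.pi_pos
  have he1 : e < δ := hed.trans_le (min_le_left _ _)
  have he2 : e < π / 2 := hed.trans_le (min_le_right _ _)
  have hsin : 0 < Real.sin (e / 2) := Real.sin_pos_of_pos_of_lt_pi (by linarith) (by linarith)
  have hsin2 : 2 * Real.sin (e / 2) ≤ e := by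
    have := Real.sin_le (x := e / 2) (by linarith)
    linarith
  have hlog : c + Real.log (2 * Real.sin (e / 2)) ≤ Real.log (Real.exp c * e) := by
    rw [Real.log_mul (Real.exp_pos c).ne' he.ne', Real.log_exp]
    have := Real.log_le_log (by positivity) hsin2
    linarith
  constructor
  · apply pk_lower hpos hcont e _ he (by linarith)
    intro s
    refine hlog.trans (Real.log_le_log (by positivity) (H s e he he1))
  · apply pk_lower hpos hcont (2 * π - e) _ (by linarith) (by linarith)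
    intro s
    have e1 : Real.sin ((2 * π - e) / 2) = Real.sin (e / 2) := by
      rw [show (2 * π - e) / 2 = π - e / 2 by ring, Real.sin_pi_sub]
    rw [e1]
    have e2 : f s (s + (2 * π - e)) = f (s - e) (s - e + e) := by
      rw [show s + (2 * π - e) = (s - e) + 2 * π by ring, hper, hsymm, sub_add_cancel]
    rw [e2]
    exact hlog.trans (Real.log_le_log (by positivity) (H (s - e) e he he1))

end

lemma pk_sin_id (x y : ℝ) :
    Real.sin x ^ 2 - Real.sin (x - y) * Real.sin (x + y) = Real.sin y ^ 2 := by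
  rw [Real.sin_sub, Real.sin_add]
  have h1 := Real.sin_sq_add_cos_sq x
  have h2 := Real.sin_sq_add_cos_sq y
  have h3 : Real.cos y ^ 2 = 1 - Real.sin y ^ 2 := by linarith
  have h4 : Real.cos x ^ 2 = 1 - Real.sin x ^ 2 := by linarith
  ring_nf
  rw [h3, h4]
  ring

/-- **Ptolemy–Kazdan lemma** (scalar). -/
theorem ptolemy_kazdan (f : ℝ → ℝ → ℝ)
    (hpos : ∀ s t, 0 < t - s → t - s < 2 * π → 0 < f s t)
    (hsymm : ∀ s t, f s t = f t s)
    (hper : ∀ s t, f s (t + 2 * π) = f s t)
    (hcont : Continuous fun p : ℝ × ℝ => f p.1 p.2)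
    (hpt : ∀ s t u v, s < t → t < u → u < v → v < s + 2 * π →
      f s t * f u v + f t u * f s v ≤ f s u * f t v)
    (hdiag : ∀ η < 1, ∃ δ > 0, ∀ s ε, 0 < ε → ε < δ → η * ε ≤ f s (s + ε))
    (u : ℝ) (h0 : 0 < u) (h1 : u < 2 * π) :
    Real.log (2 * Real.sin (u / 2)) ≤
      (1 / (2 * π)) * ∫ s in (0:ℝ)..(2 * π), Real.log (f s (s + u)) := by
  by_contra hcon
  push Not at hcon
  change pkG f u < Real.log (2 * Real.sin (u / 2)) at hcon
  have hpi := Real.pi_pos
  set q : ℝ → ℝ := fun x => pkG f x - Real.log (2 * Real.sin (x / 2)) with hq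
  have hqu : q u < 0 := by simp only [hq]; linarith
  obtain ⟨δ, hδ, hδπ, H⟩ := pk_ends hpos hsymm hper hcont hdiag (q u / 2) (by linarith)
  have hsinpos : ∀ x, 0 < x → x < 2 * π → 0 < Real.sin (x / 2) := fun x hx hx' =>
    Real.sin_pos_of_pos_of_lt_pi (by linarith) (by linarith)
  have H1 : ∀ e, 0 < e → e < δ → q u / 2 ≤ q e := by
    intro e he hed
    have := (H e he hed).1
    simp only [hq] at this ⊢
    linarith
  have H2 : ∀ e, 0 < e → e < δ → q u / 2 ≤ q (2 * π - e) := by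
    intro e he hed
    have := (H e he hed).2
    simp only [hq] at this ⊢
    linarith
  -- `u` lies in the compact middle interval
  have hua : δ / 2 ≤ u := by
    by_contra h
    push Not at h
    have := H1 u h0 (by linarith)
    linarith
  have hub : u ≤ 2 * π - δ / 2 := by
    by_contra h
    push Not at h
    have := H2 (2 * π - u) (by linarith) (by linarith)
    rw [sub_sub_cancel] at this
    linarith
  have hqcont : ContinuousOn q (Icc (δ / 2) (2 * π - δ / 2)) := by
    apply ContinuousOn.sub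
    · exact pk_contG hpos hcont u (δ / 2) (2 * π - δ / 2) (by linarith) (by linarith)
        (by linarith) ⟨hua, hub⟩
    · apply ContinuousOn.log
      · fun_prop
      · intro x hx
        have := hsinpos x (by linarith [hx.1]) (by linarith [hx.2])
        positivity
  obtain ⟨u0, hu0, hmin⟩ := isCompact_Icc.exists_isMinOn (⟨u, hua, hub⟩ : (Icc (δ / 2)
    (2 * π - δ / 2)).Nonempty) hqcont
  have hq0 : q u0 ≤ q u := hmin ⟨hua, hub⟩
  have hu0a : 0 < u0 := by linarith [hu0.1]
  have hu0b : u0 < 2 * π := by linarith [hu0.2]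
  have hall : ∀ x, 0 < x → x < 2 * π → q u0 ≤ q x := by
    intro x hx hx'
    by_cases c1 : x < δ / 2
    · have := H1 x hx (by linarith)
      linarith
    · by_cases c2 : 2 * π - δ / 2 < x
      · have := H2 (2 * π - x) (by linarith) (by linarith)
        rw [sub_sub_cancel] at this
        linarith
      · exact hmin ⟨by linarith, by linarith⟩
  -- choose `e`
  obtain ⟨e, he, he1, he2, he3⟩ : ∃ e, 0 < e ∧ e < δ ∧ e < u0 ∧ u0 + e < 2 * π := by
    refine ⟨min (δ / 2) (min (u0 / 2) ((2 * π - u0) / 2)), ?_, ?_, ?_, ?_⟩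
    · exact lt_min (by linarith) (lt_min (by linarith) (by linarith))
    · exact (min_le_left _ _).trans_lt (by linarith)
    · exact ((min_le_right _ _).trans (min_le_left _ _)).trans_lt (by linarith)
    · have := ((min_le_right (δ / 2) (min (u0 / 2) ((2 * π - u0) / 2))).trans (min_le_right _ _))
      linarith
  have hkey := pk_key hpos hsymm hper hcont hpt u0 e he he2 he3
  have hqe : q u / 2 ≤ q e := H1 e he he1
  have hm := hall (u0 - e) (by linarith) (by linarith)
  have hp := hall (u0 + e) (by linarith) (by linarith)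
  -- translate
  have sp0 := hsinpos u0 hu0a hu0b
  have spm := hsinpos (u0 - e) (by linarith) (by linarith)
  have spp := hsinpos (u0 + e) (by linarith) (by linarith)
  have spe := hsinpos e he (by linarith)
  have E0 : Real.exp (2 * pkG f u0) = Real.exp (2 * q u0) * (2 * Real.sin (u0 / 2)) ^ 2 := by
    have : 2 * pkG f u0 = 2 * q u0 + (Real.log (2 * Real.sin (u0 / 2)) +
        Real.log (2 * Real.sin (u0 / 2))) := by simp only [hq]; ring
    rw [this, Real.exp_add, Real.exp_add, Real.exp_log (by positivity)]; ring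
  have E1 : Real.exp (2 * pkG f e) = Real.exp (2 * q e) * (2 * Real.sin (e / 2)) ^ 2 := by
    have : 2 * pkG f e = 2 * q e + (Real.log (2 * Real.sin (e / 2)) +
        Real.log (2 * Real.sin (e / 2))) := by simp only [hq]; ring
    rw [this, Real.exp_add, Real.exp_add, Real.exp_log (by positivity)]; ring
  have E2 : Real.exp (2 * q u0) * ((2 * Real.sin ((u0 - e) / 2)) * (2 * Real.sin ((u0 + e) / 2))) ≤
      Real.exp (pkG f (u0 - e) + pkG f (u0 + e)) := by
    have : pkG f (u0 - e) + pkG f (u0 + e) = (q (u0 - e) + q (u0 + e)) +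
        (Real.log (2 * Real.sin ((u0 - e) / 2)) + Real.log (2 * Real.sin ((u0 + e) / 2))) := by
      simp only [hq]; ring
    rw [this, Real.exp_add (q (u0 - e) + q (u0 + e)),
      Real.exp_add (Real.log (2 * Real.sin ((u0 - e) / 2))), Real.exp_log (by positivity),
      Real.exp_log (by positivity)]
    apply mul_le_mul_of_nonneg_right _ (by positivity)
    exact Real.exp_le_exp.mpr (by linarith)
  have hid := pk_sin_id (u0 / 2) (e / 2)
  rw [← sub_div, ← add_div] at hid
  have hlt : Real.exp (2 * q u0) < Real.exp (2 * q e) := Real.exp_lt_exp.mpr (by linarith)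
  have hE : Real.exp (2 * q e) * (2 * Real.sin (e / 2)) ^ 2 ≤
      Real.exp (2 * q u0) * (2 * Real.sin (e / 2)) ^ 2 := by
    have h3 : Real.exp (2 * q e) * (2 * Real.sin (e / 2)) ^ 2 +
        Real.exp (2 * q u0) * ((2 * Real.sin ((u0 - e) / 2)) * (2 * Real.sin ((u0 + e) / 2))) ≤
        Real.exp (2 * q u0) * (2 * Real.sin (u0 / 2)) ^ 2 := by
      rw [← E0, ← E1]
      linarith
    have h4 : Real.exp (2 * q u0) * (2 * Real.sin (e / 2)) ^ 2 =
        Real.exp (2 * q u0) * (2 * Real.sin (u0 / 2)) ^ 2 -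
        Real.exp (2 * q u0) * ((2 * Real.sin ((u0 - e) / 2)) * (2 * Real.sin ((u0 + e) / 2))) := by
      rw [show (2 * Real.sin (e / 2)) ^ 2 = 4 * Real.sin (e / 2) ^ 2 by ring, ← hid]
      ring
    linarith
  have hsq : 0 < (2 * Real.sin (e / 2)) ^ 2 := by positivity
  have := le_of_mul_le_mul_right hE hsq
  linarith

end Crest.Agent.R208.N
end

-- ▼ part R208/N4c
section

/-!
R208, block G6 (helper589), part N4c: divided differences, the Ptolemy inequality for `DP` and the
resulting inequality for the mean of `log DP`.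
-/

set_option autoImplicit false

open Real Matrix Filter Topology Set

namespace Crest.Agent.R208.N

theorem exists_quot {ι κ : Type} (f f' : ℝ → Matrix ι κ ℝ) (hf : ∀ s, HD f (f' s) s)
    (hc : Continuous f') :
    ∃ q : ℝ → ℝ → Matrix ι κ ℝ, (Continuous fun p : ℝ × ℝ => q p.1 p.2) ∧
      (∀ s t, f t - f s = (t - s) • q s t) ∧ ∀ s, q s s = f' s := by
  have hcij : ∀ i j, Continuous fun s => f' s i j := fun i j =>
    (continuous_apply j).comp ((continuous_apply i).comp hc)
  refine ⟨fun s t => Matrix.of fun i j => ∫ τ in (0 : ℝ)..1, f' (s + τ * (t - s)) i j,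
    ?_, ?_, ?_⟩
  · refine continuous_pi fun i => continuous_pi fun j => ?_
    simp only [Matrix.of_apply]
    refine intervalIntegral.continuous_parametric_intervalIntegral_of_continuous' ?_ _ _
    exact (hcij i j).comp (by fun_prop)
  · intro s t
    ext i j
    simp only [Matrix.sub_apply, Matrix.smul_apply, smul_eq_mul, Matrix.of_apply]
    have h1 : ∀ τ ∈ Set.uIcc (0 : ℝ) 1,
        HasDerivAt (fun τ => f (s + τ * (t - s)) i j) (f' (s + τ * (t - s)) i j * (t - s)) τ := by
      intro τ _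
      have h2 : HasDerivAt (fun τ : ℝ => s + τ * (t - s)) (t - s) τ := by
        simpa using ((hasDerivAt_id τ).mul_const (t - s)).const_add s
      exact (hf (s + τ * (t - s)) i j).comp τ h2
    have h3 := intervalIntegral.integral_eq_sub_of_hasDerivAt h1
      ((((hcij i j).comp (by fun_prop)).mul continuous_const).intervalIntegrable _ _)
    rw [intervalIntegral.integral_mul_const] at h3
    simp only [one_mul, zero_mul, add_zero, add_sub_cancel] at h3
    rw [← h3, mul_comm]
  · intro s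
    ext i j
    simp

lemma unif_lower (g : ℝ → ℝ → ℝ) (hg : Continuous fun p : ℝ × ℝ => g p.1 p.2)
    (hper : ∀ s e, g (s + 2 * π) e = g s e) (η : ℝ) (h : ∀ s, η < g s 0) :
    ∃ δ > 0, ∀ s e, |e| < δ → η < g s e := by
  have h1 : ∀ᶠ e in 𝓝 (0 : ℝ), ∀ s ∈ Icc (0 : ℝ) (2 * π), η < g s e := by
    refine isCompact_Icc.eventually_forall_of_forall_eventually fun s _ => ?_
    have h2 : ContinuousAt (fun z : ℝ × ℝ => g z.2 z.1) (0, s) :=
      (hg.comp continuous_swap).continuousAt
    exact h2.eventually (lt_mem_nhds (h s))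
  obtain ⟨δ, hδ, h2⟩ := Metric.eventually_nhds_iff.1 h1
  refine ⟨δ, hδ, fun s e he => ?_⟩
  have h3 : Function.Periodic (fun s => g s e) (2 * π) := fun s => hper s e
  obtain ⟨y, hy, hxy⟩ := h3.exists_mem_Ico₀ two_pi_pos s
  have h4 : g s e = g y e := hxy
  rw [h4]
  exact h2 (by simpa [Real.dist_eq] using he) y ⟨hy.1, hy.2.le⟩

lemma det_bord_smul {ι α : Type} [Fintype ι] [DecidableEq ι] [Fintype α] [DecidableEq α]
    {b : ℕ} (hcard : Fintype.card α + b = Fintype.card ι) (N : Matrix ι ι ℝ) (M : Matrix ι α ℝ)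
    (M' : Matrix α ι ℝ) {h : ℝ} (hh : h ≠ 0) :
    (fromBlocks (h • N) M M' 0).det = h ^ b * (fromBlocks N M M' 0).det := by
  have e : fromBlocks 1 0 0 (h • (1 : Matrix α α ℝ)) * fromBlocks (h • N) M M' 0 *
      fromBlocks 1 0 0 (h • (1 : Matrix α α ℝ)) = h • fromBlocks N M M' 0 := by
    rw [fromBlocks_multiply, fromBlocks_multiply, fromBlocks_smul]
    simp
  have e2 := congrArg Matrix.det e
  rw [det_mul, det_mul, det_smul, det_fromBlocks_zero₂₁, det_smul, det_one, det_one,
    Fintype.card_sum, ← hcard] at e2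
  have h3 : h ^ (Fintype.card α) ≠ 0 := pow_ne_zero _ hh
  have h4 : (h ^ (Fintype.card α) * h ^ (Fintype.card α)) * (fromBlocks (h • N) M M' 0).det =
      (h ^ (Fintype.card α) * h ^ (Fintype.card α)) * (h ^ b * (fromBlocks N M M' 0).det) := by
    rw [pow_add, pow_add] at e2
    linear_combination e2
  exact mul_left_cancel₀ (mul_ne_zero h3 h3) h4

namespace JLoop

variable {m a : ℕ} (G : JLoop m a) {α β : Type} [Fintype α] [DecidableEq α]
    [Fintype β] [DecidableEq β] (F : Fr (G.V π) α β)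

theorem exists_Aq : ∃ q : ℝ → ℝ → Matrix (Fin m) (Fin m) ℝ,
    (Continuous fun p : ℝ × ℝ => q p.1 p.2) ∧ (∀ s t, G.A s t = (t - s) • q s t) ∧
      ∀ s, q s s = 1 := by
  obtain ⟨qV, hV1, hV2, hV3⟩ := exists_quot G.V G.Vd G.hV G.continuous_Vd
  obtain ⟨qU, hU1, hU2, hU3⟩ := exists_quot G.U G.Ud G.hU G.continuous_Ud
  refine ⟨fun s t => qV s t * (G.U s)ᵀ - qU s t * (G.V s)ᵀ, ?_, ?_, ?_⟩
  · exact (hV1.matrix_mul (G.continuous_U.comp continuous_fst).matrix_transpose).sub
      (hU1.matrix_mul (G.continuous_V.comp continuous_fst).matrix_transpose)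
  · intro s t
    rw [smul_sub, ← Matrix.smul_mul, ← Matrix.smul_mul, ← hV2, ← hU2, G.A_eq]
    have h := (G.sympl s).2.1
    rw [Matrix.sub_mul, Matrix.sub_mul, ← h]
    abel
  · intro s
    show qV s s * (G.U s)ᵀ - qU s s * (G.V s)ᵀ = 1
    rw [hV3, hU3]
    exact (G.sympl s).2.2.2

theorem exists_Psi : ∃ Ψ : ℝ → ℝ → ℝ, (Continuous fun p : ℝ × ℝ => Ψ p.1 p.2) ∧
    (∀ s t, s ≠ t → G.DP F s t = |t - s| ^ (Fintype.card β) * Ψ s t) ∧ ∀ s, Ψ s s = 1 := by
  obtain ⟨q, hq1, hq2, hq3⟩ := G.exists_Aq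
  refine ⟨fun s t => |(fromBlocks (q s t) (G.Mt F t) (G.Mt F s)ᵀ 0).det| /
    (√(G.gr F s) * √(G.gr F t)), ?_, ?_, ?_⟩
  · refine ((Continuous.matrix_fromBlocks hq1 ((G.continuous_Mt F).comp continuous_snd)
      ((G.continuous_Mt F).comp continuous_fst).matrix_transpose
      continuous_const).matrix_det.abs).div
      ((Real.continuous_sqrt.comp ((G.continuous_gr F).comp continuous_fst)).mul
      (Real.continuous_sqrt.comp ((G.continuous_gr F).comp continuous_snd))) fun p => ?_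
    have h1 := Real.sqrt_pos.2 (G.gr_pos F p.1)
    have h2 := Real.sqrt_pos.2 (G.gr_pos F p.2)
    exact (mul_pos h1 h2).ne'
  · intro s t hst
    have h : t - s ≠ 0 := sub_ne_zero.2 (Ne.symm hst)
    unfold DP Bm
    have hc := F.card
    rw [hq2 s t, det_bord_smul (b := Fintype.card β) (by rw [hc, Fintype.card_fin]) _ _ _ h,
      abs_mul, abs_pow, mul_div_assoc]
  · intro s
    simp only [hq3, det_fromBlocks_one₁₁, zero_sub, det_neg, abs_mul, abs_pow, abs_neg, abs_one,
      one_pow, one_mul]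
    have h1 := G.gr_pos F s
    have h2 : ((G.Mt F s)ᵀ * G.Mt F s).det = G.gr F s := rfl
    rw [h2, abs_of_pos h1, Real.mul_self_sqrt h1.le, div_self h1.ne']

/-- the kernel to which the Ptolemy–Kazdan inequality is applied -/
noncomputable def fk (s t : ℝ) : ℝ := G.DP F s t ^ (1 / (Fintype.card β : ℝ))

lemma fk_symm (s t : ℝ) : G.fk F s t = G.fk F t s := by unfold fk; rw [G.DP_symm]

lemma fk_per (s t : ℝ) : G.fk F s (t + 2 * π) = G.fk F s t := by unfold fk; rw [G.DP_per]

lemma fk_shift (s t : ℝ) (k : ℤ) : G.fk F (s + k * (2 * π)) (t + k * (2 * π)) = G.fk F s t := by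
  unfold fk; rw [G.DP_shift]

lemma continuous_fk : Continuous fun p : ℝ × ℝ => G.fk F p.1 p.2 :=
  (G.continuous_DP F).rpow_const fun _ => Or.inr (by positivity)

/-- Ptolemy inequality for four points -/
def Pt (s t u v : ℝ) : Prop :=
  G.fk F s t * G.fk F u v + G.fk F t u * G.fk F s v ≤ G.fk F s u * G.fk F t v

lemma Pt_rot {s t u v : ℝ} (h : G.Pt F v s t u) : G.Pt F s t u v := by
  unfold Pt at *
  rw [G.fk_symm F v s, G.fk_symm F v u, G.fk_symm F v t] at h
  linarith

lemma Pt_base (hb : 0 < Fintype.card β) {s t u v : ℝ} (hs : 0 < s) (hst : s < t) (htu : t < u)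
    (huv : u < v) (hv : v < 2 * π) : G.Pt F s t u v := by
  have hX := G.KP_posDef F hs hst (by linarith)
  have hY := G.KP_posDef F (s := t) (t := u) (by linarith) htu (by linarith)
  have hZ := G.KP_posDef F (s := u) (t := v) (by linarith) huv hv
  have key := ptolemy hb rfl hX hY hZ
  have e1 : G.KP F t - G.KP F s + (G.KP F u - G.KP F t) = G.KP F u - G.KP F s := by abel
  have e2 : G.KP F u - G.KP F t + (G.KP F v - G.KP F u) = G.KP F v - G.KP F t := by abel
  have e3 : G.KP F u - G.KP F s + (G.KP F v - G.KP F u) = G.KP F v - G.KP F s := by abel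
  rw [e1, e2, e3] at key
  set c : ℝ := 1 / (Fintype.card β : ℝ) with hc
  have hpos : ∀ x y : ℝ, 0 < x → x < y → y < 2 * π → 0 < (G.KP F y - G.KP F x).det :=
    fun x y h1 h2 h3 => (G.KP_posDef F h1 h2 h3).det_pos
  have hfk : ∀ x y : ℝ, 0 < x → x < y → y < 2 * π →
      G.fk F x y = (G.KP F y - G.KP F x).det ^ c * (G.wt F x ^ c * G.wt F y ^ c) := by
    intro x y h1 h2 h3
    have w1 := G.wt_pos F h1 (by linarith)
    have w2 := G.wt_pos F (s := y) (by linarith) h3
    have hd := hpos x y h1 h2 h3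
    unfold fk
    rw [G.DP_eq F h1 (by linarith) (by linarith) h3, abs_of_pos hd,
      Real.mul_rpow hd.le (by positivity), Real.mul_rpow w1.le w2.le]
  unfold Pt
  rw [hfk s t hs hst (by linarith), hfk u v (by linarith) huv hv,
    hfk t u (by linarith) htu (by linarith), hfk s v hs (by linarith) hv,
    hfk s u hs (by linarith) (by linarith), hfk t v (by linarith) (by linarith) hv]
  rw [Real.mul_rpow (hpos s t hs hst (by linarith)).le (hpos u v (by linarith) huv hv).le,
    Real.mul_rpow (hpos t u (by linarith) htu (by linarith)).le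
      (hpos s v hs (by linarith) hv).le,
    Real.mul_rpow (hpos s u hs (by linarith) (by linarith)).le
      (hpos t v (by linarith) (by linarith) hv).le] at key
  have hw : 0 ≤ G.wt F s ^ c * G.wt F t ^ c * G.wt F u ^ c * G.wt F v ^ c := by
    have w1 := G.wt_pos F (s := s) (by linarith) (by linarith)
    have w2 := G.wt_pos F (s := t) (by linarith) (by linarith)
    have w3 := G.wt_pos F (s := u) (by linarith) (by linarith)
    have w4 := G.wt_pos F (s := v) (by linarith) (by linarith)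
    positivity
  have := mul_le_mul_of_nonneg_right key hw
  nlinarith [this]

lemma Pt_generic (hb : 0 < Fintype.card β) {s t u v : ℝ} (hst : s < t) (htu : t < u)
    (huv : u < v) (hv : v < s + 2 * π) (g1 : sin (s / 2) ≠ 0) (g2 : sin (t / 2) ≠ 0)
    (g3 : sin (u / 2) ≠ 0) (g4 : sin (v / 2) ≠ 0) : G.Pt F s t u v := by
  have hpi := pi_pos
  obtain ⟨k, hk0, hk1⟩ := exists_shift s
  have hg : ∀ x : ℝ, sin (x / 2) ≠ 0 → x + k * (2 * π) ≠ 0 ∧ x + k * (2 * π) ≠ 2 * π := by
    intro x hx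
    refine ⟨fun h => hx ?_, fun h => hx ?_⟩
    · have : x / 2 = ((-k : ℤ) : ℝ) * π := by push_cast; linarith
      rw [this]; exact sin_int_mul_pi _
    · have : x / 2 = ((1 - k : ℤ) : ℝ) * π := by push_cast; linarith
      rw [this]; exact sin_int_mul_pi _
  have hinv : G.Pt F (s + k * (2 * π)) (t + k * (2 * π)) (u + k * (2 * π)) (v + k * (2 * π)) →
      G.Pt F s t u v := by
    intro h; unfold Pt at *; simpa only [G.fk_shift] using h
  apply hinv
  have hs := (hg s g1).1
  have ht := (hg t g2).2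
  have hu := (hg u g3).2
  have hvv := (hg v g4).2
  set s' := s + k * (2 * π) with hs'
  set t' := t + k * (2 * π) with ht'
  set u' := u + k * (2 * π) with hu'
  set v' := v + k * (2 * π) with hv'
  have hs0 : 0 < s' := lt_of_le_of_ne hk0 (Ne.symm hs)
  have l1 : s' < t' := by simp only [hs', ht']; linarith
  have l2 : t' < u' := by simp only [hu', ht']; linarith
  have l3 : u' < v' := by simp only [hu', hv']; linarith
  have l4 : v' < s' + 2 * π := by simp only [hs', hv']; linarith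
  have p1 : ∀ x y, G.fk F x (y - 2 * π) = G.fk F x y := by
    intro x y; rw [← G.fk_per F x (y - 2 * π)]; congr 1; ring
  have p2 : ∀ x y, G.fk F (x - 2 * π) y = G.fk F x y := by
    intro x y; rw [G.fk_symm, p1, G.fk_symm]
  by_cases c1 : v' < 2 * π
  · exact G.Pt_base F hb hs0 l1 l2 l3 c1
  have c1' : 2 * π < v' := lt_of_le_of_ne (not_lt.1 c1) (Ne.symm hvv)
  by_cases c2 : u' < 2 * π
  · have h := G.Pt_base F hb (s := v' - 2 * π) (t := s') (u := t') (v := u') (by linarith)
      (by linarith) l1 l2 c2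
    apply G.Pt_rot
    unfold Pt at *
    simpa only [p1, p2] using h
  have c2' : 2 * π < u' := lt_of_le_of_ne (not_lt.1 c2) (Ne.symm hu)
  by_cases c3 : t' < 2 * π
  · have h := G.Pt_base F hb (s := u' - 2 * π) (t := v' - 2 * π) (u := s') (v := t') (by linarith)
      (by linarith) (by linarith) l1 c3
    apply G.Pt_rot
    apply G.Pt_rot
    unfold Pt at *
    simpa only [p1, p2] using h
  have c3' : 2 * π < t' := lt_of_le_of_ne (not_lt.1 c3) (Ne.symm ht)
  have h := G.Pt_base F hb (s := t' - 2 * π) (t := u' - 2 * π) (u := v' - 2 * π) (v := s')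
    (by linarith) (by linarith) (by linarith) (by linarith) hk1
  apply G.Pt_rot
  apply G.Pt_rot
  apply G.Pt_rot
  unfold Pt at *
  simpa only [p1, p2] using h

lemma eventually_generic (x : ℝ) : ∀ᶠ ε in 𝓝[≠] (0 : ℝ), sin ((x + ε) / 2) ≠ 0 := by
  by_cases h : sin (x / 2) = 0
  · have h1 : HasDerivAt (fun ε : ℝ => sin ((x + ε) / 2)) (cos ((x + 0) / 2) * (1 / 2)) 0 := by
      have h2 : HasDerivAt (fun ε : ℝ => (x + ε) / 2) (1 / 2) 0 :=
        ((hasDerivAt_id (0 : ℝ)).const_add x).div_const 2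
      exact h2.sin
    refine h1.eventually_ne ?_
    rw [add_zero]
    have := cos_ne_of_sin h
    simpa using this
  · have h1 : ContinuousAt (fun ε : ℝ => sin ((x + ε) / 2)) 0 := by fun_prop
    have h2 : sin ((x + 0) / 2) ≠ 0 := by rwa [add_zero]
    exact (h1.eventually_ne h2).filter_mono nhdsWithin_le_nhds

lemma Pt_all (hb : 0 < Fintype.card β) {s t u v : ℝ} (hst : s < t) (htu : t < u)
    (huv : u < v) (hv : v < s + 2 * π) : G.Pt F s t u v := by
  set H : ℝ → ℝ := fun ε => G.fk F (s + ε) (u + ε) * G.fk F (t + ε) (v + ε) -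
    (G.fk F (s + ε) (t + ε) * G.fk F (u + ε) (v + ε) +
      G.fk F (t + ε) (u + ε) * G.fk F (s + ε) (v + ε)) with hH
  have hcont : ∀ x y : ℝ, Continuous fun ε : ℝ => G.fk F (x + ε) (y + ε) := fun x y =>
    (G.continuous_fk F).comp (f := fun ε : ℝ => ((x + ε, y + ε) : ℝ × ℝ)) (by fun_prop)
  have hHc : Continuous H :=
    ((hcont s u).mul (hcont t v)).sub
      (((hcont s t).mul (hcont u v)).add ((hcont t u).mul (hcont s v)))
  have h0 : 0 ≤ H 0 := by
    refine ge_of_tendsto (hHc.continuousAt.tendsto.mono_left nhdsWithin_le_nhds :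
      Tendsto H (𝓝[≠] 0) (𝓝 (H 0))) ?_
    filter_upwards [eventually_generic s, eventually_generic t, eventually_generic u,
      eventually_generic v] with ε e1 e2 e3 e4
    have := G.Pt_generic F hb (s := s + ε) (t := t + ε) (u := u + ε) (v := v + ε)
      (by linarith) (by linarith) (by linarith) (by linarith) e1 e2 e3 e4
    unfold Pt at this
    simp only [hH]; linarith
  simp only [hH, add_zero] at h0
  unfold Pt; linarith

/-- **the Ptolemy–Kazdan inequality for the reduced loop** -/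
theorem Z_ge (hb : 0 < Fintype.card β) {u : ℝ} (h0 : 0 < u) (h1 : u < 2 * π) :
    (Fintype.card β : ℝ) * log (2 * sin (u / 2)) ≤
      (1 / (2 * π)) * ∫ s in (0 : ℝ)..(2 * π), log (G.DP F s (s + u)) := by
  have hb' : (0 : ℝ) < Fintype.card β := by exact_mod_cast hb
  have hmain := ptolemy_kazdan (G.fk F)
    (fun s t h1 h2 => Real.rpow_pos_of_pos (G.DP_pos F h1 h2) _)
    (G.fk_symm F) (G.fk_per F) (G.continuous_fk F)
    (fun s t u v h1 h2 h3 h4 => G.Pt_all F hb h1 h2 h3 h4) ?_ u h0 h1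
  · have e : ∀ s ∈ Set.uIcc (0 : ℝ) (2 * π), Real.log (G.fk F s (s + u)) =
        (1 / (Fintype.card β : ℝ)) * Real.log (G.DP F s (s + u)) := by
      intro s _
      unfold fk
      rw [Real.log_rpow (G.DP_pos F (by linarith) (by linarith))]
    rw [intervalIntegral.integral_congr e, intervalIntegral.integral_const_mul] at hmain
    have := mul_le_mul_of_nonneg_left hmain hb'.le
    refine this.trans (le_of_eq ?_)
    field_simp
  · intro η hη
    obtain ⟨Ψ, hΨ1, hΨ2, hΨ3⟩ := G.exists_Psi F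
    have hη' : max η 0 ^ (Fintype.card β) < 1 := by
      apply pow_lt_one₀ (le_max_right _ _) (max_lt hη one_pos) hb.ne'
    have hper : ∀ s e : ℝ, Ψ (s + 2 * π) (s + 2 * π + e) = Ψ s (s + e) := by
      intro s e
      by_cases he : e = 0
      · simp only [he, add_zero, hΨ3]
      · have h3 := hΨ2 (s + 2 * π) (s + 2 * π + e) (by intro h; apply he; linarith)
        have h4 := hΨ2 s (s + e) (by intro h; apply he; linarith)
        have h5 : G.DP F (s + 2 * π) (s + 2 * π + e) = G.DP F s (s + e) := by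
          have h6 := G.DP_shift F s (s + e) 1
          simp only [Int.cast_one, one_mul] at h6
          rw [← h6]; congr 1; ring
        rw [h5, h4] at h3
        have e1 : s + 2 * π + e - (s + 2 * π) = e := by ring
        have e2 : s + e - s = e := by ring
        rw [e1, e2] at h3
        have h7 : |e| ^ (Fintype.card β) ≠ 0 := pow_ne_zero _ (abs_ne_zero.2 he)
        exact (mul_left_cancel₀ h7 h3).symm
    obtain ⟨δ, hδ, h⟩ := unif_lower (fun s e => Ψ s (s + e))
      (hΨ1.comp (f := fun p : ℝ × ℝ => (p.1, p.1 + p.2)) (by fun_prop)) hper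
      (max η 0 ^ (Fintype.card β)) (fun s => by simpa only [add_zero, hΨ3] using hη')
    refine ⟨δ, hδ, fun s ε hε hεδ => ?_⟩
    have h3 := h s ε (by rwa [abs_of_pos hε])
    have h4 := hΨ2 s (s + ε) (by linarith)
    unfold fk
    rw [h4, add_sub_cancel_left, abs_of_pos hε]
    have h5 : (max η 0 * ε) ^ (Fintype.card β) ≤ ε ^ (Fintype.card β) * Ψ s (s + ε) := by
      rw [mul_pow, mul_comm]
      exact mul_le_mul_of_nonneg_left h3.le (by positivity)
    have h6 : max η 0 * ε ≤ (ε ^ (Fintype.card β) * Ψ s (s + ε)) ^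
        (1 / (Fintype.card β : ℝ)) := by
      have h7 : ((max η 0 * ε) ^ (Fintype.card β)) ^ (1 / (Fintype.card β : ℝ)) =
          max η 0 * ε := by
        rw [one_div, Real.pow_rpow_inv_natCast (by positivity) hb.ne']
      rw [← h7]
      exact Real.rpow_le_rpow (by positivity) h5 (by positivity)
    exact (mul_le_mul_of_nonneg_right (le_max_left _ _) hε.le).trans h6

end JLoop
end Crest.Agent.R208.N
end

-- ▼ part R208/N6
section

/-!
R208, block G6 (helper589), part N6: the pointwise trace inequality.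
-/

set_option autoImplicit false

open Real Matrix Filter Topology Set

namespace Crest.Agent.R208.N

/-- tangent line inequality for `p h^(1/p)` -/
lemma tangent {p : ℕ} (hp : 0 < p) {h : ℝ} (hh : 0 < h) (c : ℝ) :
    p * exp c + exp c * (log h - p * c) ≤ p * h ^ (1 / (p : ℝ)) ∧
    (p * h ^ (1 / (p : ℝ)) = p * exp c + exp c * (log h - p * c) → h = (exp c) ^ p) := by
  have hp' : (0 : ℝ) < p := by exact_mod_cast hp
  have e1 : h ^ (1 / (p : ℝ)) = exp c * exp (log h / p - c) := by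
    rw [Real.rpow_def_of_pos hh, ← exp_add]; congr 1; ring
  have e2 : p * exp c + exp c * (log h - p * c) = p * (exp c * (1 + (log h / p - c))) := by
    field_simp
  rw [e1, e2]
  constructor
  · have h1 := add_one_le_exp (log h / p - c)
    have h2 := exp_pos c
    have h3 : exp c * (1 + (log h / p - c)) ≤ exp c * exp (log h / p - c) :=
      mul_le_mul_of_nonneg_left (by linarith) h2.le
    exact mul_le_mul_of_nonneg_left h3 hp'.le
  · intro h1
    have h2 : exp (log h / p - c) = 1 + (log h / p - c) :=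
      mul_left_cancel₀ (exp_pos c).ne' (mul_left_cancel₀ hp'.ne' h1)
    have h3 : log h / p - c = 0 := by
      by_contra hne
      have := add_one_lt_exp hne
      linarith
    have h4 : log h = p * c := by
      have : log h / p = c := by linarith
      rw [div_eq_iff hp'.ne'] at this; linarith
    rw [← exp_log hh, h4, ← exp_nat_mul]

lemma proj_facts {ι α : Type} [Fintype ι] [DecidableEq ι] [Fintype α] [DecidableEq α]
    (M : Matrix ι α ℝ) (hM : (Mᵀ * M).det ≠ 0) :
    (M * (Mᵀ * M)⁻¹ * Mᵀ)ᵀ = M * (Mᵀ * M)⁻¹ * Mᵀ ∧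
    (M * (Mᵀ * M)⁻¹ * Mᵀ) * (M * (Mᵀ * M)⁻¹ * Mᵀ) = M * (Mᵀ * M)⁻¹ * Mᵀ ∧
    (M * (Mᵀ * M)⁻¹ * Mᵀ).trace = Fintype.card α := by
  have hu : IsUnit (Mᵀ * M).det := isUnit_iff_ne_zero.2 hM
  refine ⟨?_, ?_, ?_⟩
  · rw [transpose_mul, transpose_mul, transpose_transpose, transpose_nonsing_inv, transpose_mul,
      transpose_transpose, Matrix.mul_assoc]
  · have : M * (Mᵀ * M)⁻¹ * Mᵀ * (M * (Mᵀ * M)⁻¹ * Mᵀ) =
        M * ((Mᵀ * M)⁻¹ * (Mᵀ * M)) * (Mᵀ * M)⁻¹ * Mᵀ := by
      simp only [Matrix.mul_assoc]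
    rw [this, Matrix.nonsing_inv_mul _ hu, Matrix.mul_one]
  · rw [trace_mul_comm, ← Matrix.mul_assoc, Matrix.mul_nonsing_inv _ hu, trace_one]

namespace JLoop

variable {m a : ℕ} (G : JLoop m a) {α β : Type} [Fintype α] [DecidableEq α]
    [Fintype β] [DecidableEq β] (F : Fr (G.V π) α β)

/-- `H = A⁻¹ A⁻ᵀ` -/
noncomputable def Hm (s t : ℝ) : Matrix (Fin m) (Fin m) ℝ := (G.A s t)⁻¹ * ((G.A s t)⁻¹)ᵀ

lemma Hm_posDef {s t : ℝ} (h : (G.A s t).det ≠ 0) : (G.Hm s t).PosDef := by
  have hu : IsUnit (G.A s t).det := isUnit_iff_ne_zero.2 h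
  refine Matrix.PosDef.of_dotProduct_mulVec_pos ?_ fun y hy => ?_
  · rw [Matrix.IsHermitian, conjTranspose_eq_transpose_of_trivial, Hm, transpose_mul,
      transpose_transpose]
  · simp only [star_trivial]
    have e : G.Hm s t = (((G.A s t)⁻¹)ᵀ)ᵀ * ((G.A s t)⁻¹)ᵀ := by rw [transpose_transpose]; rfl
    rw [e, ← dot_mul]
    have hne : ((G.A s t)⁻¹)ᵀ *ᵥ y ≠ 0 := by
      intro h0
      have h2 : (G.A s t)ᵀ *ᵥ (((G.A s t)⁻¹)ᵀ *ᵥ y) = 0 := by rw [h0, mulVec_zero]
      rw [mulVec_mulVec, ← transpose_mul, Matrix.nonsing_inv_mul _ hu, transpose_one,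
        one_mulVec] at h2
      exact hy h2
    have h4 := dotProduct_star_self_nonneg (((G.A s t)⁻¹)ᵀ *ᵥ y)
    simp only [star_trivial] at h4
    exact lt_of_le_of_ne h4 (fun h => hne (dotProduct_self_eq_zero.1 h.symm))

lemma det_Hm (s t : ℝ) : (G.Hm s t).det = ((G.A s t).det⁻¹) ^ 2 := by
  rw [Hm, det_mul, det_transpose, det_nonsing_inv, Ring.inverse_eq_inv']; ring

lemma log_det_Hm {s t : ℝ} : log (G.Hm s t).det = -(2 * log |(G.A s t).det|) := by
  rw [det_Hm, log_pow, log_inv, log_abs]; push_cast; ring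

/-- right-hand side of the pointwise inequality -/
noncomputable def rhs (p b : ℕ) (c₁ c₂ z l : ℝ) : ℝ :=
  p * exp c₁ + b * exp c₂ + (exp c₁ - exp c₂) * (2 * z - 2 * l - p * c₁)
    + exp c₂ * (-(2 * l) - p * c₁ - b * c₂)

/-- generic case `0 < p`, `0 < b` -/
theorem point_ineq (hα : 0 < Fintype.card α) (hβ : 0 < Fintype.card β) {s t : ℝ}
    (hd : (G.A s t).det ≠ 0) (hDP : 0 < G.DP F s t) {c₁ c₂ : ℝ} (hc : c₂ ≤ c₁) :
    rhs (Fintype.card α) (Fintype.card β) c₁ c₂ (log (G.DP F s t)) (log |(G.A s t).det|) ≤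
      (G.Hm s t).trace ∧
    ((G.Hm s t).trace = rhs (Fintype.card α) (Fintype.card β) c₁ c₂ (log (G.DP F s t))
        (log |(G.A s t).det|) →
      G.Hm s t = exp c₁ • (G.Mt F s * ((G.Mt F s)ᵀ * G.Mt F s)⁻¹ * (G.Mt F s)ᵀ) +
        exp c₂ • (1 - G.Mt F s * ((G.Mt F s)ᵀ * G.Mt F s)⁻¹ * (G.Mt F s)ᵀ)) := by
  have hHp := G.Hm_posDef hd
  have hgs := G.gr_pos F s
  have hgt := G.gr_pos F t
  have hM : ((G.Mt F s)ᵀ * G.Mt F s).det ≠ 0 := hgs.ne'
  set h : ℝ := ((G.Mt F s)ᵀ * G.Hm s t * G.Mt F s).det / ((G.Mt F s)ᵀ * G.Mt F s).det with hh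
  obtain ⟨hpos, htr, heq⟩ := trace_ge hα hβ rfl
    (by rw [F.card, Fintype.card_fin]) hHp (G.Mt F s) hM hh
  have hDH : 0 < (G.Hm s t).det := hHp.det_pos
  have hq : 0 < (G.Hm s t).det / h := div_pos hDH hpos
  obtain ⟨t1, t1e⟩ := tangent hα hpos c₁
  obtain ⟨t2, t2e⟩ := tangent hβ hq c₂
  have hlq : log ((G.Hm s t).det / h) = -(2 * log |(G.A s t).det|) - log h := by
    rw [log_div hDH.ne' hpos.ne', log_det_Hm]
  -- lower bound for `log h`
  have hlog : 2 * log (G.DP F s t) - 2 * log |(G.A s t).det| ≤ log h := by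
    have hcs := gram_cs (((G.A s t)⁻¹)ᵀ * G.Mt F s) (G.Mt F t)
    have hu : IsUnit (G.A s t).det := isUnit_iff_ne_zero.2 hd
    have e1 : (((G.A s t)⁻¹)ᵀ * G.Mt F s)ᵀ * G.Mt F t =
        (G.Mt F s)ᵀ * (G.A s t)⁻¹ * G.Mt F t := by
      rw [transpose_mul, transpose_transpose]
    have e2 : (((G.A s t)⁻¹)ᵀ * G.Mt F s)ᵀ * (((G.A s t)⁻¹)ᵀ * G.Mt F s) =
        (G.Mt F s)ᵀ * G.Hm s t * G.Mt F s := by
      rw [transpose_mul, transpose_transpose, Hm]; simp only [Matrix.mul_assoc]
    rw [e1, e2] at hcs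
    have e3 : |(G.Bm F s t).det| =
        |(G.A s t).det| * |((G.Mt F s)ᵀ * (G.A s t)⁻¹ * G.Mt F t).det| := by
      let _ := invertibleOfIsUnitDet _ hu
      rw [Bm, det_fromBlocks₁₁, abs_mul, zero_sub, det_neg, abs_mul, abs_pow, abs_neg, abs_one,
        one_pow, one_mul, invOf_eq_nonsing_inv]
    have hMHM : ((G.Mt F s)ᵀ * G.Hm s t * G.Mt F s).det = h * G.gr F s := by
      rw [hh]; exact (div_mul_cancel₀ _ hM).symm
    rw [hMHM] at hcs
    have hgt' : ((G.Mt F t)ᵀ * G.Mt F t).det = G.gr F t := rfl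
    rw [hgt'] at hcs
    have habs : 0 < |(G.A s t).det| := abs_pos.2 hd
    have hs1 := Real.sqrt_pos.2 hgs
    have hs2 := Real.sqrt_pos.2 hgt
    have e4 : (G.DP F s t / |(G.A s t).det|) ^ 2 =
        ((G.Mt F s)ᵀ * (G.A s t)⁻¹ * G.Mt F t).det ^ 2 / (G.gr F s * G.gr F t) := by
      unfold DP
      rw [e3, div_pow, div_pow, mul_pow, mul_pow, Real.sq_sqrt hgs.le, Real.sq_sqrt hgt.le, sq_abs,
        sq_abs]
      have : (G.A s t).det ^ 2 ≠ 0 := pow_ne_zero _ hd
      field_simp
    have e5 : (G.DP F s t / |(G.A s t).det|) ^ 2 ≤ h := by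
      rw [e4, div_le_iff₀ (mul_pos hgs hgt)]
      linarith
    have e6 := Real.log_le_log (by positivity) e5
    rw [log_pow, log_div hDP.ne' habs.ne'] at e6
    push_cast at e6
    linarith
  have hexp : 0 ≤ exp c₁ - exp c₂ := sub_nonneg.2 (exp_le_exp.2 hc)
  have hmul := mul_le_mul_of_nonneg_left hlog hexp
  have key : rhs (Fintype.card α) (Fintype.card β) c₁ c₂ (log (G.DP F s t))
      (log |(G.A s t).det|) ≤
      (Fintype.card α * exp c₁ + exp c₁ * (log h - Fintype.card α * c₁)) +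
      (Fintype.card β * exp c₂ + exp c₂ * (log ((G.Hm s t).det / h) - Fintype.card β * c₂)) := by
    rw [hlq]; unfold rhs
    nlinarith [hmul]
  refine ⟨by linarith, fun he => ?_⟩
  have a1 : (Fintype.card α : ℝ) * h ^ (1 / (Fintype.card α : ℝ)) =
      Fintype.card α * exp c₁ + exp c₁ * (log h - Fintype.card α * c₁) := by linarith
  have a2 : (Fintype.card β : ℝ) * ((G.Hm s t).det / h) ^ (1 / (Fintype.card β : ℝ)) =
      Fintype.card β * exp c₂ + exp c₂ * (log ((G.Hm s t).det / h) - Fintype.card β * c₂) := by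
    linarith
  have a3 : (G.Hm s t).trace = (Fintype.card α : ℝ) * h ^ (1 / (Fintype.card α : ℝ)) +
      (Fintype.card β : ℝ) * ((G.Hm s t).det / h) ^ (1 / (Fintype.card β : ℝ)) := by linarith
  exact heq a3 (exp c₁) (exp c₂) (exp_pos _) (exp_pos _) (t1e a1) (t2e a2)

end JLoop
end Crest.Agent.R208.N
end

-- ▼ part R208/N6b
section

/-!
R208, block G6 (helper589), part N6b: the pointwise inequality and the inequality for the mean in
one package, all cases.
-/

set_option autoImplicit false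

open Real Matrix Filter Topology Set

namespace Crest.Agent.R208.N
namespace JLoop

variable {m a : ℕ} (G : JLoop m a)

lemma abs_det_shift (s t : ℝ) :
    |(G.A (s + 2 * π) (t + 2 * π)).det| = |(G.A s t).det| := by
  rw [G.abs_det_A_per, G.abs_det_A_per1]

lemma DP_shift_one {α β : Type} [Fintype α] [DecidableEq α] [Fintype β] [DecidableEq β]
    (F : Fr (G.V π) α β) (s t : ℝ) : G.DP F (s + 2 * π) (t + 2 * π) = G.DP F s t := by
  have h := G.DP_shift F s t 1
  simpa using h

/-- the package -/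
structure Pack (G : JLoop m a) where
  b : ℕ
  hab : a + b = m
  z : ℝ → ℝ → ℝ
  P : ℝ → Matrix (Fin m) (Fin m) ℝ
  hP : ∀ s, (P s)ᵀ = P s ∧ P s * P s = P s ∧ (P s).trace = a
  z_cont : ∀ u, 0 < u → u < π → Continuous fun s => z s (s + u)
  z_per : ∀ s t, z (s + 2 * π) (t + 2 * π) = z s t
  z_mean : ∀ u, 0 < u → u < π → (b : ℝ) * log (2 * sin (u / 2)) ≤
    (1 / (2 * π)) * ∫ s in (0 : ℝ)..(2 * π), z s (s + u)
  z_eq : a = 0 → ∀ s t, z s t = log |(G.A s t).det|
  ineq : ∀ s t, 0 < t - s → t - s < π → ∀ c₁ c₂ : ℝ, c₂ ≤ c₁ →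
    rhs a b c₁ c₂ (z s t) (log |(G.A s t).det|) ≤ (G.Hm s t).trace ∧
    ((G.Hm s t).trace = rhs a b c₁ c₂ (z s t) (log |(G.A s t).det|) →
      G.Hm s t = exp c₁ • P s + exp c₂ • (1 - P s))

theorem exists_pack : Nonempty (Pack G) := by
  have hpi := pi_pos
  obtain ⟨α, β, _, _, _, _, h1, h2, ⟨F⟩⟩ := exists_fr (G.V π)
  have hmult := G.mult 0
  have e0 : G.A 0 (0 + π) = G.V π := by rw [zero_add]; rfl
  rw [e0] at hmult
  have hα : Fintype.card α = a := by omega
  have hcard := F.card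
  set b := Fintype.card β with hb
  have hab : a + b = m := by omega
  have hDPc : ∀ u, 0 < u → u < π → Continuous fun s => log (G.DP F s (s + u)) := by
    intro u h0 h1
    refine Continuous.log ((G.continuous_DP F).comp
      (f := fun s : ℝ => ((s, s + u) : ℝ × ℝ)) (by fun_prop)) fun s => ?_
    exact (G.DP_pos F (by linarith) (by linarith)).ne'
  rcases Nat.eq_zero_or_pos b with hb0 | hb0
  · -- `b = 0`
    refine ⟨⟨0, by omega, fun _ _ => 0, fun _ => 1, fun s => ⟨transpose_one, Matrix.one_mul _, ?_⟩,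
      fun _ _ _ => continuous_const, fun _ _ => rfl, fun u _ _ => by simp, ?_, ?_⟩⟩
    · rw [trace_one, Fintype.card_fin]; congr 1; omega
    · intro ha s t
      have hm : m = 0 := by omega
      subst hm
      simp
    · intro s t ht0 ht1 c₁ c₂ hc
      have hd := G.ndeg s t ht0 ht1
      have hHp := G.Hm_posDef hd
      rcases Nat.eq_zero_or_pos m with hm | hm
      · have ha : a = 0 := by omega
        subst hm
        subst ha
        refine ⟨?_, fun _ => Subsingleton.elim _ _⟩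
        simp [rhs, Matrix.trace]
      · obtain ⟨t1, t1e⟩ := amgm_trace hm (Fintype.card_fin m) hHp
        obtain ⟨t2, t2e⟩ := tangent hm hHp.det_pos c₁
        have ha : a = m := by omega
        rw [log_det_Hm] at t2 t2e
        have e1 : rhs a 0 c₁ c₂ 0 (log |(G.A s t).det|) =
            m * exp c₁ + exp c₁ * (-(2 * log |(G.A s t).det|) - m * c₁) := by
          have ha' : (a : ℝ) = m := by exact_mod_cast ha
          simp only [rhs, ha']; push_cast; ring
        rw [e1]
        refine ⟨by linarith, fun he => ?_⟩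
        have a1 := t1e (by linarith)
        have a2 := t2e (by linarith)
        rw [a1, a2, one_div, Real.pow_rpow_inv_natCast (exp_pos _).le hm.ne']
        simp
  rcases Nat.eq_zero_or_pos a with ha0 | ha0
  · -- `a = 0`
    have hE : IsEmpty α := Fintype.card_eq_zero_iff.1 (by omega)
    have hDPA : ∀ s t, G.DP F s t = |(G.A s t).det| := by
      intro s t
      have e1 : (G.Bm F s t).submatrix (Equiv.sumEmpty (Fin m) α).symm
          (Equiv.sumEmpty (Fin m) α).symm = G.A s t := by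
        ext i j; simp [Bm]
      have e2 : (G.Bm F s t).det = (G.A s t).det := by
        rw [← e1, det_submatrix_equiv_self]
      have e3 : ∀ s, G.gr F s = 1 := fun s => by unfold gr; exact det_isEmpty
      unfold DP
      rw [e2, e3, e3]; simp
    refine ⟨⟨b, hab, fun s t => log |(G.A s t).det|, fun _ => 0,
      fun s => ⟨transpose_zero, Matrix.mul_zero _, by simp [ha0]⟩, ?_, ?_, ?_, ?_, ?_⟩⟩
    · intro u h0 h1
      have := hDPc u h0 h1
      simpa only [hDPA] using this
    · intro s t; simp only [G.abs_det_shift]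
    · intro u h0 h1
      have := G.Z_ge F hb0 h0 (by linarith)
      simpa only [hDPA] using this
    · intro _ s t; rfl
    · intro s t ht0 ht1 c₁ c₂ hc
      have hd := G.ndeg s t ht0 ht1
      have hHp := G.Hm_posDef hd
      have hm : 0 < m := by omega
      obtain ⟨t1, t1e⟩ := amgm_trace hm (Fintype.card_fin m) hHp
      obtain ⟨t2, t2e⟩ := tangent hm hHp.det_pos c₂
      have hbm : b = m := by omega
      rw [log_det_Hm] at t2 t2e
      have e1 : rhs a b c₁ c₂ (log |(G.A s t).det|) (log |(G.A s t).det|) =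
          m * exp c₂ + exp c₂ * (-(2 * log |(G.A s t).det|) - m * c₂) := by
        have hb' : (b : ℝ) = m := by exact_mod_cast hbm
        have ha' : (a : ℝ) = 0 := by exact_mod_cast ha0
        simp only [rhs, hb', ha']; ring
      rw [e1]
      refine ⟨by linarith, fun he => ?_⟩
      have a1 := t1e (by linarith)
      have a2 := t2e (by linarith)
      rw [a1, a2, one_div, Real.pow_rpow_inv_natCast (exp_pos _).le hm.ne']
      simp
  · -- generic
    refine ⟨⟨b, hab, fun s t => log (G.DP F s t),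
      fun s => G.Mt F s * ((G.Mt F s)ᵀ * G.Mt F s)⁻¹ * (G.Mt F s)ᵀ,
      fun s => ?_, hDPc, ?_, ?_, ?_, ?_⟩⟩
    · have := proj_facts (G.Mt F s) (G.gr_pos F s).ne'
      rwa [hα] at this
    · intro s t; simp only [G.DP_shift_one]
    · intro u h0 h1
      exact G.Z_ge F hb0 h0 (by linarith)
    · intro h; omega
    · intro s t ht0 ht1 c₁ c₂ hc
      have := G.point_ineq F (by omega) hb0 (G.ndeg s t ht0 ht1)
        (G.DP_pos F ht0 (by linarith)) hc
      rwa [hα] at this

end JLoop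
end Crest.Agent.R208.N
end

-- ▼ part R208/N7
section

/-!
R208, block G6, part N7 (helper286): the mean of `log |det A s (s+u)|` over a closed geodesic is
twice differentiable in `u`, second derivative = minus the mean of `tr (A⁻¹ A⁻ᵀ)`.
-/

set_option autoImplicit false

open Real Matrix Set Filter Topology MeasureTheory

namespace Crest.Agent.R208.N

/-- differentiation of a parametric interval integral -/
theorem hasDerivAt_param (F F' : ℝ → ℝ → ℝ) (a b : ℝ) {u0 : ℝ} (h0 : 0 < u0) (h1 : u0 < π)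
    (hF : ∀ u, 0 < u → u < π → Continuous (F u))
    (hF' : ContinuousOn (fun p : ℝ × ℝ => F' p.1 p.2) (Ioo 0 π ×ˢ univ))
    (hd : ∀ s u, 0 < u → u < π → HasDerivAt (fun u => F u s) (F' u s) u) :
    HasDerivAt (fun u => ∫ s in a..b, F u s) (∫ s in a..b, F' u0 s) u0 := by
  obtain ⟨c, hc0, hcu⟩ := exists_between h0
  obtain ⟨d, hdu, hdp⟩ := exists_between h1
  have hsub : Icc c d ×ˢ uIcc a b ⊆ Ioo 0 π ×ˢ (univ : Set ℝ) := by
    rintro ⟨x, y⟩ ⟨hx, -⟩
    exact ⟨⟨hc0.trans_le hx.1, hx.2.trans_lt hdp⟩, trivial⟩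
  obtain ⟨C, hC⟩ := (isCompact_Icc.prod isCompact_uIcc).exists_bound_of_continuousOn
    (hF'.mono hsub)
  have hcont' : ∀ u, 0 < u → u < π → Continuous (F' u) := by
    intro u hu0 hu1
    rw [← continuousOn_univ]
    exact hF'.comp (f := fun s : ℝ => (u, s)) (by fun_prop) (fun s _ => ⟨⟨hu0, hu1⟩, trivial⟩)
  refine (intervalIntegral.hasDerivAt_integral_of_dominated_loc_of_deriv_le (𝕜 := ℝ)
    (F := F) (F' := F') (x₀ := u0) (s := Icc c d) (bound := fun _ => C) (Icc_mem_nhds hcu hdu)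
    ?_ ((hF u0 h0 h1).intervalIntegrable _ _) (hcont' u0 h0 h1).aestronglyMeasurable ?_
    intervalIntegrable_const ?_).2
  · filter_upwards [Ioo_mem_nhds h0 h1] with x hx
    exact (hF x hx.1 hx.2).aestronglyMeasurable
  · refine ae_of_all _ fun t ht x hx => hC (x, t) ⟨hx, uIoc_subset_uIcc ht⟩
  · refine ae_of_all _ fun t _ x hx => hd t x (hc0.trans_le hx.1) (hx.2.trans_lt hdp)

namespace JLoop

variable {m a : ℕ} (G : JLoop m a)

lemma continuous_At : Continuous fun p : ℝ × ℝ => G.At p.1 p.2 := by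
  have e : (fun p : ℝ × ℝ => G.At p.1 p.2) =
      fun p => G.Vd p.2 * (G.U p.1)ᵀ - G.Ud p.2 * (G.V p.1)ᵀ := by
    funext p; exact G.At_eq p.1 p.2
  rw [e]
  have hV := G.continuous_V
  have hU := G.continuous_U
  have hVd := G.continuous_Vd
  have hUd := G.continuous_Ud
  fun_prop

/-- `tr (A⁻¹ A_t)` -/
noncomputable def TT (s t : ℝ) : ℝ := ((G.A s t)⁻¹ * G.At s t).trace

noncomputable def trH (s t : ℝ) : ℝ := ((G.A s t)⁻¹ * ((G.A s t)⁻¹)ᵀ).trace

noncomputable def LL (u : ℝ) : ℝ :=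
  (1 / (2 * π)) * ∫ s in (0:ℝ)..(2 * π), log |(G.A s (s + u)).det|

noncomputable def LL' (u : ℝ) : ℝ :=
  (1 / (2 * π)) * ∫ s in (0:ℝ)..(2 * π), ((G.A s (s + u))⁻¹ * G.At s (s + u)).trace

lemma det_ne_shift {u : ℝ} (h0 : 0 < u) (h1 : u < π) (s : ℝ) : (G.A s (s + u)).det ≠ 0 :=
  G.ndeg s (s + u) (by linarith) (by linarith)

lemma det_ne_shift' {u : ℝ} (h0 : 0 < u) (h1 : u < π) (s : ℝ) : (G.A (s - u) s).det ≠ 0 :=
  G.ndeg (s - u) s (by linarith) (by linarith)

lemma continuousAt_TT {p : ℝ × ℝ} (h : (G.A p.1 p.2).det ≠ 0) :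
    ContinuousAt (fun p : ℝ × ℝ => G.TT p.1 p.2) p := by
  have hA := G.continuous_A.continuousAt (x := p)
  have hAt := G.continuous_At.continuousAt (x := p)
  have hi := continuousAt_inv' hA h
  have hm : ContinuousAt (fun p : ℝ × ℝ => (G.A p.1 p.2)⁻¹ * G.At p.1 p.2) p := hi.mul hAt
  exact (continuous_id.matrix_trace).continuousAt.comp hm

lemma continuousAt_trH {p : ℝ × ℝ} (h : (G.A p.1 p.2).det ≠ 0) :
    ContinuousAt (fun p : ℝ × ℝ => G.trH p.1 p.2) p := by
  have hA := G.continuous_A.continuousAt (x := p)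
  have hi := continuousAt_inv' hA h
  have hm : ContinuousAt (fun p : ℝ × ℝ => (G.A p.1 p.2)⁻¹ * ((G.A p.1 p.2)⁻¹)ᵀ) p :=
    hi.mul ((continuous_id.matrix_transpose).continuousAt.comp hi)
  exact (continuous_id.matrix_trace).continuousAt.comp hm

lemma A_per2 (s t : ℝ) : G.A (s + 2 * π) (t + 2 * π) = G.Q * G.A s t * (G.Q)ᵀ := by
  rw [G.A_per1, G.per]

lemma At_per1 (s t : ℝ) : G.At (s + 2 * π) t = G.At s t * (G.Q)ᵀ := by
  rw [G.At_eq, G.At_eq, G.U_per, G.V_per, transpose_mul, transpose_mul, Matrix.sub_mul,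
    Matrix.mul_assoc, Matrix.mul_assoc]

lemma At_per2 (s t : ℝ) : G.At (s + 2 * π) (t + 2 * π) = G.Q * G.At s t * (G.Q)ᵀ := by
  rw [G.At_per1, G.At_per]

lemma Q_inv : (G.Q)⁻¹ = (G.Q)ᵀ := Matrix.inv_eq_left_inv G.Q_orth

lemma QT_inv : ((G.Q)ᵀ)⁻¹ = G.Q := Matrix.inv_eq_left_inv G.Q_orth'

lemma A_inv_per2 (s t : ℝ) :
    (G.A (s + 2 * π) (t + 2 * π))⁻¹ = G.Q * (G.A s t)⁻¹ * (G.Q)ᵀ := by
  rw [G.A_per2, Matrix.mul_inv_rev, Matrix.mul_inv_rev, G.Q_inv, G.QT_inv, Matrix.mul_assoc]

lemma trace_conj (M : Matrix (Fin m) (Fin m) ℝ) : (G.Q * M * (G.Q)ᵀ).trace = M.trace := by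
  rw [Matrix.trace_mul_comm, ← Matrix.mul_assoc, G.Q_orth, Matrix.one_mul]

lemma conj_mul (M N : Matrix (Fin m) (Fin m) ℝ) :
    G.Q * M * (G.Q)ᵀ * (G.Q * N * (G.Q)ᵀ) = G.Q * (M * N) * (G.Q)ᵀ := by
  have : G.Q * M * (G.Q)ᵀ * (G.Q * N * (G.Q)ᵀ) =
      G.Q * M * ((G.Q)ᵀ * G.Q) * N * (G.Q)ᵀ := by
    simp only [Matrix.mul_assoc]
  rw [this, G.Q_orth, Matrix.mul_one]
  simp only [Matrix.mul_assoc]

lemma TT_per (s t : ℝ) : G.TT (s + 2 * π) (t + 2 * π) = G.TT s t := by
  unfold TT
  rw [G.A_inv_per2, G.At_per2, G.conj_mul, G.trace_conj]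

lemma trH_per (s t : ℝ) : G.trH (s + 2 * π) (t + 2 * π) = G.trH s t := by
  unfold trH
  rw [G.A_inv_per2]
  have : (G.Q * (G.A s t)⁻¹ * (G.Q)ᵀ)ᵀ = G.Q * ((G.A s t)⁻¹)ᵀ * (G.Q)ᵀ := by
    rw [transpose_mul, transpose_mul, transpose_transpose, Matrix.mul_assoc]
  rw [this, G.conj_mul, G.trace_conj]

lemma shift_integral (f : ℝ → ℝ → ℝ) (hf : ∀ s t, f (s + 2 * π) (t + 2 * π) = f s t) (u : ℝ) :
    ∫ s in (0:ℝ)..(2 * π), f s (s + u) = ∫ s in (0:ℝ)..(2 * π), f (s - u) s := by
  have hper : Function.Periodic (fun s => f (s - u) s) (2 * π) := by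
    intro s
    show f (s + 2 * π - u) (s + 2 * π) = f (s - u) s
    rw [show s + 2 * π - u = s - u + 2 * π by ring, hf]
  have h1 : ∫ s in (0:ℝ)..(2 * π), f s (s + u) =
      ∫ s in (0 + u)..(2 * π + u), f (s - u) s := by
    rw [← intervalIntegral.integral_comp_add_right (fun s => f (s - u) s) u]
    refine intervalIntegral.integral_congr fun s _ => ?_
    simp
  rw [h1, zero_add, add_comm (2 * π) u, hper.intervalIntegral_add_eq u 0, zero_add]

theorem hasDerivAt_LL {u : ℝ} (h0 : 0 < u) (h1 : u < π) : HasDerivAt G.LL (G.LL' u) u := by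
  unfold LL'
  refine HasDerivAt.const_mul (1 / (2 * π)) (d := fun u => ∫ s in (0:ℝ)..(2 * π),
    log |(G.A s (s + u)).det|) ?_
  refine hasDerivAt_param (fun u s => log |(G.A s (s + u)).det|)
    (fun u s => ((G.A s (s + u))⁻¹ * G.At s (s + u)).trace) _ _ h0 h1 ?_ ?_ ?_
  · intro u hu0 hu1
    have hA : Continuous fun s : ℝ => G.A s (s + u) :=
      G.continuous_A.comp (by fun_prop : Continuous fun s : ℝ => (s, s + u))
    have hd : Continuous fun s : ℝ => |(G.A s (s + u)).det| :=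
      continuous_abs.comp (Continuous.matrix_det hA)
    exact hd.log fun s => abs_ne_zero.2 (G.det_ne_shift hu0 hu1 s)
  · rintro ⟨u, s⟩ ⟨⟨hu0, hu1⟩, -⟩
    have h := G.continuousAt_TT (p := (s, s + u)) (G.det_ne_shift hu0 hu1 s)
    have hc : ContinuousAt (fun p : ℝ × ℝ => ((p.2, p.2 + p.1) : ℝ × ℝ)) (u, s) := by fun_prop
    exact (ContinuousAt.comp (x := ((u, s) : ℝ × ℝ))
      (f := fun p : ℝ × ℝ => ((p.2, p.2 + p.1) : ℝ × ℝ)) h hc).continuousWithinAt
  · intro s u hu0 hu1
    have hHD : HD (fun u => G.A s (s + u)) (G.At s (s + u)) u := fun i j =>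
      (G.hA s (s + u) i j).comp_const_add s u
    exact hasDerivAt_log_det hHD (G.det_ne_shift hu0 hu1 s)

lemma LL'_eq (u : ℝ) : G.LL' u = (1 / (2 * π)) * ∫ s in (0:ℝ)..(2 * π), G.TT (s - u) s := by
  unfold LL'
  rw [← shift_integral G.TT G.TT_per u]
  rfl

lemma hasDerivAt_TT {s t : ℝ} (h : (G.A s t).det ≠ 0) :
    HasDerivAt (fun s => G.TT s t) (G.trH s t) s := by
  have h1 : HD (fun s => (G.A s t)⁻¹) (-((G.A s t)⁻¹ * G.As s t * (G.A s t)⁻¹)) s :=
    (G.hAs s t).inv h
  have h2 := (h1.mul (G.hAts s t)).trace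
  refine h2.congr_deriv ?_
  unfold trH
  rw [G.Ast_eq h, Matrix.trace_add, Matrix.mul_add, Matrix.trace_add, Matrix.neg_mul,
    Matrix.trace_neg]
  have e : ((G.A s t)⁻¹ * (G.At s t * (G.A s t)⁻¹ * G.As s t)).trace =
      ((G.A s t)⁻¹ * G.As s t * (G.A s t)⁻¹ * G.At s t).trace := by
    rw [Matrix.mul_assoc (G.At s t), ← Matrix.mul_assoc (G.A s t)⁻¹ (G.At s t),
      Matrix.trace_mul_comm]
    simp only [Matrix.mul_assoc]
  rw [e]
  ring

theorem hasDerivAt_LL' {u : ℝ} (h0 : 0 < u) (h1 : u < π) :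
    HasDerivAt G.LL' (-((1 / (2 * π)) * ∫ s in (0:ℝ)..(2 * π), G.trH s (s + u))) u := by
  have e : G.LL' = fun u => (1 / (2 * π)) * ∫ s in (0:ℝ)..(2 * π), G.TT (s - u) s := by
    funext u; exact G.LL'_eq u
  rw [e, shift_integral G.trH G.trH_per u, ← mul_neg, ← intervalIntegral.integral_neg]
  refine HasDerivAt.const_mul (1 / (2 * π)) (d := fun u => ∫ s in (0:ℝ)..(2 * π),
    G.TT (s - u) s) ?_
  refine hasDerivAt_param (fun u s => G.TT (s - u) s) (fun u s => -G.trH (s - u) s)
    _ _ h0 h1 ?_ ?_ ?_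
  · intro u hu0 hu1
    rw [continuous_iff_continuousAt]
    intro s
    have h := G.continuousAt_TT (p := (s - u, s)) (G.det_ne_shift' hu0 hu1 s)
    exact ContinuousAt.comp (x := s) (f := fun s : ℝ => ((s - u, s) : ℝ × ℝ)) h (by fun_prop)
  · rintro ⟨u, s⟩ ⟨⟨hu0, hu1⟩, -⟩
    have h := G.continuousAt_trH (p := (s - u, s)) (G.det_ne_shift' hu0 hu1 s)
    exact (ContinuousAt.comp (x := ((u, s) : ℝ × ℝ))
      (f := fun p : ℝ × ℝ => ((p.2 - p.1, p.2) : ℝ × ℝ)) h (by fun_prop)).neg.continuousWithinAt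
  · intro s u hu0 hu1
    exact (G.hasDerivAt_TT (G.det_ne_shift' hu0 hu1 s)).comp_const_sub s u

end JLoop

end Crest.Agent.R208.N
end

-- ▼ part R208/N8
section

set_option autoImplicit false

open Real Set Filter Topology

namespace Crest.Agent.R208.N

/-- second derivative test (necessary condition) -/
theorem second_deriv_nonneg_of_min {f f' : ℝ → ℝ} {x0 c : ℝ}
    (hf : ∀ᶠ x in 𝓝 x0, HasDerivAt f (f' x) x) (hf' : HasDerivAt f' c x0)
    (hmin : IsLocalMin f x0) : 0 ≤ c := by
  by_contra hc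
  push Not at hc
  have h0 : f' x0 = 0 := hmin.hasDerivAt_eq_zero hf.self_of_nhds
  -- slope of f' is eventually negative
  have hs : ∀ᶠ x in 𝓝[≠] x0, slope f' x0 x < 0 :=
    (hasDerivAt_iff_tendsto_slope.1 hf').eventually (gt_mem_nhds hc)
  rw [eventually_nhdsWithin_iff] at hs
  obtain ⟨ε, hε, hball⟩ := Metric.eventually_nhds_iff.1 ((hs.and hf).and hmin)
  set x := x0 + ε / 2 with hx
  have hxx : x0 < x := by rw [hx]; linarith
  have hin : ∀ y, x0 ≤ y → y ≤ x → dist y x0 < ε := by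
    intro y h1 h2
    rw [Real.dist_eq, abs_of_nonneg (by linarith)]
    rw [hx] at h2; linarith
  obtain ⟨ξ, hξ, hξe⟩ := exists_hasDerivAt_eq_slope f f' hxx
    (fun y hy => ((hball (hin y hy.1 hy.2)).1.2).continuousAt.continuousWithinAt)
    (fun y hy => (hball (hin y hy.1.le hy.2.le)).1.2)
  have hneg : f' ξ < 0 := by
    have := (hball (hin ξ hξ.1.le hξ.2.le)).1.1 (by simpa using hξ.1.ne')
    rw [slope_def_field, h0, sub_zero] at this
    have hpos : 0 < ξ - x0 := sub_pos.2 hξ.1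
    by_contra hcon
    push Not at hcon
    exact absurd this (not_lt.2 (div_nonneg hcon hpos.le))
  have hmn : f x0 ≤ f x := (hball (hin x hxx.le le_rfl)).2
  rw [hξe] at hneg
  have : 0 ≤ (f x - f x0) / (x - x0) := div_nonneg (by linarith) (by linarith)
  linarith

theorem sin_chord {x y : ℝ} (hx : 0 ≤ x) (hxy : x ≤ y) (hy0 : 0 < y) (hy : y ≤ π) :
    x / y * sin y ≤ sin x := by
  have hle : x / y ≤ 1 := (div_le_one hy0).2 hxy
  have h := strictConcaveOn_sin_Icc.concaveOn.2 (⟨le_rfl, pi_pos.le⟩ : (0 : ℝ) ∈ Icc 0 π)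
    (⟨hy0.le, hy⟩ : y ∈ Icc 0 π) (sub_nonneg.2 hle) (div_nonneg hx hy0.le)
    (sub_add_cancel 1 (x / y))
  simp only [smul_eq_mul, mul_zero, zero_add, sin_zero] at h
  rwa [div_mul_cancel₀ _ hy0.ne'] at h

section
variable {T u : ℝ}

/-- the comparison function -/
noncomputable def phT (T u : ℝ) : ℝ := T / π * sin (π * u / T)

noncomputable def psT (u : ℝ) : ℝ := 2 * sin (u / 2)

theorem phT_pos (hT : 0 < T) (h0 : 0 < u) (h1 : u < T) : 0 < phT T u := by
  unfold phT
  refine mul_pos (div_pos hT pi_pos) (sin_pos_of_pos_of_lt_pi (by positivity) ?_)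
  rw [div_lt_iff₀ hT]
  exact mul_lt_mul_of_pos_left h1 pi_pos

theorem psT_pos (h0 : 0 < u) (h1 : u < π) : 0 < psT u := by
  unfold psT
  have := sin_pos_of_pos_of_lt_pi (x := u / 2) (by linarith) (by linarith)
  linarith

theorem phT_le_sin (hT : 0 < T) (hTp : T ≤ π) (h0 : 0 < u) (h1 : u < T) : phT T u ≤ sin u := by
  unfold phT
  have hy0 : 0 < π * u / T := by positivity
  have hyp : π * u / T ≤ π := by
    rw [div_le_iff₀ hT]
    exact mul_le_mul_of_nonneg_left h1.le pi_pos.le
  have hxy : u ≤ π * u / T := by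
    rw [le_div_iff₀ hT]
    nlinarith
  have := sin_chord h0.le hxy hy0 hyp
  have e : u / (π * u / T) = T / π := by
    field_simp
  rwa [e] at this

theorem sin_le_psT (h0 : 0 < u) (h1 : u < π) : sin u ≤ psT u := by
  unfold psT
  have hs := sin_pos_of_pos_of_lt_pi (x := u / 2) (by linarith) (by linarith)
  have hc := cos_le_one (u / 2)
  have e : sin u = 2 * sin (u / 2) * cos (u / 2) := by
    rw [← sin_two_mul]; congr 1; ring
  rw [e]
  nlinarith

theorem phT_le_self (hT : 0 < T) (h0 : 0 < u) (h1 : u < T) (hTp : T ≤ π) : phT T u ≤ u :=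
  (phT_le_sin hT hTp h0 h1).trans (sin_le h0.le)

theorem psT_le_self (h0 : 0 < u) : psT u ≤ u := by
  unfold psT
  have := sin_le (x := u / 2) (by linarith)
  linarith

theorem hasDerivAt_log_phT (hT : 0 < T) (h0 : 0 < u) (h1 : u < T) :
    HasDerivAt (fun x => log (phT T x)) (cos (π * u / T) / phT T u) u := by
  have hp := phT_pos hT h0 h1
  have hlin : HasDerivAt (fun x : ℝ => π * x / T) (π / T) u := by
    have := ((hasDerivAt_id u).const_mul π).div_const T
    simpa using this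
  have h : HasDerivAt (fun x => phT T x) (cos (π * u / T)) u := by
    refine HasDerivAt.congr_deriv (f := fun x => phT T x) ((hlin.sin).const_mul (T / π)) ?_
    have := pi_ne_zero
    field_simp
  exact h.log hp.ne'

theorem hasDerivAt_log_phT' (hT : 0 < T) (h0 : 0 < u) (h1 : u < T) :
    HasDerivAt (fun x => cos (π * x / T) / phT T x) (-(1 / phT T u ^ 2)) u := by
  have hp := phT_pos hT h0 h1
  have hlin : HasDerivAt (fun x : ℝ => π * x / T) (π / T) u := by
    have := ((hasDerivAt_id u).const_mul π).div_const T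
    simpa using this
  have h : HasDerivAt (fun x => phT T x) (cos (π * u / T)) u := by
    refine HasDerivAt.congr_deriv (f := fun x => phT T x) ((hlin.sin).const_mul (T / π)) ?_
    have := pi_ne_zero
    field_simp
  have hc : HasDerivAt (fun x => cos (π * x / T)) (-sin (π * u / T) * (π / T)) u := hlin.cos
  refine HasDerivAt.congr_deriv (hc.div h hp.ne') ?_
  have e : sin (π * u / T) = π / T * phT T u := by
    unfold phT; field_simp
  have e2 : cos (π * u / T) * cos (π * u / T) = 1 - (π / T * phT T u) ^ 2 := by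
    rw [← e]
    have := sin_sq_add_cos_sq (π * u / T)
    nlinarith
  rw [e2, e]
  have hp' := hp.ne'
  field_simp
  ring

theorem hasDerivAt_log_psT (h0 : 0 < u) (h1 : u < π) :
    HasDerivAt (fun x => log (psT x)) (cos (u / 2) / psT u) u := by
  have hp := psT_pos h0 h1
  have hlin : HasDerivAt (fun x : ℝ => x / 2) (1 / 2) u := (hasDerivAt_id u).div_const 2
  have h : HasDerivAt (fun x => psT x) (cos (u / 2)) u := by
    refine HasDerivAt.congr_deriv (f := fun x => psT x) ((hlin.sin).const_mul 2) ?_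
    ring
  exact h.log hp.ne'

theorem hasDerivAt_log_psT' (h0 : 0 < u) (h1 : u < π) :
    HasDerivAt (fun x => cos (x / 2) / psT x) (-(1 / psT u ^ 2)) u := by
  have hp := psT_pos h0 h1
  have hlin : HasDerivAt (fun x : ℝ => x / 2) (1 / 2) u := (hasDerivAt_id u).div_const 2
  have h : HasDerivAt (fun x => psT x) (cos (u / 2)) u := by
    refine HasDerivAt.congr_deriv (f := fun x => psT x) ((hlin.sin).const_mul 2) ?_
    ring
  have hc : HasDerivAt (fun x => cos (x / 2)) (-sin (u / 2) * (1 / 2)) u := hlin.cos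
  refine HasDerivAt.congr_deriv (hc.div h hp.ne') ?_
  have e : sin (u / 2) = psT u / 2 := by unfold psT; ring
  have e2 : cos (u / 2) * cos (u / 2) = 1 - (psT u / 2) ^ 2 := by
    rw [← e]
    have := sin_sq_add_cos_sq (u / 2)
    nlinarith
  rw [e2, e]
  have hp' := hp.ne'
  field_simp
  ring

end

/-- comparison on `(0,T)` -/
theorem scalar_core_T {a b : ℕ} (ha : 0 < a) (L L' L'' : ℝ → ℝ)
    (h1 : ∀ u, 0 < u → u < π → HasDerivAt L (L' u) u)
    (h2 : ∀ u, 0 < u → u < π → HasDerivAt L' (L'' u) u)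
    (h0 : ∀ ε > 0, ∃ δ > 0, ∀ u, 0 < u → u < δ → ((a : ℝ) + b) * log u - ε ≤ L u)
    (hineq : ∀ u, 0 < u → u < π → ∀ c₁ c₂ : ℝ, c₂ ≤ c₁ →
      a * exp c₁ + b * exp c₂ +
        (exp c₁ - exp c₂) * (2 * (b * log (2 * sin (u / 2))) - 2 * L u - a * c₁)
        + exp c₂ * (-(2 * L u) - a * c₁ - b * c₂) ≤ -(L'' u))
    {T : ℝ} (hT : 0 < T) (hTp : T < π) {u : ℝ} (hu0 : 0 < u) (huT : u < T) :
    a * log (phT T u) + b * log (psT u) ≤ L u := by
  set q : ℝ → ℝ := fun x => L x - (a * log (phT T x) + b * log (psT x)) with hq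
  set q' : ℝ → ℝ := fun x => L' x - (a * (cos (π * x / T) / phT T x) +
    b * (cos (x / 2) / psT x)) with hq'
  have hqd : ∀ x, 0 < x → x < T → HasDerivAt q (q' x) x := by
    intro x hx0 hxT
    exact (h1 x hx0 (hxT.trans hTp)).sub
      (((hasDerivAt_log_phT hT hx0 hxT).const_mul (a : ℝ)).add
        ((hasDerivAt_log_psT hx0 (hxT.trans hTp)).const_mul (b : ℝ)))
  have hqd' : ∀ x, 0 < x → x < T → HasDerivAt q'
      (L'' x - (a * (-(1 / phT T x ^ 2)) + b * (-(1 / psT x ^ 2)))) x := by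
    intro x hx0 hxT
    exact (h2 x hx0 (hxT.trans hTp)).sub
      (((hasDerivAt_log_phT' hT hx0 hxT).const_mul (a : ℝ)).add
        ((hasDerivAt_log_psT' hx0 (hxT.trans hTp)).const_mul (b : ℝ)))
  have hkey : ∀ x, 0 < x → x < T →
      L'' x - (a * (-(1 / phT T x ^ 2)) + b * (-(1 / psT x ^ 2))) ≤ 2 * q x / phT T x ^ 2 := by
    intro x hx0 hxT
    have hxp := hxT.trans hTp
    have hph := phT_pos hT hx0 hxT
    have hps := psT_pos hx0 hxp
    have hle : phT T x ≤ psT x := (phT_le_sin hT hTp.le hx0 hxT).trans (sin_le_psT hx0 hxp)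
    have hlog : log (phT T x) ≤ log (psT x) := log_le_log hph hle
    have h := hineq x hx0 hxp (-2 * log (phT T x)) (-2 * log (psT x)) (by linarith)
    have e1 : exp (-2 * log (phT T x)) = 1 / phT T x ^ 2 := by
      rw [show -2 * log (phT T x) = -(2 * log (phT T x)) by ring, exp_neg,
        show (2 : ℝ) * log (phT T x) = log (phT T x ^ 2) by
          rw [log_pow]; norm_num, exp_log (by positivity), one_div]
    have e2 : exp (-2 * log (psT x)) = 1 / psT x ^ 2 := by
      rw [show -2 * log (psT x) = -(2 * log (psT x)) by ring, exp_neg,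
        show (2 : ℝ) * log (psT x) = log (psT x ^ 2) by
          rw [log_pow]; norm_num, exp_log (by positivity), one_div]
    rw [e1, e2] at h
    have e3 : 2 * sin (x / 2) = psT x := rfl
    rw [e3] at h
    have e4 : 2 * q x / phT T x ^ 2 = (1 / phT T x ^ 2) * (2 * q x) := by ring
    rw [e4, hq]
    nlinarith [h]
  by_contra hcon
  push Not at hcon
  have hqu : q u < 0 := by simp only [hq]; linarith
  -- near 0
  obtain ⟨δ, hδ, hδq⟩ := h0 (-(q u) / 2) (by linarith)
  have hnear0 : ∀ x, 0 < x → x < δ → x < T → q u < q x := by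
    intro x hx0 hxδ hxT
    have hxp := hxT.trans hTp
    have a1 := hδq x hx0 hxδ
    have b1 : log (phT T x) ≤ log x :=
      log_le_log (phT_pos hT hx0 hxT) (phT_le_self hT hx0 hxT hTp.le)
    have b2 : log (psT x) ≤ log x := log_le_log (psT_pos hx0 hxp) (psT_le_self hx0)
    have c1 : (a : ℝ) * log (phT T x) ≤ a * log x :=
      mul_le_mul_of_nonneg_left b1 (Nat.cast_nonneg a)
    have c2 : (b : ℝ) * log (psT x) ≤ b * log x :=
      mul_le_mul_of_nonneg_left b2 (Nat.cast_nonneg b)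
    have : q x = L x - (a * log (phT T x) + b * log (psT x)) := rfl
    nlinarith
  -- near T
  have hnearT : ∀ᶠ x in 𝓝[<] T, 0 < q x := by
    have hLc : ContinuousAt L T := (h1 T hT hTp).continuousAt
    have hLb : ∀ᶠ x in 𝓝[<] T, L T - 1 < L x :=
      (hLc.tendsto.mono_left nhdsWithin_le_nhds).eventually (lt_mem_nhds (by linarith))
    have hpsc : ContinuousAt (fun x => log (psT x)) T :=
      (hasDerivAt_log_psT hT hTp).continuousAt
    have hpsb : ∀ᶠ x in 𝓝[<] T, log (psT x) < log (psT T) + 1 :=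
      (hpsc.tendsto.mono_left nhdsWithin_le_nhds).eventually (gt_mem_nhds (by linarith))
    have hphc : Tendsto (fun x => phT T x) (𝓝[<] T) (𝓝[>] 0) := by
      rw [tendsto_nhdsWithin_iff]
      refine ⟨?_, ?_⟩
      · have hc : Continuous (fun x => phT T x) := by
          unfold phT; fun_prop
        have := hc.tendsto T
        have e : phT T T = 0 := by
          unfold phT
          rw [mul_div_assoc, div_self hT.ne', mul_one, sin_pi, mul_zero]
        rw [e] at this
        exact this.mono_left nhdsWithin_le_nhds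
      · have : ∀ᶠ x in 𝓝[<] T, 0 < x ∧ x < T := by
          filter_upwards [self_mem_nhdsWithin, mem_nhdsWithin_of_mem_nhds (lt_mem_nhds hT)]
            with x hx hx'
          exact ⟨hx', hx⟩
        filter_upwards [this] with x hx
        exact phT_pos hT hx.1 hx.2
    have hlogT : Tendsto (fun x => log (phT T x)) (𝓝[<] T) atBot :=
      tendsto_log_nhdsGT_zero.comp hphc
    have hbig : ∀ᶠ x in 𝓝[<] T,
        log (phT T x) < -(|L T - 1| + b * |log (psT T) + 1| + 1) :=
      hlogT.eventually (eventually_lt_atBot _)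
    filter_upwards [hLb, hpsb, hbig] with x hx1 hx2 hx3
    have ha1 : (1 : ℝ) ≤ a := by exact_mod_cast ha
    have hneg : log (phT T x) < 0 := by
      have : 0 ≤ |L T - 1| + b * |log (psT T) + 1| := by positivity
      linarith
    have c1 : (a : ℝ) * log (phT T x) ≤ log (phT T x) := by nlinarith
    have c2 : (b : ℝ) * log (psT x) ≤ b * |log (psT T) + 1| :=
      mul_le_mul_of_nonneg_left (hx2.le.trans (le_abs_self _)) (Nat.cast_nonneg b)
    have c3 : -|L T - 1| ≤ L T - 1 := neg_abs_le _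
    have : q x = L x - (a * log (phT T x) + b * log (psT x)) := rfl
    rw [this]
    linarith
  -- choose the compact interval
  have hlt : ∀ᶠ x in 𝓝[<] T, u < x ∧ x < T ∧ 0 < q x := by
    filter_upwards [hnearT, self_mem_nhdsWithin, mem_nhdsWithin_of_mem_nhds (lt_mem_nhds huT)]
      with x hx1 hx2 hx3
    exact ⟨hx3, hx2, hx1⟩
  obtain ⟨T', huT', hT'T, hqT'⟩ := hlt.exists
  set s := min (δ / 2) (u / 2) with hs
  have hs0 : 0 < s := lt_min (by linarith) (by linarith)
  have hsu : s < u := (min_le_right _ _).trans_lt (by linarith)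
  have hsδ : s < δ := (min_le_left _ _).trans_lt (by linarith)
  have hqs : q u < q s := hnear0 s hs0 hsδ (hsu.trans huT)
  have hcont : ContinuousOn q (Icc s T') := fun x hx =>
    (hqd x (hs0.trans_le hx.1) (hx.2.trans_lt hT'T)).continuousAt.continuousWithinAt
  obtain ⟨x0, hx0, hmin⟩ := isCompact_Icc.exists_isMinOn
    (nonempty_Icc.2 (hsu.le.trans huT'.le)) hcont
  have hx0u : q x0 ≤ q u := hmin ⟨hsu.le, huT'.le⟩
  have hne1 : x0 ≠ s := by
    rintro rfl
    exact absurd hx0u (not_le.2 hqs)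
  have hne2 : x0 ≠ T' := by
    rintro rfl
    linarith
  have hmem : x0 ∈ Ioo s T' := ⟨lt_of_le_of_ne hx0.1 (Ne.symm hne1), lt_of_le_of_ne hx0.2 hne2⟩
  have hx00 : 0 < x0 := hs0.trans hmem.1
  have hx0T : x0 < T := hmem.2.trans hT'T
  have hloc : IsLocalMin q x0 := hmin.isLocalMin (Icc_mem_nhds hmem.1 hmem.2)
  have hev : ∀ᶠ x in 𝓝 x0, HasDerivAt q (q' x) x := by
    filter_upwards [Ioo_mem_nhds hx00 hx0T] with x hx
    exact hqd x hx.1 hx.2
  have hc := second_deriv_nonneg_of_min hev (hqd' x0 hx00 hx0T) hloc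
  have hk := hkey x0 hx00 hx0T
  have hneg : 2 * q x0 / phT T x0 ^ 2 < 0 :=
    div_neg_of_neg_of_pos (by linarith) (pow_pos (phT_pos hT hx00 hx0T) 2)
  linarith

theorem scalar_core {a b : ℕ} (ha : 0 < a) (L L' L'' : ℝ → ℝ)
    (h1 : ∀ u, 0 < u → u < π → HasDerivAt L (L' u) u)
    (h2 : ∀ u, 0 < u → u < π → HasDerivAt L' (L'' u) u)
    (h0 : ∀ ε > 0, ∃ δ > 0, ∀ u, 0 < u → u < δ → ((a : ℝ) + b) * log u - ε ≤ L u)
    (hineq : ∀ u, 0 < u → u < π → ∀ c₁ c₂ : ℝ, c₂ ≤ c₁ →
      a * exp c₁ + b * exp c₂ +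
        (exp c₁ - exp c₂) * (2 * (b * log (2 * sin (u / 2))) - 2 * L u - a * c₁)
        + exp c₂ * (-(2 * L u) - a * c₁ - b * c₂) ≤ -(L'' u))
    (u : ℝ) (hu0 : 0 < u) (hu1 : u < π) :
    a * log (sin u) + b * log (2 * sin (u / 2)) ≤ L u := by
  have hsin : 0 < sin u := sin_pos_of_pos_of_lt_pi hu0 hu1
  have hten : Tendsto (fun T => a * log (phT T u) + b * log (psT u)) (𝓝[<] π)
      (𝓝 (a * log (sin u) + b * log (2 * sin (u / 2)))) := by
    have hc : ContinuousAt (fun T => phT T u) π := by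
      unfold phT
      refine ContinuousAt.mul (by fun_prop) ?_
      refine continuous_sin.continuousAt.comp ?_
      exact ContinuousAt.div (by fun_prop) continuousAt_id pi_ne_zero
    have e : phT π u = sin u := by
      unfold phT
      rw [div_self pi_ne_zero, one_mul, mul_div_assoc, mul_div_cancel₀ _ pi_ne_zero]
    have hl : ContinuousAt (fun T => log (phT T u)) π := hc.log (by rw [e]; exact hsin.ne')
    have : Tendsto (fun T => log (phT T u)) (𝓝[<] π) (𝓝 (log (sin u))) := by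
      have := hl.tendsto
      rw [e] at this
      exact this.mono_left nhdsWithin_le_nhds
    exact (this.const_mul _).add_const _
  refine le_of_tendsto hten ?_
  filter_upwards [self_mem_nhdsWithin, mem_nhdsWithin_of_mem_nhds (lt_mem_nhds hu1)] with T hT huT
  exact scalar_core_T ha L L' L'' h1 h2 h0 hineq (hu0.trans huT) hT hu0 huT

end Crest.Agent.R208.N
end

-- ▼ part R208/N9
section

/-!
R208, block G6 (helper589), part N9: the noncommutative Kazdan inequality for one closed geodesic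
(`core : CoreStmt`) and its equality case (`eq_case : EqStmt`).
-/

set_option autoImplicit false

open Real Matrix Filter Topology Set

namespace Crest.Agent.R208.N
namespace JLoop

variable {m a : ℕ} (G : JLoop m a)

lemma continuous_A_diag (u : ℝ) : Continuous fun s => G.A s (s + u) :=
  G.continuous_A.comp (f := fun s : ℝ => ((s, s + u) : ℝ × ℝ)) (by fun_prop)

lemma continuous_logdet {u : ℝ} (h0 : 0 < u) (h1 : u < π) :
    Continuous fun s => log |(G.A s (s + u)).det| := by
  refine Continuous.log (G.continuous_A_diag u).matrix_det.abs fun s => ?_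
  exact abs_ne_zero.2 (G.ndeg s (s + u) (by linarith) (by linarith))

lemma continuous_trHm {u : ℝ} (h0 : 0 < u) (h1 : u < π) :
    Continuous fun s => (G.Hm s (s + u)).trace := by
  have hinv : Continuous fun s => (G.A s (s + u))⁻¹ := continuous_iff_continuousAt.2 fun s =>
    continuousAt_inv' (G.continuous_A_diag u).continuousAt
      (G.ndeg s (s + u) (by linarith) (by linarith))
  exact (hinv.matrix_mul hinv.matrix_transpose).matrix_trace

lemma LL_lower : ∀ ε > 0, ∃ δ > 0, ∀ u, 0 < u → u < δ → (m : ℝ) * log u - ε ≤ G.LL u := by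
  intro ε hε
  obtain ⟨q, hq1, hq2, hq3⟩ := G.exists_Aq
  have hdet : ∀ s e, |(G.A s (s + e)).det| = |e| ^ m * |(q s (s + e)).det| := by
    intro s e
    rw [hq2, det_smul, Fintype.card_fin, abs_mul, abs_pow, add_sub_cancel_left]
  have hper : ∀ s e : ℝ, |(q (s + 2 * π) (s + 2 * π + e)).det| = |(q s (s + e)).det| := by
    intro s e
    by_cases he : e = 0
    · simp only [he, add_zero, hq3]
    · have h3 := hdet (s + 2 * π) e
      have h4 := hdet s e
      have h5 := G.abs_det_shift s (s + e)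
      have e1 : s + e + 2 * π = s + 2 * π + e := by ring
      rw [e1] at h5
      rw [h5, h4] at h3
      exact (mul_left_cancel₀ (pow_ne_zero _ (abs_ne_zero.2 he)) h3).symm
  obtain ⟨δ, hδ, h⟩ := unif_lower (fun s e => |(q s (s + e)).det|)
    ((hq1.comp (f := fun p : ℝ × ℝ => (p.1, p.1 + p.2)) (by fun_prop)).matrix_det.abs) hper
    (exp (-ε)) (fun s => by simp [hq3, hε])
  refine ⟨min δ π, lt_min hδ pi_pos, fun u h0 h1 => ?_⟩
  have hud : u < δ := lt_of_lt_of_le h1 (min_le_left _ _)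
  have hup : u < π := lt_of_lt_of_le h1 (min_le_right _ _)
  have hint := (G.continuous_logdet h0 hup).intervalIntegrable (μ := MeasureTheory.volume)
    0 (2 * π)
  have hmono : ∫ _ in (0:ℝ)..(2 * π), ((m : ℝ) * log u - ε) ≤
      ∫ s in (0:ℝ)..(2 * π), log |(G.A s (s + u)).det| := by
    refine intervalIntegral.integral_mono_on two_pi_pos.le
      (continuous_const.intervalIntegrable _ _) hint fun s _ => ?_
    have h5 := h s u (by rwa [abs_of_pos h0])
    have hqp : 0 < |(q s (s + u)).det| := (exp_pos _).trans h5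
    rw [hdet, log_mul (pow_ne_zero _ (abs_ne_zero.2 h0.ne')) hqp.ne', log_pow, log_abs]
    have h6 := Real.log_lt_log (exp_pos _) h5
    rw [log_exp] at h6
    linarith
  rw [intervalIntegral.integral_const, sub_zero, smul_eq_mul] at hmono
  unfold LL
  have h2 : (0:ℝ) < 1 / (2 * π) := by have := two_pi_pos; positivity
  have h3 := mul_le_mul_of_nonneg_left hmono h2.le
  refine le_trans (le_of_eq ?_) h3
  have := two_pi_pos.ne'
  field_simp

lemma rhs_eq (p b : ℕ) (c₁ c₂ z l : ℝ) :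
    rhs p b c₁ c₂ z l = rhs p b c₁ c₂ 0 0 + (2 * (exp c₁ - exp c₂)) * z - (2 * exp c₁) * l := by
  unfold rhs; ring

variable {G}

lemma Pack.mean_rhs (K : Pack G) {u : ℝ} (h0 : 0 < u) (h1 : u < π) (c₁ c₂ : ℝ) :
    (1 / (2 * π)) * ∫ s in (0:ℝ)..(2 * π), rhs a K.b c₁ c₂ (K.z s (s + u))
      (log |(G.A s (s + u)).det|) =
    rhs a K.b c₁ c₂ ((1 / (2 * π)) * ∫ s in (0:ℝ)..(2 * π), K.z s (s + u)) (G.LL u) := by
  have hz := (K.z_cont u h0 h1).intervalIntegrable (μ := MeasureTheory.volume) 0 (2 * π)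
  have hl := (G.continuous_logdet h0 h1).intervalIntegrable (μ := MeasureTheory.volume) 0 (2 * π)
  have e : ∀ s, rhs a K.b c₁ c₂ (K.z s (s + u)) (log |(G.A s (s + u)).det|) =
      rhs a K.b c₁ c₂ 0 0 + (2 * (exp c₁ - exp c₂)) * K.z s (s + u) -
        (2 * exp c₁) * log |(G.A s (s + u)).det| := fun s => rhs_eq _ _ _ _ _ _
  simp only [e]
  rw [intervalIntegral.integral_sub ((continuous_const.intervalIntegrable _ _).add
      (hz.const_mul _)) (hl.const_mul _),
    intervalIntegral.integral_add (continuous_const.intervalIntegrable _ _) (hz.const_mul _),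
    intervalIntegral.integral_const_mul, intervalIntegral.integral_const_mul,
    intervalIntegral.integral_const, sub_zero, smul_eq_mul, rhs_eq a K.b c₁ c₂ _ (G.LL u)]
  unfold LL
  have := two_pi_pos.ne'
  field_simp

lemma Pack.continuous_rhs (K : Pack G) {u : ℝ} (h0 : 0 < u) (h1 : u < π) (c₁ c₂ : ℝ) :
    Continuous fun s => rhs a K.b c₁ c₂ (K.z s (s + u)) (log |(G.A s (s + u)).det|) := by
  have e : (fun s => rhs a K.b c₁ c₂ (K.z s (s + u)) (log |(G.A s (s + u)).det|)) =
      fun s => rhs a K.b c₁ c₂ 0 0 + (2 * (exp c₁ - exp c₂)) * K.z s (s + u) -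
        (2 * exp c₁) * log |(G.A s (s + u)).det| := by
    funext s; exact rhs_eq _ _ _ _ _ _
  rw [e]
  exact (continuous_const.add ((K.z_cont u h0 h1).const_mul _)).sub
    ((G.continuous_logdet h0 h1).const_mul _)

lemma Pack.rhs_le (K : Pack G) {u : ℝ} (h0 : 0 < u) (h1 : u < π) {c₁ c₂ : ℝ} (hc : c₂ ≤ c₁) :
    rhs a K.b c₁ c₂ (K.b * log (2 * sin (u / 2))) (G.LL u) ≤
      rhs a K.b c₁ c₂ ((1 / (2 * π)) * ∫ s in (0:ℝ)..(2 * π), K.z s (s + u)) (G.LL u) := by
  rw [rhs_eq, rhs_eq a K.b c₁ c₂ ((1 / (2 * π)) * _)]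
  have h := K.z_mean u h0 h1
  have hexp : 0 ≤ 2 * (exp c₁ - exp c₂) := by
    have := exp_le_exp.2 hc; linarith
  have := mul_le_mul_of_nonneg_left h hexp
  linarith

lemma Pack.mean_ineq (K : Pack G) {u : ℝ} (h0 : 0 < u) (h1 : u < π) {c₁ c₂ : ℝ}
    (hc : c₂ ≤ c₁) :
    rhs a K.b c₁ c₂ (K.b * log (2 * sin (u / 2))) (G.LL u) ≤
      (1 / (2 * π)) * ∫ s in (0:ℝ)..(2 * π), G.trH s (s + u) := by
  refine (K.rhs_le h0 h1 hc).trans ?_
  rw [← K.mean_rhs h0 h1]
  have h2 : (0:ℝ) < 1 / (2 * π) := by have := two_pi_pos; positivity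
  refine mul_le_mul_of_nonneg_left ?_ h2.le
  refine intervalIntegral.integral_mono_on two_pi_pos.le
    ((K.continuous_rhs h0 h1 _ _).intervalIntegrable _ _)
    ((G.continuous_trHm h0 h1).intervalIntegrable _ _) fun s _ => ?_
  exact (K.ineq s (s + u) (by linarith) (by linarith) c₁ c₂ hc).1

end JLoop

open JLoop

/-- **noncommutative Kazdan inequality for one closed geodesic** -/
theorem core : CoreStmt := by
  intro m a G u h0 h1
  obtain ⟨K⟩ := G.exists_pack
  have hb : m - a = K.b := by have := K.hab; omega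
  rw [hb]
  rcases Nat.eq_zero_or_pos a with ha | ha
  · have h := K.z_mean u h0 h1
    simp only [K.z_eq ha] at h
    have ha' : (a : ℝ) = 0 := by exact_mod_cast ha
    rw [ha', zero_mul, zero_add]
    exact h
  · refine scalar_core ha G.LL G.LL'
      (fun u => -((1 / (2 * π)) * ∫ s in (0:ℝ)..(2 * π), G.trH s (s + u)))
      (fun u h0 h1 => G.hasDerivAt_LL h0 h1) (fun u h0 h1 => G.hasDerivAt_LL' h0 h1) ?_ ?_
      u h0 h1
    · intro ε hε
      obtain ⟨δ, hδ, h⟩ := G.LL_lower ε hε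
      refine ⟨δ, hδ, fun u h0 h1 => ?_⟩
      have e : (a : ℝ) + K.b = m := by exact_mod_cast K.hab
      rw [e]; exact h u h0 h1
    · intro u h0 h1 c₁ c₂ hc
      have h := K.mean_ineq h0 h1 hc
      unfold rhs at h
      rw [neg_neg]
      exact h

section eqc

variable {m a : ℕ} (G : JLoop m a)

lemma eq_deriv2 {b : ℕ}
    (h : ∀ u : ℝ, 0 < u → u < π → G.LL u = a * log (sin u) + b * log (2 * sin (u / 2)))
    {u : ℝ} (h0 : 0 < u) (h1 : u < π) :
    (1 / (2 * π)) * ∫ s in (0:ℝ)..(2 * π), G.trH s (s + u) =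
      a * (1 / sin u ^ 2) + b * (1 / (4 * sin (u / 2) ^ 2)) := by
  have hs : ∀ u, 0 < u → u < π → 0 < sin u := fun u h0 h1 => sin_pos_of_pos_of_lt_pi h0 h1
  have hs2 : ∀ u, 0 < u → u < π → 0 < sin (u / 2) := fun u h0 h1 =>
    sin_pos_of_pos_of_lt_pi (by linarith) (by linarith)
  have hnhds : ∀ u, 0 < u → u < π → ∀ᶠ v in 𝓝 u, 0 < v ∧ v < π := fun u h0 h1 =>
    (eventually_gt_nhds h0).and (eventually_lt_nhds h1)
  have hhalf : ∀ u : ℝ, HasDerivAt (fun u : ℝ => sin (u / 2)) (cos (u / 2) * (1 / 2)) u := by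
    intro u
    exact ((hasDerivAt_id u).div_const 2).sin
  have hhalfc : ∀ u : ℝ, HasDerivAt (fun u : ℝ => cos (u / 2)) (-sin (u / 2) * (1 / 2)) u := by
    intro u
    exact ((hasDerivAt_id u).div_const 2).cos
  have hL' : ∀ u, 0 < u → u < π →
      G.LL' u = a * (cos u / sin u) + b * (cos (u / 2) / (2 * sin (u / 2))) := by
    intro u h0 h1
    have e1 := G.hasDerivAt_LL h0 h1
    have e2 : HasDerivAt (fun u : ℝ => (a : ℝ) * log (sin u) + b * log (2 * sin (u / 2)))
        (a * (cos u / sin u) + b * (2 * (cos (u / 2) * (1 / 2)) / (2 * sin (u / 2)))) u :=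
      (((hasDerivAt_sin u).log (hs u h0 h1).ne').const_mul _).add
        ((((hhalf u).const_mul 2).log (by have := hs2 u h0 h1; positivity)).const_mul _)
    have e3 : HasDerivAt G.LL
        (a * (cos u / sin u) + b * (2 * (cos (u / 2) * (1 / 2)) / (2 * sin (u / 2)))) u := by
      refine e2.congr_of_eventuallyEq ?_
      filter_upwards [hnhds u h0 h1] with v hv
      exact h v hv.1 hv.2
    rw [e1.unique e3]
    congr 2; ring
  have e1 := G.hasDerivAt_LL' h0 h1
  have hsu := hs u h0 h1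
  have hsu2 := hs2 u h0 h1
  have e2 : HasDerivAt (fun u : ℝ => (a : ℝ) * (cos u / sin u) +
      b * (cos (u / 2) / (2 * sin (u / 2))))
      (a * ((-sin u * sin u - cos u * cos u) / sin u ^ 2) +
        b * (((-sin (u / 2) * (1 / 2)) * (2 * sin (u / 2)) -
          cos (u / 2) * (2 * (cos (u / 2) * (1 / 2)))) / (2 * sin (u / 2)) ^ 2)) u :=
    (((hasDerivAt_cos u).div (hasDerivAt_sin u) hsu.ne').const_mul _).add
      (((hhalfc u).div ((hhalf u).const_mul 2) (by positivity)).const_mul _)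
  have e3 : HasDerivAt G.LL'
      (a * ((-sin u * sin u - cos u * cos u) / sin u ^ 2) +
        b * (((-sin (u / 2) * (1 / 2)) * (2 * sin (u / 2)) -
          cos (u / 2) * (2 * (cos (u / 2) * (1 / 2)))) / (2 * sin (u / 2)) ^ 2)) u := by
    refine e2.congr_of_eventuallyEq ?_
    filter_upwards [hnhds u h0 h1] with v hv
    exact hL' v hv.1 hv.2
  have e4 := e1.unique e3
  have f1 : -sin u * sin u - cos u * cos u = -1 := by
    have := sin_sq_add_cos_sq u; nlinarith
  have f2 : (-sin (u / 2) * (1 / 2)) * (2 * sin (u / 2)) -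
      cos (u / 2) * (2 * (cos (u / 2) * (1 / 2))) = -1 := by
    have := sin_sq_add_cos_sq (u / 2); nlinarith
  rw [f1, f2] at e4
  have e5 := neg_eq_iff_eq_neg.1 e4
  rw [e5]
  field_simp
  ring

lemma Hm_shift (s t : ℝ) : (G.Hm (s + 2 * π) (t + 2 * π)).trace = (G.Hm s t).trace := by
  have hQ1 : (G.Q)⁻¹ = (G.Q)ᵀ := Matrix.inv_eq_left_inv G.Q_orth
  have hQ2 : ((G.Q)ᵀ)⁻¹ = G.Q := Matrix.inv_eq_left_inv G.Q_orth'
  have e : (G.A (s + 2 * π) (t + 2 * π))⁻¹ = G.Q * (G.A s t)⁻¹ * (G.Q)ᵀ := by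
    rw [G.per, G.A_per1, Matrix.mul_inv_rev, Matrix.mul_inv_rev, hQ1, hQ2]
  unfold Hm
  rw [e, transpose_mul, transpose_mul, transpose_transpose]
  have e2 : G.Q * (G.A s t)⁻¹ * (G.Q)ᵀ * (G.Q * (((G.A s t)⁻¹)ᵀ * (G.Q)ᵀ)) =
      G.Q * ((G.A s t)⁻¹ * ((G.Q)ᵀ * G.Q) * ((G.A s t)⁻¹)ᵀ * (G.Q)ᵀ) := by
    simp only [Matrix.mul_assoc]
  rw [e2, trace_mul_comm, G.Q_orth, Matrix.mul_one, Matrix.mul_assoc, G.Q_orth, Matrix.mul_one]

lemma gram_of_Hm {P : Matrix (Fin m) (Fin m) ℝ} (hP : P * P = P) {s t x y : ℝ} (hx : 0 < x)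
    (hy : 0 < y) (hd : (G.A s t).det ≠ 0)
    (h : G.Hm s t = (1 / x) • P + (1 / y) • (1 - P)) :
    (G.A s t)ᵀ * G.A s t = x • P + y • (1 - P) := by
  have hu : IsUnit (G.A s t).det := isUnit_iff_ne_zero.2 hd
  have e1 : G.Hm s t * ((G.A s t)ᵀ * G.A s t) = 1 := by
    have : G.Hm s t * ((G.A s t)ᵀ * G.A s t) =
        (G.A s t)⁻¹ * (((G.A s t)⁻¹)ᵀ * (G.A s t)ᵀ) * G.A s t := by
      unfold Hm; simp only [Matrix.mul_assoc]
    rw [this, ← transpose_mul, Matrix.mul_nonsing_inv _ hu, transpose_one, Matrix.mul_one,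
      Matrix.nonsing_inv_mul _ hu]
  have hP1 : P * (1 - P) = 0 := by rw [Matrix.mul_sub, Matrix.mul_one, hP, sub_self]
  have hP2 : (1 - P) * P = 0 := by rw [Matrix.sub_mul, Matrix.one_mul, hP, sub_self]
  have hP3 : (1 - P) * (1 - P) = 1 - P := by
    rw [Matrix.mul_sub, Matrix.mul_one, hP2, sub_zero]
  have e2 : G.Hm s t * (x • P + y • (1 - P)) = 1 := by
    rw [h, Matrix.add_mul, Matrix.mul_add, Matrix.mul_add]
    simp only [Matrix.smul_mul, Matrix.mul_smul, hP, hP1, hP2, hP3, smul_zero, add_zero,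
      zero_add, smul_smul]
    rw [one_div, one_div, mul_inv_cancel₀ hx.ne', mul_inv_cancel₀ hy.ne', one_smul, one_smul]
    abel
  rw [← Matrix.inv_eq_right_inv e1, ← Matrix.inv_eq_right_inv e2]

end eqc

/-- **the equality case for one closed geodesic** -/
theorem eq_case : EqStmt := by
  intro m a G hyp s₀
  have hpi := pi_pos
  obtain ⟨K⟩ := G.exists_pack
  have hb : m - a = K.b := by have := K.hab; omega
  have hL : ∀ u : ℝ, 0 < u → u < π →
      G.LL u = a * log (sin u) + K.b * log (2 * sin (u / 2)) := by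
    intro u h0 h1
    have := hyp u h0 h1
    rw [hb] at this
    exact this
  refine ⟨K.P s₀, (K.hP s₀).1, (K.hP s₀).2.1, (K.hP s₀).2.2, ?_⟩
  have hopen : ∀ u : ℝ, 0 < u → u < π →
      (G.A s₀ (s₀ + u))ᵀ * G.A s₀ (s₀ + u) =
        (sin u ^ 2) • K.P s₀ + (4 * sin (u / 2) ^ 2) • (1 - K.P s₀) := by
    intro u h0 h1
    have hsu : 0 < sin u := sin_pos_of_pos_of_lt_pi h0 h1
    have hsu2 : 0 < sin (u / 2) := sin_pos_of_pos_of_lt_pi (by linarith) (by linarith)
    have hcu2 : 0 < cos (u / 2) := cos_pos_of_mem_Ioo ⟨by linarith, by linarith⟩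
    have hle : sin u ≤ 2 * sin (u / 2) := by
      have e : sin u = 2 * sin (u / 2) * cos (u / 2) := by
        rw [← sin_two_mul]; congr 1; ring
      rw [e]
      have := cos_le_one (u / 2)
      nlinarith
    set c₁ : ℝ := -(2 * log (sin u)) with hc₁
    set c₂ : ℝ := -(2 * log (2 * sin (u / 2))) with hc₂
    have hc : c₂ ≤ c₁ := by
      have := Real.log_le_log hsu hle
      rw [hc₁, hc₂]; linarith
    have he1 : exp c₁ = 1 / sin u ^ 2 := by
      have : c₁ = log (1 / sin u ^ 2) := by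
        rw [one_div, log_inv, log_pow, hc₁]; push_cast; ring
      rw [this, exp_log (by positivity)]
    have he2 : exp c₂ = 1 / (4 * sin (u / 2) ^ 2) := by
      have e : 4 * sin (u / 2) ^ 2 = (2 * sin (u / 2)) ^ 2 := by ring
      have : c₂ = log (1 / (4 * sin (u / 2) ^ 2)) := by
        rw [e, one_div, log_inv, log_pow, hc₂]; push_cast; ring
      rw [this, exp_log (by positivity)]
    set g : ℝ → ℝ := fun s => (G.Hm s (s + u)).trace -
      rhs a K.b c₁ c₂ (K.z s (s + u)) (log |(G.A s (s + u)).det|) with hg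
    have hgc : Continuous g := (G.continuous_trHm h0 h1).sub (K.continuous_rhs h0 h1 _ _)
    have hg0 : ∀ s, 0 ≤ g s := fun s =>
      sub_nonneg.2 (K.ineq s (s + u) (by linarith) (by linarith) c₁ c₂ hc).1
    have hgper : Function.Periodic g (2 * π) := by
      intro s
      have e : s + 2 * π + u = s + u + 2 * π := by ring
      simp only [hg, e, Hm_shift, G.abs_det_shift, K.z_per]
    have hgint : ∫ s in (0:ℝ)..(2 * π), g s ≤ 0 := by
      have e1 : ∫ s in (0:ℝ)..(2 * π), g s =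
          (∫ s in (0:ℝ)..(2 * π), (G.Hm s (s + u)).trace) -
            ∫ s in (0:ℝ)..(2 * π), rhs a K.b c₁ c₂ (K.z s (s + u))
              (log |(G.A s (s + u)).det|) :=
        intervalIntegral.integral_sub ((G.continuous_trHm h0 h1).intervalIntegrable _ _)
          ((K.continuous_rhs h0 h1 _ _).intervalIntegrable _ _)
      have e2 := K.mean_rhs h0 h1 c₁ c₂
      have e3 := K.rhs_le h0 h1 hc
      have e4 := eq_deriv2 G hL h0 h1
      have e5 : rhs a K.b c₁ c₂ (K.b * log (2 * sin (u / 2))) (G.LL u) =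
          a * (1 / sin u ^ 2) + K.b * (1 / (4 * sin (u / 2) ^ 2)) := by
        rw [hL u h0 h1, ← he1, ← he2]; unfold rhs; rw [hc₁, hc₂]; ring
      rw [e1]
      have h2 : (0:ℝ) < 1 / (2 * π) := by positivity
      have e6 : (1 / (2 * π)) * ((∫ s in (0:ℝ)..(2 * π), (G.Hm s (s + u)).trace) -
            ∫ s in (0:ℝ)..(2 * π), rhs a K.b c₁ c₂ (K.z s (s + u))
              (log |(G.A s (s + u)).det|)) ≤ 0 := by
        rw [mul_sub, e2]
        have e7 : (1 / (2 * π)) * ∫ s in (0:ℝ)..(2 * π), (G.Hm s (s + u)).trace =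
          a * (1 / sin u ^ 2) + K.b * (1 / (4 * sin (u / 2) ^ 2)) := e4
        rw [e7]
        linarith
      by_contra hcon
      push Not at hcon
      have := mul_pos h2 hcon
      linarith
    have hgz : ∀ s, g s = 0 := by
      intro s
      obtain ⟨y, hy, hxy⟩ := hgper.exists_mem_Ico₀ two_pi_pos s
      rw [hxy]
      by_contra hne
      have hpos : 0 < g y := lt_of_le_of_ne (hg0 y) (Ne.symm hne)
      have := intervalIntegral.integral_pos two_pi_pos hgc.continuousOn
        (fun x _ => hg0 x) ⟨y, ⟨hy.1, hy.2.le⟩, hpos⟩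
      linarith
    have hH := (K.ineq s₀ (s₀ + u) (by linarith) (by linarith) c₁ c₂ hc).2
      (sub_eq_zero.1 (hgz s₀))
    rw [he1, he2] at hH
    exact gram_of_Hm G (K.hP s₀).2.1 (by positivity) (by positivity)
      (G.ndeg s₀ (s₀ + u) (by linarith) (by linarith)) hH
  intro u h0 h1
  have hcl : IsClosed {u : ℝ | (G.A s₀ (s₀ + u))ᵀ * G.A s₀ (s₀ + u) =
        (sin u ^ 2) • K.P s₀ + (4 * sin (u / 2) ^ 2) • (1 - K.P s₀)} := by
    have hA : Continuous fun u : ℝ => G.A s₀ (s₀ + u) :=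
      G.continuous_A.comp (f := fun u : ℝ => ((s₀, s₀ + u) : ℝ × ℝ)) (by fun_prop)
    refine isClosed_eq (hA.matrix_transpose.matrix_mul hA) ?_
    exact ((by fun_prop : Continuous fun u : ℝ => sin u ^ 2).smul continuous_const).add
      ((by fun_prop : Continuous fun u : ℝ => 4 * sin (u / 2) ^ 2).smul continuous_const)
  have hsub : Ioo (0:ℝ) π ⊆ {u : ℝ | (G.A s₀ (s₀ + u))ᵀ * G.A s₀ (s₀ + u) =
        (sin u ^ 2) • K.P s₀ + (4 * sin (u / 2) ^ 2) • (1 - K.P s₀)} :=
    fun u hu => hopen u hu.1 hu.2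
  have := (hcl.closure_subset_iff.2 hsub)
  rw [closure_Ioo hpi.ne] at this
  exact this ⟨h0, h1⟩

end Crest.Agent.R208.N
end

-- ▼ part R208/OD1
section

/-! R208 block OD (helper378): the hairy ball theorem (C^1 version, Milnor's analytic proof). -/

open MeasureTheory Set Filter Topology Polynomial
open scoped RealInnerProductSpace ENNReal NNReal Pointwise

namespace Crest.Agent.R208.OD

set_option linter.unusedSectionVars false
set_option linter.style.haveILetI false

variable {E : Type*} [NormedAddCommGroup E] [InnerProductSpace ℝ E] [FiniteDimensional ℝ E]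

/-- `det (1 + t A)` is a polynomial in `t` of degree at most the dimension. -/
theorem exists_poly_det (A : E →L[ℝ] E) : ∃ p : ℝ[X], p.natDegree ≤ Module.finrank ℝ E ∧
    ∀ t : ℝ, (1 + t • A : E →L[ℝ] E).det = p.eval t := by
  classical
  let b := Module.finBasis ℝ E
  let M := LinearMap.toMatrix b b (A : E →ₗ[ℝ] E)
  refine ⟨((Polynomial.X : ℝ[X]) • M.map C + (1 : Matrix _ _ ℝ).map C).det, ?_, fun t => ?_⟩
  · simpa using natDegree_det_X_add_C_le M 1
  · rw [← Polynomial.coe_evalRingHom, RingHom.map_det]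
    have h1 : (1 + t • A : E →L[ℝ] E).det = (1 + t • M).det := by
      rw [ContinuousLinearMap.det, ← LinearMap.det_toMatrix b]
      congr 1
      simp [M, LinearMap.toMatrix_one]
    rw [h1]
    congr 1
    ext i j
    by_cases hij : i = j
    · subst hij; simp [Matrix.add_apply]; ring
    · simp [Matrix.add_apply, hij]; ring

/-- Interpolation: the determinant is a fixed combination of its values at `0, 1, ..., d`. -/
theorem det_interp (A : E →L[ℝ] E) (t : ℝ) :
    (1 + t • A : E →L[ℝ] E).det = ∑ i ∈ Finset.range (Module.finrank ℝ E + 1),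
      (1 + (i : ℝ) • A : E →L[ℝ] E).det *
        (Lagrange.basis (Finset.range (Module.finrank ℝ E + 1)) (fun i : ℕ => (i : ℝ)) i).eval t := by
  obtain ⟨p, hp, hpe⟩ := exists_poly_det A
  have hinj : Set.InjOn (fun i : ℕ => (i : ℝ)) (Finset.range (Module.finrank ℝ E + 1)) :=
    fun a _ b _ h => Nat.cast_injective (R := ℝ) h
  have hdeg : p.degree < (Finset.range (Module.finrank ℝ E + 1)).card := by
    rw [Finset.card_range]
    refine lt_of_le_of_lt Polynomial.degree_le_natDegree ?_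
    exact_mod_cast Nat.lt_succ_of_le hp
  have h := Lagrange.eq_interpolate hinj hdeg
  rw [hpe t]
  conv_lhs => rw [h]
  rw [Lagrange.interpolate_apply, Polynomial.eval_finsetSum]
  refine Finset.sum_congr rfl fun i _ => ?_
  rw [Polynomial.eval_mul, Polynomial.eval_C, hpe]

/-- for small `t` the determinant of `1 + t A` is positive -/
theorem det_pos {A : E →L[ℝ] E} {t : ℝ} (ht : |t| * ‖A‖ < 1) : 0 < (1 + t • A : E →L[ℝ] E).det := by
  obtain ⟨p, _, hp⟩ := exists_poly_det A
  have hne : ∀ s ∈ Set.uIcc 0 t, p.eval s ≠ 0 := by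
    intro s hs h0
    have hs' : |s| ≤ |t| := by
      rcases Set.mem_uIcc.1 hs with h | h
      · rw [abs_of_nonneg h.1]; exact h.2.trans (le_abs_self t)
      · rw [abs_of_nonpos h.2]; exact (neg_le_neg h.1).trans (neg_le_abs t)
    rw [← hp s] at h0
    have hinj : Function.Injective (1 + s • A : E →L[ℝ] E) := by
      rw [injective_iff_map_eq_zero]
      intro x hx
      by_contra hx0
      have h1 : x = -(s • A x) := by
        have : x + s • A x = 0 := by simpa using hx
        exact eq_neg_of_add_eq_zero_left this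
      have h2 : ‖x‖ ≤ |t| * ‖A‖ * ‖x‖ := by
        calc ‖x‖ = ‖-(s • A x)‖ := congrArg norm h1
          _ = ‖s • A x‖ := norm_neg _
          _ = |s| * ‖A x‖ := by rw [norm_smul, Real.norm_eq_abs]
          _ ≤ |t| * (‖A‖ * ‖x‖) := by gcongr; exact A.le_opNorm x
          _ = _ := by ring
      have h3 : 0 < ‖x‖ := norm_pos_iff.2 hx0
      nlinarith
    have hdet : LinearMap.det ((1 + s • A : E →L[ℝ] E) : E →ₗ[ℝ] E) ≠ 0 := by
      have hk : LinearMap.ker ((1 + s • A : E →L[ℝ] E) : E →ₗ[ℝ] E) = ⊥ := LinearMap.ker_eq_bot.2 hinj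
      have hu : IsUnit ((1 + s • A : E →L[ℝ] E) : E →ₗ[ℝ] E) := by
        rw [LinearMap.isUnit_iff_ker_eq_bot]; exact hk
      exact (LinearMap.isUnit_det _ hu).ne_zero
    exact hdet h0
  have h0 : p.eval 0 = 1 := by rw [← hp 0]; simp [ContinuousLinearMap.det]
  rw [hp t]
  by_contra hneg
  have hneg := not_lt.1 hneg
  have hc : ContinuousOn (fun s => p.eval s) (Set.uIcc 0 t) := p.continuous.continuousOn
  have hmem : (0 : ℝ) ∈ Set.uIcc (p.eval 0) (p.eval t) := by
    rw [Set.mem_uIcc]; right; rw [h0]; exact ⟨hneg, zero_le_one⟩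
  obtain ⟨s, hs, hs0⟩ := intermediate_value_uIcc hc hmem
  exact hne s hs hs0


/-- **the polynomial cannot be `(1+t^2)^{d/2}` for odd `d`** -/
theorem no_poly {P : ℝ[X]} {c : ℝ} (hc : c ≠ 0) {d : ℕ} (hd : Odd d)
    (h : P ^ 2 = C (c ^ 2) * (X ^ 2 + 1) ^ d) : False := by
  have hP : (P.map (algebraMap ℝ ℂ)) ^ 2 = C ((c : ℂ) ^ 2) * ((X - C Complex.I) ^ d * (X + C Complex.I) ^ d) := by
    have h1 := congrArg (Polynomial.map (algebraMap ℝ ℂ)) h
    rw [Polynomial.map_pow, Polynomial.map_mul, Polynomial.map_pow] at h1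
    rw [h1, ← mul_pow]
    congr 1
    · simp
    · congr 1
      have : (X - C Complex.I : ℂ[X]) * (X + C Complex.I) = X ^ 2 - C (Complex.I ^ 2) := by
        rw [C_pow]; ring
      rw [this]
      simp
  have hPne : P.map (algebraMap ℝ ℂ) ≠ 0 := by
    intro h0
    rw [h0, zero_pow two_ne_zero] at hP
    have hcc : (C ((c : ℂ) ^ 2) : ℂ[X]) ≠ 0 := by
      rw [Ne, Polynomial.C_eq_zero]; exact pow_ne_zero _ (by exact_mod_cast hc)
    have h2 : (X - C Complex.I : ℂ[X]) ^ d ≠ 0 := pow_ne_zero _ (Polynomial.X_sub_C_ne_zero _)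
    have h3 : (X + C Complex.I : ℂ[X]) ^ d ≠ 0 := pow_ne_zero _ (Polynomial.X_add_C_ne_zero _)
    exact (mul_ne_zero hcc (mul_ne_zero h2 h3)) hP.symm
  have hcc : (C ((c : ℂ) ^ 2) : ℂ[X]) ≠ 0 := by
    rw [Ne, Polynomial.C_eq_zero]; exact pow_ne_zero _ (by exact_mod_cast hc)
  have h2 : (X - C Complex.I : ℂ[X]) ^ d ≠ 0 := pow_ne_zero _ (Polynomial.X_sub_C_ne_zero _)
  have h3 : (X + C Complex.I : ℂ[X]) ^ d ≠ 0 := pow_ne_zero _ (Polynomial.X_add_C_ne_zero _)
  have hr := congrArg (Polynomial.rootMultiplicity Complex.I) hP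
  rw [Polynomial.rootMultiplicity_mul (mul_ne_zero hcc (mul_ne_zero h2 h3)),
    Polynomial.rootMultiplicity_mul (mul_ne_zero h2 h3), Polynomial.rootMultiplicity_C,
    Polynomial.rootMultiplicity_X_sub_C_pow] at hr
  have h4 : Polynomial.rootMultiplicity Complex.I ((X + C Complex.I : ℂ[X]) ^ d) = 0 := by
    apply Polynomial.rootMultiplicity_eq_zero
    rw [Polynomial.IsRoot, Polynomial.eval_pow]
    apply pow_ne_zero
    simp only [Polynomial.eval_add, Polynomial.eval_X, Polynomial.eval_C]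
    rw [← two_mul]
    exact mul_ne_zero two_ne_zero Complex.I_ne_zero
  have h5 : Polynomial.rootMultiplicity Complex.I ((P.map (algebraMap ℝ ℂ)) ^ 2)
      = 2 * Polynomial.rootMultiplicity Complex.I (P.map (algebraMap ℝ ℂ)) := by
    rw [pow_two, Polynomial.rootMultiplicity_mul (mul_ne_zero hPne hPne), two_mul]
  rw [h4, h5] at hr
  obtain ⟨e, he⟩ := hd
  omega


section annulus

/-- the open annulus -/
def ann (E : Type*) [NormedAddCommGroup E] (a b : ℝ) : Set E := {x | a < ‖x‖ ∧ ‖x‖ < b}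
/-- the closed annulus -/
def cann (E : Type*) [NormedAddCommGroup E] (a b : ℝ) : Set E := {x | a ≤ ‖x‖ ∧ ‖x‖ ≤ b}

theorem isOpen_ann (a b : ℝ) : IsOpen (ann E a b) :=
  (isOpen_lt continuous_const continuous_norm).inter (isOpen_lt continuous_norm continuous_const)

theorem isCompact_cann (a b : ℝ) : IsCompact (cann E a b) := by
  refine Metric.isCompact_of_isClosed_isBounded
    ((isClosed_le continuous_const continuous_norm).inter
      (isClosed_le continuous_norm continuous_const)) ?_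
  refine (Metric.isBounded_closedBall (x := (0 : E)) (r := b)).subset fun x hx => ?_
  rw [mem_closedBall_zero_iff]; exact hx.2

theorem ann_subset_cann (a b : ℝ) : ann E a b ⊆ cann E a b := fun _ hx => ⟨hx.1.le, hx.2.le⟩

theorem isPreconnected_ann (hd : 1 < Module.finrank ℝ E) {a b : ℝ} (ha : 0 < a) :
    IsPreconnected (ann E a b) := by
  have hs : IsPreconnected (Metric.sphere (0 : E) 1) := by
    apply isPreconnected_sphere
    rw [← Module.finrank_eq_rank]; exact_mod_cast hd
  have h := (isPreconnected_Ioo (a := a) (b := b)).prod hs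
  have h2 := h.image (fun p : ℝ × E => p.1 • p.2) (by fun_prop)
  convert h2 using 1
  ext x
  constructor
  · intro hx
    have hx0 : 0 < ‖x‖ := ha.trans hx.1
    refine ⟨(‖x‖, ‖x‖⁻¹ • x), ⟨hx, ?_⟩, ?_⟩
    · simp [norm_smul, hx0.ne']
    · simp [smul_smul, hx0.ne']
  · rintro ⟨⟨r, y⟩, ⟨hr, hy⟩, rfl⟩
    have hy' : ‖y‖ = 1 := by simpa using hy
    have hr0 : 0 < r := ha.trans hr.1
    simp only [ann, Set.mem_ofPred_eq, norm_smul, hy', mul_one, Real.norm_eq_abs, abs_of_pos hr0]
    exact hr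

variable {g : E → E}

theorem norm_ft (hgn : ∀ x, ‖g x‖ = ‖x‖) (hgt : ∀ x, inner ℝ (g x) x = 0) (t : ℝ) (x : E) :
    ‖x + t • g x‖ = √(1 + t ^ 2) * ‖x‖ := by
  have h : ‖x + t • g x‖ ^ 2 = (1 + t ^ 2) * ‖x‖ ^ 2 := by
    rw [norm_add_sq_real, norm_smul, hgn, inner_smul_right, real_inner_comm, hgt]
    rw [Real.norm_eq_abs, mul_pow, sq_abs]; ring
  have h1 : ‖x + t • g x‖ = √((1 + t ^ 2) * ‖x‖ ^ 2) := by
    rw [← h, Real.sqrt_sq (norm_nonneg _)]
  rw [h1, Real.sqrt_mul (by positivity), Real.sqrt_sq (norm_nonneg _)]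

theorem one_le_sqrt_one_add (t : ℝ) : 0 < √(1 + t ^ 2) := Real.sqrt_pos.2 (by positivity)

/-- the image of the annulus is the scaled annulus -/
theorem image_ann (hd : 1 < Module.finrank ℝ E) (hg : ∀ x ≠ 0, ContDiffAt ℝ 1 g x)
    (hgn : ∀ x, ‖g x‖ = ‖x‖) (hgt : ∀ x, inner ℝ (g x) x = 0) {t : ℝ}
    (hsmall : ∀ x ∈ ann E 1 2, |t| * ‖fderiv ℝ g x‖ < 1) :
    (fun x => x + t • g x) '' ann E 1 2 = √(1 + t ^ 2) • ann E 1 2 := by
  set f : E → E := fun x => x + t • g x with hf
  set s := √(1 + t ^ 2) with hsdef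
  have hs0 : 0 < s := one_le_sqrt_one_add t
  have hnorm : ∀ x, ‖f x‖ = s * ‖x‖ := norm_ft hgn hgt t
  have hsc : s • ann E 1 2 = ann E s (s * 2) := by
    ext y
    rw [Set.mem_smul_set_iff_inv_smul_mem₀ hs0.ne']
    simp only [ann, Set.mem_ofPred_eq, norm_smul, norm_inv, Real.norm_eq_abs, abs_of_pos hs0]
    rw [inv_mul_eq_div, lt_div_iff₀ hs0, div_lt_iff₀ hs0, one_mul, mul_comm 2 s]
  have hopen : IsOpen (f '' ann E 1 2) := by
    rw [isOpen_iff_mem_nhds]
    rintro _ ⟨x, hx, rfl⟩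
    have hx0 : x ≠ 0 := by
      rintro rfl; have := hx.1; simp at this; linarith
    have hst : HasStrictFDerivAt f (1 + t • fderiv ℝ g x : E →L[ℝ] E) x := by
      have h1 : HasStrictFDerivAt g (fderiv ℝ g x) x :=
        (hg x hx0).hasStrictFDerivAt one_ne_zero
      exact (hasStrictFDerivAt_id x).add (h1.const_smul t)
    have hsurj : (1 + t • fderiv ℝ g x : E →L[ℝ] E).range = ⊤ := by
      have hdet := det_pos (hsmall x hx)
      have hu : IsUnit ((1 + t • fderiv ℝ g x : E →L[ℝ] E) : E →ₗ[ℝ] E) := by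
        rw [LinearMap.isUnit_iff_isUnit_det]
        exact isUnit_iff_ne_zero.2 hdet.ne'
      exact (LinearMap.isUnit_iff_range_eq_top _).1 hu
    have hm := hst.map_nhds_eq_of_surj hsurj
    rw [← hm]
    exact image_mem_map ((isOpen_ann 1 2).mem_nhds hx)
  have hfc : ContinuousOn f (cann E 1 2) := by
    intro x hx
    have hx0 : x ≠ 0 := by
      rintro rfl; have := hx.1; simp at this; linarith
    exact (continuousAt_id.add ((hg x hx0).continuousAt.const_smul t)).continuousWithinAt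
  have hclosed : IsClosed (f '' cann E 1 2) := ((isCompact_cann 1 2).image_of_continuousOn hfc).isClosed
  rw [hsc]
  have hpre : IsPreconnected (ann E s (s * 2)) := isPreconnected_ann hd hs0
  have hsub : f '' ann E 1 2 ⊆ ann E s (s * 2) := by
    rintro _ ⟨x, hx, rfl⟩
    simp only [ann, Set.mem_ofPred_eq, hnorm] at hx ⊢
    exact ⟨by nlinarith [hx.1], by nlinarith [hx.2]⟩
  refine Set.Subset.antisymm hsub ?_
  have hback : ann E s (s * 2) ∩ f '' cann E 1 2 ⊆ f '' ann E 1 2 := by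
    rintro _ ⟨hy, x, hx, rfl⟩
    refine ⟨x, ?_, rfl⟩
    simp only [ann, Set.mem_ofPred_eq, hnorm] at hy ⊢
    exact ⟨by nlinarith [hy.1], by nlinarith [hy.2]⟩
  have hne : (ann E s (s * 2) ∩ f '' ann E 1 2).Nonempty := by
    haveI : Nontrivial E := Module.nontrivial_of_finrank_pos (R := ℝ) (by omega)
    obtain ⟨x, hx⟩ := exists_norm_eq E (c := 3 / 2) (by norm_num)
    have hxm : x ∈ ann E 1 2 := by simp only [ann, Set.mem_ofPred_eq, hx]; norm_num
    exact ⟨f x, hsub ⟨x, hxm, rfl⟩, x, hxm, rfl⟩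
  by_contra hcon
  have hne2 : (ann E s (s * 2) ∩ (f '' cann E 1 2)ᶜ).Nonempty := by
    rw [Set.not_subset] at hcon
    obtain ⟨y, hy, hy2⟩ := hcon
    exact ⟨y, hy, fun hyc => hy2 (hback ⟨hy, hyc⟩)⟩
  have hcov : ann E s (s * 2) ⊆ f '' ann E 1 2 ∪ (f '' cann E 1 2)ᶜ := by
    intro y hy
    by_cases hyc : y ∈ f '' cann E 1 2
    · exact Or.inl (hback ⟨hy, hyc⟩)
    · exact Or.inr hyc
  obtain ⟨y, hy, hy1, hy2⟩ := hpre _ _ hopen hclosed.isOpen_compl hcov hne hne2
  exact hy2 (Set.image_mono (ann_subset_cann 1 2) hy1)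


variable [MeasurableSpace E] [BorelSpace E]

theorem continuousOn_det (hg : ∀ x ≠ 0, ContDiffAt ℝ 1 g x) (t : ℝ) :
    ContinuousOn (fun x => (1 + t • fderiv ℝ g x : E →L[ℝ] E).det) (cann E 1 2) := by
  intro x hx
  have hx0 : x ≠ 0 := by
    rintro rfl; have := hx.1; simp at this; linarith
  have h1 : ContinuousAt (fderiv ℝ g) x :=
    ((hg x hx0).fderiv_right (m := 0) (by norm_num)).continuousAt
  have h2 : ContinuousAt (fun x => (1 + t • fderiv ℝ g x : E →L[ℝ] E)) x :=
    continuousAt_const.add (h1.const_smul t)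
  exact (ContinuousLinearMap.continuous_det.continuousAt.comp h2).continuousWithinAt

theorem integrableOn_det (hg : ∀ x ≠ 0, ContDiffAt ℝ 1 g x) (t : ℝ) :
    IntegrableOn (fun x => (1 + t • fderiv ℝ g x : E →L[ℝ] E).det) (ann E 1 2) volume :=
  ((continuousOn_det hg t).integrableOn_compact (isCompact_cann 1 2)).mono_set
    (ann_subset_cann 1 2)

/-- the volume identity -/
theorem integral_det_eq (hd : 1 < Module.finrank ℝ E) (hg : ∀ x ≠ 0, ContDiffAt ℝ 1 g x)
    (hgn : ∀ x, ‖g x‖ = ‖x‖) (hgt : ∀ x, inner ℝ (g x) x = 0) {t : ℝ}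
    (hsmall : ∀ x ∈ ann E 1 2, |t| * ‖fderiv ℝ g x‖ < 1)
    (hinj : Set.InjOn (fun x => x + t • g x) (ann E 1 2)) :
    ∫ x in ann E 1 2, (1 + t • fderiv ℝ g x : E →L[ℝ] E).det
      = √(1 + t ^ 2) ^ Module.finrank ℝ E * (volume (ann E 1 2)).toReal := by
  have h := lintegral_abs_det_fderiv_eq_addHaar_image (volume : Measure E)
    (f' := fun x => (1 + t • fderiv ℝ g x : E →L[ℝ] E)) (isOpen_ann (E := E) 1 2).measurableSet
    (fun x hx => by
      have hx0 : x ≠ 0 := by
        rintro rfl; have := hx.1; simp at this; linarith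
      have h1 : HasFDerivAt g (fderiv ℝ g x) x :=
        ((hg x hx0).differentiableAt one_ne_zero).hasFDerivAt
      exact ((hasFDerivAt_id x).add (h1.const_smul t)).hasFDerivWithinAt) hinj
  rw [image_ann hd hg hgn hgt hsmall, Measure.addHaar_smul] at h
  have h2 : ∫⁻ x in ann E 1 2, ENNReal.ofReal |(1 + t • fderiv ℝ g x : E →L[ℝ] E).det|
      = ∫⁻ x in ann E 1 2, ENNReal.ofReal (1 + t • fderiv ℝ g x : E →L[ℝ] E).det := by
    refine setLIntegral_congr_fun (isOpen_ann (E := E) 1 2).measurableSet fun x hx => ?_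
    rw [abs_of_pos (det_pos (hsmall x hx))]
  have h3 : ENNReal.ofReal (∫ x in ann E 1 2, (1 + t • fderiv ℝ g x : E →L[ℝ] E).det)
      = ∫⁻ x in ann E 1 2, ENNReal.ofReal (1 + t • fderiv ℝ g x : E →L[ℝ] E).det := by
    refine ofReal_integral_eq_lintegral_ofReal (integrableOn_det hg t) ?_
    refine (ae_restrict_mem (isOpen_ann (E := E) 1 2).measurableSet).mono fun x hx => ?_
    exact (det_pos (hsmall x hx)).le
  have hnn : 0 ≤ ∫ x in ann E 1 2, (1 + t • fderiv ℝ g x : E →L[ℝ] E).det :=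
    setIntegral_nonneg (isOpen_ann (E := E) 1 2).measurableSet fun x hx =>
      (det_pos (hsmall x hx)).le
  rw [h2, ← h3] at h
  have h4 := congrArg ENNReal.toReal h
  rw [ENNReal.toReal_ofReal hnn, ENNReal.toReal_mul, ENNReal.toReal_ofReal (abs_nonneg _)] at h4
  rw [h4, abs_of_nonneg (by positivity)]

/-- for every `t`, the integral of the determinant is the value at `t` of one polynomial -/
theorem exists_poly_integral (hg : ∀ x ≠ 0, ContDiffAt ℝ 1 g x) : ∃ P : ℝ[X], ∀ t : ℝ,
    ∫ x in ann E 1 2, (1 + t • fderiv ℝ g x : E →L[ℝ] E).det = P.eval t := by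
  refine ⟨∑ i ∈ Finset.range (Module.finrank ℝ E + 1),
    C (∫ x in ann E 1 2, (1 + (i : ℝ) • fderiv ℝ g x : E →L[ℝ] E).det) *
      Lagrange.basis (Finset.range (Module.finrank ℝ E + 1)) (fun i : ℕ => (i : ℝ)) i, fun t => ?_⟩
  rw [Polynomial.eval_finsetSum]
  simp_rw [Polynomial.eval_mul, Polynomial.eval_C]
  simp_rw [det_interp _ t]
  rw [integral_finsetSum]
  · refine Finset.sum_congr rfl fun i _ => ?_
    rw [integral_mul_const]
  · intro i _
    exact (integrableOn_det hg (i : ℝ)).mul_const _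

/-- homogeneous form of the hairy ball theorem -/
theorem hairy_homog (hd : 1 < Module.finrank ℝ E) (hodd : Odd (Module.finrank ℝ E))
    (hg : ∀ x ≠ 0, ContDiffAt ℝ 1 g x)
    (hgn : ∀ x, ‖g x‖ = ‖x‖) (hgt : ∀ x, inner ℝ (g x) x = 0) : False := by
  -- Lipschitz on the compact annulus
  have hK0 : ∀ x ∈ cann E 1 2, x ≠ 0 := by
    rintro x hx rfl; have := hx.1; simp at this; linarith
  obtain ⟨L, hL⟩ := LocallyLipschitzOn.exists_lipschitzOnWith_of_compact
    (f := g) (isCompact_cann (E := E) 1 2) (fun x hx => by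
      obtain ⟨K, t, ht, hKt⟩ := (hg x (hK0 x hx)).exists_lipschitzOnWith
      exact ⟨K, t, mem_nhdsWithin_of_mem_nhds ht, hKt⟩)
  obtain ⟨B, hB⟩ := (isCompact_cann (E := E) 1 2).exists_bound_of_continuousOn
    (f := fun x => fderiv ℝ g x) (fun x hx =>
      ((hg x (hK0 x hx)).fderiv_right (m := 0) (by norm_num)).continuousAt.continuousWithinAt)
  set t0 : ℝ := 1 / (1 + |B| + L) with ht0
  have ht0p : 0 < t0 := by positivity
  have hsm : ∀ t ∈ Set.Ioo 0 t0, (∀ x ∈ ann E 1 2, |t| * ‖fderiv ℝ g x‖ < 1) ∧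
      Set.InjOn (fun x => x + t • g x) (ann E 1 2) := by
    intro t ht
    have htt : t * (1 + |B| + L) < 1 := by
      have := ht.2; rw [ht0, lt_div_iff₀ (by positivity)] at this; exact this
    have hLnn : (0 : ℝ) ≤ L := L.2
    constructor
    · intro x hx
      rw [abs_of_pos ht.1]
      have h1 : ‖fderiv ℝ g x‖ ≤ |B| := (hB x (ann_subset_cann 1 2 hx)).trans (le_abs_self B)
      nlinarith [ht.1, abs_nonneg B]
    · intro x hx y hy hxy
      simp only at hxy
      have h1 : x - y = -(t • (g x - g y)) := by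
        rw [smul_sub]
        have : x - y + t • g x - t • g y = 0 := by
          rw [sub_eq_zero]; rw [← sub_eq_zero] at hxy ⊢; rw [← hxy]; abel
        rw [← sub_eq_zero, ← this]; abel
      have h2 : ‖x - y‖ ≤ t * (L * ‖x - y‖) := by
        calc ‖x - y‖ = ‖-(t • (g x - g y))‖ := congrArg norm h1
          _ = t * ‖g x - g y‖ := by rw [norm_neg, norm_smul, Real.norm_eq_abs, abs_of_pos ht.1]
          _ ≤ t * (L * ‖x - y‖) := by
            gcongr
            · exact ht.1.le
            · have := hL.dist_le_mul x (ann_subset_cann 1 2 hx) y (ann_subset_cann 1 2 hy)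
              rwa [dist_eq_norm, dist_eq_norm] at this
      by_contra hne
      have h3 : 0 < ‖x - y‖ := norm_pos_iff.2 (sub_ne_zero.2 hne)
      have h4 : t * L < 1 := by nlinarith [ht.1, abs_nonneg B]
      have h5 : t * L * ‖x - y‖ < 1 * ‖x - y‖ := mul_lt_mul_of_pos_right h4 h3
      linarith [mul_assoc t (L : ℝ) ‖x - y‖]
  obtain ⟨P, hP⟩ := exists_poly_integral hg
  set c := (volume (ann E 1 2)).toReal with hc
  have hcne : c ≠ 0 := by
    rw [hc, ENNReal.toReal_ne_zero]
    constructor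
    · haveI : Nontrivial E := Module.nontrivial_of_finrank_pos (R := ℝ) (by omega)
      obtain ⟨x, hx⟩ := exists_norm_eq E (c := 3 / 2) (by norm_num)
      have hxm : x ∈ ann E 1 2 := by simp only [ann, Set.mem_ofPred_eq, hx]; norm_num
      exact ((isOpen_ann (E := E) 1 2).measure_pos volume ⟨x, hxm⟩).ne'
    · exact ((isCompact_cann (E := E) 1 2).measure_lt_top.trans_le' (measure_mono (ann_subset_cann 1 2))).ne
  have heq : ∀ t ∈ Set.Ioo 0 t0, (P ^ 2).eval t = (C (c ^ 2) * (X ^ 2 + 1) ^ Module.finrank ℝ E).eval t := by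
    intro t ht
    have h1 := integral_det_eq hd hg hgn hgt (hsm t ht).1 (hsm t ht).2
    rw [hP t] at h1
    simp only [Polynomial.eval_pow, Polynomial.eval_mul, Polynomial.eval_C, Polynomial.eval_add,
      Polynomial.eval_X, Polynomial.eval_one]
    rw [h1, mul_pow, ← pow_mul, mul_comm (Module.finrank ℝ E) 2, pow_mul,
      Real.sq_sqrt (by positivity), ← hc]
    ring
  have hpoly : P ^ 2 = C (c ^ 2) * (X ^ 2 + 1) ^ Module.finrank ℝ E :=
    Polynomial.eq_of_infinite_eval_eq _ _ ((Set.Ioo_infinite ht0p).mono heq)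
  exact no_poly hcne hodd hpoly

end annulus

/-- **Hairy ball theorem** (`C^1`): a tangent vector field on the unit sphere of an
odd-dimensional inner product space (dimension at least 3) has a zero. -/
theorem hairy_ball (hd : 1 < Module.finrank ℝ E) (hodd : Odd (Module.finrank ℝ E)) (v : E → E)
    (hv : ∀ x, ‖x‖ = 1 → ContDiffAt ℝ 1 v x) (ht : ∀ x, ‖x‖ = 1 → inner ℝ (v x) x = 0) :
    ∃ x, ‖x‖ = 1 ∧ v x = 0 := by
  by_contra hcon
  have hne : ∀ x, ‖x‖ = 1 → v x ≠ 0 := fun x hx h0 => hcon ⟨x, hx, h0⟩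
  letI : MeasurableSpace E := borel E
  haveI : BorelSpace E := ⟨rfl⟩
  set u : E → E := fun x => ‖x‖⁻¹ • x with hu
  set g : E → E := fun x => ‖x‖ • (‖v (u x)‖⁻¹ • v (u x)) with hgdef
  have hun : ∀ x ≠ 0, ‖u x‖ = 1 := fun x hx => by
    simp [hu, norm_smul, norm_ne_zero_iff.2 hx]
  refine hairy_homog (E := E) (g := g) hd hodd ?_ ?_ ?_
  · intro x hx
    have hn : ContDiffAt ℝ 1 (fun x : E => ‖x‖) x := contDiffAt_norm ℝ hx
    have hu1 : ContDiffAt ℝ 1 u x := (hn.inv (norm_ne_zero_iff.2 hx)).smul contDiffAt_id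
    have hvu : ContDiffAt ℝ 1 (fun x => v (u x)) x := (hv (u x) (hun x hx)).comp x hu1
    have hvn : ContDiffAt ℝ 1 (fun x => ‖v (u x)‖) x := hvu.norm ℝ (hne _ (hun x hx))
    exact hn.smul ((hvn.inv (norm_ne_zero_iff.2 (hne _ (hun x hx)))).smul hvu)
  · intro x
    by_cases hx : x = 0
    · simp [hgdef, hx]
    · have := norm_ne_zero_iff.2 (hne _ (hun x hx))
      simp [hgdef, norm_smul, this]
  · intro x
    by_cases hx : x = 0
    · simp [hgdef, hx]
    · have h1 := ht (u x) (hun x hx)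
      have h2 : inner ℝ (v (u x)) x = 0 := by
        have h3 : inner ℝ (v (u x)) (u x) = ‖x‖⁻¹ * inner ℝ (v (u x)) x := by
          simp only [hu]; rw [inner_smul_right]
        rw [h3] at h1
        rcases mul_eq_zero.1 h1 with h4 | h4
        · exact absurd h4 (inv_ne_zero (norm_ne_zero_iff.2 hx))
        · exact h4
      simp only [hgdef]
      rw [inner_smul_left, inner_smul_left, h2]; simp

end Crest.Agent.R208.OD
end

-- ▼ part R208/OD2
section

/-! R208 block OD (helper378), file 2: the fan argument. A continuous field of projections of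
positive rank along the unit sphere cannot restrict to the tangent bundle of an even-dimensional
great subsphere of positive codimension. -/

set_option autoImplicit false
set_option linter.unusedSectionVars false

open Set Filter Topology
open scoped RealInnerProductSpace

noncomputable section

namespace Crest.Agent.R208.OD

variable {V F : Type*} [NormedAddCommGroup V] [InnerProductSpace ℝ V] [FiniteDimensional ℝ V]
  [NormedAddCommGroup F] [InnerProductSpace ℝ F] [FiniteDimensional ℝ F]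

/-- the point at angle `θ` on the quarter circle from `u0` to `v` -/
def fpt (u0 : V) (θ : ℝ) (v : V) : V := Real.cos θ • u0 + Real.sin θ • v

theorem norm_fpt {u0 v : V} (h0 : ‖u0‖ = 1) (hv : ‖v‖ = 1) (hort : inner ℝ u0 v = 0) (θ : ℝ) :
    ‖fpt u0 θ v‖ = 1 := by
  have h : ‖fpt u0 θ v‖ ^ 2 = 1 := by
    rw [fpt, norm_add_sq_real, norm_smul, norm_smul, inner_smul_left, inner_smul_right, hort, h0, hv]
    simp
  nlinarith [norm_nonneg (fpt u0 θ v)]

/-- transported vector after `j` steps of size `δ` -/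
def tv (P : V → (V →L[ℝ] V)) (u0 w0 : V) (δ : ℝ) : ℕ → V → V
  | 0, _ => w0
  | (j + 1), v => P (fpt u0 ((j + 1 : ℕ) * δ) v) (tv P u0 w0 δ j v)

theorem contDiff_fpt (u0 : V) (θ : ℝ) : ContDiff ℝ 1 (fpt u0 θ) := by
  unfold fpt; fun_prop

theorem contDiffAt_tv {P : V → (V →L[ℝ] V)} (hP : ∀ v, ‖v‖ = 1 → ContDiffAt ℝ 1 P v)
    {u0 w0 : V} (h0 : ‖u0‖ = 1) (δ : ℝ) {v : V} (hv : ‖v‖ = 1) (hort : inner ℝ u0 v = 0) (j : ℕ) :
    ContDiffAt ℝ 1 (tv P u0 w0 δ j) v := by
  induction j with
  | zero => exact contDiffAt_const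
  | succ j ih =>
    have h1 : ContDiffAt ℝ 1 (fun v => P (fpt u0 ((j + 1 : ℕ) * δ) v)) v :=
      (hP _ (norm_fpt h0 hv hort _)).comp v (contDiff_fpt u0 _).contDiffAt
    exact h1.clm_apply ih

/-- **Fan lemma.** -/
theorem fan (P : V → (V →L[ℝ] V)) (hP : ∀ v, ‖v‖ = 1 → ContDiffAt ℝ 1 P v)
    (hidem : ∀ v, ‖v‖ = 1 → ∀ x, P v (P v x) = P v x)
    (L : Submodule ℝ V) (hodd : Odd (Module.finrank ℝ L)) (hL : 1 < Module.finrank ℝ L)
    (htan : ∀ v ∈ L, ‖v‖ = 1 → ∀ x, P v x = x → x ∈ L ∧ inner ℝ v x = 0)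
    {u0 w0 : V} (hu0 : ‖u0‖ = 1) (hort : ∀ v ∈ L, inner ℝ u0 v = 0) (hw0 : w0 ≠ 0)
    (hPw : P u0 w0 = w0) : False := by
  -- uniform continuity
  have hcomp : IsCompact ((Icc (0 : ℝ) (Real.pi / 2)) ×ˢ (Metric.sphere (0 : V) 1 ∩ (L : Set V))) :=
    isCompact_Icc.prod ((isCompact_sphere 0 1).inter_right L.closed_of_finiteDimensional)
  have hcont : ContinuousOn (fun p : ℝ × V => P (fpt u0 p.1 p.2))
      ((Icc (0 : ℝ) (Real.pi / 2)) ×ˢ (Metric.sphere (0 : V) 1 ∩ (L : Set V))) := by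
    rintro ⟨θ, v⟩ ⟨-, hv, hvL⟩
    have hv1 : ‖v‖ = 1 := by simpa using hv
    have h1 : ContinuousAt (fun p : ℝ × V => fpt u0 p.1 p.2) (θ, v) := by
      unfold fpt; fun_prop
    have h2 : ContinuousAt P (fpt u0 θ v) :=
      (hP _ (norm_fpt hu0 hv1 (hort v hvL) θ)).continuousAt
    have h3 : ContinuousAt (fun p : ℝ × V => P (fpt u0 p.1 p.2)) (θ, v) :=
      Filter.Tendsto.comp (y := 𝓝 (fpt u0 θ v)) h2 h1
    exact h3.continuousWithinAt
  have hunif := hcomp.uniformContinuousOn_of_continuous hcont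
  rw [Metric.uniformContinuousOn_iff] at hunif
  obtain ⟨ε, hε, hunif⟩ := hunif 1 one_pos
  obtain ⟨m, hm⟩ := exists_nat_gt (Real.pi / 2 / ε)
  have hpi : 0 < Real.pi / 2 := by positivity
  have hmpos : (0 : ℝ) < m := lt_of_le_of_lt (by positivity) hm
  set δ : ℝ := Real.pi / 2 / m with hδ
  have hδ0 : 0 < δ := by positivity
  have hδε : δ < ε := by
    rw [hδ, div_lt_iff₀ hmpos]
    rw [div_lt_iff₀ hε] at hm
    linarith [mul_comm (m : ℝ) ε]
  have hang : ∀ j : ℕ, j ≤ m → (j : ℝ) * δ ∈ Icc (0 : ℝ) (Real.pi / 2) := by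
    intro j hj
    refine ⟨by positivity, ?_⟩
    have h1 : (j : ℝ) ≤ m := by exact_mod_cast hj
    calc (j : ℝ) * δ ≤ m * δ := by gcongr
      _ = Real.pi / 2 := by rw [hδ]; field_simp
  have hclose : ∀ j : ℕ, j + 1 ≤ m → ∀ v ∈ L, ‖v‖ = 1 →
      ‖P (fpt u0 ((j + 1 : ℕ) * δ) v) - P (fpt u0 (j * δ) v)‖ < 1 := by
    intro j hj v hvL hv
    have hvm : v ∈ Metric.sphere (0 : V) 1 ∩ (L : Set V) := ⟨by simpa using hv, hvL⟩
    have h := hunif (((j + 1 : ℕ) : ℝ) * δ, v) ⟨hang _ hj, hvm⟩ ((j : ℝ) * δ, v)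
      ⟨hang _ (by omega), hvm⟩ (by
        rw [Prod.dist_eq]
        simp only [dist_self, Real.dist_eq]
        rw [max_lt_iff]
        refine ⟨?_, hε⟩
        have : ((j + 1 : ℕ) : ℝ) * δ - j * δ = δ := by push_cast; ring
        rw [this, abs_of_pos hδ0]; exact hδε)
    rwa [dist_eq_norm] at h
  -- the transported vectors stay in the range and do not vanish
  have key : ∀ v ∈ L, ‖v‖ = 1 → ∀ j : ℕ, j ≤ m →
      P (fpt u0 (j * δ) v) (tv P u0 w0 δ j v) = tv P u0 w0 δ j v ∧ tv P u0 w0 δ j v ≠ 0 := by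
    intro v hvL hv j
    induction j with
    | zero =>
      intro _
      have h0 : fpt u0 ((0 : ℕ) * δ) v = u0 := by simp [fpt]
      rw [h0]
      exact ⟨hPw, hw0⟩
    | succ j ih =>
      intro hj
      obtain ⟨h1, h2⟩ := ih (by omega)
      have hn := norm_fpt hu0 hv (hort v hvL) ((j + 1 : ℕ) * δ)
      refine ⟨hidem _ hn _, fun h0 => ?_⟩
      have h3 : tv P u0 w0 δ (j + 1) v = P (fpt u0 ((j + 1 : ℕ) * δ) v) (tv P u0 w0 δ j v) := rfl
      rw [h3] at h0
      have h4 : ‖tv P u0 w0 δ j v‖ < ‖tv P u0 w0 δ j v‖ := by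
        calc ‖tv P u0 w0 δ j v‖ = ‖(P (fpt u0 ((j + 1 : ℕ) * δ) v) - P (fpt u0 (j * δ) v))
              (tv P u0 w0 δ j v)‖ := by
              rw [_root_.sub_apply, h0, h1, zero_sub, norm_neg]
          _ ≤ ‖P (fpt u0 ((j + 1 : ℕ) * δ) v) - P (fpt u0 (j * δ) v)‖ * ‖tv P u0 w0 δ j v‖ :=
              ContinuousLinearMap.le_opNorm _ _
          _ < 1 * ‖tv P u0 w0 δ j v‖ := by
              apply mul_lt_mul_of_pos_right (hclose j hj v hvL hv) (norm_pos_iff.2 h2)
          _ = _ := one_mul _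
      exact lt_irrefl _ h4
  have hend : ∀ v : V, fpt u0 ((m : ℕ) * δ) v = v := by
    intro v
    have : (m : ℝ) * δ = Real.pi / 2 := by rw [hδ]; field_simp
    rw [this, fpt]; simp
  -- the vector field on the sphere of `L`
  obtain ⟨x, hx, hx0⟩ := hairy_ball (E := L) hL hodd
    (fun x => L.orthogonalProjectionOnto (tv P u0 w0 δ m x)) (by
      intro x hx
      have hx1 : ‖(x : V)‖ = 1 := by simpa using hx
      have h1 : ContDiffAt ℝ 1 (tv P u0 w0 δ m) (x : V) :=
        contDiffAt_tv hP hu0 δ hx1 (hort x x.2) m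
      have h2 : ContDiffAt ℝ 1 (fun x : L => tv P u0 w0 δ m (x : V)) x :=
        h1.comp x L.subtypeL.contDiff.contDiffAt
      exact L.orthogonalProjectionOnto.contDiff.contDiffAt.comp x h2) (by
      intro x hx
      have hx1 : ‖(x : V)‖ = 1 := by simpa using hx
      obtain ⟨h1, -⟩ := key x x.2 hx1 m le_rfl
      rw [hend] at h1
      obtain ⟨h3, h4⟩ := htan x x.2 hx1 _ h1
      have h5 : (L.orthogonalProjectionOnto (tv P u0 w0 δ m x) : V) = tv P u0 w0 δ m x := by
        exact Submodule.starProjection_eq_self_iff.2 h3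
      rw [Submodule.coe_inner, h5, real_inner_comm]
      exact h4)
  have hx1 : ‖(x : V)‖ = 1 := by simpa using hx
  obtain ⟨h1, h2⟩ := key x x.2 hx1 m le_rfl
  rw [hend] at h1
  obtain ⟨h3, -⟩ := htan x x.2 hx1 _ h1
  have h5 : (L.orthogonalProjectionOnto (tv P u0 w0 δ m x) : V) = tv P u0 w0 δ m x := by
    exact Submodule.starProjection_eq_self_iff.2 h3
  apply h2
  rw [← h5, hx0]; rfl

/-- **Fan lemma for kernels.** `D v` of constant corank `r > 0` along the unit sphere of `V`, `C^1`,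
`L` a proper subspace of odd dimension `≥ 3` such that `ker (D v) = L ∩ v^⊥` for unit `v ∈ L`. -/
theorem fan_ker (D : V → (V →L[ℝ] F)) (hD : ∀ v, ‖v‖ = 1 → ContDiffAt ℝ 1 D v) {r : ℕ} (hr : 0 < r)
    (hrank : ∀ v ≠ 0, Module.finrank ℝ (LinearMap.ker (D v : V →ₗ[ℝ] F)) = r)
    (L : Submodule ℝ V) (hodd : Odd (Module.finrank ℝ L)) (hL : 1 < Module.finrank ℝ L)
    (hLV : Module.finrank ℝ L < Module.finrank ℝ V)
    (htan : ∀ v ∈ L, ‖v‖ = 1 → ∀ x, D v x = 0 → x ∈ L ∧ inner ℝ v x = 0) : False := by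
  -- a unit vector orthogonal to `L`
  have hLo : Lᗮ ≠ ⊥ := by
    intro h
    have h2 := L.finrank_add_finrank_orthogonal
    rw [h, finrank_bot] at h2
    omega
  obtain ⟨u, huL, hu⟩ := Submodule.exists_mem_ne_zero_of_ne_bot hLo
  have hun : ‖u‖ ≠ 0 := norm_ne_zero_iff.2 hu
  set u0 : V := ‖u‖⁻¹ • u with hu0
  have hu01 : ‖u0‖ = 1 := by rw [hu0, norm_smul, norm_inv, norm_norm, inv_mul_cancel₀ hun]
  have hu0n : u0 ≠ 0 := by rw [← norm_ne_zero_iff, hu01]; exact one_ne_zero
  have hort : ∀ v ∈ L, inner ℝ u0 v = 0 := by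
    intro v hv
    rw [hu0, inner_smul_left, real_inner_comm, (Submodule.mem_orthogonal L u).1 huL v hv]
    simp
  have hker : LinearMap.ker (D u0 : V →ₗ[ℝ] F) ≠ ⊥ := by
    intro h
    have h2 := hrank u0 hu0n
    rw [h, finrank_bot] at h2
    omega
  obtain ⟨w0, hw0, hw0n⟩ := Submodule.exists_mem_ne_zero_of_ne_bot hker
  refine fan (fun v => (LinearMap.ker (D v : V →ₗ[ℝ] F)).starProjection) ?_ ?_ L hodd hL ?_ hu01
    hort hw0n ?_
  · intro v hv
    have hv0 : v ≠ 0 := by rw [← norm_ne_zero_iff, hv]; exact one_ne_zero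
    obtain ⟨Q, hQ, h⟩ := IB.exists_proj D v (hD v hv)
    refine hQ.congr_of_eventuallyEq ?_
    filter_upwards [h, isOpen_ne.mem_nhds hv0] with w hw hw2
    exact hw.2 (by rw [hrank w hw2, hrank v hv0])
  · intro v _ x
    exact Submodule.starProjection_eq_self_iff.2 (Submodule.starProjection_apply_mem _ _)
  · intro v hvL hv x hx
    exact htan v hvL hv x (Submodule.starProjection_eq_self_iff.1 hx)
  · exact Submodule.starProjection_eq_self_iff.2 hw0

end Crest.Agent.R208.OD
end
end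

-- ▼ part R208/OD3

/-! R208 block OD (helper378), file 3: the type `k` of a Blaschke manifold is not odd with
`1 < k < n`. -/

set_option autoImplicit false

open Set Filter Topology Module
open scoped ContDiff RealInnerProductSpace
open Crest.GeometryTopology.Submanifold
open Crest.Agent.R241.DDefs
open Crest.Agent.R241.D2

noncomputable section

namespace Crest.Agent.R208.OD

variable {n N : ℕ} {κ : ℝ} {S : Set (Euc N)} {G : Geo n N κ S}

/-- There is a pair of points at distance `π`, together with its link. -/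
theorem exists_link (h : Bl n N κ S G Real.pi) {k : ℕ} (hT : I.Typ G k) {p : Euc N} (hp : p ∈ S) :
    ∃ V : Submodule ℝ (Euc N), V ≤ G.T p ∧ finrank ℝ V = k ∧
      (∀ v ∈ V, ‖v‖ = 1 → ∀ b : Euc N,
        (b ∈ G.T p ∧ fderiv ℝ (Exp G p) (Real.pi • v) b = 0) ↔ (b ∈ V ∧ ⟪v, b⟫ = 0)) := by
  obtain ⟨β, hβ⟩ := exists_frame G hp
  have hn : 1 ≤ n := h.hn
  have : Nonempty (Fin n) := ⟨⟨0, hn⟩⟩
  obtain ⟨w, hw⟩ : ∃ w : Euc n, ‖w‖ = 1 := ⟨EuclideanSpace.single ⟨0, hn⟩ (1 : ℝ), by simp⟩
  have hwT : β w ∈ G.T p := frame_mem hβ w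
  have hbw : ‖β w‖ = 1 := by rw [β.norm_map, hw]
  have hpw : Real.pi • β w ∈ G.T p := (G.T p).smul_mem _ hwT
  have hq : Exp G p (Real.pi • β w) ∈ S := Exp_mem G hp hpw
  have hnorm : ‖Real.pi • β w‖ = Real.pi := by
    rw [norm_smul, hbw, mul_one, Real.norm_eq_abs, abs_of_pos Real.pi_pos]
  have hd : intrinsicDist S p (Exp G p (Real.pi • β w)) = Real.pi := by
    rw [h.dist_Exp hp hpw (le_of_eq hnorm), hnorm]
  obtain ⟨V, h1, h2, -, h4⟩ := hT.link p hp _ hq hd
  exact ⟨V, h1, h2, h4⟩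

/-- **The type of a Blaschke manifold is not odd**, unless it is `1` or `n`. -/
theorem absurd (h : Bl n N κ S G Real.pi) {k : ℕ} (hT : I.Typ G k) (hk : Odd k) (h1 : 1 < k)
    (hkn : k < n) : False := by
  obtain ⟨p, hp⟩ := h.conn.nonempty
  obtain ⟨V, hVT, hVk, hV⟩ := exists_link h hT hp
  obtain ⟨β, hβ⟩ := exists_frame G hp
  have hsm : ContDiff ℝ ∞ (fun v => Exp G p (β v)) := contDiff_Exp_frame G hp hβ
  have hfd : ∀ x y : Euc n, fderiv ℝ (fun v => Exp G p (β v)) x y
      = fderiv ℝ (Exp G p) (β x) (β y) := by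
    intro x y
    have h2 : HasFDerivAt (Exp G p) (fderiv ℝ (Exp G p) (β x)) (β x) :=
      ((Crest.Agent.R241.D3c.contDiffAt_Exp' G hp (frame_mem hβ x)).differentiableAt
        (by simp)).hasFDerivAt
    have h3 : HasFDerivAt (fun v => Exp G p (β v))
        ((fderiv ℝ (Exp G p) (β x)).comp β.toContinuousLinearMap) x :=
      HasFDerivAt.comp (g := Exp G p) (f := fun v => β v) x h2 β.toContinuousLinearMap.hasFDerivAt
    rw [h3.fderiv]; rfl
  let u : Euc n → Euc n := fun v => Real.pi • (‖v‖⁻¹ • v)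
  have hu1 : ∀ v : Euc n, ‖v‖ = 1 → u v = Real.pi • v := by
    intro v hv; simp only [u, hv, inv_one, one_smul]
  let D : Euc n → (Euc n →L[ℝ] Euc N) := fun v => fderiv ℝ (fun v => Exp G p (β v)) (u v)
  have hbu : ∀ v : Euc n, β (u v) = Real.pi • β (‖v‖⁻¹ • v) := by
    intro v; simp only [u]; rw [map_smul]
  have hDapp : ∀ v y : Euc n, D v y = fderiv ℝ (Exp G p) (Real.pi • β (‖v‖⁻¹ • v)) (β y) := by
    intro v y
    change fderiv ℝ (fun v => Exp G p (β v)) (u v) y = _
    rw [hfd, hbu]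
  refine fan_ker D ?_ (r := k - 1) (by omega) ?_ (V.comap β.toLinearMap) ?_ ?_ ?_ ?_
  · intro v hv
    have hv0 : v ≠ 0 := by rw [← norm_ne_zero_iff, hv]; exact one_ne_zero
    have h2i : ContDiffAt ℝ 1 (fun x : Euc n => ‖x‖⁻¹) v :=
      (contDiffAt_norm ℝ hv0).inv (norm_ne_zero_iff.2 hv0)
    have h2j : ContDiffAt ℝ 1 (fun x : Euc n => ‖x‖⁻¹ • x) v := h2i.smul contDiffAt_id
    have h2 : ContDiffAt ℝ 1 u v :=
      (contDiffAt_const (c := Real.pi)).smul h2j
    have h3 : ContDiffAt ℝ 1 (fderiv ℝ (fun v => Exp G p (β v))) (u v) :=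
      ((hsm.fderiv_right (m := ∞) (by simp)).of_le (by simp)).contDiffAt
    exact ContDiffAt.comp v h3 h2
  · intro v hv
    have hvn : ‖v‖ ≠ 0 := norm_ne_zero_iff.2 hv
    have hn1 : ‖β (‖v‖⁻¹ • v)‖ = 1 := by
      rw [β.norm_map, norm_smul, norm_inv, norm_norm, inv_mul_cancel₀ hvn]
    have hz : ((p, β (‖v‖⁻¹ • v)) : Euc N × Euc N) ∈ TS G := ⟨hp, frame_mem hβ _⟩
    have h2 := hT.finrank_ker (p, β (‖v‖⁻¹ • v)) hz hn1
    rw [← h2]
    have hmap : (LinearMap.ker (D v : Euc n →ₗ[ℝ] Euc N)).map β.toLinearMap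
        = (G.T p ⊓ LinearMap.ker (fderiv ℝ (Exp G p) (Real.pi • β (‖v‖⁻¹ • v))).toLinearMap :
          Submodule ℝ (Euc N)) := by
      ext y
      simp only [Submodule.mem_map, Submodule.mem_inf, LinearMap.mem_ker]
      constructor
      · rintro ⟨x, hx, rfl⟩
        refine ⟨frame_mem hβ x, ?_⟩
        have : D v x = 0 := hx
        rw [hDapp] at this
        exact this
      · rintro ⟨hy, hy2⟩
        obtain ⟨x, rfl⟩ := exists_frame_eq hβ hy
        refine ⟨x, ?_, rfl⟩
        change D v x = 0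
        rw [hDapp]; exact hy2
    rw [← hmap]
    exact (Submodule.equivMapOfInjective β.toLinearMap β.injective _).finrank_eq
  · have hmap : (V.comap β.toLinearMap).map β.toLinearMap = V := by
      rw [Submodule.map_comap_eq, hβ]; exact inf_eq_right.2 hVT
    rw [(Submodule.equivMapOfInjective β.toLinearMap β.injective (V.comap β.toLinearMap)).finrank_eq,
      hmap, hVk]
    exact hk
  · have hmap : (V.comap β.toLinearMap).map β.toLinearMap = V := by
      rw [Submodule.map_comap_eq, hβ]; exact inf_eq_right.2 hVT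
    rw [(Submodule.equivMapOfInjective β.toLinearMap β.injective (V.comap β.toLinearMap)).finrank_eq,
      hmap, hVk]
    exact h1
  · have hmap : (V.comap β.toLinearMap).map β.toLinearMap = V := by
      rw [Submodule.map_comap_eq, hβ]; exact inf_eq_right.2 hVT
    rw [(Submodule.equivMapOfInjective β.toLinearMap β.injective (V.comap β.toLinearMap)).finrank_eq,
      hmap, hVk]
    simpa using hkn
  · intro v hvL hv x hx
    have hvV : β v ∈ V := hvL
    have hbv : ‖β v‖ = 1 := by rw [β.norm_map, hv]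
    have h2 := hDapp v x
    rw [hx, hv, inv_one, one_smul] at h2
    obtain ⟨h3, h4⟩ := (hV (β v) hvV hbv (β x)).1 ⟨frame_mem hβ x, h2.symm⟩
    refine ⟨h3, ?_⟩
    rw [← h4]
    exact (β.inner_map_map v x).symm

end Crest.Agent.R208.OD
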