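import Crest.Agent.R208.GZ6
import Crest.Agent.R208.JTDefs
import Crest.Agent.R208.GH2a
import Crest.Agent.R208.GH0b
import Crest.Agent.R208.JT14
import Crest.Agent.R208.I7
import Crest.Agent.R208.IC2
import Crest.Agent.R208.OD3_Mg
import Crest.Agent.R208.GT1
import Crest.Agent.R208.NU4

-- ▼ part R208/GZ7
section

/-!
R208, block GZ (helper595), part 7: `VolLe` for the types `k = n` and `k = 1` from the join trick.
-/

set_option autoImplicit false

open MeasureTheory Measure Set Filter Topology Module Metric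
open scoped ContDiff RealInnerProductSpace ENNReal
open Crest.GeometryTopology.Submanifold
open Crest.Agent.R241.DDefs
open Crest.Agent.R241.D2
open Crest.Agent.R208.L (cst)
open Crest.Agent.R208.JT (Eu JD)
open Crest.Agent.R208.GH
open Crest.Agent.R208.I (IM Typ)

noncomputable section

namespace Crest.Agent.R208.GZ

variable {n N : ℕ} {κ : ℝ} {S : Set (Euc N)} {G : Geo n N κ S} {c : ℝ} {p : Euc N}

/-- **the volume from the conclusion of the join trick** -/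
theorem vol_le_of_concl (F : Fr G p) (hp : p ∈ S) (hf : Hf G c) (J : JD (n + 1))
    (hg : IsGG F c J.G) (hJ : J.Concl) :
    μHE[n] S ≤ cst (n + 1) * ENNReal.ofReal (c ^ n * c⁻¹) := by
  have hc : 0 < c := by
    rcases hf.cases with h | h
    · rw [h]; exact one_pos
    · rw [h.1]; exact two_pos
  obtain ⟨d, hd⟩ := hJ
  have h1 : ∫ X in ball (0 : Eu (n + 1)) 1, Real.sqrt (J.detG X) =
      1 / ((n : ℝ) + 1) * (c * (c ^ n)⁻¹ * (μHE[n] S).toReal) :=
    integral_cone F hp hf hg J.G_cont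
  rw [h1] at hd
  have hVne : μHE[n] S ≠ ⊤ := (L.muHE_lt_top hf.bl.sub hf.bl.cpt).ne
  have hV : 0 < (μHE[n] S).toReal :=
    ENNReal.toReal_pos (I.muHE_ne_zero hf.bl) hVne
  have hcst : (cst (n + 1)).toReal =
      ((n : ℝ) + 1) * (volume (ball (0 : Eu (n + 1)) 1)).toReal := by
    rw [cst_ball, ENNReal.toReal_mul]
    congr 1
  have hcpos : 0 < (cst (n + 1)).toReal :=
    ENNReal.toReal_pos (L.cst_ne_zero (by omega)) (L.cst_ne_top _)
  have hn : (0 : ℝ) < (n : ℝ) + 1 := by positivity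
  have hcn : 0 < c ^ n := pow_pos hc n
  -- `d V' = cst`
  have h2 : (d : ℝ) * (c * (c ^ n)⁻¹ * (μHE[n] S).toReal) = (cst (n + 1)).toReal := by
    rw [hcst, ← hd]
    field_simp
  have hA : 0 < c * (c ^ n)⁻¹ * (μHE[n] S).toReal := by positivity
  have hd0 : 0 < (d : ℝ) := by
    by_contra h
    have : (d : ℝ) * (c * (c ^ n)⁻¹ * (μHE[n] S).toReal) ≤ 0 :=
      mul_nonpos_of_nonpos_of_nonneg (not_lt.1 h) hA.le
    linarith
  have hd1 : (1 : ℝ) ≤ d := by
    have : 0 < d := by exact_mod_cast hd0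
    exact_mod_cast this
  have h3 : c * (c ^ n)⁻¹ * (μHE[n] S).toReal ≤ (cst (n + 1)).toReal := by
    rw [← h2]
    exact le_mul_of_one_le_left hA.le hd1
  have h4 : (μHE[n] S).toReal ≤ (cst (n + 1)).toReal * (c ^ n * c⁻¹) := by
    calc (μHE[n] S).toReal = (c * (c ^ n)⁻¹ * (μHE[n] S).toReal) * (c ^ n * c⁻¹) := by
          field_simp
      _ ≤ _ := by gcongr
  have h5 : (cst (n + 1)).toReal * (c ^ n * c⁻¹) =
      (cst (n + 1) * ENNReal.ofReal (c ^ n * c⁻¹)).toReal := by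
    rw [ENNReal.toReal_mul, ENNReal.toReal_ofReal (by positivity)]
  rw [h5] at h4
  exact (ENNReal.toReal_le_toReal hVne
    (ENNReal.mul_ne_top (L.cst_ne_top _) ENNReal.ofReal_ne_top)).1 h4

/-- what the geometry half of the join trick delivers (378 and 499) -/
def GeoHalf : Prop :=
  ∀ (n N : ℕ) (κ : ℝ) (S : Set (Euc N)) (G : Geo n N κ S) (c : ℝ), Hf G c → 2 ≤ n →
    ∃ (p : Euc N) (_ : p ∈ S) (F : Fr G p) (J : JD (n + 1)), IsGG F c J.G

/-- **`VolLe`, type `k = n`** -/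
theorem volLe_sphere (hmain : JT.MainStmt) (hgeo : GeoHalf) (hB : Bl n N κ S G Real.pi)
    (hT : Typ G n) : μHE[n] S ≤ cst n * IM (n - 1) (n - n) := by
  rw [Nat.sub_self]
  rcases Nat.lt_or_ge n 2 with h2 | h2
  · have hn := hB.hn
    have hn1 : n = 1 := by omega
    subst hn1
    exact volLe_one hB
  · obtain ⟨p, hp, F, J, hg⟩ := hgeo n N κ S G 1 (hf_one hB hT) h2
    have h1 := vol_le_of_concl F hp (hf_one hB hT) J hg (hmain _ J (by omega))
    rw [one_pow, one_mul, inv_one, ENNReal.ofReal_one, mul_one, cst_succ_sphere hB.hn] at h1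
    exact h1

/-- **`VolLe`, type `k = 1`** -/
theorem volLe_rp (hmain : JT.MainStmt) (hgeo : GeoHalf) (hB : Bl n N κ S G Real.pi)
    (hT : Typ G 1) : μHE[n] S ≤ cst n * IM (1 - 1) (n - 1) := by
  rcases Nat.lt_or_ge n 2 with h2 | h2
  · have hn := hB.hn
    have hn1 : n = 1 := by omega
    subst hn1
    exact volLe_one hB
  · obtain ⟨p, hp, F, J, hg⟩ := hgeo n N κ S G 2 (hf_two hB hT h2) h2
    have h1 := vol_le_of_concl F hp (hf_two hB hT h2) J hg (hmain _ J (by omega))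
    have h3 : (2 : ℝ) ^ n * 2⁻¹ = 2 ^ (n - 1) := by
      obtain ⟨m, rfl⟩ : ∃ m, n = m + 1 := ⟨n - 1, by omega⟩
      rw [Nat.add_sub_cancel, pow_succ, mul_assoc, mul_inv_cancel₀ two_ne_zero, mul_one]
    rw [h3, ENNReal.ofReal_pow (by norm_num), ENNReal.ofReal_ofNat, cst_succ_rp hB.hn] at h1
    exact h1

end Crest.Agent.R208.GZ
end
end

-- ▼ part R208/GHDefs
section

/-!
R208, block GH (helper378): geometry half of the join trick (types `k = n` and `k = 1`).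
The intermediate abstract structure: a Wiedersehen structure on the unit sphere of `ℝ^(n+1)`.

`G X` is the metric of the cone `r * x`, `x` in the sphere (so `G X (X, a) = ⟪X, a⟫`),
`Lam (x, w)` (`x` unit, `w ⟂ x`) is the point reached at time `1` by the geodesic of the sphere
with initial velocity `w`; all geodesics satisfy `γ (t + π) = - γ t`, and have no conjugate points
in `(0, π)`.
-/

set_option autoImplicit false

open scoped RealInnerProductSpace

noncomputable section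

namespace Crest.Agent.R208.GH

open Crest.Agent.R208.JT

/-- A Wiedersehen structure on the unit sphere of `Eu m` (`m = n + 1`). -/
structure WS (m : ℕ) where
  /-- the metric of the cone -/
  G : Eu m → Eu m →L[ℝ] Eu m →L[ℝ] ℝ
  /-- the exponential map of the unit sphere -/
  Lam : Eu m × Eu m → Eu m
  /-- the velocity: `Vel x w t = (d/dt) Lam (x, t w)` -/
  Vel : Eu m → Eu m → ℝ → Eu m
  G_symm : ∀ X a b, G X a b = G X b a
  G_pos : ∀ X a, X ≠ 0 → a ≠ 0 → 0 < G X a a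
  G_smul : ∀ (r : ℝ) X, 0 < r → G (r • X) = G X
  G_neg : ∀ X, G (-X) = G X
  G_smooth : ∀ X, X ≠ 0 → ContDiffAt ℝ (⊤ : ℕ∞) G X
  G_radial : ∀ X a, X ≠ 0 → G X X a = ⟪X, a⟫
  Lam_smooth : ∀ X w, X ≠ 0 → ContDiffAt ℝ (⊤ : ℕ∞) Lam (X, w)
  hasDeriv_Lam : ∀ x w (t : ℝ), ‖x‖ = 1 → ⟪x, w⟫ = 0 →
    HasDerivAt (fun t : ℝ => Lam (x, t • w)) (Vel x w t) t
  norm_Lam : ∀ x w, ‖x‖ = 1 → ⟪x, w⟫ = 0 → ‖Lam (x, w)‖ = 1
  Lam_zero : ∀ x, ‖x‖ = 1 → Lam (x, 0) = x
  Vel_zero : ∀ x w, ‖x‖ = 1 → ⟪x, w⟫ = 0 → Vel x w 0 = w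
  flow : ∀ x w (s t : ℝ), ‖x‖ = 1 → ⟪x, w⟫ = 0 →
    Lam (Lam (x, t • w), s • Vel x w t) = Lam (x, (t + s) • w)
  speed : ∀ x w (t : ℝ), ‖x‖ = 1 → ⟪x, w⟫ = 0 →
    G (Lam (x, t • w)) (Vel x w t) (Vel x w t) = G x w w
  half : ∀ x w, ‖x‖ = 1 → ⟪x, w⟫ = 0 → G x w w = Real.pi ^ 2 → Lam (x, w) = -x
  inj : ∀ x w w', ‖x‖ = 1 → ⟪x, w⟫ = 0 → ⟪x, w'⟫ = 0 → G x w w < Real.pi ^ 2 →
    G x w' w' < Real.pi ^ 2 → Lam (x, w) = Lam (x, w') → w = w'
  surj : ∀ x y, ‖x‖ = 1 → ‖y‖ = 1 → y ≠ -x →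
    ∃ w, ⟪x, w⟫ = 0 ∧ G x w w < Real.pi ^ 2 ∧ Lam (x, w) = y
  nonconj : ∀ x w u, ‖x‖ = 1 → ⟪x, w⟫ = 0 → ⟪x, u⟫ = 0 → G x w w < Real.pi ^ 2 →
    fderiv ℝ Lam (x, w) (0, u) = 0 → u = 0
  gauss : ∀ x w u, ‖x‖ = 1 → ⟪x, w⟫ = 0 → ⟪x, u⟫ = 0 →
    G (Lam (x, w)) (fderiv ℝ Lam (x, w) (0, w)) (fderiv ℝ Lam (x, w) (0, u)) = G x w u

end Crest.Agent.R208.GH
end
end

-- ▼ part R208/GH2b
section

/-!
R208, block GH (helper378), file 2b: the cone metric `GG`, velocities of lifts, uniqueness of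
lifts, flow property.
-/

set_option autoImplicit false

open Set Filter Topology Module
open scoped ContDiff RealInnerProductSpace
open Crest.GeometryTopology.Submanifold
open Crest.Agent.R241.DDefs
open Crest.Agent.R241.D2
open Crest.Agent.R241.D3c
open Crest.Agent.R208.JT (Eu)

noncomputable section

namespace Crest.Agent.R208.GH

variable {n N : ℕ} {κ : ℝ} {S : Set (Euc N)} {G : Geo n N κ S} {c : ℝ} {p : Euc N} (F : Fr G p)

/-! ### the metric -/

lemma cda_smul {E E' : Type*} [NormedAddCommGroup E] [NormedSpace ℝ E] [NormedAddCommGroup E']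
    [NormedSpace ℝ E'] {f : E → ℝ} {g : E → E'} {x : E} (hf : ContDiffAt ℝ ∞ f x)
    (hg : ContDiffAt ℝ ∞ g x) : ContDiffAt ℝ ∞ (fun x => f x • g x) x := hf.smul hg


/-- pull back of the inner product -/
def QQ (K : Eu (n + 1) →L[ℝ] Euc N) : Eu (n + 1) →L[ℝ] Eu (n + 1) →L[ℝ] ℝ :=
  ((ContinuousLinearMap.compL ℝ (Eu (n + 1)) (Euc N) ℝ).flip K) ∘L ((innerSL ℝ) ∘L K)


lemma contDiff_QQ : ContDiff ℝ ∞ (QQ : (Eu (n + 1) →L[ℝ] Euc N) → _) := by
  refine contDiff_clm_apply_iff.2 fun a => contDiff_clm_apply_iff.2 fun b => ?_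
  have h1 : ∀ a : Eu (n + 1), ContDiff ℝ ∞ (fun K : Eu (n + 1) →L[ℝ] Euc N => K a) :=
    fun a => contDiff_id.clm_apply contDiff_const
  exact (h1 a).inner ℝ (h1 b)

/-- the metric of the cone -/
def GG (c : ℝ) (X : Eu (n + 1)) : Eu (n + 1) →L[ℝ] Eu (n + 1) →L[ℝ] ℝ :=
  (‖X‖ ^ 2)⁻¹ • (innerSL ℝ X).smulRight (innerSL ℝ X) + (‖X‖ ^ 2 / c ^ 2) • QQ (Kd F c X)

lemma GG_apply (X a b : Eu (n + 1)) : GG F c X a b =
    (‖X‖ ^ 2)⁻¹ * (⟪X, a⟫ * ⟪X, b⟫) + (‖X‖ ^ 2 / c ^ 2) * ⟪Kd F c X a, Kd F c X b⟫ := rfl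

lemma GG_unit {x : Eu (n + 1)} (hx : ‖x‖ = 1) (a b : Eu (n + 1)) : GG F c x a b =
    ⟪x, a⟫ * ⟪x, b⟫ + ⟪Kd F c x a, Kd F c x b⟫ / c ^ 2 := by
  rw [GG_apply, hx]; ring

lemma GG_orth {x : Eu (n + 1)} (hx : ‖x‖ = 1) {a : Eu (n + 1)} (ha : ⟪x, a⟫ = 0)
    (b : Eu (n + 1)) : GG F c x a b = ⟪Kd F c x a, Kd F c x b⟫ / c ^ 2 := by
  rw [GG_unit F hx, ha, zero_mul, zero_add]

lemma GG_symm (X a b : Eu (n + 1)) : GG F c X a b = GG F c X b a := by
  rw [GG_apply, GG_apply, real_inner_comm (Kd F c X a)]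
  ring

lemma ne_zero_of_unit {x : Eu (n + 1)} (hx : ‖x‖ = 1) : x ≠ 0 := by
  intro h; rw [h, norm_zero] at hx; exact zero_ne_one hx

variable (hp : p ∈ S) (hf : Hf G c) (hc : 0 < c)
include hp hf

lemma Kd_smul {X : Eu (n + 1)} (hX : X ≠ 0) {r : ℝ} (hr : 0 < r) (a : Eu (n + 1)) :
    Kd F c (r • X) (r • a) = Kd F c X a := by
  have h1 : HasFDerivAt (fun Y => k0 F c (r • Y))
      ((fderiv ℝ (k0 F c) (r • X)).comp (r • ContinuousLinearMap.id ℝ (Eu (n + 1)))) X :=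
    ((contDiffAt_k0 F hp hf (smul_ne_zero hr.ne' hX)).differentiableAt
      (by simp)).hasFDerivAt.comp X ((hasFDerivAt_id X).const_smul r)
  have h2 : (fun Y => k0 F c (r • Y)) = k0 F c := by ext1 Y; exact k0_smul F Y hr
  rw [h2] at h1
  have h3 := h1.fderiv
  have h4 := congrArg (fun L => L a) h3
  exact h4.symm

theorem contDiffAt_GG {X : Eu (n + 1)} (hX : X ≠ 0) : ContDiffAt ℝ ∞ (GG F c) X := by
  have hn : ContDiffAt ℝ ∞ (fun X : Eu (n + 1) => ‖X‖ ^ 2) X := (contDiff_norm_sq ℝ).contDiffAt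
  have hn0 : ‖X‖ ^ 2 ≠ 0 := by have := norm_pos_iff.2 hX; positivity
  have h1 : ContDiffAt ℝ ∞ (fun X : Eu (n + 1) =>
      (innerSL ℝ X).smulRight (innerSL ℝ X : Eu (n + 1) →L[ℝ] ℝ)) X := by
    have h2 : ContDiff ℝ ∞ (fun X : Eu (n + 1) => (innerSL ℝ X : Eu (n + 1) →L[ℝ] ℝ)) :=
      (innerSL ℝ).contDiff
    exact (h2.smulRight h2).contDiffAt
  have h2 : ContDiffAt ℝ ∞ (fun X => QQ (Kd F c X)) X :=
    contDiff_QQ.contDiffAt.comp X (contDiffAt_Kd F hp hf hX)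
  exact (cda_smul (E' := Eu (n + 1) →L[ℝ] Eu (n + 1) →L[ℝ] ℝ) (hn.inv hn0) h1).add
    (cda_smul (E' := Eu (n + 1) →L[ℝ] Eu (n + 1) →L[ℝ] ℝ) (hn.div_const _) h2)

lemma GG_smul (r : ℝ) (X : Eu (n + 1)) (hr : 0 < r) : GG F c (r • X) = GG F c X := by
  by_cases hX : X = 0
  · rw [hX, smul_zero]
  ext1 a
  ext1 b
  have hK : ∀ a, Kd F c (r • X) a = r⁻¹ • Kd F c X a := by
    intro a
    have h1 := Kd_smul F hp hf hX hr (r⁻¹ • a)
    rw [smul_smul, mul_inv_cancel₀ hr.ne', one_smul, map_smul] at h1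
    exact h1
  have hXn : ‖X‖ ≠ 0 := norm_ne_zero_iff.2 hX
  rw [GG_apply, GG_apply, hK, hK, norm_smul, Real.norm_eq_abs, abs_of_pos hr]
  simp only [inner_smul_left, inner_smul_right, RCLike.conj_to_real]
  field_simp

include hc

lemma GG_pos (X a : Eu (n + 1)) (hX : X ≠ 0) (ha : a ≠ 0) : 0 < GG F c X a a := by
  have hXn : 0 < ‖X‖ := norm_pos_iff.2 hX
  rw [GG_apply, real_inner_self_eq_norm_sq]
  by_cases h1 : ⟪X, a⟫ = 0
  · have h2 : Kd F c X a ≠ 0 := fun h => ha (Kd_inj F hp hf hc hX h h1)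
    have h3 := norm_pos_iff.2 h2
    positivity
  · have h3 : 0 < ⟪X, a⟫ * ⟪X, a⟫ := mul_self_pos.2 h1
    positivity

lemma GG_radial (X a : Eu (n + 1)) (hX : X ≠ 0) : GG F c X X a = ⟪X, a⟫ := by
  have hXn : ‖X‖ ≠ 0 := norm_ne_zero_iff.2 hX
  rw [GG_apply, Kd_self F hp hf hX, inner_zero_left, real_inner_self_eq_norm_sq]
  field_simp
  ring

/-! ### velocities -/

omit hp hf hc in
/-- velocity of the lifted geodesic -/
def Vel (F : Fr G p) (c : ℝ) (X w : Eu (n + 1)) (t : ℝ) : Eu (n + 1) :=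
  fderiv ℝ (Lam F c) (X, t • w) (0, w)

lemma hasDerivAt_Lam {X : Eu (n + 1)} (hX : X ≠ 0) (w : Eu (n + 1)) (t : ℝ) :
    HasDerivAt (fun t : ℝ => Lam F c (X, t • w)) (Vel F c X w t) t := by
  have h1 : HasDerivAt (fun t : ℝ => ((X, t • w) : Eu (n + 1) × Eu (n + 1))) (0, w) t := by
    have h2 : HasDerivAt (fun t : ℝ => t • w) w t := by
      simpa using (hasDerivAt_id t).smul_const w
    exact (hasDerivAt_const t X).prodMk h2
  have h3 := ((contDiffAt_Lam F hp hf hc hX (w := t • w)).differentiableAt (by simp)).hasFDerivAt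
  exact h3.comp_hasDerivAt t h1

/-- the lifted geodesic is above the geodesic -/
lemma k0_Lam_smul {X : Eu (n + 1)} (hX : X ≠ 0) (w : Eu (n + 1)) (t : ℝ) :
    k0 F c (Lam F c (X, t • w)) = (fl G ((k0 F c X, Kd F c X w), t)).1 := by
  rw [k0_Lam F hp hf hc hX, map_smul, Exp_smul G (k0_mem F hp X) (Kd_mem F hp hf hX w)]

lemma Lam_ne {X : Eu (n + 1)} (hX : X ≠ 0) (w : Eu (n + 1)) : Lam F c (X, w) ≠ 0 := by
  rw [← norm_ne_zero_iff, norm_Lam F hp hf hc hX]
  exact norm_ne_zero_iff.2 hX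

lemma Kd_Vel {X : Eu (n + 1)} (hX : X ≠ 0) (w : Eu (n + 1)) (t : ℝ) :
    Kd F c (Lam F c (X, t • w)) (Vel F c X w t) = (fl G ((k0 F c X, Kd F c X w), t)).2 := by
  have h1 := ((contDiffAt_k0 F hp hf (Lam_ne F hp hf hc hX (t • w))).differentiableAt
    (by simp)).hasFDerivAt.comp_hasDerivAt t (hasDerivAt_Lam F hp hf hc hX w t)
  have h2 : (k0 F c ∘ fun t : ℝ => Lam F c (X, t • w))
      = fun t : ℝ => (fl G ((k0 F c X, Kd F c X w), t)).1 := by
    ext1 s; exact k0_Lam_smul F hp hf hc hX w s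
  rw [h2] at h1
  exact h1.unique (hda_fst (hasDerivAt_fl G (complete G (mem_TS_Kd F hp hf hc hX w) t)))

lemma inner_Vel {X : Eu (n + 1)} (hX : X ≠ 0) (w : Eu (n + 1)) (t : ℝ) :
    ⟪Lam F c (X, t • w), Vel F c X w t⟫ = 0 := by
  have h1 := (hasDerivAt_Lam F hp hf hc hX w t).norm_sq
  have h2 : (fun t : ℝ => ‖Lam F c (X, t • w)‖ ^ 2) = fun _ => ‖X‖ ^ 2 := by
    ext1 s; rw [norm_Lam F hp hf hc hX]
  rw [h2] at h1
  have h3 := h1.unique (hasDerivAt_const t (‖X‖ ^ 2))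
  linarith

lemma Vel_zero {X w : Eu (n + 1)} (hX : X ≠ 0) (hw : ⟪X, w⟫ = 0) : Vel F c X w 0 = w := by
  have h1 := Kd_Vel F hp hf hc hX w 0
  have h2 := inner_Vel F hp hf hc hX w 0
  rw [zero_smul, Lam_zero F hp hf hc hX] at h1 h2
  rw [fl_zero] at h1
  exact Kd_inj' F hp hf hc hX h1 h2 hw

/-! ### uniqueness of lifts -/

omit hc in
/-- two curves in the sphere with the same image in `S` which meet once are equal -/
theorem lift_unique {I : Set ℝ} (hI : IsPreconnected I) {c₁ c₂ : ℝ → Eu (n + 1)}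
    (h1 : ContinuousOn c₁ I) (h2 : ContinuousOn c₂ I) (hn1 : ∀ t ∈ I, ‖c₁ t‖ = 1)
    (hn2 : ∀ t ∈ I, ‖c₂ t‖ = 1) (hk : ∀ t ∈ I, k0 F c (c₁ t) = k0 F c (c₂ t)) {t₀ : ℝ}
    (ht₀ : t₀ ∈ I) (h0 : c₁ t₀ = c₂ t₀) : ∀ t ∈ I, c₁ t = c₂ t := by
  have hval : ∀ t ∈ I, c₂ t = c₁ t ∨ c₂ t = -c₁ t := by
    intro t ht
    rcases k0_fibre F hp hf (hn1 t ht) (hn2 t ht) (hk t ht) with h | h
    · exact Or.inl h
    · exact Or.inr h.2
  have hcont : ContinuousOn (fun t => ⟪c₁ t, c₂ t⟫) I := h1.inner h2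
  have himg := hI.image _ hcont
  intro t ht
  rcases hval t ht with h | h
  · exact h.symm
  · exfalso
    have hm1 : (-1 : ℝ) ∈ (fun t => ⟪c₁ t, c₂ t⟫) '' I := by
      refine ⟨t, ht, ?_⟩
      simp only [h, inner_neg_right, real_inner_self_eq_norm_sq, hn1 t ht]
      norm_num
    have hp1 : (1 : ℝ) ∈ (fun t => ⟪c₁ t, c₂ t⟫) '' I := by
      refine ⟨t₀, ht₀, ?_⟩
      simp only [← h0, real_inner_self_eq_norm_sq, hn1 t₀ ht₀]
      norm_num
    obtain ⟨s, hs, hs0⟩ := himg.Icc_subset hm1 hp1 (show (0 : ℝ) ∈ Icc (-1) 1 by norm_num)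
    rcases hval s hs with h3 | h3
    · simp only [h3, real_inner_self_eq_norm_sq, hn1 s hs] at hs0
      norm_num at hs0
    · simp only [h3, inner_neg_right, real_inner_self_eq_norm_sq, hn1 s hs] at hs0
      norm_num at hs0

lemma continuous_Lam_smul {X : Eu (n + 1)} (hX : X ≠ 0) (w : Eu (n + 1)) :
    Continuous fun t : ℝ => Lam F c (X, t • w) :=
  continuous_iff_continuousAt.2 fun t => (hasDerivAt_Lam F hp hf hc hX w t).continuousAt

/-- **flow property** -/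
theorem Lam_flow {x w : Eu (n + 1)} (hx : ‖x‖ = 1) (s t : ℝ) :
    Lam F c (Lam F c (x, t • w), s • Vel F c x w t) = Lam F c (x, (t + s) • w) := by
  have hx0 := ne_zero_of_unit hx
  have hy0 := Lam_ne F hp hf hc hx0 (t • w)
  have hz := mem_TS_Kd F hp hf hc hx0 w
  refine lift_unique F hp hf (I := univ) isPreconnected_univ
    (c₁ := fun s => Lam F c (Lam F c (x, t • w), s • Vel F c x w t))
    (c₂ := fun s => Lam F c (x, (t + s) • w))
    (continuous_Lam_smul F hp hf hc hy0 _).continuousOn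
    ((continuous_Lam_smul F hp hf hc hx0 w).comp (continuous_const.add continuous_id)).continuousOn
    ?_ ?_ ?_ (mem_univ 0) ?_ s (mem_univ s)
  · intro s _
    rw [norm_Lam F hp hf hc hy0, norm_Lam F hp hf hc hx0, hx]
  · intro s _
    rw [norm_Lam F hp hf hc hx0, hx]
  · intro s _
    rw [k0_Lam_smul F hp hf hc hy0, Kd_Vel F hp hf hc hx0, k0_Lam_smul F hp hf hc hx0,
      k0_Lam_smul F hp hf hc hx0, fl_add' G hz]
  · rw [zero_smul, Lam_zero F hp hf hc hy0, add_zero]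


lemma norm_Kd_Vel {X : Eu (n + 1)} (hX : X ≠ 0) (w : Eu (n + 1)) (t : ℝ) :
    ‖Kd F c (Lam F c (X, t • w)) (Vel F c X w t)‖ = ‖Kd F c X w‖ := by
  rw [Kd_Vel F hp hf hc hX, norm_fl G (mem_TS_Kd F hp hf hc hX w)]

/-- speed of the lifted geodesics -/
lemma GG_Vel {x w : Eu (n + 1)} (hx : ‖x‖ = 1) (hw : ⟪x, w⟫ = 0) (t : ℝ) :
    GG F c (Lam F c (x, t • w)) (Vel F c x w t) (Vel F c x w t) = GG F c x w w := by
  have hx0 := ne_zero_of_unit hx
  rw [GG_orth F hx hw, GG_orth F (by rw [norm_Lam F hp hf hc hx0, hx])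
    (inner_Vel F hp hf hc hx0 w t), real_inner_self_eq_norm_sq, real_inner_self_eq_norm_sq,
    norm_Kd_Vel F hp hf hc hx0]

/-! ### differential of `Lam` -/

/-- chain rule for `k0 ∘ Lam` -/
lemma Kd_fderiv_Lam {X : Eu (n + 1)} (hX : X ≠ 0) (w u : Eu (n + 1)) :
    Kd F c (Lam F c (X, w)) (fderiv ℝ (Lam F c) (X, w) (0, u)) =
      fderiv ℝ (Exp G (k0 F c X)) (Kd F c X w) (Kd F c X u) := by
  have hl : HasDerivAt (fun t : ℝ => ((X, w + t • u) : Eu (n + 1) × Eu (n + 1))) (0, u) 0 := by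
    have h2 : HasDerivAt (fun t : ℝ => w + t • u) u 0 := by
      simpa using ((hasDerivAt_id (0 : ℝ)).smul_const u).const_add w
    exact (hasDerivAt_const (0 : ℝ) X).prodMk h2
  have hL : HasFDerivAt (Lam F c) (fderiv ℝ (Lam F c) (X, w)) (X, w + (0 : ℝ) • u) := by
    rw [zero_smul, add_zero]
    exact ((contDiffAt_Lam F hp hf hc hX (w := w)).differentiableAt (by simp)).hasFDerivAt
  have h1 := hL.comp_hasDerivAt (0 : ℝ) hl
  have hk : HasFDerivAt (k0 F c) (Kd F c (Lam F c (X, w)))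
      ((Lam F c ∘ fun t : ℝ => ((X, w + t • u) : Eu (n + 1) × Eu (n + 1))) 0) := by
    simp only [Function.comp_apply, zero_smul, add_zero]
    exact ((contDiffAt_k0 F hp hf (Lam_ne F hp hf hc hX w)).differentiableAt (by simp)).hasFDerivAt
  have h2 := hk.comp_hasDerivAt (0 : ℝ) h1
  have h3 : (k0 F c ∘ (Lam F c ∘ fun t : ℝ => ((X, w + t • u) : Eu (n + 1) × Eu (n + 1))))
      = fun t : ℝ => Exp G (k0 F c X) (Kd F c X w + t • Kd F c X u) := by
    ext1 t
    simp only [Function.comp_apply]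
    rw [k0_Lam F hp hf hc hX, map_add, map_smul]
  rw [h3] at h2
  have hE := hasDerivAt_line (w := Kd F c X u)
    ((contDiffAt_Exp' G (k0_mem F hp X) (Kd_mem F hp hf hX w)).differentiableAt (by simp))
  exact h2.unique hE

lemma inner_fderiv_Lam {X : Eu (n + 1)} (hX : X ≠ 0) (w u : Eu (n + 1)) :
    ⟪Lam F c (X, w), fderiv ℝ (Lam F c) (X, w) (0, u)⟫ = 0 := by
  have hl : HasDerivAt (fun t : ℝ => ((X, w + t • u) : Eu (n + 1) × Eu (n + 1))) (0, u) 0 := by
    have h2 : HasDerivAt (fun t : ℝ => w + t • u) u 0 := by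
      simpa using ((hasDerivAt_id (0 : ℝ)).smul_const u).const_add w
    exact (hasDerivAt_const (0 : ℝ) X).prodMk h2
  have hL : HasFDerivAt (Lam F c) (fderiv ℝ (Lam F c) (X, w)) (X, w + (0 : ℝ) • u) := by
    rw [zero_smul, add_zero]
    exact ((contDiffAt_Lam F hp hf hc hX (w := w)).differentiableAt (by simp)).hasFDerivAt
  have h1 := (hL.comp_hasDerivAt (0 : ℝ) hl).norm_sq
  have h2 : (fun t : ℝ => ‖(Lam F c ∘ fun t : ℝ =>
      ((X, w + t • u) : Eu (n + 1) × Eu (n + 1))) t‖ ^ 2) = fun _ => ‖X‖ ^ 2 := by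
    ext1 s; simp only [Function.comp_apply]; rw [norm_Lam F hp hf hc hX]
  rw [h2] at h1
  have h3 := h1.unique (hasDerivAt_const (0 : ℝ) (‖X‖ ^ 2))
  simp only [Function.comp_apply, zero_smul, add_zero] at h3
  linarith

/-- no conjugate points -/
lemma Lam_nonconj {x w u : Eu (n + 1)} (hx : ‖x‖ = 1) (hw : ⟪x, w⟫ = 0) (hu : ⟪x, u⟫ = 0)
    (hlt : GG F c x w w < Real.pi ^ 2) (h0 : fderiv ℝ (Lam F c) (x, w) (0, u) = 0) : u = 0 := by
  have hx0 := ne_zero_of_unit hx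
  have h1 := Kd_fderiv_Lam F hp hf hc hx0 w u
  rw [h0, map_zero] at h1
  rw [GG_orth F hx hw, real_inner_self_eq_norm_sq, div_lt_iff₀ (by positivity), ← mul_pow] at hlt
  have h2 : ‖Kd F c x w‖ < c * Real.pi := by
    rw [mul_comm]
    exact lt_of_pow_lt_pow_left₀ 2 (by positivity) hlt
  have h3 := hf.noconj _ (k0_mem F hp x) _ (Kd_mem F hp hf hx0 w) h2 _ (Kd_mem F hp hf hx0 u)
    h1.symm
  exact Kd_inj F hp hf hc hx0 h3 hu

/-- Gauss lemma -/
lemma Lam_gauss {x w u : Eu (n + 1)} (hx : ‖x‖ = 1) (hw : ⟪x, w⟫ = 0) :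
    GG F c (Lam F c (x, w)) (fderiv ℝ (Lam F c) (x, w) (0, w))
      (fderiv ℝ (Lam F c) (x, w) (0, u)) = GG F c x w u := by
  have hx0 := ne_zero_of_unit hx
  rw [GG_orth F (by rw [norm_Lam F hp hf hc hx0, hx]) (inner_fderiv_Lam F hp hf hc hx0 w w),
    GG_orth F hx hw, Kd_fderiv_Lam F hp hf hc hx0, Kd_fderiv_Lam F hp hf hc hx0,
    fderiv_Exp_self G (k0_mem F hp x) (Kd_mem F hp hf hx0 w), real_inner_comm,
    gauss G (k0_mem F hp x) (Kd_mem F hp hf hx0 w) (Kd_mem F hp hf hx0 u)]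

end Crest.Agent.R208.GH
end
end

-- ▼ part R208/GH2c
section

/-!
R208, block GH (helper378), file 2c: the half period of the lifted geodesics.
-/

set_option autoImplicit false

open Set Filter Topology Module
open scoped ContDiff RealInnerProductSpace
open Crest.GeometryTopology.Submanifold
open Crest.Agent.R241.DDefs
open Crest.Agent.R241.D2
open Crest.Agent.R241.D3c
open Crest.Agent.R208.JT (Eu)

noncomputable section

namespace Crest.Agent.R208.GH

variable {n N : ℕ} {κ : ℝ} {S : Set (Euc N)} {G : Geo n N κ S} {c : ℝ} {p : Euc N} (F : Fr G p)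

variable (hp : p ∈ S) (hf : Hf G c) (hc : 0 < c)
include hp hf

lemma k0_e : k0 F c F.e = p := by
  obtain ⟨s, u, h0, h1, hu, hu1, hXe⟩ := exists_polar F F.ne
  have h := k0_polar F hp hf le_rfl Real.pi_pos.le hu hu1
  rw [Real.cos_zero, Real.sin_zero, one_smul, zero_smul, add_zero, mul_zero, zero_smul,
    Exp_zero G hp] at h
  exact h

/-- unit vectors of the form `cos s e + sin s u` -/
lemma norm_cs {u : Eu (n + 1)} (hu : ⟪F.e, u⟫ = 0) (hu1 : ‖u‖ = 1) (s : ℝ) :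
    ‖Real.cos s • F.e + Real.sin s • u‖ = 1 := by
  have h6 : ‖Real.cos s • F.e + Real.sin s • u‖ ^ 2 = 1 := by
    rw [norm_add_sq_real, norm_smul, norm_smul, F.ne, hu1, inner_smul_left, inner_smul_right, hu]
    simp only [mul_one, mul_zero, add_zero, Real.norm_eq_abs, sq_abs]
    exact Real.cos_sq_add_sin_sq s
  nlinarith [norm_nonneg (Real.cos s • F.e + Real.sin s • u)]

lemma hasDerivAt_cs (u : Eu (n + 1)) (s : ℝ) :
    HasDerivAt (fun s : ℝ => Real.cos s • F.e + Real.sin s • u)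
      (-Real.sin s • F.e + Real.cos s • u) s :=
  ((Real.hasDerivAt_cos s).smul_const F.e).add ((Real.hasDerivAt_sin s).smul_const u)

lemma Kd_e {u : Eu (n + 1)} (hu : ⟪F.e, u⟫ = 0) (hu1 : ‖u‖ = 1) :
    Kd F c F.e u = c • F.B u := by
  have he0 : F.e ≠ 0 := ne_zero_of_unit F.ne
  have h1 : HasDerivAt (fun s : ℝ => Real.cos s • F.e + Real.sin s • u) u 0 := by
    have := hasDerivAt_cs F hp hf u 0
    simpa using this
  have hk : HasFDerivAt (k0 F c) (Kd F c F.e)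
      ((fun s : ℝ => Real.cos s • F.e + Real.sin s • u) 0) := by
    simp only [Real.cos_zero, Real.sin_zero, one_smul, zero_smul, add_zero]
    exact ((contDiffAt_k0 F hp hf he0).differentiableAt (by simp)).hasFDerivAt
  have h2 := hk.comp_hasDerivAt (0 : ℝ) h1
  have hz : ((p, F.B u) : Euc N × Euc N) ∈ TS G := ⟨hp, F.mem u⟩
  have h3 : HasDerivAt (fun s : ℝ => (fl G ((p, F.B u), c * s)).1) (c • F.B u) 0 := by
    have h4 := hda_fst (hasDerivAt_fl G (complete G hz (c * 0)))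
    have h5 : HasDerivAt (fun s : ℝ => c * s) c 0 := by
      simpa using (hasDerivAt_id (0 : ℝ)).const_mul c
    have h6 := h4.scomp (0 : ℝ) h5
    simp only [mul_zero, fl_zero] at h6
    exact h6
  have hEq : EqOn (k0 F c ∘ fun s : ℝ => Real.cos s • F.e + Real.sin s • u)
      (fun s : ℝ => (fl G ((p, F.B u), c * s)).1) (Icc 0 Real.pi) := by
    intro s hs
    simp only [Function.comp_apply]
    rw [k0_polar F hp hf hs.1 hs.2 hu hu1, Exp_smul G hp (F.mem u)]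
  have h0mem : (0 : ℝ) ∈ Icc 0 Real.pi := ⟨le_rfl, Real.pi_pos.le⟩
  have h7 := (h2.hasDerivWithinAt (s := Icc 0 Real.pi)).congr (fun s hs => (hEq hs).symm)
    (hEq h0mem).symm
  exact (uniqueDiffOn_Icc Real.pi_pos 0 h0mem).eq_deriv _ h7
    (h3.hasDerivWithinAt (s := Icc 0 Real.pi))

include hc

/-- the geodesics from the base point are great circles -/
lemma Lam_e {u : Eu (n + 1)} (hu : ⟪F.e, u⟫ = 0) (hu1 : ‖u‖ = 1) {s : ℝ}
    (hs : s ∈ Icc 0 Real.pi) :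
    Lam F c (F.e, s • u) = Real.cos s • F.e + Real.sin s • u := by
  have he0 : F.e ≠ 0 := ne_zero_of_unit F.ne
  refine lift_unique F hp hf (I := Icc 0 Real.pi) isPreconnected_Icc
    (c₁ := fun s => Lam F c (F.e, s • u))
    (c₂ := fun s => Real.cos s • F.e + Real.sin s • u)
    (continuous_Lam_smul F hp hf hc he0 _).continuousOn
    (fun s _ => (hasDerivAt_cs F hp hf u s).continuousAt.continuousWithinAt)
    ?_ ?_ ?_ (t₀ := 0) ⟨le_rfl, Real.pi_pos.le⟩ ?_ s hs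
  · intro s _
    rw [norm_Lam F hp hf hc he0, F.ne]
  · intro s _
    exact norm_cs F hp hf hu hu1 s
  · intro s hs
    rw [k0_polar F hp hf hs.1 hs.2 hu hu1, k0_Lam F hp hf hc he0, map_smul, k0_e F hp hf,
      Kd_e F hp hf hu hu1, smul_smul, mul_comm]
  · rw [zero_smul, Lam_zero F hp hf hc he0, Real.cos_zero, Real.sin_zero]
    simp

lemma GG_e {u : Eu (n + 1)} (hu : ⟪F.e, u⟫ = 0) (hu1 : ‖u‖ = 1) : GG F c F.e u u = 1 := by
  rw [GG_orth F F.ne hu, Kd_e F hp hf hu hu1, real_inner_self_eq_norm_sq, norm_smul,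
    F.iso u hu, hu1, Real.norm_eq_abs, mul_one, sq_abs]
  field_simp

/-- norm of `Kd` from the metric -/
lemma norm_Kd_of_GG {x w : Eu (n + 1)} (hx : ‖x‖ = 1) (hw : ⟪x, w⟫ = 0) {r : ℝ} (hr : 0 ≤ r)
    (h : GG F c x w w = r ^ 2) : ‖Kd F c x w‖ = c * r := by
  rw [GG_orth F hx hw, real_inner_self_eq_norm_sq, div_eq_iff (by positivity)] at h
  have h1 : ‖Kd F c x w‖ ^ 2 = (c * r) ^ 2 := by rw [h]; ring
  exact (sq_eq_sq₀ (norm_nonneg _) (by positivity)).1 h1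

/-- after the time `π` a lifted geodesic is at `-x`, or at `x` if `c = 2` -/
lemma half_or {x w : Eu (n + 1)} (hx : ‖x‖ = 1) (hw : ⟪x, w⟫ = 0)
    (h : GG F c x w w = Real.pi ^ 2) : Lam F c (x, w) = -x ∨ (c = 2 ∧ Lam F c (x, w) = x) := by
  have hx0 := ne_zero_of_unit hx
  have hπ := Real.pi_pos
  have h1 := norm_Kd_of_GG F hp hf hc hx hw hπ.le h
  have hcπ : 0 < c * Real.pi := by positivity
  have h2 : ‖((c * Real.pi)⁻¹ • Kd F c x w)‖ = 1 := by
    rw [norm_smul, h1, Real.norm_eq_abs, abs_of_pos (by positivity), inv_mul_cancel₀ hcπ.ne']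
  have h3 := k0_half F hp hf hx0 ((G.T _).smul_mem (c * Real.pi)⁻¹ (Kd_mem F hp hf hx0 w)) h2
  rw [smul_smul, mul_inv_cancel₀ hcπ.ne', one_smul, ← k0_Lam F hp hf hc hx0] at h3
  rcases k0_fibre F hp hf (by rw [norm_Lam F hp hf hc hx0, hx]) (by rw [norm_neg, hx]) h3 with
    h4 | ⟨h4, h5⟩
  · exact Or.inl h4.symm
  · exact Or.inr ⟨h4, (neg_injective h5).symm⟩

/-- in the projective case: the lifts of the geodesics from the base point -/
lemma Lam_e_half (hc2 : c = 2) {u : Eu (n + 1)} (hu : ⟪F.e, u⟫ = 0) (hu1 : ‖u‖ = 1) (s : ℝ) :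
    Lam F c (F.e, (s + Real.pi) • u) = -Lam F c (F.e, s • u) := by
  have he0 : F.e ≠ 0 := ne_zero_of_unit F.ne
  have hBu : ‖F.B u‖ = 1 := by rw [F.iso u hu, hu1]
  have hk : ∀ t : ℝ, k0 F c (Lam F c (F.e, t • u)) = Exp G p ((2 * t) • F.B u) := by
    intro t
    rw [k0_Lam F hp hf hc he0, map_smul, k0_e F hp hf, Kd_e F hp hf hu hu1, smul_smul, hc2,
      mul_comm]
  have hcL := continuous_Lam_smul F hp hf hc he0 u
  refine lift_unique F hp hf (I := univ) isPreconnected_univ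
    (c₁ := fun s => Lam F c (F.e, (s + Real.pi) • u))
    (c₂ := fun s => -Lam F c (F.e, s • u))
    (hcL.comp (continuous_id.add continuous_const)).continuousOn hcL.neg.continuousOn
    ?_ ?_ ?_ (t₀ := 0) (mem_univ _) ?_ s (mem_univ _)
  · intro s _
    rw [norm_Lam F hp hf hc he0, F.ne]
  · intro s _
    rw [norm_neg, norm_Lam F hp hf hc he0, F.ne]
  · intro s _
    rw [k0_neg_two F hp hf hc2 (Lam_ne F hp hf hc he0 _), hk, hk]
    have h1 : 2 * (s + Real.pi) = 2 * Real.pi + 2 * s := by ring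
    rw [h1, Exp_per hf.per hp (F.mem u) hBu]
  · rw [zero_add, zero_smul, Lam_zero F hp hf hc he0,
      Lam_e F hp hf hc hu hu1 ⟨Real.pi_pos.le, le_rfl⟩, Real.cos_pi, Real.sin_pi]
    simp

/-- **half period** -/
theorem Lam_half {x w : Eu (n + 1)} (hx : ‖x‖ = 1) (hw : ⟪x, w⟫ = 0)
    (h : GG F c x w w = Real.pi ^ 2) : Lam F c (x, w) = -x := by
  have hx0 := ne_zero_of_unit hx
  have hπ := Real.pi_pos
  rcases hf.cases with hc1 | ⟨hc2, hn2, -⟩
  · rcases half_or F hp hf hc hx hw h with h1 | ⟨h1, -⟩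
    · exact h1
    · exfalso; rw [hc1] at h1; norm_num at h1
  · -- a direction for which it is true
    obtain ⟨s, u, h0, h1, hu, hu1, hxe⟩ := exists_polar F hx
    have hxL : Lam F c (F.e, s • u) = x := by
      rw [Lam_e F hp hf hc hu hu1 ⟨h0, h1⟩, hxe]
    have he0 : F.e ≠ 0 := ne_zero_of_unit F.ne
    set η := Vel F c F.e u s with hη
    have hxη : ⟪x, η⟫ = 0 := by rw [← hxL]; exact inner_Vel F hp hf hc he0 u s
    have hGη : GG F c x η η = 1 := by
      rw [← hxL, hη, GG_Vel F hp hf hc F.ne hu, GG_e F hp hf hc hu hu1]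
    have hLη : Lam F c (x, Real.pi • η) = -x := by
      have h2 := Lam_flow F hp hf hc (w := u) F.ne Real.pi s
      rw [hxL] at h2
      rw [h2, Lam_e_half F hp hf hc hc2 hu hu1, hxL]
    -- connectedness of the unit sphere of the tangent space
    set T := G.T (k0 F c x) with hT
    have hrank : 1 < Module.rank ℝ T := by
      rw [← Module.finrank_eq_rank, hT, G.finrank_T _ (k0_mem F hp x)]
      exact_mod_cast hn2
    have hsph := isPreconnected_sphere hrank (0 : T) 1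
    let f : T → ℝ := fun v => ⟪x, Lam F c (x, Lc F c x ((c * Real.pi) • (v : Euc N)))⟫
    have hfc : Continuous f := by
      rw [continuous_iff_continuousAt]
      intro v
      have h3 : ContinuousAt (Lam F c) (x, Lc F c x ((c * Real.pi) • (v : Euc N))) :=
        (contDiffAt_Lam F hp hf hc hx0).continuousAt
      have h4 : ContinuousAt (fun v : T => ((x, Lc F c x ((c * Real.pi) • (v : Euc N))) :
          Eu (n + 1) × Eu (n + 1))) v := by
        have h5 : Continuous (fun v : T => ((x, Lc F c x ((c * Real.pi) • (v : Euc N))) :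
          Eu (n + 1) × Eu (n + 1))) := by fun_prop
        exact h5.continuousAt
      have h6 : ContinuousAt (fun v : T => Lam F c (x, Lc F c x ((c * Real.pi) • (v : Euc N)))) v :=
        ContinuousAt.comp (g := Lam F c) h3 h4
      exact continuousAt_const.inner h6
    have hfval : ∀ v ∈ Metric.sphere (0 : T) 1,
        Lam F c (x, Lc F c x ((c * Real.pi) • (v : Euc N))) = -x ∨
        Lam F c (x, Lc F c x ((c * Real.pi) • (v : Euc N))) = x := by
      intro v hv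
      have hv1 : ‖(v : Euc N)‖ = 1 := by simpa using hv
      have hin := inner_Lc F hp hf hc hx0 ((c * Real.pi) • (v : Euc N))
      have hK : Kd F c x (Lc F c x ((c * Real.pi) • (v : Euc N))) = (c * Real.pi) • (v : Euc N) := by
        rw [Kd_Lc F hp hf hc hx0]
        exact (P_eq_self G (k0_mem F hp x)).1 (T.smul_mem _ v.2)
      have hG : GG F c x (Lc F c x ((c * Real.pi) • (v : Euc N)))
          (Lc F c x ((c * Real.pi) • (v : Euc N))) = Real.pi ^ 2 := by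
        rw [GG_orth F hx hin, hK, real_inner_self_eq_norm_sq, norm_smul, hv1, mul_one,
          Real.norm_eq_abs, sq_abs]
        field_simp
      rcases half_or F hp hf hc hx hin hG with h2 | ⟨-, h2⟩
      · exact Or.inl h2
      · exact Or.inr h2
    have hxx : ⟪x, x⟫ = 1 := by rw [real_inner_self_eq_norm_sq, hx]; norm_num
    have hunit : ∀ w : Eu (n + 1), ⟪x, w⟫ = 0 → GG F c x w w = Real.pi ^ 2 →
        ∃ v ∈ Metric.sphere (0 : T) 1, Lc F c x ((c * Real.pi) • (v : Euc N)) = w := by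
      intro w hw h
      have h2 := norm_Kd_of_GG F hp hf hc hx hw hπ.le h
      have hcπ : 0 < c * Real.pi := by positivity
      refine ⟨⟨(c * Real.pi)⁻¹ • Kd F c x w, T.smul_mem _ (Kd_mem F hp hf hx0 w)⟩, ?_, ?_⟩
      · rw [mem_sphere_zero_iff_norm]
        change ‖((c * Real.pi)⁻¹ • Kd F c x w)‖ = 1
        rw [norm_smul, h2, Real.norm_eq_abs, abs_of_pos (by positivity), inv_mul_cancel₀ hcπ.ne']
      · simp only [smul_smul, mul_inv_cancel₀ hcπ.ne', one_smul]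
        exact Lc_Kd F hp hf hc hx0 hw
    obtain ⟨v₁, hv₁, hv₁e⟩ := hunit w hw h
    obtain ⟨v₂, hv₂, hv₂e⟩ := hunit (Real.pi • η) (by rw [inner_smul_right, hxη, mul_zero]) (by
      simp only [map_smul, _root_.smul_apply, smul_eq_mul, hGη]; ring)
    rcases hfval v₁ hv₁ with h2 | h2
    · rw [hv₁e] at h2; exact h2
    · exfalso
      have himg := hsph.image f hfc.continuousOn
      have hm1 : (-1 : ℝ) ∈ f '' Metric.sphere (0 : T) 1 := by
        refine ⟨v₂, hv₂, ?_⟩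
        simp only [f, hv₂e, hLη, inner_neg_right, hxx]
      have hp1 : (1 : ℝ) ∈ f '' Metric.sphere (0 : T) 1 := by
        refine ⟨v₁, hv₁, ?_⟩
        simp only [f, h2, hxx]
      obtain ⟨v, hv, hv0⟩ := himg.Icc_subset hm1 hp1 (show (0 : ℝ) ∈ Icc (-1) 1 by norm_num)
      rcases hfval v hv with h3 | h3
      · simp only [f, h3, inner_neg_right, hxx] at hv0
        norm_num at hv0
      · simp only [f, h3, hxx] at hv0
        norm_num at hv0

/-- shift by the half period -/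
lemma Lam_shift {x η : Eu (n + 1)} (hx : ‖x‖ = 1) (hη : ⟪x, η⟫ = 0) (hG : GG F c x η η = 1)
    (s : ℝ) : Lam F c (x, (s + Real.pi) • η) = -Lam F c (x, s • η) := by
  have hx0 := ne_zero_of_unit hx
  rw [← Lam_flow F hp hf hc hx]
  refine Lam_half F hp hf hc (by rw [norm_Lam F hp hf hc hx0, hx]) ?_ ?_
  · rw [inner_smul_right, inner_Vel F hp hf hc hx0, mul_zero]
  · simp only [map_smul, _root_.smul_apply, smul_eq_mul, GG_Vel F hp hf hc hx hη, hG]
    ring

end Crest.Agent.R208.GH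
end
end

-- ▼ part R208/GH2d
section

/-!
R208, block GH (helper378), file 2d: injectivity, surjectivity, the Wiedersehen structure.
-/

set_option autoImplicit false

open Set Filter Topology Module
open scoped ContDiff RealInnerProductSpace
open Crest.GeometryTopology.Submanifold
open Crest.Agent.R241.DDefs
open Crest.Agent.R241.D2
open Crest.Agent.R241.D3c
open Crest.Agent.R208.JT (Eu)

noncomputable section

namespace Crest.Agent.R208.GH

variable {n N : ℕ} {κ : ℝ} {S : Set (Euc N)} {G : Geo n N κ S} {c : ℝ} {p : Euc N} (F : Fr G p)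

variable (hp : p ∈ S) (hf : Hf G c) (hc : 0 < c)
include hp hf hc

/-- unit vector and length -/
lemma exists_unit_len {x w : Eu (n + 1)} (hx : ‖x‖ = 1) (hw : ⟪x, w⟫ = 0) (hw0 : w ≠ 0) :
    ∃ (ℓ : ℝ) (η : Eu (n + 1)), 0 < ℓ ∧ ⟪x, η⟫ = 0 ∧ GG F c x η η = 1 ∧ w = ℓ • η ∧
      GG F c x w w = ℓ ^ 2 := by
  have hpos := GG_pos F hp hf hc x w (ne_zero_of_unit hx) hw0
  have hs : Real.sqrt (GG F c x w w) ^ 2 = GG F c x w w := Real.sq_sqrt hpos.le
  have hs0 : 0 < Real.sqrt (GG F c x w w) := Real.sqrt_pos.2 hpos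
  refine ⟨Real.sqrt (GG F c x w w), (Real.sqrt (GG F c x w w))⁻¹ • w, hs0, ?_, ?_, ?_, hs.symm⟩
  · rw [inner_smul_right, hw, mul_zero]
  · have h1 : GG F c x ((Real.sqrt (GG F c x w w))⁻¹ • w) ((Real.sqrt (GG F c x w w))⁻¹ • w)
        = ((Real.sqrt (GG F c x w w)) ^ 2)⁻¹ * GG F c x w w := by
      simp only [map_smul, _root_.smul_apply, smul_eq_mul]
      ring
    rw [h1, hs, inv_mul_cancel₀ hpos.ne']
  · rw [smul_smul, mul_inv_cancel₀ hs0.ne', one_smul]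

/-- the end point of a short lifted geodesic -/
lemma lift_same_end {x w w' : Eu (n + 1)} (hx : ‖x‖ = 1) (hw : ⟪x, w⟫ = 0) (hw' : ⟪x, w'⟫ = 0)
    (h1 : ‖Kd F c x w‖ ≤ Real.pi) (h1' : ‖Kd F c x w'‖ < Real.pi)
    (heq : k0 F c (Lam F c (x, w)) = k0 F c (Lam F c (x, w'))) : w = w' := by
  have hx0 := ne_zero_of_unit hx
  rw [k0_Lam F hp hf hc hx0, k0_Lam F hp hf hc hx0] at heq
  have h2 := hf.bl.Exp_inj (k0_mem F hp x) (Kd_mem F hp hf hx0 w') (Kd_mem F hp hf hx0 w) h1' h1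
    heq.symm
  exact Kd_inj' F hp hf hc hx0 h2.symm hw hw'

lemma Kd_norm_unit {x η : Eu (n + 1)} (hx : ‖x‖ = 1) (hη : ⟪x, η⟫ = 0)
    (hG : GG F c x η η = 1) (r : ℝ) : ‖Kd F c x (r • η)‖ = c * |r| := by
  have h1 := norm_Kd_of_GG F hp hf hc hx hη zero_le_one (by rw [hG]; norm_num)
  rw [map_smul, norm_smul, h1, Real.norm_eq_abs]; ring

lemma GG_smul_unit {x η : Eu (n + 1)} (hG : GG F c x η η = 1) (r : ℝ) :
    GG F c x (r • η) (r • η) = r ^ 2 := by
  simp only [map_smul, _root_.smul_apply, smul_eq_mul, hG]; ring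

/-- in the projective case every short vector can be replaced by one of length `≤ π/2` -/
lemma reduce {x w : Eu (n + 1)} (hx : ‖x‖ = 1) (hw : ⟪x, w⟫ = 0)
    (hlt : GG F c x w w < Real.pi ^ 2) : ∃ w₁ : Eu (n + 1), ⟪x, w₁⟫ = 0 ∧
      ((w₁ = w ∧ GG F c x w w ≤ (Real.pi / 2) ^ 2) ∨
        (GG F c x w₁ w₁ < (Real.pi / 2) ^ 2 ∧ Lam F c (x, w₁) = -Lam F c (x, w) ∧
          ∃ (ℓ : ℝ) (η : Eu (n + 1)), 0 < ℓ ∧ ℓ < Real.pi ∧ ⟪x, η⟫ = 0 ∧ GG F c x η η = 1 ∧
            w = ℓ • η ∧ w₁ = (ℓ - Real.pi) • η ∧ Real.pi / 2 < ℓ)) := by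
  have hπ := Real.pi_pos
  by_cases h1 : GG F c x w w ≤ (Real.pi / 2) ^ 2
  · exact ⟨w, hw, Or.inl ⟨rfl, h1⟩⟩
  · have hw0 : w ≠ 0 := by
      rintro rfl
      apply h1
      simp only [map_zero]
      positivity
    obtain ⟨ℓ, η, hℓ, hη, hG, rfl, hℓ2⟩ := exists_unit_len F hp hf hc hx hw hw0
    rw [hℓ2] at h1 hlt
    have h2 : Real.pi / 2 < ℓ := lt_of_pow_lt_pow_left₀ 2 hℓ.le (not_le.1 h1)
    have h3 : ℓ < Real.pi := lt_of_pow_lt_pow_left₀ 2 hπ.le hlt
    refine ⟨(ℓ - Real.pi) • η, by rw [inner_smul_right, hη, mul_zero], Or.inr ⟨?_, ?_, ℓ, η, hℓ, h3,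
      hη, hG, rfl, rfl, h2⟩⟩
    · rw [GG_smul_unit F hp hf hc hG]
      nlinarith
    · have h4 := Lam_shift F hp hf hc hx hη hG (ℓ - Real.pi)
      rw [sub_add_cancel] at h4
      rw [h4, neg_neg]

/-- **injectivity** -/
theorem Lam_inj {x w w' : Eu (n + 1)} (hx : ‖x‖ = 1) (hw : ⟪x, w⟫ = 0) (hw' : ⟪x, w'⟫ = 0)
    (h : GG F c x w w < Real.pi ^ 2) (h' : GG F c x w' w' < Real.pi ^ 2)
    (heq : Lam F c (x, w) = Lam F c (x, w')) : w = w' := by
  have hx0 := ne_zero_of_unit hx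
  have hπ := Real.pi_pos
  have hnorm : ∀ {w : Eu (n + 1)} {r : ℝ}, 0 ≤ r → ⟪x, w⟫ = 0 → GG F c x w w < r ^ 2 →
      ‖Kd F c x w‖ < c * r := by
    intro w r hr hw h
    rw [GG_orth F hx hw, real_inner_self_eq_norm_sq, div_lt_iff₀ (by positivity), ← mul_pow] at h
    rw [mul_comm]
    exact lt_of_pow_lt_pow_left₀ 2 (by positivity) h
  have hnorm' : ∀ {w : Eu (n + 1)} {r : ℝ}, 0 ≤ r → ⟪x, w⟫ = 0 → GG F c x w w ≤ r ^ 2 →
      ‖Kd F c x w‖ ≤ c * r := by
    intro w r hr hw h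
    rw [GG_orth F hx hw, real_inner_self_eq_norm_sq, div_le_iff₀ (by positivity), ← mul_pow] at h
    rw [mul_comm]
    exact le_of_sq_le_sq h (by positivity)
  rcases hf.cases with hc1 | ⟨hc2, hn2, hlink⟩
  · subst hc1
    have h1 := hnorm hπ.le hw h
    have h1' := hnorm hπ.le hw' h'
    rw [one_mul] at h1 h1'
    exact lift_same_end F hp hf hc hx hw hw' h1.le h1' (by rw [heq])
  · obtain ⟨w₁, hw₁, hr⟩ := reduce F hp hf hc hx hw h
    obtain ⟨w₁', hw₁', hr'⟩ := reduce F hp hf hc hx hw' h'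
    have hLne := Lam_ne F hp hf hc hx0 w
    have hk : k0 F c (Lam F c (x, w₁)) = k0 F c (Lam F c (x, w₁')) := by
      have e1 : k0 F c (Lam F c (x, w₁)) = k0 F c (Lam F c (x, w)) := by
        rcases hr with ⟨h1, -⟩ | ⟨-, h1, -⟩
        · rw [h1]
        · rw [h1, k0_neg_two F hp hf hc2 hLne]
      have e2 : k0 F c (Lam F c (x, w₁')) = k0 F c (Lam F c (x, w')) := by
        rcases hr' with ⟨h1, -⟩ | ⟨-, h1, -⟩
        · rw [h1]
        · rw [h1, k0_neg_two F hp hf hc2 (by rw [← heq]; exact hLne)]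
      rw [e1, e2, heq]
    have hcπ : c * (Real.pi / 2) = Real.pi := by rw [hc2]; ring
    have hle : ‖Kd F c x w₁‖ ≤ Real.pi := by
      rw [← hcπ]
      refine hnorm' (by positivity) hw₁ ?_
      rcases hr with ⟨h1, h2⟩ | ⟨h1, -⟩
      · rw [h1]; exact h2
      · exact h1.le
    have hle' : ‖Kd F c x w₁'‖ ≤ Real.pi := by
      rw [← hcπ]
      refine hnorm' (by positivity) hw₁' ?_
      rcases hr' with ⟨h1, h2⟩ | ⟨h1, -⟩
      · rw [h1]; exact h2
      · exact h1.le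
    -- the two reduced vectors have the same length
    have hlen : ‖Kd F c x w₁‖ = ‖Kd F c x w₁'‖ := by
      have hk' := hk
      rw [k0_Lam F hp hf hc hx0, k0_Lam F hp hf hc hx0] at hk'
      have d1 := hf.bl.dist_Exp (k0_mem F hp x) (Kd_mem F hp hf hx0 w₁) hle
      have d2 := hf.bl.dist_Exp (k0_mem F hp x) (Kd_mem F hp hf hx0 w₁') hle'
      rw [hk', d2] at d1
      exact d1.symm
    rcases hle'.eq_or_lt with hπ' | hlt'
    · -- both of length `π/2`
      have hKw : ‖Kd F c x w₁‖ = Real.pi := by rw [hlen, hπ']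
      have hred : w₁ = w := by
        rcases hr with ⟨h1, -⟩ | ⟨h1, -⟩
        · exact h1
        · exfalso
          have := hnorm (by positivity) hw₁ h1
          rw [hcπ, hKw] at this
          exact lt_irrefl _ this
      have hred' : w₁' = w' := by
        rcases hr' with ⟨h1, -⟩ | ⟨h1, -⟩
        · exact h1
        · exfalso
          have := hnorm (by positivity) hw₁' h1
          rw [hcπ, hπ'] at this
          exact lt_irrefl _ this
      subst hred hred'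
      have hu : ‖(Real.pi⁻¹ • Kd F c x w₁)‖ = 1 := by
        rw [norm_smul, hKw, Real.norm_eq_abs, abs_of_pos (by positivity), inv_mul_cancel₀ hπ.ne']
      have hu' : ‖(Real.pi⁻¹ • Kd F c x w₁')‖ = 1 := by
        rw [norm_smul, hπ', Real.norm_eq_abs, abs_of_pos (by positivity), inv_mul_cancel₀ hπ.ne']
      have hk' := hk
      rw [k0_Lam F hp hf hc hx0, k0_Lam F hp hf hc hx0] at hk'
      have hl := hlink _ (k0_mem F hp x) _ ((G.T _).smul_mem Real.pi⁻¹ (Kd_mem F hp hf hx0 w₁)) _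
        ((G.T _).smul_mem Real.pi⁻¹ (Kd_mem F hp hf hx0 w₁')) hu hu' (by
          rw [smul_smul, smul_smul, mul_inv_cancel₀ hπ.ne', one_smul, one_smul]; exact hk')
      have hpi0 : Real.pi⁻¹ ≠ 0 := inv_ne_zero hπ.ne'
      rcases hl with h2 | h2
      · have h3 : Kd F c x w₁' = Kd F c x w₁ := smul_right_injective _ hpi0 h2
        exact (Kd_inj' F hp hf hc hx0 h3 hw' hw).symm
      · exfalso
        rw [← smul_neg, ← map_neg] at h2
        have h3 : Kd F c x w₁' = Kd F c x (-w₁) := smul_right_injective _ hpi0 h2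
        have h4 : w₁' = -w₁ := Kd_inj' F hp hf hc hx0 h3 hw' (by rw [inner_neg_right, hw, neg_zero])
        have hw0 : w₁ ≠ 0 := by
          intro h0; rw [h0, map_zero, norm_zero] at hKw; exact hπ.ne hKw
        obtain ⟨ℓ, η, hℓ, hη, hG, hwe, hℓ2⟩ := exists_unit_len F hp hf hc hx hw hw0
        have h5 : ℓ = Real.pi / 2 := by
          have h6 := Kd_norm_unit F hp hf hc hx hη hG ℓ
          rw [← hwe, hKw, abs_of_pos hℓ, hc2] at h6
          linarith
        have h7 := Lam_shift F hp hf hc hx hη hG (ℓ - Real.pi)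
        rw [sub_add_cancel, ← hwe] at h7
        have h8 : (ℓ - Real.pi) • η = w₁' := by
          rw [h4, hwe, h5, ← neg_smul]; congr 1; ring
        rw [h8, ← heq] at h7
        have h9 : (2 : ℝ) • Lam F c (x, w₁) = 0 := by
          rw [two_smul]; nth_rw 1 [h7]; simp
        exact hLne ((smul_eq_zero.1 h9).resolve_left two_ne_zero)
    · have h2 : w₁ = w₁' := lift_same_end F hp hf hc hx hw₁ hw₁' hle hlt' hk
      rcases hr with ⟨h1, h3⟩ | ⟨h1, h3, ℓ, η, hℓ, hℓπ, hη, hG, hwe, hw1e, hℓ2⟩ <;>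
        rcases hr' with ⟨h1', h3'⟩ | ⟨h1', h3', ℓ', η', hℓ', hℓπ', hη', hG', hwe', hw1e', hℓ2'⟩
      · rw [← h1, ← h1', h2]
      · exfalso
        rw [← h2, h1, ← heq] at h3'
        have h9 : (2 : ℝ) • Lam F c (x, w) = 0 := by
          rw [two_smul]; nth_rw 1 [h3']; simp
        exact hLne ((smul_eq_zero.1 h9).resolve_left two_ne_zero)
      · exfalso
        rw [h2, h1', ← heq] at h3
        have h9 : (2 : ℝ) • Lam F c (x, w) = 0 := by
          rw [two_smul]; nth_rw 1 [h3]; simp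
        exact hLne ((smul_eq_zero.1 h9).resolve_left two_ne_zero)
      · -- `(ℓ - π) η = (ℓ' - π) η'`
        rw [hw1e, hw1e'] at h2
        have h4 : (ℓ - Real.pi) ^ 2 = (ℓ' - Real.pi) ^ 2 := by
          rw [← GG_smul_unit F hp hf hc hG, h2, GG_smul_unit F hp hf hc hG']
        have h5 : ℓ = ℓ' := by nlinarith
        have h6 : ℓ - Real.pi ≠ 0 := by linarith
        rw [← h5] at h2
        have h7 : η = η' := smul_right_injective _ h6 h2
        rw [hwe, hwe', h5, h7]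

/-- **surjectivity** -/
theorem Lam_surj {x y : Eu (n + 1)} (hx : ‖x‖ = 1) (hy : ‖y‖ = 1) (hxy : y ≠ -x) :
    ∃ w, ⟪x, w⟫ = 0 ∧ GG F c x w w < Real.pi ^ 2 ∧ Lam F c (x, w) = y := by
  have hx0 := ne_zero_of_unit hx
  have hπ := Real.pi_pos
  obtain ⟨v, hv, hvn, hve⟩ := hf.bl.exists_Exp (k0_mem F hp (c := c) x) (k0_mem F hp (c := c) y)
  obtain ⟨w, hw, hwv⟩ := exists_Kd F hp hf hc hx0 hv
  have hvπ : ‖v‖ ≤ Real.pi := by
    rw [hvn]; exact hf.bl.dist_le _ (k0_mem F hp x) _ (k0_mem F hp y)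
  have hk : k0 F c (Lam F c (x, w)) = k0 F c y := by
    rw [k0_Lam F hp hf hc hx0, hwv, hve]
  have hGw : GG F c x w w = ‖v‖ ^ 2 / c ^ 2 := by
    rw [GG_orth F hx hw, real_inner_self_eq_norm_sq, hwv]
  have hfib := k0_fibre F hp hf (by rw [norm_Lam F hp hf hc hx0, hx]) hy hk
  rcases hf.cases with hc1 | ⟨hc2, hn2, hlink⟩
  · rcases hfib with h1 | ⟨h1, -⟩
    · refine ⟨w, hw, ?_, h1.symm⟩
      have h2 : GG F c x w w ≤ Real.pi ^ 2 := by
        rw [hGw, hc1]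
        simp only [one_pow, div_one]
        exact pow_le_pow_left₀ (norm_nonneg _) hvπ 2
      rcases h2.eq_or_lt with h3 | h3
      · exact absurd (by rw [h1, Lam_half F hp hf hc hx hw h3]) hxy
      · exact h3
    · rw [hc1] at h1; norm_num at h1
  · have h2 : GG F c x w w < Real.pi ^ 2 := by
      rw [hGw, hc2]
      have := pow_le_pow_left₀ (norm_nonneg _) hvπ 2
      nlinarith [sq_nonneg ‖v‖, pow_pos hπ 2]
    rcases hfib with h1 | ⟨-, h1⟩
    · exact ⟨w, hw, h2, h1.symm⟩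
    · have hw0 : w ≠ 0 := by
        rintro rfl
        rw [Lam_zero F hp hf hc hx0] at h1
        exact hxy h1
      obtain ⟨ℓ, η, hℓ, hη, hG, rfl, hℓ2⟩ := exists_unit_len F hp hf hc hx hw hw0
      have h3 : ℓ < Real.pi := by
        rw [hℓ2] at h2; exact lt_of_pow_lt_pow_left₀ 2 hπ.le h2
      refine ⟨(ℓ - Real.pi) • η, by rw [inner_smul_right, hη, mul_zero], ?_, ?_⟩
      · rw [GG_smul_unit F hp hf hc hG]; nlinarith
      · have h4 := Lam_shift F hp hf hc hx hη hG (ℓ - Real.pi)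
        rw [sub_add_cancel] at h4
        rw [h1, h4, neg_neg]

/-! ### the antipodal map is an isometry -/

lemma norm_Kd_neg {X : Eu (n + 1)} (hX : X ≠ 0) (a : Eu (n + 1)) :
    ‖Kd F c (-X) a‖ = ‖Kd F c X a‖ := by
  have hmX : -X ≠ 0 := neg_ne_zero.2 hX
  -- reduction to `a ⟂ X`
  have key : ∀ a : Eu (n + 1), ⟪X, a⟫ = 0 → ‖Kd F c (-X) a‖ = ‖Kd F c X a‖ := by
    intro a ha
    by_cases hv0 : Kd F c X a = 0
    · have h1 := Kd_inj F hp hf hc hX hv0 ha
      rw [h1, map_zero, map_zero]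
    set v := Kd F c X a with hv
    have hvn : 0 < ‖v‖ := norm_pos_iff.2 hv0
    have hvT : v ∈ G.T (k0 F c X) := Kd_mem F hp hf hX a
    have hz : (k0 F c X, v) ∈ TS G := ⟨k0_mem F hp X, hvT⟩
    set τ := c * Real.pi / ‖v‖ with hτ
    have h1 : ∀ t : ℝ, k0 F c (-Lam F c (X, t • a)) = (fl G ((k0 F c X, v), t + τ)).1 := by
      intro t
      have hL := Lam_ne F hp hf hc hX (t • a)
      have hzt := fl_mem G hz t
      have hnt : ‖(fl G ((k0 F c X, v), t)).2‖ = ‖v‖ := norm_fl G hz t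
      have hk := k0_Lam_smul F hp hf hc hX a t
      have h2 : ‖(‖v‖⁻¹ • (fl G ((k0 F c X, v), t)).2)‖ = 1 := by
        rw [norm_smul, hnt, norm_inv, norm_norm, inv_mul_cancel₀ hvn.ne']
      rw [← k0_half F hp hf hL (u := ‖v‖⁻¹ • (fl G ((k0 F c X, v), t)).2)
        (by rw [hk]; exact (G.T _).smul_mem _ hzt.2) h2, hk, smul_smul, Exp_smul G hzt.1 hzt.2]
      have h3 : c * Real.pi * ‖v‖⁻¹ = τ := by rw [hτ]; rfl
      rw [h3]
      change (fl G (fl G ((k0 F c X, v), t), τ)).1 = _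
      rw [← fl_add' G hz]
    have h2 : HasDerivAt (fun t : ℝ => Lam F c (X, t • a)) a 0 := by
      have := hasDerivAt_Lam F hp hf hc hX a 0
      rwa [Vel_zero F hp hf hc hX ha] at this
    have hk : HasFDerivAt (k0 F c) (Kd F c (-X)) ((fun t : ℝ => -Lam F c (X, t • a)) 0) := by
      simp only [zero_smul, Lam_zero F hp hf hc hX]
      exact ((contDiffAt_k0 F hp hf hmX).differentiableAt (by simp)).hasFDerivAt
    have h2' : HasDerivAt (fun t : ℝ => -Lam F c (X, t • a)) (-a) 0 := h2.neg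
    have h3 := hk.comp_hasDerivAt (0 : ℝ) h2'
    have h4 : (k0 F c ∘ fun t : ℝ => -Lam F c (X, t • a))
        = fun t : ℝ => (fl G ((k0 F c X, v), t + τ)).1 := by
      ext1 t; exact h1 t
    rw [h4] at h3
    have h5 := (hda_fst (hasDerivAt_fl G (complete G hz (0 + τ)))).comp_add_const 0 τ
    have h6 := h3.unique h5
    rw [map_neg] at h6
    rw [← norm_neg, h6]
    change ‖(fl G ((k0 F c X, v), 0 + τ)).2‖ = ‖v‖
    exact norm_fl G hz _
  have hXn : ‖X‖ ^ 2 ≠ 0 := by have := norm_pos_iff.2 hX; positivity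
  set b := a - (⟪X, a⟫ / ‖X‖ ^ 2) • X with hb
  have hXb : ⟪X, b⟫ = 0 := by
    rw [hb, inner_sub_right, inner_smul_right, real_inner_self_eq_norm_sq, div_mul_cancel₀ _ hXn,
      sub_self]
  have h1 : Kd F c X a = Kd F c X b := by
    rw [hb, map_sub, map_smul, Kd_self F hp hf hX, smul_zero, sub_zero]
  have h2 : Kd F c (-X) a = Kd F c (-X) b := by
    have h3 : Kd F c (-X) X = 0 := by
      have h4 := Kd_self F hp hf hmX
      rw [map_neg, neg_eq_zero] at h4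
      exact h4
    rw [hb, map_sub, map_smul, h3, smul_zero, sub_zero]
  rw [h1, h2, key b hXb]

lemma inner_Kd_neg {X : Eu (n + 1)} (hX : X ≠ 0) (a b : Eu (n + 1)) :
    ⟪Kd F c (-X) a, Kd F c (-X) b⟫ = ⟪Kd F c X a, Kd F c X b⟫ := by
  have h1 := norm_Kd_neg F hp hf hc hX (a + b)
  have h2 := norm_Kd_neg F hp hf hc hX a
  have h3 := norm_Kd_neg F hp hf hc hX b
  have h4 : ∀ u v : Euc N, ⟪u, v⟫ = (‖u + v‖ ^ 2 - ‖u‖ ^ 2 - ‖v‖ ^ 2) / 2 := by
    intro u v; rw [norm_add_sq_real]; ring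
  rw [h4, h4, ← map_add, ← map_add, h1, h2, h3]

lemma GG_neg (X : Eu (n + 1)) : GG F c (-X) = GG F c X := by
  by_cases hX : X = 0
  · rw [hX, neg_zero]
  ext1 a
  ext1 b
  rw [GG_apply, GG_apply, inner_Kd_neg F hp hf hc hX, norm_neg, inner_neg_left, inner_neg_left,
    neg_mul_neg]

/-- **The Wiedersehen structure of a Blaschke manifold of sphere or projective type.** -/
theorem exists_ws : ∃ W : WS (n + 1), W.G = GG F c :=
  ⟨{ G := GG F c
     Lam := Lam F c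
     Vel := Vel F c
     G_symm := GG_symm F
     G_pos := GG_pos F hp hf hc
     G_smul := GG_smul F hp hf
     G_neg := GG_neg F hp hf hc
     G_smooth := fun X hX => contDiffAt_GG F hp hf hX
     G_radial := GG_radial F hp hf hc
     Lam_smooth := fun X w hX => contDiffAt_Lam F hp hf hc hX
     hasDeriv_Lam := fun x w t hx _ => hasDerivAt_Lam F hp hf hc (ne_zero_of_unit hx) w t
     norm_Lam := fun x w hx _ => by rw [norm_Lam F hp hf hc (ne_zero_of_unit hx), hx]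
     Lam_zero := fun x hx => Lam_zero F hp hf hc (ne_zero_of_unit hx)
     Vel_zero := fun x w hx hw => Vel_zero F hp hf hc (ne_zero_of_unit hx) hw
     flow := fun x w s t hx _ => Lam_flow F hp hf hc hx s t
     speed := fun x w t hx hw => GG_Vel F hp hf hc hx hw t
     half := fun x w hx hw h => Lam_half F hp hf hc hx hw h
     inj := fun x w w' hx hw hw' h h' heq => Lam_inj F hp hf hc hx hw hw' h h' heq
     surj := fun x y hx hy hxy => Lam_surj F hp hf hc hx hy hxy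
     nonconj := fun x w u hx hw hu h h0 => Lam_nonconj F hp hf hc hx hw hu h h0
     gauss := fun x w u hx hw _ => Lam_gauss F hp hf hc hx hw }, rfl⟩



end Crest.Agent.R208.GH
end
end

-- ▼ part R208/GZ8
section

/-!
R208, block GZ (helper595), part 8: `VolLe` for the types `k = n` and `k = 1` from the abstract
statements alone.
-/

set_option autoImplicit false

open MeasureTheory Measure Set Filter Topology Module Metric
open scoped ContDiff RealInnerProductSpace ENNReal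
open Crest.GeometryTopology.Submanifold
open Crest.Agent.R241.DDefs
open Crest.Agent.R241.D2
open Crest.Agent.R208.L (cst)
open Crest.Agent.R208.JT (Eu JD)
open Crest.Agent.R208.GH
open Crest.Agent.R208.I (IM Typ)

noncomputable section

namespace Crest.Agent.R208.GZ

variable {n N : ℕ} {κ : ℝ} {S : Set (Euc N)} {G : Geo n N κ S} {c : ℝ} {p : Euc N}

theorem isGG (F : Fr G p) (c : ℝ) : IsGG F c (GG F c) := by
  intro X _ a b
  rw [GG_apply, div_eq_mul_inv (⟪X, a⟫ * ⟪X, b⟫), mul_comm (⟪X, a⟫ * ⟪X, b⟫)]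
  rfl

/-- the abstract geometry half -/
def JDHalf : Prop := ∀ (m : ℕ) (W : WS m), 2 ≤ m → ∃ J : JD m, J.G = W.G

theorem geoHalf (h : JDHalf) : GeoHalf := by
  intro n N κ S G c hf hn
  obtain ⟨p, hp⟩ := hf.bl.conn.nonempty
  obtain ⟨F⟩ := exists_fr hf.bl hp
  have hc : 0 < c := by
    rcases hf.cases with h | h
    · rw [h]; exact one_pos
    · rw [h.1]; exact two_pos
  obtain ⟨W, hW⟩ := exists_ws F hp hf hc
  obtain ⟨J, hJ⟩ := h (n + 1) W (by omega)
  exact ⟨p, hp, F, J, by rw [hJ, hW]; exact isGG F c⟩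

/-- **`VolLe` for `k = n` and `k = 1`** from 631's `MainStmt` and 499's `JDHalf` -/
theorem volLe_ends (hmain : JT.MainStmt) (hjd : JDHalf) (hB : Bl n N κ S G Real.pi) {k : ℕ}
    (hT : Typ G k) (hk : k = n ∨ k = 1) : μHE[n] S ≤ cst n * IM (k - 1) (n - k) := by
  rcases hk with rfl | rfl
  · exact volLe_sphere hmain (geoHalf hjd) hB hT
  · exact volLe_rp hmain (geoHalf hjd) hB hT

end Crest.Agent.R208.GZ
end
end

-- ▼ part R208/GW1
section

/-!
R208, block GW (helper499), file 1: planes in a Wiedersehen cone.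

`Pl x v ζ` = the point with complex coordinate `ζ` in the plane of the geodesic `(x, v)`.
-/

set_option autoImplicit false

open scoped RealInnerProductSpace
open Complex (arg)

noncomputable section

namespace Crest.Agent.R208.GW

open Crest.Agent.R208.JT Crest.Agent.R208.GH

variable {m : ℕ} (W : WS m)

lemma met (x : Eu m) (hx : ‖x‖ = 1) : Met x (W.G x) where
  unit := hx
  symm := W.G_symm x
  pos := fun a ha => W.G_pos x a (by rintro rfl; simp at hx) ha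
  rad := fun a => W.G_radial x a (by rintro rfl; simp at hx)

/-- orthonormal frames of planes -/
structure Fr (x v : Eu m) : Prop where
  unit : ‖x‖ = 1
  orth : ⟪x, v⟫ = 0
  one : W.G x v v = 1

variable {W}

lemma Fr.neg {x v : Eu m} (h : Fr W x v) : Fr W x (-v) :=
  ⟨h.unit, by rw [inner_neg_right, h.orth, neg_zero], by simp [h.one]⟩

lemma Fr.ne {x v : Eu m} (h : Fr W x v) : v ≠ 0 := by
  rintro rfl
  have := h.one
  simp at this

lemma Fr.orth_smul {x v : Eu m} (h : Fr W x v) (t : ℝ) : ⟪x, t • v⟫ = 0 := by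
  rw [inner_smul_right, h.orth, mul_zero]

lemma Fr.G_smul {x v : Eu m} (h : Fr W x v) (t : ℝ) : W.G x (t • v) (t • v) = t ^ 2 := by
  simp only [map_smul, _root_.smul_apply, smul_eq_mul, h.one]
  ring

/-- normalisation -/
lemma Fr.mk' {x w : Eu m} (hx : ‖x‖ = 1) (hw : ⟪x, w⟫ = 0) (h0 : w ≠ 0) :
    Fr W x ((Real.sqrt (W.G x w w))⁻¹ • w) ∧ 0 < Real.sqrt (W.G x w w) ∧
      Real.sqrt (W.G x w w) ^ 2 = W.G x w w := by
  have hb : 0 < W.G x w w := (met W x hx).pos w h0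
  have hs : Real.sqrt (W.G x w w) ^ 2 = W.G x w w := Real.sq_sqrt hb.le
  have hs0 : 0 < Real.sqrt (W.G x w w) := Real.sqrt_pos.2 hb
  refine ⟨⟨hx, by rw [inner_smul_right, hw, mul_zero], ?_⟩, hs0, hs⟩
  simp only [map_smul, _root_.smul_apply, smul_eq_mul]
  have hne := hs0.ne'
  calc (Real.sqrt (W.G x w w))⁻¹ * ((Real.sqrt (W.G x w w))⁻¹ * W.G x w w)
      = (Real.sqrt (W.G x w w))⁻¹ * ((Real.sqrt (W.G x w w))⁻¹ * Real.sqrt (W.G x w w) ^ 2) := by
        rw [hs]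
    _ = 1 := by
        generalize Real.sqrt (W.G x w w) = s at hne
        field_simp

/-- the geodesic -/
def gam (W : WS m) (x v : Eu m) (t : ℝ) : Eu m := W.Lam (x, t • v)

lemma Fr.norm_gam {x v : Eu m} (h : Fr W x v) (t : ℝ) : ‖gam W x v t‖ = 1 :=
  W.norm_Lam x _ h.unit (h.orth_smul t)

lemma Fr.gam_zero {x v : Eu m} (h : Fr W x v) : gam W x v 0 = x := by
  rw [gam, zero_smul, W.Lam_zero x h.unit]

lemma Fr.hasDeriv {x v : Eu m} (h : Fr W x v) (t : ℝ) :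
    HasDerivAt (gam W x v) (W.Vel x v t) t := W.hasDeriv_Lam x v t h.unit h.orth

lemma Fr.vel_orth {x v : Eu m} (h : Fr W x v) (t : ℝ) : ⟪gam W x v t, W.Vel x v t⟫ = 0 := by
  have h1 : HasDerivAt (fun t => ⟪gam W x v t, gam W x v t⟫)
      (⟪gam W x v t, W.Vel x v t⟫ + ⟪W.Vel x v t, gam W x v t⟫) t := (h.hasDeriv t).inner ℝ (h.hasDeriv t)
  have h2 : (fun t => ⟪gam W x v t, gam W x v t⟫) = fun _ => (1 : ℝ) := by
    ext t
    rw [real_inner_self_eq_norm_sq, h.norm_gam]; norm_num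
  rw [h2] at h1
  have h3 := h1.unique (hasDerivAt_const t (1 : ℝ))
  rw [real_inner_comm (gam W x v t)] at h3
  linarith

lemma Fr.vel_zero {x v : Eu m} (h : Fr W x v) : W.Vel x v 0 = v := W.Vel_zero x v h.unit h.orth

/-- the moved frame -/
lemma Fr.move {x v : Eu m} (h : Fr W x v) (t : ℝ) : Fr W (gam W x v t) (W.Vel x v t) :=
  ⟨h.norm_gam t, h.vel_orth t, by
    have := W.speed x v t h.unit h.orth
    rw [gam, this, h.one]⟩

lemma Fr.flow {x v : Eu m} (h : Fr W x v) (s t : ℝ) :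
    gam W (gam W x v t) (W.Vel x v t) s = gam W x v (t + s) :=
  W.flow x v s t h.unit h.orth

lemma Fr.half {x v : Eu m} (h : Fr W x v) : gam W x v Real.pi = -x :=
  W.half x _ h.unit (h.orth_smul _) (h.G_smul _)

lemma Fr.add_pi {x v : Eu m} (h : Fr W x v) (t : ℝ) : gam W x v (t + Real.pi) = -gam W x v t := by
  rw [← h.flow, (h.move t).half]

lemma Fr.gam_add_two_pi {x v : Eu m} (h : Fr W x v) (t : ℝ) :
    gam W x v (t + 2 * Real.pi) = gam W x v t := by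
  rw [two_mul, ← add_assoc, h.add_pi, h.add_pi, neg_neg]

lemma Fr.periodic {x v : Eu m} (h : Fr W x v) : Function.Periodic (gam W x v) (2 * Real.pi) :=
  h.gam_add_two_pi

lemma Fr.vel_add_pi {x v : Eu m} (h : Fr W x v) (t : ℝ) :
    W.Vel x v (t + Real.pi) = -W.Vel x v t := by
  have h1 : HasDerivAt (fun s => gam W x v (s + Real.pi)) (W.Vel x v (t + Real.pi)) t := by
    simpa using (h.hasDeriv (t + Real.pi)).comp_add_const t Real.pi
  have h2 : (fun s => gam W x v (s + Real.pi)) = fun s => -gam W x v s := by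
    ext1 s; exact h.add_pi s
  rw [h2] at h1
  exact h1.unique (h.hasDeriv t).neg

lemma Fr.gam_neg {x v : Eu m} (_h : Fr W x v) (t : ℝ) : gam W x (-v) t = gam W x v (-t) := by
  rw [gam, gam, smul_neg, neg_smul]

/-- a short geodesic does not reach the antipode, and is not closed -/
lemma Fr.ne_neg {x v : Eu m} (h : Fr W x v) {t : ℝ} (h0 : 0 < t) (h1 : t < Real.pi) :
    gam W x v t ≠ -x := by
  intro hx
  -- compare with the geodesic from a point a little further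
  set s := min t (Real.pi - t) / 2 with hs
  have hmin : 0 < min t (Real.pi - t) := lt_min h0 (by linarith)
  have hst : s < t := by have := min_le_left t (Real.pi - t); linarith
  have hspos : 0 < s := by positivity
  have hF := h.move s
  have e1 : gam W (gam W x v s) (W.Vel x v s) (t - s) = -x := by rw [h.flow, ← hx]; congr 1; ring
  have e2 : gam W (gam W x v s) (W.Vel x v s) (Real.pi - s) = -x := by
    rw [h.flow, ← h.half]; congr 1; ring
  have h3 := W.inj (gam W x v s) ((t - s) • W.Vel x v s) ((Real.pi - s) • W.Vel x v s) hF.unit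
    (hF.orth_smul _) (hF.orth_smul _)
    (by rw [hF.G_smul]; exact pow_lt_pow_left₀ (by linarith) (by linarith) two_ne_zero)
    (by rw [hF.G_smul]; exact pow_lt_pow_left₀ (by linarith) (by linarith) two_ne_zero)
    (by rw [gam] at e1 e2; rw [e1]; exact e2.symm)
  have h4 : (t - Real.pi) • W.Vel x v s = 0 := by
    have : (t - Real.pi) • W.Vel x v s = (t - s) • W.Vel x v s - (Real.pi - s) • W.Vel x v s := by
      rw [← sub_smul]; congr 1; ring
    rw [this, h3, sub_self]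
  rcases smul_eq_zero.1 h4 with h5 | h5
  · linarith
  · exact hF.ne h5

/-- the plane of a frame -/
def Pl (W : WS m) (x v : Eu m) (ζ : ℂ) : Eu m := ‖ζ‖ • gam W x v (arg ζ)

lemma Pl_zero (x v : Eu m) : Pl W x v 0 = 0 := by simp [Pl]

lemma Fr.norm_Pl {x v : Eu m} (h : Fr W x v) (ζ : ℂ) : ‖Pl W x v ζ‖ = ‖ζ‖ := by
  rw [Pl, norm_smul, h.norm_gam, mul_one, norm_norm]

lemma Fr.gam_congr {x v : Eu m} (h : Fr W x v) {s t : ℝ}
    (he : Complex.exp (s * Complex.I) = Complex.exp (t * Complex.I)) : gam W x v s = gam W x v t := by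
  obtain ⟨n, hn⟩ := Complex.exp_eq_exp_iff_exists_int.1 he
  have h1 : s = t + n * (2 * Real.pi) := by
    have h2 := congrArg Complex.im hn
    simpa using h2
  rw [h1]
  exact h.periodic.int_mul n t

/-- polar coordinates, `r` of any sign -/
lemma Fr.Pl_polar {x v : Eu m} (h : Fr W x v) (r θ : ℝ) :
    Pl W x v (r * Complex.exp (θ * Complex.I)) = r • gam W x v θ := by
  rcases lt_trichotomy r 0 with hr | hr | hr
  · have h1 : (r : ℂ) * Complex.exp (θ * Complex.I)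
        = ((-r : ℝ) : ℂ) * Complex.exp (((θ + Real.pi : ℝ) : ℂ) * Complex.I) := by
      push_cast
      rw [add_mul, Complex.exp_add, Complex.exp_pi_mul_I]; ring
    have hn : ‖((-r : ℝ) : ℂ) * Complex.exp (((θ + Real.pi : ℝ) : ℂ) * Complex.I)‖ = -r := by
      rw [norm_mul, Complex.norm_exp_ofReal_mul_I, mul_one, Complex.norm_real, Real.norm_eq_abs,
        abs_of_pos (by linarith)]
    have ha : gam W x v (arg (((-r : ℝ) : ℂ) * Complex.exp (((θ + Real.pi : ℝ) : ℂ) * Complex.I)))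
        = gam W x v (θ + Real.pi) := by
      apply h.gam_congr
      have h2 := Complex.norm_mul_exp_arg_mul_I
        (((-r : ℝ) : ℂ) * Complex.exp (((θ + Real.pi : ℝ) : ℂ) * Complex.I))
      rw [hn] at h2
      exact mul_left_cancel₀ (by simp [hr.ne]) h2
    rw [h1, Pl, hn, ha, h.add_pi, smul_neg, neg_smul, neg_neg]
  · simp [hr, Pl]
  · have hn : ‖(r : ℂ) * Complex.exp (θ * Complex.I)‖ = r := by
      rw [norm_mul, Complex.norm_exp_ofReal_mul_I, mul_one, Complex.norm_real, Real.norm_eq_abs,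
        abs_of_pos hr]
    have ha : gam W x v (arg ((r : ℂ) * Complex.exp (θ * Complex.I))) = gam W x v θ := by
      apply h.gam_congr
      have h2 := Complex.norm_mul_exp_arg_mul_I ((r : ℂ) * Complex.exp (θ * Complex.I))
      rw [hn] at h2
      exact mul_left_cancel₀ (by simp [hr.ne']) h2
    rw [Pl, hn, ha]

lemma exists_polar (ζ : ℂ) : ∃ r θ : ℝ, 0 ≤ r ∧ ζ = r * Complex.exp (θ * Complex.I) ∧ r = ‖ζ‖ ∧
    θ = arg ζ := ⟨‖ζ‖, arg ζ, norm_nonneg _, (Complex.norm_mul_exp_arg_mul_I ζ).symm, rfl, rfl⟩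

lemma Fr.Pl_smul {x v : Eu m} (h : Fr W x v) (r : ℝ) (ζ : ℂ) : Pl W x v (r * ζ) = r • Pl W x v ζ := by
  obtain ⟨a, θ, -, h1, -, -⟩ := exists_polar ζ
  rw [h1, h.Pl_polar, ← mul_assoc, ← Complex.ofReal_mul, h.Pl_polar, smul_smul]

lemma Fr.Pl_ofReal {x v : Eu m} (h : Fr W x v) (r : ℝ) : Pl W x v r = r • x := by
  have := h.Pl_polar r 0
  simpa [h.gam_zero] using this


/-- change of the base point of the frame -/
lemma Fr.Pl_move {x v : Eu m} (h : Fr W x v) (s : ℝ) (ζ : ℂ) :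
    Pl W (gam W x v s) (W.Vel x v s) ζ = Pl W x v (Complex.exp (s * Complex.I) * ζ) := by
  obtain ⟨a, θ, -, h1, -, -⟩ := exists_polar ζ
  rw [h1, (h.move s).Pl_polar, h.flow]
  have h2 : Complex.exp (s * Complex.I) * (a * Complex.exp (θ * Complex.I))
      = a * Complex.exp (((s + θ : ℝ) : ℂ) * Complex.I) := by
    push_cast
    rw [add_mul, Complex.exp_add]; ring
  rw [h2, h.Pl_polar]

/-- reversal of the frame -/
lemma Fr.Pl_conj {x v : Eu m} (h : Fr W x v) (ζ : ℂ) :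
    Pl W x (-v) ζ = Pl W x v ((starRingEnd ℂ) ζ) := by
  obtain ⟨a, θ, -, h1, -, -⟩ := exists_polar ζ
  have h2 : (starRingEnd ℂ) ((a : ℂ) * Complex.exp (θ * Complex.I))
      = a * Complex.exp (((-θ : ℝ) : ℂ) * Complex.I) := by
    rw [map_mul, Complex.conj_ofReal, ← Complex.exp_conj]
    simp
  rw [h1, h.neg.Pl_polar, h2, h.Pl_polar, h.gam_neg]

lemma cos_smul_eq {x v : Eu m} (h : Fr W x v) (θ : ℝ) :
    Real.cos θ = Cs (W.G x (θ • v) (θ • v)) ∧
      Real.sin θ • v = Sn (W.G x (θ • v) (θ • v)) • (θ • v) := by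
  rw [h.G_smul, Cs_sq]
  refine ⟨rfl, ?_⟩
  rw [smul_smul, mul_comm, Sn_sq]

/-- uniqueness of the coordinates in the planes through `x` -/
lemma Pl_unique {x v v' : Eu m} (h : Fr W x v) (h' : Fr W x v') {ζ ζ' : ℂ}
    (he : Pl W x v ζ = Pl W x v' ζ') : ζ.re = ζ'.re ∧ ζ.im • v = ζ'.im • v' := by
  have hn : ‖ζ‖ = ‖ζ'‖ := by rw [← h.norm_Pl, he, h'.norm_Pl]
  by_cases h0 : ζ = 0
  · have h0' : ζ' = 0 := by
      rw [h0, norm_zero] at hn; exact norm_eq_zero.1 hn.symm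
    rw [h0, h0']; simp
  have hne : ‖ζ‖ ≠ 0 := norm_ne_zero_iff.2 h0
  have hg : gam W x v (arg ζ) = gam W x v' (arg ζ') := by
    rw [Pl, Pl, ← hn] at he
    exact smul_right_injective _ hne he
  -- the two tangent vectors
  have key : Real.cos (arg ζ) = Real.cos (arg ζ') ∧
      Real.sin (arg ζ) • v = Real.sin (arg ζ') • v' := by
    have hlt : ∀ {ζ : ℂ}, arg ζ ≠ Real.pi → (arg ζ) ^ 2 < Real.pi ^ 2 := fun {ζ} h =>
      sq_lt_sq' (Complex.neg_pi_lt_arg ζ) (lt_of_le_of_ne (Complex.arg_le_pi ζ) h)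
    have aux : ∀ {v v' : Eu m} (_h : Fr W x v) (_h' : Fr W x v') {ζ ζ' : ℂ},
        gam W x v (arg ζ) = gam W x v' (arg ζ') → arg ζ = Real.pi → arg ζ' = Real.pi := by
      intro v v' h h' ζ ζ' hg hpi
      rw [hpi, h.half] at hg
      by_contra hcon
      rcases lt_trichotomy (arg ζ') 0 with h3 | h3 | h3
      · have h4 := h'.neg.ne_neg (t := -arg ζ') (by linarith)
          (by linarith [Complex.neg_pi_lt_arg ζ'])
        apply h4
        rw [h'.gam_neg, neg_neg, ← hg]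
      · rw [h3, h'.gam_zero] at hg
        have h5 : x = 0 := by
          have h6 : (2 : ℝ) • x = 0 := by rw [two_smul]; nth_rw 1 [← hg]; simp
          exact (smul_eq_zero.1 h6).resolve_left two_ne_zero
        have := h.unit
        rw [h5] at this; simp at this
      · exact h'.ne_neg h3 (lt_of_le_of_ne (Complex.arg_le_pi ζ') hcon) hg.symm
    by_cases h1 : arg ζ = Real.pi
    · have h2 := aux h h' hg h1
      rw [h1, h2]; simp
    · have h2 : arg ζ' ≠ Real.pi := fun h2 => h1 (aux h' h hg.symm h2)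
      have h3 := W.inj x (arg ζ • v) (arg ζ' • v') h.unit (h.orth_smul _) (h'.orth_smul _)
        (by rw [h.G_smul]; exact hlt h1) (by rw [h'.G_smul]; exact hlt h2) hg
      obtain ⟨e1, e2⟩ := cos_smul_eq h (arg ζ)
      obtain ⟨e3, e4⟩ := cos_smul_eq h' (arg ζ')
      rw [e1, e2, e3, e4, h3]
      exact ⟨rfl, rfl⟩
  obtain ⟨k1, k2⟩ := key
  have r1 : ζ.re = ‖ζ‖ * Real.cos (arg ζ) := by rw [Complex.norm_mul_cos_arg]
  have r2 : ζ'.re = ‖ζ'‖ * Real.cos (arg ζ') := by rw [Complex.norm_mul_cos_arg]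
  have i1 : ζ.im = ‖ζ‖ * Real.sin (arg ζ) := by rw [Complex.norm_mul_sin_arg]
  have i2 : ζ'.im = ‖ζ'‖ * Real.sin (arg ζ') := by rw [Complex.norm_mul_sin_arg]
  refine ⟨by rw [r1, r2, hn, k1], ?_⟩
  rw [i1, i2, mul_smul, mul_smul, k2, hn]

/-- existence of a frame at a unit vector -/
lemma exists_Fr (W : WS m) (hm : 2 ≤ m) {x : Eu m} (hx : ‖x‖ = 1) : ∃ v, Fr W x v := by
  have h1 : ∃ w : Eu m, w ∈ (ℝ ∙ x)ᗮ ∧ w ≠ 0 := by
    have h2 : (ℝ ∙ x)ᗮ ≠ ⊥ := by
      intro hb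
      have h3 : Module.finrank ℝ (ℝ ∙ x) = m := by
        have h4 := Submodule.finrank_add_finrank_orthogonal (ℝ ∙ x)
        rw [hb, finrank_bot, add_zero, finrank_euclideanSpace_fin] at h4
        exact h4
      have h5 := finrank_span_singleton (K := ℝ) (v := x) (by rintro rfl; simp at hx)
      omega
    exact Submodule.exists_mem_ne_zero_of_ne_bot h2
  obtain ⟨w, hw, hw0⟩ := h1
  have hxw : ⟪x, w⟫ = 0 := Submodule.mem_orthogonal_singleton_iff_inner_right.1 hw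
  exact ⟨_, (Fr.mk' hx hxw hw0).1⟩

/-- every point lies in a plane through `x` -/
lemma exists_Pl (hm : 2 ≤ m) {x : Eu m} (hx : ‖x‖ = 1) (Y : Eu m) :
    ∃ v ζ, Fr W x v ∧ 0 ≤ ζ.im ∧ Y = Pl W x v ζ := by
  obtain ⟨v0, hv0⟩ := exists_Fr W hm hx
  by_cases hY : Y = 0
  · exact ⟨v0, 0, hv0, le_rfl, by rw [hY, Pl_zero]⟩
  have hn : 0 < ‖Y‖ := norm_pos_iff.2 hY
  by_cases h1 : ‖Y‖⁻¹ • Y = -x
  · refine ⟨v0, ((-‖Y‖ : ℝ) : ℂ), hv0, by simp, ?_⟩
    rw [hv0.Pl_ofReal, neg_smul, ← smul_neg, ← h1, smul_smul, mul_inv_cancel₀ hn.ne', one_smul]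
  obtain ⟨w, hw1, hw2, hw3⟩ := W.surj x (‖Y‖⁻¹ • Y) hx
    (by rw [norm_smul, norm_inv, norm_norm, inv_mul_cancel₀ hn.ne']) h1
  by_cases hw0 : w = 0
  · refine ⟨v0, (‖Y‖ : ℝ), hv0, by simp, ?_⟩
    rw [hv0.Pl_ofReal]
    rw [hw0, W.Lam_zero x hx] at hw3
    rw [hw3, smul_smul, mul_inv_cancel₀ hn.ne', one_smul]
  obtain ⟨hF, hs, hs2⟩ := Fr.mk' (W := W) hx hw1 hw0
  set s := Real.sqrt (W.G x w w) with hsdef
  have hspi : s < Real.pi := by
    rw [← hs2] at hw2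
    exact lt_of_pow_lt_pow_left₀ 2 Real.pi_pos.le hw2
  refine ⟨s⁻¹ • w, ‖Y‖ * Complex.exp (s * Complex.I), hF, ?_, ?_⟩
  · rw [Complex.im_ofReal_mul, Complex.exp_ofReal_mul_I_im]
    exact mul_nonneg hn.le (Real.sin_nonneg_of_nonneg_of_le_pi hs.le hspi.le)
  · rw [hF.Pl_polar, gam, smul_smul, mul_inv_cancel₀ hs.ne', one_smul, hw3, smul_smul,
      mul_inv_cancel₀ hn.ne', one_smul]

end Crest.Agent.R208.GW
end
end

-- ▼ part R208/GW2
section

/-!
R208, block GW (helper499), file 2: the sum `A`, the scalar product `Fn`, the algebra of planes.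
-/

set_option autoImplicit false

open scoped RealInnerProductSpace
open Complex (arg)

noncomputable section

namespace Crest.Agent.R208.GW

open Crest.Agent.R208.JT Crest.Agent.R208.GH

variable {m : ℕ} {W : WS m}

/-- normalisation of a vector -/
def nz (X : Eu m) : Eu m := ‖X‖⁻¹ • X

lemma norm_nz {X : Eu m} (h : X ≠ 0) : ‖nz X‖ = 1 := by
  rw [nz, norm_smul, norm_inv, norm_norm, inv_mul_cancel₀ (norm_ne_zero_iff.2 h)]

lemma norm_smul_nz (X : Eu m) : ‖X‖ • nz X = X := by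
  by_cases h : X = 0
  · simp [h]
  · rw [nz, smul_smul, mul_inv_cancel₀ (norm_ne_zero_iff.2 h), one_smul]

lemma nz_of_unit {X : Eu m} (h : ‖X‖ = 1) : nz X = X := by rw [nz, h, inv_one, one_smul]

lemma nz_smul {X : Eu m} {r : ℝ} (hr : 0 < r) : nz (r • X) = nz X := by
  rw [nz, nz, norm_smul, Real.norm_eq_abs, abs_of_pos hr, smul_smul, mul_inv, mul_comm r⁻¹, mul_assoc,
    inv_mul_cancel₀ hr.ne', mul_one]

lemma nz_neg (X : Eu m) : nz (-X) = -nz X := by rw [nz, nz, norm_neg, smul_neg]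

/-- the exponential map of the cone, moved to the apex: `a x + b v ↦ Pl x v (a + i b)` -/
def E (W : WS m) (x ξ : Eu m) : Eu m := by
  classical
  exact if orth x ξ = 0 then ⟪x, ξ⟫ • x else
    Pl W x ((Real.sqrt (W.G x (orth x ξ) (orth x ξ)))⁻¹ • orth x ξ)
      ⟨⟪x, ξ⟫, Real.sqrt (W.G x (orth x ξ) (orth x ξ))⟩

lemma Fr.inner_comb {x v : Eu m} (h : Fr W x v) (a b : ℝ) : ⟪x, a • x + b • v⟫ = a := by
  rw [inner_add_right, inner_smul_right, inner_smul_right, h.orth, real_inner_self_eq_norm_sq, h.unit]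
  ring

lemma Fr.orth_comb {x v : Eu m} (h : Fr W x v) (a b : ℝ) : GH.orth x (a • x + b • v) = b • v := by
  rw [GH.orth, h.inner_comb]; abel

lemma E_frame {x v : Eu m} (h : Fr W x v) (a b : ℝ) :
    E W x (a • x + b • v) = Pl W x v ⟨a, b⟩ := by
  rw [E]
  simp only [h.inner_comb, h.orth_comb]
  rcases lt_trichotomy b 0 with hb | hb | hb
  · have h0 : b • v ≠ 0 := smul_ne_zero hb.ne h.ne
    rw [if_neg h0]
    have h1 : Real.sqrt (W.G x (b • v) (b • v)) = -b := by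
      rw [h.G_smul, Real.sqrt_sq_eq_abs, abs_of_neg hb]
    rw [h1, smul_smul]
    have h2 : (-b)⁻¹ * b = -1 := by rw [inv_neg, neg_mul, inv_mul_cancel₀ hb.ne]
    rw [h2, neg_one_smul, h.Pl_conj]
    congr 1
    apply Complex.ext <;> simp
  · rw [hb, zero_smul, if_pos rfl]
    have := h.Pl_ofReal a
    rw [← this]
    congr 1
  · have h0 : b • v ≠ 0 := smul_ne_zero hb.ne' h.ne
    rw [if_neg h0]
    have h1 : Real.sqrt (W.G x (b • v) (b • v)) = b := by
      rw [h.G_smul, Real.sqrt_sq hb.le]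
    rw [h1, smul_smul, inv_mul_cancel₀ hb.ne', one_smul]

/-- the inverse of `E` -/
def Z (W : WS m) (x Y : Eu m) : Eu m := by
  classical
  exact if h : ∃ p : Eu m × ℂ, Fr W x p.1 ∧ Y = Pl W x p.1 p.2 then
    h.choose.2.re • x + h.choose.2.im • h.choose.1 else 0

lemma Z_frame {x v : Eu m} (h : Fr W x v) (ζ : ℂ) : Z W x (Pl W x v ζ) = ζ.re • x + ζ.im • v := by
  have hex : ∃ p : Eu m × ℂ, Fr W x p.1 ∧ Pl W x v ζ = Pl W x p.1 p.2 := ⟨(v, ζ), h, rfl⟩
  rw [Z, dif_pos hex]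
  obtain ⟨h1, h2⟩ := hex.choose_spec
  obtain ⟨h3, h4⟩ := Pl_unique h h1 h2
  rw [h3, h4]

/-- the sum -/
def A (W : WS m) (X Y : Eu m) : Eu m := by
  classical
  exact if X = 0 then Y else E W (nz X) (X + Z W (nz X) Y)

/-- the scalar product -/
def Fn (W : WS m) (P : Eu m × Eu m) : ℝ := ⟪P.1, Z W (nz P.1) P.2⟫

section plane

variable {x v : Eu m}

lemma Fr.nz_Pl (h : Fr W x v) {ζ : ℂ} (hζ : ζ ≠ 0) : nz (Pl W x v ζ) = gam W x v (arg ζ) := by
  rw [nz, h.norm_Pl, Pl, smul_smul, inv_mul_cancel₀ (norm_ne_zero_iff.2 hζ), one_smul]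

lemma Fr.Pl_ne_zero (h : Fr W x v) {ζ : ℂ} (hζ : ζ ≠ 0) : Pl W x v ζ ≠ 0 := by
  rw [← norm_ne_zero_iff, h.norm_Pl]; exact norm_ne_zero_iff.2 hζ


lemma exp_mul_exp_neg (s : ℝ) : Complex.exp (s * Complex.I) * Complex.exp (-(s * Complex.I)) = 1 := by
  rw [← Complex.exp_add, add_neg_cancel, Complex.exp_zero]

lemma Fr.Pl_move' (h : Fr W x v) (s : ℝ) (ζ : ℂ) :
    Pl W x v ζ = Pl W (gam W x v s) (W.Vel x v s) (Complex.exp (-(s * Complex.I)) * ζ) := by
  rw [h.Pl_move, ← mul_assoc, exp_mul_exp_neg, one_mul]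


lemma Fr.Z_Pl (h : Fr W x v) {ξ : ℂ} (hξ : ξ ≠ 0) (η : ℂ) :
    Z W (nz (Pl W x v ξ)) (Pl W x v η) =
      (Complex.exp (-(arg ξ * Complex.I)) * η).re • gam W x v (arg ξ) +
        (Complex.exp (-(arg ξ * Complex.I)) * η).im • W.Vel x v (arg ξ) := by
  rw [h.nz_Pl hξ]
  conv_lhs => rw [h.Pl_move' (arg ξ) η]
  rw [Z_frame (h.move _)]

/-- the sum in a plane -/
lemma Fr.A_Pl (h : Fr W x v) (ξ η : ℂ) : A W (Pl W x v ξ) (Pl W x v η) = Pl W x v (ξ + η) := by
  by_cases hξ : ξ = 0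
  · rw [hξ, Pl_zero, A, if_pos rfl, zero_add]
  rw [A, if_neg (h.Pl_ne_zero hξ), h.Z_Pl hξ, h.nz_Pl hξ]
  set s := arg ξ with hs
  have h1 : Pl W x v ξ = (‖ξ‖ : ℝ) • gam W x v s := rfl
  rw [h1, ← add_assoc, ← add_smul, E_frame (h.move s), h.Pl_move]
  congr 1
  have h2 : (⟨‖ξ‖ + (Complex.exp (-(s * Complex.I)) * η).re, (Complex.exp (-(s * Complex.I)) * η).im⟩ : ℂ)
      = ‖ξ‖ + Complex.exp (-(s * Complex.I)) * η := by
    apply Complex.ext <;> simp
  rw [h2, mul_add, ← mul_assoc, exp_mul_exp_neg, one_mul, mul_comm, Complex.norm_mul_exp_arg_mul_I]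

lemma Fr.Fn_Pl (h : Fr W x v) (ξ η : ℂ) :
    Fn W (Pl W x v ξ, Pl W x v η) = ((starRingEnd ℂ) ξ * η).re := by
  by_cases hξ : ξ = 0
  · rw [hξ, Fn]; simp [Pl_zero]
  rw [Fn]
  simp only
  rw [h.Z_Pl hξ]
  have h1 : Pl W x v ξ = (‖ξ‖ : ℝ) • gam W x v (arg ξ) := rfl
  rw [h1, inner_smul_left, (h.move (arg ξ)).inner_comb]
  simp only [conj_trivial]
  have h2 : (starRingEnd ℂ) ξ = ‖ξ‖ * Complex.exp (-(arg ξ * Complex.I)) := by
    conv_lhs => rw [← Complex.norm_mul_exp_arg_mul_I ξ]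
    rw [map_mul, Complex.conj_ofReal, ← Complex.exp_conj]
    congr 2
    rw [map_mul, Complex.conj_ofReal, Complex.conj_I]; ring
  rw [h2, mul_assoc, Complex.re_ofReal_mul]

end plane

/-- two vectors lie in a common plane -/
lemma exists_pair (W : WS m) (hm : 2 ≤ m) (X Y : Eu m) :
    ∃ x v ξ η, Fr W x v ∧ X = Pl W x v ξ ∧ Y = Pl W x v η := by
  by_cases hX : X = 0
  · obtain ⟨x, hx⟩ : ∃ x : Eu m, ‖x‖ = 1 :=
      ⟨EuclideanSpace.single (⟨0, by omega⟩ : Fin m) (1 : ℝ), by simp⟩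
    obtain ⟨v, ζ, h, -, hY⟩ := exists_Pl (W := W) hm hx Y
    exact ⟨x, v, 0, ζ, h, by rw [hX, Pl_zero], hY⟩
  · obtain ⟨v, ζ, h, -, hY⟩ := exists_Pl (W := W) hm (norm_nz hX) Y
    exact ⟨nz X, v, (‖X‖ : ℝ), ζ, h, by rw [h.Pl_ofReal, norm_smul_nz], hY⟩

lemma A_comm (hm : 2 ≤ m) (X Y : Eu m) : A W X Y = A W Y X := by
  obtain ⟨x, v, ξ, η, h, rfl, rfl⟩ := exists_pair W hm X Y
  rw [h.A_Pl, h.A_Pl, add_comm]

lemma A_zero (hm : 2 ≤ m) (X : Eu m) : A W X 0 = X := by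
  obtain ⟨x, v, ξ, η, h, rfl, -⟩ := exists_pair W hm X 0
  rw [← Pl_zero (W := W) x v, h.A_Pl, add_zero]

lemma A_smul (hm : 2 ≤ m) (r : ℝ) (X Y : Eu m) : A W (r • X) (r • Y) = r • A W X Y := by
  obtain ⟨x, v, ξ, η, h, rfl, rfl⟩ := exists_pair W hm X Y
  rw [← h.Pl_smul, ← h.Pl_smul, h.A_Pl, h.A_Pl, ← mul_add, h.Pl_smul]

lemma act (hm : 2 ≤ m) (s t : ℝ) (X Y : Eu m) :
    A W (Real.cos s • A W (Real.cos t • X) (Real.sin t • Y))
      (Real.sin s • A W (-Real.sin t • X) (Real.cos t • Y)) =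
      A W (Real.cos (s + t) • X) (Real.sin (s + t) • Y) := by
  obtain ⟨x, v, ξ, η, h, rfl, rfl⟩ := exists_pair W hm X Y
  simp only [← h.Pl_smul, h.A_Pl]
  congr 1
  rw [Real.cos_add, Real.sin_add]
  push_cast
  ring

lemma norm_A (hm : 2 ≤ m) (X Y : Eu m) :
    ‖A W X Y‖ ^ 2 = ‖X‖ ^ 2 + 2 * Fn W (X, Y) + ‖Y‖ ^ 2 := by
  obtain ⟨x, v, ξ, η, h, rfl, rfl⟩ := exists_pair W hm X Y
  rw [h.A_Pl, h.Fn_Pl, h.norm_Pl, h.norm_Pl, h.norm_Pl, Complex.sq_norm, Complex.sq_norm,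
    Complex.sq_norm, Complex.normSq_apply, Complex.normSq_apply, Complex.normSq_apply]
  simp only [Complex.add_re, Complex.add_im, Complex.mul_re, Complex.conj_re, Complex.conj_im]
  ring

lemma Fn_smul (hm : 2 ≤ m) (r : ℝ) (X Y : Eu m) : Fn W (r • X, Y) = r * Fn W (X, Y) := by
  obtain ⟨x, v, ξ, η, h, rfl, rfl⟩ := exists_pair W hm X Y
  rw [← h.Pl_smul, h.Fn_Pl, h.Fn_Pl, map_mul, Complex.conj_ofReal, mul_assoc, Complex.re_ofReal_mul]

lemma Fn_comm (hm : 2 ≤ m) (X Y : Eu m) : Fn W (X, Y) = Fn W (Y, X) := by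
  obtain ⟨x, v, ξ, η, h, rfl, rfl⟩ := exists_pair W hm X Y
  rw [h.Fn_Pl, h.Fn_Pl]
  simp only [Complex.mul_re, Complex.conj_re, Complex.conj_im]
  ring

/-- `E x` and `Z x` are inverse to each other -/
lemma Z_E (hm : 2 ≤ m) {x : Eu m} (hx : ‖x‖ = 1) (ξ : Eu m) : Z W x (E W x ξ) = ξ := by
  by_cases h0 : orth x ξ = 0
  · obtain ⟨v, h⟩ := exists_Fr W hm hx
    have h1 : ξ = ⟪x, ξ⟫ • x + (0 : ℝ) • v := by
      rw [zero_smul, add_zero]
      conv_lhs => rw [← decomp x ξ, h0, add_zero]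
    rw [h1, E_frame h, Z_frame h]
  · obtain ⟨h, hs, hs2⟩ := Fr.mk' (W := W) hx (inner_orth hx ξ) h0
    set s := Real.sqrt (W.G x (orth x ξ) (orth x ξ)) with hsd
    have h1 : ξ = ⟪x, ξ⟫ • x + s • (s⁻¹ • orth x ξ) := by
      rw [smul_smul, mul_inv_cancel₀ hs.ne', one_smul, decomp]
    rw [h1, E_frame h, Z_frame h]

lemma E_Z (hm : 2 ≤ m) {x : Eu m} (hx : ‖x‖ = 1) (Y : Eu m) : E W x (Z W x Y) = Y := by
  obtain ⟨v, ζ, h, -, rfl⟩ := exists_Pl (W := W) hm hx Y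
  rw [Z_frame h, E_frame h]

lemma Z_smul (hm : 2 ≤ m) {x : Eu m} (hx : ‖x‖ = 1) (r : ℝ) (Y : Eu m) :
    Z W x (r • Y) = r • Z W x Y := by
  obtain ⟨v, ζ, h, -, rfl⟩ := exists_Pl (W := W) hm hx Y
  rw [← h.Pl_smul, Z_frame h, Z_frame h, smul_add, smul_smul, smul_smul, Complex.re_ofReal_mul,
    Complex.im_ofReal_mul]

lemma E_smul (hm : 2 ≤ m) {x : Eu m} (hx : ‖x‖ = 1) (r : ℝ) (ξ : Eu m) :
    E W x (r • ξ) = r • E W x ξ := by
  have h1 := Z_smul (W := W) hm hx r (E W x ξ)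
  rw [Z_E hm hx] at h1
  rw [← h1, E_Z hm hx]

lemma Z_zero (hm : 2 ≤ m) {x : Eu m} (hx : ‖x‖ = 1) : Z W x 0 = 0 := by
  have := Z_smul (W := W) hm hx 0 0
  simpa using this

lemma E_zero (hm : 2 ≤ m) {x : Eu m} (hx : ‖x‖ = 1) : E W x 0 = 0 := by
  have := E_smul (W := W) hm hx 0 0
  simpa using this

/-- for fixed `X ≠ 0` the map `Z X` is a bijection of the non-zero vectors -/
lemma bij (hm : 2 ≤ m) (X : Eu m) (hX : X ≠ 0) :
    Set.BijOn (fun Y => Z W (nz X) Y) {Y | Y ≠ 0} {ξ | ξ ≠ 0} := by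
  have hx := norm_nz hX
  refine ⟨?_, ?_, ?_⟩
  · intro Y (hY : Y ≠ 0) h
    apply hY
    have h' : Z W (nz X) Y = 0 := h
    rw [← E_Z (W := W) hm hx Y, h', E_zero hm hx]
  · intro Y _ Y' _ h
    have h' : Z W (nz X) Y = Z W (nz X) Y' := h
    rw [← E_Z (W := W) hm hx Y, h', E_Z hm hx]
  · intro ξ (hξ : ξ ≠ 0)
    refine ⟨E W (nz X) ξ, ?_, Z_E hm hx ξ⟩
    intro h
    apply hξ
    rw [← Z_E (W := W) hm hx ξ, h, Z_zero hm hx]

/-- the eikonal identity -/
lemma eik (hm : 2 ≤ m) (X Y : Eu m) (hX : X ≠ 0) :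
    W.G X (Z W (nz X) Y) (Z W (nz X) Y) = ‖Y‖ ^ 2 := by
  have hx := norm_nz hX
  obtain ⟨v, ζ, h, -, rfl⟩ := exists_Pl (W := W) hm hx Y
  have hG : W.G X = W.G (nz X) := by
    have := W.G_smul ‖X‖ (nz X) (norm_pos_iff.2 hX)
    rw [norm_smul_nz] at this
    exact this
  have hM := met W (nz X) hx
  have h1 : W.G (nz X) (nz X) v = 0 := by rw [hM.rad, h.orth]
  have h2 : W.G (nz X) v (nz X) = 0 := by rw [hM.symm, h1]
  rw [Z_frame h, hG, h.norm_Pl, Complex.sq_norm, Complex.normSq_apply]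
  simp only [map_add, map_smul, _root_.add_apply, _root_.smul_apply, smul_eq_mul, h1, h2, hM.self,
    h.one]
  ring

end Crest.Agent.R208.GW
end
end

-- ▼ part R208/GW3
section

/-!
R208, block GW (helper499), file 3: smoothness of `E` and `Z`, derivative of the rotation.
-/

set_option autoImplicit false

open scoped RealInnerProductSpace ContDiff Topology
open Complex (arg)
open Filter

noncomputable section

namespace Crest.Agent.R208.GW

open Crest.Agent.R208.JT Crest.Agent.R208.GH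

variable {m : ℕ} {W : WS m}

/-! ### derivative of the plane map -/

lemma Fr.Pl_log {x v : Eu m} (_h : Fr W x v) {ζ : ℂ} (hζ : ζ ≠ 0) :
    Pl W x v ζ = Real.exp (Complex.log ζ).re • gam W x v (Complex.log ζ).im := by
  rw [Pl, Complex.log_re, Complex.log_im, Real.exp_log (norm_pos_iff.2 hζ)]

lemma Fr.hasDerivAt_Pl {x v : Eu m} (h : Fr W x v) {ζ : ℝ → ℂ} {ζ' : ℂ} {t r : ℝ}
    (hζ : HasDerivAt ζ ζ' t) (hr : 0 < r) (hr' : ζ t = r) :
    HasDerivAt (fun s => Pl W x v (ζ s)) (ζ'.re • x + ζ'.im • v) t := by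
  have hslit : ζ t ∈ Complex.slitPlane := by
    rw [hr']; exact Complex.ofReal_mem_slitPlane.2 hr
  have h1 : HasDerivAt (fun s => Complex.log (ζ s)) (ζ' / ζ t) t := HasDerivAt.clog_real hζ hslit
  have h2 : HasDerivAt (fun s => (Complex.log (ζ s)).re) (ζ' / ζ t).re t :=
    Complex.reCLM.hasFDerivAt.comp_hasDerivAt t h1
  have h3 : HasDerivAt (fun s => (Complex.log (ζ s)).im) (ζ' / ζ t).im t :=
    Complex.imCLM.hasFDerivAt.comp_hasDerivAt t h1
  have hlog : Complex.log (ζ t) = (Real.log r : ℝ) := by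
    rw [hr', Complex.ofReal_log hr.le]
  have hg : HasDerivAt (gam W x v) v ((Complex.log (ζ t)).im) := by
    have := h.hasDeriv 0
    rw [h.vel_zero] at this
    rw [hlog, Complex.ofReal_im]; exact this
  have h4 : HasDerivAt (fun s => gam W x v (Complex.log (ζ s)).im) ((ζ' / ζ t).im • v) t :=
    HasDerivAt.scomp (h := fun s => (Complex.log (ζ s)).im) t hg h3
  have h5 := (h2.exp).smul h4
  have h6 : (fun s => Pl W x v (ζ s)) =ᶠ[𝓝 t]
      fun s => Real.exp (Complex.log (ζ s)).re • gam W x v (Complex.log (ζ s)).im := by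
    have hne : ∀ᶠ s in 𝓝 t, ζ s ≠ 0 := by
      apply hζ.continuousAt.eventually_ne
      rw [hr']; exact_mod_cast hr.ne'
    filter_upwards [hne] with s hs using h.Pl_log hs
  refine (h5.congr_of_eventuallyEq h6).congr_deriv ?_
  have hre : Real.exp (Complex.log (ζ t)).re = r := by
    rw [hlog, Complex.ofReal_re, Real.exp_log hr]
  have him : (Complex.log (ζ t)).im = 0 := by rw [hlog, Complex.ofReal_im]
  have e1 : (ζ' / ζ t).re = ζ'.re / r := by rw [hr', Complex.div_ofReal_re]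
  have e2 : (ζ' / ζ t).im = ζ'.im / r := by rw [hr', Complex.div_ofReal_im]
  rw [hre, him, h.gam_zero, e1, e2, smul_smul, add_comm]
  congr 2 <;> field_simp

lemma hasDeriv (hm : 2 ≤ m) (X Y : Eu m) (hX : X ≠ 0) :
    HasDerivAt (fun t : ℝ => A W (Real.cos t • X) (Real.sin t • Y)) (Z W (nz X) Y) 0 := by
  have hx := norm_nz hX
  obtain ⟨v, ζ, h, -, hY⟩ := exists_Pl (W := W) hm hx Y
  have hXn : X = ‖X‖ • nz X := (norm_smul_nz X).symm
  have hr := norm_pos_iff.2 hX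
  generalize hxd : nz X = x at *
  generalize ‖X‖ = r at *
  have h1 : (fun t : ℝ => A W (Real.cos t • X) (Real.sin t • Y)) =
      fun t : ℝ => Pl W x v ((Real.cos t : ℂ) * r + (Real.sin t : ℂ) * ζ) := by
    ext1 t
    have h2 : X = Pl W x v (r : ℝ) := by rw [h.Pl_ofReal, hXn]
    rw [h2, hY, ← h.Pl_smul, ← h.Pl_smul, h.A_Pl]
  rw [h1, hY, Z_frame h]
  have h2 : HasDerivAt (fun t : ℝ => (Real.cos t : ℂ) * r + (Real.sin t : ℂ) * ζ) ζ 0 := by
    have hc : HasDerivAt (fun t : ℝ => (Real.cos t : ℂ)) ((-Real.sin 0 : ℝ) : ℂ) 0 :=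
      (Real.hasDerivAt_cos 0).ofReal_comp
    have hs : HasDerivAt (fun t : ℝ => (Real.sin t : ℂ)) ((Real.cos 0 : ℝ) : ℂ) 0 :=
      (Real.hasDerivAt_sin 0).ofReal_comp
    have h3 : HasDerivAt (fun t : ℝ => (Real.cos t : ℂ) * r + (Real.sin t : ℂ) * ζ)
        (((-Real.sin 0 : ℝ) : ℂ) * r + ((Real.cos 0 : ℝ) : ℂ) * ζ) 0 :=
      (hc.mul_const (r : ℂ)).add (hs.mul_const ζ)
    refine h3.congr_deriv ?_
    simp
  exact h.hasDerivAt_Pl h2 hr (by simp)

/-! ### derivative of the exponential map -/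

/-- derivative of `Lam (x, ·)` -/
def DL (W : WS m) (x w u : Eu m) : Eu m := fderiv ℝ W.Lam (x, w) (0, u)

lemma ne_of_unit {x : Eu m} (hx : ‖x‖ = 1) : x ≠ 0 := by rintro rfl; simp at hx

lemma differentiableAt_Lam {x : Eu m} (hx : ‖x‖ = 1) (w : Eu m) : DifferentiableAt ℝ W.Lam (x, w) :=
  (W.Lam_smooth x w (ne_of_unit hx)).differentiableAt (by simp)

lemma hasFDerivAt_Lam_snd {x : Eu m} (hx : ‖x‖ = 1) (w : Eu m) :
    HasFDerivAt (fun w => W.Lam (x, w))
      ((fderiv ℝ W.Lam (x, w)).comp (ContinuousLinearMap.inr ℝ (Eu m) (Eu m))) w := by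
  have h1 : HasFDerivAt (fun w : Eu m => (x, w)) (ContinuousLinearMap.inr ℝ (Eu m) (Eu m)) w :=
    hasFDerivAt_prodMk_right x w
  exact (differentiableAt_Lam (W := W) hx w).hasFDerivAt.comp w h1

lemma hasDerivAt_Lam_line {x : Eu m} (hx : ‖x‖ = 1) (w u : Eu m) :
    HasDerivAt (fun t : ℝ => W.Lam (x, w + t • u)) (DL W x w u) 0 := by
  have hl : HasDerivAt (fun t : ℝ => w + t • u) u 0 := by
    simpa using ((hasDerivAt_id (0 : ℝ)).smul_const u).const_add w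
  have h1 := hasFDerivAt_Lam_snd (W := W) hx w
  have h2 : HasFDerivAt (fun w => W.Lam (x, w))
      ((fderiv ℝ W.Lam (x, w)).comp (ContinuousLinearMap.inr ℝ (Eu m) (Eu m))) (w + (0 : ℝ) • u) := by
    rw [zero_smul, add_zero]; exact h1
  exact HasFDerivAt.comp_hasDerivAt (l := fun w => W.Lam (x, w)) (f := fun t : ℝ => w + t • u)
    (0 : ℝ) h2 hl

lemma DL_orth {x w u : Eu m} (hx : ‖x‖ = 1) (hw : ⟪x, w⟫ = 0) (hu : ⟪x, u⟫ = 0) :
    ⟪W.Lam (x, w), DL W x w u⟫ = 0 := by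
  have h1 := hasDerivAt_Lam_line (W := W) hx w u
  have h2 := h1.inner ℝ h1
  have h3 : (fun t : ℝ => ⟪W.Lam (x, w + t • u), W.Lam (x, w + t • u)⟫) = fun _ => (1 : ℝ) := by
    ext t
    rw [real_inner_self_eq_norm_sq, W.norm_Lam x _ hx (by
      rw [inner_add_right, inner_smul_right, hw, hu]; ring)]
    norm_num
  rw [h3] at h2
  have h4 := h2.unique (hasDerivAt_const (0 : ℝ) (1 : ℝ))
  simp only [zero_smul, add_zero] at h4
  rw [real_inner_comm (W.Lam (x, w))] at h4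
  linarith



/-- `Eh (X, ρ x + w) = ρ Lam (x, w)`, `x = X/|X|` -/
def Eh (W : WS m) (P : Eu m × Eu m) : Eu m :=
  ⟪nz P.1, P.2⟫ • W.Lam (nz P.1, orth (nz P.1) P.2)

/-- `Rh (X, ρ x + w)` = the round polar map -/
def Rh (W : WS m) (P : Eu m × Eu m) : Eu m := RP (nz P.1) (W.G P.1) P.2

lemma G_nz {X : Eu m} (hX : X ≠ 0) : W.G X = W.G (nz X) := by
  have := W.G_smul ‖X‖ (nz X) (norm_pos_iff.2 hX)
  rw [norm_smul_nz] at this
  exact this

lemma contDiffAt_nz {X : Eu m} (hX : X ≠ 0) : ContDiffAt ℝ ∞ (nz : Eu m → Eu m) X :=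
  ((contDiffAt_norm ℝ hX).inv (norm_ne_zero_iff.2 hX)).smul contDiffAt_id

lemma contDiffAt_Eh {P : Eu m × Eu m} (hX : P.1 ≠ 0) : ContDiffAt ℝ ∞ (Eh W) P := by
  have h1 : ContDiffAt ℝ ∞ (fun P : Eu m × Eu m => nz P.1) P :=
    (contDiffAt_nz hX).comp P contDiffAt_fst
  have h2 : ContDiffAt ℝ ∞ (fun P : Eu m × Eu m => ⟪nz P.1, P.2⟫) P := h1.inner ℝ contDiffAt_snd
  have h3 : ContDiffAt ℝ ∞ (fun P : Eu m × Eu m => orth (nz P.1) P.2) P :=
    contDiffAt_snd.sub (h2.smul h1)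
  have h4 : ContDiffAt ℝ ∞ (fun P : Eu m × Eu m => W.Lam (nz P.1, orth (nz P.1) P.2)) P :=
    (W.Lam_smooth (nz P.1) (orth (nz P.1) P.2) (ne_of_unit (norm_nz hX))).comp P (h1.prodMk h3)
  exact h2.smul h4

lemma contDiffAt_Rh {P : Eu m × Eu m} (hX : P.1 ≠ 0) : ContDiffAt ℝ ∞ (Rh W) P := by
  have h1 : ContDiffAt ℝ ∞ (fun P : Eu m × Eu m => nz P.1) P :=
    (contDiffAt_nz hX).comp P contDiffAt_fst
  have h2 : ContDiffAt ℝ ∞ (fun P : Eu m × Eu m => W.G P.1) P :=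
    (W.G_smooth P.1 hX).comp P contDiffAt_fst
  exact contDiff_RP.contDiffAt.comp P (h1.prodMk (h2.prodMk contDiffAt_snd))

lemma orth_smul_self {x : Eu m} (hx : ‖x‖ = 1) (ρ : ℝ) {w : Eu m} (hw : ⟪x, w⟫ = 0) :
    GH.orth x (ρ • x + w) = w ∧ ⟪x, ρ • x + w⟫ = ρ := by
  have h1 : ⟪x, ρ • x + w⟫ = ρ := by
    rw [inner_add_right, inner_smul_right, hw, real_inner_self_eq_norm_sq, hx]; ring
  refine ⟨?_, h1⟩
  rw [GH.orth, h1]; abel

lemma E_Rh (hm : 2 ≤ m) {X : Eu m} (hX : X ≠ 0) (η : Eu m) : E W (nz X) (Rh W (X, η)) = Eh W (X, η) := by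
  have hx := norm_nz hX
  rw [Rh, Eh, G_nz hX, RP]
  simp only
  set x := nz X
  set ρ := ⟪x, η⟫
  have hw : ⟪x, orth x η⟫ = 0 := inner_orth hx η
  set w := orth x η
  by_cases h0 : w = 0
  · rw [h0]
    simp only [map_zero, Cs_zero, smul_zero, add_zero, one_smul, W.Lam_zero x hx]
    obtain ⟨v, h⟩ := exists_Fr W hm hx
    have h1 := E_frame h ρ 0
    rw [zero_smul, add_zero] at h1
    rw [h1]
    have h2 := h.Pl_ofReal ρ
    rw [← h2]
    congr 1
  · obtain ⟨h, hs, hs2⟩ := Fr.mk' (W := W) hx hw h0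
    set s := Real.sqrt (W.G x w w)
    have hw' : w = s • (s⁻¹ • w) := by rw [smul_smul, mul_inv_cancel₀ hs.ne', one_smul]
    have h1 : ρ • (Cs (W.G x w w) • x + Sn (W.G x w w) • w)
        = (ρ * Real.cos s) • x + (ρ * Real.sin s) • (s⁻¹ • w) := by
      rw [← hs2, Cs_sq, smul_add, smul_smul]
      congr 1
      conv_lhs => rw [hw']
      rw [smul_smul, smul_smul, ← Sn_sq s]
      congr 1; ring
    rw [h1, E_frame h]
    have h2 : (⟨ρ * Real.cos s, ρ * Real.sin s⟩ : ℂ) = ρ * Complex.exp (s * Complex.I) := by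
      apply Complex.ext
      · rw [Complex.re_ofReal_mul, Complex.exp_ofReal_mul_I_re]
      · rw [Complex.im_ofReal_mul, Complex.exp_ofReal_mul_I_im]
    rw [h2, h.Pl_polar, gam, ← hw']

lemma Z_Eh (hm : 2 ≤ m) {X : Eu m} (hX : X ≠ 0) (η : Eu m) : Z W (nz X) (Eh W (X, η)) = Rh W (X, η) := by
  rw [← E_Rh hm hX, Z_E hm (norm_nz hX)]

/-- injectivity of the derivative of `(X, η) ↦ (X, f (X, η))` -/
lemma inj_pair {f : Eu m × Eu m → Eu m} {P : Eu m × Eu m} (hf : DifferentiableAt ℝ f P)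
    (h : ∀ v, fderiv ℝ (fun η => f (P.1, η)) P.2 v = 0 → v = 0) :
    ∀ v, fderiv ℝ (fun Q : Eu m × Eu m => (Q.1, f Q)) P v = 0 → v = 0 := by
  intro v hv
  have h1 : HasFDerivAt (fun Q : Eu m × Eu m => (Q.1, f Q))
      ((ContinuousLinearMap.fst ℝ (Eu m) (Eu m)).prod (fderiv ℝ f P)) P :=
    hasFDerivAt_fst.prodMk hf.hasFDerivAt
  rw [h1.fderiv] at hv
  have h2 : v.1 = 0 := congrArg Prod.fst hv
  have h3 : fderiv ℝ f P v = 0 := congrArg Prod.snd hv
  have h4 : HasFDerivAt (fun η => f (P.1, η))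
      ((fderiv ℝ f P).comp (ContinuousLinearMap.inr ℝ (Eu m) (Eu m))) P.2 :=
    HasFDerivAt.comp P.2 (g := f) (f := fun η => (P.1, η)) (by exact hf.hasFDerivAt)
      (hasFDerivAt_prodMk_right P.1 P.2)
  have h5 : v.2 = 0 := by
    apply h
    rw [h4.fderiv]
    have h6 : v = (0, v.2) := Prod.ext h2 rfl
    rw [h6] at h3
    exact h3
  exact Prod.ext h2 h5

lemma fderiv_Rh_inj {X : Eu m} (hX : X ≠ 0) {η v : Eu m} (hρ : ⟪nz X, η⟫ ≠ 0)
    (hq : W.G (nz X) (orth (nz X) η) (orth (nz X) η) < Real.pi ^ 2)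
    (h : fderiv ℝ (fun η => Rh W (X, η)) η v = 0) : v = 0 := by
  have hM := met W (nz X) (norm_nz hX)
  refine hM.fderiv_RP_inj hρ hq ?_
  have h1 : (fun η => Rh W (X, η)) = RP (nz X) (W.G (nz X)) := by
    ext1 η
    rw [Rh, G_nz hX]
  rw [h1] at h
  exact h

lemma hasFDerivAt_Eh {X : Eu m} (hX : X ≠ 0) (η : Eu m) (v : Eu m) :
    fderiv ℝ (fun η => Eh W (X, η)) η v = ⟪nz X, v⟫ • W.Lam (nz X, orth (nz X) η) +
      ⟪nz X, η⟫ • DL W (nz X) (orth (nz X) η) (orth (nz X) v) := by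
  have hx := norm_nz hX
  have hd : DifferentiableAt ℝ (fun η => Eh W (X, η)) η := by
    have h1 := (contDiffAt_Eh (W := W) (P := (X, η)) hX).differentiableAt (by simp)
    exact h1.comp η (by fun_prop)
  have hl : HasDerivAt (fun t : ℝ => η + t • v) v 0 := by
    simpa using ((hasDerivAt_id (0 : ℝ)).smul_const v).const_add η
  have h1 : HasDerivAt (fun t : ℝ => Eh W (X, η + t • v))
      (fderiv ℝ (fun η => Eh W (X, η)) η v) 0 := by
    have h2 : HasFDerivAt (fun η => Eh W (X, η)) (fderiv ℝ (fun η => Eh W (X, η)) η)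
        (η + (0 : ℝ) • v) := by rw [zero_smul, add_zero]; exact hd.hasFDerivAt
    exact h2.comp_hasDerivAt (0 : ℝ) hl
  have h2 : HasDerivAt (fun t : ℝ => ⟪nz X, η + t • v⟫) ⟪nz X, v⟫ 0 := hasDerivAt_inner_const _ hl
  have h3 := hasDerivAt_Lam_line (W := W) hx (orth (nz X) η) (orth (nz X) v)
  have h4 := h2.smul h3
  have h5 : (fun t : ℝ => Eh W (X, η + t • v)) =
      fun t : ℝ => ⟪nz X, η + t • v⟫ • W.Lam (nz X, orth (nz X) η + t • orth (nz X) v) := by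
    ext1 t
    rw [Eh]
    simp only [orth_add, orth_smul]
  rw [h5] at h1
  have h6 := h1.unique h4
  simp only [zero_smul, add_zero] at h6
  rw [h6, add_comm]

lemma fderiv_Eh_inj {X : Eu m} (hX : X ≠ 0) {η v : Eu m} (hρ : ⟪nz X, η⟫ ≠ 0)
    (hq : W.G (nz X) (orth (nz X) η) (orth (nz X) η) < Real.pi ^ 2)
    (h : fderiv ℝ (fun η => Eh W (X, η)) η v = 0) : v = 0 := by
  have hx := norm_nz hX
  rw [hasFDerivAt_Eh hX] at h
  set x := nz X
  have hw : ⟪x, orth x η⟫ = 0 := inner_orth hx η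
  have hu : ⟪x, orth x v⟫ = 0 := inner_orth hx v
  have h1 : ⟪x, v⟫ = 0 := by
    have h2 := congrArg (fun y => ⟪W.Lam (x, orth x η), y⟫) h
    simp only [inner_add_right, inner_smul_right, DL_orth hx hw hu, inner_zero_right,
      real_inner_self_eq_norm_sq, W.norm_Lam x _ hx hw] at h2
    linarith
  rw [h1, zero_smul, zero_add] at h
  have h2 : DL W x (orth x η) (orth x v) = 0 := (smul_eq_zero.1 h).resolve_left hρ
  have h3 := W.nonconj x (orth x η) (orth x v) hx hw hu hq h2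
  rw [← decomp x v, h1, h3]; simp

/-- smoothness of `E` -/
lemma contDiffAt_E (hm : 2 ≤ m) {X ξ : Eu m} (hX : X ≠ 0) (hξ : ξ ≠ 0) :
    ContDiffAt ℝ ∞ (fun P : Eu m × Eu m => E W (nz P.1) P.2) (X, ξ) := by
  have hx := norm_nz hX
  have main : ∀ ξ : Eu m, (∀ r : ℝ, 0 ≤ r → ξ ≠ -(r • nz X)) →
      ContDiffAt ℝ ∞ (fun P : Eu m × Eu m => E W (nz P.1) P.2) (X, ξ) := by
    intro ξ hneg
    obtain ⟨ρ, w, hρ, hw, hq, hξ⟩ := (met W (nz X) hx).exists_RP hneg
    obtain ⟨o1, o2⟩ := orth_smul_self hx ρ hw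
    set η := ρ • nz X + w with hη
    have e1 : Rh W (X, η) = ξ := by
      rw [Rh, G_nz hX]
      simp only
      rw [hη, RP_add _ hx hw, hξ]
    have hf : ContDiffAt ℝ ∞ (fun Q : Eu m × Eu m => (Q.1, Rh W Q)) (X, η) :=
      contDiffAt_fst.prodMk (contDiffAt_Rh (P := (X, η)) hX)
    have hinj := inj_pair (f := Rh W) (P := (X, η))
      ((contDiffAt_Rh (W := W) (P := (X, η)) hX).differentiableAt (by simp))
      (fun v hv => fderiv_Rh_inj (W := W) hX (η := η) (by rw [o2]; exact hρ.ne')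
        (by rw [o1]; exact hq) hv)
    have hg : ContDiffAt ℝ ∞ (fun Q : Eu m × Eu m =>
        (fun P : Eu m × Eu m => E W (nz P.1) P.2) ((fun Q : Eu m × Eu m => (Q.1, Rh W Q)) Q))
        (X, η) := by
      refine (contDiffAt_Eh (W := W) (P := (X, η)) hX).congr_of_eventuallyEq ?_
      have : ∀ᶠ Q : Eu m × Eu m in 𝓝 (X, η), Q.1 ≠ 0 :=
        (continuous_fst.tendsto (X, η)).eventually_ne hX
      filter_upwards [this] with Q hQ
      exact E_Rh hm hQ Q.2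
    have := contDiffAt_of_comp (g := fun P : Eu m × Eu m => E W (nz P.1) P.2) hf hinj rfl hg
    simp only [e1] at this
    exact this
  by_cases hneg : ∀ r : ℝ, 0 ≤ r → ξ ≠ -(r • nz X)
  · exact main ξ hneg
  · push Not at hneg
    obtain ⟨r, hr, hr2⟩ := hneg
    have h1 := main (-ξ) (by
      intro s hs hcon
      apply hξ
      have h2 : (r + s) • nz X = 0 := by
        rw [hr2, neg_neg] at hcon
        rw [add_smul, hcon]; simp
      rcases smul_eq_zero.1 h2 with h3 | h3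
      · have : r = 0 := by linarith
        rw [hr2, this]; simp
      · exact absurd h3 (ne_of_unit hx))
    have h2 : ContDiffAt ℝ ∞ (fun P : Eu m × Eu m => -(fun P : Eu m × Eu m => E W (nz P.1) P.2)
        (P.1, -P.2)) (X, ξ) := by
      apply ContDiffAt.neg
      have h3 : ContDiffAt ℝ ∞ (fun P : Eu m × Eu m => (P.1, -P.2)) (X, ξ) :=
        contDiffAt_fst.prodMk contDiffAt_snd.neg
      exact ContDiffAt.comp (X, ξ) (by exact h1) h3
    refine h2.congr_of_eventuallyEq ?_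
    have : ∀ᶠ Q : Eu m × Eu m in 𝓝 (X, ξ), Q.1 ≠ 0 :=
      (continuous_fst.tendsto (X, ξ)).eventually_ne hX
    filter_upwards [this] with Q hQ
    have h4 := E_smul (W := W) hm (norm_nz hQ) (-1) Q.2
    rw [neg_one_smul, neg_one_smul] at h4
    rw [h4, neg_neg]

/-- every vector off the negative axis is in the image of `Eh` -/
lemma exists_Eh {X Y : Eu m} (hX : X ≠ 0) (hY : Y ≠ 0) (hneg : nz Y ≠ -nz X) :
    ∃ w, ⟪nz X, w⟫ = 0 ∧ W.G (nz X) w w < Real.pi ^ 2 ∧ Eh W (X, ‖Y‖ • nz X + w) = Y := by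
  have hx := norm_nz hX
  obtain ⟨w, hw1, hw2, hw3⟩ := W.surj (nz X) (nz Y) hx (norm_nz hY) hneg
  refine ⟨w, hw1, hw2, ?_⟩
  obtain ⟨o1, o2⟩ := orth_smul_self hx ‖Y‖ hw1
  rw [Eh]
  simp only
  rw [o1, o2, hw3, norm_smul_nz]

lemma neg_ne_of_ne {X Y : Eu m} (hX : X ≠ 0) (h : nz Y = -nz X) : nz (-Y) ≠ -nz X := by
  rw [nz_neg, h, neg_neg]
  intro h1
  have h2 : (2 : ℝ) • nz X = 0 := by rw [two_smul]; nth_rw 1 [h1]; simp
  exact ne_of_unit (norm_nz hX) ((smul_eq_zero.1 h2).resolve_left two_ne_zero)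

/-- smoothness of `Z` -/
lemma contDiffAt_Z (hm : 2 ≤ m) {X Y : Eu m} (hX : X ≠ 0) (hY : Y ≠ 0) :
    ContDiffAt ℝ ∞ (fun P : Eu m × Eu m => Z W (nz P.1) P.2) (X, Y) := by
  have hx := norm_nz hX
  have main : ∀ Y : Eu m, Y ≠ 0 → nz Y ≠ -nz X →
      ContDiffAt ℝ ∞ (fun P : Eu m × Eu m => Z W (nz P.1) P.2) (X, Y) := by
    intro Y hY hneg
    obtain ⟨w, hw, hq, hYw⟩ := exists_Eh (W := W) hX hY hneg
    obtain ⟨o1, o2⟩ := orth_smul_self hx ‖Y‖ hw
    set η := ‖Y‖ • nz X + w with hη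
    have hf : ContDiffAt ℝ ∞ (fun Q : Eu m × Eu m => (Q.1, Eh W Q)) (X, η) :=
      contDiffAt_fst.prodMk (contDiffAt_Eh (P := (X, η)) hX)
    have hinj := inj_pair (f := Eh W) (P := (X, η))
      ((contDiffAt_Eh (W := W) (P := (X, η)) hX).differentiableAt (by simp))
      (fun v hv => fderiv_Eh_inj (W := W) hX (η := η) (by rw [o2]; exact norm_ne_zero_iff.2 hY)
        (by rw [o1]; exact hq) hv)
    have hg : ContDiffAt ℝ ∞ (fun Q : Eu m × Eu m =>
        (fun P : Eu m × Eu m => Z W (nz P.1) P.2) ((fun Q : Eu m × Eu m => (Q.1, Eh W Q)) Q))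
        (X, η) := by
      refine (contDiffAt_Rh (W := W) (P := (X, η)) hX).congr_of_eventuallyEq ?_
      have : ∀ᶠ Q : Eu m × Eu m in 𝓝 (X, η), Q.1 ≠ 0 :=
        (continuous_fst.tendsto (X, η)).eventually_ne hX
      filter_upwards [this] with Q hQ
      exact Z_Eh hm hQ Q.2
    have := contDiffAt_of_comp (g := fun P : Eu m × Eu m => Z W (nz P.1) P.2) hf hinj rfl hg
    simp only [hYw] at this
    exact this
  by_cases hneg : nz Y = -nz X
  · have h1 := main (-Y) (neg_ne_zero.2 hY) (neg_ne_of_ne hX hneg)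
    have h2 : ContDiffAt ℝ ∞ (fun P : Eu m × Eu m => -(fun P : Eu m × Eu m => Z W (nz P.1) P.2)
        (P.1, -P.2)) (X, Y) := by
      apply ContDiffAt.neg
      have h3 : ContDiffAt ℝ ∞ (fun P : Eu m × Eu m => (P.1, -P.2)) (X, Y) :=
        contDiffAt_fst.prodMk contDiffAt_snd.neg
      exact ContDiffAt.comp (X, Y) (by exact h1) h3
    refine h2.congr_of_eventuallyEq ?_
    have : ∀ᶠ Q : Eu m × Eu m in 𝓝 (X, Y), Q.1 ≠ 0 :=
      (continuous_fst.tendsto (X, Y)).eventually_ne hX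
    filter_upwards [this] with Q hQ
    have h4 := Z_smul (W := W) hm (norm_nz hQ) (-1) Q.2
    rw [neg_one_smul, neg_one_smul] at h4
    rw [h4, neg_neg]
  · exact main Y hY hneg

lemma contDiffAt_Fn (hm : 2 ≤ m) {X Y : Eu m} (hX : X ≠ 0) (hY : Y ≠ 0) :
    ContDiffAt ℝ ∞ (Fn W) (X, Y) :=
  contDiffAt_fst.inner ℝ (contDiffAt_Z hm hX hY)

/-- derivative of `Z X` is injective -/
lemma inj (hm : 2 ≤ m) (X Y : Eu m) (hX : X ≠ 0) (hY : Y ≠ 0) :
    Function.Injective (fderiv ℝ (fun Y => Z W (nz X) Y) Y) := by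
  have hx := norm_nz hX
  have hdiff : ∀ Y : Eu m, Y ≠ 0 → DifferentiableAt ℝ (fun Y => Z W (nz X) Y) Y := by
    intro Y hY
    have h1 := (contDiffAt_Z (W := W) hm hX hY).differentiableAt (by simp)
    exact DifferentiableAt.comp Y (g := fun P : Eu m × Eu m => Z W (nz P.1) P.2)
      (f := fun Y => (X, Y)) h1 (by fun_prop)
  have main : ∀ Y : Eu m, Y ≠ 0 → nz Y ≠ -nz X →
      ∀ v, fderiv ℝ (fun Y => Z W (nz X) Y) Y v = 0 → v = 0 := by
    intro Y hY hneg v hv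
    obtain ⟨w, hw, hq, hYw⟩ := exists_Eh (W := W) hX hY hneg
    obtain ⟨o1, o2⟩ := orth_smul_self hx ‖Y‖ hw
    set η := ‖Y‖ • nz X + w with hη
    have hE : DifferentiableAt ℝ (fun η => Eh W (X, η)) η := by
      have h1 := (contDiffAt_Eh (W := W) (P := (X, η)) hX).differentiableAt (by simp)
      exact h1.comp η (by fun_prop)
    have hρ : ⟪nz X, η⟫ ≠ 0 := by rw [o2]; exact norm_ne_zero_iff.2 hY
    have hq' : W.G (nz X) (orth (nz X) η) (orth (nz X) η) < Real.pi ^ 2 := by rw [o1]; exact hq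
    -- the derivative of `Eh` is surjective
    have hEi : Function.Injective (fderiv ℝ (fun η => Eh W (X, η)) η) := by
      intro a b hab
      rw [← sub_eq_zero]
      refine fderiv_Eh_inj hX hρ hq' ?_
      rw [map_sub, hab, sub_self]
    have hEs : Function.Surjective (fderiv ℝ (fun η => Eh W (X, η)) η) :=
      (LinearMap.injective_iff_surjective (f := (fderiv ℝ (fun η => Eh W (X, η)) η).toLinearMap)).1 hEi
    obtain ⟨u, hu⟩ := hEs v
    have hcomp : (fun η => Z W (nz X) (Eh W (X, η))) = fun η => Rh W (X, η) := by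
      ext1 η; exact Z_Eh hm hX η
    have hZ : HasFDerivAt (fun Y => Z W (nz X) Y) (fderiv ℝ (fun Y => Z W (nz X) Y) Y)
        (Eh W (X, η)) := by rw [hYw]; exact (hdiff Y hY).hasFDerivAt
    have h2 := (hZ.comp η hE.hasFDerivAt).fderiv
    have h3 : fderiv ℝ (fun η => Rh W (X, η)) η u = 0 := by
      rw [← hcomp]
      have h4 : fderiv ℝ (fun η => Z W (nz X) (Eh W (X, η))) η =
        (fderiv ℝ (fun Y => Z W (nz X) Y) Y).comp (fderiv ℝ (fun η => Eh W (X, η)) η) := h2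
      rw [h4, ContinuousLinearMap.comp_apply, hu, hv]
    have h5 : u = 0 := fderiv_Rh_inj hX hρ hq' h3
    rw [← hu, h5, map_zero]
  have key : ∀ v, fderiv ℝ (fun Y => Z W (nz X) Y) Y v = 0 → v = 0 := by
    by_cases hneg : nz Y = -nz X
    · intro v hv
      have hY' : -Y ≠ 0 := neg_ne_zero.2 hY
      refine main (-Y) hY' (neg_ne_of_ne hX hneg) v ?_
      have h1 : (fun Y => Z W (nz X) Y) = fun Y => -Z W (nz X) (-Y) := by
        ext1 Y
        have h4 := Z_smul (W := W) hm hx (-1) Y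
        rw [neg_one_smul, neg_one_smul] at h4
        rw [h4, neg_neg]
      have hd := (hdiff (-Y) hY').hasFDerivAt
      have h2 : HasFDerivAt (fun Y => -Z W (nz X) (-Y))
          (-((fderiv ℝ (fun Y => Z W (nz X) Y) (-Y)).comp (-ContinuousLinearMap.id ℝ (Eu m)))) Y :=
        (HasFDerivAt.comp Y (g := fun Y => Z W (nz X) Y) (f := fun Y => -Y) hd
          (hasFDerivAt_id Y).neg).neg
      rw [← h1] at h2
      rw [h2.fderiv] at hv
      simpa using hv
    · exact main Y hY hneg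
  intro a b hab
  rw [← sub_eq_zero]
  exact key _ (by rw [map_sub, hab, sub_self])

end Crest.Agent.R208.GW
end
end

-- ▼ part R208/GW4
section

/-!
R208, block GW (helper499), file 4: the first variation `∂F/∂X = G_X (Z X Y, ·)`.
-/

set_option autoImplicit false

open scoped RealInnerProductSpace ContDiff Topology
open Complex (arg)
open Filter

noncomputable section

namespace Crest.Agent.R208.GW

open Crest.Agent.R208.JT Crest.Agent.R208.GH

variable {m : ℕ} {W : WS m}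

lemma exists_fr_smul (hm : 2 ≤ m) {y w : Eu m} (hy : ‖y‖ = 1) (hw : ⟪y, w⟫ = 0) :
    ∃ (e : Eu m) (s : ℝ), Fr W y e ∧ 0 ≤ s ∧ w = s • e := by
  by_cases h0 : w = 0
  · obtain ⟨e, he⟩ := exists_Fr W hm hy
    exact ⟨e, 0, he, le_rfl, by rw [h0, zero_smul]⟩
  · obtain ⟨h1, h2, -⟩ := Fr.mk' (W := W) hy hw h0
    exact ⟨_, _, h1, h2.le, by rw [smul_smul, mul_inv_cancel₀ h2.ne', one_smul]⟩

lemma Fr.DL_self {y e : Eu m} (h : Fr W y e) (s : ℝ) :
    DL W y (s • e) (s • e) = s • W.Vel y e s := by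
  have h1 := hasDerivAt_Lam_line (W := W) h.unit (s • e) (s • e)
  have h2 : (fun t : ℝ => W.Lam (y, s • e + t • s • e)) = fun t : ℝ => gam W y e (s + t * s) := by
    ext1 t
    rw [gam, add_smul, smul_smul]
  rw [h2] at h1
  have h3 : HasDerivAt (fun t : ℝ => s + t * s) s 0 := by
    simpa using ((hasDerivAt_id (0 : ℝ)).mul_const s).const_add s
  have h4 : HasDerivAt (gam W y e) (W.Vel y e s) (s + 0 * s) := by
    rw [zero_mul, add_zero]; exact h.hasDeriv s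
  exact h1.unique (HasDerivAt.scomp (h := fun t : ℝ => s + t * s) (0 : ℝ) h4 h3)

/-- `Z` does not change if the base point is replaced by its antipode -/
lemma Z_neg_left (hm : 2 ≤ m) {x : Eu m} (hx : ‖x‖ = 1) (Y : Eu m) : Z W (-x) Y = Z W x Y := by
  obtain ⟨v, ζ, h, -, rfl⟩ := exists_Pl (W := W) hm hx Y
  have h1 := h.Pl_move' Real.pi ζ
  have h2 : W.Vel x v Real.pi = -v := by
    have := h.vel_add_pi 0
    rw [zero_add, h.vel_zero] at this
    exact this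
  have h3 := h.move Real.pi
  rw [h.half, h2] at h1 h3
  have h4 : Complex.exp (-(Real.pi * Complex.I)) * ζ = -ζ := by
    rw [Complex.exp_neg, Complex.exp_pi_mul_I]
    norm_num
  rw [h4] at h1
  conv_lhs => rw [h1]
  rw [Z_frame h3, Z_frame h]
  simp

lemma hasDerivAt_Fn_left (hm : 2 ≤ m) {X Y : Eu m} (hX : X ≠ 0) (hY : Y ≠ 0) {c : ℝ → Eu m}
    {δ : Eu m} (hc : HasDerivAt c δ 0) (hc0 : c 0 = X) :
    HasDerivAt (fun t => Fn W (c t, Y)) (fderiv ℝ (Fn W) (X, Y) (δ, 0)) 0 := by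
  have h1 : HasFDerivAt (Fn W) (fderiv ℝ (Fn W) (X, Y)) (c 0, Y) := by
    rw [hc0]
    exact ((contDiffAt_Fn hm hX hY).differentiableAt (by simp)).hasFDerivAt
  have h2 : HasDerivAt (fun t => (c t, Y)) (δ, (0 : Eu m)) 0 := hc.prodMk (hasDerivAt_const _ _)
  exact HasFDerivAt.comp_hasDerivAt (f := fun t => (c t, Y)) (0 : ℝ) h1 h2

theorem grad (hm : 2 ≤ m) (X Y δ : Eu m) (hX : X ≠ 0) (hY : Y ≠ 0) :
    fderiv ℝ (Fn W) (X, Y) (δ, 0) = W.G X (Z W (nz X) Y) δ := by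
  have main : ∀ X : Eu m, X ≠ 0 → nz X ≠ -nz Y →
      fderiv ℝ (Fn W) (X, Y) (δ, 0) = W.G X (Z W (nz X) Y) δ := by
    intro X hX hneg
    have hy := norm_nz hY
    have hρ0 : ‖X‖ ≠ 0 := norm_ne_zero_iff.2 hX
    obtain ⟨w, hw, hq, hXw⟩ := exists_Eh (W := W) hY hX hneg
    obtain ⟨o1, o2⟩ := orth_smul_self hy ‖X‖ hw
    set ρ := ‖X‖ with hρ
    set y := nz Y with hyd
    set η := ρ • y + w with hη
    set r := ‖Y‖ with hr
    have hYr : Y = r • y := (norm_smul_nz Y).symm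
    have hM := met W y hy
    -- the derivative of `Eh` is surjective
    have hEd : DifferentiableAt ℝ (fun η => Eh W (Y, η)) η := by
      have h1 := (contDiffAt_Eh (W := W) (P := (Y, η)) hY).differentiableAt (by simp)
      exact h1.comp η (by fun_prop)
    have hEi : Function.Injective (fderiv ℝ (fun η => Eh W (Y, η)) η) := by
      intro a b hab
      rw [← sub_eq_zero]
      refine fderiv_Eh_inj hY (by rw [o2]; exact hρ0) (by rw [o1]; exact hq) ?_
      rw [map_sub, hab, sub_self]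
    have hEs : Function.Surjective (fderiv ℝ (fun η => Eh W (Y, η)) η) :=
      (LinearMap.injective_iff_surjective (f := (fderiv ℝ (fun η => Eh W (Y, η)) η).toLinearMap)).1 hEi
    obtain ⟨v, hv⟩ := hEs δ
    -- the curve
    have hl : HasDerivAt (fun t : ℝ => η + t • v) v 0 := by
      simpa using ((hasDerivAt_id (0 : ℝ)).smul_const v).const_add η
    have hc : HasDerivAt (fun t : ℝ => Eh W (Y, η + t • v)) δ 0 := by
      have h2 : HasFDerivAt (fun η => Eh W (Y, η)) (fderiv ℝ (fun η => Eh W (Y, η)) η)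
          (η + (0 : ℝ) • v) := by rw [zero_smul, add_zero]; exact hEd.hasFDerivAt
      have h3 := HasFDerivAt.comp_hasDerivAt (l := fun η => Eh W (Y, η))
        (f := fun t : ℝ => η + t • v) (0 : ℝ) h2 hl
      rw [hv] at h3
      exact h3
    have h1 := hasDerivAt_Fn_left (W := W) hm hX hY hc (by simpa using hXw)
    -- the function along the curve
    have h2 : (fun t : ℝ => Fn W (Eh W (Y, η + t • v), Y)) = fun t : ℝ =>
        r * (⟪y, η + t • v⟫ * Cs (W.G y (w + t • orth y v) (w + t • orth y v))) := by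
      ext1 t
      rw [Fn_comm hm, Fn]
      simp only
      rw [← hyd, Z_Eh hm hY, Rh, G_nz hY]
      simp only
      rw [← hyd]
      conv_lhs => rw [hYr]
      rw [inner_smul_left, hM.inner_RP, orth_add, o1, orth_smul]
      simp
    rw [h2] at h1
    have h3 : HasDerivAt (fun t : ℝ => ⟪y, η + t • v⟫) ⟪y, v⟫ 0 := hasDerivAt_inner_const _ hl
    have hw' : HasDerivAt (fun t : ℝ => w + t • orth y v) (orth y v) 0 := by
      simpa using ((hasDerivAt_id (0 : ℝ)).smul_const (orth y v)).const_add w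
    have h4 := hasDerivAt_quad (W.G y) hw'
    have h5 : HasDerivAt Cs (deriv Cs (W.G y w w))
        (W.G y (w + (0 : ℝ) • orth y v) (w + (0 : ℝ) • orth y v)) := by
      rw [zero_smul, add_zero]
      exact (contDiff_Cs.differentiable (by simp) _).hasDerivAt
    have h6 := (h3.mul (HasDerivAt.scomp (h := fun t : ℝ =>
      W.G y (w + t • orth y v) (w + t • orth y v)) (0 : ℝ) h5 h4)).const_mul r
    have h7 := h1.unique h6
    rw [h7]
    -- the other side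
    have hδ : δ = ⟪y, v⟫ • W.Lam (y, w) + ρ • DL W y w (orth y v) := by
      rw [← hv, hasFDerivAt_Eh hY, ← hyd, o1, o2]
    have hu : ⟪y, orth y v⟫ = 0 := inner_orth hy v
    obtain ⟨e, s, hF, hs, hws⟩ := exists_fr_smul (W := W) hm hy hw
    have hXn : nz X = gam W y e s := by
      have e1 : X = ρ • W.Lam (y, w) := by
        rw [← hXw, Eh]
        simp only
        rw [← hyd, o1, o2]
      rw [e1, nz_smul (norm_pos_iff.2 hX), nz_of_unit (W.norm_Lam y w hy hw), gam, hws]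
    have hZ : Z W (nz X) Y = (r * Real.cos s) • gam W y e s + (-(r * Real.sin s)) • W.Vel y e s := by
      rw [hXn]
      have e1 : Y = Pl W y e (r : ℝ) := by rw [hF.Pl_ofReal, ← hYr]
      conv_lhs => rw [e1, hF.Pl_move' s]
      rw [Z_frame (hF.move s)]
      have e2 : -((s : ℂ) * Complex.I) = ((-s : ℝ) : ℂ) * Complex.I := by push_cast; ring
      rw [e2, Complex.re_mul_ofReal, Complex.im_mul_ofReal, Complex.exp_ofReal_mul_I_re,
        Complex.exp_ofReal_mul_I_im, Real.cos_neg, Real.sin_neg]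
      congr 1
      · congr 1; ring
      · congr 1; ring
    have hz : W.Lam (y, w) = gam W y e s := by rw [gam, hws]
    have hGX : W.G X = W.G (gam W y e s) := by rw [G_nz hX, hXn]
    have hMz := met W (gam W y e s) (hF.norm_gam s)
    have g1 : W.G (gam W y e s) (gam W y e s) (gam W y e s) = 1 := hMz.self
    have g2 : W.G (gam W y e s) (gam W y e s) (DL W y w (orth y v)) = 0 := by
      rw [hMz.rad, ← hz, DL_orth hy hw hu]
    have g3 : W.G (gam W y e s) (W.Vel y e s) (gam W y e s) = 0 := by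
      rw [hMz.symm, hMz.rad, hF.vel_orth]
    have g4 : s * W.G (gam W y e s) (W.Vel y e s) (DL W y w (orth y v)) = W.G y w (orth y v) := by
      have e1 := W.gauss y w (orth y v) hy hw hu
      have e2 : fderiv ℝ W.Lam (y, w) (0, w) = s • W.Vel y e s := by
        have := hF.DL_self s
        rw [← hws] at this
        exact this
      rw [e2, hz] at e1
      rw [← e1]
      simp only [map_smul, _root_.smul_apply, smul_eq_mul]
      rfl
    have g5 : W.G y w w = s ^ 2 := by rw [hws, hF.G_smul]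
    have g6 : W.G y w (orth y v) = W.G y (orth y v) w := hM.symm _ _
    have g7 : deriv Cs (s ^ 2) * (2 * W.G y w (orth y v)) = -(Sn (s ^ 2)) * W.G y w (orth y v) := by
      rcases hs.eq_or_lt with h0 | h0
      · have : w = 0 := by rw [hws, ← h0, zero_smul]
        rw [this]; simp
      · rw [deriv_Cs (by positivity)]; ring
    rw [hGX, hZ, hδ, hz]
    simp only [Function.comp_apply, zero_smul, add_zero, g5]
    simp only [map_add, map_smul, _root_.add_apply, _root_.smul_apply, smul_eq_mul, g1, g2, g3,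
      o2, ← g6, Cs_sq]
    have g8 : Real.sin s * W.G (gam W y e s) (W.Vel y e s) (DL W y w (orth y v))
        = Sn (s ^ 2) * W.G y w (orth y v) := by
      rw [← Sn_sq, ← g4]; ring
    have g9 : (W.G y w (orth y v) + W.G y w (orth y v)) * deriv Cs (s ^ 2)
      = -(Sn (s ^ 2)) * W.G y w (orth y v) := by rw [← g7]; ring
    rw [g9]
    linear_combination (r * ρ) * g8
  by_cases hneg : nz X = -nz Y
  · have hX' : -X ≠ 0 := neg_ne_zero.2 hX
    have h1 := main (-X) hX' (by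
      rw [nz_neg, hneg, neg_neg]
      intro h
      have h2 : (2 : ℝ) • nz Y = 0 := by rw [two_smul]; nth_rw 1 [h]; simp
      exact ne_of_unit (norm_nz hY) ((smul_eq_zero.1 h2).resolve_left two_ne_zero))
    have hl : HasDerivAt (fun t : ℝ => X + t • δ) δ 0 := by
      simpa using ((hasDerivAt_id (0 : ℝ)).smul_const δ).const_add X
    have hl' : HasDerivAt (fun t : ℝ => -(X + t • δ)) (-δ) 0 := hl.neg
    have h2 := hasDerivAt_Fn_left (W := W) hm hX hY hl (by simp)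
    have h3 := hasDerivAt_Fn_left (W := W) hm hX' hY hl' (by simp)
    have h4 : (fun t : ℝ => Fn W (-(X + t • δ), Y)) = fun t : ℝ => -Fn W (X + t • δ, Y) := by
      ext1 t
      have := Fn_smul (W := W) hm (-1) (X + t • δ) Y
      rw [neg_one_smul] at this
      rw [this]; ring
    rw [h4] at h3
    have h5 := h3.unique h2.neg
    have h6 : fderiv ℝ (Fn W) (-X, Y) (-δ, 0) = -fderiv ℝ (Fn W) (-X, Y) (δ, 0) := by
      rw [← map_neg]; simp
    rw [h6] at h5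
    have h7 := neg_injective h5
    rw [← h7, h1, nz_neg, Z_neg_left hm (norm_nz hX), W.G_neg]
  · exact main X hX hneg

end Crest.Agent.R208.GW
end
end

-- ▼ part R208/GW5
section

/-!
R208, block GW (helper499), file 5: the sum `A` is Lipschitz; assembly of the join data.
-/

set_option autoImplicit false

open scoped RealInnerProductSpace ContDiff Topology NNReal
open Complex (arg)
open Filter

noncomputable section

namespace Crest.Agent.R208.GW

open Crest.Agent.R208.JT Crest.Agent.R208.GH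

variable {m : ℕ} {W : WS m}

/-- a map which is `C¹` near a compact set is Lipschitz on it -/
lemma lip_of_contDiffAt {E' F' : Type*} [NormedAddCommGroup E'] [NormedSpace ℝ E']
    [NormedAddCommGroup F'] [NormedSpace ℝ F'] {f : E' → F'} {s : Set E'} (hs : IsCompact s)
    (hf : ∀ x ∈ s, ContDiffAt ℝ ∞ f x) : ∃ L : ℝ, 0 ≤ L ∧ ∀ x ∈ s, ∀ y ∈ s,
      ‖f x - f y‖ ≤ L * ‖x - y‖ := by
  have h1 : LocallyLipschitzOn s f := by
    intro x hx
    obtain ⟨K, t, ht, hL⟩ := ((hf x hx).of_le (by simp : (1 : WithTop ℕ∞) ≤ ∞)).exists_lipschitzOnWith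
    exact ⟨K, t, mem_nhdsWithin_of_mem_nhds ht, hL⟩
  obtain ⟨K, hK⟩ := h1.exists_lipschitzOnWith_of_compact hs
  refine ⟨K, K.2, fun x hx y hy => ?_⟩
  have := hK.dist_le_mul x hx y hy
  rwa [dist_eq_norm, dist_eq_norm] at this

/-- homogeneous extension -/
lemma hom_lip {f : Eu m → Eu m → Eu m}
    (hom : ∀ x Y (r : ℝ), ‖x‖ = 1 → f x (r • Y) = r • f x Y) {L B : ℝ} (hL : 0 ≤ L) (hB : 0 ≤ B)
    (hf : ∀ x y x' y' : Eu m, ‖x‖ = 1 → ‖y‖ = 1 → ‖x'‖ = 1 → ‖y'‖ = 1 →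
      ‖f x y - f x' y'‖ ≤ L * (‖x - x'‖ + ‖y - y'‖))
    (hb : ∀ x y : Eu m, ‖x‖ = 1 → ‖y‖ = 1 → ‖f x y‖ ≤ B) {R : ℝ} (hR : 0 ≤ R) :
    ∀ x Y x' Y' : Eu m, ‖x‖ = 1 → ‖x'‖ = 1 → ‖Y'‖ ≤ R →
      ‖f x Y - f x' Y'‖ ≤ (B + 2 * L + L * R) * (‖x - x'‖ + ‖Y - Y'‖) := by
  intro x Y x' Y' hx hx' hY'R
  have h0 : ∀ x, ‖x‖ = 1 → f x 0 = 0 := by
    intro x hx
    have := hom x 0 0 hx
    simpa using this
  have hbY : ∀ x Y : Eu m, ‖x‖ = 1 → ‖f x Y‖ ≤ B * ‖Y‖ := by
    intro x Y hx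
    by_cases hY : Y = 0
    · rw [hY, h0 x hx]; simp
    · have h1 : f x Y = ‖Y‖ • f x (nz Y) := by rw [← hom x _ _ hx, norm_smul_nz]
      rw [h1, norm_smul, norm_norm, mul_comm]
      exact mul_le_mul_of_nonneg_right (hb x _ hx (norm_nz hY)) (norm_nonneg _)
  have hC : B ≤ B + 2 * L + L * R := by
    have := mul_nonneg hL hR
    linarith
  have hxx := norm_nonneg (x - x')
  have hYY := norm_nonneg (Y - Y')
  by_cases hY : Y = 0
  · rw [hY, h0 x hx, zero_sub, norm_neg, zero_sub, norm_neg]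
    calc ‖f x' Y'‖ ≤ B * ‖Y'‖ := hbY x' Y' hx'
      _ ≤ (B + 2 * L + L * R) * (‖x - x'‖ + ‖Y'‖) :=
        mul_le_mul hC (by linarith) (norm_nonneg _) (hB.trans hC)
  by_cases hY' : Y' = 0
  · rw [hY', h0 x' hx', sub_zero, sub_zero]
    calc ‖f x Y‖ ≤ B * ‖Y‖ := hbY x Y hx
      _ ≤ (B + 2 * L + L * R) * (‖x - x'‖ + ‖Y‖) :=
        mul_le_mul hC (by linarith) (norm_nonneg _) (hB.trans hC)
  have h1 : f x Y = ‖Y‖ • f x (nz Y) := by rw [← hom x _ _ hx, norm_smul_nz]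
  have h2 : f x' Y' = ‖Y'‖ • f x' (nz Y') := by rw [← hom x' _ _ hx', norm_smul_nz]
  have h3 : f x Y - f x' Y' = (‖Y‖ - ‖Y'‖) • f x (nz Y) + ‖Y'‖ • (f x (nz Y) - f x' (nz Y')) := by
    rw [h1, h2, sub_smul, smul_sub]; abel
  have h4 : |‖Y‖ - ‖Y'‖| ≤ ‖Y - Y'‖ := abs_norm_sub_norm_le Y Y'
  have h5 : ‖Y'‖ * ‖nz Y - nz Y'‖ ≤ 2 * ‖Y - Y'‖ := by
    have e1 : ‖Y'‖ * ‖nz Y - nz Y'‖ = ‖(‖Y'‖ - ‖Y‖) • nz Y + (Y - Y')‖ := by
      rw [← norm_norm Y', ← norm_smul]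
      simp only [norm_norm]
      congr 1
      rw [smul_sub, norm_smul_nz, sub_smul, norm_smul_nz]; abel
    rw [e1]
    refine (norm_add_le _ _).trans ?_
    rw [norm_smul, norm_nz hY, mul_one, Real.norm_eq_abs, abs_sub_comm]
    linarith
  have h6 := hf x (nz Y) x' (nz Y') hx (norm_nz hY) hx' (norm_nz hY')
  calc ‖f x Y - f x' Y'‖ ≤ ‖(‖Y‖ - ‖Y'‖) • f x (nz Y)‖ + ‖‖Y'‖ • (f x (nz Y) - f x' (nz Y'))‖ := by
        rw [h3]; exact norm_add_le _ _
    _ = |‖Y‖ - ‖Y'‖| * ‖f x (nz Y)‖ + ‖Y'‖ * ‖f x (nz Y) - f x' (nz Y')‖ := by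
        rw [norm_smul, norm_smul, norm_norm, Real.norm_eq_abs]
    _ ≤ ‖Y - Y'‖ * B + ‖Y'‖ * (L * (‖x - x'‖ + ‖nz Y - nz Y'‖)) := by
        refine add_le_add (mul_le_mul h4 (hb x _ hx (norm_nz hY)) (norm_nonneg _) hYY) ?_
        exact mul_le_mul_of_nonneg_left h6 (norm_nonneg _)
    _ = ‖Y - Y'‖ * B + L * (‖Y'‖ * ‖x - x'‖) + L * (‖Y'‖ * ‖nz Y - nz Y'‖) := by ring
    _ ≤ ‖Y - Y'‖ * B + L * (R * ‖x - x'‖) + L * (2 * ‖Y - Y'‖) := by
        gcongr
    _ ≤ (B + 2 * L + L * R) * (‖x - x'‖ + ‖Y - Y'‖) := by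
        have e1 := mul_nonneg hB hxx
        have e2 := mul_nonneg hL hxx
        have e3 := mul_nonneg (mul_nonneg hL hR) hYY
        nlinarith

lemma isCompact_pairs : IsCompact {P : Eu m × Eu m | ‖P.1‖ = 1 ∧ ‖P.2‖ = 1} := by
  have h1 : {P : Eu m × Eu m | ‖P.1‖ = 1 ∧ ‖P.2‖ = 1} =
      Metric.sphere (0 : Eu m) 1 ×ˢ Metric.sphere (0 : Eu m) 1 := by
    ext P; simp
  rw [h1]
  exact (isCompact_sphere _ _).prod (isCompact_sphere _ _)

/-- Lipschitz and bounded on pairs of unit vectors -/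
lemma lip_pairs {f : Eu m × Eu m → Eu m}
    (hf : ∀ x y : Eu m, ‖x‖ = 1 → ‖y‖ = 1 → ContDiffAt ℝ ∞ f (x, y)) :
    ∃ L B : ℝ, 0 ≤ L ∧ 0 ≤ B ∧ (∀ x y x' y' : Eu m, ‖x‖ = 1 → ‖y‖ = 1 → ‖x'‖ = 1 → ‖y'‖ = 1 →
      ‖f (x, y) - f (x', y')‖ ≤ L * (‖x - x'‖ + ‖y - y'‖)) ∧
      ∀ x y : Eu m, ‖x‖ = 1 → ‖y‖ = 1 → ‖f (x, y)‖ ≤ B := by
  obtain ⟨L, hL, h1⟩ := lip_of_contDiffAt (isCompact_pairs (m := m)) (f := f)
    (fun P hP => hf P.1 P.2 hP.1 hP.2)
  have hcont : ContinuousOn f {P : Eu m × Eu m | ‖P.1‖ = 1 ∧ ‖P.2‖ = 1} :=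
    fun P hP => (hf P.1 P.2 hP.1 hP.2).continuousAt.continuousWithinAt
  obtain ⟨B, hB⟩ := (isCompact_pairs (m := m)).exists_bound_of_continuousOn hcont
  refine ⟨L, max B 0, hL, le_max_right _ _, ?_, ?_⟩
  · intro x y x' y' hx hy hx' hy'
    refine (h1 (x, y) ⟨hx, hy⟩ (x', y') ⟨hx', hy'⟩).trans ?_
    refine mul_le_mul_of_nonneg_left ?_ hL
    rw [Prod.mk_sub_mk, Prod.norm_def]
    exact max_le (by simp) (by simp)
  · intro x y hx hy
    exact (hB (x, y) ⟨hx, hy⟩).trans (le_max_left _ _)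

lemma norm_A_le (hm : 2 ≤ m) (X Y : Eu m) : ‖A W X Y‖ ≤ ‖X‖ + ‖Y‖ := by
  obtain ⟨x, v, ξ, η, h, rfl, rfl⟩ := exists_pair W hm X Y
  rw [h.A_Pl, h.norm_Pl, h.norm_Pl, h.norm_Pl]
  exact norm_add_le _ _

lemma norm_Z_eq (hm : 2 ≤ m) : ∃ B : ℝ, 0 ≤ B ∧ ∀ x Y : Eu m, ‖x‖ = 1 → ‖Z W x Y‖ ≤ B * ‖Y‖ := by
  obtain ⟨L, B, hL, hB, h1, h2⟩ := lip_pairs (m := m)
    (f := fun P : Eu m × Eu m => Z W (nz P.1) P.2)
    (fun x y hx hy => contDiffAt_Z hm (ne_of_unit hx) (ne_of_unit hy))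
  refine ⟨B, hB, fun x Y hx => ?_⟩
  by_cases hY : Y = 0
  · rw [hY, Z_zero hm hx]; simp
  · have h3 : Z W x Y = ‖Y‖ • Z W x (nz Y) := by rw [← Z_smul hm hx, norm_smul_nz]
    rw [h3, norm_smul, norm_norm, mul_comm]
    have h4 := h2 x (nz Y) hx (norm_nz hY)
    simp only [nz_of_unit hx] at h4
    exact mul_le_mul_of_nonneg_right h4 (norm_nonneg _)

/-- the sum is Lipschitz for unit `x` and bounded `Y` -/
lemma lip_A_unit (hm : 2 ≤ m) : ∃ C : ℝ, 0 ≤ C ∧ ∀ x Y x' Y' : Eu m, ‖x‖ = 1 → ‖x'‖ = 1 →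
    ‖Y'‖ ≤ 1 → ‖A W x Y - A W x' Y'‖ ≤ C * (‖x - x'‖ + ‖Y - Y'‖) := by
  obtain ⟨L1, B1, hL1, hB1, h1, h2⟩ := lip_pairs (m := m)
    (f := fun P : Eu m × Eu m => Z W (nz P.1) P.2)
    (fun x y hx hy => contDiffAt_Z hm (ne_of_unit hx) (ne_of_unit hy))
  obtain ⟨L2, B2, hL2, hB2, h3, h4⟩ := lip_pairs (m := m)
    (f := fun P : Eu m × Eu m => E W (nz P.1) P.2)
    (fun x y hx hy => contDiffAt_E hm (ne_of_unit hx) (ne_of_unit hy))
  have hZ := hom_lip (m := m) (f := Z W) (fun x Y r hx => Z_smul hm hx r Y) hL1 hB1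
    (fun x y x' y' hx hy hx' hy' => by
      have := h1 x y x' y' hx hy hx' hy'
      simpa only [nz_of_unit hx, nz_of_unit hx'] using this)
    (fun x y hx hy => by simpa only [nz_of_unit hx] using h2 x y hx hy) zero_le_one
  obtain ⟨B, hB, hZb⟩ := norm_Z_eq (W := W) hm
  have hE := hom_lip (m := m) (f := E W) (fun x Y r hx => E_smul hm hx r Y) hL2 hB2
    (fun x y x' y' hx hy hx' hy' => by
      have := h3 x y x' y' hx hy hx' hy'
      simpa only [nz_of_unit hx, nz_of_unit hx'] using this)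
    (fun x y hx hy => by simpa only [nz_of_unit hx] using h4 x y hx hy)
    (R := 1 + B) (by linarith)
  set C1 := B1 + 2 * L1 + L1 * 1 with hC1
  set C2 := B2 + 2 * L2 + L2 * (1 + B) with hC2
  have hC1n : 0 ≤ C1 := by positivity
  have hC2n : 0 ≤ C2 := by positivity
  refine ⟨C2 * (2 + C1), by positivity, fun x Y x' Y' hx hx' hY' => ?_⟩
  rw [A, A, if_neg (ne_of_unit hx), if_neg (ne_of_unit hx'), nz_of_unit hx, nz_of_unit hx']
  have e1 : ‖x' + Z W x' Y'‖ ≤ 1 + B := by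
    refine (norm_add_le _ _).trans ?_
    rw [hx']
    have := hZb x' Y' hx'
    nlinarith
  have e2 := hE x (x + Z W x Y) x' (x' + Z W x' Y') hx hx' e1
  have e3 := hZ x Y x' Y' hx hx' hY'
  have e4 : ‖x + Z W x Y - (x' + Z W x' Y')‖ ≤ ‖x - x'‖ + ‖Z W x Y - Z W x' Y'‖ := by
    rw [add_sub_add_comm]; exact norm_add_le _ _
  have hn1 := norm_nonneg (x - x')
  have hn2 := norm_nonneg (Y - Y')
  refine e2.trans ?_
  rw [mul_assoc]
  refine mul_le_mul_of_nonneg_left ?_ hC2n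
  nlinarith

/-- Lipschitz on the cone `|Y| ≤ |X|` -/
lemma lip_A_cone (hm : 2 ≤ m) : ∃ C : ℝ, 0 ≤ C ∧ ∀ X Y X' Y' : Eu m, ‖Y‖ ≤ ‖X‖ → ‖Y'‖ ≤ ‖X'‖ →
    ‖A W X Y - A W X' Y'‖ ≤ C * (‖X - X'‖ + ‖Y - Y'‖) := by
  obtain ⟨C, hC, h⟩ := lip_A_unit (W := W) hm
  refine ⟨2 + 4 * C, by positivity, fun X Y X' Y' hXY hXY' => ?_⟩
  have hn1 := norm_nonneg (X - X')
  have hn2 := norm_nonneg (Y - Y')
  have hA0 : A W 0 0 = 0 := by rw [A, if_pos rfl]
  by_cases hX : X = 0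
  · have hY : Y = 0 := by rw [hX, norm_zero] at hXY; exact norm_le_zero_iff.1 hXY
    rw [hX, hY, hA0, zero_sub, norm_neg, zero_sub, norm_neg, zero_sub, norm_neg]
    refine (norm_A_le hm X' Y').trans ?_
    have := norm_nonneg X'
    have := norm_nonneg Y'
    nlinarith
  by_cases hX' : X' = 0
  · have hY : Y' = 0 := by rw [hX', norm_zero] at hXY'; exact norm_le_zero_iff.1 hXY'
    rw [hX', hY, hA0, sub_zero, sub_zero, sub_zero]
    refine (norm_A_le hm X Y).trans ?_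
    have := norm_nonneg X
    have := norm_nonneg Y
    nlinarith
  have hp : 0 < ‖X‖ := norm_pos_iff.2 hX
  have hp' : 0 < ‖X'‖ := norm_pos_iff.2 hX'
  have e1 : ∀ {X Y : Eu m}, X ≠ 0 → A W X Y = ‖X‖ • A W (nz X) (‖X‖⁻¹ • Y) := by
    intro X Y hX
    rw [← A_smul hm, norm_smul_nz, smul_smul, mul_inv_cancel₀ (norm_ne_zero_iff.2 hX), one_smul]
  have h3 : A W X Y - A W X' Y' = (‖X‖ - ‖X'‖) • A W (nz X) (‖X‖⁻¹ • Y) +
      ‖X'‖ • (A W (nz X) (‖X‖⁻¹ • Y) - A W (nz X') (‖X'‖⁻¹ • Y')) := by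
    rw [e1 hX, e1 hX', sub_smul, smul_sub]; abel
  have h4 : |‖X‖ - ‖X'‖| ≤ ‖X - X'‖ := abs_norm_sub_norm_le X X'
  have hb : ∀ {X Y : Eu m}, X ≠ 0 → ‖Y‖ ≤ ‖X‖ → ‖‖X‖⁻¹ • Y‖ ≤ 1 := by
    intro X Y hX h
    rw [norm_smul, norm_inv, norm_norm, inv_mul_le_iff₀ (norm_pos_iff.2 hX), mul_one]
    exact h
  have h5 : ‖A W (nz X) (‖X‖⁻¹ • Y)‖ ≤ 2 := by
    refine (norm_A_le hm _ _).trans ?_
    rw [norm_nz hX]
    linarith [hb hX hXY]
  have h6 := h (nz X) (‖X‖⁻¹ • Y) (nz X') (‖X'‖⁻¹ • Y') (norm_nz hX) (norm_nz hX') (hb hX' hXY')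
  have h7 : ‖X'‖ * ‖nz X - nz X'‖ ≤ 2 * ‖X - X'‖ := by
    have e1 : ‖X'‖ * ‖nz X - nz X'‖ = ‖(‖X'‖ - ‖X‖) • nz X + (X - X')‖ := by
      rw [← norm_norm X', ← norm_smul]
      simp only [norm_norm]
      congr 1
      rw [smul_sub, norm_smul_nz, sub_smul, norm_smul_nz]; abel
    rw [e1]
    refine (norm_add_le _ _).trans ?_
    rw [norm_smul, norm_nz hX, mul_one, Real.norm_eq_abs, abs_sub_comm]
    linarith
  have h8 : ‖X'‖ * ‖‖X‖⁻¹ • Y - ‖X'‖⁻¹ • Y'‖ ≤ ‖X - X'‖ + ‖Y - Y'‖ := by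
    have e1 : ‖X'‖ * ‖‖X‖⁻¹ • Y - ‖X'‖⁻¹ • Y'‖ = ‖(‖X'‖ - ‖X‖) • (‖X‖⁻¹ • Y) + (Y - Y')‖ := by
      rw [← norm_norm X', ← norm_smul]
      simp only [norm_norm]
      congr 1
      rw [smul_sub, smul_smul ‖X'‖ ‖X'‖⁻¹, mul_inv_cancel₀ hp'.ne', one_smul, sub_smul,
        smul_smul ‖X‖ ‖X‖⁻¹, mul_inv_cancel₀ hp.ne', one_smul]; abel
    rw [e1]
    refine (norm_add_le _ _).trans ?_
    rw [norm_smul, Real.norm_eq_abs, abs_sub_comm]
    have := mul_le_mul h4 (hb hX hXY) (norm_nonneg _) hn1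
    linarith
  calc ‖A W X Y - A W X' Y'‖
      ≤ |‖X‖ - ‖X'‖| * ‖A W (nz X) (‖X‖⁻¹ • Y)‖ +
        ‖X'‖ * ‖A W (nz X) (‖X‖⁻¹ • Y) - A W (nz X') (‖X'‖⁻¹ • Y')‖ := by
        rw [h3]
        refine (norm_add_le _ _).trans ?_
        rw [norm_smul, norm_smul, norm_norm, Real.norm_eq_abs]
    _ ≤ ‖X - X'‖ * 2 + ‖X'‖ * (C * (‖nz X - nz X'‖ + ‖‖X‖⁻¹ • Y - ‖X'‖⁻¹ • Y'‖)) := by
        refine add_le_add (mul_le_mul h4 h5 (norm_nonneg _) hn1) ?_
        exact mul_le_mul_of_nonneg_left h6 hp'.le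
    _ = ‖X - X'‖ * 2 + C * (‖X'‖ * ‖nz X - nz X'‖) + C * (‖X'‖ * ‖‖X‖⁻¹ • Y - ‖X'‖⁻¹ • Y'‖) := by
        ring
    _ ≤ ‖X - X'‖ * 2 + C * (2 * ‖X - X'‖) + C * (‖X - X'‖ + ‖Y - Y'‖) := by
        gcongr
    _ ≤ (2 + 4 * C) * (‖X - X'‖ + ‖Y - Y'‖) := by
        have e1 := mul_nonneg hC hn1
        have e2 := mul_nonneg hC hn2
        nlinarith

/-- the sum is Lipschitz -/
theorem lip (hm : 2 ≤ m) : ∃ C : ℝ≥0, LipschitzWith C fun P : Eu m × Eu m => A W P.1 P.2 := by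
  obtain ⟨C, hC, h⟩ := lip_A_cone (W := W) hm
  have h' : ∀ X Y X' Y' : Eu m, ‖X‖ ≤ ‖Y‖ → ‖X'‖ ≤ ‖Y'‖ →
      ‖A W X Y - A W X' Y'‖ ≤ C * (‖X - X'‖ + ‖Y - Y'‖) := by
    intro X Y X' Y' h1 h2
    rw [A_comm hm X Y, A_comm hm X' Y', add_comm]
    exact h Y X Y' X' h1 h2
  -- crossing
  have key : ∀ X Y X' Y' : Eu m, ‖Y‖ ≤ ‖X‖ → ‖X'‖ ≤ ‖Y'‖ →
      ‖A W X Y - A W X' Y'‖ ≤ C * (‖X - X'‖ + ‖Y - Y'‖) := by
    intro X Y X' Y' h1 h2
    have hcont : Continuous fun t : ℝ => ‖X + t • (X' - X)‖ - ‖Y + t • (Y' - Y)‖ := by fun_prop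
    have hivt := intermediate_value_Icc' (zero_le_one (α := ℝ)) hcont.continuousOn
    have h0 : (0 : ℝ) ∈ Set.Icc ((fun t : ℝ => ‖X + t • (X' - X)‖ - ‖Y + t • (Y' - Y)‖) 1)
        ((fun t : ℝ => ‖X + t • (X' - X)‖ - ‖Y + t • (Y' - Y)‖) 0) := by
      constructor <;> simp [h1, h2]
    obtain ⟨t, ⟨ht0, ht1⟩, ht⟩ := hivt h0
    have ht' : ‖X + t • (X' - X)‖ = ‖Y + t • (Y' - Y)‖ := sub_eq_zero.1 ht
    have e1 := h X Y (X + t • (X' - X)) (Y + t • (Y' - Y)) h1 ht'.ge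
    have e2 := h' (X + t • (X' - X)) (Y + t • (Y' - Y)) X' Y' ht'.le h2
    have n1 : ∀ U V : Eu m, ‖U - (U + t • (V - U))‖ = t * ‖U - V‖ := by
      intro U V
      have : U - (U + t • (V - U)) = t • (U - V) := by rw [smul_sub, smul_sub]; abel
      rw [this, norm_smul, Real.norm_eq_abs, abs_of_nonneg ht0]
    have n2 : ∀ U V : Eu m, ‖(U + t • (V - U)) - V‖ = (1 - t) * ‖U - V‖ := by
      intro U V
      have : (U + t • (V - U)) - V = (1 - t) • (U - V) := by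
        rw [sub_smul, one_smul, smul_sub, smul_sub]; abel
      rw [this, norm_smul, Real.norm_eq_abs, abs_of_nonneg (by linarith)]
    rw [n1, n1] at e1
    rw [n2, n2] at e2
    have e3 := norm_sub_le_norm_sub_add_norm_sub (A W X Y)
      (A W (X + t • (X' - X)) (Y + t • (Y' - Y))) (A W X' Y')
    calc _ ≤ _ := e3
      _ ≤ C * (t * ‖X - X'‖ + t * ‖Y - Y'‖) + C * ((1 - t) * ‖X - X'‖ + (1 - t) * ‖Y - Y'‖) :=
        add_le_add e1 e2
      _ = _ := by ring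
  refine ⟨Real.toNNReal (C * 2), LipschitzWith.of_dist_le_mul fun P Q => ?_⟩
  rw [dist_eq_norm, dist_eq_norm]
  have h1 : ‖P.1 - Q.1‖ ≤ ‖P - Q‖ := norm_fst_le (P - Q)
  have h2 : ‖P.2 - Q.2‖ ≤ ‖P - Q‖ := norm_snd_le (P - Q)
  have h3 : ‖A W P.1 P.2 - A W Q.1 Q.2‖ ≤ C * (‖P.1 - Q.1‖ + ‖P.2 - Q.2‖) := by
    rcases le_total ‖P.2‖ ‖P.1‖ with hP | hP
    · rcases le_total ‖Q.2‖ ‖Q.1‖ with hQ | hQ
      · exact h _ _ _ _ hP hQ
      · exact key _ _ _ _ hP hQ
    · rcases le_total ‖Q.2‖ ‖Q.1‖ with hQ | hQ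
      · have := key _ _ _ _ hQ hP
        rw [norm_sub_rev, norm_sub_rev P.1, norm_sub_rev P.2]
        exact this
      · exact h' _ _ _ _ hP hQ
  refine h3.trans ?_
  rw [Real.coe_toNNReal _ (by positivity), mul_assoc]
  refine mul_le_mul_of_nonneg_left ?_ hC
  linarith

/-- **WS ⟹ JD** -/
theorem exists_JD {m : ℕ} (W : WS m) (hm : 2 ≤ m) : ∃ J : JD m, J.G = W.G := by
  refine ⟨{ A := A W
            F := Fn W
            Z := fun X Y => Z W (nz X) Y
            G := W.G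
            A_comm := A_comm hm
            A_zero := A_zero hm
            A_smul := A_smul hm
            lip := lip hm
            act := act hm
            norm_A := norm_A hm
            F_smul := Fn_smul hm
            smooth := fun X Y hX hY => contDiffAt_Fn hm hX hY
            hasDeriv := fun X Y hX _ => hasDeriv hm X Y hX
            G_symm := W.G_symm
            G_pos := W.G_pos
            G_smul := W.G_smul
            G_cont := fun X hX => (W.G_smooth X hX).continuousAt.continuousWithinAt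
            grad := fun X Y δ hX hY => grad hm X Y δ hX hY
            eik := fun X Y hX _ => eik hm X Y hX
            bij := fun X hX => bij hm X hX
            inj := fun X Y hX hY => inj hm X Y hX hY }, rfl⟩

end Crest.Agent.R208.GW
end
end

-- ▼ part R208/GZ9
section

/-!
R208, block GZ (helper595), part 9: `VolLe` for the types `k = n` and `k = 1` from `MainStmt`.
-/

set_option autoImplicit false

open MeasureTheory Measure
open Crest.GeometryTopology.Submanifold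
open Crest.Agent.R241.DDefs
open Crest.Agent.R208.L (cst)
open Crest.Agent.R208.I (IM Typ)

noncomputable section

namespace Crest.Agent.R208.GZ

variable {n N : ℕ} {κ : ℝ} {S : Set (Euc N)} {G : Geo n N κ S}

theorem jdHalf : JDHalf := fun _ W hm => GW.exists_JD W hm

/-- **`VolLe` for `k = n` and `k = 1`** from 631's `MainStmt` -/
theorem volLe_ends' (hmain : JT.MainStmt) (hB : Bl n N κ S G Real.pi) {k : ℕ}
    (hT : Typ G k) (hk : k = n ∨ k = 1) : μHE[n] S ≤ cst n * IM (k - 1) (n - k) :=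
  volLe_ends hmain jdHalf hB hT hk

end Crest.Agent.R208.GZ
end
end

-- ▼ part R208/JT15
section

/-!
R208, block JT (helper631), part 15: `VolLe` for the types `k = n` and `k = 1`, without hypothesis.
-/

set_option autoImplicit false

open MeasureTheory Measure
open Crest.GeometryTopology.Submanifold
open Crest.Agent.R241.DDefs
open Crest.Agent.R208.L (cst)
open Crest.Agent.R208.I (IM Typ)

noncomputable section

namespace Crest.Agent.R208.JT

variable {n N : ℕ} {κ : ℝ} {S : Set (Euc N)} {G : Geo n N κ S}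

/-- **`VolLe` for `k = n` and `k = 1`** -/
theorem volLe_ends (hB : Bl n N κ S G Real.pi) {k : ℕ}
    (hT : Typ G k) (hk : k = n ∨ k = 1) : μHE[n] S ≤ cst n * IM (k - 1) (n - k) :=
  GZ.volLe_ends' mainStmt hB hT hk

end Crest.Agent.R208.JT
end
end

-- ▼ part R208/ZG1

/-!
R208, ZG1 (helper385): the assembly (Z5).  The conclusion of `S0321` from the statements about the
even types `2 ≤ k < n`.
-/

set_option autoImplicit false

open MeasureTheory Measure Set Filter Topology Module Metric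
open scoped ContDiff RealInnerProductSpace ENNReal
open Crest.GeometryTopology.Submanifold
open Crest.Agent.R241.DDefs
open Crest.Agent.R241.D2
open Crest.Agent.R208.L (US cst)
open Crest.Agent.R208.LB (oUS)
open Crest.Agent.R208.FI (J)

noncomputable section

namespace Crest.Agent.R208.ZG

/-- the multiplicity is constant -/
theorem multConst {n N : ℕ} {κ : ℝ} {S : Set (Euc N)} {G : Geo n N κ S}
    (hB : Bl n N κ S G Real.pi) : K.MultConst G Real.pi :=
  IC.multConst hB.D_pos fun _ hz _ h0 h1 _ hb hb0 => I.no_conj hB hz.1 hz.2 h0 h1 hb hb0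

/-- **(Z1)**: the even types. -/
def TypesStmt : Prop :=
  ∀ (n N : ℕ) (κ : ℝ) (S : Set (Euc N)) (G : Geo n N κ S) (k : ℕ), GT.Bla G k → Even k → 2 ≤ k →
    k < n → (∃ m : ℕ, 2 ≤ m ∧ n = k * m) ∧ (k = 2 ∨ k = 4 ∨ (k = 8 ∧ n = 16))

/-- **(Z2)**: the volume of the unit tangent bundle for `k = 2`. -/
def Vol2Stmt : Prop :=
  ∀ (n N : ℕ) (κ : ℝ) (S : Set (Euc N)) (G : Geo n N κ S), GT.Bla G 2 → ∀ m : ℕ, 2 ≤ m →
    n = 2 * m → J (2 * n - 1) (US G) (oUS n N) (oUS n N) ≤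
      (2 * Real.pi) ^ n * ((2 * m).choose m : ℝ)

/-- **(Z3)**: the volume of the unit tangent bundle for `k = 4`. -/
def Vol4Stmt : Prop :=
  ∀ (n N : ℕ) (κ : ℝ) (S : Set (Euc N)) (G : Geo n N κ S), GT.Bla G 4 → ∀ m : ℕ, 2 ≤ m →
    n = 4 * m → J (2 * n - 1) (US G) (oUS n N) (oUS n N) ≤
      (2 * Real.pi) ^ n * (2 * NU.i0 2 (2 * m))

/-- **(Z4)**: the volume of the unit tangent bundle for `k = 8`, `n = 16`. -/
def Vol8Stmt : Prop :=
  ∀ (N : ℕ) (κ : ℝ) (S : Set (Euc N)) (G : Geo 16 N κ S), GT.Bla G 8 →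
    J 31 (US G) (oUS 16 N) (oUS 16 N) ≤ (2 * Real.pi) ^ 16 * (2 * 39)

/-- **`VolLe` from (Z1)–(Z4)** -/
theorem volLe (z1 : TypesStmt) (z2 : Vol2Stmt) (z3 : Vol4Stmt) (z4 : Vol8Stmt) : I.VolLe := by
  intro n N κ S G k hB hT _
  have hS := hB.sub
  have hc := hB.cpt
  by_cases he : k = n ∨ k = 1
  · exact JT.volLe_ends hB hT he
  push Not at he
  obtain ⟨hkn, hk1⟩ := he
  have h1 := hT.one_le
  have h2 := hT.le
  rcases Nat.even_or_odd k with hk | hk
  swap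
  · exact (OD.absurd hB hT hk (by omega) (by omega)).elim
  have hBla : GT.Bla G k := ⟨hB, hT⟩
  obtain ⟨⟨m, hm, hnm⟩, h3⟩ := z1 n N κ S G k hBla hk (by omega) (by omega)
  rcases h3 with rfl | rfl | ⟨rfl, rfl⟩
  · have h4 := z2 n N κ S G hBla m hm hnm
    have h5 := NU.volLe_of_J (G := G) 1 m le_rfl (by omega) hnm (d := 2 * n - 1) (by omega) hS hc
      (by rw [← NU.choose_eq m (by omega)]; exact h4)
    exact h5
  · have h4 := z3 n N κ S G hBla m hm hnm
    have h5 := NU.volLe_of_J (G := G) 2 (2 * m) (by omega) (by omega) (by omega)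
      (d := 2 * n - 1) (by omega) hS hc h4
    exact h5
  · have h4 := z4 N κ S G hBla
    have h5 := NU.volLe_of_J (G := G) 4 8 (by omega) (by omega) (by omega)
      (d := 31) (by omega) hS hc (by rw [NU.i0_cayley]; exact h4)
    exact h5

/-- **(Z5)**: the conclusion of `S0321` -/
theorem twoPt (z1 : TypesStmt) (z2 : Vol2Stmt) (z3 : Vol4Stmt) (z4 : Vol8Stmt)
    (n N : ℕ) (hn : 1 ≤ n) (S : Set (EuclideanSpace ℝ (Fin N))) (hS : IsSubmanifold n N S)
    (hcpt : IsCompact S) (hconn : IsConnected S)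
    (hmin : ∀ γ : ℝ → EuclideanSpace ℝ (Fin N), IsGeodesicIn S γ → (∀ t, ‖deriv γ t‖ = 1) →
      ∀ a b : ℝ, a ≤ b → b - a ≤ intrinsicDiam S → intrinsicDist S (γ a) (γ b) = b - a) :
    ∀ p q p' q' : S, intrinsicDist S p q = intrinsicDist S p' q' →
      ∃ Φ : S → S, IsIntrinsicIsometry S Φ ∧ Φ p = p' ∧ Φ q = q' :=
  of_pi (I.main Crest.Agent.R208.N.core Crest.Agent.R208.N.eq_case (fun _ _ _ _ _ hB => multConst hB) (volLe z1 z2 z3 z4))
    hn hS hcpt hconn hmin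

end Crest.Agent.R208.ZG
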