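import Crest.Agent.R208.JX1_Mg
import Crest.Agent.R208.KX3
import Crest.Agent.R208.KC2
import Crest.Agent.R208.CG6_Mg
import Crest.Agent.R208.KD1
import Crest.Agent.R208.TX10
import Crest.Agent.R208.XF0
import Crest.Agent.R208.ZG3
import Crest.Agent.R208.TX9
import Crest.Agent.R208.JV3b
import Crest.Agent.R208.JW2
import Crest.Agent.R208.SN10
import Crest.Agent.R208.CQ1

-- ▼ part R208/KX4
section

/-! Row 208, `k = 2` (helper427), part KX4: the volume of the unit tangent bundle for `k = 2`. -/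

set_option autoImplicit false
set_option linter.unusedSectionVars false
set_option linter.unusedVariables false

open MeasureTheory Set Filter Topology Module
open scoped ContDiff RealInnerProductSpace
open Crest.GeometryTopology.Submanifold
open Crest.Agent.R241.DDefs
open Crest.Agent.R241.D2
open Crest.Agent.R208.F Crest.Agent.R208.FI Crest.Agent.R208.CW Crest.Agent.R208.T
open Crest.Agent.R208.NN Crest.Agent.R208.NB Crest.Agent.R208.RK
open Crest.Agent.R208.RR Crest.Agent.R208.RRC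
open Crest.Agent.R208.LB (al oUS dal)

noncomputable section

namespace Crest.Agent.R208.KX

variable {n N K k r : ℕ} {κ : ℝ} {S : Set (Euc N)} {G : Geo n N κ S} {z : Euc N × Euc N}
  {W : Euc N × Euc N → (Unit × Fin 2 → Fin N) → ℝ} {δ : ℝ}
  {PN : Euc N × Euc N → Wt N K →L[ℝ] Wt N K}
  {lg : Euc N → Euc N → Euc N} {ρ : Euc N → Euc N} {rr C r' Kr B w ε E₀ η₀ : ℝ} {Jn : ℕ}
  {ξ oS : Euc N → Ext (Euc N)} {m : ℕ}

/-- the section of the sphere bundle -/
def sg (h : GT.Bla G 2) (PN : Euc N × Euc N → Wt N K →L[ℝ] Wt N K)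
    (W : Euc N × Euc N → (Unit × Fin 2 → Fin N) → ℝ) (z : Euc N × Euc N) :
    (Euc N × Euc N) × Wt N K := (z, nsec h PN W z)

section

variable (hW : ∀ h : GT.Bla G 2, OR (GT.FF S) (FV.PVB h) W)

theorem sg_mem (h : GT.Bla G 2) (hn : 2 < n) (H : NegB G 1 (nuP K) δ PN)
    (hW : OR (GT.FF S) (FV.PVB h) W) (hz : z ∈ L.US G) : sg h PN W z ∈ T.Sph (L.US G) PN :=
  ⟨⟨hz, PN_nsec h hn H hz⟩, norm_nsec h hW hn H hz⟩

theorem contDiffAt_sg (h : GT.Bla G 2) (hn : 2 < n) (H : NegB G 1 (nuP K) δ PN)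
    (hW : OR (GT.FF S) (FV.PVB h) W) (hz : z ∈ L.US G) : ContDiffAt ℝ ∞ (sg h PN W) z :=
  contDiffAt_id.prodMk (contDiffAt_nsec h hW hn H hz)

theorem sg_gf (h : GT.Bla G 2) (hn : 2 < n) (H : NegB G 1 (nuP K) δ PN)
    (hW : OR (GT.FF S) (FV.PVB h) W) (hz : z ∈ L.US G) (t : ℝ) :
    sg h PN W (CM.gf G t z) = FL.Ph G K t (sg h PN W z) :=
  Prod.ext rfl (nsec_fl h hW hn H hz t)

/-- a map on `Cyl (Sph)` composed with the section -/
theorem smap_sg (h : GT.Bla G 2) (hn : 2 < n) (H : NegB G 1 (nuP K) δ PN)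
    (hW : OR (GT.FF S) (FV.PVB h) W) {f : ((Euc N × Euc N) × Wt N K) × ℝ → Euc N}
    (hf : ∀ q ∈ T.Sph (L.US G) PN, ∀ s, ContDiffAt ℝ ∞ f (q, s) ∧ f (q, s) ∈ S) :
    SMap (Cyl (L.US G)) S (fun y => f (sg h PN W y.1, y.2)) := by
  refine ⟨fun y hy => ?_, fun y hy => (hf _ (sg_mem h hn H hW (mem_Cyl.1 hy)) _).2⟩
  have hy' := mem_Cyl.1 hy
  have h1 : ContDiffAt ℝ ∞ (fun y : (Euc N × Euc N) × ℝ => sg h PN W y.1) y :=
    ContDiffAt.comp y (g := sg h PN W) (f := fun y : (Euc N × Euc N) × ℝ => y.1)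
      (contDiffAt_sg h hn H hW hy') contDiffAt_fst
  exact ContDiffAt.comp y (g := f) (f := fun y : (Euc N × Euc N) × ℝ => (sg h PN W y.1, y.2))
    (hf _ (sg_mem h hn H hW hy') _).1 (h1.prodMk contDiffAt_snd)

end

/-- **the core of `k = 2`** -/
theorem core (h : GT.Bla G 2) (hm : 2 ≤ m) (hn : n = 2 * m)
    (hW : OR (GT.FF S) (FV.PVB h) W) (sξ : Sm S ξ) (cξ : Cl S ξ) (dξ : Hom 2 ξ)
    (hoS : Ori n S oS) (hX : Coh (GT.FF S) (KD.hF ξ m) 0) :
    ∃ c : ℝ, Eqv (L.US G) (Wp (rot G W) (RR.K (F.pull (EE G) ξ)))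
        ((2 * Real.pi * c) • (1 : Euc N × Euc N → Ext (Euc N × Euc N))) ∧
      (c ≠ 0 → c ^ (2 * m) * |J (2 * n - 1) (L.US G) (oUS n N) (oUS n N)| =
        ((2 * m).choose m : ℝ) * (J n S oS (ξ ^ m)) ^ 2) := by
  have hn2 : 2 < n := by omega
  obtain ⟨lg, ρ, rr, C, r', Kr, K₀, δ, PN, w₀, hw₀, hD0⟩ := FL.exists_D0 h le_rfl
    (by nlinarith [Real.pi_pos] : Real.pi < 4 * Real.pi)
  obtain ⟨ε₀, hε₀, hD1⟩ := (hD0 w₀ hw₀ le_rfl).exists_D1
  obtain ⟨E₀, η₀, -, -, J₀, hJ₀⟩ := hD1 ε₀ hε₀ le_rfl 0 Real.pi_pos 1 one_pos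
  have D := hJ₀ J₀ le_rfl
  have H : NegB G 1 (nuP K₀) δ PN := D.neg
  obtain ⟨cA, cB, hc⟩ := KC.exists_centres D hn2
  -- the maps
  set Af := FL.Af G lg ρ w₀ J₀ ε₀ with hAf
  have hT : ∀ q ∈ T.Sph (L.US G) PN, q ∈ FI.Tot (L.US G) PN := fun q hq => hq.1
  have sA : SMap (Cyl (L.US G)) S (fun y => Af (sg h PN W y.1, y.2)) :=
    smap_sg h hn2 H hW fun q hq s => ⟨D.contDiffAt_Af (hT q hq) s, D.Af_mem (hT q hq) s⟩
  have sB : SMap (Cyl (L.US G)) S (fun y => Af (KC.flp (sg h PN W y.1), y.2)) := by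
    refine smap_sg h hn2 H hW (f := fun p => Af (KC.flp p.1, p.2)) fun q hq s => ⟨?_, ?_⟩
    · exact ContDiffAt.comp (q, s) (g := Af)
        (f := fun x : ((Euc N × Euc N) × Wt N K₀) × ℝ => (KC.flp x.1, x.2))
        (D.contDiffAt_Af (hT _ (KC.flp_mem hq)) s)
        ((KC.contDiff_flp.comp contDiff_fst).prodMk contDiff_snd).contDiffAt
    · exact D.Af_mem (hT _ (KC.flp_mem hq)) s
  have scA : SMap (Cyl (L.US G)) S (fun y => cA (sg h PN W y.1, y.2)) :=
    smap_sg h hn2 H hW fun q hq s => (hc q hq).1 s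
  have scB : SMap (Cyl (L.US G)) S (fun y => cB (sg h PN W y.1, y.2)) :=
    smap_sg h hn2 H hW fun q hq s => (hc q hq).2.1 s
  have hmem := fun {z : Euc N × Euc N} (hz : z ∈ L.US G) => sg_mem h hn2 H hW hz
  have hA0 : ∀ x ∈ L.US G, Af (sg h PN W x, 0) = x.1 := fun x hx =>
    D.Af_zero (hT _ (hmem hx)) le_rfl
  have hB0 : ∀ x ∈ L.US G, Af (KC.flp (sg h PN W x), 0) = x.1 := fun x hx =>
    D.Af_zero (hT _ (KC.flp_mem (hmem hx))) le_rfl
  have hA1 : ∀ x ∈ L.US G, ∀ t, Af (sg h PN W (CM.gf G t x), 1) = Af (sg h PN W x, 1) := by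
    intro x hx t
    rw [sg_gf h hn2 H hW hx]
    exact D.Af_end (hT _ (hmem hx)) (hmem hx).2 (by norm_num) t
  have hB1 : ∀ x ∈ L.US G, ∀ t, Af (KC.flp (sg h PN W (CM.gf G t x)), 1) =
      Af (KC.flp (sg h PN W x), 1) := by
    intro x hx t
    rw [sg_gf h hn2 H hW hx, ← KC.Ph_flp]
    exact D.Af_end (hT _ (KC.flp_mem (hmem hx))) (KC.flp_mem (hmem hx)).2 (by norm_num) t
  -- the connection
  have hcir := CM.cir_US h.bl h.ty.per
  have hcon := CM.conn_al (G := G) (FV.sub_S h.bl)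
  have hdal : Hz (L.US G) (CM.gen (CM.gf G)) (F.d (al (N := N))) := by
    obtain ⟨M, g, Fc, hg, -, hFc⟩ := CM.exists_CM h.bl h.ty.per
    refine Hz.eqv (fun x hx => hcir.gen_mem hx) hFc.pull.symm fun x hx => ?_
    rw [hFc.ii_gen hg hcir x hx, map_zero]
  have hSn : Sub n S := FV.sub_S h.bl
  have P : Pre (L.US G) (CM.gf G) m (F.pull (fun y => Af (sg h PN W y.1, y.2)) ξ)
      (F.pull (fun y => Af (KC.flp (sg h PN W y.1), y.2)) ξ) 1 al := by
    refine pre_of hcir hcon hdal sξ cξ (ev_hom dξ even_two S) ?_ sA sB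
      (fun x hx => (hA0 x hx).trans (hB0 x hx).symm) hA1 hB1
    exact SO.eqv_zero_of_gt hSn (KD.hom_pow' dξ (m + 1)) (by omega)
  -- comparison of the orbit integrals
  have hw : ∀ x ∈ L.US G, jz G W x ∈ GT.Vs G x.1 (Exp G x.1 (Real.pi • x.2)) := fun x hx => by
    rw [← phi_pi hx]; exact jz_mem h hW hx
  have hCG : Coh (L.US G) (Wp (CM.gf G) (K (F.pull (fun y => Af (sg h PN W y.1, y.2)) ξ)) -
      Wp (CM.gf G) (K (F.pull (fun y => Af (KC.flp (sg h PN W y.1), y.2)) ξ)))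
      (-(Wp (rot G W) (K (F.pull (EE G) ξ)))) := by
    refine CG.main (Z := L.US G) (P := fun x => x) (w := jz G W) h
      ⟨fun _ _ => contDiffAt_id, fun _ hx => hx⟩ hcir (cir_rot h hW) (fun x hx t => rfl)
      (fun x hx t => rfl) hw (fun x hx => norm_jz h hW hx) (fun x hx => inner_jz h hW hx) sξ cξ
      sA sB scA scB hA0 hB0 hA1 hB1 (fun x hx => ?_) (fun x hx => ?_) (fun x hx t s hs => ?_)
      (fun x hx t s hs => ?_)
    · have h1 := (hc _ (hmem hx)).2.2.1 0 le_rfl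
      have h2 : dir h PN (sg h PN W x) = jz G W x := dir_nsec h hW hn2 H hx
      rw [h1, h2]
      rfl
    · have h1 := (hc _ (hmem hx)).2.2.2.1 0 le_rfl
      have h2 : dir h PN (sg h PN W x) = jz G W x := dir_nsec h hW hn2 H hx
      rw [h1, h2]
      rfl
    · have h1 := (hc _ (hmem hx)).2.2.2.2.1 s hs.1 t
      rw [← sg_gf h hn2 H hW hx] at h1
      exact h1
    · have h1 := (hc _ (hmem hx)).2.2.2.2.2 s hs.1 t
      rw [← sg_gf h hn2 H hW hx] at h1
      exact h1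
  have sKa := Sm.K P.sa
  have sKb := Sm.K P.sb
  have hsub : Eqv (L.US G) (Wp (CM.gf G) (K (F.pull (fun y => Af (sg h PN W y.1, y.2)) ξ -
      F.pull (fun y => Af (KC.flp (sg h PN W y.1), y.2)) ξ)))
      (Wp (CM.gf G) (K (F.pull (fun y => Af (sg h PN W y.1, y.2)) ξ)) -
      Wp (CM.gf G) (K (F.pull (fun y => Af (KC.flp (sg h PN W y.1), y.2)) ξ))) :=
    (Wp_eqv hcir (Sm.K (P.sa.sub P.sb)) (sKa.sub sKb) (CG.K_sub_eqv P.sa P.sb)).trans
      (Eqv.of_eq fun x hx => Wp_sub hcir sKa sKb hx)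
  have hd : 2 * n - 1 + 1 = 2 * n := by omega
  have hcl : Clo (2 * n - 1) (L.US G) := LB.clo_US hSn h.bl.cpt hd
  have hconn : IsPreconnected (L.US G) := FV.preconn_US h.bl (by omega)
  have ho : Ori (2 * n - 1) (L.US G) (oUS n N) := LB.ori_US hSn h.bl.cpt (by omega) hd
  obtain ⟨c₁, hc₁⟩ := P.const0 hcl.sub hconn (dξ.pull) (dξ.pull)
  have hrot : Eqv (L.US G) (Wp (rot G W) (K (F.pull (EE G) ξ)))
      ((2 * Real.pi * -c₁) • (1 : Euc N × Euc N → Ext (Euc N × Euc N))) := by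
    have h1 : Coh (L.US G) (Wp (CM.gf G) (K (F.pull (fun y => Af (sg h PN W y.1, y.2)) ξ -
      F.pull (fun y => Af (KC.flp (sg h PN W y.1), y.2)) ξ))) (-(Wp (rot G W) (K (F.pull (EE G) ξ)))) :=
      (Coh.of_eqv hsub).trans hCG
    have h2 := Coh.eqv_zero h1 (hom_Wp (hom_K (dξ.pull.sub dξ.pull)))
      (by
        have := (hom_Wp (φ := rot G W) (hom_K (Hom.pull (f := EE G) dξ))).smul (-1)
        rwa [neg_one_smul] at this)
    have h3 := (h2.symm.trans hc₁).neg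
    rw [neg_neg] at h3
    rwa [mul_neg, neg_smul]
  refine ⟨-c₁, hrot, fun hc0 => ?_⟩
  have hc1 : c₁ ≠ 0 := fun h0 => hc0 (by rw [h0, neg_zero])
  obtain ⟨η, Fm⟩ := P.exists_fam_two hcl.sub hc₁
  have hval := KD.J_self h le_rfl (by omega : 1 ≤ m) hn hd ho hoS sξ cξ dξ hX Fm hcir hc1 P.ia P.ib
    P.h00 ((pull_slice 0 sA).trans (eqv_pull_of_eq ξ
      (fun x hx => (diff_slice 0 sA hx).differentiableAt (by simp))
      (fun x hx => differentiableAt_fst) hA0))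
  have hJ := J_scale (o := oUS n N) (c := c₁) (m := m) hcl (by omega) (γ := 1) P.sθ
  rw [mul_one, mul_one] at hJ
  rw [hJ, abs_mul, abs_pow] at hval
  have ho' : al * F.d al ^ (2 * m - 1) = oUS n N := by
    funext z
    rw [Pi.mul_apply, Pi.pow_apply, LB.d_al, oUS, hn]
  rw [ho'] at hval
  have hev : |c₁| ^ (2 * m) = c₁ ^ (2 * m) := by
    rw [← abs_pow, abs_of_nonneg ((even_two_mul m).pow_nonneg c₁)]
  rw [← hval, (even_two_mul m).neg_pow, hev]

end Crest.Agent.R208.KX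
end
end

-- ▼ part R208/KX6
section

/-! Row 208, `k = 2` (helper427), part KX6: the bound from the two values. -/

set_option autoImplicit false
set_option linter.unusedSectionVars false
set_option linter.unusedVariables false

open MeasureTheory Set Filter Topology Module
open scoped ContDiff RealInnerProductSpace
open Crest.GeometryTopology.Submanifold
open Crest.Agent.R241.DDefs
open Crest.Agent.R241.D2
open Crest.Agent.R208.F Crest.Agent.R208.FI Crest.Agent.R208.CW Crest.Agent.R208.T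
open Crest.Agent.R208.NN Crest.Agent.R208.NB
open Crest.Agent.R208.RR Crest.Agent.R208.RRC
open Crest.Agent.R208.LB (al oUS dal)

noncomputable section

namespace Crest.Agent.R208.KX

variable {n N : ℕ} {κ : ℝ} {S : Set (Euc N)} {G : Geo n N κ S} {z : Euc N × Euc N}
  {W : Euc N × Euc N → (Unit × Fin 2 → Fin N) → ℝ} {m : ℕ} {p : Euc N}
  {x oS : Euc N → Ext (Euc N)}

/-- **`k = 2`, the volume from the two values** -/
theorem vol2_XM {h : GT.Bla G 2} (D : T.XM h m W p x) (hoS : Ori n S oS)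
    (hz : z ∈ L.US G) (hO : Clo 1 (L.US G ∩ FV.phi G ⁻¹' {FV.phi G z}))
    {o : Euc N × Euc N → Ext (Euc N × Euc N)}
    (ho : Ori 1 (L.US G ∩ FV.phi G ⁻¹' {FV.phi G z}) o)
    (hτ : |J 1 (L.US G ∩ FV.phi G ⁻¹' {FV.phi G z}) o (K (F.pull (EE G) x))| = XF.tau Unit)
    (hJ : |J n S oS (x ^ m)| ≤ XF.tau Unit ^ m) :
    ∃ N₀ : ℝ, |N₀| ≤ 1 ∧ |J (2 * n - 1) (L.US G) (oUS n N) (oUS n N)| ≤
      (2 * Real.pi) ^ n * (((2 * m).choose m : ℝ) * N₀ ^ 2) := by
  have hτ0 : 0 < XF.tau Unit := XF.tau_pos Unit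
  have hπ := Real.pi_pos
  obtain ⟨c, hc1, hc2⟩ := core h D.hm (by have := D.hn; omega) D.hW D.sx D.cx D.dx hoS D.hm_zero'
  have h1 := orbit_value h D.hW hz hO ho (Sm.K (D.sx.pull smap_EE)) hc1
  rw [hτ] at h1
  have hc0 : c ≠ 0 := by
    rintro rfl
    rw [mul_zero, abs_zero] at h1
    exact hτ0.ne' h1
  have h2 := hc2 hc0
  refine ⟨J n S oS (x ^ m) / XF.tau Unit ^ m, ?_, le_of_eq ?_⟩
  · rw [abs_div, abs_of_pos (pow_pos hτ0 m)]
    exact div_le_one_of_le₀ hJ (pow_pos hτ0 m).le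
  · have h3 : XF.tau Unit ^ (2 * m) = (2 * Real.pi) ^ (2 * m) * c ^ (2 * m) := by
      rw [h1, (even_two_mul m).pow_abs, mul_pow]
    have hn : n = 2 * m := by have := D.hn; omega
    have hcp : c ^ (2 * m) ≠ 0 := pow_ne_zero _ hc0
    have h4 : |J (2 * n - 1) (L.US G) (oUS n N) (oUS n N)| =
        ((2 * m).choose m : ℝ) * (J n S oS (x ^ m)) ^ 2 / c ^ (2 * m) := by
      rw [eq_div_iff hcp, mul_comm]; exact h2
    have h5 : (2 * Real.pi) ^ (2 * m) ≠ 0 := pow_ne_zero _ (by positivity)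
    have h6 : (XF.tau Unit ^ m) ^ 2 = (2 * Real.pi) ^ (2 * m) * c ^ (2 * m) := by
      rw [← h3, ← pow_mul, mul_comm m 2]
    have hpn : (2 * Real.pi) ^ n = (2 * Real.pi) ^ (2 * m) := by rw [← hn]
    rw [h4, div_pow, h6, hpn]
    field_simp

end Crest.Agent.R208.KX
end
end

-- ▼ part R208/KX7
section

/-! Row 208, `k = 2` (helper427), part KX7: `Vol2Stmt` from the two values. -/

set_option autoImplicit false
set_option linter.unusedSectionVars false
set_option linter.unusedVariables false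

open MeasureTheory Set Filter Topology Module
open scoped ContDiff RealInnerProductSpace
open Crest.GeometryTopology.Submanifold
open Crest.Agent.R241.DDefs
open Crest.Agent.R241.D2
open Crest.Agent.R208.F Crest.Agent.R208.FI Crest.Agent.R208.CW Crest.Agent.R208.T
open Crest.Agent.R208.NN Crest.Agent.R208.NB
open Crest.Agent.R208.RR Crest.Agent.R208.RRC
open Crest.Agent.R208.LB (al oUS dal)

noncomputable section

namespace Crest.Agent.R208.KX

variable {n N k : ℕ} {κ : ℝ} {S : Set (Euc N)} {G : Geo n N κ S} {z : Euc N × Euc N}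


/-- the fibres of `US → F` are closed and orientable -/
theorem exists_fib (h : GT.Bla G k) (hk : 2 ≤ k) (hkn : k < n) :
    ∃ o : Euc N × Euc N → Ext (Euc N × Euc N), ∀ z : Euc N × Euc N,
      Clo (k - 1) (L.US G ∩ FV.phi G ⁻¹' {FV.phi G z}) ∧
      Ori (k - 1) (L.US G ∩ FV.phi G ⁻¹' {FV.phi G z}) o := by
  obtain ⟨oS, hoS, -, hdS⟩ := GP.exists_ori h.bl h.ty hk
  obtain ⟨w, -, hwd, -, hF⟩ := SB.exists_osubm_F h hk hkn hoS hdS
  have hoF := hF.tot
  obtain ⟨oW, -, -, hW⟩ := SB.exists_osubm_phi h hk hkn (d := n - k + n) (by omega) hoF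
    (fun x => isDeg_mul ((hwd x).pb _) ((hdS _).pb _))
  exact ⟨oW, fun z => ⟨hW.subm.clo_fibre _, hW.fib _⟩⟩

/-- **`Vol2Stmt` from the two values** -/
theorem vol2_of_values
    (hF : ∀ (n N : ℕ) (κ : ℝ) (S : Set (Euc N)) (G : Geo n N κ S) (h : GT.Bla G 2)
      (W : Euc N × Euc N → (Unit × Fin 2 → Fin N) → ℝ) (m : ℕ) (p : Euc N)
      (x : Euc N → Ext (Euc N)), T.XM h m W p x → ∀ z ∈ L.US G,
      ∀ o : Euc N × Euc N → Ext (Euc N × Euc N),
      Ori 1 (L.US G ∩ FV.phi G ⁻¹' {FV.phi G z}) o →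
      |J 1 (L.US G ∩ FV.phi G ⁻¹' {FV.phi G z}) o (K (F.pull (EE G) x))| = XF.tau Unit)
    (hS : ∀ (n N : ℕ) (κ : ℝ) (S : Set (Euc N)) (G : Geo n N κ S) (h : GT.Bla G 2)
      (W : Euc N × Euc N → (Unit × Fin 2 → Fin N) → ℝ) (m : ℕ) (p : Euc N)
      (x : Euc N → Ext (Euc N)), T.XM h m W p x → ∀ oS : Euc N → Ext (Euc N),
      Ori n S oS → |J n S oS (x ^ m)| ≤ XF.tau Unit ^ m) : ZG.Vol2Stmt := by
  refine ZG.vol2_of fun n N κ S G h m hm hn => ?_
  have hkn : 2 < n := by omega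
  obtain ⟨W, hW⟩ := T.exists_OR_FF (ι := Unit) h le_rfl (by omega) (by simp)
  obtain ⟨p, hp⟩ : S.Nonempty := by
    obtain ⟨z, hz⟩ := FV.nonempty_FF h.bl h.ty
    exact ⟨z.1, hz.1⟩
  obtain ⟨m', x, D⟩ := T.exists_XM h le_rfl hkn (by simp) hW hp
  obtain rfl : m' = m := by have := D.hn; omega
  obtain ⟨oS, hoS, -, hdS⟩ := GP.exists_ori h.bl h.ty le_rfl
  obtain ⟨z, hz⟩ := T.nonempty_UST h hp
  obtain ⟨o, ho⟩ := exists_fib h le_rfl hkn
  exact vol2_XM D hoS hz (ho z).1 (ho z).2 (hF n N κ S G h W m' p x D z hz o (ho z).2)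
    (hS n N κ S G h W m' p x D oS hoS)

end Crest.Agent.R208.KX
end
end

-- ▼ part R208/KX8

/-! Row 208, `k = 2` (helper427), part KX8: the two values and **`Vol2Stmt`**. -/

set_option autoImplicit false
set_option linter.unusedSectionVars false
set_option linter.unusedVariables false

open MeasureTheory Set Filter Topology Module
open scoped ContDiff RealInnerProductSpace
open Crest.GeometryTopology.Submanifold
open Crest.Agent.R241.DDefs
open Crest.Agent.R241.D2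
open Crest.Agent.R208.F Crest.Agent.R208.FI Crest.Agent.R208.CW Crest.Agent.R208.T
open Crest.Agent.R208.NN Crest.Agent.R208.NB
open Crest.Agent.R208.RR Crest.Agent.R208.RRC

noncomputable section

namespace Crest.Agent.R208.KX

variable {n N k : ℕ} {κ : ℝ} {S : Set (Euc N)} {G : Geo n N κ S} {z : Euc N × Euc N}
  {ι : Type} [Fintype ι] [DecidableEq ι] {W : Euc N × Euc N → (ι × Fin 2 → Fin N) → ℝ}
  {m : ℕ} {p : Euc N} {x oS : Euc N → Ext (Euc N)}

/-- **(JV4-F)** the period of `K(E^* x)` -/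
theorem valF {h : GT.Bla G k} (D : T.XM h m W p x) (hz : z ∈ L.US G)
    {o : Euc N × Euc N → Ext (Euc N × Euc N)}
    (ho : Ori (k - 1) (L.US G ∩ FV.phi G ⁻¹' {FV.phi G z}) o) :
    |J (k - 1) (L.US G ∩ FV.phi G ⁻¹' {FV.phi G z}) o (K (F.pull (EE G) x))| = XF.tau ι := by
  have hk := D.hk
  have hι := D.hι
  have hn := D.two_k
  have : Nonempty ι := Fintype.card_pos_iff.1 (by omega)
  have hX : FI.Sub (2 * n - k) (GT.FF S) := FV.sub_FF' h (d := 2 * n - k) (by omega)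
  have hr : (k - 1) + 1 = Fintype.card ι * 2 := by omega
  refine JX.abs_KE D hz (kap := JV.ang (FV.PVB h) W) (JV.sm_ang hX D.hW) (JV.hom_ang hr)
    (JV.d_ang hX D.hW) (fun y hy o ho => ?_) ho
  have e0 : JX.Sb h y = T.Sph (GT.FF S) (FV.PVB h) ∩
      (Prod.fst : (Euc N × Euc N) × Euc N → Euc N × Euc N) ⁻¹' {y} :=
    JV.Sph_point (P := FV.PVB h) hy
  rw [e0] at ho ⊢
  exact JV.abs_J_ang_fib D.hW hr hy ho

/-- **(JV4-S)** the value of `x^m` on `S` -/
theorem valS_eq {h : GT.Bla G k} (D : T.XM h m W p x) (hoS : Ori n S oS)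
    {oC : Euc N → Ext (Euc N)} (hoC : Ori (n - k) (GP.Cut S p) oC) :
    |J n S oS (x ^ m)| = XF.tau ι * |J (n - k) (GP.Cut S p) oC (x ^ (m - 1))| := by
  have hk := D.hk
  have hι := D.hι
  have hn := D.two_k
  have hm := D.hm
  have : Nonempty ι := Fintype.card_pos_iff.1 (by omega)
  have hC : Clo (n - k) (GP.Cut S p) := FV.clo_Cut h D.hp
  have hr : (k - 1) + 1 = Fintype.card ι * 2 := by omega
  have hW' := OR_Cut h D.hp D.hW
  have hnk : k * (m - 1) = n - k := by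
    have := D.hn
    rw [Nat.mul_sub_one, ← this]
  have hdx : Hom (n - k) (x ^ (m - 1)) := by
    rw [← hnk]; exact D.dx.pow (m - 1)
  have sC : Sm (GP.Cut S p) (x ^ (m - 1)) := fun q hq => T.Sm.pow D.sx (m - 1) q hq.1
  have hne : (GP.Cut S p).Nonempty := SN.Cut_nonempty h (by omega) D.hp
  have hnc : IsPreconnected (GP.Cut S p) := FV.preconn_Cut h.bl h.ty (by omega) D.hp
  have hpow : x ^ m = x ^ ((m - 1) + 1) := by rw [Nat.sub_add_cancel (by omega)]
  rw [hpow]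
  refine JW.J_S_of h hk (by omega) D.hp D.sx D.cx D.dx hoS
    (kap := JV.ang (FV.PC h p) (fun q => W (q, p))) (JV.sm_ang hC.sub hW') (JV.hom_ang hr) ?_
    (m - 1) fun oY hoY => ?_
  · have h1 := JV.d_ang hC.sub hW'
    have h2 : Eqv (T.Sph (GP.Cut S p) (FV.PC h p))
        (F.pull (Prod.fst : Euc N × Euc N → Euc N) x)
        (F.pull Prod.fst (eR (FV.PC h p) (fun q => W (q, p)))) :=
      Eqv.pull ⟨fun _ _ => contDiffAt_fst, fun _ hz => hz.1.1⟩ D.ex
    exact h1.trans h2.symm.neg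
  · have hd : (k - 1) + (n - k) = n - 1 := by omega
    rw [← hd] at hoY ⊢
    exact JV.abs_J_ang hC hnc hoC hW' hr sC hdx hne hoY

theorem valS {h : GT.Bla G k} (D : T.XM h m W p x) (hoS : Ori n S oS) :
    |J n S oS (x ^ m)| ≤ XF.tau ι ^ m := by
  have hk := D.hk
  have hι := D.hι
  have hn := D.two_k
  have hm := D.hm
  have : Nonempty ι := Fintype.card_pos_iff.1 (by omega)
  obtain ⟨oC, hoC, -, -⟩ := T.exists_ori_Cut h hk (by omega) D.hp
  have hC : Clo (n - k) (GP.Cut S p) := FV.clo_Cut h D.hp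
  rw [valS_eq D hoS hoC]
  have hPL := XM.OR_PL h D.hp D.hW
  have h1 := CQ.restr_PL D D.hp
  have sE : Sm (GP.Cut S p) (eR (SN.PL h p) (fun c => W (p, c))) := hPL.ec_eR.sm
  have cE : Cl (GP.Cut S p) (eR (SN.PL h p) (fun c => W (p, c))) := hPL.ec_eR.cl
  have sx : Sm (GP.Cut S p) x := fun q hq => D.sx q hq.1
  have cx : Cl (GP.Cut S p) x := Cl.mono (fun q hq => hq.1) D.cx
  have cE' : Cl (GP.Cut S p) (-eR (SN.PL h p) (fun c => W (p, c))) := by
    have := Cl.smul (-1) sE cE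
    rwa [neg_one_smul] at this
  have h2 : Coh (GP.Cut S p) (x ^ (m - 1)) ((-eR (SN.PL h p) (fun c => W (p, c))) ^ (m - 1)) :=
    Coh.powT sx cx sE.neg cE' h1 (m - 1)
  have h3 : |J (n - k) (GP.Cut S p) oC (x ^ (m - 1))| =
      |J (n - k) (GP.Cut S p) oC ((eR (SN.PL h p) (fun c => W (p, c))) ^ (m - 1))| := by
    rw [SO.J_coh hC hoC (T.Sm.pow sx _) (T.Sm.pow sE.neg _) h2]
    rw [neg_pow]
    rcases neg_one_pow_eq_or (Euc N → Ext (Euc N)) (m - 1) with h4 | h4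
    · rw [h4, one_mul]
    · rw [h4, neg_one_mul, ← neg_one_smul ℝ, J_smul', neg_one_mul, abs_neg]
  have h4 := SN.abs_J_Cut_le h hι hk (i := m - 1) (by
    have := D.hn
    rw [Nat.sub_add_cancel (by omega)]
    exact this) D.hp hPL hoC
  rw [h3]
  have h5 : XF.tau ι ^ m = XF.tau ι * XF.tau ι ^ (m - 1) := by
    rw [← pow_succ', Nat.sub_add_cancel (by omega)]
  rw [h5]
  exact mul_le_mul_of_nonneg_left h4 (XF.tau_pos ι).le

/-- **(Z2)** -/
theorem vol2 : ZG.Vol2Stmt :=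
  vol2_of_values
    (fun n N κ S G h W m p x D z hz o ho => valF D hz ho)
    (fun n N κ S G h W m p x D oS hoS => valS D hoS)

end Crest.Agent.R208.KX
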