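import Crest.Agent.R208.TP10_Mg
import Crest.Agent.R208.CQ3
import Crest.Agent.R208.JW3
import Crest.Agent.R208.AF9
import Crest.Agent.R208.EX10
import Crest.Agent.R208.SB2
import Crest.Agent.R208.KR4
import Crest.Agent.R208.FG1e
import Crest.Agent.R208.CM5
import Crest.Agent.R208.CG1
import Crest.Agent.R208.RRc365B
import Crest.Agent.R208.LC2
import Crest.Agent.R208.SN9
import Crest.Agent.R208.XF0
import Crest.Agent.R208.KX8
import Crest.Agent.R208.TX9
import Crest.Agent.R208.EA7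
import Crest.Agent.R208.LC6
import Crest.Agent.R208.ZA2
import Crest.Agent.R208.TU8

-- ▼ part R208/ZB3
section

/-! Row 208, (8,2), block ZB (helper607).  ZB3: the integrality inputs `(n0)`, `(Q0)` from the
relations (i), (ii) of block VE. -/

set_option autoImplicit false
set_option linter.unusedSectionVars false
set_option linter.unusedVariables false

open MeasureTheory Set Filter Topology Module
open scoped ContDiff RealInnerProductSpace Nat
open Crest.GeometryTopology.Submanifold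
open Crest.Agent.R241.DDefs
open Crest.Agent.R241.D2
open Crest.Agent.R208.F Crest.Agent.R208.FI Crest.Agent.R208.CW Crest.Agent.R208.T
open Crest.Agent.R208.CM
open Crest.Agent.R208.L (US)
open Crest.Agent.R208.LB (al)
open Crest.Agent.R208.NN (Wt Rt nuP)
open Crest.Agent.R208.EW (cR)
open Crest.Agent.R208.EP (topr NLp WNp CPk)
open Crest.Agent.R208.SO (CF2)
open Crest.Agent.R208.SB (OddB)

noncomputable section

namespace Crest.Agent.R208.ZB

/-- the value of `x^m` in 586's form -/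
theorem sv {n N k m : ℕ} {κ : ℝ} {S : Set (Euc N)} {G : Geo n N κ S} {p : Euc N}
    {ι : Type} [Fintype ι] [DecidableEq ι] {W : Euc N × Euc N → (ι × Fin 2 → Fin N) → ℝ}
    {x : Euc N → Ext (Euc N)} {h : GT.Bla G k} (D : T.XM h m W p x) : QT.SV n k ι S m p x :=
  fun _ hoS _ hoC => JW.J_S_eq_tau D hoS hoC

variable {N K m c s' : ℕ} {κ δ : ℝ} {S : Set (Euc N)} {G : Geo 16 N κ S} {p : Euc N}
  {ι : Type} [Fintype ι] [DecidableEq ι] {W : Euc N × Euc N → (ι × Fin 2 → Fin N) → ℝ}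
  {x : Euc N → Ext (Euc N)} {h : GT.Bla G 8} {PN : Euc N × Euc N → Wt N K →L[ℝ] Wt N K}
  {g : Euc N × Euc N → Fin m → ℂ} {Fc x0 : MM m → Ext (MM m)}
  {Tr : Euc N × Euc N → Wt N K →L[ℝ] EuclideanSpace ℝ (Fin (2 * c + 1))}
  {P' : MM m → EuclideanSpace ℝ (Fin (2 * c + 1)) →L[ℝ] EuclideanSpace ℝ (Fin (2 * c + 1))}
  {o' : MM m → Ext (EuclideanSpace ℝ (Fin (2 * c + 1)))}
  {W' : MM m → (Fin (s' + 1) × Fin 2 → Fin (2 * c + 1)) → ℝ}
  {fY : MM m × EuclideanSpace ℝ (Fin (2 * c + 1)) → Euc N} {l t3 : ℝ}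

/-- the odd bundle `N` over `B` -/
theorem oddB (hO : TP.DscO (US G) (gf G) g (fun t => Rt (nuP K) t) 3 PN c s' Tr P' o' W') :
    OddB (Fin 3) (Quo (US G) g) 6 P' o' := ⟨hO.pf, hO.sy, hO.opr, rfl⟩

theorem nE_three : VX.nE (Fin 3) ^ 2 = 2304 := by
  rw [VX.nE, Fintype.card_fin, show Nat.factorial 3 = 6 from rfl]; norm_num

theorem tau_three : XF.tau (Fin 3) = 48 * (2 * Real.pi) ^ 3 := by
  rw [XF.tau, Fintype.card_fin, show Nat.factorial 3 = 6 from rfl]
  push_cast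
  ring

/-- `W² = p₃` -/
theorem sq_p3 (hO : TP.DscO (US G) (gf G) g (fun t => Rt (nuP K) t) 3 PN c s' Tr P' o' W')
    (hB : Sub 30 (Quo (US G) g)) (ht3 : t3 = 2304) :
    Coh (Sph (Quo (US G) g) P') (OddB.eV (Fin 3) (oddB hO).hr P' o' *
      OddB.eV (Fin 3) (oddB hO).hr P' o') (F.pull Prod.fst (t3 • cR 6 P')) := by
  have := (oddB hO).sq_eV hB
  rw [nE_three] at this
  rwa [T.pull_smul', ht3]

/-- **(n0)** -/
theorem n0 (D : T.XM h 2 W p x) (hg : Emb (US G) (gf G) g)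
    (hc : Curv (US G) g (al (N := N)) Fc)
    (hO : TP.DscO (US G) (gf G) g (fun t => Rt (nuP K) t) 3 PN c s' Tr P' o' W')
    (s0 : Sm (Quo (US G) g) x0) (c0 : Cl (Quo (US G) g) x0) (d0 : Hom 8 x0)
    (sfY : SMap (Sph (Quo (US G) g) P') S fY)
    (hfY : Coh (Sph (Quo (US G) g) P') (F.pull fY x) (F.pull Prod.fst x0 +
      l • (F.pull Prod.fst Fc * OddB.eV (Fin 3) (oddB hO).hr P' o'))) :
    ∀ c : CH.Chn (Quo (US G) g) 8, ∃ z : ℤ, 2 * c.I x0 = XF.tau ι * z := by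
  have hX : Clo (30 + 1) (US G) := clo_US' h.bl
  have hC := cir_US h.bl h.ty.per
  have hcB : Clo 30 (Quo (US G) g) := hg.clo_Quo hC hX
  have hXc : IsPreconnected (US G) := FV.preconn_US h.bl (by norm_num)
  have hBc : IsPreconnected (Quo (US G) g) := GQ.preconn_Quo hg hXc
  have hne : (Quo (US G) g).Nonempty := by
    obtain ⟨z, hz⟩ := T.nonempty_UST h D.hp
    exact ⟨jj g z, z, hz, rfl⟩
  have hoB := (ZA.J31 h hg hc).1
  have he : CF2 (Quo (US G) g) 2 Fc := ⟨hc.sm, hc.cl, hc.hom, by decide⟩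
  exact QT.n0' CQ.intM D (sv D) (oddB hO) rfl hcB hBc hne hoB (hc.hom.pow 15) he
    ⟨s0, c0, d0, by decide⟩ sfY hfY

/-- **(Q0)** -/
theorem q0 (D : T.XM h 2 W p x) (hg : Emb (US G) (gf G) g)
    (hc : Curv (US G) g (al (N := N)) Fc)
    (hO : TP.DscO (US G) (gf G) g (fun t => Rt (nuP K) t) 3 PN c s' Tr P' o' W')
    (s0 : Sm (Quo (US G) g) x0) (c0 : Cl (Quo (US G) g) x0) (d0 : Hom 8 x0)
    (ht3 : t3 = 2304) (hl : l ^ 2 = 16)
    (hrel : Coh (Quo (US G) g) ((3 : ℝ) • (x0 * x0) + (l ^ 2) • ((t3 • cR 6 P') * (Fc * Fc))) 0)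
    (sfY : SMap (Sph (Quo (US G) g) P') S fY)
    (hfY : Coh (Sph (Quo (US G) g) P') (F.pull fY x) (F.pull Prod.fst x0 +
      l • (F.pull Prod.fst Fc * OddB.eV (Fin 3) (oddB hO).hr P' o'))) :
    ∃ n : ℤ, 4 * J 30 (Quo (US G) g) (Fc ^ 15) (Fc ^ 7 * x0 ^ 2) =
      (2 * Real.pi) ^ 7 * XF.tau ι ^ 2 * n := by
  have hX : Clo (30 + 1) (US G) := clo_US' h.bl
  have hC := cir_US h.bl h.ty.per
  have hcB : Clo 30 (Quo (US G) g) := hg.clo_Quo hC hX
  have hXc : IsPreconnected (US G) := FV.preconn_US h.bl (by norm_num)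
  have hBc : IsPreconnected (Quo (US G) g) := GQ.preconn_Quo hg hXc
  have hoB := (ZA.J31 h hg hc).1
  have ha : Conn (US G) (gf G) (al (N := N)) := conn_al (FV.sub_S h.bl)
  have he : CF2 (Quo (US G) g) 2 Fc := ⟨hc.sm, hc.cl, hc.hom, by decide⟩
  have h6 : EC (Quo (US G) g) (cR 6 P') := EP.ec_cR hcB.sub hO.pf 6
  have hp : CF2 (Quo (US G) g) (2 * 6) (t3 • cR 6 P') :=
    (⟨h6.sm, h6.cl, EW.hom_cR 6, by decide⟩ : CF2 (Quo (US G) g) (2 * 6) (cR 6 P')).smul _
  obtain ⟨-, n₂, ι₂, _, _, _, _, PL, WL, ε, hL, hj, hε, hLe⟩ :=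
    (EZ.euC_line hg hC hX ha hc).pow 5
  have : Nonempty ι₂ := Fintype.card_pos_iff.1 (by omega)
  have hlabs : |l| = 4 := by
    have h1 : |l| ^ 2 = 4 ^ 2 := by rw [sq_abs, hl]; norm_num
    exact (pow_left_inj₀ (abs_nonneg _) (by norm_num) (by norm_num)).1 h1
  refine QT.q0' (j := 6) (cL := ε * (2 ^ (5 + 1) * ((5 + 1)! : ℝ))) CQ.intM D (sv D) (oddB hO) rfl
    hcB hBc hoB (hc.hom.pow 15) he ⟨s0, c0, d0, by decide⟩ hp ?_ (sq_p3 hO hcB.sub ht3) sfY hfY hL hj
    ?_ hLe rfl ?_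
  · rw [show (t3 • cR 6 P') * (Fc * Fc) = Fc * Fc * (t3 • cR 6 P') from hp.comm _] at hrel
    exact hrel
  · rcases hε with rfl | rfl
    · rw [one_mul, abs_of_pos (by positivity)]
    · rw [neg_one_mul, abs_neg, abs_of_pos (by positivity)]
  · rw [hlabs, tau_three, tau_eight D.hι]
    ring

/-- **the `B`-half of the endgame** from (i), (ii), (v) and the two periods of block (R). -/
theorem exists_BHalf' (D : T.XM h 2 W p x) (H : NB.NegB G 7 (nuP K) δ PN)
    (hg : Emb (US G) (gf G) g) (hc : Curv (US G) g (al (N := N)) Fc)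
    (hO : TP.DscO (US G) (gf G) g (fun t => Rt (nuP K) t) 3 PN c s' Tr P' o' W')
    (s0 : Sm (Quo (US G) g) x0) (c0 : Cl (Quo (US G) g) x0) (d0 : Hom 8 x0)
    (h0 : Coh (US G) (F.pull Prod.fst x) (F.pull (jj g) x0))
    (ht3 : t3 = 2304) (hl : l ^ 2 = 16)
    (hrel : Coh (Quo (US G) g) ((3 : ℝ) • (x0 * x0) + (l ^ 2) • ((t3 • cR 6 P') * (Fc * Fc))) 0)
    (sfY : SMap (Sph (Quo (US G) g) P') S fY)
    (hfY : Coh (Sph (Quo (US G) g) P') (F.pull fY x) (F.pull Prod.fst x0 +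
      l • (F.pull Prod.fst Fc * OddB.eV (Fin 3) (oddB hO).hr P' o')))
    (hx3 : J 30 (Quo (US G) g) (Fc ^ 15) (Fc ^ 3 * x0 ^ 3) = 0)
    (hR : |8 * l ^ 2 * (2 * Real.pi * J 30 (Quo (US G) g) (Fc ^ 15)
      (Fc * x0 * x0 * (t3 • cR 6 P')))| = XF.tau ι ^ 4) :
    ∃ q1 q2 α β₁ ν n₀ : ℝ, BHalf (Quo (US G) g) (Fc ^ 15) Fc x0 (t3 • cR 6 P') (topr 7 1 P' Fc)
      (topr 7 2 P' Fc) (topr 7 (1 / 2) P' Fc) q1 q2 α β₁ ν l t3 n₀ := by
  have hX : Clo (30 + 1) (US G) := clo_US' h.bl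
  have hcB : Clo 30 (Quo (US G) g) := hg.clo_Quo (cir_US h.bl h.ty.per) hX
  have hBc : IsPreconnected (Quo (US G) g) :=
    GQ.preconn_Quo hg (FV.preconn_US h.bl (by norm_num))
  exact exists_BHalf (κ₇ := Fin 7) D H hg hc hO s0 c0 d0 h0 ht3 hl hrel hx3 hR (Fintype.card_fin 7)
    (fun c => CQ.IT_of hcB hBc hO.pf hO.sy (Fintype.card_fin 7) rfl c)
    (n0 D hg hc hO s0 c0 d0 sfY hfY) (q0 D hg hc hO s0 c0 d0 ht3 hl hrel sfY hfY)

end Crest.Agent.R208.ZB
end
end

-- ▼ part R208/AF10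
section

/-! Row 208, block (A2) (helper601).  AF10: `∫_{N4} (λ₃-λ₀)(λ₂-λ₀)(λ₁-λ₀) w = c³ ∫_{US} w`. -/

set_option autoImplicit false
set_option linter.unusedSectionVars false
set_option linter.unusedVariables false

open MeasureTheory Set Filter Topology Module
open scoped ContDiff RealInnerProductSpace
open Crest.GeometryTopology.Submanifold
open Crest.Agent.R241.DDefs
open Crest.Agent.R241.D2
open Crest.Agent.R208.F Crest.Agent.R208.FI Crest.Agent.R208.CW Crest.Agent.R208.T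
open Crest.Agent.R208.FG (OSubm)
open Crest.Agent.R208.SB (OPr oV)
open Crest.Agent.R208.L (US)
open Crest.Agent.R208.FV (phi PVB up dn)
open Crest.Agent.R208.KG (N2 N3 N4)

noncomputable section

namespace Crest.Agent.R208.AF

variable {n N r d : ℕ} {κ : ℝ} {S : Set (Euc N)} {G : Geo n N κ S}
  {E : Type*} [NormedAddCommGroup E] [NormedSpace ℝ E] [FiniteDimensional ℝ E]
  {X : Set E} {b : E → Euc N × Euc N} {σ c : ℝ} {oX : E → Ext E}
  {oP : Euc N × Euc N → Ext (Euc N)} {lm : Euc N × Euc N → Ext (Euc N × Euc N)}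

/-- one level of the tower -/
structure Lv (G : Geo n N κ S) (d : ℕ) (X : Set E) (b : E → Euc N × Euc N) (oX : E → Ext E) :
    Prop where
  clo : Clo d X
  conn : IsPreconnected X
  map : SMap X (US G) b
  ori : Ori d X oX
  deg : ∀ x, IsDeg d (oX x)

/-- the orientation of the next level -/
def oN (G : Geo n N κ S) (oP : Euc N × Euc N → Ext (Euc N)) (b : E → Euc N × Euc N)
    (oX : E → Ext E) (z : E × Euc N) : Ext (E × Euc N) :=
  oV (fun z => oP (phi G (b z))) z * pull Prod.fst oX z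

variable (h : GT.Bla G (r + 1)) (hoP : OPr (GT.FF S) (r + 1) (PVB h) oP)
include hoP

theorem Lv.osubm (L : Lv G d X b oX) :
    OSubm r d (Sph X (PB h b)) X (Prod.fst : E × Euc N → E) (oV fun z => oP (phi G (b z))) oX :=
  SB.osubm_Sph L.clo (pfield_PB h L.map) (opr_PB h L.map hoP) L.ori L.deg

theorem Lv.next (L : Lv G d X b oX) (hr : 1 ≤ r) :
    Lv G (r + d) (Sph X (PB h b)) (fun z => b z.1) (oN G oP b oX) where
  clo := SB.clo_Sph L.clo (pfield_PB h L.map)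
  conn := preconn_Sph L.clo.compact L.conn (pfield_PB h L.map) (by omega)
  map := smap_bf h L.map
  ori := (L.osubm h hoP).tot
  deg z := isDeg_mul (SB.isDeg_oV (opr_PB h L.map hoP) z) ((L.deg _).pb _)

/-- the form of an arc minus the form of the first arc -/
def mu (lm : Euc N × Euc N → Ext (Euc N × Euc N)) (b : E → Euc N × Euc N) (σ : ℝ) :
    E × Euc N → Ext (E × Euc N) := pull (ar b σ) lm - pull (fun z => b z.1) lm

omit hoP in
theorem sm_mu (hb : SMap X (US G) b) (hσ : σ = 1 ∨ σ = -1) (hl : Sm (US G) lm) :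
    Sm (Sph X (PB h b)) (mu lm b σ) :=
  (hl.pull (smap_ar h hb hσ)).sub (hl.pull (smap_bf h hb))

omit hoP in
/-- `λ_i - λ_0` is closed -/
theorem cl_mu (hb : SMap X (US G) b) (hσ : σ = 1 ∨ σ = -1) (hl : Sm (US G) lm)
    {ka : Euc N × Euc N → Ext (Euc N × Euc N)} (hd : Eqv (US G) (F.d lm) (pull (phi G) ka)) :
    Cl (Sph X (PB h b)) (mu lm b σ) := by
  have s1 := smap_ar h hb hσ
  have s2 := smap_bf h hb
  have e : ∀ {g : E × Euc N → Euc N × Euc N}, SMap (Sph X (PB h b)) (US G) g →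
      Eqv (Sph X (PB h b)) (F.d (pull g lm)) (pull (fun z => phi G (g z)) ka) := by
    intro g hg
    refine (d_pull_eqv hg hl).trans ((hd.pull hg).trans (Eqv.of_eq fun z hz => ?_))
    exact pull_comp (f := g) (g := phi G) (hg.diff hz) ((smap_phi h).diff (hg.maps hz))
  rw [Cl, resZero_iff]
  refine (d_sub_eqv (hl.pull s1) (hl.pull s2)).trans ?_
  have e1 := e s1
  have e2 := e s2
  have e3 : Eqv (Sph X (PB h b)) (pull (fun z => phi G (ar b σ z)) ka)
      (pull (fun z => phi G (b z.1)) ka) :=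
    eqv_pull_of_eq ka
      (fun z hz => DifferentiableAt.comp (g := phi G) (f := ar b σ) z
        ((smap_phi h).diff (s1.maps hz)) (s1.diff hz))
      (fun z hz => DifferentiableAt.comp (g := phi G) (f := fun z : E × Euc N => b z.1) z
        ((smap_phi h).diff (s2.maps hz)) (s2.diff hz))
      (fun z hz => (ar_spec h hb hσ hz).2)
  have e4 := (e1.trans e3).sub e2
  rwa [sub_self] at e4

/-- **one step of the tower** -/
theorem Lv.step (L : Lv G d X b oX) (hσ : σ = 1 ∨ σ = -1) (ev : Even (r + 1)) (hr : 1 ≤ r)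
    {Y : Set (Euc N × Euc N)} {oF : Euc N × Euc N → Ext (Euc N × Euc N)} {d' : ℕ}
    (hW : OSubm r d' (US G) Y (phi G) (oWf G oP) oF) (hl : Sm (US G) lm)
    (hc : ∀ z ∈ US G, J r (US G ∩ phi G ⁻¹' {phi G z}) (oWf G oP) lm = c)
    {w : E → Ext E} (hw : Sm X w) (hd : Hom d w) :
    J (r + d) (Sph X (PB h b)) (oN G oP b oX) (mu lm b σ * pull Prod.fst w) = c * J d X oX w :=
  AF.step (L.osubm h hoP) (fun z hz => (sm_mu h L.map hσ hl z hz).continuousAt.continuousWithinAt)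
    (fun x hx => by
      rw [mu, fib_int h L.clo L.map hσ ev hoP hW hr hl hx]
      exact hc _ (L.map.maps hx))
    (fun x hx => (hw x hx).continuousAt.continuousWithinAt) hd

omit hoP in
include h in
theorem lv0 {oU : Euc N × Euc N → Ext (Euc N × Euc N)} (hd : d + 1 = 2 * n) (hn : 2 ≤ n)
    (ho : Ori d (US G) oU) (hdeg : ∀ x, IsDeg d (oU x)) : Lv G d (US G) (fun z => z) oU :=
  ⟨SB.clo_US h hd, FV.preconn_US h.bl hn, ⟨fun _ _ => contDiffAt_id, fun _ hz => hz⟩, ho, hdeg⟩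

/-- the fibre integrals are constant -/
theorem c_const {oU : Euc N × Euc N → Ext (Euc N × Euc N)} (L : Lv G d (US G) (fun z => z) oU)
    (ev : Even (r + 1)) (hr : 1 ≤ r)
    {Y : Set (Euc N × Euc N)} {oF : Euc N × Euc N → Ext (Euc N × Euc N)} {d' : ℕ}
    (hW : OSubm r d' (US G) Y (phi G) (oWf G oP) oF) (hl : Sm (US G) lm)
    {ka : Euc N × Euc N → Ext (Euc N × Euc N)} (hd : Eqv (US G) (F.d lm) (pull (phi G) ka))
    {x y : Euc N × Euc N} (hx : x ∈ US G) (hy : y ∈ US G) :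
    J r (US G ∩ phi G ⁻¹' {phi G x}) (oWf G oP) lm =
      J r (US G ∩ phi G ⁻¹' {phi G y}) (oWf G oP) lm := by
  have hO := L.osubm h hoP
  have h1 := hO.subm.const L.conn hO.base hO.cV hO.tot hO.low
    (η := mu lm (fun z => z) 1)
    (fun z hz => (sm_mu h L.map (Or.inl rfl) hl z hz).of_le (by exact_mod_cast le_top))
    (cl_mu h L.map (Or.inl rfl) hl hd) hx hy
  rw [mu, fib_int h L.clo L.map (Or.inl rfl) ev hoP hW hr hl hx,
    fib_int h L.clo L.map (Or.inl rfl) ev hoP hW hr hl hy] at h1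
  exact h1

omit hoP in
theorem pull_fst_pull {q : E → Euc N × Euc N} (hq : Differentiable ℝ q)
    (om : Euc N × Euc N → Ext (Euc N × Euc N)) :
    pull (Prod.fst : E × Euc N → E) (pull q om) = pull (fun z => q z.1) om := by
  funext z
  exact pull_comp (f := (Prod.fst : E × Euc N → E)) (g := q) differentiableAt_fst (hq _)

end Crest.Agent.R208.AF
end
end

-- ▼ part R208/AF11
section

/-! Row 208, block (A2) (helper601).  AF11: `∫_{N4} (λ₃-λ₀)(λ₂-λ₀)(λ₁-λ₀) w = c³ ∫_{US} w`. -/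

set_option autoImplicit false
set_option linter.unusedSectionVars false
set_option linter.unusedVariables false

open MeasureTheory Set Filter Topology Module
open scoped ContDiff RealInnerProductSpace
open Crest.GeometryTopology.Submanifold
open Crest.Agent.R241.DDefs
open Crest.Agent.R241.D2
open Crest.Agent.R208.F Crest.Agent.R208.FI Crest.Agent.R208.CW Crest.Agent.R208.T
open Crest.Agent.R208.FG (OSubm)
open Crest.Agent.R208.SB (OPr oV)
open Crest.Agent.R208.L (US)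
open Crest.Agent.R208.FV (phi PVB up dn)
open Crest.Agent.R208.KG (N2 N3 N4)

noncomputable section

namespace Crest.Agent.R208.AF

variable {n N r d : ℕ} {κ : ℝ} {S : Set (Euc N)} {G : Geo n N κ S} {c : ℝ}
  {oP : Euc N × Euc N → Ext (Euc N)} {lm : Euc N × Euc N → Ext (Euc N × Euc N)}
  (h : GT.Bla G (r + 1)) (hoP : OPr (GT.FF S) (r + 1) (PVB h) oP)

/-- the four projections of `N4` to `US`, with the orientation of the arcs -/
def pr4 : Fin 4 → (((Euc N × Euc N) × Euc N) × Euc N) × Euc N → Euc N × Euc N :=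
  ![fun z => z.1.1.1, fun z => ar (fun z => z) (-1) z.1.1, fun z => ar (fun z => z.1) 1 z.1,
    fun z => ar (fun z => z.1.1) (-1) z]

/-- orientation of `N4` -/
def o4 (G : Geo n N κ S) (oP : Euc N × Euc N → Ext (Euc N))
    (oU : Euc N × Euc N → Ext (Euc N × Euc N)) :
    (((Euc N × Euc N) × Euc N) × Euc N) × Euc N →
      Ext ((((Euc N × Euc N) × Euc N) × Euc N) × Euc N) :=
  oN G oP (fun z => z.1.1) (oN G oP (fun z => z.1) (oN G oP (fun z => z) oU))

include hoP in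
set_option maxHeartbeats 1000000 in
/-- **integration over `N4`** -/
theorem J_N4 {oU : Euc N × Euc N → Ext (Euc N × Euc N)} (L : Lv G d (US G) (fun z => z) oU)
    (ev : Even (r + 1)) (hr : 1 ≤ r)
    {Y : Set (Euc N × Euc N)} {oF : Euc N × Euc N → Ext (Euc N × Euc N)} {d' : ℕ}
    (hW : OSubm r d' (US G) Y (phi G) (oWf G oP) oF) (hl : Sm (US G) lm) (hlr : Hom r lm)
    (hc : ∀ z ∈ US G, J r (US G ∩ phi G ⁻¹' {phi G z}) (oWf G oP) lm = c)
    {w : Euc N × Euc N → Ext (Euc N × Euc N)} (hw : Sm (US G) w) (hd : Hom d w) :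
    J (r + (r + (r + d))) (N4 h) (o4 G oP oU)
      ((pull (pr4 3) lm - pull (pr4 0) lm) * ((pull (pr4 2) lm - pull (pr4 0) lm) *
        ((pull (pr4 1) lm - pull (pr4 0) lm) * pull (pr4 0) w))) =
      c ^ 3 * J d (US G) oU w := by
  have L1 := L.next h hoP hr
  have L2 := L1.next h hoP hr
  have hm : Hom r (mu lm (fun z : Euc N × Euc N => z) (-1)) := (hlr.pull).sub hlr.pull
  have hm2 : Hom r (mu lm (fun z : (Euc N × Euc N) × Euc N => z.1) 1) := (hlr.pull).sub hlr.pull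
  -- forms on the levels
  set w1 : (Euc N × Euc N) × Euc N → Ext ((Euc N × Euc N) × Euc N) :=
    mu lm (fun z => z) (-1) * pull Prod.fst w with hw1
  set w2 : ((Euc N × Euc N) × Euc N) × Euc N → Ext (((Euc N × Euc N) × Euc N) × Euc N) :=
    mu lm (fun z => z.1) 1 * pull Prod.fst w1 with hw2
  have sw1 : Sm (Sph (US G) (PB h fun z => z)) w1 :=
    (sm_mu h L.map (Or.inr rfl) hl).mul
      (hw.pull ⟨fun _ _ => contDiffAt_fst, fun z hz => hz.1.1⟩)
  have sw2 : Sm (Sph (Sph (US G) (PB h fun z => z)) (PB h fun z => z.1)) w2 :=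
    (sm_mu h L1.map (Or.inl rfl) hl).mul
      (sw1.pull ⟨fun _ _ => contDiffAt_fst, fun z hz => hz.1.1⟩)
  have dw1 : Hom (r + d) w1 := hm.mul hd.pull
  have dw2 : Hom (r + (r + d)) w2 := hm2.mul dw1.pull
  have s1 := L.step h hoP (Or.inr rfl) ev hr hW hl hc hw hd
  have s2 := L1.step h hoP (Or.inl rfl) ev hr hW hl hc sw1 dw1
  have s3 := L2.step h hoP (Or.inr rfl) ev hr hW hl hc sw2 dw2
  rw [← hw1] at s1
  rw [← hw2, s1] at s2
  rw [s2] at s3
  have dif0 : Differentiable ℝ (fun z : (Euc N × Euc N) × Euc N => z.1) := by fun_prop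
  have dif1 : Differentiable ℝ (fun z : ((Euc N × Euc N) × Euc N) × Euc N => z.1.1) := by fun_prop
  have dar0 : Differentiable ℝ (ar (fun z : Euc N × Euc N => z) (-1)) := by
    unfold ar; fun_prop
  have dar0' : Differentiable ℝ
      (fun z : ((Euc N × Euc N) × Euc N) × Euc N => ar (fun z : Euc N × Euc N => z) (-1) z.1) :=
    dar0.comp differentiable_fst
  have dar1 : Differentiable ℝ (ar (fun z : (Euc N × Euc N) × Euc N => z.1) 1) := by
    unfold ar; fun_prop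
  have key : mu lm (fun z : ((Euc N × Euc N) × Euc N) × Euc N => z.1.1) (-1) * pull Prod.fst w2 =
      (pull (pr4 3) lm - pull (pr4 0) lm) * ((pull (pr4 2) lm - pull (pr4 0) lm) *
        ((pull (pr4 1) lm - pull (pr4 0) lm) * pull (pr4 0) w)) := by
    have e0 : pull (Prod.fst : (Euc N × Euc N) × Euc N → Euc N × Euc N) w =
      pull (fun z : (Euc N × Euc N) × Euc N => z.1) w := rfl
    have e1 : pull (Prod.fst : ((Euc N × Euc N) × Euc N) × Euc N → (Euc N × Euc N) × Euc N) w1 =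
        (pull (fun z => ar (fun z => z) (-1) z.1) lm - pull (fun z => z.1.1) lm) *
          pull (fun z => z.1.1) w := by
      rw [hw1, pull_mul', mu, pull_sub', pull_fst_pull dar0, pull_fst_pull dif0, e0,
        pull_fst_pull dif0]
    rw [hw2, pull_mul', mu, mu, pull_sub', e1, pull_mul', pull_sub', pull_fst_pull dar1,
      pull_fst_pull dif1, pull_fst_pull dar0', pull_fst_pull dif1]
    rfl
  rw [key] at s3
  have e5 : c * (c * (c * J d (US G) oU w)) = c ^ 3 * J d (US G) oU w := by ring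
  rw [← e5]
  exact s3

end Crest.Agent.R208.AF
end
end

-- ▼ part R208/AF12
section

/-! Row 208, block (A2) (helper601).  AF12: helper10's flat family of four arcs is a `Four`. -/

set_option autoImplicit false
set_option linter.unusedSectionVars false
set_option linter.unusedVariables false

open MeasureTheory Set Filter Topology Module
open scoped ContDiff RealInnerProductSpace
open Crest.GeometryTopology.Submanifold
open Crest.Agent.R241.DDefs
open Crest.Agent.R241.D2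
open Crest.Agent.R241.D3c
open Crest.Agent.R208.F Crest.Agent.R208.FI Crest.Agent.R208.CW Crest.Agent.R208.T
open Crest.Agent.R208.FG (OSubm)
open Crest.Agent.R208.SB (OPr oV)
open Crest.Agent.R208.L (US)
open Crest.Agent.R208.FV (phi PVB up dn)
open Crest.Agent.R208.KG (N2 N3 N4 nest4 hf sgi idx Km)

noncomputable section

namespace Crest.Agent.R208.AF

variable {n N r d : ℕ} {κ : ℝ} {S : Set (Euc N)} {G : Geo n N κ S} {c ε : ℝ}

/-- the geodesics `s ↦ Exp_p (π s v)` -/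
def Gm (G : Geo n N κ S) (z : (Euc N × Euc N) × ℝ) : Euc N :=
  Exp G z.1.1 ((Real.pi * z.2) • z.1.2)

theorem fam_Gm (G : Geo n N κ S) : Fam (US G) S (Gm G) where
  sm := by
    rintro ⟨p, v⟩ hz t
    have h1 : ContDiffAt ℝ ∞ (fun q : Euc N × Euc N => Exp G q.1 q.2)
        (p, (Real.pi * t) • v) := contDiffAt_Exp G hz.1.1 ((G.T p).smul_mem _ hz.1.2)
    exact ContDiffAt.comp (g := fun q : Euc N × Euc N => Exp G q.1 q.2)
      (f := fun z : (Euc N × Euc N) × ℝ => ((z.1.1, (Real.pi * z.2) • z.1.2) : Euc N × Euc N))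
      ((p, v), t) h1 (by fun_prop)
  maps := by
    rintro ⟨p, v⟩ hz t
    exact Exp_mem G hz.1.1 ((G.T p).smul_mem _ hz.1.2)

/-- the flat family on `N4` -/
def Fm (G : Geo n N κ S) (ε : ℝ) (z : ((((Euc N × Euc N) × Euc N) × Euc N) × Euc N) × ℝ) : Euc N :=
  KG.F G 4 ε (nest4 z.1) 1 z.2

theorem fam_Fm (h : GT.Bla G (r + 1)) (hO : KG.OK G 4 ε) : Fam (N4 h) S (Fm G ε) where
  sm := by
    intro z hz t
    have h1 := KG.F_smooth hO (KG.nest4_mem h hz) ⟨zero_le_one, le_rfl⟩ t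
    have h2 : ContDiff ℝ ∞ (fun q : ((((Euc N × Euc N) × Euc N) × Euc N) × Euc N) × ℝ =>
        ((nest4 q.1, (1 : ℝ), q.2) : (Euc N × (Fin 4 → Euc N)) × ℝ × ℝ)) :=
      (KG.contDiff_nest4.comp contDiff_fst).prodMk (contDiff_const.prodMk contDiff_snd)
    exact ContDiffAt.comp (g := fun q : (Euc N × (Fin 4 → Euc N)) × ℝ × ℝ =>
      KG.F G 4 ε q.1 q.2.1 q.2.2)
      (f := fun q : ((((Euc N × Euc N) × Euc N) × Euc N) × Euc N) × ℝ =>
        ((nest4 q.1, (1 : ℝ), q.2) : (Euc N × (Fin 4 → Euc N)) × ℝ × ℝ)) (z, t) h1 h2.contDiffAt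
  maps := fun z hz t => KG.F_mem hO (KG.nest4_mem h hz) ⟨zero_le_one, le_rfl⟩ t

theorem smap_pr4 (h : GT.Bla G (r + 1)) (i : Fin 4) : SMap (N4 h) (US G) (pr4 i) ∧
    ∀ z ∈ N4 h, phi G (pr4 i z) = phi G (pr4 0 z) := by
  have m0 : SMap (US G) (US G) (fun z => z) := ⟨fun _ _ => contDiffAt_id, fun _ hz => hz⟩
  have m1 := smap_bf h m0
  have m2 := smap_bf h m1
  have m3 := smap_bf h m2
  fin_cases i
  · exact ⟨m3, fun z _ => rfl⟩
  · exact ⟨((smap_ar h m0 (Or.inr rfl)).comp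
      (⟨fun _ _ => contDiffAt_fst, fun z hz => hz.1.1⟩ : SMap (N3 h) (N2 h) Prod.fst)).comp
      (⟨fun _ _ => contDiffAt_fst, fun z hz => hz.1.1⟩ : SMap (N4 h) (N3 h) Prod.fst),
      fun z hz => (ar_spec h m0 (Or.inr rfl) (z := z.1.1) hz.1.1.1.1).2⟩
  · exact ⟨(smap_ar h m1 (Or.inl rfl)).comp
      (⟨fun _ _ => contDiffAt_fst, fun z hz => hz.1.1⟩ : SMap (N4 h) (N3 h) Prod.fst),
      fun z hz => (ar_spec h m1 (Or.inl rfl) (z := z.1) hz.1.1).2⟩
  · exact ⟨smap_ar h m2 (Or.inr rfl), fun z hz => (ar_spec h m2 (Or.inr rfl) (z := z) hz).2⟩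

/-- the height function -/
def ht (ε t : ℝ) : ℝ := hf ε (2 * t)

theorem four (h : GT.Bla G (r + 1)) (hO : KG.OK G 4 ε) :
    Four (N4 h) (US G) S (Fm G ε) (Gm G) pr4 (ht ε) (fun t => 2 * deriv (hf ε) (2 * t))
      (2 * Real.pi) := by
  have hpi := Real.pi_pos
  have hcd := KG.contDiff_hf hO.pos hO.le
  have hε := hO.pos
  have hval : ∀ (j : ℤ) (t : ℝ), t = j * Real.pi → hf ε t = if Even j then 0 else 1 := by
    intro j t ht
    exact KG.hf_near hO.pos hO.le (by rw [ht, sub_self, abs_zero]; linarith)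
  have key : ∀ (i : ℤ) (i' : Fin 4) (z) (_ : z ∈ N4 h) (t : ℝ), i * Real.pi ≤ 2 * t →
      2 * t ≤ (i + 1) * Real.pi → idx 4 i = i' →
      (sgi i • (nest4 z).2 i' = (pr4 i' z).2) → (pr4 i' z).1 = z.1.1.1.1 →
      Fm G ε (z, t) = Gm G (pr4 i' z, ht ε t) := by
    intro i i' z hz t h1 h2 h3 h4 h5
    have h6 := KG.F_hf hO (KG.nest4_mem h hz) (i := i) (α := t)
      (by push_cast; linarith) (by push_cast; linarith)
    show KG.F G 4 ε (nest4 z) 1 t = Exp G (pr4 i' z).1 ((Real.pi * ht ε t) • (pr4 i' z).2)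
    have h7 : ((4 : ℕ) : ℝ) / 2 * t = 2 * t := by push_cast; ring
    rw [h6, h3, h4, h5, h7]
    rfl
  exact
    { pos := by linarith
      hF := fam_Fm h hO
      hG := fam_Gm G
      hpr := fun i => (smap_pr4 h i).1
      hh := by
        intro t
        have h1 : HasDerivAt (hf ε) (deriv (hf ε) (2 * t)) (2 * t) :=
          ((hcd.differentiable (by simp)) _).hasDerivAt
        have h2 : HasDerivAt (fun t : ℝ => 2 * t) 2 t := by
          simpa using (hasDerivAt_id t).const_mul 2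
        have h3 := h1.comp t h2
        rw [mul_comm] at h3
        exact h3
      ch := by
        have := hcd.continuous_deriv (by simp)
        fun_prop
      h0 := by
        show hf ε (2 * 0) = 0
        rw [hval 0 _ (by simp)]; simp
      h1 := by
        show hf ε (2 * (2 * Real.pi / 4)) = 1
        rw [hval 1 _ (by push_cast; ring)]; simp
      h2 := by
        show hf ε (2 * (2 * Real.pi / 2)) = 0
        rw [hval 2 _ (by push_cast; ring)]; simp
      h3 := by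
        show hf ε (2 * (3 * (2 * Real.pi) / 4)) = 1
        rw [hval 3 _ (by push_cast; ring), if_neg (by decide)]
      h4 := by
        show hf ε (2 * (2 * Real.pi)) = 0
        rw [hval 4 _ (by push_cast; ring), if_pos (by decide)]
      per := fun z hz t => KG.F_per t
      e0 := fun z hz t ht => by
        refine key 0 0 z hz t ?_ ?_ (by decide) ?_ rfl
        · push_cast; linarith [ht.1]
        · push_cast; linarith [ht.2]
        · simp only [sgi]; rw [if_pos (by decide), one_smul]; rfl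
      e1 := fun z hz t ht => by
        refine key 1 1 z hz t ?_ ?_ (by decide) ?_ rfl
        · push_cast; linarith [ht.1]
        · push_cast; linarith [ht.2]
        · simp only [sgi]; rw [if_neg (by decide)]; rfl
      e2 := fun z hz t ht => by
        refine key 2 2 z hz t ?_ ?_ (by decide) ?_ rfl
        · push_cast; linarith [ht.1]
        · push_cast; linarith [ht.2]
        · simp only [sgi]; rw [if_pos (by decide)]; rfl
      e3 := fun z hz t ht => by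
        refine key 3 3 z hz t ?_ ?_ (by decide) ?_ rfl
        · push_cast; linarith [ht.1]
        · push_cast; linarith [ht.2]
        · simp only [sgi]; rw [if_neg (by decide)]; rfl }

end Crest.Agent.R208.AF
end
end

-- ▼ part R208/AF13
section

/-! Row 208, block (A2) (helper601).  AF13: vertical vectors on `N4`; the integral of `ψ * y` over
helper10's flat family is `-3 c³ (2π)⁻² ∫_{US} x y`. -/

set_option autoImplicit false
set_option linter.unusedSectionVars false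
set_option linter.unusedVariables false

open MeasureTheory Set Filter Topology Module
open scoped ContDiff RealInnerProductSpace
open Crest.GeometryTopology.Submanifold
open Crest.Agent.R241.DDefs
open Crest.Agent.R241.D2
open Crest.Agent.R241.D3c
open Crest.Agent.R208.F Crest.Agent.R208.FI Crest.Agent.R208.CW Crest.Agent.R208.T
open Crest.Agent.R208.FG (OSubm)
open Crest.Agent.R208.SB (OPr oV)
open Crest.Agent.R208.L (US)
open Crest.Agent.R208.FV (phi PVB up dn)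
open Crest.Agent.R208.KG (N2 N3 N4 nest4 hf sgi idx Km)

noncomputable section

namespace Crest.Agent.R208.AF

variable {n N r d : ℕ} {κ : ℝ} {S : Set (Euc N)} {G : Geo n N κ S} {c ε : ℝ}

section vert
variable {E : Type*} [NormedAddCommGroup E] [NormedSpace ℝ E] [FiniteDimensional ℝ E]
  {X : Set E} {b : E → Euc N × Euc N}

/-- a nonzero vertical vector -/
theorem exists_vert (h : GT.Bla G (r + 1)) (hX : Sub d X) (hb : SMap X (US G) b) (hr : 1 ≤ r)
    {z : E × Euc N} (hz : z ∈ Sph X (PB h b)) :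
    ∃ a : Euc N, a ≠ 0 ∧ ((0 : E), a) ∈ Tan (Sph X (PB h b)) z := by
  obtain ⟨x, v⟩ := z
  have hP := pfield_PB h hb
  obtain ⟨e, he, hve, hon, -⟩ := SB.exists_cons_frame
    (V := LinearMap.range (PB h b x : Euc N →ₗ[ℝ] Euc N)) (hP.rank x hz.1.1) ⟨v, hz.1.2⟩ hz.2
  refine ⟨e ⟨0, by omega⟩, hon.ne_zero _, (SB.vert_mem_Sph hX hP hz).2 ⟨?_, hve _⟩⟩
  obtain ⟨w, hw⟩ := he ⟨0, by omega⟩
  have hw' : PB h b x w = e ⟨0, by omega⟩ := hw
  rw [← hw', hP.idem x hz.1.1]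

/-- lifting a vector along which the link does not move -/
theorem lift_vert (h : GT.Bla G (r + 1)) (hX : Sub d X) (hb : SMap X (US G) b)
    {z : E × Euc N} (hz : z ∈ Sph X (PB h b)) {u : E} (hu : u ∈ Tan X z.1)
    (hu0 : fderiv ℝ b z.1 u = 0) : (u, (0 : Euc N)) ∈ Tan (Sph X (PB h b)) z := by
  obtain ⟨x, v⟩ := z
  have hP := pfield_PB h hb
  refine (SB.mem_Tan_Sph hX hP hz).2 ⟨hu, ?_, inner_zero_right _⟩
  have hx : x ∈ X := hz.1.1
  have h1 : HasFDerivAt (fun z : Euc N × Euc N => PVB h (phi G z))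
      (fderiv ℝ (fun z : Euc N × Euc N => PVB h (phi G z)) (b x)) (b x) := by
    have := ((FV.pfield_PVB h).smooth _ ((smap_phi h).maps (hb.maps hx))).comp (b x)
      ((smap_phi h).smooth _ (hb.maps hx))
    exact (this.differentiableAt (by simp)).hasFDerivAt
  have h2 : HasFDerivAt (PB h b) ((fderiv ℝ (fun z : Euc N × Euc N => PVB h (phi G z)) (b x)).comp
      (fderiv ℝ b x)) x := h1.comp x (hb.diff hx).hasFDerivAt
  rw [h2.fderiv, ContinuousLinearMap.comp_apply, hu0]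
  simp

end vert

/-- the spaces -/
abbrev E4 (N : ℕ) := (((Euc N × Euc N) × Euc N) × Euc N) × Euc N

/-- linear version of `pr4` -/
def prL (N : ℕ) : Fin 4 → E4 N →L[ℝ] Euc N × Euc N :=
  let f3 := ContinuousLinearMap.fst ℝ (((Euc N × Euc N) × Euc N) × Euc N) (Euc N)
  let f2 := (ContinuousLinearMap.fst ℝ ((Euc N × Euc N) × Euc N) (Euc N)).comp f3
  let f1 := (ContinuousLinearMap.fst ℝ (Euc N × Euc N) (Euc N)).comp f2
  let f0 := (ContinuousLinearMap.fst ℝ (Euc N) (Euc N)).comp f1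
  ![f1, f0.prod ((-1 : ℝ) • (ContinuousLinearMap.snd ℝ (Euc N × Euc N) (Euc N)).comp f2),
    f0.prod ((1 : ℝ) • (ContinuousLinearMap.snd ℝ ((Euc N × Euc N) × Euc N) (Euc N)).comp f3),
    f0.prod ((-1 : ℝ) • ContinuousLinearMap.snd ℝ (((Euc N × Euc N) × Euc N) × Euc N) (Euc N))]

theorem prL_eq (i : Fin 4) : (pr4 i : E4 N → Euc N × Euc N) = prL N i := by
  fin_cases i <;> rfl

theorem fderiv_pr4 (i : Fin 4) (z u : E4 N) : fderiv ℝ (pr4 i) z u = pr4 i u := by
  rw [prL_eq, ContinuousLinearMap.fderiv]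

theorem exists_v (h : GT.Bla G (r + 1)) (hd : d + 1 = 2 * n) (hr : 1 ≤ r) :
    ∃ v : Fin 4 → E4 N → E4 N, (∀ j, j ≠ 0 → ∀ x ∈ N4 h, v j x ∈ Tan (N4 h) x) ∧
      (∀ j, j ≠ 0 → ∀ x ∈ N4 h, v j x ≠ 0) ∧
      ∀ i j, j ≠ 0 → i ≠ j → ∀ x ∈ N4 h, fderiv ℝ (pr4 i) x (v j x) = 0 := by
  classical
  have c1 : Clo d (US G) := SB.clo_US h hd
  have m0 : SMap (US G) (US G) (fun z => z) := ⟨fun _ _ => contDiffAt_id, fun _ hz => hz⟩
  have m1 := smap_bf h m0
  have m2 := smap_bf h m1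
  have c2 := SB.clo_Sph c1 (pfield_PB h m0)
  have c3 := SB.clo_Sph c2 (pfield_PB h m1)
  have f1 : ∀ (z u : (Euc N × Euc N) × Euc N), fderiv ℝ (fun z : (Euc N × Euc N) × Euc N => z.1) z u
      = u.1 := fun z u => by
    have : HasFDerivAt (fun z : (Euc N × Euc N) × Euc N => z.1)
      (ContinuousLinearMap.fst ℝ (Euc N × Euc N) (Euc N)) z := hasFDerivAt_fst
    rw [this.fderiv]; rfl
  have f2 : ∀ (z u : ((Euc N × Euc N) × Euc N) × Euc N),
      fderiv ℝ (fun z : ((Euc N × Euc N) × Euc N) × Euc N => z.1.1) z u = u.1.1 := fun z u => by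
    have : HasFDerivAt (fun z : ((Euc N × Euc N) × Euc N) × Euc N => z.1.1)
      ((ContinuousLinearMap.fst ℝ (Euc N × Euc N) (Euc N)).comp
        (ContinuousLinearMap.fst ℝ ((Euc N × Euc N) × Euc N) (Euc N))) z :=
      hasFDerivAt_fst.comp z hasFDerivAt_fst
    rw [this.fderiv]; rfl
  have key : ∀ j : Fin 4, j ≠ 0 → ∀ x ∈ N4 h, ∃ u : E4 N, u ∈ Tan (N4 h) x ∧ u ≠ 0 ∧
      ∀ i, i ≠ j → pr4 i u = 0 := by
    intro j hj x hx
    have x3 : x.1 ∈ Sph (Sph (US G) (PB h fun z => z)) (PB h fun z => z.1) := hx.1.1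
    have x2 : x.1.1 ∈ Sph (US G) (PB h fun z => z) := x3.1.1
    fin_cases j
    · exact absurd rfl hj
    · obtain ⟨a, ha, hT⟩ := exists_vert h c1.sub m0 hr x2
      have h3 := lift_vert h c2.sub m1 x3 hT (f1 _ _)
      have h4 := lift_vert h c3.sub m2 hx h3 (f2 _ _)
      refine ⟨((((0 : Euc N × Euc N), a), 0), 0), h4, fun h0 => ha ?_, fun i hi => ?_⟩
      · exact congrArg (fun u : E4 N => u.1.1.2) h0
      · fin_cases i
        · rfl
        · exact absurd rfl hi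
        · show ((0 : Euc N), (1 : ℝ) • (0 : Euc N)) = 0
          rw [smul_zero]; rfl
        · show ((0 : Euc N), (-1 : ℝ) • (0 : Euc N)) = 0
          rw [smul_zero]; rfl
    · obtain ⟨a, ha, hT⟩ := exists_vert h c2.sub m1 hr x3
      have h4 := lift_vert h c3.sub m2 hx hT (f2 _ _)
      refine ⟨(((0 : (Euc N × Euc N) × Euc N), a), 0), h4, fun h0 => ha ?_, fun i hi => ?_⟩
      · exact congrArg (fun u : E4 N => u.1.2) h0
      · fin_cases i
        · rfl
        · show ((0 : Euc N), (-1 : ℝ) • (0 : Euc N)) = 0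
          rw [smul_zero]; rfl
        · exact absurd rfl hi
        · show ((0 : Euc N), (-1 : ℝ) • (0 : Euc N)) = 0
          rw [smul_zero]; rfl
    · obtain ⟨a, ha, hT⟩ := exists_vert h c3.sub m2 hr hx
      refine ⟨((0 : ((Euc N × Euc N) × Euc N) × Euc N), a), hT, fun h0 => ha ?_, fun i hi => ?_⟩
      · exact congrArg (fun u : E4 N => u.2) h0
      · fin_cases i
        · rfl
        · show ((0 : Euc N), (-1 : ℝ) • (0 : Euc N)) = 0
          rw [smul_zero]; rfl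
        · show ((0 : Euc N), (1 : ℝ) • (0 : Euc N)) = 0
          rw [smul_zero]; rfl
        · exact absurd rfl hi
  choose! v hv using key
  refine ⟨v, fun j hj x hx => (hv j hj x hx).1, fun j hj x hx => (hv j hj x hx).2.1,
    fun i j hj hij x hx => ?_⟩
  rw [fderiv_pr4]
  exact (hv j hj x hx).2.2 i hij

end Crest.Agent.R208.AF
end
end

-- ▼ part R208/AF14
section

/-! Row 208, block (A2) (helper601).  AF14: the integral of `ψ * y` over helper10's flat family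
is `-3 c³ (2π)⁻² ∫_{US} x y`. -/

set_option autoImplicit false
set_option linter.unusedSectionVars false
set_option linter.unusedVariables false

open MeasureTheory Set Filter Topology Module
open scoped ContDiff RealInnerProductSpace
open Crest.GeometryTopology.Submanifold
open Crest.Agent.R241.DDefs
open Crest.Agent.R241.D2
open Crest.Agent.R241.D3c
open Crest.Agent.R208.F Crest.Agent.R208.FI Crest.Agent.R208.CW Crest.Agent.R208.T
open Crest.Agent.R208.FG (OSubm)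
open Crest.Agent.R208.SB (OPr oV)
open Crest.Agent.R208.L (US)
open Crest.Agent.R208.FV (phi PVB up dn)
open Crest.Agent.R208.KG (N2 N3 N4 nest4 hf sgi idx Km)

noncomputable section

namespace Crest.Agent.R208.AF

section deg
variable {E₁ : Type*} [NormedAddCommGroup E₁] [NormedSpace ℝ E₁] [FiniteDimensional ℝ E₁]
  {E' : Type*} [NormedAddCommGroup E'] [NormedSpace ℝ E'] [FiniteDimensional ℝ E']
  {G : E₁ × ℝ → E'} {om : E' → Ext E'} {r : ℕ}

theorem isDeg_xiF (h : Hom (r + 1) om) (p : E₁ × ℝ) : IsDeg r (xiF G om p) := by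
  rw [xiF_eq]
  exact ((h _).ii _).pb _

theorem hom_lam (h : Hom (r + 1) om) : Hom r (lam G om) := by
  intro z
  show IsDeg r (∫ t in (0 : ℝ)..1, xiF G om (z, t))
  rw [intervalIntegral]
  have h1 : ∀ a b : ℝ, IsDeg r (∫ t in Ioc a b, xiF G om (z, t)) := fun a b =>
    isDeg_integral _ fun t => isDeg_xiF h _
  exact fun q hq => by rw [map_sub, h1 0 1 q hq, h1 1 0 q hq, sub_zero]

theorem hom_WF (h : Hom (r + 1) om) (c : ℝ) : Hom (r + 1) (fun z => WF G om (z, c)) :=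
  fun z => (h _).pb _

end deg

variable {n N r d e : ℕ} {κ : ℝ} {S : Set (Euc N)} {G : Geo n N κ S} {c ε : ℝ}
  {om : Euc N → Ext (Euc N)} {oP : Euc N × Euc N → Ext (Euc N)}
  {y oU : Euc N × Euc N → Ext (Euc N × Euc N)}

theorem Gm_zero {z : Euc N × Euc N} (hz : z ∈ US G) : Gm G (z, 0) = z.1 := by
  unfold Gm
  rw [mul_zero, zero_smul]
  exact Exp_zero G hz.1.1

theorem Gm_one (z : Euc N × Euc N) : Gm G (z, 1) = (phi G z).2 := by
  unfold Gm phi
  rw [mul_one]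

theorem diff_Gm (t : ℝ) : ∀ z ∈ US G, DifferentiableAt ℝ (fun z => Gm G (z, t)) z := fun z hz =>
  (((fam_Gm G).sm z hz t).comp z (contDiffAt_id.prodMk contDiffAt_const)).differentiableAt (by simp)

theorem W0_eqv : Eqv (US G) (fun z => WF (Gm G) om (z, 0)) (pull Prod.fst om) := by
  have h1 := eqv_pull_of_eq (X := US G) (f := fun z => Gm G (z, 0))
    (g := (Prod.fst : Euc N × Euc N → Euc N)) om (diff_Gm 0) (fun z _ => differentiableAt_fst)
    (fun z hz => Gm_zero hz)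
  exact h1

/-- `d λ = φ^*(x₂ - x₁)` -/
theorem dlam_phi (h : GT.Bla G (r + 1)) (hs : Sm S om) (hc : Cl S om) :
    Eqv (US G) (F.d (lam (Gm G) om)) (pull (phi G) (pull Prod.snd om - pull Prod.fst om)) := by
  refine (d_lam (fam_Gm G) hs hc).trans ?_
  rw [pull_sub']
  have hphi := smap_phi h
  refine Eqv.sub ?_ ?_
  · refine (Eqv.of_eq fun z hz => ?_ : Eqv (US G) _ _)
    have h1 := pull_comp (f := phi G) (g := Prod.snd) (om := om) (hphi.diff hz)
      differentiableAt_snd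
    rw [h1]
    have h2 : (fun z => Gm G (z, 1)) = Prod.snd ∘ phi G := funext fun z => Gm_one z
    show pull (fun z => Gm G (z, 1)) om z = _
    rw [h2]
  · refine W0_eqv.trans ?_
    have h0 : ∀ z ∈ US G, pull (phi G) (pull Prod.fst om) z = pull (Prod.fst ∘ phi G) om z :=
      fun z hz => pull_comp (f := phi G) (g := Prod.fst) (om := om) (hphi.diff hz)
        differentiableAt_fst
    exact (Eqv.of_eq h0).symm

/-- `∫ (2 a + b) y = 3 ∫ x y` -/
theorem J_end (L : Lv G d (US G) (fun z => z) oU) (hs : Sm S om) (hc : Cl S om)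
    (sy : Sm (US G) y) (cy : Cl (US G) y) :
    J d (US G) oU (((2 : ℝ) • (fun z => WF (Gm G) om (z, 0)) + fun z => WF (Gm G) om (z, 1)) * y) =
      3 * J d (US G) oU (pull Prod.fst om * y) := by
  have hG := fam_Gm G
  have sW : ∀ c : ℝ, Sm (US G) (fun z => WF (Gm G) om (z, c)) := fun c z hz =>
    (hG.smF_W hs).slice hz c
  have sl := sm_lam hG hs
  have sf : Sm (US G) (pull Prod.fst om) := hs.pull ⟨fun _ _ => contDiffAt_fst, fun z hz => hz.1.1⟩
  have h1 : Eqv (US G) (F.d (lam (Gm G) om * y))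
      (((fun z => WF (Gm G) om (z, 1)) - fun z => WF (Gm G) om (z, 0)) * y) := by
    refine (d_mul_eqv sl sy).trans ?_
    have h2 := ((d_lam hG hs hc).mul (Eqv.refl y)).add
      ((Eqv.refl (fun x => inv (lam (Gm G) om x))).mul (resZero_iff.1 cy))
    rwa [mul_zero, add_zero] at h2
  have h3 : Nu d (US G) oU
      (((fun z => WF (Gm G) om (z, 1)) - fun z => WF (Gm G) om (z, 0)) * y) :=
    Nu.of_eqv L.clo (((sW 1).sub (sW 0)).mul sy) h1.symm (Nu.dd L.clo L.ori (sl.mul sy))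
  have h4 : Eqv (US G)
      (((2 : ℝ) • (fun z => WF (Gm G) om (z, 0)) + fun z => WF (Gm G) om (z, 1)) * y)
      ((3 : ℝ) • (pull Prod.fst om * y) +
        ((fun z => WF (Gm G) om (z, 1)) - fun z => WF (Gm G) om (z, 0)) * y) := by
    have e1 : ((2 : ℝ) • (fun z => WF (Gm G) om (z, 0)) + fun z => WF (Gm G) om (z, 1)) * y =
        ((3 : ℝ) • ((fun z => WF (Gm G) om (z, 0)) * y)) +
        ((fun z => WF (Gm G) om (z, 1)) - fun z => WF (Gm G) om (z, 0)) * y := by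
      rw [show (3 : ℝ) = 2 + 1 by norm_num, add_smul, one_smul, add_mul, sub_mul, smul_mul_assoc]
      abel
    rw [e1]
    exact ((W0_eqv.mul (Eqv.refl y)).smul 3).add (Eqv.refl _)
  rw [J_eqv L.clo h4, J_add' L.clo L.ori ((sf.mul sy).smul 3) h3.1, h3.2, add_zero, J_smul']

/-- **the integral over the flat family** -/
theorem J_flat (h : GT.Bla G (r + 1)) (hO : KG.OK G 4 ε)
    (hoP : OPr (GT.FF S) (r + 1) (PVB h) oP) (hd : d + 1 = 2 * n)
    (L : Lv G d (US G) (fun z => z) oU) (ev : Even (r + 1)) (hr : 1 ≤ r)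
    {Y : Set (Euc N × Euc N)} {oF : Euc N × Euc N → Ext (Euc N × Euc N)} {d' : ℕ}
    (hW : OSubm r d' (US G) Y (phi G) (oWf G oP) oF)
    (hs : Sm S om) (hcl : Cl S om) (hom : Hom (r + 1) om)
    (hc : ∀ z ∈ US G, J r (US G ∩ phi G ⁻¹' {phi G z}) (oWf G oP) (lam (Gm G) om) = c)
    (sy : Sm (US G) y) (cy : Cl (US G) y) (dy : Hom e y) (hed : r + 1 + e = d) :
    (2 * Real.pi) ^ 2 * J (r + (r + (r + d))) (N4 h) (o4 G oP oU)
      (psiK (2 * Real.pi) (WF (Fm G ε) om) (xiF (Fm G ε) om) * pull (pr4 0) y) =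
      -(3 * c ^ 3 * J d (US G) oU (pull Prod.fst om * y)) := by
  have w := four h hO
  obtain ⟨v, vT, v0, hv⟩ := exists_v h hd hr
  have L1 := L.next h hoP hr
  have L2 := L1.next h hoP hr
  have L3 := L2.next h hoP hr
  have hK : Clo (r + (r + (r + d))) (N4 h) := L3.clo
  have ho : Ori (r + (r + (r + d))) (N4 h) (o4 G oP oU) := L3.ori
  have he : ∀ y, inv (om y) = om y := by
    intro y
    obtain ⟨j, hj⟩ := ev
    exact inv_of_isDeg (j := j) (by rw [← two_mul] at hj; rw [← hj]; exact hom y)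
  have h1 : ∀ i, ∀ x ∈ N4 h, (pr4 i x).1 = (pr4 0 x).1 := by
    intro i x hx
    fin_cases i <;> rfl
  have hp0 : ∀ i, ∀ x ∈ N4 h, Gm G (pr4 i x, 0) = Gm G (pr4 0 x, 0) := by
    intro i x hx
    show Exp G (pr4 i x).1 ((Real.pi * 0) • (pr4 i x).2) =
      Exp G (pr4 0 x).1 ((Real.pi * 0) • (pr4 0 x).2)
    rw [mul_zero, zero_smul, zero_smul, h1 i x hx]
  have hp1 : ∀ i, ∀ x ∈ N4 h, Gm G (pr4 i x, 1) = Gm G (pr4 0 x, 1) := by
    intro i x hx
    rw [Gm_one, Gm_one, (smap_pr4 h i).2 x hx]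
  have h2 := w.J_psi hs hcl he hK ho hp0 hp1 vT v0 hv sy cy
  rw [h2]
  congr 1
  set lm := lam (Gm G) om with hlm
  set W : Euc N × Euc N → Ext (Euc N × Euc N) :=
    ((2 : ℝ) • (fun z => WF (Gm G) om (z, 0)) + fun z => WF (Gm G) om (z, 1)) * y with hWd
  have sW : ∀ c : ℝ, Sm (US G) (fun z => WF (Gm G) om (z, c)) := fun c z hz =>
    ((fam_Gm G).smF_W hs).slice hz c
  have sWd : Sm (US G) W := (((sW 0).smul 2).add (sW 1)).mul sy
  have dWd : Hom d W := by
    rw [← hed]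
    exact (((hom_WF hom 0).smul 2).add (hom_WF hom 1)).mul dy
  have e1 : ((2 : ℝ) • pull (pr4 0) (fun z => WF (Gm G) om (z, 0)) +
      pull (pr4 0) (fun z => WF (Gm G) om (z, 1))) * pull (pr4 0) y = pull (pr4 0) W := by
    rw [hWd, pull_mul', pull_add', pull_smul']
  rw [e1, J_N4 h hoP L ev hr hW (sm_lam (fam_Gm G) hs) (hom_lam hom) hc sWd dWd, hWd,
    J_end L hs hcl sy cy]
  ring

end Crest.Agent.R208.AF
end
end

-- ▼ part R208/AF16
section

/-! Row 208, block (A2) (helper601).  AF16: the end statement of the form part: the integral of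
helper997's `psi` and `vv` over helper10's flat family. -/

set_option autoImplicit false
set_option linter.unusedSectionVars false
set_option linter.unusedVariables false

open MeasureTheory Set Filter Topology Module
open scoped ContDiff RealInnerProductSpace
open Crest.GeometryTopology.Submanifold
open Crest.Agent.R241.DDefs
open Crest.Agent.R241.D2
open Crest.Agent.R241.D3c
open Crest.Agent.R208.F Crest.Agent.R208.FI Crest.Agent.R208.CW Crest.Agent.R208.T
open Crest.Agent.R208.FG (OSubm)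
open Crest.Agent.R208.SB (OPr oV)
open Crest.Agent.R208.L (US)
open Crest.Agent.R208.FV (phi PVB up dn)
open Crest.Agent.R208.KG (N2 N3 N4 nest4 hf sgi idx Km)
open Crest.Agent.R208.VC (Act psi vv xi Av)

noncomputable section

namespace Crest.Agent.R208.AF

section high
variable {E : Type*} [NormedAddCommGroup E] [NormedSpace ℝ E] [FiniteDimensional ℝ E]
  {X : Set E} {m j : ℕ} {a : E → Ext E}


end high

section vvs
variable {E : Type*} [NormedAddCommGroup E] [NormedSpace ℝ E] [FiniteDimensional ℝ E]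
  {F' : Type*} [NormedAddCommGroup F'] [NormedSpace ℝ F'] [FiniteDimensional ℝ F']
  {E₁ : Type*} [NormedAddCommGroup E₁] [NormedSpace ℝ E₁] [FiniteDimensional ℝ E₁]
  {φ : ℝ → E → E} {K : Set F'} {U : Set E₁} {s : F' → E} {pr : F' → E₁}
  {ee b : E → Ext E} {e0 y : E₁ → Ext E₁} {p q d e : ℕ} {r₁ r₂ : ℝ}





end vvs

section endst
variable {n N r d e : ℕ} {κ : ℝ} {S : Set (Euc N)} {G : Geo n N κ S} {c ε : ℝ}
  {om : Euc N → Ext (Euc N)} {oP : Euc N × Euc N → Ext (Euc N)}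
  {y oU e0 : Euc N × Euc N → Ext (Euc N × Euc N)}

/-- the orientation of `US → F` -/
theorem osubm_W (h : GT.Bla G (r + 1)) (hoP : OPr (GT.FF S) (r + 1) (PVB h) oP) {d' : ℕ}
    (hd' : d' + (r + 1) = 2 * n) {oF : Euc N × Euc N → Ext (Euc N × Euc N)}
    (ho : Ori d' (GT.FF S) oF) (hoF : ∀ x, IsDeg d' (oF x)) :
    OSubm r d' (US G) (GT.FF S) (phi G) (oWf G oP) oF := by
  have h1 := SB.osubm_Sph (FV.clo_FF' h hd') (FV.pfield_PVB h) hoP ho hoF
  exact (SB.dif_US h).osubm (SB.clo_US h (d := r + d') (by omega)) h1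

variable {E : Type} [NormedAddCommGroup E] [NormedSpace ℝ E] [FiniteDimensional ℝ E]
  {X : Set E} {φ : ℝ → E → E} {s : E4 N → E} {f : E → Euc N} {ee : E → Ext E}
  {p q : ℕ} {r₁ r₂ : ℝ}

/-- **END STATEMENT** (form part of (A2)): the integral of `psi` over the flat four arc family -/
theorem J_psi_flat (h : GT.Bla G (r + 1)) (hO : KG.OK G 4 ε)
    (hoP : OPr (GT.FF S) (r + 1) (PVB h) oP) (hd : d + 1 = 2 * n)
    (L : Lv G d (US G) (fun z => z) oU) (ev : Even (r + 1)) (hr : 1 ≤ r)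
    {Y : Set (Euc N × Euc N)} {oF : Euc N × Euc N → Ext (Euc N × Euc N)} {d' : ℕ}
    (hW : OSubm r d' (US G) Y (phi G) (oWf G oP) oF)
    (hs : Sm S om) (hcl : Cl S om) (hom : Hom (r + 1) om)
    {z₀ : Euc N × Euc N} (hz₀ : z₀ ∈ US G)
    (hc : J r (US G ∩ phi G ⁻¹' {phi G z₀}) (oWf G oP) (lam (Gm G) om) = c)
    (sy : Sm (US G) y) (cy : Cl (US G) y) (dy : Hom e y) (hed : r + 1 + e = d)
    (hφ : Act X φ) (hsm : SMap (N4 h) X s) (hf : SMap X S f)
    (hfs : ∀ k ∈ N4 h, ∀ t, f (φ t (s k)) = KG.F G 4 ε (nest4 k) 1 t) :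
    (2 * Real.pi) ^ 2 * J (r + (r + (r + d))) (N4 h) (o4 G oP oU)
      (F.pull s (psi φ (F.pull f om)) * F.pull (fun z => z.1.1.1) y) =
      -(3 * c ^ 3 * J d (US G) oU (F.pull Prod.fst om * y)) := by
  have L1 := L.next h hoP hr
  have L2 := L1.next h hoP hr
  have L3 := L2.next h hoP hr
  have hK : Clo (r + (r + (r + d))) (N4 h) := L3.clo
  have hev : ∀ y, inv (om y) = om y := by
    intro y
    obtain ⟨j, hj⟩ := ev
    exact inv_of_isDeg (j := j) (by rw [← two_mul] at hj; rw [← hj]; exact hom y)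
  have hc' : ∀ z ∈ US G, J r (US G ∩ phi G ⁻¹' {phi G z}) (oWf G oP) (lam (Gm G) om) = c := by
    intro z hz
    rw [← hc]
    exact c_const h hoP L ev hr hW (sm_lam (fam_Gm G) hs) (dlam_phi h hs hcl) hz hz₀
  have h1 := J_flat h hO hoP hd L ev hr hW hs hcl hom hc' sy cy dy hed
  have h2 := psi_slice (Fm := Fm G ε) hφ hsm hf (fam_Fm h hO) (fun k hk t => (hfs k hk t).symm)
    hs hev
  rw [← h1]
  congr 1
  exact J_eqv hK (h2.mul (Eqv.refl (F.pull (pr4 0) y)))


/-- another orientation of `N4` only changes the sign -/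
theorem sign_N4 (h : GT.Bla G (r + 1)) (hoP : OPr (GT.FF S) (r + 1) (PVB h) oP)
    (L : Lv G d (US G) (fun z => z) oU) (hr : 1 ≤ r) {oK : E4 N → Ext (E4 N)}
    (hoK : Ori (r + (r + (r + d))) (N4 h) oK) :
    ∃ sg : ℝ, (sg = 1 ∨ sg = -1) ∧ ∀ a, J (r + (r + (r + d))) (N4 h) oK a =
      sg * J (r + (r + (r + d))) (N4 h) (o4 G oP oU) a := by
  have L1 := L.next h hoP hr
  have L2 := L1.next h hoP hr
  have L3 := L2.next h hoP hr
  have hK : Clo (r + (r + (r + d))) (N4 h) := L3.clo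
  have ho : Ori (r + (r + (r + d))) (N4 h) (o4 G oP oU) := L3.ori
  have hc : IsPreconnected (N4 h) := L3.conn
  rcases J_ori_connected hK ho hoK hc with h1 | h1
  · exact ⟨1, Or.inl rfl, fun a => by rw [h1, one_mul]⟩
  · exact ⟨-1, Or.inr rfl, fun a => by rw [h1, neg_one_mul]⟩

end endst

end Crest.Agent.R208.AF
end
end

-- ▼ part R208/AN1
section

/-! Row 208, block (N) (helper601).  AN1: the end statements of AF16, AF17 in helper530's words:
the integral of `D.vs α F_flat` over helper10's flat four arc family. -/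

set_option autoImplicit false
set_option linter.unusedSectionVars false
set_option linter.unusedVariables false

open MeasureTheory Set Filter Topology Module
open scoped ContDiff RealInnerProductSpace
open Crest.GeometryTopology.Submanifold
open Crest.Agent.R241.DDefs
open Crest.Agent.R241.D2
open Crest.Agent.R241.D3c
open Crest.Agent.R208.F Crest.Agent.R208.FI Crest.Agent.R208.CW Crest.Agent.R208.T
open Crest.Agent.R208.FG (OSubm)
open Crest.Agent.R208.SB (OPr oV)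
open Crest.Agent.R208.L (US)
open Crest.Agent.R208.FV (phi PVB up dn)
open Crest.Agent.R208.KG (N2 N3 N4 nest2 nest4 hf sgi idx Km)
open Crest.Agent.R208.VC (Act psi vv xi Av)
open Crest.Agent.R208.AF
open Crest.Agent.R208.EX (ED LF sl rot circ Cc ex)

noncomputable section

namespace Crest.Agent.R208.AN

variable {n N d r e : ℕ} {κ ε c : ℝ} {S : Set (Euc N)} {G : Geo n N κ S}
  {oP : Euc N × Euc N → Ext (Euc N)} {om : Euc N → Ext (Euc N)}
  {oU y : Euc N × Euc N → Ext (Euc N × Euc N)}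

/-- the flat family over `N4` -/
def Ff (G : Geo n N κ S) (ε : ℝ) (k : E4 N) (t : ℝ) : Euc N := KG.F G 4 ε (nest4 k) 1 t

theorem lf_Ff (h : GT.Bla G (r + 1)) (hO : KG.OK G 4 ε) : LF S (N4 h) (Ff G ε) where
  smooth := fun k hk t => (fam_Fm h hO).sm k hk t
  per := fun k hk t => KG.F_per t
  mem := fun k hk t => (fam_Fm h hO).maps k hk t



/-- the integral of `psi` of the circle form of the flat family -/
theorem J_psi_circ (h : GT.Bla G (r + 1)) (hO : KG.OK G 4 ε)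
    (hoP : OPr (GT.FF S) (r + 1) (PVB h) oP) (hd : d + 1 = 2 * n)
    (L : Lv G d (US G) (fun z => z) oU) (ev : Even (r + 1)) (hr : 1 ≤ r)
    {Y : Set (Euc N × Euc N)} {oF : Euc N × Euc N → Ext (Euc N × Euc N)} {d' : ℕ}
    (hW : OSubm r d' (US G) Y (phi G) (oWf G oP) oF)
    (hs : Sm S om) (hcl : Cl S om) (hom : Hom (r + 1) om)
    {z₀ : Euc N × Euc N} (hz₀ : z₀ ∈ US G)
    (hc : J r (US G ∩ phi G ⁻¹' {phi G z₀}) (oWf G oP) (lam (Gm G) om) = c)
    (sy : Sm (US G) y) (cy : Cl (US G) y) (dy : Hom e y) (hed : r + 1 + e = d) :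
    (2 * Real.pi) ^ 2 * J (r + (r + (r + d))) (N4 h) (o4 G oP oU)
      (F.pull sl (psi rot (F.pull (circ (Ff G ε)) om)) * F.pull (fun z => z.1.1.1) y) =
      -(3 * c ^ 3 * J d (US G) oU (F.pull Prod.fst om * y)) := by
  have hf := (lf_Ff h hO).fam
  refine J_psi_flat h hO hoP hd L ev hr hW hs hcl hom hz₀ hc sy cy dy hed (EX.act_rot (N4 h))
    (EX.smap_sl _) ⟨hf.smooth, fun z hz => hf.maps z hz⟩ fun k hk t => ?_
  have h1 : rot t (sl k) = (k, ex t) := by
    rw [EX.rot, sl, mul_one]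
  rw [h1, EX.circ_ex ((lf_Ff h hO).per k hk)]
  rfl

/-- **the integral of `D.vs α F_flat`** over `N4` -/
theorem J_vs_flat (h : GT.Bla G (r + 1)) (hO : KG.OK G 4 ε)
    (hoP : OPr (GT.FF S) (r + 1) (PVB h) oP) (hd : d + 1 = 2 * n)
    (L : Lv G d (US G) (fun z => z) oU) (ev : Even (r + 1)) (hr : 1 ≤ r)
    {Y : Set (Euc N × Euc N)} {oF : Euc N × Euc N → Ext (Euc N × Euc N)} {d' : ℕ}
    (hW : OSubm r d' (US G) Y (phi G) (oWf G oP) oF)
    {D : ED N} (hD : D.OK) (hS : D.S = S) {α : E4 N → Ext (E4 N)} (hα : Sm (N4 h) α)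
    (hα1 : Hom 1 α) (hp : 1 ≤ D.p) (hq : 1 ≤ D.q)
    (hs : Sm S D.om) (hcl : Cl S D.om) (hom : Hom (r + 1) D.om)
    {z₀ : Euc N × Euc N} (hz₀ : z₀ ∈ US G)
    (hc : J r (US G ∩ phi G ⁻¹' {phi G z₀}) (oWf G oP) (lam (Gm G) D.om) = c)
    (sy : Sm (US G) y) (cy : Cl (US G) y) (dy : Hom e y) (hed : r + 1 + e = d) :
    (2 * Real.pi) ^ 2 * J (r + (r + (r + d))) (N4 h) (o4 G oP oU)
      (D.vs α (Ff G ε) * F.pull (fun z => z.1.1.1) y) =
      -(3 * c ^ 3 * J d (US G) oU (F.pull Prod.fst D.om * y)) := by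
  have L1 := L.next h hoP hr
  have L2 := L1.next h hoP hr
  have L3 := L2.next h hoP hr
  have hK : Clo (r + (r + (r + d))) (N4 h) := L3.clo
  have hK' : Ori (r + (r + (r + d))) (N4 h) (o4 G oP oU) := L3.ori
  have hlf : LF D.S (N4 h) (Ff G ε) := hS ▸ lf_Ff h hO
  rw [← J_psi_circ h hO hoP hd L ev hr hW hs hcl hom hz₀ hc sy cy dy hed]
  congr 1
  have hpr : SMap (N4 h) (US G) (fun z : E4 N => z.1.1.1) := (smap_pr4 h 0).1
  have h1 := ED.vs_coh hD hK.sub hα hα1 hlf hp hq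
  have h2 := Coh.mul_right (sy.pull hpr) (cy.pull hpr sy) h1
  have hA := EX.act_rot (N4 h)
  have hdat := hD.dat hlf.fam
  have s1 : Sm (N4 h) (F.pull sl (psi rot (F.pull (circ (Ff G ε)) D.om))) :=
    (VC.sm_psi hA hdat.sm).pull (EX.smap_sl _)
  have s2 : Sm (N4 h) (D.vs α (Ff G ε)) := by
    have hcn := EX.cn_th hα hα1
    have hb := hcn.bas hA (EX.sub_prodC hK.sub)
    exact (VC.sm_vv (p := D.p) (q := D.q) (r := D.r) (s := D.s) hA hb hdat).pull (EX.smap_sl _)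
  exact SN.J_of_coh hK hK' (s2.mul (sy.pull hpr)) (s1.mul (sy.pull hpr)) h2

end Crest.Agent.R208.AN
end
end

-- ▼ part R208/AN2
section

/-! Row 208, block (N) (helper601).  AN2: the absolute value of the integral of `D.vs α F_flat * y`
over `N4` for arbitrary orientations, from the absolute value of the fibre integral of
`K (EE^* om)`. -/

set_option autoImplicit false
set_option linter.unusedSectionVars false
set_option linter.unusedVariables false

open MeasureTheory Set Filter Topology Module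
open scoped ContDiff RealInnerProductSpace
open Crest.GeometryTopology.Submanifold
open Crest.Agent.R241.DDefs
open Crest.Agent.R241.D2
open Crest.Agent.R241.D3c
open Crest.Agent.R208.F Crest.Agent.R208.FI Crest.Agent.R208.CW Crest.Agent.R208.T
open Crest.Agent.R208.FG (OSubm)
open Crest.Agent.R208.SB (OPr oV)
open Crest.Agent.R208.L (US)
open Crest.Agent.R208.FV (phi PVB up dn)
open Crest.Agent.R208.KG (N2 N3 N4 nest2 nest4 hf sgi idx Km)
open Crest.Agent.R208.VC (Act psi vv xi Av)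
open Crest.Agent.R208.AF
open Crest.Agent.R208.EX (ED LF sl circ Cc ex)

noncomputable section

namespace Crest.Agent.R208.AN

section gen
variable {E : Type*} [NormedAddCommGroup E] [NormedSpace ℝ E] [FiniteDimensional ℝ E]
  {d : ℕ} {X : Set E} {o : E → Ext E}

/-- the homogeneous part of an orientation -/
theorem ori_dp (ho : Ori d X o) : Ori d X (T.dp d o) where
  cont := (dplL (E := E) d).continuous.comp_continuousOn ho.cont
  ne := fun x hx => by
    show evA E d (dpl d (o x)) _ ≠ 0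
    rw [CM.evA_dpl_same]
    exact ho.ne x hx

theorem J_dp (hX : Clo d X) (om : E → Ext E) : J d X (T.dp d o) om = J d X o om :=
  CM.J_congr_dens hX (fun x _ => by
    show evA E d (dpl d (o x)) _ = _
    rw [CM.evA_dpl_same]) (fun x _ => rfl)

end gen

variable {n N d r e k mK : ℕ} {κ ε c τ : ℝ} {S : Set (Euc N)} {G : Geo n N κ S}
  {oP : Euc N × Euc N → Ext (Euc N)} {om : Euc N → Ext (Euc N)}
  {oU y : Euc N × Euc N → Ext (Euc N × Euc N)}

/-- `lam` is the fibre integral `K (EE^* om)` -/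
theorem lam_eq (G : Geo n N κ S) (om : Euc N → Ext (Euc N)) :
    lam (Gm G) om = RR.K (F.pull (RRC.EE G) om) := by
  funext z
  rw [CG.K_apply]
  rfl

theorem fibre_eq {z : Euc N × Euc N} (hz : z ∈ US G) :
    US G ∩ phi G ⁻¹' {phi G z} = US G ∩ NB.ph G ⁻¹' {NB.ph G z} := by
  ext y
  constructor
  · rintro ⟨hy, h1⟩
    refine ⟨hy, ?_⟩
    have e1 := KR.phi_eq hy
    have e2 := KR.phi_eq hz
    have h2 : phi G y = phi G z := h1
    rw [e1, e2] at h2
    exact h2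
  · rintro ⟨hy, h1⟩
    refine ⟨hy, ?_⟩
    show phi G y = phi G z
    rw [KR.phi_eq hy, KR.phi_eq hz]
    exact h1

/-- orientations of `F` -/
theorem exists_ori_FF (h : GT.Bla G k) (hk : 2 ≤ k) (hkn : k < n) {d' : ℕ} (hd : d' + k = 2 * n) :
    ∃ oF : Euc N × Euc N → Ext (Euc N × Euc N), Ori d' (GT.FF S) oF ∧ ∀ x, IsDeg d' (oF x) := by
  obtain ⟨oS, h1, -, h3⟩ := GP.exists_ori h.bl h.ty hk
  obtain ⟨oV, hdV, hos⟩ := FG.exists_osubm h hk hkn h1 h3
  have hdd : d' = n - k + n := by omega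
  subst hdd
  refine ⟨_, hos.tot, fun z => T.IsDeg.mul (hdV z) ?_⟩
  rw [FG.pull_fst_apply]
  exact (h3 _).pb _

/-- **the absolute value of the integral over the flat family** -/
theorem abs_vs_flat (h : GT.Bla G k) (hk : 2 ≤ k) (ev : Even k) (hkn : k < n)
    (hO : KG.OK G 4 ε) {D : ED N} (hD : D.OK) (hS : D.S = S) {α : E4 N → Ext (E4 N)}
    (hα : Sm (N4 h) α) (hα1 : Hom 1 α) (hp : 1 ≤ D.p) (hq : 1 ≤ D.q)
    (hs : Sm S D.om) (hcl : Cl S D.om) (hom : Hom k D.om)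
    {z₀ : Euc N × Euc N} (hz₀ : z₀ ∈ US G)
    (hτ : ∀ oF : Euc N × Euc N → Ext (Euc N × Euc N),
      Ori (k - 1) (US G ∩ NB.ph G ⁻¹' {NB.ph G z₀}) oF →
      |J (k - 1) (US G ∩ NB.ph G ⁻¹' {NB.ph G z₀}) oF (RR.K (F.pull (RRC.EE G) D.om))| = τ)
    (hd : d + 1 = 2 * n) (hed : k + e = d) (hmK : mK = 3 * (k - 1) + d)
    (hoU : Ori d (US G) oU) {oK : E4 N → Ext (E4 N)} (hoK : Ori mK (N4 h) oK)
    (sy : Sm (US G) y) (cy : Cl (US G) y) (dy : Hom e y) :
    (2 * Real.pi) ^ 2 * |J mK (N4 h) oK (D.vs α (Ff G ε) * F.pull (fun z => z.1.1.1) y)| =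
      3 * τ ^ 3 * |J d (US G) oU (F.pull Prod.fst D.om * y)| := by
  obtain ⟨r, rfl⟩ : ∃ r, k = r + 1 := ⟨k - 1, by omega⟩
  have hr : 1 ≤ r := by omega
  obtain rfl : mK = r + (r + (r + d)) := by omega
  obtain ⟨oP, hoP⟩ := SB.exists_opr_V h hk hkn
  obtain ⟨oF, hoF, hdF⟩ := exists_ori_FF h hk hkn (d' := 2 * n - (r + 1)) (by omega)
  have hW := osubm_W h hoP (by omega) hoF hdF
  have hU : Clo d (US G) := SB.clo_US h hd
  have L : Lv G d (US G) (fun z => z) (T.dp d oU) :=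
    lv0 h hd (by omega) (ori_dp hoU) (fun x => hom_dp d oU x)
  have h1 := J_vs_flat h hO hoP hd L ev hr hW hD hS hα hα1 hp hq hs hcl hom hz₀ rfl sy cy dy hed
  obtain ⟨sg, hsg, h2⟩ := sign_N4 h hoP L hr hoK
  have h3 := hτ _ (by
    have h4 := hW.fib (phi G z₀)
    rw [fibre_eq hz₀] at h4
    exact h4)
  rw [← fibre_eq hz₀, ← lam_eq] at h3
  rw [J_dp hU] at h1
  have h3' : |J r (US G ∩ phi G ⁻¹' {phi G z₀}) (oWf G oP) (lam (Gm G) D.om)| = τ := h3
  have h5 := congrArg abs h1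
  have hpi := Real.pi_pos
  rw [abs_mul, abs_neg, abs_mul, abs_mul, abs_pow, abs_pow, h3',
    abs_of_nonneg (by norm_num : (0 : ℝ) ≤ 3), abs_of_nonneg (by positivity : 0 ≤ 2 * Real.pi)] at h5
  rw [h2, abs_mul, ← h5]
  rcases hsg with rfl | rfl <;> simp

end Crest.Agent.R208.AN
end
end

-- ▼ part R208/AN3
section

/-! Row 208, block (N) (helper601).  AN3: the number `a₂` and the numerical identity (N). -/

set_option autoImplicit false
set_option linter.unusedSectionVars false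
set_option linter.unusedVariables false

open MeasureTheory Set Filter Topology Module
open scoped ContDiff
open Crest.Agent.R208.F Crest.Agent.R208.FI Crest.Agent.R208.CW Crest.Agent.R208.T
open Crest.Agent.R208.SN

noncomputable section

namespace Crest.Agent.R208.AN

section a2
variable {E : Type*} [NormedAddCommGroup E] [NormedSpace ℝ E] [FiniteDimensional ℝ E]
  {d : ℕ} {X : Set E} {o u x y : E → Ext E} {a2 A Δ τ : ℝ}

/-- **the number `a₂`** from one closed form `y` with `∫ x y ≠ 0` -/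
theorem abs_a2 (hX : Clo d X) (ho : Ori d X o) (su : Sm X u) (sx : Sm X x) (sy : Sm X y)
    (cy : Cl X y) (hu : Coh X u (a2 • x)) (hloc : |J d X o (u * y)| = Δ * |A|)
    (hflat : (2 * Real.pi) ^ 2 * |A| = 3 * τ ^ 3 * |J d X o (x * y)|)
    (hne : J d X o (x * y) ≠ 0) : (2 * Real.pi) ^ 2 * |a2| = 3 * Δ * τ ^ 3 := by
  have h1 := Coh.mul_right sy cy hu
  have h2 := J_of_coh hX ho (su.mul sy) ((sx.smul a2).mul sy) h1
  rw [smul_mul_assoc, AF.J_smul'] at h2
  rw [h2, abs_mul] at hloc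
  have h3 : 0 < |J d X o (x * y)| := abs_pos.2 hne
  refine mul_right_cancel₀ h3.ne' ?_
  linear_combination (2 * Real.pi) ^ 2 * hloc + Δ * hflat

end a2

/-- **(N), the numbers** -/
theorem N_num {ε7 a2 ν c₀ n₁ τ Δ₁ Δ₂ : ℝ} (hτ : 0 < τ) (hΔ₁ : 0 < Δ₁) (hΔ₂ : 0 < Δ₂)
    (h7 : |ε7| = 2 * (2 ^ 7 * (Nat.factorial 7)))
    (ha : (2 * Real.pi) ^ 2 * |a2| = 3 * (Δ₁ * Δ₂) * τ ^ 3)
    (hν : |τ * ν| = 12 * (2 * Real.pi) ^ 4)
    (hc : |c₀| = Δ₂ * (2 * ((4 * Real.pi) ^ 7 * (Nat.factorial 7))))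
    (hn : 2 * Real.pi * |n₁| = Δ₁ * τ) :
    |ε7 * a2 * ν ^ 2| = 432 * |c₀ * n₁| ∧ c₀ * n₁ ≠ 0 := by
  have hpi := Real.pi_pos
  have hν2 : τ ^ 2 * ν ^ 2 = 144 * (2 * Real.pi) ^ 8 := by
    have : (τ * ν) ^ 2 = (12 * (2 * Real.pi) ^ 4) ^ 2 := by rw [← sq_abs, hν]
    linear_combination this
  have hν' : ν ^ 2 = 144 * (2 * Real.pi) ^ 8 / τ ^ 2 := by
    field_simp
    linarith
  have ha' : |a2| = 3 * (Δ₁ * Δ₂) * τ ^ 3 / (2 * Real.pi) ^ 2 := by
    field_simp
    linarith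
  have hn' : |n₁| = Δ₁ * τ / (2 * Real.pi) := by
    field_simp
    linarith
  refine ⟨?_, ?_⟩
  · rw [abs_mul, abs_mul, abs_mul, abs_of_nonneg (sq_nonneg ν), h7, ha', hν', hc, hn']
    field_simp
    ring
  · refine mul_ne_zero ?_ ?_
    · rw [← abs_pos, hc]; positivity
    · rw [← abs_pos, hn']; positivity

variable {ι ι₁ ι₁' ι₂ ι₂' : Type*} [Fintype ι] [Fintype ι₁] [Fintype ι₁'] [Fintype ι₂]
  [Fintype ι₂'] [Nonempty ι₁'] [Nonempty ι₂] [Nonempty ι₂']

theorem kGG_pos (ι : Type*) [Fintype ι] [Nonempty ι] : 0 < kGG ι := by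
  rw [kGG_eq]
  have := Real.pi_pos
  positivity


end Crest.Agent.R208.AN
end
end

-- ▼ part R208/AN4
section

/-! Row 208, block (N) (helper601).  AN4: variants of the two number statements. -/

set_option autoImplicit false
set_option linter.unusedSectionVars false
set_option linter.unusedVariables false

open MeasureTheory Set Filter Topology Module
open scoped ContDiff
open Crest.Agent.R208.F Crest.Agent.R208.FI Crest.Agent.R208.CW Crest.Agent.R208.T
open Crest.Agent.R208.SN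

noncomputable section

namespace Crest.Agent.R208.AN

section a2
variable {E : Type*} [NormedAddCommGroup E] [NormedSpace ℝ E] [FiniteDimensional ℝ E]
  {d : ℕ} {X : Set E} {o u x y : E → Ext E} {a2 Δ τ : ℝ}



end a2

variable {ι ι₁' ι₂ ι₂' : Type*} [Fintype ι] [Fintype ι₁'] [Fintype ι₂]
  [Fintype ι₂'] [Nonempty ι₁'] [Nonempty ι₂] [Nonempty ι₂']

/-- **(N)** with helper378's number `n₁` -/
theorem N_of' {V₁ V₂ : Type*} [NormedAddCommGroup V₁] [InnerProductSpace ℝ V₁]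
    [FiniteDimensional ℝ V₁] [NormedAddCommGroup V₂] [InnerProductSpace ℝ V₂]
    [FiniteDimensional ℝ V₂] {ε7 a2 ν c₀ n₁ : ℝ} (hι₂ : Fintype.card ι₂ = 7)
    (h7 : |ε7| = 2 * (2 ^ 7 * (Nat.factorial 7)))
    (ha : (2 * Real.pi) ^ 2 * |a2| =
      3 * ((LC.del V₁ * kGG ι₁') * (LC.del V₂ * kGG ι₂')) * XF.tau ι ^ 3)
    (hν : |XF.tau ι * ν| = 12 * (2 * Real.pi) ^ 4)
    (hc : |c₀| = LC.del V₂ * (kGG ι₂' * kGG ι₂))
    (hn : 2 * Real.pi * |n₁| = LC.del V₁ * kGG ι₁' * XF.tau ι) :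
    |ε7 * a2 * ν ^ 2| = 432 * |c₀ * n₁| ∧ c₀ * n₁ ≠ 0 := by
  have hpi := Real.pi_pos
  refine N_num (τ := XF.tau ι) (Δ₁ := LC.del V₁ * kGG ι₁') (Δ₂ := LC.del V₂ * kGG ι₂')
    (XF.tau_pos ι) (mul_pos (LC.del_pos V₁) (kGG_pos ι₁')) (mul_pos (LC.del_pos V₂) (kGG_pos ι₂'))
    h7 ha hν ?_ hn
  rw [hc, kGG_eq ι₂, hι₂]
  ring

/-- `τ ν = ± 12 (2π)⁴` for `ν = μ / 192`, `μ² = 36` -/
theorem tau_nu {ν : ℝ} (hι : Fintype.card ι = 4) (h : |ν| = 1 / 32) :
    |XF.tau ι * ν| = 12 * (2 * Real.pi) ^ 4 := by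
  have e2 : ((Nat.factorial 4 : ℕ) : ℝ) = 24 := by norm_num [Nat.factorial]
  have hpi := Real.pi_pos
  rw [abs_mul, abs_of_pos (XF.tau_pos ι), h, XF.tau, hι, e2]
  ring

end Crest.Agent.R208.AN
end
end

-- ▼ part R208/AN5
section

/-! Row 208, block (N) (helper601).  AN5: the flat integral for `om = x` of helper316's `T.XM`
(no hypothesis on the fibre integral left), and the number `a₂`. -/

set_option autoImplicit false
set_option linter.unusedSectionVars false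
set_option linter.unusedVariables false

open MeasureTheory Set Filter Topology Module
open scoped ContDiff RealInnerProductSpace
open Crest.GeometryTopology.Submanifold
open Crest.Agent.R241.DDefs
open Crest.Agent.R241.D2
open Crest.Agent.R241.D3c
open Crest.Agent.R208.F Crest.Agent.R208.FI Crest.Agent.R208.CW Crest.Agent.R208.T
open Crest.Agent.R208.L (US)
open Crest.Agent.R208.KG (N4)
open Crest.Agent.R208.AF
open Crest.Agent.R208.EX (ED)

noncomputable section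

namespace Crest.Agent.R208.AN

variable {n N d e k m mK : ℕ} {κ ε : ℝ} {S : Set (Euc N)} {G : Geo n N κ S}
  {ι : Type} [Fintype ι] [DecidableEq ι] {W : Euc N × Euc N → (ι × Fin 2 → Fin N) → ℝ}
  {p : Euc N} {x : Euc N → Ext (Euc N)} {oU y : Euc N × Euc N → Ext (Euc N × Euc N)}

/-- **the absolute value of the integral over the flat family**, `om = x` -/
theorem abs_vs_XM {h : GT.Bla G k} (M : T.XM h m W p x) (hO : KG.OK G 4 ε) {D : ED N}
    (hD : D.OK) (hS : D.S = S) (hx : D.om = x) {α : E4 N → Ext (E4 N)}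
    (hα : Sm (N4 h) α) (hα1 : Hom 1 α) (hp : 1 ≤ D.p) (hq : 1 ≤ D.q)
    (hd : d + 1 = 2 * n) (hed : k + e = d) (hmK : mK = 3 * (k - 1) + d)
    (hoU : Ori d (US G) oU) {oK : E4 N → Ext (E4 N)} (hoK : Ori mK (N4 h) oK)
    (sy : Sm (US G) y) (cy : Cl (US G) y) (dy : Hom e y) :
    (2 * Real.pi) ^ 2 * |J mK (N4 h) oK (D.vs α (Ff G ε) * F.pull (fun z => z.1.1.1) y)| =
      3 * XF.tau ι ^ 3 * |J d (US G) oU (F.pull Prod.fst x * y)| := by
  obtain ⟨z₀, hz₀⟩ : (US G).Nonempty := T.nonempty_UST h M.hp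
  have h1 := abs_vs_flat (τ := XF.tau ι) h M.hk M.hke M.hkn hO hD hS hα hα1 hp hq (hx ▸ M.sx)
    (hx ▸ M.cx) (hx ▸ M.dx) hz₀ (fun oF ho => by
      rw [← fibre_eq hz₀] at ho ⊢
      rw [hx]
      exact KX.valF M hz₀ ho) hd hed hmK hoU hoK sy cy dy
  rw [hx] at h1
  exact h1

/-- **the number `a₂`** (`a₂ x ~ u`) from the localisation of `u` at the flat family -/
theorem abs_a2_XM {h : GT.Bla G k} (M : T.XM h m W p x) (hO : KG.OK G 4 ε) {D : ED N}
    (hD : D.OK) (hS : D.S = S) (hx : D.om = x) {α : E4 N → Ext (E4 N)}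
    (hα : Sm (N4 h) α) (hα1 : Hom 1 α) (hp : 1 ≤ D.p) (hq : 1 ≤ D.q)
    (hd : d + 1 = 2 * n) (hmK : mK = 3 * (k - 1) + d)
    (hoU : Ori d (US G) oU) {oK : E4 N → Ext (E4 N)} (hoK : Ori mK (N4 h) oK)
    {u : Euc N × Euc N → Ext (Euc N × Euc N)} {a2 Δ : ℝ} (su : Sm (US G) u)
    (hu : Coh (US G) u (a2 • F.pull Prod.fst x))
    (hloc : ∀ y, Sm (US G) y → Cl (US G) y → Hom (d - k) y → |J d (US G) oU (u * y)| =
      Δ * |J mK (N4 h) oK (D.vs α (Ff G ε) * F.pull (fun z => z.1.1.1) y)|) :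
    (2 * Real.pi) ^ 2 * |a2| = 3 * Δ * XF.tau ι ^ 3 := by
  obtain ⟨y, sy, cy, dy, hne⟩ := EA.exists_dual M hd hoU
  have hkn := M.hkn
  have hX : Clo d (US G) := SB.clo_US h hd
  have sx : Sm (US G) (F.pull (Prod.fst : Euc N × Euc N → Euc N) x) :=
    M.sx.pull (Y := S) ⟨fun _ _ => contDiffAt_fst, fun z hz => hz.1.1⟩
  exact abs_a2 hX hoU su sx sy cy hu (hloc y sy cy dy)
    (abs_vs_XM M hO hD hS hx hα hα1 hp hq hd (by omega) hmK hoU hoK sy cy dy) hne

end Crest.Agent.R208.AN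
end
end

-- ▼ part R208/EA8

/-! Row 208, (8,2), block EA (helper595).  EA8: **the half of the hypotheses of `ZA.bound` which
lives on `B' = (US × S^(2l+1)) / S¹`**, from level two and the value of the localised integral. -/

set_option autoImplicit false
set_option linter.unusedSectionVars false
set_option linter.unusedVariables false
set_option maxHeartbeats 1000000

open MeasureTheory Set Filter Topology Module
open scoped ContDiff RealInnerProductSpace Real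
open Crest.GeometryTopology.Submanifold
open Crest.Agent.R241.DDefs Crest.Agent.R241.D Crest.Agent.R241.D2
open Crest.Agent.R208.F Crest.Agent.R208.FI Crest.Agent.R208.CW Crest.Agent.R208.T
open Crest.Agent.R208.CM (Cir gen Rep Triv Qd phR Th gf Emb Quo MM jj Curv)
open Crest.Agent.R208.LB (al)
open Crest.Agent.R208.VC hiding Wt
open Crest.Agent.R208.EX
open Crest.Agent.R208.FT (D2 XI RN xiN gp lev)
open Crest.Agent.R208.NN (Wt Rt nuP)
open Crest.Agent.R208.TP (QM TT CV pu₁ pu₂ push up)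
open Crest.Agent.R208.MS (Fam oc En)
open Crest.Agent.R208.EP (topr)
open Crest.Agent.R208.SN

noncomputable section

namespace Crest.Agent.R208.EA

/-! ### the literal list -/
section lst
variable {EB EB' : Type*} [NormedAddCommGroup EB] [NormedSpace ℝ EB] [FiniteDimensional ℝ EB]
  [NormedAddCommGroup EB'] [NormedSpace ℝ EB'] [FiniteDimensional ℝ EB']

/-- the hypotheses of `ZA.bound` on `B'` -/
structure PHalf (B' : Set EB') (p : EB' → EB) (e x Th w₁ : EB → Ext EB) (u e2 : EB' → Ext EB')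
    (a1 a2 ε7 c₀ n₁ ν : ℝ) : Prop where
  hu : EC B' u
  he2 : EC B' e2
  hua : Coh B' u (F.pull p (a1 • e ^ 4 + a2 • x))
  he2T : Coh B' e2 (ε7 • F.pull p Th)
  hκ : |ε7 * a2 * ν ^ 2| = 432 * |c₀ * n₁|
  hc : c₀ * n₁ ≠ 0
  hE : Coh B' (c₀ • F.pull p w₁) (u * e2)

end lst

variable {n N K m m' l c s' c₂ : ℕ} {κ : ℝ} {S : Set (Euc N)} {G : Geo n N κ S}
  {lg : Euc N → Euc N → Euc N} {ρ : Euc N → Euc N} {r C r' Kr B w δ δ₂ : ℝ}
  {PN : Euc N × Euc N → Wt N K →L[ℝ] Wt N K}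
  {h : GT.Bla G (2 * 3 + 2)} {g : Euc N × Euc N → Fin m → ℂ} {Fc : MM m → Ext (MM m)}
  {g' : (Euc N × Euc N) × HW.U l → Fin m' → ℂ} {p : MM m' → MM m}
  {T : Euc N × Euc N → Wt N K →L[ℝ] EuclideanSpace ℝ (Fin (2 * c + 1))}
  {P' : MM m → EuclideanSpace ℝ (Fin (2 * c + 1)) →L[ℝ] EuclideanSpace ℝ (Fin (2 * c + 1))}
  {o' : MM m → Ext (EuclideanSpace ℝ (Fin (2 * c + 1)))}
  {W' : MM m → (Fin (s' + 1) × Fin 2 → Fin (2 * c + 1)) → ℝ}
  {oN : Euc N × Euc N → Ext (Wt N K)}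
  {T₂ : (Euc N × Euc N) × HW.U l →
    EuclideanSpace ℝ (((Fin K × Fin 2) × Fin N) ⊕ ((Fin K × Fin 2) × Fin N)) →L[ℝ]
      EuclideanSpace ℝ (Fin (2 * c₂))}
  {P₂' : MM m' → EuclideanSpace ℝ (Fin (2 * c₂)) →L[ℝ] EuclideanSpace ℝ (Fin (2 * c₂))}
  {W₂' : MM m' → (Fin (2 * 3 + 1) × Fin 2 → Fin (2 * c₂)) → ℝ}
  {D : ED N} {ε ε₂ E₀ η₀ : ℝ} {J₀ : ℕ} {w₁ : MM m → Ext (MM m)}
  {p₀ : Euc N} {ι : Type} [Fintype ι] [DecidableEq ι] {mx d : ℕ}
  {W₀ : Euc N × Euc N → (ι × Fin 2 → Fin N) → ℝ} {x : Euc N → Ext (Euc N)}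
  {x0 : MM m → Ext (MM m)}

/-- **the localisation (A2)** over the slice `u₀`, for every output of level two -/
def A2S (h : GT.Bla G (2 * 3 + 2)) (g' : (Euc N × Euc N) × HW.U l → Fin m' → ℂ) (p : MM m' → MM m)
    (PN : Euc N × Euc N → Wt N K →L[ℝ] Wt N K)
    (T : Euc N × Euc N → Wt N K →L[ℝ] EuclideanSpace ℝ (Fin (2 * c + 1)))
    (P' : MM m → EuclideanSpace ℝ (Fin (2 * c + 1)) →L[ℝ] EuclideanSpace ℝ (Fin (2 * c + 1)))
    (W' : MM m → (Fin (s' + 1) × Fin 2 → Fin (2 * c + 1)) → ℝ)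
    (T₂ : (Euc N × Euc N) × HW.U l →
      EuclideanSpace ℝ (((Fin K × Fin 2) × Fin N) ⊕ ((Fin K × Fin 2) × Fin N)) →L[ℝ]
        EuclideanSpace ℝ (Fin (2 * c₂)))
    (P₂' : MM m' → EuclideanSpace ℝ (Fin (2 * c₂)) →L[ℝ] EuclideanSpace ℝ (Fin (2 * c₂)))
    (D : ED N) (d : ℕ) (u₀ : HW.U l) (α : Euc N × Euc N → Ext (Euc N × Euc N))
    (lp : ((Euc N × Euc N) ×
      EuclideanSpace ℝ (((Fin K × Fin 2) × Fin N) ⊕ ((Fin K × Fin 2) × Fin N))) × Wt N K →
        ℝ → Euc N) (εg : ℝ) (oU : Euc N × Euc N → Ext (Euc N × Euc N)) : Prop :=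
  ∀ (s₂ : ℕ) (W₂'' : MM m' → (Fin (s₂ + 1) × Fin 2 → Fin (2 * c₂)) → ℝ)
    (V' : (MM m' × EuclideanSpace ℝ (Fin (2 * c₂))) × EuclideanSpace ℝ (Fin (2 * c + 1)) →
      Ext ((MM m' × EuclideanSpace ℝ (Fin (2 * c₂))) × EuclideanSpace ℝ (Fin (2 * c + 1))))
    (V : ((Euc N × Euc N) ×
      EuclideanSpace ℝ (((Fin K × Fin 2) × Fin N) ⊕ ((Fin K × Fin 2) × Fin N))) × Wt N K →
        Ext (((Euc N × Euc N) ×
          EuclideanSpace ℝ (((Fin K × Fin 2) × Fin N) ⊕ ((Fin K × Fin 2) × Fin N))) × Wt N K)),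
    TP.Slc G PN 3 (Quo (HW.XX (L.US G) l) g') (fun z => jj g' (z, u₀)) T (fun z => T₂ (z, u₀))
      (fun y => P' (p y)) P₂' (fun y => W' (p y)) W₂'' V' D 29 α lp V →
    ∃ oK, Ori (3 * 7 + d) (KG.N4 h) oK ∧
    ∀ y : Euc N × Euc N → Ext (Euc N × Euc N), Sm (L.US G) y → Cl (L.US G) y →
      Hom (d - 8) y → |J d (L.US G) oU
        (F.pull (fun z => jj g' (z, u₀)) (pu₂ (volume : Measure (EuclideanSpace ℝ (Fin (2 * c + 1))))
          (volume : Measure (EuclideanSpace ℝ (Fin (2 * c₂)))) P₂'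
          (thomF (fun x => 1 - P₂' x) W₂'') (fun y => P' (p y))
          (thomF (fun y => 1 - P' (p y)) fun y => W' (p y)) V') * y)| =
      ((LC.del (EuclideanSpace ℝ (Fin (2 * c + 1))) * kGG (Fin (s' + 1))) *
        (LC.del (EuclideanSpace ℝ (Fin (2 * c₂))) * kGG (Fin (s₂ + 1)))) *
        |J (3 * 7 + d) (KG.N4 h) oK
          (D.vs (F.pull TU.bN α) (AN.Ff G εg) * F.pull (fun z => z.1.1.1) y)|

/-- **the half of the hypotheses of `ZA.bound` which lives on `B'`** -/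
theorem primeHalf
    (Q : Gm82 h K l lg ρ r C r' Kr B w δ δ₂ PN g Fc g' p T P' o' W' oN T₂ P₂' W₂')
    (M : Crest.Agent.R208.T.XM h mx W₀ p₀ x) (hl : 8 ≤ 2 * l)
    (s0 : Sm (Quo (L.US G) g) x0) (c0 : Cl (Quo (L.US G) g) x0) (d0 : Hom 8 x0)
    (h0 : Coh (L.US G) (F.pull Prod.fst x) (F.pull (jj g) x0))
    (hD : D.OK) (hDS : D.S = S) (hom : D.om = x)
    (h2 : D2 G (2 * 3 + 2) K lg ρ r C r' Kr B w δ PN ε J₀ E₀ η₀ (DD.NN PN) (RN N K) (xiN h PN)
      δ₂ ε₂) (hη : 2 * η₀ ≤ π - (δ / 4) * ε ^ 2) (hlev : lev δ δ₂ ε ε₂ ≤ D.B)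
    (hp : D.p = 11) (hq : D.q = 7)
    (hpu : Cls2 G K lg ρ w J₀ ε PN g T P' W' D w₁) {u₀ : HW.U l} (hu₀ : ‖u₀‖ = 1)
    {ν n₁ εg : ℝ} (hO : KG.OK G 4 εg) {oU : Euc N × Euc N → Ext (Euc N × Euc N)}
    (hd : d + 1 = 2 * n) (ho : Ori d (L.US G) oU)
    (hA : A2S h g' p PN T P' W' T₂ P₂' D d u₀ ((1 / 2 : ℝ) • al)
      (fun x t => FT.f2 G lg ρ w J₀ (xiN h PN) ε ε₂ (FT.Ph2 G K (RN N K) t x)) εg oU)
    (hν : |XF.tau ι * ν| = 12 * (2 * Real.pi) ^ 4)
    (hn : 2 * Real.pi * |n₁| =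
      LC.del (EuclideanSpace ℝ (Fin (2 * c + 1))) * kGG (Fin (s' + 1)) * XF.tau ι) :
    ∃ (u e2 : MM m' → Ext (MM m')) (a1 a2 ε7 c₀ : ℝ),
      PHalf (Quo (HW.XX (L.US G) l) g') p Fc x0 (topr 7 (1 / 2) P' Fc) w₁ u e2 a1 a2 ε7 c₀ n₁ ν := by
  have hDd : Hom 8 D.om := hom ▸ M.dx
  obtain ⟨s₂, W₂'', c₀, η, V', hor, hT, hη', hV1, hV2, hV3, hV4, hall⟩ :=
    level2_Gm Q hD hDS h2 hη hlev hDd hp hq hpu
  set u := (pu₂ (volume : Measure (EuclideanSpace ℝ (Fin (2 * c + 1))))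
          (volume : Measure (EuclideanSpace ℝ (Fin (2 * c₂)))) P₂'
          (thomF (fun x => 1 - P₂' x) W₂'') (fun y => P' (p y))
          (thomF (fun y => 1 - P' (p y)) fun y => W' (p y)) V') with hu
  obtain ⟨su, cu, du, eu, ee, ⟨sg, hsg, he2T⟩, hE⟩ := hall u rfl
  obtain ⟨Fc', hFc'⟩ := (HW.conn_th (k := l) Q.cir (CM.conn_al (FV.sub_S h.bl))).exists_curv
    Q.hd.emb' Q.hd.cir' Q.hd.clo'
  obtain ⟨a1, a2, hua, hsl⟩ := hua M Q.hd Q.curv hFc' hl s0 c0 d0 h0 su cu du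
  have hS := Q.slc hD hDS h2 hη hlev 29 hor hη' hV2 hV3 hV4 hu₀
  obtain ⟨oK, hoK, hloc⟩ := hA s₂ W₂'' V' _ hS
  have hal : CM.Conn (L.US G) (gf G) (al (N := N)) := CM.conn_al (FV.sub_S h.bl)
  have sα : Sm (KG.N4 h) (F.pull TU.bN ((1 / 2 : ℝ) • al (N := N))) :=
    (hal.sm.smul (1 / 2)).pull TU.smap_bN
  have ssl : SMap (L.US G) (Quo (HW.XX (L.US G) l) g') (fun z => jj g' (z, u₀)) :=
    smap_slice Q.hd hu₀
  have ha := AN.abs_a2_XM M hO hD hDS hom sα (Hom.pull (hal.hom.smul (1 / 2)))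
    (by rw [hp]; norm_num)
    (by rw [hq]; norm_num) hd (mK := 3 * 7 + d) rfl ho hoK (su.pull ssl) (hsl u₀ hu₀) hloc
  obtain ⟨z₀, hz₀⟩ : (L.US G).Nonempty := Crest.Agent.R208.T.nonempty_UST h M.hp
  have hc0 := LC.thomPair_c0 Q.dsc2.or hor hT ⟨_, ssl.maps hz₀⟩
  have h7 : |2 * (sg * (2 ^ 7 * (Nat.factorial 7 : ℝ)))| = 2 * (2 ^ 7 * (Nat.factorial 7 : ℝ)) := by
    have e1 : (0 : ℝ) ≤ 2 ^ 7 * (Nat.factorial 7 : ℝ) := by positivity
    rw [abs_mul, abs_mul, abs_of_nonneg e1, abs_of_nonneg (by norm_num : (0 : ℝ) ≤ 2)]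
    rcases hsg with rfl | rfl <;> simp
  have hN := AN.N_of' (ι := ι) (ι₂ := Fin 7) (by simp) h7 ha hν hc0 hn
  exact ⟨u, (2 : ℝ) • eR P₂' W₂', a1, a2, _, c₀, eu, ee, hua, he2T, hN.1, hN.2, hE⟩

end Crest.Agent.R208.EA
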