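import Crest.Agent.R208.EW6
import Crest.Agent.R208.HW3
import Crest.Agent.R208.CM6a
import Crest.Agent.R208.SO2

-- ▼ part R208/EP1
section

/-! Row 208, block Q, (Q-p3) (helper607).  EP1: the real tensor product of a real projection field
with the realification of a complex line; orientation and pointwise algebra. -/

set_option autoImplicit false
set_option linter.unusedSectionVars false
set_option linter.unusedVariables false
set_option linter.unusedSimpArgs false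

open Set Filter Topology Module MeasureTheory Matrix
open scoped ContDiff RealInnerProductSpace ComplexConjugate Kronecker
open Crest.Agent.R208.F Crest.Agent.R208.FI Crest.Agent.R208.CW
open Crest.Agent.R208.CM
open Crest.Agent.R208.T
open Crest.Agent.R208.EW

noncomputable section

namespace Crest.Agent.R208.EP

section pt
variable {p κ ι : Type} [Fintype p] [DecidableEq p] [Fintype κ] [DecidableEq κ]
  [Fintype ι] [DecidableEq ι]

/-- the entries of the realification of a complex matrix -/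
def CEm (L : Matrix κ κ ℂ) : Matrix (κ × Fin 2) (κ × Fin 2) ℂ :=
  Matrix.of fun a b => L a.1 b.1 * (wz a.2 * conj (wz b.2))

/-- the realification of a complex line -/
def PLr (L : Matrix κ κ ℂ) : Matrix (κ × Fin 2) (κ × Fin 2) ℝ := Matrix.of fun a b => (CEm L a b).re

/-- its complex structure -/
def JLr (L : Matrix κ κ ℂ) : Matrix (κ × Fin 2) (κ × Fin 2) ℝ :=
  Matrix.of fun a b => -(CEm L a b).im

/-- an oriented frame of the realification of `lin z` -/
def fz (z : κ → ℂ) : Matrix (κ × Fin 2) (Fin 2) ℝ :=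
  Matrix.of fun a s => if s = 0 then (z a.1 * wz a.2).re else -(z a.1 * wz a.2).im

theorem fz0 (z : κ → ℂ) (a : κ × Fin 2) : fz z a 0 = (z a.1 * wz a.2).re := rfl
theorem fz1 (z : κ → ℂ) (a : κ × Fin 2) : fz z a 1 = -(z a.1 * wz a.2).im := rfl

theorem fz_tr_mul {z : κ → ℂ} (hz : ∑ i, z i * conj (z i) = 1) : (fz z)ᵀ * fz z = 1 := by
  have h1 : ∑ i, ((z i).re ^ 2 + (z i).im ^ 2) = 1 := by
    have := congrArg Complex.re hz
    rw [Complex.re_sum, Complex.one_re] at this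
    rw [← this]
    refine Finset.sum_congr rfl fun i _ => ?_
    rw [Complex.mul_conj, Complex.ofReal_re, Complex.normSq_apply]
    ring
  refine Matrix.ext fun s t => ?_
  rw [Matrix.mul_apply, Fintype.sum_prod_type]
  simp only [Fin.sum_univ_two, Matrix.transpose_apply]
  fin_cases s <;> fin_cases t
  · simp only [Fin.zero_eta, fz0, wz_zero, wz_one, mul_one, Complex.mul_re, Complex.neg_re,
      Complex.neg_im, Complex.I_re, Complex.I_im, Matrix.one_apply_eq]
    refine Eq.trans (Finset.sum_congr rfl fun i _ => ?_) h1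
    ring
  · simp only [Fin.zero_eta, Fin.mk_one, fz0, fz1, wz_zero, wz_one, mul_one, Complex.mul_re,
      Complex.mul_im, Complex.neg_re, Complex.neg_im, Complex.I_re, Complex.I_im]
    rw [Matrix.one_apply_ne (by decide)]
    exact Finset.sum_eq_zero fun i _ => by ring
  · simp only [Fin.zero_eta, Fin.mk_one, fz0, fz1, wz_zero, wz_one, mul_one, Complex.mul_re,
      Complex.mul_im, Complex.neg_re, Complex.neg_im, Complex.I_re, Complex.I_im]
    rw [Matrix.one_apply_ne (by decide)]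
    exact Finset.sum_eq_zero fun i _ => by ring
  · simp only [Fin.mk_one, fz1, wz_zero, wz_one, mul_one, Complex.mul_re,
      Complex.mul_im, Complex.neg_re, Complex.neg_im, Complex.I_re, Complex.I_im,
      Matrix.one_apply_eq]
    refine Eq.trans (Finset.sum_congr rfl fun i _ => ?_) h1
    ring

theorem CEm_lin (z : κ → ℂ) (a b : κ × Fin 2) :
    CEm (lin z) a b = (z a.1 * wz a.2) * conj (z b.1 * wz b.2) := by
  change z a.1 * conj (z b.1) * (wz a.2 * conj (wz b.2)) = _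
  rw [map_mul]
  ring

/-- the rotation by `π / 2` of the plane -/
def J2 : Matrix (Fin 2) (Fin 2) ℝ := Matrix.of fun s t => if s = t then 0 else if s = 0 then -1 else 1

theorem PLr_lin (z : κ → ℂ) : PLr (lin z) = fz z * (fz z)ᵀ := by
  refine Matrix.ext fun a b => ?_
  rw [Matrix.mul_apply, Fin.sum_univ_two]
  change (CEm (lin z) a b).re = fz z a 0 * fz z b 0 + fz z a 1 * fz z b 1
  rw [CEm_lin, fz0, fz0, fz1, fz1, Complex.mul_re, Complex.conj_re, Complex.conj_im]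
  ring

theorem JLr_lin (z : κ → ℂ) : JLr (lin z) = fz z * J2 * (fz z)ᵀ := by
  refine Matrix.ext fun a b => ?_
  rw [Matrix.mul_apply, Fin.sum_univ_two, Matrix.mul_apply, Matrix.mul_apply, Fin.sum_univ_two,
    Fin.sum_univ_two]
  change -(CEm (lin z) a b).im = (fz z a 0 * J2 0 0 + fz z a 1 * J2 1 0) * fz z b 0
    + (fz z a 0 * J2 0 1 + fz z a 1 * J2 1 1) * fz z b 1
  rw [CEm_lin, fz0, fz0, fz1, fz1, Complex.mul_im, Complex.conj_re, Complex.conj_im]
  have e1 : J2 0 0 = 0 := rfl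
  have e2 : J2 1 0 = 1 := rfl
  have e3 : J2 0 1 = -1 := rfl
  have e4 : J2 1 1 = 0 := rfl
  rw [e1, e2, e3, e4]
  ring

theorem J2_sq : J2 * J2 = -1 := by
  refine Matrix.ext fun s t => ?_
  rw [Matrix.mul_apply, Fin.sum_univ_two]
  fin_cases s <;> fin_cases t <;> simp [J2]

theorem J2_t : J2ᵀ = -J2 := by
  refine Matrix.ext fun s t => ?_
  fin_cases s <;> fin_cases t <;> simp [J2]

/-- algebra of the realification -/
structure RL (P J : Matrix κ κ ℝ) : Prop where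
  Pt : Pᵀ = P
  PP : P * P = P
  JJ : J * J = -P
  JP : J * P = J
  PJ : P * J = J
  Jt : Jᵀ = -J

theorem rl_lin {z : κ → ℂ} (hz : ∑ i, z i * conj (z i) = 1) : RL (PLr (lin z)) (JLr (lin z)) := by
  have h := fz_tr_mul hz
  rw [PLr_lin, JLr_lin]
  set F := fz z with hF
  have k : ∀ A B : Matrix (Fin 2) (Fin 2) ℝ, (F * A * Fᵀ) * (F * B * Fᵀ) = F * (A * B) * Fᵀ :=
    fun A B => by
      calc (F * A * Fᵀ) * (F * B * Fᵀ) = F * A * (Fᵀ * F) * B * Fᵀ := by
            simp only [Matrix.mul_assoc]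
        _ = _ := by rw [h, Matrix.mul_one, Matrix.mul_assoc F A B]
  have e : F * Fᵀ = F * (1 : Matrix (Fin 2) (Fin 2) ℝ) * Fᵀ := by rw [Matrix.mul_one]
  refine ⟨?_, ?_, ?_, ?_, ?_, ?_⟩
  · rw [Matrix.transpose_mul, Matrix.transpose_transpose]
  · rw [e, k, Matrix.one_mul]
  · rw [e, k, J2_sq, Matrix.mul_neg, Matrix.neg_mul]
  · rw [e, k, Matrix.mul_one]
  · rw [e, k, Matrix.one_mul]
  · rw [Matrix.transpose_mul, Matrix.transpose_mul, Matrix.transpose_transpose, J2_t,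
      ← Matrix.mul_assoc, Matrix.mul_neg, Matrix.neg_mul]

/-- tensor product with a symmetric idempotent -/
theorem RL.kron {N : Matrix p p ℝ} {P J : Matrix κ κ ℝ} (h : RL P J) (ht : Nᵀ = N)
    (hN : N * N = N) : RL (N ⊗ₖ P) (N ⊗ₖ J) := by
  refine ⟨?_, ?_, ?_, ?_, ?_, ?_⟩
  · rw [← Matrix.kroneckerMap_transpose, ht, h.Pt]
  · rw [← Matrix.mul_kronecker_mul, hN, h.PP]
  · rw [← Matrix.mul_kronecker_mul, hN, h.JJ]
    refine Matrix.ext fun a b => ?_
    simp [Matrix.kroneckerMap_apply]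
  · rw [← Matrix.mul_kronecker_mul, hN, h.JP]
  · rw [← Matrix.mul_kronecker_mul, hN, h.PJ]
  · rw [← Matrix.kroneckerMap_transpose, ht, h.Jt]
    refine Matrix.ext fun a b => ?_
    simp [Matrix.kroneckerMap_apply]

/-- complexification -/
abbrev mC {a b : Type} (M : Matrix a b ℝ) : Matrix a b ℂ := M.map (algebraMap ℝ ℂ)

theorem mC_mul {a b c : Type} [Fintype b] (M : Matrix a b ℝ) (M' : Matrix b c ℝ) :
    mC (M * M') = mC M * mC M' := Matrix.map_mul

theorem mC_kron {a b : Type} (M : Matrix a a ℝ) (M' : Matrix b b ℝ) :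
    mC (M ⊗ₖ M') = mC M ⊗ₖ mC M' := by
  refine Matrix.ext fun i j => ?_
  simp [Matrix.kroneckerMap_apply]

theorem RL.rj {P J : Matrix κ κ ℝ} (h : RL P J) : RJ (mC P) (mC J) := by
  refine ⟨?_, ?_, ?_, ?_, ?_, ?_, ?_⟩
  · rw [cj_map]
    exact Matrix.ext fun i j => Complex.conj_ofReal _
  · rw [cj_map]
    exact Matrix.ext fun i j => Complex.conj_ofReal _
  · rw [← Matrix.transpose_map, h.Pt]
  · rw [← mC_mul, h.PP]
  · rw [← mC_mul, h.JJ]
    refine Matrix.ext fun i j => ?_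
    simp
  · rw [← mC_mul, h.JP]
  · rw [← mC_mul, h.PJ]

/-- the eigenprojection of the realification -/
theorem qJ_real (L : Matrix κ κ ℂ) :
    qJ (mC (PLr L)) (mC (JLr L)) = ((1 : ℂ) / 2) • CEm L := by
  refine Matrix.ext fun a b => ?_
  rw [qJ, Matrix.add_apply, Matrix.smul_apply, Matrix.smul_apply, Matrix.smul_apply,
    Matrix.neg_apply, Matrix.smul_apply, smul_eq_mul, smul_eq_mul, smul_eq_mul, smul_eq_mul]
  change (1 : ℂ) / 2 * ((CEm L a b).re : ℂ)
    + Complex.I * (1 / 2 * -(((-(CEm L a b).im : ℝ)) : ℂ)) = 1 / 2 * CEm L a b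
  conv_rhs => rw [← Complex.re_add_im (CEm L a b)]
  push_cast
  ring

/-- intertwiners -/
def SLm (L : Matrix κ κ ℂ) : Matrix κ (κ × Fin 2) ℂ :=
  Matrix.of fun a b => ((Real.sqrt 2 : ℝ) : ℂ)⁻¹ * (L a b.1 * conj (wz b.2))

def TLm (L : Matrix κ κ ℂ) : Matrix (κ × Fin 2) κ ℂ :=
  Matrix.of fun b a => ((Real.sqrt 2 : ℝ) : ℂ)⁻¹ * (L b.1 a * wz b.2)

theorem pIso_real {L : Matrix κ κ ℂ} (hL : L * L = L) :
    SP.PIso (qJ (mC (PLr L)) (mC (JLr L))) L (SLm L) (TLm L) := by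
  rw [qJ_real]
  have yy : ∀ a b, ∑ c, L a c * L c b = L a b := fun a b => by
    have := congrFun (congrFun hL a) b
    rwa [Matrix.mul_apply] at this
  have ww : ∑ s : Fin 2, wz s * conj (wz s) = 2 := by
    rw [Fin.sum_univ_two, wz_zero, wz_one, map_one, map_neg, Complex.conj_I, neg_neg, neg_mul,
      Complex.I_mul_I]
    norm_num
  set r2 : ℂ := ((Real.sqrt 2 : ℝ) : ℂ)⁻¹ with hr2
  have r22 : r2 * r2 = 1 / 2 := sqrt2_sq'
  refine ⟨Matrix.ext fun a b => ?_, Matrix.ext fun a b => ?_, Matrix.ext fun a b => ?_,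
    Matrix.ext fun a b => ?_, Matrix.ext fun a b => ?_, Matrix.ext fun a b => ?_⟩
  · rw [Matrix.mul_apply, Fintype.sum_prod_type]
    have h1 : ∀ (c : κ) (s : Fin 2), SLm L a (c, s) * (((1 : ℂ) / 2) • CEm L) (c, s) b
        = (r2 * (1 / 2) * conj (wz b.2)) * (L a c * L c b.1) * (wz s * conj (wz s)) := by
      intro c s
      rw [Matrix.smul_apply, smul_eq_mul]
      change r2 * (L a c * conj (wz s)) * (1 / 2 * (L c b.1 * (wz s * conj (wz b.2)))) = _
      ring
    simp only [h1]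
    simp only [← Finset.mul_sum, ww, ← Finset.sum_mul]
    rw [yy]
    change _ = r2 * (L a b.1 * conj (wz b.2))
    ring
  · rw [Matrix.mul_apply]
    have h1 : ∀ c, L a c * SLm L c b = (r2 * conj (wz b.2)) * (L a c * L c b.1) := fun c => by
      change L a c * (r2 * (L c b.1 * conj (wz b.2))) = _
      ring
    simp only [h1]
    rw [← Finset.mul_sum, yy]
    change _ = r2 * (L a b.1 * conj (wz b.2))
    ring
  · rw [Matrix.mul_apply]
    have h1 : ∀ c, TLm L a c * L c b = (r2 * wz a.2) * (L a.1 c * L c b) := fun c => by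
      change (r2 * (L a.1 c * wz a.2)) * L c b = _
      ring
    simp only [h1]
    rw [← Finset.mul_sum, yy]
    change _ = r2 * (L a.1 b * wz a.2)
    ring
  · rw [Matrix.mul_apply, Fintype.sum_prod_type]
    have h1 : ∀ (c : κ) (s : Fin 2), (((1 : ℂ) / 2) • CEm L) a (c, s) * TLm L (c, s) b
        = (r2 * (1 / 2) * wz a.2) * (L a.1 c * L c b) * (wz s * conj (wz s)) := by
      intro c s
      rw [Matrix.smul_apply, smul_eq_mul]
      change (1 / 2 * (L a.1 c * (wz a.2 * conj (wz s)))) * (r2 * (L c b * wz s)) = _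
      ring
    simp only [h1]
    simp only [← Finset.mul_sum, ww, ← Finset.sum_mul]
    rw [yy]
    change _ = r2 * (L a.1 b * wz a.2)
    ring
  · rw [Matrix.mul_apply, Matrix.smul_apply, smul_eq_mul]
    have h1 : ∀ c, TLm L a c * SLm L c b = (r2 * r2 * (wz a.2 * conj (wz b.2))) * (L a.1 c * L c b.1) :=
      fun c => by
        change (r2 * (L a.1 c * wz a.2)) * (r2 * (L c b.1 * conj (wz b.2))) = _
        ring
    simp only [h1]
    rw [← Finset.mul_sum, yy, r22]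
    change _ = 1 / 2 * (L a.1 b.1 * (wz a.2 * conj (wz b.2)))
    ring
  · rw [Matrix.mul_apply, Fintype.sum_prod_type]
    have h1 : ∀ (c : κ) (s : Fin 2), SLm L a (c, s) * TLm L (c, s) b
        = (r2 * r2) * (L a c * L c b) * (wz s * conj (wz s)) := by
      intro c s
      change r2 * (L a c * conj (wz s)) * (r2 * (L c b * wz s)) = _
      ring
    simp only [h1]
    simp only [← Finset.mul_sum, ww, ← Finset.sum_mul]
    rw [yy, r22]
    ring

/-- tensor product of a partial isometry with an idempotent -/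
theorem pIso_kron {a b c : Type} [Fintype a] [DecidableEq a] [Fintype b] [DecidableEq b]
    [Fintype c] [DecidableEq c] {A : Matrix a a ℂ} (hA : A * A = A) {P : Matrix b b ℂ}
    {P' : Matrix c c ℂ} {S : Matrix c b ℂ} {W : Matrix b c ℂ} (h : SP.PIso P P' S W) :
    SP.PIso (A ⊗ₖ P) (A ⊗ₖ P') (A ⊗ₖ S) (A ⊗ₖ W) :=
  ⟨by rw [← Matrix.mul_kronecker_mul, hA, h.sp], by rw [← Matrix.mul_kronecker_mul, hA, h.ps],
    by rw [← Matrix.mul_kronecker_mul, hA, h.wp], by rw [← Matrix.mul_kronecker_mul, hA, h.pw],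
    by rw [← Matrix.mul_kronecker_mul, hA, h.ws], by rw [← Matrix.mul_kronecker_mul, hA, h.sw]⟩

theorem qJ_kron {a b : Type} [Fintype a] [DecidableEq a] [Fintype b] [DecidableEq b]
    (A : Matrix a a ℂ) (P J : Matrix b b ℂ) : qJ (A ⊗ₖ P) (A ⊗ₖ J) = A ⊗ₖ qJ P J := by
  refine Matrix.ext fun i j => ?_
  simp only [qJ, Matrix.add_apply, Matrix.smul_apply, Matrix.neg_apply, Matrix.kroneckerMap_apply,
    smul_eq_mul]
  ring

/-- **the real oriented frame of `N ⊗ L`** -/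
theorem exists_fr {N : Matrix p p ℝ} {n : Matrix p ι ℝ} (h1 : nᵀ * n = 1) (h2 : n * nᵀ = N)
    {z : κ → ℂ} (hz : ∑ i, z i * conj (z i) = 1) :
    ∃ f : Matrix (p × (κ × Fin 2)) (ι × Fin 2) ℝ, fᵀ * f = 1 ∧ f * fᵀ = N ⊗ₖ PLr (lin z) ∧
      ∀ I, wJ ι (mC (N ⊗ₖ JLr (lin z))) I = (((f.submatrix I id).det : ℝ) : ℂ) := by
  have hN : N * N = N := by
    rw [← h2, Matrix.mul_assoc, ← Matrix.mul_assoc nᵀ, h1, Matrix.one_mul]
  have ht : Nᵀ = N := by rw [← h2, Matrix.transpose_mul, Matrix.transpose_transpose]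
  have hF := fz_tr_mul hz
  have hrl := (rl_lin hz).kron ht hN
  set f : Matrix (p × (κ × Fin 2)) (ι × Fin 2) ℝ := n ⊗ₖ fz z with hf
  have e1 : fᵀ * f = 1 := by
    rw [hf, ← Matrix.kroneckerMap_transpose, ← Matrix.mul_kronecker_mul, h1, hF,
      Matrix.one_kronecker_one]
  have e2 : f * fᵀ = N ⊗ₖ PLr (lin z) := by
    rw [hf, ← Matrix.kroneckerMap_transpose, ← Matrix.mul_kronecker_mul, h2, PLr_lin]
  refine ⟨f, e1, e2, fun I => ?_⟩
  -- the adapted frame
  have e3 : (N ⊗ₖ JLr (lin z)) * f = n ⊗ₖ (fz z * J2) := by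
    rw [hf, ← Matrix.mul_kronecker_mul, JLr_lin]
    congr 1
    · rw [← h2, Matrix.mul_assoc, h1, Matrix.mul_one]
    · rw [Matrix.mul_assoc, hF, Matrix.mul_one]
  have hfr : FrJ (ι := ι) (mC (N ⊗ₖ PLr (lin z))) (mC (N ⊗ₖ JLr (lin z)))
      (fun I => (((f.submatrix I id).det : ℝ) : ℂ)) := by
    refine ⟨Matrix.of fun a j => ((f a (j, 0) : ℝ) : ℂ), mC f, fun a j => rfl, fun a j => ?_,
      ?_, ?_, fun I => ?_⟩
    · have e4 : (mC (N ⊗ₖ JLr (lin z)) * Matrix.of fun a (j : ι) => ((f a (j, 0) : ℝ) : ℂ)) a j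
          = ((((N ⊗ₖ JLr (lin z)) * f) a (j, 0) : ℝ) : ℂ) := by
        rw [Matrix.mul_apply, Matrix.mul_apply]
        push_cast
        rfl
      rw [e4, e3]
      change ((n a.1 j * fz z a.2 1 : ℝ) : ℂ) = ((n a.1 j * (fz z * J2) a.2 0 : ℝ) : ℂ)
      congr 2
      rw [Matrix.mul_apply, Fin.sum_univ_two]
      have q1 : J2 0 0 = 0 := rfl
      have q2 : J2 1 0 = 1 := rfl
      rw [q1, q2]
      ring
    · rw [← Matrix.transpose_map, ← mC_mul, e1]
      exact Matrix.map_one _ (map_zero _) (map_one _)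
    · rw [← Matrix.transpose_map, ← mC_mul, e2]
    · exact RingHom.map_det (algebraMap ℝ ℂ) (f.submatrix I id)
  have hJt : (mC (N ⊗ₖ JLr (lin z)))ᵀ = -mC (N ⊗ₖ JLr (lin z)) := by
    rw [← Matrix.transpose_map, hrl.Jt]
    refine Matrix.ext fun i j => ?_
    simp
  have := hfr.eq_wJ hJt hrl.rj.JJ hrl.rj.JP
  exact (congrFun this I).symm

end pt

end Crest.Agent.R208.EP
end
end

-- ▼ part R208/EP2
section

/-! Row 208, block Q, (Q-p3) (helper607).  EP2: the oriented real bundle `N ⊗ L` (`N` real of rank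
`r`, `L` a complex line) and its Euler form. -/

set_option autoImplicit false
set_option linter.unusedSectionVars false
set_option linter.unusedVariables false
set_option linter.unusedSimpArgs false

open Set Filter Topology Module MeasureTheory Matrix
open scoped ContDiff RealInnerProductSpace ComplexConjugate Kronecker
open Crest.Agent.R208.F Crest.Agent.R208.FI Crest.Agent.R208.CW
open Crest.Agent.R208.CM
open Crest.Agent.R208.T
open Crest.Agent.R208.EW

noncomputable section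

namespace Crest.Agent.R208.EP

section me
variable {E : Type*} [NormedAddCommGroup E] [NormedSpace ℝ E] [FiniteDimensional ℝ E]
  {a b : Type} [Fintype a] [DecidableEq a] [Fintype b] [DecidableEq b]

theorem mE_eq_sum (S : Matrix a b ℝ) :
    T.mE S = ∑ i, ∑ j, S i j • T.mE (Matrix.single i j (1 : ℝ)) := by
  ext v k
  simp only [FunLike.coe_sum, Finset.sum_apply, FunLike.coe_smul,
    Pi.smul_apply, WithLp.ofLp_sum, PiLp.smul_apply, mE_apply, smul_eq_mul]
  rw [Finset.sum_eq_single k]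
  · refine Finset.sum_congr rfl fun j _ => ?_
    rw [Finset.sum_eq_single j]
    · rw [Matrix.single_apply_same, one_mul]
    · intro l _ hl
      simp [Matrix.single_apply, Ne.symm hl]
    · intro h; exact absurd (Finset.mem_univ _) h
  · intro i _ hi
    refine Finset.sum_eq_zero fun j _ => ?_
    rw [Finset.sum_eq_zero fun l _ => ?_, mul_zero]
    simp [Matrix.single_apply, hi]
  · intro h; exact absurd (Finset.mem_univ _) h

theorem contDiffAt_mE {S : E → Matrix a b ℝ} {x : E} {k : WithTop ℕ∞}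
    (h : ∀ i j, ContDiffAt ℝ k (fun y => S y i j) x) : ContDiffAt ℝ k (fun y => T.mE (S y)) x := by
  have : (fun y => T.mE (S y))
      = fun y => ∑ i, ∑ j, S y i j • T.mE (Matrix.single i j (1 : ℝ)) :=
    funext fun y => mE_eq_sum (S y)
  rw [this]
  exact ContDiffAt.sum fun i _ => ContDiffAt.sum fun j _ => (h i j).smul contDiffAt_const

end me

section glob
variable {E : Type*} [NormedAddCommGroup E] [NormedSpace ℝ E] [FiniteDimensional ℝ E]
  {p κ ι : Type} [Fintype p] [DecidableEq p] [Fintype κ] [DecidableEq κ]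
  [Fintype ι] [DecidableEq ι] {Y : Set E} {N : E → EuclideanSpace ℝ p →L[ℝ] EuclideanSpace ℝ p}
  {L : E → Matrix κ κ ℂ} {r d : ℕ}

/-- a smooth field of complex lines -/
structure LineF (Y : Set E) (L : E → Matrix κ κ ℂ) : Prop where
  sm : ∀ x ∈ Y, SM ∞ L x
  ex : ∀ x ∈ Y, ∃ z : κ → ℂ, ∑ i, z i * conj (z i) = 1 ∧ L x = lin z

theorem LineF.idF (h : LineF Y L) : IdF Y L :=
  ⟨h.sm, fun x hx => by
    obtain ⟨z, hz, e⟩ := h.ex x hx
    rw [e]
    exact lin_idem hz⟩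

theorem LineF.rank (h : LineF Y L) : ∀ x ∈ Y, (L x).rank = 1 := fun x hx => by
  obtain ⟨z, hz, e⟩ := h.ex x hx
  rw [e]
  exact lin_rank hz

/-- real matrix of `N` -/
def Nr (N : E → EuclideanSpace ℝ p →L[ℝ] EuclideanSpace ℝ p) (x : E) : Matrix p p ℝ :=
  Matrix.of fun i j => N x (EuclideanSpace.single j 1) i

theorem mC_Nr (x : E) : mC (Nr N x) = mtx (N x) := rfl

/-- **the real bundle `N ⊗ L`** -/
def NL (N : E → EuclideanSpace ℝ p →L[ℝ] EuclideanSpace ℝ p) (L : E → Matrix κ κ ℂ) (x : E) :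
    EuclideanSpace ℝ (p × (κ × Fin 2)) →L[ℝ] EuclideanSpace ℝ (p × (κ × Fin 2)) :=
  T.mE (Nr N x ⊗ₖ PLr (L x))

/-- its orientation tensor -/
def WN (ι : Type) [Fintype ι] [DecidableEq ι]
    (N : E → EuclideanSpace ℝ p →L[ℝ] EuclideanSpace ℝ p) (L : E → Matrix κ κ ℂ)
    (x : E) (I : ι × Fin 2 → p × (κ × Fin 2)) : ℝ := (wJ ι (mC (Nr N x ⊗ₖ JLr (L x))) I).re

theorem mtx_NL (x : E) : mtx (NL N L x) = mC (Nr N x ⊗ₖ PLr (L x)) := by
  refine Matrix.ext fun i j => ?_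
  rw [NL, T.mtx_mE, T.mE_single]
  rfl

theorem contDiffAt_Nr {x : E} {k : WithTop ℕ∞} (h : ContDiffAt ℝ k N x) (i j : p) :
    ContDiffAt ℝ k (fun y => Nr N y i j) x := by
  have h1 : ContDiffAt ℝ k (fun y => N y (EuclideanSpace.single j (1 : ℝ))) x :=
    h.clm_apply contDiffAt_const
  exact ((EuclideanSpace.proj i : EuclideanSpace ℝ p →L[ℝ] ℝ).contDiff.contDiffAt).comp x h1

theorem contDiffAt_PLr {x : E} {k : WithTop ℕ∞} (h : SM k L x) (a b : κ × Fin 2) :
    ContDiffAt ℝ k (fun y => PLr (L y) a b) x :=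
  (Complex.reCLM.contDiff.contDiffAt).comp x ((h a.1 b.1).mul contDiffAt_const)

theorem contDiffAt_JLr {x : E} {k : WithTop ℕ∞} (h : SM k L x) (a b : κ × Fin 2) :
    ContDiffAt ℝ k (fun y => JLr (L y) a b) x :=
  ((Complex.imCLM.contDiff.contDiffAt).comp x ((h a.1 b.1).mul contDiffAt_const)).neg

theorem SM_J {x : E} {k : WithTop ℕ∞} (hN : ContDiffAt ℝ k N x) (hL : SM k L x) :
    SM k (fun y => mC (Nr N y ⊗ₖ JLr (L y))) x := fun i j => by
  have h1 : ContDiffAt ℝ k (fun y => Nr N y i.1 j.1 * JLr (L y) i.2 j.2) x :=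
    (contDiffAt_Nr hN i.1 j.1).mul (contDiffAt_JLr hL i.2 j.2)
  exact Complex.ofRealCLM.contDiff.contDiffAt.comp x h1

/-- real orthonormal frames of symmetric idempotents -/
theorem exists_n (hN : PField Y r N) (hs : ∀ x ∈ Y, ∀ u v, ⟪N x u, v⟫ = ⟪u, N x v⟫)
    (hι : Fintype.card ι = r) {x : E} (hx : x ∈ Y) :
    ∃ n : Matrix p ι ℝ, nᵀ * n = 1 ∧ n * nᵀ = Nr N x := by
  set V : Submodule ℝ (EuclideanSpace ℝ p) :=
    LinearMap.range (N x : EuclideanSpace ℝ p →ₗ[ℝ] EuclideanSpace ℝ p) with hV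
  have hr : finrank ℝ V = Fintype.card ι := by rw [hι]; exact hN.rank x hx
  let b : OrthonormalBasis ι ℝ V :=
    (stdOrthonormalBasis ℝ V).reindex ((finCongr hr).trans (Fintype.equivFin ι).symm)
  have hNb : ∀ j, N x (b j : EuclideanSpace ℝ p) = b j := fun j => by
    obtain ⟨w, hw⟩ := (b j).2
    rw [← hw]
    exact hN.idem x hx w
  refine ⟨Matrix.of fun a j => (b j : EuclideanSpace ℝ p) a, ?_, ?_⟩
  · refine Matrix.ext fun i j => ?_
    rw [Matrix.mul_apply, Matrix.one_apply]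
    have h1 := (orthonormal_iff_ite.1 b.orthonormal) j i
    have h2 : ⟪(b j : EuclideanSpace ℝ p), (b i : EuclideanSpace ℝ p)⟫
        = ∑ a, (b i : EuclideanSpace ℝ p) a * (b j : EuclideanSpace ℝ p) a := by
      rw [PiLp.inner_apply]
      exact Finset.sum_congr rfl fun a _ => rfl
    change ∑ a, (b i : EuclideanSpace ℝ p) a * (b j : EuclideanSpace ℝ p) a = _
    rw [← h2, ← Submodule.coe_inner, h1]
    simp only [eq_comm]
  · refine Matrix.ext fun a c => ?_
    rw [Matrix.mul_apply]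
    change ∑ j, (b j : EuclideanSpace ℝ p) a * (b j : EuclideanSpace ℝ p) c
      = N x (EuclideanSpace.single c 1) a
    have hm : N x (EuclideanSpace.single c 1) ∈ V := ⟨_, rfl⟩
    have h1 := b.sum_repr ⟨_, hm⟩
    have h2 := congrArg (fun v : V => (v : EuclideanSpace ℝ p) a) h1
    simp only [Submodule.coe_sum, Submodule.coe_smul] at h2
    rw [← h2]
    rw [WithLp.ofLp_sum, Finset.sum_apply]
    refine Finset.sum_congr rfl fun j _ => ?_
    rw [PiLp.smul_apply, smul_eq_mul, mul_comm]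
    congr 1
    rw [b.repr_apply_apply, Submodule.coe_inner]
    change _ = ⟪(b j : EuclideanSpace ℝ p), N x (EuclideanSpace.single c 1)⟫
    rw [← hs x hx, hNb]
    simp [EuclideanSpace.inner_single_right]

/-- **`N ⊗ L` is an oriented real bundle of rank `2 r`** -/
theorem or_NL (hN : PField Y r N) (hs : ∀ x ∈ Y, ∀ u v, ⟪N x u, v⟫ = ⟪u, N x v⟫)
    (hL : LineF Y L) (hι : Fintype.card ι = r) : OR (ι := ι) Y (NL N L) (WN ι N L) := by
  refine ⟨fun x hx => ?_, fun x hx I => ?_, fun x hx => ?_⟩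
  · refine contDiffAt_mE fun i j => ?_
    exact (contDiffAt_Nr (hN.smooth x hx) i.1 j.1).mul (contDiffAt_PLr (hL.sm x hx) i.2 j.2)
  · have h1 : ContDiffAt ℝ ∞ (fun y => wJ ι (mC (Nr N y ⊗ₖ JLr (L y))) I) x :=
      contDiffAt_wJ (SM_J (hN.smooth x hx) (hL.sm x hx)) I
    exact (Complex.reCLM.contDiff.contDiffAt).comp x h1
  · obtain ⟨z, hz, e⟩ := hL.ex x hx
    obtain ⟨n, n1, n2⟩ := exists_n hN hs hι hx
    obtain ⟨f, f1, f2, f3⟩ := exists_fr n1 n2 hz
    refine ⟨f, f1, fun v i => ?_, fun I => ?_⟩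
    · rw [NL, mE_apply, e, ← f2]
    · rw [WN, e, f3, Complex.ofReal_re]

/-- **the Euler class of `N ⊗ L`** -/
theorem ec_NL (hY : Sub d Y) (hYc : IsPreconnected Y) (hN : PField Y r N)
    (hs : ∀ x ∈ Y, ∀ u v, ⟪N x u, v⟫ = ⟪u, N x v⟫)
    (hL : LineF Y L) (hι : Fintype.card ι = r) :
    ∃ ε : ℂ, (ε = 1 ∨ ε = -1) ∧ ec (OR.of (or_NL (ι := ι) hN hs hL hι))
      = (ε * ((2 : ℂ) ^ r * (r.factorial) * Complex.I ^ r))
        • ∑ i ∈ Finset.range (r + 1), cc hY (idF_of_pfield hN) i * sc hY hL.idF 1 ^ (r - i) := by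
  subst hι
  have hNt : ∀ x ∈ Y, (Nr N x)ᵀ = Nr N x ∧ Nr N x * Nr N x = Nr N x := fun x hx => by
    obtain ⟨n, n1, n2⟩ := exists_n (ι := ι) hN hs rfl hx
    refine ⟨by rw [← n2, Matrix.transpose_mul, Matrix.transpose_transpose], ?_⟩
    rw [← n2, Matrix.mul_assoc, ← Matrix.mul_assoc nᵀ, n1, Matrix.one_mul]
  let J : E → Matrix (p × (κ × Fin 2)) (p × (κ × Fin 2)) ℂ := fun x => mC (Nr N x ⊗ₖ JLr (L x))
  have hJ : ∀ x ∈ Y, SM ∞ J x := fun x hx => SM_J (hN.smooth x hx) (hL.sm x hx)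
  have hr : ∀ x ∈ Y, RJ (mtx (NL N L x)) (J x) := fun x hx => by
    obtain ⟨z, hz, e⟩ := hL.ex x hx
    rw [mtx_NL]
    change RJ _ (mC (Nr N x ⊗ₖ JLr (L x)))
    rw [e]
    exact ((rl_lin hz).kron (hNt x hx).1 (hNt x hx).2).rj
  have hO := or_NL (ι := ι) hN hs hL rfl
  have hQ : IdF Y (fun x => qJ (mtx (NL N L x)) (J x)) :=
    ⟨fun x hx => SM.qJ ((OR.of hO).sP x hx) (hJ x hx), fun x hx => (hr x hx).qJ_idem⟩
  obtain ⟨ε, hε, he⟩ := ec_complex hY hYc (OR.of hO) hJ hr hQ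
  refine ⟨ε, hε, ?_⟩
  have hP := idF_of_pfield hN
  have hiso : cs hY hQ = cs hY (hP.kron hL.idF) := by
    refine cs_iso _ hQ (hP.kron hL.idF) (S := fun x => mtx (N x) ⊗ₖ SLm (L x)) (fun x hx => ?_)
      fun x hx => ⟨mtx (N x) ⊗ₖ TLm (L x), ?_⟩
    · intro i j
      exact (hP.smooth x hx i.1 j.1).mul (contDiffAt_const.mul
        ((hL.sm x hx i.2 j.2.1).mul contDiffAt_const))
    · have h1 : mtx (N x) * mtx (N x) = mtx (N x) := hP.idem x hx
      have h2 := pIso_kron h1 (pIso_real (hL.idF.idem x hx))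
      rw [← qJ_kron, ← mC_Nr, ← mC_kron, ← mC_kron, ← mtx_NL] at h2
      rw [mC_Nr] at h2
      exact h2
  have hcc : cc hY hQ (Fintype.card ι) = cc hY (hP.kron hL.idF) (Fintype.card ι) := by
    rw [← coeff_cs, ← coeff_cs, hiso]
  rw [he, hcc, cc_kron_line _ hP hL.idF (rank_of_pfield hN) hL.rank]

end glob

end Crest.Agent.R208.EP
end
end

-- ▼ part R208/EP3
section

/-! Row 208, block Q, (Q-p3) (helper607).  EP3: the Euler form of `N ⊗ L`, real form. -/

set_option autoImplicit false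
set_option linter.unusedSectionVars false
set_option linter.unusedVariables false
set_option linter.unusedSimpArgs false

open Set Filter Topology Module MeasureTheory Matrix
open scoped ContDiff RealInnerProductSpace ComplexConjugate Kronecker
open Crest.Agent.R208.F Crest.Agent.R208.FI Crest.Agent.R208.CW
open Crest.Agent.R208.CM
open Crest.Agent.R208.T
open Crest.Agent.R208.EW

noncomputable section

namespace Crest.Agent.R208.EP

section alg
variable {A : Type*} [CommRing A]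

theorem sum_even_part (f : ℕ → A) (h : ∀ i, Odd i → f i = 0) (r : ℕ) :
    ∑ i ∈ Finset.range (r + 1), f i = ∑ j ∈ Finset.range (r / 2 + 1), f (2 * j) := by
  have h1 : ∑ j ∈ Finset.range (r / 2 + 1), f (2 * j)
      = ∑ i ∈ (Finset.range (r / 2 + 1)).image (fun j => 2 * j), f i := by
    rw [Finset.sum_image]
    intro a _ b _ hab
    exact Nat.eq_of_mul_eq_mul_left two_pos hab
  rw [h1]
  symm
  refine Finset.sum_subset (fun i hi => ?_) fun i hi hni => ?_
  · rw [Finset.mem_image] at hi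
    obtain ⟨j, hj, rfl⟩ := hi
    rw [Finset.mem_range] at hj ⊢
    omega
  · refine h i ?_
    rw [← Nat.not_even_iff_odd]
    rintro ⟨j, rfl⟩
    refine hni (Finset.mem_image.2 ⟨j, ?_, by ring⟩)
    rw [Finset.mem_range] at hi ⊢
    omega

variable [Algebra ℂ A]

theorem scal_id {σ : ℂ} {w : ℝ} {r j : ℕ} (hσ : σ = 1 ∨ σ = -1) (hj : 2 * j ≤ r) :
    Complex.I ^ r * ((w : ℂ) * (σ * Complex.I)) ^ (r - 2 * j)
      = (-σ) ^ r * (((-1) ^ j * w ^ (r - 2 * j) : ℝ) : ℂ) := by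
  obtain ⟨k, rfl⟩ := Nat.exists_eq_add_of_le hj
  have e : 2 * j + k - 2 * j = k := by omega
  have hs2 : σ ^ 2 = 1 := by rcases hσ with rfl | rfl <;> norm_num
  rw [e]
  push_cast
  have e1 : Complex.I ^ (2 * j + k) * ((w : ℂ) * (σ * Complex.I)) ^ k
      = (Complex.I ^ 2) ^ j * (Complex.I ^ 2) ^ k * σ ^ k * (w : ℂ) ^ k := by ring
  have e2 : (-σ) ^ (2 * j + k) = (σ ^ 2) ^ j * ((-1) ^ k * σ ^ k) := by
    have : -σ = (-1) * σ := by ring
    rw [this, mul_pow, pow_add, pow_mul, pow_add, pow_mul]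
    norm_num
    ring
  rw [e1, e2, hs2, Complex.I_sq, one_pow]
  ring

theorem sum_gen {c : ℕ → A} (hodd : ∀ j, Odd j → c j = 0) {E z : A} {σ : ℂ} {w : ℝ}
    (hσ : σ = 1 ∨ σ = -1) (hz : z = (w : ℂ) • ((σ * Complex.I) • E)) (r : ℕ) :
    (Complex.I ^ r) • ∑ i ∈ Finset.range (r + 1), c i * z ^ (r - i)
      = ((-σ) ^ r) • ∑ j ∈ Finset.range (r / 2 + 1),
        (((-1) ^ j * w ^ (r - 2 * j) : ℝ) : ℂ) • (c (2 * j) * E ^ (r - 2 * j)) := by
  rw [sum_even_part (fun i => c i * z ^ (r - i)) (fun i hi => by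
    rw [hodd i hi, zero_mul]), Finset.smul_sum, Finset.smul_sum]
  refine Finset.sum_congr rfl fun j hj => ?_
  rw [Finset.mem_range] at hj
  have hz' : z = ((w : ℂ) * (σ * Complex.I)) • E := by rw [hz, smul_smul]
  rw [hz', smul_pow, mul_smul_comm, smul_smul, smul_smul, scal_id hσ (by omega)]

end alg

section glob
variable {E : Type} [NormedAddCommGroup E] [NormedSpace ℝ E] [FiniteDimensional ℝ E]
  {p κ ι : Type} [Fintype p] [DecidableEq p] [Fintype κ] [DecidableEq κ]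
  [Fintype ι] [DecidableEq ι] {Y : Set E} {N : E → EuclideanSpace ℝ p →L[ℝ] EuclideanSpace ℝ p}
  {L : E → Matrix κ κ ℂ} {F : E → Ext E} {r d : ℕ} {w : ℝ}

/-- the real form of the top Chern class of `N_ℂ ⊗ L^w` -/
def topr (r : ℕ) (w : ℝ) (N : E → EuclideanSpace ℝ p →L[ℝ] EuclideanSpace ℝ p)
    (F : E → Ext E) : E → Ext E :=
  ∑ j ∈ Finset.range (r / 2 + 1),
    ((-1) ^ j * w ^ (r - 2 * j)) • (cR (2 * j) N * F ^ (r - 2 * j))

theorem ec_cR (hY : Sub d Y) (hN : PField Y r N) (j : ℕ) : EC Y (cR j N) :=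
  ec_cfr hY (idF_of_pfield hN) j

theorem ec_topr {s : ℕ} (hY : Sub d Y) (hN : PField Y s N) (hE : EC Y F) :
    EC Y (topr r w N F) :=
  EC.sum fun j _ => ((ec_cR hY hN (2 * j)).mul (hE.pow (r - 2 * j))).smul _

theorem rcl_topr {s : ℕ} (hY : Sub d Y) (hN : PField Y s N) (hE : EC Y F) :
    rcl (ec_topr (r := r) (w := w) hY hN hE) = ∑ j ∈ Finset.range (r / 2 + 1),
      (((-1) ^ j * w ^ (r - 2 * j) : ℝ) : ℂ)
        • (cc hY (idF_of_pfield hN) (2 * j) * rcl hE ^ (r - 2 * j)) := by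
  have h1 := rcl_sum (Finset.range (r / 2 + 1))
    (w := fun j => ((-1) ^ j * w ^ (r - 2 * j)) • (cR (2 * j) N * F ^ (r - 2 * j)))
    (fun j => ((ec_cR hY hN (2 * j)).mul (hE.pow (r - 2 * j))).smul _)
  refine Eq.trans ?_ (h1.trans (Finset.sum_congr rfl fun j _ => ?_))
  · rfl
  · rw [rcl_smul _ ((ec_cR hY hN (2 * j)).mul (hE.pow (r - 2 * j))),
      rcl_mul (ec_cR hY hN (2 * j)) (hE.pow (r - 2 * j)), rcl_pow hE]
    congr 2
    exact rcl_cfr hY (idF_of_pfield hN) (fun y i j => Complex.ofReal_im _) (2 * j)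

/-- **the Euler form of `N ⊗ L`** -/
theorem coh_NL (hY : Sub d Y) (hYc : IsPreconnected Y) (hN : PField Y r N)
    (hs : ∀ x ∈ Y, ∀ u v, ⟪N x u, v⟫ = ⟪u, N x v⟫)
    (hL : LineF Y L) (hι : Fintype.card ι = r) (hE : EC Y F) {σ : ℂ} (hσ : σ = 1 ∨ σ = -1)
    (hz : sc hY hL.idF 1 = (w : ℂ) • ((σ * Complex.I) • rcl hE)) :
    ∃ ε : ℝ, (ε = 1 ∨ ε = -1) ∧
      Coh Y (eR (NL N L) (WN ι N L)) ((ε * (2 ^ r * (Nat.factorial r))) • topr r w N F) := by
  obtain ⟨ε, hε, he⟩ := ec_NL (ι := ι) hY hYc hN hs hL hι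
  have hO := or_NL (ι := ι) hN hs hL hι
  have ht := ec_topr (r := r) (w := w) hY hN hE
  have hI := idF_of_pfield hN
  have hsum := sum_gen (c := fun i => cc hY hI i)
    (fun j hj => cc_real_odd hY hI (fun x hx => conj_mtx _) hj) (E := rcl hE) (σ := σ) (w := w)
    (z := sc hY hL.idF 1) hσ hz r
  rw [← rcl_topr hY hN hE] at hsum
  have hfin : rcl (orEC hO) = ((ε * (-σ) ^ r) * (2 ^ r * (Nat.factorial r) : ℂ)) • rcl ht := by
    rw [orRcl hO, he]
    have e0 : (ε * ((2 : ℂ) ^ r * ((Nat.factorial r : ℕ) : ℂ) * Complex.I ^ r))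
        • ∑ i ∈ Finset.range (r + 1), cc hY hI i * sc hY hL.idF 1 ^ (r - i)
        = (ε * ((2 : ℂ) ^ r * ((Nat.factorial r : ℕ) : ℂ))) • ((Complex.I ^ r)
          • ∑ i ∈ Finset.range (r + 1), cc hY hI i * sc hY hL.idF 1 ^ (r - i)) := by
      rw [smul_smul]; congr 1; ring
    rw [e0, hsum, smul_smul]
    congr 1
    ring
  have hre : ∃ δ : ℝ, (δ = 1 ∨ δ = -1) ∧ ε * (-σ) ^ r = (δ : ℂ) := by
    have h1 : ∃ τ : ℝ, (τ = 1 ∨ τ = -1) ∧ (-σ) ^ r = (τ : ℂ) := by
      rcases hσ with rfl | rfl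
      · rcases Nat.even_or_odd r with hr | hr
        · exact ⟨1, Or.inl rfl, by rw [hr.neg_one_pow]; norm_num⟩
        · exact ⟨-1, Or.inr rfl, by rw [hr.neg_one_pow]; norm_num⟩
      · exact ⟨1, Or.inl rfl, by norm_num⟩
    obtain ⟨τ, hτ, e1⟩ := h1
    rw [e1]
    rcases hε with rfl | rfl
    · exact ⟨τ, hτ, by rw [one_mul]⟩
    · refine ⟨-τ, ?_, by push_cast; ring⟩
      rcases hτ with rfl | rfl
      · exact Or.inr rfl
      · exact Or.inl (by norm_num)
  obtain ⟨δ, hδ, hδ'⟩ := hre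
  refine ⟨δ, hδ, ?_⟩
  have hlast : rcl (orEC hO) = rcl (ht.smul (δ * (2 ^ r * (Nat.factorial r)))) := by
    rw [hfin, rcl_smul _ ht, hδ']
    congr 1
    push_cast
    ring
  exact (rcl_eq_iff _ _).1 hlast

end glob

section quo
variable {E : Type} [NormedAddCommGroup E] [NormedSpace ℝ E] [FiniteDimensional ℝ E]
  {p ι : Type} [Fintype p] [DecidableEq p] [Fintype ι] [DecidableEq ι]
  {X : Set E} {φ : ℝ → E → E} {m d r : ℕ} {g : E → Fin m → ℂ} {al : E → Ext E}
  {Fc : MM m → Ext (MM m)} {N : MM m → EuclideanSpace ℝ p →L[ℝ] EuclideanSpace ℝ p}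

theorem lineF_Lt (hg : Emb X φ g) : LineF (Quo X g) (Lt (m := m)) :=
  ⟨fun y _ => SM_Lt y, by
    rintro _ ⟨x, hx, rfl⟩
    exact ⟨g x, sum_g hg hx, rfl⟩⟩

/-- over the quotient of a free circle action, weight `1` -/
theorem coh_NLt (hg : Emb X φ g) (hC : Cir X φ) (hX : Clo (d + 1) X) (hXc : IsPreconnected X)
    (hN : PField (Quo X g) r N) (hs : ∀ y ∈ Quo X g, ∀ u v, ⟪N y u, v⟫ = ⟪u, N y v⟫)
    (hι : Fintype.card ι = r) (ha : Conn X φ al) (hF : Curv X g al Fc) :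
    ∃ ε : ℝ, (ε = 1 ∨ ε = -1) ∧ Coh (Quo X g) (eR (NL N (Lt (m := m))) (WN ι N (Lt (m := m))))
      ((ε * (2 ^ r * (Nat.factorial r))) • topr r 1 N Fc) := by
  have hE : EC (Quo X g) Fc := curvEC hF
  obtain ⟨σ, hσ, h1⟩ := sc_Lt hg hC hX hXc ha hF hE
  have hXq : IsPreconnected (Quo X g) := hXc.image _ fun x hx =>
    (hg.contDiffAt_jj hx).continuousAt.continuousWithinAt
  exact coh_NL (hg.sub_Quo hC hX) hXq hN hs (lineF_Lt hg) hι hE hσ
    (by rw [Complex.ofReal_one, one_smul]; exact h1)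

theorem lineF_Lt2 (hg : Emb X φ g) : LineF (Quo X g) (Lt2 (m := m)) :=
  ⟨(idF_Lt2 hg).smooth, by
    rintro _ ⟨x, hx, rfl⟩
    exact ⟨g2 g x, sum_g2 hg hx, Lt2_jj x⟩⟩

/-- weight `2` -/
theorem coh_NLt2 (hg : Emb X φ g) (hC : Cir X φ) (hX : Clo (d + 1) X) (hXc : IsPreconnected X)
    (hN : PField (Quo X g) r N) (hs : ∀ y ∈ Quo X g, ∀ u v, ⟪N y u, v⟫ = ⟪u, N y v⟫)
    (hι : Fintype.card ι = r) (ha : Conn X φ al) (hF : Curv X g al Fc) :
    ∃ ε : ℝ, (ε = 1 ∨ ε = -1) ∧ Coh (Quo X g) (eR (NL N (Lt2 (m := m))) (WN ι N (Lt2 (m := m))))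
      ((ε * (2 ^ r * (Nat.factorial r))) • topr r 2 N Fc) := by
  have hE : EC (Quo X g) Fc := curvEC hF
  obtain ⟨σ, hσ, h1⟩ := sc_Lt hg hC hX hXc ha hF hE
  have hXq : IsPreconnected (Quo X g) := hXc.image _ fun x hx =>
    (hg.contDiffAt_jj hx).continuousAt.continuousWithinAt
  exact coh_NL (hg.sub_Quo hC hX) hXq hN hs (lineF_Lt2 hg) hι hE hσ
    (by rw [sc_Lt2 hg hC hX, h1]; norm_num)

end quo

end Crest.Agent.R208.EP
end
end

-- ▼ part R208/EP4
section

/-! Row 208, block Q, (Q-p3) (helper607).  EP4: the odd sphere with the Hopf action, its embedding,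
its connection; complex projective space as `Quo`. -/

set_option autoImplicit false
set_option linter.unusedSectionVars false
set_option linter.unusedVariables false
set_option linter.unusedSimpArgs false

open Set Filter Topology Module MeasureTheory
open scoped ContDiff RealInnerProductSpace ComplexConjugate
open Crest.Agent.R208.F Crest.Agent.R208.FI
open Crest.Agent.R208.CW (SMap)
open Crest.Agent.R208.CM
open Crest.Agent.R208.T
open Crest.Agent.R208.HW (U JJ rt SU b0 kp2 v0 mem_SU rt_zero rt_add rt_two_pi norm_rt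
  inner_rt_self contDiff_rt hasDerivAt_rt JJ_zero' JJ_one' clo_SU ori_SU sm_b0 hom_b0 rot_b0
  mem_Tan_SU isPreconnected_SU norm_JJ d_b0 b0L b0L_apply rt_apply)

noncomputable section

namespace Crest.Agent.R208.EP

variable {k : ℕ}

/-- the Hopf action -/
def hp (k : ℕ) (t : ℝ) (u : U k) : U k := rt k t u

/-- complex coordinates -/
def gS (k : ℕ) : U k →L[ℝ] (Fin (k + 1) → ℂ) := LinearMap.toContinuousLinearMap
  { toFun := fun u a => ⟨u (a, 0), u (a, 1)⟩
    map_add' := fun u v => rfl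
    map_smul' := fun r u => by
      funext a
      refine Complex.ext ?_ ?_ <;> simp }

theorem gS_apply (u : U k) (a : Fin (k + 1)) : gS k u a = ⟨u (a, 0), u (a, 1)⟩ := rfl

theorem gS_JJ (u : U k) : gS k (JJ k u) = Complex.I • gS k u := by
  funext a
  rw [Pi.smul_apply, gS_apply, gS_apply, JJ_zero', JJ_one', smul_eq_mul]
  refine Complex.ext ?_ ?_ <;> simp

theorem gS_rt (t : ℝ) (u : U k) : gS k (rt k t u) = Complex.exp (t * Complex.I) • gS k u := by
  rw [rt_apply, map_add, map_smul, map_smul, gS_JJ, Complex.exp_mul_I, ← Complex.ofReal_cos,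
    ← Complex.ofReal_sin]
  funext a
  simp only [Pi.add_apply, Pi.smul_apply, smul_eq_mul, Complex.real_smul]
  ring

theorem gS_inj {u v : U k} (h : gS k u = gS k v) : u = v := by
  ext ⟨a, s⟩
  have h1 := congrFun h a
  rw [gS_apply, gS_apply, Complex.mk.injEq] at h1
  fin_cases s
  · exact h1.1
  · exact h1.2

theorem sum_gS (u : U k) : ∑ a, ‖gS k u a‖ ^ 2 = ‖u‖ ^ 2 := by
  rw [EuclideanSpace.norm_sq_eq, Fintype.sum_prod_type]
  refine Finset.sum_congr rfl fun a _ => ?_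
  rw [Fin.sum_univ_two, ← Complex.normSq_eq_norm_sq, Complex.normSq_apply, gS_apply,
    Real.norm_eq_abs, Real.norm_eq_abs, sq_abs, sq_abs]
  ring


theorem exists_U_of_smul (z : ℂ) (u : U k) : gS k (z.re • u + z.im • JJ k u) = z • gS k u := by
  rw [map_add, map_smul, map_smul, gS_JJ]
  funext a
  simp only [Pi.add_apply, Pi.smul_apply, smul_eq_mul, Complex.real_smul]
  conv_rhs => rw [← Complex.re_add_im z]
  ring

theorem cir_SU : Cir (SU k) (hp k) where
  smooth := fun t x _ => contDiff_rt.contDiffAt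
  maps := fun t u hu => by
    rw [mem_SU] at hu ⊢
    change ‖rt k t u‖ = 1
    rw [norm_rt, hu]
  zero := fun u _ => by
    change rt k 0 u = u
    rw [rt_zero]; rfl
  add := fun s t u _ => rt_add s t u
  per := fun u _ => by
    change rt k (2 * Real.pi) u = u
    rw [rt_two_pi]; rfl
  free := fun t u hu ht => by
    have h1 : rt k t u = u := ht
    have h2 := inner_rt_self t u
    rw [h1, real_inner_self_eq_norm_sq, mem_SU.1 hu] at h2
    have h3 : Real.cos t = 1 := by linarith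
    obtain ⟨j, hj⟩ := (Real.cos_eq_one_iff t).1 h3
    exact ⟨j, by rw [← hj]; ring⟩

theorem gen_hp (u : U k) : gen (hp k) u = JJ k u := by
  have h := hasDerivAt_rt (k := k) 0 u
  have e : rt k 0 (JJ k u) = JJ k u := by rw [rt_zero]; rfl
  rw [e] at h
  exact h.deriv

theorem emb_SU : Emb (SU k) (hp k) (gS k) where
  smooth := fun x _ => (gS k).contDiff.contDiffAt
  unit := fun x hx => by rw [sum_gS, mem_SU.1 hx, one_pow]
  equi := fun x _ t => gS_rt t x
  sep := by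
    rintro x hx y hy ⟨z, hz⟩
    have h1 : ‖z‖ = 1 := by
      have h2 := sum_gS y
      rw [hz, mem_SU.1 hy, one_pow] at h2
      have h3 : ∑ a, ‖(z • gS k x) a‖ ^ 2 = ‖z‖ ^ 2 * ∑ a, ‖gS k x a‖ ^ 2 := by
        rw [Finset.mul_sum]
        refine Finset.sum_congr rfl fun a _ => ?_
        rw [Pi.smul_apply, smul_eq_mul, norm_mul, mul_pow]
      rw [h3, sum_gS, mem_SU.1 hx, one_pow, mul_one] at h2
      have h4 : 0 ≤ ‖z‖ := norm_nonneg z
      nlinarith
    refine ⟨Complex.arg z, gS_inj ?_⟩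
    change gS k y = gS k (rt k (Complex.arg z) x)
    rw [gS_rt, hz]
    congr 1
    have := Complex.norm_mul_exp_arg_mul_I z
    rw [h1, Complex.ofReal_one, one_mul] at this
    exact this.symm
  imm := by
    rintro x hx v hv ⟨z, hz⟩
    have h1 : fderiv ℝ (gS k) x = gS k := (gS k).fderiv
    rw [h1, ← exists_U_of_smul] at hz
    have h2 := gS_inj hz
    have h3 := (mem_Tan_SU hx).1 hv
    rw [h2, inner_add_right, inner_smul_right, inner_smul_right, real_inner_self_eq_norm_sq,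
      mem_SU.1 hx, HW.inner_self_JJ, mul_zero, add_zero, one_pow, mul_one] at h3
    refine ⟨z.im, ?_⟩
    rw [h2, h3, zero_smul, zero_add, gen_hp]

theorem conn_SU : Conn (SU k) (hp k) (b0 k) where
  sm := sm_b0
  hom := hom_b0
  unit := fun u hu => by
    rw [gen_hp]
    change ii (JJ k u) (io (b0L k u)) = 1
    rw [ii_io, b0L_apply, real_inner_self_eq_norm_sq, norm_JJ, mem_SU.1 hu]
    simp
  inv := fun t => by
    have := rot_b0 (k := k) t
    change Eqv (SU k) (F.pull (fun u => rt k t u) (b0 k)) (b0 k)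
    rw [this]
    exact Eqv.refl _

/-- complex projective space -/
def CPk (k : ℕ) : Set (MM (k + 1)) := Quo (SU k) (gS k)

theorem clo_CPk : Clo (2 * k) (CPk k) := emb_SU.clo_Quo cir_SU clo_SU

theorem isPreconnected_CPk : IsPreconnected (CPk k) :=
  isPreconnected_SU.image _ fun x hx =>
    (emb_SU.contDiffAt_jj hx).continuousAt.continuousWithinAt

theorem nonempty_CPk : (CPk k).Nonempty := by
  obtain ⟨u, hu⟩ := HW.SU_nonempty (k := k)
  exact ⟨jj (gS k) u, jj_mem hu⟩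

theorem exists_curv_SU (k : ℕ) : ∃ Fc : MM (k + 1) → Ext (MM (k + 1)), Curv (SU k) (gS k) (b0 k) Fc :=
  conn_SU.exists_curv emb_SU cir_SU clo_SU

/-- the curvature form of projective space -/
def Fk (k : ℕ) : MM (k + 1) → Ext (MM (k + 1)) := (exists_curv_SU k).choose

theorem curv_SU : Curv (SU k) (gS k) (b0 k) (Fk k) := (exists_curv_SU k).choose_spec

theorem ori_CPk : Ori (2 * k) (CPk k) (fun y => Fk k y ^ k) := by
  have ho : Ori (2 * k + 1) (SU k) (fun x => b0 k x * F.d (b0 k) x ^ k) := by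
    have := ori_SU (k := k)
    rw [d_b0]
    exact this
  exact (conn_SU.J_eq emb_SU cir_SU clo_SU curv_SU ho).1

theorem ori_CP1 : Ori 2 (CPk 1) (Fk 1) := by
  have h := ori_CPk (k := 1)
  simp only [pow_one, mul_one] at h
  exact h

theorem lineF_CPk : LineF (CPk k) (EW.Lt (m := k + 1)) := lineF_Lt emb_SU

end Crest.Agent.R208.EP
end
end

-- ▼ part R208/EP5

/-! Row 208, block Q, (Q-p3) (helper607).  EP5: the Euler form of `N ⊗ L` on `Y × P^1` is
`± 2^r r! c_{r-1}(N_ℂ) × [F]` for `N` of odd rank `r`. -/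

set_option autoImplicit false
set_option linter.unusedSectionVars false
set_option linter.unusedVariables false
set_option linter.unusedSimpArgs false

open Set Filter Topology Module MeasureTheory
open scoped ContDiff RealInnerProductSpace ComplexConjugate
open Crest.Agent.R208.F Crest.Agent.R208.FI
open Crest.Agent.R208.CW
open Crest.Agent.R208.CM
open Crest.Agent.R208.T
open Crest.Agent.R208.EW

noncomputable section

namespace Crest.Agent.R208.EP

section gen
variable {E E' : Type} [NormedAddCommGroup E] [NormedSpace ℝ E] [FiniteDimensional ℝ E]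
  [NormedAddCommGroup E'] [NormedSpace ℝ E'] [FiniteDimensional ℝ E']
  {p κ ι : Type} [Fintype p] [DecidableEq p] [Fintype κ] [DecidableEq κ]
  [Fintype ι] [DecidableEq ι] {X : Set E} {Y : Set E'}
  {N : E' → EuclideanSpace ℝ p →L[ℝ] EuclideanSpace ℝ p}
  {L : E' → Matrix κ κ ℂ} {r d d' : ℕ} {w : ℝ} {f : E → E'}

theorem pfield_comp (hN : PField Y r N) (hf : SMap X Y f) : PField X r (fun x => N (f x)) :=
  ⟨fun x hx => (hN.smooth _ (hf.maps hx)).comp x (hf.smooth x hx),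
    fun x hx => hN.idem _ (hf.maps hx), fun x hx => hN.rank _ (hf.maps hx)⟩

theorem LineF.comp (hL : LineF Y L) (hf : SMap X Y f) : LineF X (fun x => L (f x)) :=
  ⟨fun x hx => (hL.sm _ (hf.maps hx)).comp (hf.smooth x hx), fun x hx => hL.ex _ (hf.maps hx)⟩

/-- naturality of the real Chern forms, in cohomology -/
theorem coh_cR_comp (hX : Sub d X) (hY : Sub d' Y) (hf : SMap X Y f) (hN : PField Y r N) (j : ℕ) :
    Coh X (cR j (fun x => N (f x))) (F.pull f (cR j N)) := by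
  have hI := idF_of_pfield hN
  have hI' := idF_of_pfield (pfield_comp hN hf)
  have h1 := cc_map hX hY hf hI j
  have h3 := rcl_cfr hY hI (fun y i j => Complex.ofReal_im _) j
  have h4 := rcl_cfr hX hI' (fun y i j => Complex.ofReal_im _) j
  have h5 : rcl (ec_cfr hX hI' j) = rcl ((ec_cfr hY hI j).pull hf) := by
    rw [rcl_pull hf (ec_cfr hY hI j), h3, h1, h4]
  exact (rcl_eq_iff _ _).1 h5

end gen

section prod
variable {E : Type} [NormedAddCommGroup E] [NormedSpace ℝ E] [FiniteDimensional ℝ E]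
  {p ι : Type} [Fintype p] [DecidableEq p]
  [Fintype ι] [DecidableEq ι] {Y : Set E} {N : E → EuclideanSpace ℝ p →L[ℝ] EuclideanSpace ℝ p}
  {r d s : ℕ}

/-- the real bundle `N ⊗ L` on `Y × P^1` -/
def NLp (N : E → EuclideanSpace ℝ p →L[ℝ] EuclideanSpace ℝ p) (z : E × MM (1 + 1)) :
    EuclideanSpace ℝ (p × (Fin (1 + 1) × Fin 2)) →L[ℝ] EuclideanSpace ℝ (p × (Fin (1 + 1) × Fin 2)) :=
  NL (fun z : E × MM (1 + 1) => N z.1) (fun z => Lt (m := 1 + 1) z.2) z

/-- its orientation tensor -/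
def WNp (ι : Type) [Fintype ι] [DecidableEq ι]
    (N : E → EuclideanSpace ℝ p →L[ℝ] EuclideanSpace ℝ p) (z : E × MM (1 + 1))
    (I : ι × Fin 2 → p × (Fin (1 + 1) × Fin 2)) : ℝ :=
  WN ι (fun z : E × MM (1 + 1) => N z.1) (fun z => Lt (m := 1 + 1) z.2) z I

theorem smap_fst' {k : ℕ} : SMap (Y ×ˢ CPk k) Y (Prod.fst : E × MM (k + 1) → E) :=
  ⟨fun z _ => contDiffAt_fst, fun z hz => hz.1⟩

theorem smap_snd' {k : ℕ} : SMap (Y ×ˢ CPk k) (CPk k) (Prod.snd : E × MM (k + 1) → MM (k + 1)) :=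
  ⟨fun z _ => contDiffAt_snd, fun z hz => hz.2⟩

theorem or_NLp (hN : PField Y r N) (hs : ∀ x ∈ Y, ∀ u v, ⟪N x u, v⟫ = ⟪u, N x v⟫)
    (hι : Fintype.card ι = r) : OR (ι := ι) (Y ×ˢ CPk 1) (NLp N) (WNp ι N) :=
  or_NL (pfield_comp hN smap_fst') (fun z hz => hs z.1 hz.1) (lineF_CPk.comp smap_snd') hι

theorem ecF : EC (CPk 1) (Fk 1) := curvEC curv_SU

theorem Fk_sq : Eqv (CPk 1) (Fk 1 ^ 2) 0 :=
  SO.eqv_zero_of_gt (clo_CPk (k := 1)).sub (curv_SU.hom.pow 2) (by norm_num)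

/-- **the Euler form of `N ⊗ L` on `Y × P^1`**, `N` of odd rank `2 s + 1` -/
theorem coh_NLp (hY : Sub d Y) (hYc : IsPreconnected Y) (hN : PField Y (2 * s + 1) N)
    (hs : ∀ x ∈ Y, ∀ u v, ⟪N x u, v⟫ = ⟪u, N x v⟫) (hι : Fintype.card ι = 2 * s + 1) :
    ∃ ε : ℝ, (ε = 1 ∨ ε = -1) ∧ Coh (Y ×ˢ CPk 1) (eR (NLp N) (WNp ι N))
      ((ε * (2 ^ (2 * s + 1) * (Nat.factorial (2 * s + 1))))
        • (F.pull Prod.fst (cR (2 * s) N) * F.pull Prod.snd (Fk 1))) := by
  have hZ : Sub (d + 2) (Y ×ˢ CPk 1) := hY.prod (clo_CPk (k := 1)).sub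
  have hZc : IsPreconnected (Y ×ˢ CPk 1) := hYc.prod isPreconnected_CPk
  have hC : Sub 2 (CPk 1) := (clo_CPk (k := 1)).sub
  have hL := (lineF_CPk (k := 1)).comp (X := Y ×ˢ CPk 1) (f := (Prod.snd : E × MM (1 + 1) → MM (1 + 1)))
    smap_snd'
  obtain ⟨σ, hσ, h1⟩ := sc_Lt (emb_SU (k := 1)) cir_SU HW.clo_SU
    HW.isPreconnected_SU conn_SU curv_SU ecF
  have hEs : EC (Y ×ˢ CPk 1) (F.pull (Prod.snd : E × MM (1 + 1) → MM (1 + 1)) (Fk 1)) :=
    ecF.pull smap_snd'
  have h2 : sc hZ hL.idF 1 = ((1 : ℝ) : ℂ) • ((σ * Complex.I) • rcl hEs) := by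
    have h3 := map_sc hZ hC (smap_snd' (Y := Y) (k := 1)) (idF_Lt (emb_SU (k := 1))) 1
    have h4 : sc hC (idF_Lt (emb_SU (k := 1))) 1 = (σ * Complex.I) • rcl ecF := h1
    rw [h4, map_smul, ← rcl_pull smap_snd' ecF] at h3
    rw [Complex.ofReal_one, one_smul]
    exact h3.symm
  have hN' := pfield_comp hN (smap_fst' (Y := Y) (k := 1))
  obtain ⟨ε, hε, h5⟩ := coh_NL (ι := ι) hZ hZc hN' (fun z hz => hs z.1 hz.1) hL hι hEs hσ h2
  -- the polynomial
  have hsq : Eqv (Y ×ˢ CPk 1) (F.pull (Prod.snd : E × MM (1 + 1) → MM (1 + 1)) (Fk 1) ^ 2) 0 := by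
    have := (Fk_sq).pull (smap_snd' (Y := Y) (k := 1))
    rwa [pull_pow', pull_zero'] at this
  have hdiv : (2 * s + 1) / 2 = s := by omega
  have hz : ∀ c : ℝ, ∀ a : E × MM (1 + 1) → Ext (E × MM (1 + 1)), ∀ q, 2 ≤ q →
      Eqv (Y ×ˢ CPk 1) (c • (a * F.pull (Prod.snd : E × MM (1 + 1) → MM (1 + 1)) (Fk 1) ^ q)) 0 := by
    intro c a q hq
    obtain ⟨q', rfl⟩ := Nat.exists_eq_add_of_le hq
    have h6 := ((Eqv.refl a).mul (hsq.mul (Eqv.refl
      (F.pull (Prod.snd : E × MM (1 + 1) → MM (1 + 1)) (Fk 1) ^ q')))).smul c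
    rwa [← pow_add, zero_mul, mul_zero, smul_zero] at h6
  have h6 : Coh (Y ×ˢ CPk 1) (topr (2 * s + 1) 1 (fun z : E × MM (1 + 1) => N z.1)
      (F.pull Prod.snd (Fk 1)))
      ((-1 : ℝ) ^ s • (F.pull Prod.fst (cR (2 * s) N) * F.pull Prod.snd (Fk 1))) := by
    rw [topr, hdiv, Finset.sum_range_succ]
    have h7 : Eqv (Y ×ˢ CPk 1) (∑ j ∈ Finset.range s, ((-1 : ℝ) ^ j * 1 ^ (2 * s + 1 - 2 * j))
        • (cR (2 * j) (fun z : E × MM (1 + 1) => N z.1)
          * F.pull (Prod.snd : E × MM (1 + 1) → MM (1 + 1)) (Fk 1) ^ (2 * s + 1 - 2 * j))) 0 := by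
      have h8 : ∀ t : Finset ℕ, (∀ j ∈ t, j < s) → Eqv (Y ×ˢ CPk 1)
          (∑ j ∈ t, ((-1 : ℝ) ^ j * 1 ^ (2 * s + 1 - 2 * j))
          • (cR (2 * j) (fun z : E × MM (1 + 1) => N z.1)
            * F.pull (Prod.snd : E × MM (1 + 1) → MM (1 + 1)) (Fk 1) ^ (2 * s + 1 - 2 * j))) 0 := by
        intro t
        induction t using Finset.induction_on with
        | empty => intro _; rw [Finset.sum_empty]; exact Eqv.refl _
        | insert j t hj ih =>
          intro hh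
          rw [Finset.sum_insert hj]
          have h9 := (hz ((-1 : ℝ) ^ j * 1 ^ (2 * s + 1 - 2 * j))
            (cR (2 * j) (fun z : E × MM (1 + 1) => N z.1)) (2 * s + 1 - 2 * j)
            (by have := hh j (Finset.mem_insert_self _ _); omega)).add
            (ih fun i hi => hh i (Finset.mem_insert_of_mem hi))
          rwa [add_zero] at h9
      exact h8 _ fun j hj => Finset.mem_range.1 hj
    have e1 : 2 * s + 1 - 2 * s = 1 := by omega
    rw [e1, one_pow, mul_one, pow_one]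
    have h9 := coh_cR_comp hZ hY (smap_fst' (Y := Y) (k := 1)) hN (2 * s)
    have h10 := ((h9.mul_right hEs.sm hEs.cl).smul ((-1 : ℝ) ^ s))
    have h11 := (Coh.of_eqv h7).add h10
    rwa [zero_add] at h11
  have h12 := h5.trans (h6.smul (ε * (2 ^ (2 * s + 1) * (Nat.factorial (2 * s + 1)))))
  rw [smul_smul] at h12
  refine ⟨ε * (-1) ^ s, ?_, ?_⟩
  · rcases hε with rfl | rfl <;> rcases Nat.even_or_odd s with h | h <;>
      rw [h.neg_one_pow] <;> norm_num
  · have e2 : ε * (2 ^ (2 * s + 1) * (Nat.factorial (2 * s + 1))) * (-1) ^ s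
        = ε * (-1) ^ s * (2 ^ (2 * s + 1) * (Nat.factorial (2 * s + 1) : ℝ)) := by ring
    rwa [e2] at h12

end prod

end Crest.Agent.R208.EP
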