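import Crest.Agent.R208.EP5
import Crest.Agent.R208.HG1
import Crest.Agent.R208.HW2

-- ▼ part R208/EW7
section

/-! Row 208, block EW (helper607).  EW7: Chern forms of descended fields under maps of quotients
(`B' → B`), and the polynomial `topr`. -/

set_option autoImplicit false
set_option linter.unusedSectionVars false
set_option linter.unusedVariables false
set_option linter.unusedSimpArgs false

open Set Filter Topology Module MeasureTheory Matrix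
open scoped ContDiff RealInnerProductSpace ComplexConjugate Kronecker
open Crest.Agent.R208.F Crest.Agent.R208.FI Crest.Agent.R208.CW
open Crest.Agent.R208.CM
open Crest.Agent.R208.T
open Crest.Agent.R208.EP

noncomputable section

namespace Crest.Agent.R208.EW

section desc
variable {E E' : Type} [NormedAddCommGroup E] [NormedSpace ℝ E] [FiniteDimensional ℝ E]
  [NormedAddCommGroup E'] [NormedSpace ℝ E'] [FiniteDimensional ℝ E']
  {a p p' : Type} [Fintype a] [DecidableEq a] [Fintype p] [DecidableEq p] [Fintype p']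
  [DecidableEq p'] {X : Set E} {X' : Set E'} {φ : ℝ → E → E} {φ' : ℝ → E' → E'}
  {m m' d d' r : ℕ} {g : E → Fin m → ℂ} {g' : E' → Fin m' → ℂ}
  {R R' : ℝ → EuclideanSpace ℝ a →L[ℝ] EuclideanSpace ℝ a}
  {Tr : E → EuclideanSpace ℝ a →L[ℝ] EuclideanSpace ℝ p}
  {Tr' : E' → EuclideanSpace ℝ a →L[ℝ] EuclideanSpace ℝ p'}
  {N : E → EuclideanSpace ℝ a →L[ℝ] EuclideanSpace ℝ a}
  {P : MM m → EuclideanSpace ℝ p →L[ℝ] EuclideanSpace ℝ p}
  {P' : MM m' → EuclideanSpace ℝ p' →L[ℝ] EuclideanSpace ℝ p'}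
  {f : E' → E} {q : MM m' → MM m} {ρ : ℝ}

/-- the intertwiner -/
def Sx (Tr : E → EuclideanSpace ℝ a →L[ℝ] EuclideanSpace ℝ p)
    (Tr' : E' → EuclideanSpace ℝ a →L[ℝ] EuclideanSpace ℝ p')
    (N : E → EuclideanSpace ℝ a →L[ℝ] EuclideanSpace ℝ a) (f : E' → E) (z : E') :
    Matrix p' p ℂ := mc (Tr' z) * (mc (N (f z)) * (mc (Tr (f z)))ᵀ)

theorem Sx_inv (hfe : ∀ z ∈ X', ∀ t, f (φ' t z) = φ (ρ * t) (f z)) (hf : MapsTo f X' X)
    (hR : Rep R) (hR' : Rep R') (hRR : ∀ t, R' t = R (ρ * t)) (hT : Triv X φ R Tr)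
    (hT' : Triv X' φ' R' Tr') (eqN : ∀ x ∈ X, ∀ t v, N (φ t x) (R t v) = R t (N x v))
    {z : E'} (hz : z ∈ X') (t : ℝ) : Sx Tr Tr' N f (φ' t z) = Sx Tr Tr' N f z := by
  have hx := hf hz
  have e1 : (mc (Tr (φ (ρ * t) (f z))))ᵀ = mc (R (ρ * t)) * (mc (Tr (f z)))ᵀ := by
    rw [← mc_adj, ← mc_adj, ← mc_comp]
    congr 1
    ext1 v
    exact hT.adj_equi hR hx (ρ * t) v
  have e2 : mc (N (φ (ρ * t) (f z))) * mc (R (ρ * t)) = mc (R (ρ * t)) * mc (N (f z)) := by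
    rw [← mc_comp, ← mc_comp]
    congr 1
    ext1 v
    exact eqN _ hx (ρ * t) v
  have e3 : mc (Tr' (φ' t z)) = mc (Tr' z) * mc (R' (-t)) := by
    rw [← mc_comp]
    congr 1
    ext1 v
    exact hT'.equi' hR' hz t v
  have e4 : mc (R' (-t)) * mc (R (ρ * t)) = (1 : Matrix a a ℂ) := by
    rw [← mc_comp, hRR, mul_neg]
    have : (R (-(ρ * t))).comp (R (ρ * t)) = ContinuousLinearMap.id ℝ _ := by
      ext1 v
      exact hR.neg_add (ρ * t) v
    rw [this]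
    exact mc_id
  rw [Sx, hfe z hz, e1, e3, ← Matrix.mul_assoc (mc (N (φ (ρ * t) (f z)))), e2, Matrix.mul_assoc,
    Matrix.mul_assoc, ← Matrix.mul_assoc (mc (R' (-t))), e4, Matrix.one_mul, Sx]

/-- **Chern forms of descended fields are natural** -/
theorem coh_cR_desc (hg : Emb X φ g) (hC : Cir X φ) (hX : Clo (d + 1) X)
    (hg' : Emb X' φ' g') (hC' : Cir X' φ') (hX' : Clo (d' + 1) X')
    (hf : SMap X' X f) (hq : SMap (Quo X' g') (Quo X g) q)
    (hqf : ∀ z ∈ X', q (jj g' z) = jj g (f z))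
    (hfe : ∀ z ∈ X', ∀ t, f (φ' t z) = φ (ρ * t) (f z))
    (hR : Rep R) (hR' : Rep R') (hRR : ∀ t, R' t = R (ρ * t))
    (hT : Triv X φ R Tr) (hT' : Triv X' φ' R' Tr') (hN : PField X r N)
    (eqN : ∀ x ∈ X, ∀ t v, N (φ t x) (R t v) = R t (N x v))
    (hP : PField (Quo X g) r P) (hPe : ∀ x ∈ X, P (jj g x) = Qd Tr N x)
    (hP' : PField (Quo X' g') r P') (hPe' : ∀ z ∈ X', P' (jj g' z) = Qd Tr' (fun z => N (f z)) z)
    (j : ℕ) : Coh (Quo X' g') (cR j P') (F.pull q (cR j P)) := by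
  have hB := hg.sub_Quo hC hX
  have hB' := hg'.sub_Quo hC' hX'
  have hI := idF_of_pfield hP
  have hI' := idF_of_pfield hP'
  let S0 : E' → (p' → p → ℂ) := fun z => Sx Tr Tr' N f z
  have hS0 : ∀ z ∈ X', ContDiffAt ℝ ∞ S0 z := by
    intro z hz
    rw [contDiffAt_pi]
    intro i
    rw [contDiffAt_pi]
    intro k
    have h1 : SM ∞ (fun y => mc (Tr (f y))) z :=
      contDiffAt_mc ((hT.smooth _ (hf.maps hz)).comp z (hf.smooth z hz))
    have h2 : SM ∞ (fun y => mc (Tr' y)) z := contDiffAt_mc (hT'.smooth z hz)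
    have h3 : SM ∞ (fun y => mc (N (f y))) z :=
      contDiffAt_mc ((hN.smooth _ (hf.maps hz)).comp z (hf.smooth z hz))
    exact (h2.mul (h3.mul h1.transpose)) i k
  obtain ⟨V, hVs, hV⟩ := hg'.exists_desc hC' hX' (f := S0) hS0
    (fun z hz t => Sx_inv hfe hf.maps hR hR' hRR hT hT' eqN hz t)
  let S : MM m' → Matrix p' p ℂ := fun y => Matrix.of (V y)
  have hSs : ∀ y ∈ Quo X' g', SM ∞ S y := fun y _ i k =>
    contDiffAt_pi.1 (contDiffAt_pi.1 hVs.contDiffAt i) k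
  have h1 := cc_map hB' hB hq hI j
  have h2 : cc hB' (hI.comp hq) j = cc hB' hI' j := by
    rw [← coeff_cs, ← coeff_cs]
    congr 1
    refine cs_iso hB' _ hI' (S := S) hSs ?_
    rintro _ ⟨z, hz, rfl⟩
    have hx := hf.maps hz
    have hSz : S (jj g' z) = Sx Tr Tr' N f z := by
      change Matrix.of (V (jj g' z)) = _
      rw [hV z hz]; rfl
    have t1 : (mc (Tr (f z)))ᵀ * mc (Tr (f z)) = 1 := mc_iso (hT.iso _ hx)
    have t2 : (mc (Tr' z))ᵀ * mc (Tr' z) = 1 := mc_iso (hT'.iso z hz)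
    have nn : mc (N (f z)) * mc (N (f z)) = mc (N (f z)) := by
      rw [← mc_comp]
      congr 1
      ext1 v
      exact hN.idem _ hx v
    have e1 : mtx (P (q (jj g' z))) = mc (Tr (f z)) * mc (N (f z)) * (mc (Tr (f z)))ᵀ := by
      rw [hqf z hz, hPe _ hx, mc_Qd]
    have e2 : mtx (P' (jj g' z)) = mc (Tr' z) * mc (N (f z)) * (mc (Tr' z))ᵀ := by
      rw [hPe' z hz, mc_Qd]
    refine ⟨mc (Tr (f z)) * mc (N (f z)) * (mc (Tr' z))ᵀ, ?_⟩
    rw [e1, e2, hSz, Sx]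
    set A := mc (Tr (f z))
    set A' := mc (Tr' z)
    set n := mc (N (f z))
    have kA : ∀ {l : Type} (M : Matrix a l ℂ), Aᵀ * (A * M) = M := fun M => by
      rw [← Matrix.mul_assoc, t1, Matrix.one_mul]
    have kA' : ∀ {l : Type} (M : Matrix a l ℂ), A'ᵀ * (A' * M) = M := fun M => by
      rw [← Matrix.mul_assoc, t2, Matrix.one_mul]
    have kn : ∀ {l : Type} (M : Matrix a l ℂ), n * (n * M) = n * M := fun M => by
      rw [← Matrix.mul_assoc, nn]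
    refine ⟨?_, ?_, ?_, ?_, ?_, ?_⟩ <;>
      simp only [Matrix.mul_assoc, kA, kA', kn]
  have h3 := rcl_cfr hB hI (fun y i j => Complex.ofReal_im _) j
  have h4 := rcl_cfr hB' hI' (fun y i j => Complex.ofReal_im _) j
  have h5 : rcl (ec_cfr hB' hI' j) = rcl ((ec_cfr hB hI j).pull hq) := by
    rw [rcl_pull hq (ec_cfr hB hI j), h3, h1, h2, h4]
  exact (rcl_eq_iff _ _).1 h5

end desc

section topr
variable {E E' : Type} [NormedAddCommGroup E] [NormedSpace ℝ E] [FiniteDimensional ℝ E]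
  [NormedAddCommGroup E'] [NormedSpace ℝ E'] [FiniteDimensional ℝ E']
  {p p' : Type} [Fintype p] [DecidableEq p] [Fintype p'] [DecidableEq p']
  {Y : Set E} {Y' : Set E'} {N : E → EuclideanSpace ℝ p →L[ℝ] EuclideanSpace ℝ p}
  {N' : E' → EuclideanSpace ℝ p' →L[ℝ] EuclideanSpace ℝ p'} {F₀ : E → Ext E} {F₁ : E' → Ext E'}
  {r s s' d d' : ℕ} {w c : ℝ} {q : E' → E}


/-- `topr` is natural -/
theorem coh_topr_pull (hY' : Sub d' Y') (hY : Sub d Y) (hq : SMap Y' Y q) (hN : PField Y s N)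
    (hN' : PField Y' s' N') (hE : EC Y F₀) (hE' : EC Y' F₁)
    (hc : ∀ j, Coh Y' (cR j N') (F.pull q (cR j N))) (hF : Coh Y' F₁ (c • F.pull q F₀)) :
    Coh Y' (topr r w N' F₁) (F.pull q (topr r (w * c) N F₀)) := by
  have h1 := ec_topr (r := r) (w := w) hY' hN' hE'
  have h2 := ec_topr (r := r) (w := w * c) hY hN hE
  refine (rcl_eq_iff h1 (h2.pull hq)).1 ?_
  rw [rcl_topr hY' hN' hE', rcl_pull hq h2, rcl_topr hY hN hE, map_sum]
  have e1 : rcl hE' = (c : ℂ) • H.map hq (rcl hE) := by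
    rw [← rcl_pull hq hE, ← rcl_smul c (hE.pull hq)]
    exact rcl_congr _ _ hF
  refine Finset.sum_congr rfl fun j _ => ?_
  have e2 : cc hY' (idF_of_pfield hN') (2 * j) = H.map hq (cc hY (idF_of_pfield hN) (2 * j)) := by
    rw [← rcl_cfr hY (idF_of_pfield hN) (fun y i j => Complex.ofReal_im _) (2 * j),
      ← rcl_cfr hY' (idF_of_pfield hN') (fun y i j => Complex.ofReal_im _) (2 * j),
      ← rcl_pull hq (ec_cfr hY (idF_of_pfield hN) (2 * j))]
    exact rcl_congr _ _ (hc (2 * j))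
  rw [e1, e2, map_smul, map_mul, map_pow, smul_pow, mul_smul_comm, smul_smul]
  congr 1
  push_cast
  ring

end topr

end Crest.Agent.R208.EW
end
end

-- ▼ part R208/EW8

/-! Row 208, block EW (helper607).  EW8: coefficients of the Chern forms of the descended field in
low degrees (type `(8, 2)`), and the final formula for `topr 7`. -/

set_option autoImplicit false
set_option linter.unusedSectionVars false
set_option linter.unusedVariables false
set_option linter.unusedSimpArgs false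

open Set Filter Topology Module MeasureTheory Matrix
open scoped ContDiff RealInnerProductSpace ComplexConjugate Kronecker
open Crest.Agent.R208.F Crest.Agent.R208.FI Crest.Agent.R208.CW
open Crest.Agent.R208.CM
open Crest.Agent.R208.T
open Crest.Agent.R208.EP

noncomputable section

namespace Crest.Agent.R208.EW

section low
variable {E E' : Type*} [NormedAddCommGroup E] [NormedSpace ℝ E] [FiniteDimensional ℝ E]
  [NormedAddCommGroup E'] [NormedSpace ℝ E'] [FiniteDimensional ℝ E']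
  {X : Set E} {B : Set E'} {q : E → E'} {F₀ : E' → Ext E'} {d J : ℕ}
  {x : E → Ext E} {x0 b : E' → Ext E'}

theorem low_four (hG : HY.Gys X B q F₀) (hB : Sub d B) (hBc : IsPreconnected B)
    (hL : HY.Low X x 8 J) (hJ : 12 < J) (sx : Sm X x) (cx : Cl X x)
    (s0 : Sm B x0) (c0 : Cl B x0) (d0 : Hom 8 x0) (h0 : Coh X x (F.pull q x0))
    (sb : Sm B b) (cb : Cl B b) (db : Hom 4 b) : ∃ t : ℝ, Coh B b (t • F₀ ^ 2) := by
  obtain ⟨f, hf⟩ := hG.even hB hBc (by decide) (by norm_num) hL sx cx s0 c0 d0 h0 4 b (by decide)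
    (by omega) sb cb db
  refine ⟨f 0, ?_⟩
  simpa using hf

theorem low_eight (hG : HY.Gys X B q F₀) (hB : Sub d B) (hBc : IsPreconnected B)
    (hL : HY.Low X x 8 J) (hJ : 12 < J) (sx : Sm X x) (cx : Cl X x)
    (s0 : Sm B x0) (c0 : Cl B x0) (d0 : Hom 8 x0) (h0 : Coh X x (F.pull q x0))
    (sb : Sm B b) (cb : Cl B b) (db : Hom 8 b) :
    ∃ t c : ℝ, Coh B b (t • F₀ ^ 4 + c • x0) := by
  obtain ⟨f, hf⟩ := hG.even hB hBc (by decide) (by norm_num) hL sx cx s0 c0 d0 h0 8 b (by decide)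
    (by omega) sb cb db
  refine ⟨f 0, f 1, ?_⟩
  rw [show (8 / 8 + 1 : ℕ) = 2 from rfl, Finset.sum_range_succ, Finset.sum_range_one] at hf
  simpa using hf

theorem low_twelve (hG : HY.Gys X B q F₀) (hB : Sub d B) (hBc : IsPreconnected B)
    (hL : HY.Low X x 8 J) (hJ : 12 < J) (sx : Sm X x) (cx : Cl X x)
    (s0 : Sm B x0) (c0 : Cl B x0) (d0 : Hom 8 x0) (h0 : Coh X x (F.pull q x0))
    (sb : Sm B b) (cb : Cl B b) (db : Hom 12 b) :
    ∃ t c : ℝ, Coh B b (t • F₀ ^ 6 + c • (x0 * F₀ ^ 2)) := by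
  obtain ⟨f, hf⟩ := hG.even hB hBc (by decide) (by norm_num) hL sx cx s0 c0 d0 h0 12 b (by decide)
    (by omega) sb cb db
  refine ⟨f 0, f 1, ?_⟩
  rw [show (12 / 8 + 1 : ℕ) = 2 from rfl, Finset.sum_range_succ, Finset.sum_range_one] at hf
  simpa using hf

/-- the `x0`-coefficient in degree `8` is seen on `X` -/
theorem coef_unique (hG : HY.Gys X B q F₀) (s0 : Sm B x0) (h0 : Coh X x (F.pull q x0))
    (sx : Sm X x) (hx : ¬ Coh X x 0) {t c c' : ℝ} {k : ℕ} (hk : 1 ≤ k)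
    (hb : Coh B b (t • F₀ ^ k + c • x0)) (hb' : Coh X (F.pull q b) (c' • x)) : c = c' := by
  by_contra hne
  have h1 : Coh X (F.pull q b) (F.pull q (t • F₀ ^ k + c • x0)) := hb.pull hG.smap
  have h2 : Coh X (F.pull q F₀ ^ k) 0 := by
    obtain ⟨k', rfl⟩ := Nat.exists_eq_add_of_le' hk
    rw [pow_succ']
    exact HY.coh_mul_zero ((hG.sm.pull hG.smap).pow k')
      (Cl.pow (hG.sm.pull hG.smap) (hG.cl.pull hG.smap hG.sm) k') hG.zero
  have h3 : Coh X (F.pull q (t • F₀ ^ k + c • x0)) (c • x) := by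
    rw [pull_add', pull_smul', pull_smul', pull_pow']
    have h4 := (h2.smul t).add (h0.symm.smul c)
    rwa [smul_zero, zero_add] at h4
  have h5 : Coh X (c • x) (c' • x) := (h1.trans h3).symm.trans hb'
  have h6 := h5.sub (Coh.refl (c' • x))
  rw [sub_self, ← sub_smul] at h6
  have h7 := h6.smul (c - c')⁻¹
  rw [smul_smul, inv_mul_cancel₀ (sub_ne_zero.2 hne), one_smul, smul_zero] at h7
  exact hx h7

end low

section fin
variable {E E' : Type} [NormedAddCommGroup E] [NormedSpace ℝ E] [FiniteDimensional ℝ E]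
  [NormedAddCommGroup E'] [NormedSpace ℝ E'] [FiniteDimensional ℝ E']
  {p : Type} [Fintype p] [DecidableEq p]
  {X : Set E} {B : Set E'} {q : E → E'} {F₀ : E' → Ext E'} {d J : ℕ}
  {x : E → Ext E} {x0 : E' → Ext E'} {P : E' → EuclideanSpace ℝ p →L[ℝ] EuclideanSpace ℝ p}

theorem hom_cR (j : ℕ) : Hom (2 * j) (cR j P) := fun y => hom_cfr j y

/-- **the coefficients**: `p_1, p_2, p_3` of the descended rank `7` field -/
theorem exists_coeffs (hG : HY.Gys X B q F₀) (hB : Sub d B) (hBc : IsPreconnected B)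
    (hP : PField B 7 P) (hL : HY.Low X x 8 J) (hJ : 12 < J) (sx : Sm X x) (cx : Cl X x)
    (s0 : Sm B x0) (c0 : Cl B x0) (d0 : Hom 8 x0) (h0 : Coh X x (F.pull q x0))
    (hx : ¬ Coh X x 0) {c : ℝ} (hc : Coh X (F.pull q (cR 4 P)) (c • x)) :
    ∃ q1 q2 α β : ℝ, Coh B (cR 2 P) (q1 • F₀ ^ 2) ∧ Coh B (cR 4 P) (q2 • F₀ ^ 4 + c • x0) ∧
      Coh B (cR 6 P) (α • F₀ ^ 6 + β • (x0 * F₀ ^ 2)) := by
  have e2 := ec_cR hB hP 2
  have e4 := ec_cR hB hP 4
  have e6 := ec_cR hB hP 6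
  obtain ⟨q1, h1⟩ := low_four hG hB hBc hL hJ sx cx s0 c0 d0 h0 e2.sm e2.cl (hom_cR 2)
  obtain ⟨q2, c', h2⟩ := low_eight hG hB hBc hL hJ sx cx s0 c0 d0 h0 e4.sm e4.cl (hom_cR 4)
  obtain ⟨α, β, h3⟩ := low_twelve hG hB hBc hL hJ sx cx s0 c0 d0 h0 e6.sm e6.cl (hom_cR 6)
  have e := coef_unique hG s0 h0 sx hx (by norm_num) h2 hc
  rw [e] at h2
  exact ⟨q1, q2, α, β, h1, h2, h3⟩


/-- **the top class of `N_ℂ ⊗ L^a`** -/
theorem coh_topr_seven (hB : Sub d B) (hP : PField B 7 P) (hE : EC B F₀) (s0 : EC B x0)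
    {q1 q2 c α β : ℝ} (h2 : Coh B (cR 2 P) (q1 • F₀ ^ 2))
    (h4 : Coh B (cR 4 P) (q2 • F₀ ^ 4 + c • x0))
    (h6 : Coh B (cR 6 P) (α • F₀ ^ 6 + β • (x0 * F₀ ^ 2))) (a : ℝ) :
    Coh B (topr 7 a P F₀) ((a ^ 7 - q1 * a ^ 5 + q2 * a ^ 3 - α * a) • F₀ ^ 7
      + (c * a ^ 3 - β * a) • (x0 * F₀ ^ 3)) := by
  have t := ec_topr (r := 7) (w := a) hB hP hE
  have u2 : EC B (q1 • F₀ ^ 2) := (hE.pow 2).smul q1
  have u4a : EC B (q2 • F₀ ^ 4) := (hE.pow 4).smul q2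
  have u4b : EC B (c • x0) := s0.smul c
  have u6a : EC B (α • F₀ ^ 6) := (hE.pow 6).smul α
  have u6b : EC B (β • (x0 * F₀ ^ 2)) := (s0.mul (hE.pow 2)).smul β
  have v1 := (hE.pow 7).smul (a ^ 7 - q1 * a ^ 5 + q2 * a ^ 3 - α * a)
  have v2 := (s0.mul (hE.pow 3)).smul (c * a ^ 3 - β * a)
  refine (rcl_eq_iff t (v1.add v2)).1 ?_
  have hI := idF_of_pfield hP
  have k0 : cc hB hI 0 = 1 := cc_zero hB hI
  have k2 : cc hB hI 2 = (q1 : ℂ) • rcl hE ^ 2 := by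
    rw [← rcl_cfr hB hI (fun y i j => Complex.ofReal_im _) 2, ← rcl_pow hE, ← rcl_smul q1 (hE.pow 2)]
    exact rcl_congr _ _ h2
  have k4 : cc hB hI 4 = (q2 : ℂ) • rcl hE ^ 4 + (c : ℂ) • rcl s0 := by
    rw [← rcl_cfr hB hI (fun y i j => Complex.ofReal_im _) 4, ← rcl_pow hE,
      ← rcl_smul q2 (hE.pow 4), ← rcl_smul c s0, ← rcl_add u4a u4b]
    exact rcl_congr _ _ h4
  have k6 : cc hB hI 6 = (α : ℂ) • rcl hE ^ 6 + (β : ℂ) • (rcl s0 * rcl hE ^ 2) := by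
    rw [← rcl_cfr hB hI (fun y i j => Complex.ofReal_im _) 6, ← rcl_pow hE, ← rcl_pow hE,
      ← rcl_mul s0 (hE.pow 2),
      ← rcl_smul α (hE.pow 6), ← rcl_smul β (s0.mul (hE.pow 2)), ← rcl_add u6a u6b]
    exact rcl_congr _ _ h6
  rw [rcl_topr hB hP hE, rcl_add v1 v2, rcl_smul _ (hE.pow 7), rcl_smul _ (s0.mul (hE.pow 3)),
    rcl_mul s0 (hE.pow 3), rcl_pow hE, rcl_pow hE]
  simp only [show (7 / 2 + 1 : ℕ) = 4 from rfl, Finset.sum_range_succ, Finset.sum_range_zero,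
    zero_add, Nat.mul_zero, Nat.mul_one, Nat.sub_zero, k0, show 2 * 1 = 2 from rfl,
    show 2 * 2 = 4 from rfl, show 2 * 3 = 6 from rfl, k2, k4, k6, show 7 - 2 = 5 from rfl,
    show 7 - 4 = 3 from rfl, show 7 - 6 = 1 from rfl, pow_one]
  generalize rcl hE = e
  generalize rcl s0 = y
  have m2 : (q1 : ℂ) • e ^ 2 * e ^ 5 = (q1 : ℂ) • e ^ 7 := by
    rw [smul_mul_assoc, ← pow_add]
  have m4 : ((q2 : ℂ) • e ^ 4 + (c : ℂ) • y) * e ^ 3 = (q2 : ℂ) • e ^ 7 + (c : ℂ) • (y * e ^ 3) := by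
    rw [add_mul, smul_mul_assoc, smul_mul_assoc, ← pow_add]
  have m6 : ((α : ℂ) • e ^ 6 + (β : ℂ) • (y * e ^ 2)) * e
      = (α : ℂ) • e ^ 7 + (β : ℂ) • (y * e ^ 3) := by
    rw [add_mul, smul_mul_assoc, smul_mul_assoc, ← pow_succ, mul_assoc, ← pow_succ]
  rw [m2, m4, m6, one_mul]
  push_cast
  module

end fin

end Crest.Agent.R208.EW
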