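import Crest.Agent.R208.MS2c
import Crest.Agent.R208.MS2e
import Crest.Agent.R208.MSDefs
import Crest.Agent.R208.HS1

-- ▼ part R208/MS4
section

/-!
R208, block MS4 (helper683): `push` from one energy decreasing step (MS2) and Palais-Smale (MS3).
Finitely many steps bring every loop of energy `≤ B` below the level `π` (the energy of the prime
closed geodesics) or `ε`-close (in `C⁰` and `H¹`) to a prime closed geodesic.
-/

set_option autoImplicit false

open Set Filter Topology MeasureTheory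
open scoped ContDiff RealInnerProductSpace Real
open Crest.GeometryTopology.Submanifold
open Crest.Agent.R241.DDefs Crest.Agent.R241.D Crest.Agent.R241.D2

noncomputable section

namespace Crest.Agent.R208.MS

/-! ### The combinatorial core -/

section core

variable {E g : ℕ → ℝ}

theorem core_tele (h : ∀ j, E (j + 1) ≤ E j - g j / 8) {l j : ℕ} (hlj : l ≤ j) :
    E j ≤ E l - (∑ i ∈ Finset.Ico l j, g i) / 8 := by
  induction j, hlj using Nat.le_induction with
  | base => simp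
  | succ j hj ih =>
    rw [Finset.sum_Ico_succ_top hj]
    have := h j
    linarith

theorem core_mono (hg : ∀ j, 0 ≤ g j) (h : ∀ j, E (j + 1) ≤ E j - g j / 8) {l j : ℕ}
    (hlj : l ≤ j) : E j ≤ E l := by
  have h1 := core_tele h hlj
  have h2 : 0 ≤ ∑ i ∈ Finset.Ico l j, g i := Finset.sum_nonneg fun i _ => hg i
  linarith

/-- the two phase argument: `Nr j r` means "the `j`-th loop is `r`-close to a prime closed
geodesic" -/
theorem core {Nr : ℕ → ℝ → Prop} {K B ε σ' σ₁ η₁ κ : ℝ} (hK : 0 < K) (hε : 0 < ε)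
    (hσ' : 0 < σ')
    (hg : ∀ j, 0 ≤ g j) (hE : ∀ j, 0 ≤ E j) (hEB : E 0 ≤ B)
    (h : ∀ j, E (j + 1) ≤ E j - g j / 8)
    (hmono : ∀ j r r', r ≤ r' → Nr j r → Nr j r')
    (hN : ∀ j r, Nr j r → Nr (j + 1) (r + √(K * g j)))
    (hc : ∀ j, g j ≤ σ' → E j ≤ 1 ∨ Nr j (ε / 2))
    (hd : ∀ j, g j ≤ σ₁ → E j ≤ 1 ∨ Nr j η₁)
    (hη₁ : η₁ ≤ ε / 2)
    (he : ∀ j, Nr j η₁ → E j ≤ π + κ / 2)
    (hκ1 : κ ≤ ε ^ 2 / (128 * K)) (hκ2 : κ ≤ ε * √σ' / (32 * √K)) (hκ3 : κ ≤ 1)
    {J : ℕ} (hJ : 8 * B < J * σ₁) :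
    E J ≤ π - κ / 2 ∨ Nr J ε := by
  have hpi : (3 : ℝ) < π := Real.pi_gt_three
  by_cases hNJ : Nr J ε
  · exact Or.inr hNJ
  left
  -- phase one: some `j₀ < J` with small gradient
  obtain ⟨j₀, hj₀, hj₀'⟩ : ∃ j₀ < J, g j₀ ≤ σ₁ := by
    by_contra hcon
    push Not at hcon
    have h1 := core_tele h (Nat.zero_le J)
    have h2 : (J : ℝ) * σ₁ ≤ ∑ i ∈ Finset.Ico 0 J, g i := by
      have h3 : ∑ i ∈ Finset.Ico 0 J, σ₁ ≤ ∑ i ∈ Finset.Ico 0 J, g i :=
        Finset.sum_le_sum fun i hi => (hcon i (Finset.mem_Ico.1 hi).2).le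
      simpa using h3
    have h4 := hE J
    linarith
  rcases hd j₀ hj₀' with h1 | h1
  · have := core_mono hg h hj₀.le
    linarith
  have hE0 := he j₀ h1
  -- the last index `l` in `[j₀, J)` where the loop is `ε / 2`-close
  have hex : ∃ l, j₀ ≤ l ∧ l < J ∧ Nr l (ε / 2) ∧ ∀ i, l < i → i < J → ¬ Nr i (ε / 2) := by
    classical
    let s := (Finset.Ico j₀ J).filter fun i => Nr i (ε / 2)
    have hs : s.Nonempty := ⟨j₀, by
      simp only [s, Finset.mem_filter, Finset.mem_Ico]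
      exact ⟨⟨le_rfl, hj₀⟩, hmono _ _ _ hη₁ h1⟩⟩
    have h2 := s.max'_mem hs
    simp only [s, Finset.mem_filter, Finset.mem_Ico] at h2
    refine ⟨s.max' hs, h2.1.1, h2.1.2, h2.2, fun i hi hiJ hcon => ?_⟩
    have h3 : i ∈ s := by
      simp only [s, Finset.mem_filter, Finset.mem_Ico]
      exact ⟨⟨h2.1.1.trans hi.le, hiJ⟩, hcon⟩
    exact absurd (s.le_max' i h3) (not_le.2 hi)
  obtain ⟨l, hl1, hl2, hl3, hl4⟩ := hex
  -- all later gradients are large, or the energy is small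
  by_cases hsm : ∃ i, l < i ∧ i < J ∧ E i ≤ 1
  · obtain ⟨i, _, hi2, hi3⟩ := hsm
    have := core_mono hg h hi2.le
    linarith
  push Not at hsm
  have hbig : ∀ i, l < i → i < J → σ' < g i := by
    intro i h2 h3
    by_contra hcon
    rcases hc i (not_lt.1 hcon) with h4 | h4
    · exact absurd h4 (not_le.2 (hsm i h2 h3))
    · exact hl4 i h2 h3 h4
  -- the chain of closeness
  have hchain : ∀ j, l ≤ j → Nr j (ε / 2 + ∑ i ∈ Finset.Ico l j, √(K * g i)) := by
    intro j hj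
    induction j, hj using Nat.le_induction with
    | base => simpa using hl3
    | succ j hj ih =>
      rw [Finset.sum_Ico_succ_top hj, ← add_assoc]
      exact hN _ _ ih
  have hsum : ε / 2 < ∑ i ∈ Finset.Ico l J, √(K * g i) := by
    by_contra hcon
    exact hNJ (hmono _ _ _ (by linarith [not_lt.1 hcon]) (hchain J hl2.le))
  rw [Finset.sum_eq_sum_Ico_succ_bot hl2] at hsum
  have htele := core_tele h hl2.le
  rw [Finset.sum_eq_sum_Ico_succ_bot hl2] at htele
  have hEl := core_mono hg h hl1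
  have hrest : 0 ≤ ∑ i ∈ Finset.Ico (l + 1) J, g i := Finset.sum_nonneg fun i _ => hg i
  have hgl := hg l
  have hsK : 0 < √K := Real.sqrt_pos.2 hK
  have hsσ : 0 < √σ' := Real.sqrt_pos.2 hσ'
  have hdrop : κ ≤ (g l + ∑ i ∈ Finset.Ico (l + 1) J, g i) / 8 := by
    by_cases hcase : ε / 4 < √(K * g l)
    · have h2 : (ε / 4) ^ 2 < K * g l := by
        have h3 : (ε / 4) ^ 2 < √(K * g l) ^ 2 := pow_lt_pow_left₀ hcase (by positivity) two_ne_zero
        rwa [Real.sq_sqrt (by positivity)] at h3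
      have h3 : ε ^ 2 / (128 * K) ≤ g l / 8 := by
        rw [div_le_iff₀ (by positivity)]
        nlinarith
      linarith
    · have h2 : ε / 4 < ∑ i ∈ Finset.Ico (l + 1) J, √(K * g i) := by linarith [not_lt.1 hcase]
      have h3 : ∑ i ∈ Finset.Ico (l + 1) J, √(K * g i) ≤
          ∑ i ∈ Finset.Ico (l + 1) J, √K * (g i / √σ') := by
        refine Finset.sum_le_sum fun i hi => ?_
        rw [Finset.mem_Ico] at hi
        rw [Real.sqrt_mul hK.le]
        refine mul_le_mul_of_nonneg_left ?_ hsK.le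
        rw [le_div_iff₀ hsσ]
        have h4 := hbig i (by omega) hi.2
        calc √(g i) * √σ' ≤ √(g i) * √(g i) :=
              mul_le_mul_of_nonneg_left (Real.sqrt_le_sqrt h4.le) (Real.sqrt_nonneg _)
          _ = g i := Real.mul_self_sqrt (hg i)
      have h4 : ∑ i ∈ Finset.Ico (l + 1) J, √K * (g i / √σ') =
          (√K / √σ') * ∑ i ∈ Finset.Ico (l + 1) J, g i := by
        rw [Finset.mul_sum]
        exact Finset.sum_congr rfl fun i _ => by ring
      rw [h4] at h3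
      have h5 : ε / 4 < (√K / √σ') * ∑ i ∈ Finset.Ico (l + 1) J, g i := h2.trans_le h3
      have h6 : ε * √σ' / (32 * √K) ≤ (∑ i ∈ Finset.Ico (l + 1) J, g i) / 8 := by
        rw [div_le_iff₀ (by positivity)]
        have h7 : ε / 4 * √σ' < √K * ∑ i ∈ Finset.Ico (l + 1) J, g i := by
          have := mul_lt_mul_of_pos_right h5 hsσ
          rwa [show √K / √σ' * (∑ i ∈ Finset.Ico (l + 1) J, g i) * √σ' =
            √K * ∑ i ∈ Finset.Ico (l + 1) J, g i by field_simp] at this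
        nlinarith
      linarith
  linarith

end core

/-! ### Minkowski's inequality for continuous functions -/

theorem mink {F : Type*} [NormedAddCommGroup F] {a b : ℝ → F} (ha : Continuous a)
    (hb : Continuous b) {L A B' : ℝ} (hL : 0 ≤ L) (hA : 0 ≤ A) (hB : 0 ≤ B')
    (h1 : ∫ t in (0:ℝ)..L, ‖a t‖ ^ 2 ≤ A ^ 2) (h2 : ∫ t in (0:ℝ)..L, ‖b t‖ ^ 2 ≤ B' ^ 2) :
    ∫ t in (0:ℝ)..L, ‖a t + b t‖ ^ 2 ≤ (A + B') ^ 2 := by
  -- first with positive bounds
  have key : ∀ A B' : ℝ, 0 < A → 0 < B' → ∫ t in (0:ℝ)..L, ‖a t‖ ^ 2 ≤ A ^ 2 →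
      ∫ t in (0:ℝ)..L, ‖b t‖ ^ 2 ≤ B' ^ 2 →
      ∫ t in (0:ℝ)..L, ‖a t + b t‖ ^ 2 ≤ (A + B') ^ 2 := by
    intro A B' hA hB h1 h2
    have h3 : ∫ t in (0:ℝ)..L, ‖a t + b t‖ ^ 2 ≤
        ∫ t in (0:ℝ)..L, ((1 + B' / A) * ‖a t‖ ^ 2 + (1 + A / B') * ‖b t‖ ^ 2) := by
      refine intervalIntegral.integral_mono_on hL ?_ ?_ fun t _ => ?_
      · exact Continuous.intervalIntegrable (by fun_prop) _ _
      · exact Continuous.intervalIntegrable (by fun_prop) _ _
      · have h4 : ‖a t + b t‖ ≤ ‖a t‖ + ‖b t‖ := norm_add_le _ _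
        have h5 : ‖a t + b t‖ ^ 2 ≤ (‖a t‖ + ‖b t‖) ^ 2 :=
          pow_le_pow_left₀ (norm_nonneg _) h4 2
        have h6 : 2 * ‖a t‖ * ‖b t‖ ≤ B' / A * ‖a t‖ ^ 2 + A / B' * ‖b t‖ ^ 2 := by
          have h7 : B' / A * ‖a t‖ ^ 2 + A / B' * ‖b t‖ ^ 2 - 2 * ‖a t‖ * ‖b t‖ =
              (B' * ‖a t‖ - A * ‖b t‖) ^ 2 / (A * B') := by
            field_simp
            ring
          have h8 : 0 ≤ (B' * ‖a t‖ - A * ‖b t‖) ^ 2 / (A * B') := by positivity
          linarith
        nlinarith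
    rw [intervalIntegral.integral_add (Continuous.intervalIntegrable (by fun_prop) _ _)
      (Continuous.intervalIntegrable (by fun_prop) _ _), intervalIntegral.integral_const_mul,
      intervalIntegral.integral_const_mul] at h3
    refine h3.trans ?_
    have h4 : (1 + B' / A) * ∫ t in (0:ℝ)..L, ‖a t‖ ^ 2 ≤ (1 + B' / A) * A ^ 2 :=
      mul_le_mul_of_nonneg_left h1 (by positivity)
    have h5 : (1 + A / B') * ∫ t in (0:ℝ)..L, ‖b t‖ ^ 2 ≤ (1 + A / B') * B' ^ 2 :=
      mul_le_mul_of_nonneg_left h2 (by positivity)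
    have h6 : (1 + B' / A) * A ^ 2 + (1 + A / B') * B' ^ 2 = (A + B') ^ 2 := by
      field_simp
      ring
    linarith
  have hlim : Tendsto (fun η : ℝ => (A + η + (B' + η)) ^ 2) (𝓝[>] 0) (𝓝 ((A + B') ^ 2)) := by
    have : Tendsto (fun η : ℝ => (A + η + (B' + η)) ^ 2) (𝓝 0) (𝓝 ((A + 0 + (B' + 0)) ^ 2)) := by
      apply Continuous.tendsto
      fun_prop
    simp only [add_zero] at this
    exact this.mono_left nhdsWithin_le_nhds
  refine ge_of_tendsto hlim ?_
  filter_upwards [self_mem_nhdsWithin] with η hη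
  have hη' : (0:ℝ) < η := hη
  exact key (A + η) (B' + η) (by positivity) (by positivity)
    (h1.trans (pow_le_pow_left₀ hA (by linarith) 2)) (h2.trans (pow_le_pow_left₀ hB (by linarith) 2))

variable {n N : ℕ} {κ : ℝ} {S : Set (Euc N)} (G : Geo n N κ S)

/-! ### Closed geodesics -/

theorem hasDerivAt_Exp_smul {x v : Euc N} (hx : x ∈ S) (hv : v ∈ G.T x) (t : ℝ) :
    HasDerivAt (fun s : ℝ => Exp G x (s • v)) (fl G ((x, v), t)).2 t := by
  have h1 : (fun s : ℝ => Exp G x (s • v)) = fun s => (fl G ((x, v), s)).1 := by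
    funext s
    exact Exp_smul G hx hv s
  rw [h1]
  exact hda_fst (hasDerivAt_fl G (complete G (q := (x, v)) ⟨hx, hv⟩ t))

theorem contDiff_Exp_smul {x v : Euc N} (hx : x ∈ S) (hv : v ∈ G.T x) :
    ContDiff ℝ ∞ (fun s : ℝ => Exp G x (s • v)) := by
  have h1 : (fun s : ℝ => Exp G x (s • v)) = fun s => (fl G ((x, v), s)).1 := by
    funext s
    exact Exp_smul G hx hv s
  rw [h1, contDiff_iff_contDiffAt]
  intro t
  have h2 := contDiffAt_fl' G (q := (x, v)) ⟨hx, hv⟩ t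
  have h3 : ContDiffAt ℝ ∞ (fun s : ℝ => ((x, v), s)) t := by fun_prop
  exact (ContDiffAt.comp t h2 h3).fst

theorem norm_deriv_Exp_smul {x v : Euc N} (hx : x ∈ S) (hv : v ∈ G.T x) (t : ℝ) :
    ‖deriv (fun s : ℝ => Exp G x (s • v)) t‖ = ‖v‖ := by
  rw [(hasDerivAt_Exp_smul G hx hv t).deriv]
  exact norm_fl G (q := (x, v)) ⟨hx, hv⟩ t

theorem En_geod {x v : Euc N} (hx : x ∈ S) (hv : v ∈ G.T x) :
    En (fun s : ℝ => Exp G x (s • v)) = π * ‖v‖ ^ 2 := by
  unfold En
  simp only [norm_deriv_Exp_smul G hx hv]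
  rw [intervalIntegral.integral_const]
  simp only [sub_zero, smul_eq_mul]
  ring

theorem gr_nonneg {lg : Euc N → Euc N → Euc N} {w : ℝ} (hw : 0 ≤ w) (c : ℝ → Euc N) :
    0 ≤ gr G lg w c := by
  unfold gr
  refine mul_nonneg (by positivity) ?_
  refine intervalIntegral.integral_nonneg (by positivity) fun s _ => ?_
  exact intervalIntegral.integral_nonneg hw fun t _ => by positivity

/-! ### Closeness -/

theorem Close.mono {η η' : ℝ} {c γ : ℝ → Euc N} (h : Close η c γ) (h0 : 0 ≤ η) (hη : η ≤ η') :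
    Close η' c γ where
  sup t := (h.sup t).trans hη
  h1 := h.h1.trans (pow_le_pow_left₀ h0 hη 2)

theorem Close.nonneg {η : ℝ} {c γ : ℝ → Euc N} (h : Close η c γ) : 0 ≤ η :=
  (norm_nonneg _).trans (h.sup 0)

theorem Close.trans {η η' : ℝ} {c c' γ : ℝ → Euc N} (h : Close η c γ) (h' : Close η' c' c)
    (hc : ContDiff ℝ ∞ c) (hc' : ContDiff ℝ ∞ c') (hγ : ContDiff ℝ ∞ γ) :
    Close (η + η') c' γ where
  sup t := by
    have h1 : c' t - γ t = (c t - γ t) + (c' t - c t) := by abel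
    rw [h1]
    exact (norm_add_le _ _).trans (add_le_add (h.sup t) (h'.sup t))
  h1 := by
    have h2 := mink (a := fun t => deriv c t - deriv γ t) (b := fun t => deriv c' t - deriv c t)
      ((hc.continuous_deriv (by simp)).sub (hγ.continuous_deriv (by simp)))
      ((hc'.continuous_deriv (by simp)).sub (hc.continuous_deriv (by simp)))
      (L := 2 * π) (by positivity) h.nonneg h'.nonneg h.h1 h'.h1
    have h3 : ∀ t, deriv c t - deriv γ t + (deriv c' t - deriv c t) = deriv c' t - deriv γ t :=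
      fun t => by abel
    simpa only [h3] using h2

theorem Close.En_le {η : ℝ} {c γ : ℝ → Euc N} (h : Close η c γ)
    (hc : ContDiff ℝ ∞ c) (hγ : ContDiff ℝ ∞ γ) :
    En c ≤ En γ + η * √(2 * En γ) + η ^ 2 / 2 := by
  have h0 := h.nonneg
  have hE := En_nonneg γ
  have h2 := mink (a := fun t => deriv c t - deriv γ t) (b := fun t => deriv γ t)
    ((hc.continuous_deriv (by simp)).sub (hγ.continuous_deriv (by simp)))
    (hγ.continuous_deriv (by simp))
    (L := 2 * π) (A := η) (B' := √(2 * En γ)) (by positivity) h0 (Real.sqrt_nonneg _) h.h1 (by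
      rw [Real.sq_sqrt (by positivity)]
      unfold En
      linarith)
  simp only [sub_add_cancel] at h2
  have h3 : En c = (1 / 2) * ∫ t in (0:ℝ)..(2 * π), ‖deriv c t‖ ^ 2 := rfl
  have h4 : √(2 * En γ) ^ 2 = 2 * En γ := Real.sq_sqrt (by positivity)
  rw [h3]
  nlinarith

theorem NearUM.mono {η η' : ℝ} {c : ℝ → Euc N} (h : NearUM G η c) (hη : η ≤ η') :
    NearUM G η' c := by
  obtain ⟨x, hx, v, hv, h1, h2⟩ := h
  exact ⟨x, hx, v, hv, h1, h2.mono h2.nonneg hη⟩

theorem NearUM.En_le {η : ℝ} {c : ℝ → Euc N} (h : NearUM G η c) (hc : ContDiff ℝ ∞ c)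
    (hη : η ≤ 1) : En c ≤ π + 4 * η := by
  obtain ⟨x, hx, v, hv, h1, h2⟩ := h
  have h3 := h2.En_le hc (contDiff_Exp_smul G hx hv)
  have h0 := h2.nonneg
  rw [En_geod G hx hv, h1] at h3
  have h4 : √(2 * (π * 1 ^ 2)) ≤ 3 := by
    rw [Real.sqrt_le_left (by norm_num)]
    have := Real.pi_lt_four
    linarith
  have h5 : η * √(2 * (π * 1 ^ 2)) ≤ η * 3 := mul_le_mul_of_nonneg_left h4 h0
  have h6 : η ^ 2 ≤ η * 1 := by
    rw [sq]
    exact mul_le_mul_of_nonneg_left hη h0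
  rw [one_pow, mul_one] at h3 h5
  refine h3.trans ?_
  linarith

theorem NearUM.step {η η' : ℝ} {c c' : ℝ → Euc N} (h : NearUM G η c) (h' : Close η' c' c)
    (hc : ContDiff ℝ ∞ c) (hc' : ContDiff ℝ ∞ c') : NearUM G (η + η') c' := by
  obtain ⟨x, hx, v, hv, h1, h2⟩ := h
  exact ⟨x, hx, v, hv, h1, h2.trans h' hc hc' (contDiff_Exp_smul G hx hv)⟩

/-! ### The theorem -/

variable {G} {lg : Euc N → Euc N → Euc N} {ρ : Euc N → Euc N} {w K B : ℝ}

/-- the properties of one step used here (MS2) -/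
def StepOK (G : Geo n N κ S) (lg : Euc N → Euc N → Euc N) (ρ : Euc N → Euc N) (w K B : ℝ) :
    Prop :=
  ∀ c, Loop S c → En c ≤ B → Loop S (st G lg ρ w 1 c) ∧
    En (st G lg ρ w 1 c) ≤ En c - gr G lg w c / 8 ∧
    (∀ t, ‖st G lg ρ w 1 c t - c t‖ ^ 2 ≤ K * gr G lg w c) ∧
    ∫ t in (0:ℝ)..(2 * π), ‖deriv (st G lg ρ w 1 c) t - deriv c t‖ ^ 2 ≤ K * gr G lg w c

/-- Palais-Smale (MS3) -/
def PSOK (G : Geo n N κ S) (lg : Euc N → Euc N → Euc N) (w B : ℝ) : Prop :=
  ∀ η > 0, ∃ σ > 0, ∀ c, Loop S c → En c ≤ B → gr G lg w c ≤ σ → En c ≤ η ∨ NearUM G η c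

/-- the iterates -/
theorem StepOK.iter (hw : 0 ≤ w) (h : StepOK G lg ρ w K B) {c : ℝ → Euc N} (hc : Loop S c)
    (hB : En c ≤ B) (j : ℕ) : Loop S ((st G lg ρ w 1)^[j] c) ∧ En ((st G lg ρ w 1)^[j] c) ≤ En c := by
  induction j with
  | zero => exact ⟨hc, le_rfl⟩
  | succ j ih =>
    rw [Function.iterate_succ_apply']
    have h1 := h _ ih.1 (ih.2.trans hB)
    have h2 := gr_nonneg G (lg := lg) hw ((st G lg ρ w 1)^[j] c)
    exact ⟨h1.1, by linarith [h1.2.1, ih.2]⟩

theorem push (hw : 0 ≤ w) (hK : 0 ≤ K) (hstep : StepOK G lg ρ w K B) (hps : PSOK G lg w B)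
    {ε : ℝ} (hε : 0 < ε) :
    ∃ J : ℕ, ∃ δ : ℝ, 0 < δ ∧ ∀ c, Loop S c → En c ≤ B → ∀ j, J ≤ j →
      En ((st G lg ρ w 1)^[j] c) ≤ π - δ ∨ NearUM G ε ((st G lg ρ w 1)^[j] c) := by
  -- enlarge `K`
  set K' := K + 1 with hK'
  have hK'0 : 0 < K' := by positivity
  obtain ⟨σ', hσ', hσ'2⟩ := hps (min (ε / 2) 1) (by positivity)
  set κ' := min (min (ε ^ 2 / (128 * K')) (ε * √σ' / (32 * √K'))) 1 with hκ'
  have hκ'0 : 0 < κ' := by
    have h1 : 0 < √K' := Real.sqrt_pos.2 hK'0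
    have h2 : 0 < √σ' := Real.sqrt_pos.2 hσ'
    exact lt_min (lt_min (by positivity) (by positivity)) one_pos
  set η₁ := min (ε / 2) (κ' / 8) with hη₁
  have hη₁0 : 0 < η₁ := lt_min (by positivity) (by positivity)
  have hκ'1 : κ' ≤ 1 := min_le_right _ _
  have hη₁1 : η₁ ≤ κ' / 8 := min_le_right _ _
  obtain ⟨σ₁, hσ₁, hσ₁2⟩ := hps η₁ hη₁0
  obtain ⟨J, hJ⟩ := exists_nat_gt (8 * B / σ₁)
  refine ⟨J, κ' / 2, by positivity, fun c hc hcB j hj => ?_⟩
  have hit := fun i => hstep.iter hw hc hcB i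
  have hst := fun i => hstep _ (hit i).1 ((hit i).2.trans hcB)
  have hgn := fun i => gr_nonneg G (lg := lg) hw ((st G lg ρ w 1)^[i] c)
  refine core (E := fun i => En ((st G lg ρ w 1)^[i] c))
    (g := fun i => gr G lg w ((st G lg ρ w 1)^[i] c))
    (Nr := fun i r => NearUM G r ((st G lg ρ w 1)^[i] c)) (K := K') (B := B) (σ' := σ')
    (σ₁ := σ₁) (η₁ := η₁) hK'0 hε hσ' hgn (fun i => En_nonneg _) hcB ?_ ?_ ?_ ?_ ?_
    (min_le_left _ _) ?_ ((min_le_left _ _).trans (min_le_left _ _))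
    ((min_le_left _ _).trans (min_le_right _ _)) hκ'1 ?_
  · intro i
    have := (hst i).2.1
    rw [Function.iterate_succ_apply']
    exact this
  · intro i r r' hr hN
    exact hN.mono G hr
  · intro i r hN
    have h1 := hst i
    rw [Function.iterate_succ_apply']
    refine hN.step G ?_ (hit i).1.smooth h1.1.smooth
    have h2 : K * gr G lg w ((st G lg ρ w 1)^[i] c) ≤ K' * gr G lg w ((st G lg ρ w 1)^[i] c) :=
      mul_le_mul_of_nonneg_right (by linarith) (hgn i)
    have h3 : 0 ≤ K' * gr G lg w ((st G lg ρ w 1)^[i] c) := mul_nonneg hK'0.le (hgn i)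
    refine ⟨fun t => Real.le_sqrt_of_sq_le ((h1.2.2.1 t).trans h2), ?_⟩
    rw [Real.sq_sqrt h3]
    exact h1.2.2.2.trans h2
  · intro i hi
    rcases hσ'2 _ (hit i).1 ((hit i).2.trans hcB) hi with h1 | h1
    · exact Or.inl (h1.trans (min_le_right _ _))
    · exact Or.inr (h1.mono G (min_le_left _ _))
  · intro i hi
    rcases hσ₁2 _ (hit i).1 ((hit i).2.trans hcB) hi with h1 | h1
    · exact Or.inl (h1.trans (by linarith))
    · exact Or.inr h1
  · intro i hi
    have := hi.En_le G (hit i).1.smooth (by linarith)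
    linarith
  · rw [div_lt_iff₀ hσ₁] at hJ
    have h1 : (J : ℝ) * σ₁ ≤ (j : ℝ) * σ₁ :=
      mul_le_mul_of_nonneg_right (by exact_mod_cast hj) hσ₁.le
    linarith

end Crest.Agent.R208.MS
end
end

-- ▼ part R208/FL1
section

/-!
R208, block FL (helper613), part FL1: energy facts for the averaged Birkhoff step used by the
choice free contraction below the level `π`: every intermediate step `st σ`, `0 ≤ σ ≤ 1`, does not
increase the energy; finitely many steps bring `En ≤ E₀ < π` to `En ≤ η`.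
-/

set_option autoImplicit false

open Set Filter Topology MeasureTheory
open scoped ContDiff RealInnerProductSpace Real
open Crest.GeometryTopology.Submanifold
open Crest.Agent.R241.DDefs Crest.Agent.R241.D Crest.Agent.R241.D2

noncomputable section

namespace Crest.Agent.R208.FL

open Crest.Agent.R208.MS

variable {n N : ℕ} {κ : ℝ} {S : Set (Euc N)} {G : Geo n N κ S} {lg : Euc N → Euc N → Euc N}
  {ρ : Euc N → Euc N} {r C r' K B : ℝ} {c : ℝ → Euc N} {w : ℝ}

/-- the mixture -/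
def mix (G : Geo n N κ S) (lg : Euc N → Euc N → Euc N) (w σ : ℝ) (c : ℝ → Euc N) (t : ℝ) :
    Euc N := (1 - σ) • c t + σ • av G lg w c t

section est

variable (hsg : SG G lg r C) (hR : Retr S ρ r' K) (hc : Loop S c) (hB : En c ≤ B)
  (hs : Small r C r' K B w)

include hsg hc hB hs in
theorem mix_sub_sq (t : ℝ) {σ : ℝ} (h0 : 0 ≤ σ) (h1 : σ ≤ 1) :
    ‖mix G lg w σ c t - c t‖ ^ 2 ≤ σ * dd G lg w c t := by
  have h2 : mix G lg w σ c t - c t = σ • (av G lg w c t - c t) := by unfold mix; module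
  rw [h2, norm_smul, Real.norm_eq_abs, abs_of_nonneg h0, mul_pow]
  have h3 := av_sub_le hsg hc hB hs t
  have h4 : σ ^ 2 ≤ σ := by nlinarith
  have h5 := dd_nonneg (G := G) (lg := lg) (c := c) hs t
  calc σ ^ 2 * ‖av G lg w c t - c t‖ ^ 2 ≤ σ * ‖av G lg w c t - c t‖ ^ 2 :=
        mul_le_mul_of_nonneg_right h4 (by positivity)
    _ ≤ σ * dd G lg w c t := mul_le_mul_of_nonneg_left h3 h0

include hsg hc hB hs in
theorem mix_sub_Y_sq (t a : ℝ) {σ : ℝ} (h0 : 0 ≤ σ) (h1 : σ ≤ 1) :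
    ‖mix G lg w σ c t - PP G lg w c (t - a) a‖ ^ 2 ≤
      2 * dd G lg w c t + 2 * ‖PP G lg w c (t - a) a - c t‖ ^ 2 := by
  have h2 := mix_sub_sq hsg hc hB hs t h0 h1
  have h5 := dd_nonneg (G := G) (lg := lg) (c := c) hs t
  have h2' : ‖mix G lg w σ c t - c t‖ ^ 2 ≤ dd G lg w c t :=
    h2.trans (mul_le_of_le_one_left h5 h1)
  have h3 : ‖mix G lg w σ c t - PP G lg w c (t - a) a‖ ≤
      ‖mix G lg w σ c t - c t‖ + ‖PP G lg w c (t - a) a - c t‖ := by
    have : mix G lg w σ c t - PP G lg w c (t - a) a =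
      (mix G lg w σ c t - c t) - (PP G lg w c (t - a) a - c t) := by abel
    rw [this]
    exact norm_sub_le _ _
  have h4 := pow_le_pow_left₀ (norm_nonneg _) h3 2
  nlinarith [sq_nonneg (‖mix G lg w σ c t - c t‖ - ‖PP G lg w c (t - a) a - c t‖)]

include hsg hc hB hs in
theorem mix_close_Y (hr' : 0 < r') (t : ℝ) {a : ℝ} (ha : a ∈ Icc 0 w) {σ : ℝ} (h0 : 0 ≤ σ)
    (h1 : σ ≤ 1) : ‖mix G lg w σ c t - PP G lg w c (t - a) a‖ < r' := by
  have h2 := mix_sub_Y_sq hsg hc hB hs t a h0 h1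
  have h3 := dd_le hsg hc hB hs t
  have h4 := Y_sub_le hsg hc hB hs t ha
  have h5 := UU_le hsg hc hB hs (t - a)
  have h6 := hs.s3
  have h7 : w * UU G lg w c (t - a) ≤ w * (4 * B) := mul_le_mul_of_nonneg_left h5 hs.pos.le
  refine lt_of_pow_lt_pow_left₀ 2 hr'.le ?_
  nlinarith

include hsg hR hc hB hs in
/-- the retraction moves the mixture by a second order amount -/
theorem ret_mix_le (t : ℝ) {σ : ℝ} (h0 : 0 ≤ σ) (h1 : σ ≤ 1) :
    ‖ρ (mix G lg w σ c t) - mix G lg w σ c t‖ ≤ 5 * K * (σ * dd G lg w c t) := by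
  have hw := hs.pos
  have hcl := hs.close hsg.r_pos hc hB
  set q := mix G lg w σ c t with hq
  set Y : ℝ → Euc N := fun a => PP G lg w c (t - a) a with hY
  have hYc : Continuous Y := cPP hsg hc hB hs t
  have hK : 0 ≤ K := zero_le_one.trans hR.one_le
  have hd0 := dd_nonneg (G := G) (lg := lg) (c := c) hs t
  set A : Euc N := (1 / w) • ∫ a in (0:ℝ)..w, (ρ q - Y a - fderiv ℝ ρ q (q - Y a)) with hA
  set A0 : Euc N := ρ q - c t - fderiv ℝ ρ q (q - c t) with hA0
  have hmain : ρ q - q = (1 - σ) • A0 + σ • A := by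
    have e0 : A = ρ q - av G lg w c t - fderiv ℝ ρ q (q - av G lg w c t) := by
      have hi : IntervalIntegrable (fun a => q - Y a) volume 0 w :=
        (continuous_const.sub hYc).intervalIntegrable _ _
      have hi' : IntervalIntegrable (fun a => ρ q - Y a) volume 0 w :=
        (continuous_const.sub hYc).intervalIntegrable _ _
      have e1 : ∀ x : Euc N, (1 / w) • ∫ a in (0:ℝ)..w, (x - Y a) = x - av G lg w c t := by
        intro x
        rw [intervalIntegral.integral_sub intervalIntegrable_const (hYc.intervalIntegrable _ _),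
          intervalIntegral.integral_const, sub_zero, smul_sub, smul_smul,
          one_div_mul_cancel hw.ne', one_smul, av_eq]
      have hi2 : IntervalIntegrable (fun a => fderiv ℝ ρ q (q - Y a)) volume 0 w :=
        Continuous.intervalIntegrable
          ((fderiv ℝ ρ q).continuous.comp (continuous_const.sub hYc)) _ _
      rw [hA, intervalIntegral.integral_sub hi' hi2,
        ContinuousLinearMap.intervalIntegral_comp_comm _ hi, smul_sub, ← map_smul, e1, e1]
    have e2 : q = (1 - σ) • c t + σ • av G lg w c t := rfl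
    have e3 : (1 - σ) • (q - c t) + σ • (q - av G lg w c t) = 0 := by
      rw [smul_sub, smul_sub]
      have : (1 - σ) • q + σ • q = q := by rw [← add_smul, sub_add_cancel, one_smul]
      calc (1 - σ) • q - (1 - σ) • c t + (σ • q - σ • av G lg w c t) =
          ((1 - σ) • q + σ • q) - ((1 - σ) • c t + σ • av G lg w c t) := by abel
        _ = 0 := by rw [this, ← e2, sub_self]
    have e4 : (1 - σ) • fderiv ℝ ρ q (q - c t) + σ • fderiv ℝ ρ q (q - av G lg w c t) = 0 := by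
      rw [← map_smul, ← map_smul, ← map_add, e3, map_zero]
    rw [e0, hA0]
    have e5 : (1 - σ) • (ρ q - c t - fderiv ℝ ρ q (q - c t)) +
        σ • (ρ q - av G lg w c t - fderiv ℝ ρ q (q - av G lg w c t)) =
        (((1 - σ) • ρ q + σ • ρ q) - ((1 - σ) • c t + σ • av G lg w c t)) -
          ((1 - σ) • fderiv ℝ ρ q (q - c t) + σ • fderiv ℝ ρ q (q - av G lg w c t)) := by
      simp only [smul_sub]
      abel
    rw [e5, e4, ← add_smul, sub_add_cancel, one_smul, sub_zero, ← e2]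
  have hqc : ‖q - c t‖ ^ 2 ≤ σ * dd G lg w c t := mix_sub_sq hsg hc hB hs t h0 h1
  have hA0le : ‖A0‖ ≤ K * (σ * dd G lg w c t) := by
    refine (hR.taylor (c t) (hc.mem t) q (mix_close hsg hc hB hs hR.r_pos h0 h1 t)).trans ?_
    exact mul_le_mul_of_nonneg_left hqc hK
  have hAle : ‖A‖ ≤ 4 * K * dd G lg w c t := by
    have h2 : ‖∫ a in (0:ℝ)..w, (ρ q - Y a - fderiv ℝ ρ q (q - Y a))‖ ≤
        ∫ a in (0:ℝ)..w, K * (2 * dd G lg w c t + 2 * ‖Y a - c t‖ ^ 2) := by
      refine intervalIntegral.norm_integral_le_of_norm_le hw.le ?_ ?_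
      · refine Eventually.of_forall fun a ha => ?_
        have ha' : a ∈ Icc 0 w := ⟨ha.1.le, ha.2⟩
        refine (hR.taylor (Y a) (PP_mem hsg hc hcl _ _) q
          (mix_close_Y hsg hc hB hs hR.r_pos t ha' h0 h1)).trans ?_
        exact mul_le_mul_of_nonneg_left (mix_sub_Y_sq hsg hc hB hs t a h0 h1) hK
      · exact Continuous.intervalIntegrable (by fun_prop) _ _
    have h3 : ∫ a in (0:ℝ)..w, K * (2 * dd G lg w c t + 2 * ‖Y a - c t‖ ^ 2) =
        K * (2 * dd G lg w c t * w + 2 * ∫ a in (0:ℝ)..w, ‖Y a - c t‖ ^ 2) := by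
      rw [intervalIntegral.integral_const_mul, intervalIntegral.integral_add
        intervalIntegrable_const (Continuous.intervalIntegrable (by fun_prop) _ _),
        intervalIntegral.integral_const, intervalIntegral.integral_const_mul, smul_eq_mul,
        sub_zero]
      ring
    have h4 := avg_Y_le hsg hc hB hs t
    rw [h3] at h2
    rw [hA, norm_smul, Real.norm_eq_abs, abs_of_pos (by positivity)]
    have h5 : (1 / w) * ‖∫ a in (0:ℝ)..w, (ρ q - Y a - fderiv ℝ ρ q (q - Y a))‖ ≤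
        (1 / w) * (K * (2 * dd G lg w c t * w + 2 * ∫ a in (0:ℝ)..w, ‖Y a - c t‖ ^ 2)) :=
      mul_le_mul_of_nonneg_left h2 (by positivity)
    refine h5.trans ?_
    have h6 : (1 / w) * (K * (2 * dd G lg w c t * w + 2 * ∫ a in (0:ℝ)..w, ‖Y a - c t‖ ^ 2)) =
        K * (2 * dd G lg w c t + 2 * ((1 / w) * ∫ a in (0:ℝ)..w, ‖Y a - c t‖ ^ 2)) := by
      field_simp
    rw [h6]
    have h7 : K * (2 * dd G lg w c t + 2 * ((1 / w) * ∫ a in (0:ℝ)..w, ‖Y a - c t‖ ^ 2)) ≤
        K * (2 * dd G lg w c t + 2 * dd G lg w c t) := by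
      refine mul_le_mul_of_nonneg_left ?_ hK
      linarith
    linarith
  rw [hmain]
  refine (norm_add_le _ _).trans ?_
  rw [norm_smul, norm_smul, Real.norm_eq_abs, Real.norm_eq_abs, abs_of_nonneg h0,
    abs_of_nonneg (by linarith : 0 ≤ 1 - σ)]
  have h2 : (1 - σ) * ‖A0‖ ≤ 1 * (K * (σ * dd G lg w c t)) :=
    mul_le_mul (by linarith) hA0le (norm_nonneg _) zero_le_one
  have h3 : σ * ‖A‖ ≤ σ * (4 * K * dd G lg w c t) := mul_le_mul_of_nonneg_left hAle h0
  linarith

include hsg hR hc hB hs in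
theorem fd_mix_le (t : ℝ) {σ : ℝ} (h0 : 0 ≤ σ) (h1 : σ ≤ 1) :
    ‖fderiv ℝ ρ (mix G lg w σ c t)‖ ^ 2 ≤ 1 + 35 * K ^ 4 * (σ * dd G lg w c t) := by
  have h2 := hR.fd (c t) (hc.mem t) _ (mix_close hsg hc hB hs hR.r_pos h0 h1 t)
  have h3 := ret_mix_le hsg hR hc hB hs t h0 h1
  rw [norm_sub_rev] at h3
  have hK := hR.one_le
  have hd0 := dd_nonneg (G := G) (lg := lg) (c := c) hs t
  have hd1 : dd G lg w c t ≤ 1 := (dd_le hsg hc hB hs t).trans hs.s4
  have hd2 : 0 ≤ σ * dd G lg w c t := mul_nonneg h0 hd0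
  have hd3 : σ * dd G lg w c t ≤ 1 := by nlinarith
  have h4 : ‖fderiv ℝ ρ (mix G lg w σ c t)‖ ≤ 1 + 5 * K ^ 2 * (σ * dd G lg w c t) := by
    refine h2.trans ?_
    have : K * ‖mix G lg w σ c t - ρ (mix G lg w σ c t)‖ ≤ K * (5 * K * (σ * dd G lg w c t)) :=
      mul_le_mul_of_nonneg_left h3 (by linarith)
    change 1 + K * ‖mix G lg w σ c t - ρ (mix G lg w σ c t)‖ ≤ _
    nlinarith
  refine (pow_le_pow_left₀ (norm_nonneg _) h4 2).trans ?_
  have hK2 : (1:ℝ) ≤ K ^ 2 := one_le_pow₀ hK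
  have hK4 : K ^ 2 ≤ K ^ 4 := by nlinarith
  set d := σ * dd G lg w c t
  have h5 : d ^ 2 ≤ d := by nlinarith
  have h6 : K ^ 4 * d ^ 2 ≤ K ^ 4 * d := mul_le_mul_of_nonneg_left h5 (by positivity)
  have h7 : K ^ 2 * d ≤ K ^ 4 * d := mul_le_mul_of_nonneg_right hK4 hd2
  nlinarith

include hsg hR hc hB hs in
theorem hda_st' (t : ℝ) {σ : ℝ} (h0 : 0 ≤ σ) (h1 : σ ≤ 1) : HasDerivAt (st G lg ρ w σ c)
    (fderiv ℝ ρ (mix G lg w σ c t) ((1 - σ) • deriv c t + σ • av' G lg w c t)) t := by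
  have h2 := hR.smooth (c t) (hc.mem t) _ (mix_close hsg hc hB hs hR.r_pos h0 h1 t)
  have h3 : HasDerivAt (mix G lg w σ c) ((1 - σ) • deriv c t + σ • av' G lg w c t) t :=
    ((hc.hasDerivAt t).const_smul (1 - σ)).add ((hda_av hsg hc hB hs t).const_smul σ)
  have h4 : HasFDerivAt ρ (fderiv ℝ ρ (mix G lg w σ c t)) (mix G lg w σ c t) :=
    (h2.differentiableAt (by simp)).hasFDerivAt
  have h5 := h4.comp_hasDerivAt t h3
  exact h5

theorem convex_sq {H : Type*} [NormedAddCommGroup H] [InnerProductSpace ℝ H] {σ : ℝ}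
    (h0 : 0 ≤ σ) (h1 : σ ≤ 1) (u v : H) :
    ‖(1 - σ) • u + σ • v‖ ^ 2 ≤ (1 - σ) * ‖u‖ ^ 2 + σ * ‖v‖ ^ 2 := by
  have h2 : ‖(1 - σ) • u + σ • v‖ ≤ (1 - σ) * ‖u‖ + σ * ‖v‖ := by
    refine (norm_add_le _ _).trans ?_
    rw [norm_smul, norm_smul, Real.norm_eq_abs, Real.norm_eq_abs, abs_of_nonneg h0,
      abs_of_nonneg (by linarith : 0 ≤ 1 - σ)]
  refine (pow_le_pow_left₀ (norm_nonneg _) h2 2).trans ?_
  have h3 : 0 ≤ (1 - σ) * σ * (‖u‖ - ‖v‖) ^ 2 :=
    mul_nonneg (mul_nonneg (by linarith) h0) (sq_nonneg _)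
  nlinarith

include hsg hR hc hB hs in
/-- **the energy does not increase during the step** -/
theorem En_st_mix_le {σ : ℝ} (h0 : 0 ≤ σ) (h1 : σ ≤ 1) :
    En (st G lg ρ w σ c) ≤ En c - σ * gr G lg w c / 16 := by
  have hw := hs.pos
  have hB0 : 0 ≤ B := (MS.En_nonneg c).trans hB
  have hgr0 : 0 ≤ gr G lg w c := gr_nonneg' hs
  have hK := hR.one_le
  have hd : ∀ t, deriv (st G lg ρ w σ c) t = fderiv ℝ ρ (mix G lg w σ c t)
      ((1 - σ) • deriv c t + σ • av' G lg w c t) :=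
    fun t => (hda_st' hsg hR hc hB hs t h0 h1).deriv
  have hL := loop_st hsg hR hc hB hs h0 h1
  have e1 := continuous_av' hsg hc hB hs
  have e2 := continuous_dd hsg hc hB hs
  have e3 := hc.continuous_deriv
  set a : ℝ := 35 * K ^ 4 * σ with ha
  have ha0 : 0 ≤ a := by positivity
  set M : ℝ := 2 * B * C ^ 2 / w with hM
  have hM0 : 0 ≤ M := by positivity
  have h2 : ∫ t in (0:ℝ)..(2 * π), ‖deriv (st G lg ρ w σ c) t‖ ^ 2 ≤
      ∫ t in (0:ℝ)..(2 * π), (((1 - σ) * ‖deriv c t‖ ^ 2 + σ * ‖av' G lg w c t‖ ^ 2) +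
        ((a * (1 - σ) * (w * gr G lg w c)) * ‖deriv c t‖ ^ 2 + (a * σ * M) * dd G lg w c t)) := by
    refine intervalIntegral.integral_mono_on (by positivity)
      (hL.continuous_sq.intervalIntegrable _ _) ?_ fun t _ => ?_
    · exact Continuous.intervalIntegrable (by fun_prop) _ _
    · rw [hd]
      have f1 := fd_mix_le hsg hR hc hB hs t h0 h1
      have f2 := av'_sq_le' hsg hc hB hs t
      have f3 := dd_nonneg (G := G) (lg := lg) (c := c) hs t
      have f4 : ‖fderiv ℝ ρ (mix G lg w σ c t) ((1 - σ) • deriv c t + σ • av' G lg w c t)‖ ^ 2 ≤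
          ‖fderiv ℝ ρ (mix G lg w σ c t)‖ ^ 2 *
            ‖(1 - σ) • deriv c t + σ • av' G lg w c t‖ ^ 2 := by
        rw [← mul_pow]
        exact pow_le_pow_left₀ (norm_nonneg _) (ContinuousLinearMap.le_opNorm _ _) 2
      have f5 := convex_sq h0 h1 (deriv c t) (av' G lg w c t)
      have f6 := dd_le_gr hsg hc hB hs t
      have f7 : 1 + 35 * K ^ 4 * (σ * dd G lg w c t) = 1 + a * dd G lg w c t := by
        rw [ha]; ring
      rw [f7] at f1
      refine f4.trans ((mul_le_mul f1 f5 (by positivity) (by positivity)).trans ?_)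
      have f8 : a * (1 - σ) * ‖deriv c t‖ ^ 2 * dd G lg w c t ≤
          a * (1 - σ) * ‖deriv c t‖ ^ 2 * (w * gr G lg w c) :=
        mul_le_mul_of_nonneg_left f6 (mul_nonneg (mul_nonneg ha0 (by linarith)) (by positivity))
      have f9 : a * σ * dd G lg w c t * ‖av' G lg w c t‖ ^ 2 ≤ a * σ * dd G lg w c t * M :=
        mul_le_mul_of_nonneg_left f2 (by positivity)
      linarith
  rw [intervalIntegral.integral_add (Continuous.intervalIntegrable (by fun_prop) _ _)
    (Continuous.intervalIntegrable (by fun_prop) _ _),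
    intervalIntegral.integral_add (Continuous.intervalIntegrable (by fun_prop) _ _)
    (Continuous.intervalIntegrable (by fun_prop) _ _),
    intervalIntegral.integral_add (Continuous.intervalIntegrable (by fun_prop) _ _)
    (Continuous.intervalIntegrable (by fun_prop) _ _),
    intervalIntegral.integral_const_mul, intervalIntegral.integral_const_mul,
    intervalIntegral.integral_const_mul, intervalIntegral.integral_const_mul,
    int_dd hsg hc hB hs, int_eq_En, int_eq_En] at h2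
  have h3 := int_av'_le hsg hc hB hs
  set g := gr G lg w c with hg
  have h4 : σ * ∫ t in (0:ℝ)..(2 * π), ‖av' G lg w c t‖ ^ 2 ≤ σ * (2 * En c - (1 / 2) * g) :=
    mul_le_mul_of_nonneg_left h3 h0
  have hC1 : (1:ℝ) ≤ C ^ 2 := one_le_pow₀ hsg.one_le
  have h5 : a * (1 - σ) * (w * g) * (2 * En c) ≤ a * (1 - σ) * (w * g) * (2 * B * C ^ 2) := by
    refine mul_le_mul_of_nonneg_left ?_
      (mul_nonneg (mul_nonneg ha0 (by linarith)) (by positivity))
    nlinarith
  have h6 : a * σ * M * (w ^ 2 * g) = a * σ * (w * g) * (2 * B * C ^ 2) := by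
    rw [hM]
    field_simp
  have h7 : a * (w * g) * (2 * B * C ^ 2) = (192 * K ^ 4 * B * C ^ 2 * w) * (σ * g * (70 / 192)) := by
    rw [ha]; ring
  have h8 : (192 * K ^ 4 * B * C ^ 2 * w) * (σ * g * (70 / 192)) ≤ 1 * (σ * g * (70 / 192)) :=
    mul_le_mul_of_nonneg_right hs.s5 (by positivity)
  have h9 : 0 ≤ σ * g := mul_nonneg h0 hgr0
  nlinarith

end est

/-! ### The gap below `π` -/

theorem Close.symm {η : ℝ} {c γ : ℝ → Euc N} (h : Close η c γ) : Close η γ c where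
  sup t := by rw [norm_sub_rev]; exact h.sup t
  h1 := by
    have := h.h1
    simp_rw [norm_sub_rev (deriv c _)] at this
    exact this

/-- a loop close to a prime closed geodesic has energy near `π` -/
theorem NearUM.le_En {η : ℝ} {c : ℝ → Euc N} (h : NearUM G η c) (hc : ContDiff ℝ ∞ c)
    (hη : η ≤ 1) (hE : En c ≤ π) : π - 4 * η ≤ En c := by
  obtain ⟨x, hx, v, hv, h1, h2⟩ := h
  have h3 := (Close.symm h2).En_le (contDiff_Exp_smul G hx hv) hc
  have h0 := h2.nonneg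
  rw [En_geod G hx hv, h1] at h3
  have h4 : √(2 * En c) ≤ 3 := by
    rw [Real.sqrt_le_left (by norm_num)]
    have := Real.pi_lt_four
    linarith
  have h5 : η * √(2 * En c) ≤ η * 3 := mul_le_mul_of_nonneg_left h4 h0
  have h6 : η ^ 2 ≤ η * 1 := by
    rw [sq]
    exact mul_le_mul_of_nonneg_left hη h0
  rw [one_pow, mul_one] at h3
  linarith

/-- **finitely many steps bring the energy below any positive level** -/
theorem exists_J (hw : 0 ≤ w) (hstep : StepOK G lg ρ w K B) (hps : PSOK G lg w B)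
    {E₀ η : ℝ} (hE₀ : E₀ < π) (hE₀B : E₀ ≤ B) (hη : 0 < η) :
    ∃ J : ℕ, ∀ c, Loop S c → En c ≤ E₀ → ∀ j, J ≤ j → En ((st G lg ρ w 1)^[j] c) ≤ η := by
  set η' := min η (min 1 ((π - E₀) / 8)) with hη'
  have hη'0 : 0 < η' := lt_min hη (lt_min one_pos (by linarith))
  obtain ⟨σ, hσ, hσ'⟩ := hps η' hη'0
  obtain ⟨J, hJ⟩ := exists_nat_gt (8 * E₀ / σ)
  refine ⟨J, fun c hc hE j hj => ?_⟩
  have hcB : En c ≤ B := hE.trans hE₀B
  have hit := fun i => hstep.iter hw hc hcB i
  have hst := fun i => hstep _ (hit i).1 ((hit i).2.trans hcB)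
  have hgn := fun i => gr_nonneg G (lg := lg) hw ((st G lg ρ w 1)^[i] c)
  have hdec : ∀ i, En ((st G lg ρ w 1)^[i + 1] c) ≤
      En ((st G lg ρ w 1)^[i] c) - gr G lg w ((st G lg ρ w 1)^[i] c) / 8 := by
    intro i
    rw [Function.iterate_succ_apply']
    exact (hst i).2.1
  have hmono : ∀ {l j : ℕ}, l ≤ j → En ((st G lg ρ w 1)^[j] c) ≤ En ((st G lg ρ w 1)^[l] c) :=
    fun hlj => core_mono (E := fun i => En ((st G lg ρ w 1)^[i] c))
      (g := fun i => gr G lg w ((st G lg ρ w 1)^[i] c)) hgn hdec hlj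
  by_contra hcon
  push Not at hcon
  have hbig : ∀ i < j, σ < gr G lg w ((st G lg ρ w 1)^[i] c) := by
    intro i hi
    by_contra hle
    have h1 := hmono hi.le
    rcases hσ' _ (hit i).1 ((hit i).2.trans hcB) (not_lt.1 hle) with h2 | h2
    · have : η' ≤ η := min_le_left _ _
      linarith
    · have h3 : En ((st G lg ρ w 1)^[i] c) ≤ E₀ := (hit i).2.trans hE
      have h4 : η' ≤ 1 := (min_le_right _ _).trans (min_le_left _ _)
      have h5 : η' ≤ (π - E₀) / 8 := (min_le_right _ _).trans (min_le_right _ _)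
      have h6 := NearUM.le_En h2 (hit i).1.smooth h4 (by linarith)
      linarith
  have h1 := core_tele (E := fun i => En ((st G lg ρ w 1)^[i] c))
    (g := fun i => gr G lg w ((st G lg ρ w 1)^[i] c)) hdec (Nat.zero_le j)
  have h2 : (j : ℝ) * σ ≤ ∑ i ∈ Finset.Ico 0 j, gr G lg w ((st G lg ρ w 1)^[i] c) := by
    have h3 : ∑ i ∈ Finset.Ico 0 j, σ ≤
        ∑ i ∈ Finset.Ico 0 j, gr G lg w ((st G lg ρ w 1)^[i] c) :=
      Finset.sum_le_sum fun i hi => (hbig i (Finset.mem_Ico.1 hi).2).le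
    simpa using h3
  have h4 := MS.En_nonneg ((st G lg ρ w 1)^[j] c)
  rw [div_lt_iff₀ hσ] at hJ
  have h5 : (J : ℝ) * σ ≤ (j : ℝ) * σ :=
    mul_le_mul_of_nonneg_right (by exact_mod_cast hj) hσ.le
  simp only [Function.iterate_zero, id_eq] at h1
  linarith

/-- one step is `StepOK` -/
theorem stepOK (hsg : SG G lg r C) (hR : Retr S ρ r' K) (hs : Small r C r' K B w) :
    StepOK G lg ρ w (51 * K ^ 4) B := fun _ hc hB =>
  ⟨loop_st hsg hR hc hB hs zero_le_one le_rfl, En_st_le hsg hR hc hB hs,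
    st_sub_le hsg hR hc hB hs, int_st_sub_le hsg hR hc hB hs⟩

end Crest.Agent.R208.FL
end
end

-- ▼ part R208/MS3a
section

/-!
R208, block MS3 (helper378), file MS3a: elementary estimates for loops; continuity of the short
geodesics; the defect `u`.
-/

set_option autoImplicit false

open Set Filter Topology MeasureTheory
open scoped ContDiff RealInnerProductSpace Real
open Crest.GeometryTopology.Submanifold
open Crest.Agent.R241.DDefs Crest.Agent.R241.D Crest.Agent.R241.D2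

noncomputable section

namespace Crest.Agent.R208.PS

open Crest.Agent.R208.MS

variable {n N : ℕ} {κ : ℝ} {S : Set (Euc N)}

/-! ### Cauchy-Schwarz on an interval -/

theorem sq_integral_le {f : ℝ → ℝ} (hf : Continuous f) {a b : ℝ} (hab : a ≤ b) :
    (∫ t in a..b, f t) ^ 2 ≤ (b - a) * ∫ t in a..b, f t ^ 2 := by
  rcases hab.eq_or_lt with rfl | h
  · simp
  have hba : 0 < b - a := sub_pos.2 h
  set I := ∫ t in a..b, f t with hI
  set m := I / (b - a) with hm
  have h0 : 0 ≤ ∫ t in a..b, (f t - m) ^ 2 :=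
    intervalIntegral.integral_nonneg hab (fun t _ => sq_nonneg _)
  have h1 : ∫ t in a..b, (f t - m) ^ 2 =
      (∫ t in a..b, f t ^ 2) - 2 * m * I + m ^ 2 * (b - a) := by
    have h2 : (fun t => (f t - m) ^ 2) = fun t => (f t ^ 2 - 2 * m * f t) + m ^ 2 := by
      funext t; ring
    rw [h2, intervalIntegral.integral_add, intervalIntegral.integral_sub,
      intervalIntegral.integral_const_mul, intervalIntegral.integral_const, smul_eq_mul,
      mul_comm (b - a)]
    all_goals exact Continuous.intervalIntegrable (by fun_prop) _ _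
  rw [h1] at h0
  have h3 : m * (b - a) = I := by rw [hm]; field_simp
  have h4 : 0 ≤ (b - a) * ((∫ t in a..b, f t ^ 2) - 2 * m * I + m ^ 2 * (b - a)) := by positivity
  have h5 : (b - a) * ((∫ t in a..b, f t ^ 2) - 2 * m * I + m ^ 2 * (b - a)) =
      (b - a) * (∫ t in a..b, f t ^ 2) - 2 * (m * (b - a)) * I + (m * (b - a)) ^ 2 := by ring
  rw [h5, h3] at h4
  nlinarith

theorem norm_sub_sq_le {E : Type*} [NormedAddCommGroup E] [NormedSpace ℝ E] [CompleteSpace E]
    {c c' : ℝ → E} (hd : ∀ t, HasDerivAt c (c' t) t) (hc' : Continuous c')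
    {a b : ℝ} (hab : a ≤ b) : ‖c b - c a‖ ^ 2 ≤ (b - a) * ∫ t in a..b, ‖c' t‖ ^ 2 := by
  have h1 : ∫ t in a..b, c' t = c b - c a :=
    intervalIntegral.integral_eq_sub_of_hasDerivAt (fun t _ => hd t)
      (hc'.intervalIntegrable _ _)
  have h2 : ‖c b - c a‖ ≤ ∫ t in a..b, ‖c' t‖ := by
    rw [← h1]
    exact intervalIntegral.norm_integral_le_integral_norm hab
  have h3 := sq_integral_le (hc'.norm) hab
  refine (pow_le_pow_left₀ (norm_nonneg _) h2 2).trans h3

/-! ### Loops -/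

theorem loop_hasDeriv {c : ℝ → Euc N} (h : Loop S c) (t : ℝ) : HasDerivAt c (deriv c t) t :=
  (h.smooth.differentiable (by simp) t).hasDerivAt

theorem loop_cont_deriv {c : ℝ → Euc N} (h : Loop S c) : Continuous (deriv c) :=
  h.smooth.continuous_deriv (by simp)

theorem loop_deriv_per {c : ℝ → Euc N} (h : Loop S c) (t : ℝ) :
    deriv c (t + 2 * π) = deriv c t := by
  have h1 : (fun s => c (s + 2 * π)) = c := funext h.per
  have h2 : deriv (fun s => c (s + 2 * π)) t = deriv c (t + 2 * π) := deriv_comp_add_const _ _ _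
  rw [← h2, h1]

theorem integral_period {f : ℝ → ℝ} (hp : ∀ t, f (t + 2 * π) = f t) (s : ℝ) :
    ∫ t in s..(s + 2 * π), f t = ∫ t in (0:ℝ)..(2 * π), f t := by
  have h := (show Function.Periodic f (2 * π) from hp).intervalIntegral_add_eq s 0
  simpa using h

theorem loop_energy {c : ℝ → Euc N} (_h : Loop S c) :
    ∫ t in (0:ℝ)..(2 * π), ‖deriv c t‖ ^ 2 = 2 * En c := by
  unfold En
  ring

theorem loop_energy' {c : ℝ → Euc N} (h : Loop S c) (s : ℝ) :
    ∫ t in s..(s + 2 * π), ‖deriv c t‖ ^ 2 = 2 * En c := by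
  rw [integral_period (fun t => by rw [(loop_deriv_per h) t]), (loop_energy h)]

theorem loop_int_le {c : ℝ → Euc N} (h : Loop S c) {s t : ℝ}
    (ht : t ≤ s + 2 * π) : ∫ t in s..t, ‖deriv c t‖ ^ 2 ≤ 2 * En c := by
  rw [← (loop_energy' h) s]
  have hc : Continuous (fun t => ‖deriv c t‖ ^ 2) := (loop_cont_deriv h).norm.pow 2
  rw [← intervalIntegral.integral_add_adjacent_intervals (hc.intervalIntegrable s t)
    (hc.intervalIntegrable t (s + 2 * π))]
  have := intervalIntegral.integral_nonneg (μ := volume) ht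
    (fun u _ => by positivity : ∀ u ∈ Icc t (s + 2 * π), 0 ≤ ‖deriv c u‖ ^ 2)
  linarith

theorem loop_holder {c : ℝ → Euc N} (h : Loop S c) {B : ℝ} (hB : En c ≤ B) {s t : ℝ}
    (hst : s ≤ t) (ht : t ≤ s + 2 * π) : ‖c t - c s‖ ^ 2 ≤ 2 * B * (t - s) := by
  have h1 := norm_sub_sq_le (loop_hasDeriv h) (loop_cont_deriv h) hst
  have h2 := loop_int_le h ht
  have h3 : 0 ≤ t - s := sub_nonneg.2 hst
  nlinarith

/-! ### continuity of the short geodesics -/

section short

variable {G : Geo n N κ S} {lg : Euc N → Euc N → Euc N} {r C : ℝ}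

/-- the combined map -/
def GM (G : Geo n N κ S) (lg : Euc N → Euc N → Euc N) (q : (Euc N × Euc N) × ℝ) :
    Euc N × Euc N := fl G ((q.1.1, lg q.1.1 q.1.2), q.2)

/-- pairs at distance `≤ ρ` -/
def KK (S : Set (Euc N)) (ρ : ℝ) : Set (Euc N × Euc N) :=
  {p | p.1 ∈ S ∧ p.2 ∈ S ∧ ‖p.1 - p.2‖ ^ 2 ≤ ρ}

theorem isCompact_KK (hS : IsCompact S) (ρ : ℝ) : IsCompact (KK S ρ) := by
  have h1 : IsCompact (S ×ˢ S) := hS.prod hS
  have h2 : KK S ρ = (S ×ˢ S) ∩ {p | ‖p.1 - p.2‖ ^ 2 ≤ ρ} := by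
    ext p
    simp [KK, and_assoc]
  rw [h2]
  refine h1.inter_right (isClosed_le (by fun_prop) continuous_const)

theorem contDiffAt_GM (h : SG G lg r C) {p : Euc N × Euc N} (h1 : p.1 ∈ S) (h2 : p.2 ∈ S)
    (h3 : ‖p.1 - p.2‖ < r) (τ : ℝ) : ContDiffAt ℝ ∞ (GM G lg) (p, τ) := by
  have e1 : ContDiffAt ℝ ∞ (fl G) ((p.1, lg p.1 p.2), τ) :=
    contDiffAt_fl' G (q := (p.1, lg p.1 p.2)) ⟨h1, h.mem _ h1 _ h2 h3⟩ τ
  have e2 : ContDiffAt ℝ ∞ (fun q : (Euc N × Euc N) × ℝ => lg q.1.1 q.1.2) (p, τ) :=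
    ContDiffAt.comp (p, τ) (h.smooth _ h1 _ h2 h3) contDiffAt_fst
  have e3 : ContDiffAt ℝ ∞ (fun q : (Euc N × Euc N) × ℝ => ((q.1.1, lg q.1.1 q.1.2), q.2))
      (p, τ) := by
    refine ContDiffAt.prodMk (ContDiffAt.prodMk ?_ e2) contDiffAt_snd
    exact contDiffAt_fst.comp (p, τ) contDiffAt_fst
  exact ContDiffAt.comp (p, τ) e1 e3

theorem lt_of_sq {x r ρ : ℝ} (hr : 0 < r) (hρ : ρ < r ^ 2) (h : x ^ 2 ≤ ρ) : x < r :=
  lt_of_pow_lt_pow_left₀ 2 hr.le (h.trans_lt hρ)

theorem uniform_GM (h : SG G lg r C) (hS : IsCompact S) {ρ : ℝ} (hρ : ρ < r ^ 2) {ε : ℝ}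
    (hε : 0 < ε) : ∃ δ > 0, ∀ p ∈ KK S ρ, ∀ q ∈ KK S ρ, ∀ τ ∈ Icc (0 : ℝ) 1,
      ‖p.1 - q.1‖ < δ → ‖p.2 - q.2‖ < δ → ‖GM G lg (p, τ) - GM G lg (q, τ)‖ < ε := by
  have hK : IsCompact (KK S ρ ×ˢ Icc (0 : ℝ) 1) := (isCompact_KK hS ρ).prod isCompact_Icc
  have hc : ContinuousOn (GM G lg) (KK S ρ ×ˢ Icc (0 : ℝ) 1) := by
    rintro ⟨p, τ⟩ ⟨hp, -⟩
    exact (contDiffAt_GM h hp.1 hp.2.1 (lt_of_sq h.r_pos hρ hp.2.2) τ).continuousAt.continuousWithinAt
  have hu := hK.uniformContinuousOn_of_continuous hc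
  obtain ⟨δ, hδ, hδ'⟩ := Metric.uniformContinuousOn_iff.1 hu ε hε
  refine ⟨δ, hδ, fun p hp q hq τ hτ h1 h2 => ?_⟩
  have h3 := hδ' (p, τ) ⟨hp, hτ⟩ (q, τ) ⟨hq, hτ⟩ (by
    rw [Prod.dist_eq, Prod.dist_eq, dist_self, dist_eq_norm, dist_eq_norm]
    simp only [max_lt_iff]
    exact ⟨⟨h1, h2⟩, hδ⟩)
  rwa [dist_eq_norm] at h3

/-! ### the defect -/

/-- the position defect -/
def uu (G : Geo n N κ S) (lg : Euc N → Euc N → Euc N) (w : ℝ) (c : ℝ → Euc N) (s a : ℝ) : Euc N :=
  gd G lg (c s) (c (s + w)) (a / w) - c (s + a)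

/-- its derivative -/
def du (G : Geo n N κ S) (lg : Euc N → Euc N → Euc N) (w : ℝ) (c : ℝ → Euc N) (s a : ℝ) : Euc N :=
  (1 / w) • gv G lg (c s) (c (s + w)) (a / w) - deriv c (s + a)

theorem gr_eq (w : ℝ) (c : ℝ → Euc N) : gr G lg w c =
    (1 / w) * ∫ s in (0:ℝ)..(2 * π), ∫ a in (0:ℝ)..w, ‖du G lg w c s a‖ ^ 2 := rfl

theorem uu_per {w : ℝ} {c : ℝ → Euc N} (hc : ∀ t, c (t + 2 * π) = c t) (s a : ℝ) :
    uu G lg w c (s + 2 * π) a = uu G lg w c s a := by
  unfold uu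
  rw [hc s, show s + 2 * π + w = s + w + 2 * π by ring, hc, show s + 2 * π + a = s + a + 2 * π
    by ring, hc]

variable (h : SG G lg r C) {w : ℝ} {c : ℝ → Euc N}

theorem uu_zero (s : ℝ) : uu G lg w c s 0 = 0 := by
  simp [uu, gd, fl_zero]

/-- the pair `(c s, c (s + w))` -/
theorem loop_pair (hw : 0 < w) (hw2 : w ≤ 2 * π) (hc : Loop S c) {B : ℝ} (hB : En c ≤ B) (s : ℝ) :
    (c s, c (s + w)) ∈ KK S (2 * B * w) := by
  refine ⟨hc.mem s, hc.mem _, ?_⟩
  have h1 := loop_holder hc hB (s := s) (t := s + w) (by linarith) (by linarith)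
  rw [norm_sub_rev]
  simpa using h1

include h in
theorem continuous_GMc {ρ : ℝ} (hρ : ρ < r ^ 2) (hcc : Continuous c)
    (hK : ∀ s, (c s, c (s + w)) ∈ KK S ρ) :
    Continuous (fun p : ℝ × ℝ => GM G lg ((c p.1, c (p.1 + w)), p.2 / w)) := by
  rw [continuous_iff_continuousAt]
  rintro ⟨s, a⟩
  have h1 := hK s
  have h2 := (contDiffAt_GM h h1.1 h1.2.1 (lt_of_sq h.r_pos hρ h1.2.2) (a / w)).continuousAt
  have h3 : ContinuousAt (fun p : ℝ × ℝ => ((c p.1, c (p.1 + w)), p.2 / w)) (s, a) := by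
    refine Continuous.continuousAt ?_
    fun_prop
  exact ContinuousAt.comp (f := fun p : ℝ × ℝ => ((c p.1, c (p.1 + w)), p.2 / w))
    (x := (s, a)) h2 h3

include h in
theorem continuous_uu {ρ : ℝ} (hρ : ρ < r ^ 2) (hcc : Continuous c)
    (hK : ∀ s, (c s, c (s + w)) ∈ KK S ρ) :
    Continuous (fun p : ℝ × ℝ => uu G lg w c p.1 p.2) := by
  have h1 := (continuous_GMc h hρ hcc hK).fst
  exact h1.sub (by fun_prop)

include h in
theorem continuous_du {ρ : ℝ} (hρ : ρ < r ^ 2) (hcc : Continuous c) (hcd : Continuous (deriv c))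
    (hK : ∀ s, (c s, c (s + w)) ∈ KK S ρ) :
    Continuous (fun p : ℝ × ℝ => du G lg w c p.1 p.2) := by
  have h1 := (continuous_GMc h hρ hcc hK).snd
  have h2 : Continuous (fun p : ℝ × ℝ => deriv c (p.1 + p.2)) :=
    hcd.comp (by fun_prop : Continuous (fun p : ℝ × ℝ => p.1 + p.2))
  exact (h1.const_smul (1 / w : ℝ)).sub h2

include h in
theorem hasDerivAt_uu {ρ : ℝ} (hρ : ρ < r ^ 2) (hc : Loop S c)
    (hK : ∀ s, (c s, c (s + w)) ∈ KK S ρ) (s a : ℝ) :
    HasDerivAt (fun a => uu G lg w c s a) (du G lg w c s a) a := by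
  have h1 := hK s
  have hm := h.mem _ h1.1 _ h1.2.1 (lt_of_sq h.r_pos hρ h1.2.2)
  have hq : ((c s, lg (c s) (c (s + w))) : Euc N × Euc N) ∈ TS G := ⟨h1.1, hm⟩
  have h2 := hasDerivAt_fl G (complete G hq (a / w))
  have h3 : HasDerivAt (fun a : ℝ => a / w) (1 / w) a := by
    simpa using (hasDerivAt_id a).div_const w
  have h4 := (hda_fst h2).scomp a h3
  have h5 : HasDerivAt (fun a => c (s + a)) (deriv c (s + a)) a :=
    ((loop_hasDeriv hc) (s + a)).comp_const_add s a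
  exact h4.sub h5

include h in
theorem norm_uu_sq {ρ : ℝ} (hρ : ρ < r ^ 2) (hc : Loop S c)
    (hK : ∀ s, (c s, c (s + w)) ∈ KK S ρ) (hw : 0 < w) (s : ℝ) {a : ℝ} (ha : a ∈ Icc 0 w) :
    ‖uu G lg w c s a‖ ^ 2 ≤ w * ∫ a in (0:ℝ)..w, ‖du G lg w c s a‖ ^ 2 := by
  have hcu : Continuous (fun a => du G lg w c s a) :=
    (continuous_du h hρ hc.smooth.continuous (loop_cont_deriv hc) hK).comp
      (f := fun a : ℝ => (s, a)) (by fun_prop)
  have h1 := norm_sub_sq_le (c := fun a => uu G lg w c s a) (c' := fun a => du G lg w c s a)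
    (fun a => hasDerivAt_uu h hρ hc hK s a) hcu ha.1
  simp only [uu_zero, sub_zero] at h1
  refine h1.trans ?_
  have hn : 0 ≤ ∫ a in (0:ℝ)..a, ‖du G lg w c s a‖ ^ 2 :=
    intervalIntegral.integral_nonneg ha.1 (fun _ _ => by positivity)
  have h2 : ∫ a in (0:ℝ)..a, ‖du G lg w c s a‖ ^ 2 ≤ ∫ a in (0:ℝ)..w, ‖du G lg w c s a‖ ^ 2 := by
    have hcn : Continuous (fun a => ‖du G lg w c s a‖ ^ 2) := hcu.norm.pow 2
    rw [← intervalIntegral.integral_add_adjacent_intervals (hcn.intervalIntegrable 0 a)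
      (hcn.intervalIntegrable a w)]
    have := intervalIntegral.integral_nonneg (μ := volume) ha.2
      (fun u _ => by positivity : ∀ u ∈ Icc a w, 0 ≤ ‖du G lg w c s u‖ ^ 2)
    linarith
  calc a * ∫ a in (0:ℝ)..a, ‖du G lg w c s a‖ ^ 2 ≤ w * ∫ a in (0:ℝ)..a, ‖du G lg w c s a‖ ^ 2 :=
        mul_le_mul_of_nonneg_right ha.2 hn
    _ ≤ _ := mul_le_mul_of_nonneg_left h2 hw.le

include h in
/-- the position defect is small in `L^2`, for every `a` -/
theorem integral_uu_le {ρ : ℝ} (hρ : ρ < r ^ 2) (hc : Loop S c)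
    (hK : ∀ s, (c s, c (s + w)) ∈ KK S ρ) (hw : 0 < w) {a : ℝ} (ha : a ∈ Icc 0 w) :
    ∫ s in (0:ℝ)..(2 * π), ‖uu G lg w c s a‖ ^ 2 ≤ w ^ 2 * gr G lg w c := by
  have hcu := continuous_uu h hρ hc.smooth.continuous hK
  have hcd := continuous_du h hρ hc.smooth.continuous (loop_cont_deriv hc) hK
  have h1 : Continuous (fun s => ‖uu G lg w c s a‖ ^ 2) :=
    ((hcu.comp (f := fun s : ℝ => (s, a)) (by fun_prop)).norm.pow 2)
  have h2 : Continuous (fun s => w * ∫ a in (0:ℝ)..w, ‖du G lg w c s a‖ ^ 2) := by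
    refine continuous_const.mul ?_
    refine intervalIntegral.continuous_parametric_intervalIntegral_of_continuous' ?_ _ _
    exact hcd.norm.pow 2
  have h3 : ∫ s in (0:ℝ)..(2 * π), ‖uu G lg w c s a‖ ^ 2 ≤
      ∫ s in (0:ℝ)..(2 * π), w * ∫ a in (0:ℝ)..w, ‖du G lg w c s a‖ ^ 2 :=
    intervalIntegral.integral_mono_on Real.two_pi_pos.le (h1.intervalIntegrable _ _)
      (h2.intervalIntegrable _ _) (fun s _ => norm_uu_sq h hρ hc hK hw s ha)
  refine h3.trans (le_of_eq ?_)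
  rw [intervalIntegral.integral_const_mul, gr_eq]
  field_simp

/-- averaging a periodic function over a window -/
theorem avg_window {f : ℝ → ℝ} (hf : Continuous f) (hp : ∀ t, f (t + 2 * π) = f t) (w : ℝ) :
    ∫ s in (0:ℝ)..(2 * π), ∫ a in (0:ℝ)..w, f (s + a) = w * ∫ t in (0:ℝ)..(2 * π), f t := by
  rw [intervalIntegral_intervalIntegral_swap]
  · have h1 : ∀ a : ℝ, ∫ s in (0:ℝ)..(2 * π), f (s + a) = ∫ t in (0:ℝ)..(2 * π), f t := by
      intro a
      rw [intervalIntegral.integral_comp_add_right (fun t => f t), zero_add,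
        add_comm (2 * π) a, integral_period hp]
    simp only [h1, intervalIntegral.integral_const, smul_eq_mul, sub_zero]
  · have hcont : Continuous (Function.uncurry fun s a : ℝ => f (s + a)) :=
      hf.comp (f := fun p : ℝ × ℝ => p.1 + p.2) (by fun_prop)
    exact (hcont.continuousOn.integrableOn_compact (isCompact_uIcc.prod isCompact_uIcc)).mono_set
      (prod_mono uIoc_subset_uIcc uIoc_subset_uIcc)

end short

end Crest.Agent.R208.PS
end
end

-- ▼ part R208/MS3b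
section

/-!
R208, block MS3 (helper378), file MS3b: a curve all of whose windows of length `w` are short
geodesics is a geodesic; closed geodesics of energy `< 4π`; compactness of loops.
-/

set_option autoImplicit false

open Set Filter Topology MeasureTheory
open scoped ContDiff RealInnerProductSpace Real
open Crest.GeometryTopology.Submanifold
open Crest.Agent.R241.DDefs Crest.Agent.R241.D Crest.Agent.R241.D2

noncomputable section

namespace Crest.Agent.R208.PS

open Crest.Agent.R208.MS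

variable {n N : ℕ} {κ : ℝ} {S : Set (Euc N)}
variable {G : Geo n N κ S} {lg : Euc N → Euc N → Euc N} {r C : ℝ}

/-! ### closed geodesics -/

theorem closed_one (hB : Bl n N κ S G π) (hper : HS.Per G) {q : Euc N × Euc N} (hq : q ∈ TS G)
    (hcl : (fl G (q, 2 * π)).1 = q.1) (h0 : 0 < ‖q.2‖) (h2 : ‖q.2‖ < 2) : ‖q.2‖ = 1 := by
  obtain ⟨x, v⟩ := q
  simp only at h0 h2 hcl ⊢
  set l := ‖v‖ with hl
  have hpi := Real.pi_pos
  have hx : x ∈ S := hq.1
  have hu : l⁻¹ • v ∈ G.T x := (G.T x).smul_mem _ hq.2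
  have hz : ((x, l⁻¹ • v) : Euc N × Euc N) ∈ TS G := ⟨hx, hu⟩
  have hz1 : ‖l⁻¹ • v‖ = 1 := by
    rw [norm_smul, norm_inv, norm_norm, inv_mul_cancel₀ h0.ne']
  have hv : l • (l⁻¹ • v) = v := smul_inv_smul₀ h0.ne' v
  have h3 := fl_scale G hz l (2 * π)
  rw [hv] at h3
  have hT : (fl G ((x, l⁻¹ • v), l * (2 * π))).1 = x := by rw [h3] at hcl; exact hcl
  have hp := hper _ hz hz1
  have hp2 : fl G ((x, l⁻¹ • v), 2 * π + 2 * π) = (x, l⁻¹ • v) := by
    rw [fl_add' G hz, hp, hp]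
  have key : ∀ a b : ℝ, (fl G ((x, l⁻¹ • v), a)).1 = x → (fl G ((x, l⁻¹ • v), b)).1 = x →
      a < b → b - a ≤ π → False := by
    intro a b ha hb hab hba
    have h4 := hB.dist_fl _ hz hz1 a b hab.le hba
    rw [ha, hb, intrinsicDist_self hx] at h4
    linarith
  have e0 : (fl G ((x, l⁻¹ • v), (0 : ℝ))).1 = x := by rw [fl_zero]
  have e2 : (fl G ((x, l⁻¹ • v), 2 * π)).1 = x := by rw [hp]
  have e4 : (fl G ((x, l⁻¹ • v), 2 * π + 2 * π)).1 = x := by rw [hp2]
  by_contra hne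
  rcases lt_or_gt_of_ne hne with h | h
  · by_cases h5 : l * (2 * π) ≤ π
    · exact key 0 _ e0 hT (by positivity) (by linarith)
    · push Not at h5
      exact key _ _ hT e2 (by nlinarith) (by linarith)
  · by_cases h5 : l * (2 * π) ≤ 3 * π
    · exact key _ _ e2 hT (by nlinarith) (by linarith)
    · push Not at h5
      exact key _ _ hT e4 (by nlinarith) (by linarith)

/-! ### local geodesics are geodesics -/

/-- position and velocity -/
def qq (lg : Euc N → Euc N → Euc N) (w : ℝ) (c : ℝ → Euc N) (t : ℝ) : Euc N × Euc N :=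
  (c t, (1 / w) • lg (c t) (c (t + w)))

section glob

variable (h : SG G lg r C) {w ρ : ℝ} {c : ℝ → Euc N} (hw : 0 < w) (hρ : ρ < r ^ 2)
  (hK : ∀ s, (c s, c (s + w)) ∈ KK S ρ)

include h hρ hK in
theorem lg_mem (s : ℝ) : lg (c s) (c (s + w)) ∈ G.T (c s) :=
  h.mem _ (hK s).1 _ (hK s).2.1 (lt_of_sq h.r_pos hρ (hK s).2.2)

include h hρ hK in
theorem qq_mem (s : ℝ) : qq lg w c s ∈ TS G :=
  ⟨(hK s).1, (G.T _).smul_mem _ (lg_mem h hρ hK s)⟩

include h hρ hK in
theorem fl_qq (s a : ℝ) : fl G (qq lg w c s, a) =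
    (gd G lg (c s) (c (s + w)) (a / w), (1 / w) • gv G lg (c s) (c (s + w)) (a / w)) := by
  have hq : ((c s, lg (c s) (c (s + w))) : Euc N × Euc N) ∈ TS G :=
    ⟨(hK s).1, lg_mem h hρ hK s⟩
  have h1 := fl_scale G hq (1 / w) a
  rw [one_div_mul_eq_div] at h1
  exact h1

variable (hg : ∀ s, ∀ a ∈ Icc 0 w, gd G lg (c s) (c (s + w)) (a / w) = c (s + a))

include h hρ hK hg in
theorem fl_fst {s a : ℝ} (ha : a ∈ Icc 0 w) : (fl G (qq lg w c s, a)).1 = c (s + a) := by
  rw [fl_qq h hρ hK]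
  exact hg s a ha

include h hρ hK in
theorem hasDerivAt_sh (s t : ℝ) : HasDerivAt (fun x => (fl G (qq lg w c s, x - s)).1)
    (fl G (qq lg w c s, t - s)).2 t := by
  have h1 := hda_fst (hasDerivAt_fl G (complete G (qq_mem h hρ hK s) (t - s)))
  exact h1.comp_sub_const t s

include h hρ hK hg in
theorem hasDerivAt_c {s a : ℝ} (ha : a ∈ Ioo 0 w) :
    HasDerivAt c (fl G (qq lg w c s, a)).2 (s + a) := by
  have h1 := hasDerivAt_sh h hρ hK s (s + a)
  rw [add_sub_cancel_left] at h1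
  refine h1.congr_of_eventuallyEq ?_
  have h2 : Ioo s (s + w) ∈ 𝓝 (s + a) := Ioo_mem_nhds (by linarith [ha.1]) (by linarith [ha.2])
  filter_upwards [h2] with x hx
  rw [fl_fst h hρ hK hg (a := x - s) ⟨by linarith [hx.1], by linarith [hx.2]⟩]
  congr 1
  ring

include h hw hρ hK hg in
theorem hasDerivAt_c' (t : ℝ) : HasDerivAt c (qq lg w c t).2 t := by
  have h1 := hasDerivAt_c h hρ hK hg (s := t - w / 2) (a := w / 2)
    ⟨by positivity, by linarith⟩
  rw [sub_add_cancel] at h1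
  have h2 : HasDerivWithinAt c (qq lg w c t).2 (Icc t (t + w)) t := by
    have h3 := (hasDerivAt_sh h hρ hK t t).hasDerivWithinAt (s := Icc t (t + w))
    rw [sub_self, fl_zero] at h3
    refine h3.congr (fun x hx => ?_) ?_
    · rw [fl_fst h hρ hK hg (a := x - t) ⟨by linarith [hx.1], by linarith [hx.2]⟩]
      congr 1
      ring
    · rw [sub_self, fl_zero]
      rfl
  have h4 : (qq lg w c t).2 = (fl G (qq lg w c (t - w / 2), w / 2)).2 :=
    (uniqueDiffOn_Icc (by linarith : t < t + w) t ⟨le_refl _, by linarith⟩).eq_deriv _ h2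
      h1.hasDerivWithinAt
  rw [h4]
  exact h1

include h hw hρ hK hg in
theorem qq_add {s a : ℝ} (ha : a ∈ Ico 0 w) : qq lg w c (s + a) = fl G (qq lg w c s, a) := by
  rcases eq_or_lt_of_le ha.1 with h0 | h0
  · rw [← h0, add_zero, fl_zero]
  · refine Prod.ext ?_ ?_
    · exact (fl_fst h hρ hK hg ⟨ha.1, ha.2.le⟩).symm
    · exact (hasDerivAt_c' h hw hρ hK hg (s + a)).unique
        (hasDerivAt_c h hρ hK hg ⟨h0, ha.2⟩)

include h hw hρ hK hg in
theorem qq_add' (s : ℝ) {t : ℝ} (ht : 0 ≤ t) : qq lg w c (s + t) = fl G (qq lg w c s, t) := by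
  have h1 : ∀ k : ℕ, ∀ s, qq lg w c (s + k * (w / 2)) = fl G (qq lg w c s, k * (w / 2)) := by
    intro k
    induction k with
    | zero => intro s; simp [fl_zero]
    | succ k ih =>
      intro s
      have e : s + ((k + 1 : ℕ) : ℝ) * (w / 2) = (s + k * (w / 2)) + w / 2 := by
        push_cast
        ring
      have e' : ((k + 1 : ℕ) : ℝ) * (w / 2) = k * (w / 2) + w / 2 := by
        push_cast
        ring
      rw [e, e', fl_add' G (qq_mem h hρ hK s), ← ih,
        qq_add h hw hρ hK hg ⟨by positivity, by linarith⟩]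
  have hw2 : 0 < w / 2 := by positivity
  set k := ⌊t / (w / 2)⌋₊ with hk
  have h2 : (k : ℝ) * (w / 2) ≤ t := by
    have := Nat.floor_le (div_nonneg ht hw2.le)
    rwa [le_div_iff₀ hw2] at this
  have h3 : t < (k + 1) * (w / 2) := by
    have := Nat.lt_floor_add_one (t / (w / 2))
    rwa [div_lt_iff₀ hw2] at this
  have h4 : t = k * (w / 2) + (t - k * (w / 2)) := by ring
  have h5 : s + t = (s + k * (w / 2)) + (t - k * (w / 2)) := by ring
  rw [h5, qq_add h hw hρ hK hg ⟨by linarith, by nlinarith⟩, h1, ← fl_add' G (qq_mem h hρ hK s),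
    ← h4]

include h hw hρ hK hg in
theorem continuous_c : Continuous c :=
  continuous_iff_continuousAt.2 fun t => (hasDerivAt_c' h hw hρ hK hg t).continuousAt

include h hw hρ hK hg in
theorem continuous_c' : Continuous (fun t => (qq lg w c t).2) := by
  have hc := continuous_c h hw hρ hK hg
  rw [continuous_iff_continuousAt]
  intro t
  have h1 : ContinuousAt (fun q : Euc N × Euc N => lg q.1 q.2) (c t, c (t + w)) :=
    (h.smooth _ (hK t).1 _ (hK t).2.1 (lt_of_sq h.r_pos hρ (hK t).2.2)).continuousAt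
  have h2 : ContinuousAt (fun t => (c t, c (t + w))) t := by
    refine Continuous.continuousAt ?_
    fun_prop
  exact (ContinuousAt.comp (f := fun t => (c t, c (t + w))) (x := t) h1 h2).const_smul
    (1 / w : ℝ)

end glob

/-! ### compactness of loops -/

theorem exists_limit (hS : IsCompact S) {B : ℝ} (c : ℕ → ℝ → Euc N)
    (hc : ∀ j, Loop S (c j)) (hE : ∀ j, En (c j) ≤ B) :
    ∃ (l : Filter ℕ) (d : ℝ → Euc N), l.NeBot ∧ l ≤ atTop ∧ (∀ t, d t ∈ S) ∧
      (∀ t, d (t + 2 * π) = d t) ∧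
      (∀ ε > 0, ∀ᶠ j in l, ∀ t, ‖c j t - d t‖ < ε) := by
  have hpi := Real.pi_pos
  set l : Filter ℕ := Ultrafilter.toFilter (hyperfilter ℕ) with hl
  have hlim : ∀ t, ∃ x ∈ S, Tendsto (fun j => c j t) l (𝓝 x) := by
    intro t
    have hev : ∀ᶠ j in l, c j t ∈ S := Eventually.of_forall fun j => (hc j).mem t
    obtain ⟨x, hx, hx'⟩ := hS.ultrafilter_le_nhds ((hyperfilter ℕ).map (fun j => c j t)) (by
      rw [le_principal_iff]
      exact hev)
    exact ⟨x, hx, hx'⟩
  choose d hdS hd using hlim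
  have hper : ∀ t, d (t + 2 * π) = d t := fun t => by
    have h1 := hd (t + 2 * π)
    simp only [fun j => (hc j).per t] at h1
    exact tendsto_nhds_unique h1 (hd t)
  refine ⟨l, d, inferInstance, ?_, hdS, hper, fun ε hε => ?_⟩
  · rw [← Nat.cofinite_eq_atTop]
    exact hyperfilter_le_cofinite
  let F : ℕ → Icc (0 : ℝ) (2 * π) → Euc N := fun j t => c j t
  have hF : UniformEquicontinuous F := by
    refine Metric.uniformEquicontinuous_of_continuity_modulus (fun x => √(2 * B * x)) ?_ F ?_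
    · exact (by fun_prop : Continuous (fun x : ℝ => √(2 * B * x))).tendsto' 0 0 (by simp)
    · intro x y j
      have key : ∀ x y : Icc (0 : ℝ) (2 * π), x ≤ y →
          dist (F j x) (F j y) ≤ √(2 * B * dist x y) := by
        intro x y hxy
        have h1 := loop_holder (hc j) (hE j) (s := x) (t := y) hxy (by
          have := x.2.1
          have := y.2.2
          linarith)
        have h2 : dist x y = y - x := by
          rw [Subtype.dist_eq, Real.dist_eq, abs_sub_comm, abs_of_nonneg]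
          exact sub_nonneg.2 hxy
        rw [h2, dist_eq_norm, norm_sub_rev]
        have h3 := Real.abs_le_sqrt h1
        rwa [abs_of_nonneg (norm_nonneg _)] at h3
      rcases le_total x y with h | h
      · exact key x y h
      · rw [dist_comm (F j x), dist_comm x]
        exact key y x h
  have h1 : Tendsto F l (𝓝 fun t => d t) := tendsto_pi_nhds.2 fun t => hd t
  have h2 := (hF.equicontinuous.tendsto_uniformFun_iff_pi l (fun t => d t)).2 h1
  rw [UniformFun.tendsto_iff_tendstoUniformly, Metric.tendstoUniformly_iff] at h2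
  filter_upwards [h2 ε hε] with j hj t
  -- reduce to `[0, 2π)`
  have hP : Function.Periodic (fun t => (c j t, d t)) (2 * π) := fun t => by
    simp only [(hc j).per t, hper t]
  obtain ⟨t', ht', he⟩ := hP.exists_mem_Ico₀ (by positivity) t
  simp only [Prod.mk.injEq] at he
  rw [he.1, he.2]
  have h3 := hj ⟨t', ht'.1, ht'.2.le⟩
  rw [dist_comm, dist_eq_norm] at h3
  exact h3

end Crest.Agent.R208.PS
end
end

-- ▼ part R208/MS3

/-!
R208, block MS3 (helper378): **Palais-Smale** for the averaged Birkhoff shortening.  A loop of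
energy `≤ B < 4π` with small `gr` has small energy or is close to a closed unit speed geodesic.
-/

set_option autoImplicit false

open Set Filter Topology MeasureTheory
open scoped ContDiff RealInnerProductSpace Real
open Crest.GeometryTopology.Submanifold
open Crest.Agent.R241.DDefs Crest.Agent.R241.D Crest.Agent.R241.D2

noncomputable section

namespace Crest.Agent.R208.PS

open Crest.Agent.R208.MS

variable {n N : ℕ} {κ : ℝ} {S : Set (Euc N)}
variable {G : Geo n N κ S} {lg : Euc N → Euc N → Euc N} {r C : ℝ}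

theorem norm_sq_le_two {E : Type*} [NormedAddCommGroup E] (x y : E) :
    ‖x + y‖ ^ 2 ≤ 2 * ‖x‖ ^ 2 + 2 * ‖y‖ ^ 2 := by
  have h1 := norm_add_le x y
  have h2 : ‖x + y‖ ^ 2 ≤ (‖x‖ + ‖y‖) ^ 2 := pow_le_pow_left₀ (norm_nonneg _) h1 2
  nlinarith [sq_nonneg (‖x‖ - ‖y‖)]

theorem norm_sq_le_theta {E : Type*} [NormedAddCommGroup E] (x y : E) {θ : ℝ} (hθ : 0 < θ) :
    ‖x‖ ^ 2 ≤ (1 + θ) * ‖y‖ ^ 2 + (1 + 1 / θ) * ‖y - x‖ ^ 2 := by
  have h1 : ‖x‖ ≤ ‖y‖ + ‖y - x‖ := by
    have := norm_sub_le y (y - x)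
    simpa using this
  have h2 : ‖x‖ ^ 2 ≤ (‖y‖ + ‖y - x‖) ^ 2 := pow_le_pow_left₀ (norm_nonneg _) h1 2
  have h3 : 0 ≤ θ⁻¹ * (θ * ‖y‖ - ‖y - x‖) ^ 2 := by positivity
  have h4 : θ⁻¹ * (θ * ‖y‖ - ‖y - x‖) ^ 2 =
      θ * ‖y‖ ^ 2 - 2 * (‖y‖ * ‖y - x‖) + θ⁻¹ * ‖y - x‖ ^ 2 := by
    field_simp
    ring
  rw [h4] at h3
  rw [one_div]
  nlinarith

section h1

variable (h : SG G lg r C) {w ρ : ℝ} {c d : ℝ → Euc N} (hw : 0 < w) (hρ : ρ < r ^ 2)
  (hc : Loop S c) (hKc : ∀ s, (c s, c (s + w)) ∈ KK S ρ)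
  (hKd : ∀ s, (d s, d (s + w)) ∈ KK S ρ)
  (hg : ∀ s, ∀ a ∈ Icc 0 w, gd G lg (d s) (d (s + w)) (a / w) = d (s + a))
  (hdper : ∀ t, d (t + 2 * π) = d t)

include h hw hρ hc hKc hKd hg hdper in
theorem h1_le {ε : ℝ}
    (hcl : ∀ s, ∀ a ∈ Icc 0 w,
      ‖GM G lg ((c s, c (s + w)), a / w) - GM G lg ((d s, d (s + w)), a / w)‖ ≤ ε) :
    ∫ t in (0:ℝ)..(2 * π), ‖deriv c t - (qq lg w d t).2‖ ^ 2 ≤
      2 * gr G lg w c + 4 * π * (ε / w) ^ 2 := by
  have hpi := Real.pi_pos
  have hcf : Continuous (fun t => ‖deriv c t - (qq lg w d t).2‖ ^ 2) :=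
    ((loop_cont_deriv hc).sub (continuous_c' h hw hρ hKd hg)).norm.pow 2
  have hpf : ∀ t, ‖deriv c (t + 2 * π) - (qq lg w d (t + 2 * π)).2‖ ^ 2 =
      ‖deriv c t - (qq lg w d t).2‖ ^ 2 := by
    intro t
    have : qq lg w d (t + 2 * π) = qq lg w d t := by
      unfold qq
      rw [hdper, show t + 2 * π + w = t + w + 2 * π by ring, hdper]
    rw [loop_deriv_per hc, this]
  have h1 := avg_window hcf hpf w
  have hcu := continuous_du h hρ hc.smooth.continuous (loop_cont_deriv hc) hKc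
  have hpt : ∀ s, ∀ a ∈ Icc 0 w, ‖deriv c (s + a) - (qq lg w d (s + a)).2‖ ^ 2 ≤
      2 * ‖du G lg w c s a‖ ^ 2 + 2 * (ε / w) ^ 2 := by
    intro s a ha
    have e1 : (qq lg w d (s + a)).2 = (1 / w : ℝ) • gv G lg (d s) (d (s + w)) (a / w) := by
      rw [qq_add' h hw hρ hKd hg s ha.1, fl_qq h hρ hKd]
    have e2 : deriv c (s + a) - (qq lg w d (s + a)).2 =
        -du G lg w c s a + (1 / w : ℝ) • (gv G lg (c s) (c (s + w)) (a / w) -
          gv G lg (d s) (d (s + w)) (a / w)) := by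
      rw [e1, du, smul_sub]
      abel
    rw [e2]
    refine (norm_sq_le_two _ _).trans ?_
    rw [norm_neg]
    have e3 : ‖(1 / w : ℝ) • (gv G lg (c s) (c (s + w)) (a / w) -
          gv G lg (d s) (d (s + w)) (a / w))‖ ≤ ε / w := by
      rw [norm_smul, Real.norm_of_nonneg (by positivity), one_div_mul_eq_div]
      gcongr
      exact (norm_snd_le _).trans (hcl s a ha)
    gcongr
  have h2 : ∫ s in (0:ℝ)..(2 * π), ∫ a in (0:ℝ)..w, ‖deriv c (s + a) - (qq lg w d (s + a)).2‖ ^ 2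
      ≤ ∫ s in (0:ℝ)..(2 * π), ∫ a in (0:ℝ)..w,
        (2 * ‖du G lg w c s a‖ ^ 2 + 2 * (ε / w) ^ 2) := by
    have hc1 : Continuous (fun p : ℝ × ℝ => ‖deriv c (p.1 + p.2) - (qq lg w d (p.1 + p.2)).2‖ ^ 2) :=
      hcf.comp (f := fun p : ℝ × ℝ => p.1 + p.2) (by fun_prop)
    have hc2 : Continuous (fun p : ℝ × ℝ => 2 * ‖du G lg w c p.1 p.2‖ ^ 2 + 2 * (ε / w) ^ 2) := by
      have := hcu.norm.pow 2
      fun_prop
    refine intervalIntegral.integral_mono_on (by positivity) ?_ ?_ (fun s _ => ?_)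
    · exact (intervalIntegral.continuous_parametric_intervalIntegral_of_continuous'
        (f := fun s a => ‖deriv c (s + a) - (qq lg w d (s + a)).2‖ ^ 2) hc1 _ _).intervalIntegrable
        _ _
    · exact (intervalIntegral.continuous_parametric_intervalIntegral_of_continuous'
        (f := fun s a => 2 * ‖du G lg w c s a‖ ^ 2 + 2 * (ε / w) ^ 2) hc2 _ _).intervalIntegrable
        _ _
    · refine intervalIntegral.integral_mono_on hw.le ?_ ?_ (fun a ha => hpt s a ha)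
      · exact (hc1.comp (f := fun a : ℝ => (s, a)) (by fun_prop)).intervalIntegrable _ _
      · exact (hc2.comp (f := fun a : ℝ => (s, a)) (by fun_prop)).intervalIntegrable _ _
  have h3 : ∫ s in (0:ℝ)..(2 * π), ∫ a in (0:ℝ)..w,
        (2 * ‖du G lg w c s a‖ ^ 2 + 2 * (ε / w) ^ 2) =
      2 * (w * gr G lg w c) + 2 * (ε / w) ^ 2 * w * (2 * π) := by
    have hcn : Continuous (fun p : ℝ × ℝ => ‖du G lg w c p.1 p.2‖ ^ 2) := hcu.norm.pow 2
    have e1 : ∀ s : ℝ, ∫ a in (0:ℝ)..w, (2 * ‖du G lg w c s a‖ ^ 2 + 2 * (ε / w) ^ 2) =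
        2 * (∫ a in (0:ℝ)..w, ‖du G lg w c s a‖ ^ 2) + 2 * (ε / w) ^ 2 * w := by
      intro s
      have hcs : Continuous (fun a : ℝ => ‖du G lg w c s a‖ ^ 2) :=
        hcn.comp (f := fun a : ℝ => (s, a)) (by fun_prop)
      rw [intervalIntegral.integral_add ((hcs.const_mul 2).intervalIntegrable _ _)
        (continuous_const.intervalIntegrable _ _), intervalIntegral.integral_const_mul,
        intervalIntegral.integral_const, smul_eq_mul, sub_zero, mul_comm w]
    simp only [e1]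
    have hci : Continuous (fun s : ℝ => ∫ a in (0:ℝ)..w, ‖du G lg w c s a‖ ^ 2) :=
      intervalIntegral.continuous_parametric_intervalIntegral_of_continuous'
        (f := fun s a => ‖du G lg w c s a‖ ^ 2) hcn _ _
    rw [intervalIntegral.integral_add ((hci.const_mul 2).intervalIntegrable _ _)
        (continuous_const.intervalIntegrable _ _), intervalIntegral.integral_const_mul,
        intervalIntegral.integral_const, smul_eq_mul, sub_zero, gr_eq]
    field_simp
  rw [h1, h3] at h2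
  have h4 : w * (∫ t in (0:ℝ)..(2 * π), ‖deriv c t - (qq lg w d t).2‖ ^ 2) ≤
      w * (2 * gr G lg w c + 4 * π * (ε / w) ^ 2) := by
    refine h2.trans (le_of_eq ?_)
    ring
  exact le_of_mul_le_mul_left h4 hw

end h1

theorem ps (hB : Bl n N κ S G π) (hper : HS.Per G) (hsg : SG G lg r C) {w B : ℝ} (hw : 0 < w)
    (hw2 : w ≤ 2 * π) (hwB : 2 * B * w < r ^ 2) (hB4 : B < 4 * π) : PSOK G lg w B := by
  intro η hη
  have hpi := Real.pi_pos
  by_contra hcon
  push Not at hcon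
  have hex : ∀ j : ℕ, ∃ c, Loop S c ∧ En c ≤ B ∧ gr G lg w c ≤ 1 / ((j : ℝ) + 1) ∧ η < En c ∧
      ¬ NearUM G η c := fun j => hcon _ (by positivity)
  choose c hcL hcB hcg hcE hcN using hex
  obtain ⟨l, d, hne, hl, hdS, hdper, hunif⟩ := exists_limit hB.cpt c hcL hcB
  have hKc : ∀ j s, (c j s, c j (s + w)) ∈ KK S (2 * B * w) := fun j s =>
    loop_pair hw hw2 (hcL j) (hcB j) s
  have hptw : ∀ t, Tendsto (fun j => c j t) l (𝓝 (d t)) := fun t => by
    rw [Metric.tendsto_nhds]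
    intro ε hε
    filter_upwards [hunif ε hε] with j hj
    rw [dist_eq_norm]
    exact hj t
  have hKd : ∀ s, (d s, d (s + w)) ∈ KK S (2 * B * w) := fun s =>
    (isCompact_KK hB.cpt _).isClosed.mem_of_tendsto ((hptw s).prodMk_nhds (hptw (s + w)))
      (Eventually.of_forall fun j => hKc j s)
  have hdc : Continuous d := by
    have h1 : TendstoUniformly c d l := by
      rw [Metric.tendstoUniformly_iff]
      intro ε hε
      filter_upwards [hunif ε hε] with j hj t
      rw [dist_comm, dist_eq_norm]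
      exact hj t
    exact h1.continuous (Frequently.of_forall fun j => (hcL j).smooth.continuous)
  have hgr : ∀ e > 0, ∀ᶠ j in l, gr G lg w (c j) ≤ e := by
    intro e he
    have h1 : Tendsto (fun j : ℕ => 1 / ((j : ℝ) + 1)) l (𝓝 0) :=
      tendsto_one_div_add_atTop_nhds_zero_nat.mono_left hl
    filter_upwards [h1.eventually (gt_mem_nhds he)] with j hj
    exact (hcg j).trans hj.le
  -- uniform closeness of the geodesic windows
  have hGM : ∀ ε > 0, ∀ᶠ j in l, (∀ s, ∀ a ∈ Icc 0 w,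
      ‖GM G lg ((c j s, c j (s + w)), a / w) - GM G lg ((d s, d (s + w)), a / w)‖ ≤ ε) ∧
      ∀ t, ‖c j t - d t‖ ≤ ε := by
    intro ε hε
    obtain ⟨δ, hδ, hδ'⟩ := uniform_GM hsg hB.cpt hwB hε
    filter_upwards [hunif _ (lt_min hδ hε)] with j hj
    refine ⟨fun s a ha => (hδ' _ (hKc j s) _ (hKd s) _ ⟨div_nonneg ha.1 hw.le,
      (div_le_one hw).2 ha.2⟩ ((hj s).trans_le (min_le_left _ _))
      ((hj (s + w)).trans_le (min_le_left _ _))).le, fun t => ((hj t).le.trans (min_le_right _ _))⟩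
  -- the limit is a geodesic on all windows
  have hg : ∀ s, ∀ a ∈ Icc 0 w, gd G lg (d s) (d (s + w)) (a / w) = d (s + a) := by
    intro s a ha
    have hzero : ∀ s ∈ Icc 0 (2 * π), uu G lg w d s a = 0 := by
      intro s hs
      by_contra hne0
      have hcu : Continuous (fun s => ‖uu G lg w d s a‖ ^ 2) :=
        (((continuous_uu hsg hwB hdc hKd).comp (f := fun s : ℝ => (s, a))
          (by fun_prop)).norm.pow 2)
      have hI : 0 < ∫ s in (0:ℝ)..(2 * π), ‖uu G lg w d s a‖ ^ 2 :=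
        intervalIntegral.integral_pos (by positivity) hcu.continuousOn
          (fun _ _ => by positivity) ⟨s, hs, by positivity⟩
      set I := ∫ s in (0:ℝ)..(2 * π), ‖uu G lg w d s a‖ ^ 2 with hI'
      set ε : ℝ := √(I / (32 * π)) with hε'
      have hε : 0 < ε := Real.sqrt_pos.2 (by positivity)
      have hε2 : ε ^ 2 = I / (32 * π) := Real.sq_sqrt (by positivity)
      obtain ⟨j, ⟨hj1, hj2⟩, hj3⟩ := ((hGM ε hε).and
        (hgr (I / (8 * w ^ 2)) (by positivity))).exists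
      have hcj : Continuous (fun s => ‖uu G lg w (c j) s a‖ ^ 2) :=
        (((continuous_uu hsg hwB (hcL j).smooth.continuous (hKc j)).comp
          (f := fun s : ℝ => (s, a)) (by fun_prop)).norm.pow 2)
      have h1 : I ≤ ∫ s in (0:ℝ)..(2 * π), (2 * ‖uu G lg w (c j) s a‖ ^ 2 + 2 * (2 * ε) ^ 2) := by
        refine intervalIntegral.integral_mono_on (by positivity) (hcu.intervalIntegrable _ _)
          ((by fun_prop : Continuous fun s => 2 * ‖uu G lg w (c j) s a‖ ^ 2 +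
            2 * (2 * ε) ^ 2).intervalIntegrable _ _) (fun s _ => ?_)
        have e1 : uu G lg w d s a = uu G lg w (c j) s a +
            (uu G lg w d s a - uu G lg w (c j) s a) := by abel
        rw [e1]
        refine (norm_sq_le_two _ _).trans ?_
        have e2 : ‖uu G lg w d s a - uu G lg w (c j) s a‖ ≤ 2 * ε := by
          have e3 : uu G lg w d s a - uu G lg w (c j) s a =
              -(GM G lg ((c j s, c j (s + w)), a / w) - GM G lg ((d s, d (s + w)), a / w)).1 +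
                (c j (s + a) - d (s + a)) := by
            show (GM G lg ((d s, d (s + w)), a / w)).1 - d (s + a) -
              ((GM G lg ((c j s, c j (s + w)), a / w)).1 - c j (s + a)) = _
            rw [Prod.fst_sub]
            abel
          rw [e3]
          refine (norm_add_le _ _).trans ?_
          rw [norm_neg]
          have e4 := (norm_fst_le (GM G lg ((c j s, c j (s + w)), a / w) -
            GM G lg ((d s, d (s + w)), a / w))).trans (hj1 s a ha)
          have e5 := hj2 (s + a)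
          linarith
        gcongr
      have h2 : ∫ s in (0:ℝ)..(2 * π), (2 * ‖uu G lg w (c j) s a‖ ^ 2 + 2 * (2 * ε) ^ 2) =
          2 * (∫ s in (0:ℝ)..(2 * π), ‖uu G lg w (c j) s a‖ ^ 2) + 2 * (2 * ε) ^ 2 * (2 * π) := by
        rw [intervalIntegral.integral_add ((hcj.const_mul 2).intervalIntegrable _ _)
          (continuous_const.intervalIntegrable _ _), intervalIntegral.integral_const_mul,
          intervalIntegral.integral_const, smul_eq_mul, sub_zero, mul_comm (2 * π)]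
      have h3 := integral_uu_le hsg hwB (hcL j) (hKc j) hw ha
      have h4 : w ^ 2 * gr G lg w (c j) ≤ I / 8 := by
        calc w ^ 2 * gr G lg w (c j) ≤ w ^ 2 * (I / (8 * w ^ 2)) := by gcongr
          _ = I / 8 := by field_simp
      have h5 : 2 * (2 * ε) ^ 2 * (2 * π) = I / 2 := by
        rw [mul_pow, hε2]
        field_simp
        norm_num
      rw [h2, h5] at h1
      linarith
    -- reduce to `[0, 2π]`
    have hP : Function.Periodic (fun s => uu G lg w d s a) (2 * π) := fun s => uu_per hdper s a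
    obtain ⟨s', hs', he⟩ := hP.exists_mem_Ico₀ (by positivity) s
    have h1 : uu G lg w d s a = 0 := he.trans (hzero s' ⟨hs'.1, hs'.2.le⟩)
    exact sub_eq_zero.1 h1
  -- the limit is a closed geodesic
  set q := qq lg w d 0 with hq
  have hqS : q ∈ TS G := qq_mem hsg hwB hKd 0
  have hfl : ∀ t, 0 ≤ t → qq lg w d t = fl G (q, t) := fun t ht => by
    have := qq_add' hsg hw hwB hKd hg 0 ht
    rwa [zero_add] at this
  have hqper : fl G (q, 2 * π) = q := by
    rw [← hfl _ (by positivity), hq]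
    have h1 : d (2 * π) = d 0 := by
      have := hdper 0
      rwa [zero_add] at this
    have h2 : d (2 * π + w) = d (0 + w) := by
      rw [add_comm (2 * π) w, hdper, zero_add]
    unfold qq
    rw [h1, h2]
  have hflper : Function.Periodic (fun t => fl G (q, t)) (2 * π) := fun t => by
    show fl G (q, t + 2 * π) = fl G (q, t)
    rw [add_comm, fl_add' G hqS, hqper]
  have hdfl : ∀ t, d t = (fl G (q, t)).1 := by
    intro t
    obtain ⟨k, hk⟩ := exists_nat_ge (-t / (2 * π))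
    have h1 : 0 ≤ t + k * (2 * π) := by
      rw [div_le_iff₀ (by positivity)] at hk
      linarith
    have h2 : d (t + k * (2 * π)) = d t :=
      (show Function.Periodic d (2 * π) from hdper).nat_mul k t
    have h3 : fl G (q, t + k * (2 * π)) = fl G (q, t) := hflper.nat_mul k t
    rw [← h2, ← h3, ← hfl _ h1]
    rfl
  have hnorm : ∀ t, 0 ≤ t → ‖(qq lg w d t).2‖ = ‖q.2‖ := fun t ht => by
    rw [hfl t ht, norm_fl G hqS]
  have hint : ∫ t in (0:ℝ)..(2 * π), ‖(qq lg w d t).2‖ ^ 2 = 2 * π * ‖q.2‖ ^ 2 := by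
    have h1 : ∫ t in (0:ℝ)..(2 * π), ‖(qq lg w d t).2‖ ^ 2 =
        ∫ t in (0:ℝ)..(2 * π), ‖q.2‖ ^ 2 := by
      refine intervalIntegral.integral_congr (fun t ht => ?_)
      rw [uIcc_of_le (by positivity)] at ht
      simp only [hnorm t ht.1]
    rw [h1, intervalIntegral.integral_const, smul_eq_mul, sub_zero]
  -- `H¹` convergence
  have hH1 : ∀ e > 0, ∀ᶠ j in l,
      ∫ t in (0:ℝ)..(2 * π), ‖deriv (c j) t - (qq lg w d t).2‖ ^ 2 ≤ e := by
    intro e he
    set ε : ℝ := w * √(e / (8 * π)) with hε'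
    have hε : 0 < ε := mul_pos hw (Real.sqrt_pos.2 (by positivity))
    have hε2 : (ε / w) ^ 2 = e / (8 * π) := by
      rw [hε', mul_div_cancel_left₀ _ hw.ne']
      exact Real.sq_sqrt (by positivity)
    filter_upwards [hGM ε hε, hgr (e / 4) (by positivity)] with j hj1 hj2
    have h1 := h1_le hsg hw hwB (hcL j) (hKc j) hKd hg hdper hj1.1
    rw [hε2] at h1
    have h2 : 4 * π * (e / (8 * π)) = e / 2 := by
      field_simp
      norm_num
    linarith
  have hcd' := continuous_c' hsg hw hwB hKd hg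
  -- the speed is less than `2`
  have hB0 : 0 ≤ B := (En_nonneg (c 0)).trans (hcB 0)
  have hlt : ‖q.2‖ < 2 := by
    set θ : ℝ := (4 * π - B) / (8 * π) with hθ'
    have hθ : 0 < θ := div_pos (by linarith) (by positivity)
    have h1 : 2 * π * ‖q.2‖ ^ 2 ≤ (1 + θ) * (2 * B) := by
      refine le_of_forall_pos_le_add fun e he => ?_
      obtain ⟨j, hj⟩ := (hH1 (e / (1 + 1 / θ)) (by positivity)).exists
      have hcj := (loop_cont_deriv (hcL j))
      have h2 : ∫ t in (0:ℝ)..(2 * π), ‖(qq lg w d t).2‖ ^ 2 ≤ ∫ t in (0:ℝ)..(2 * π),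
          ((1 + θ) * ‖deriv (c j) t‖ ^ 2 +
            (1 + 1 / θ) * ‖deriv (c j) t - (qq lg w d t).2‖ ^ 2) := by
        refine intervalIntegral.integral_mono_on (by positivity)
          ((hcd'.norm.pow 2).intervalIntegrable _ _)
          ((((hcj.norm.pow 2).const_mul _).add
            (((hcj.sub hcd').norm.pow 2).const_mul _)).intervalIntegrable _ _)
          (fun t _ => norm_sq_le_theta _ _ hθ)
      have h2' : ∫ t in (0:ℝ)..(2 * π), ((1 + θ) * ‖deriv (c j) t‖ ^ 2 +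
          (1 + 1 / θ) * ‖deriv (c j) t - (qq lg w d t).2‖ ^ 2) =
          (∫ t in (0:ℝ)..(2 * π), (1 + θ) * ‖deriv (c j) t‖ ^ 2) +
          ∫ t in (0:ℝ)..(2 * π), (1 + 1 / θ) * ‖deriv (c j) t - (qq lg w d t).2‖ ^ 2 :=
        intervalIntegral.integral_add
          ((continuous_const.mul (hcj.norm.pow 2)).intervalIntegrable _ _)
          ((continuous_const.mul ((hcj.sub hcd').norm.pow 2)).intervalIntegrable _ _)
      rw [h2', intervalIntegral.integral_const_mul, intervalIntegral.integral_const_mul,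
        loop_energy (hcL j), hint] at h2
      have h3 : (1 + 1 / θ) * ∫ t in (0:ℝ)..(2 * π), ‖deriv (c j) t - (qq lg w d t).2‖ ^ 2 ≤ e := by
        calc _ ≤ (1 + 1 / θ) * (e / (1 + 1 / θ)) := by gcongr
          _ = e := mul_div_cancel₀ e (by positivity)
      have h4 : (1 + θ) * (2 * En (c j)) ≤ (1 + θ) * (2 * B) := by
        gcongr
        exact hcB j
      linarith
    have h5 : (1 + θ) * B < 4 * π := by
      have h6 : θ * B ≤ θ * (4 * π) := by gcongr
      have h7 : θ * (4 * π) = (4 * π - B) / 2 := by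
        rw [hθ']
        field_simp
        ring
      linarith
    have h8 : π * ‖q.2‖ ^ 2 < π * 4 := by linarith
    have h9 : ‖q.2‖ ^ 2 < 4 := lt_of_mul_lt_mul_left h8 hpi.le
    nlinarith [norm_nonneg q.2]
  rcases (norm_nonneg q.2).eq_or_lt with h0 | h0
  · -- constant limit
    obtain ⟨j, hj⟩ := (hH1 η hη).exists
    have h1 : ∫ t in (0:ℝ)..(2 * π), ‖deriv (c j) t - (qq lg w d t).2‖ ^ 2 =
        ∫ t in (0:ℝ)..(2 * π), ‖deriv (c j) t‖ ^ 2 := by
      refine intervalIntegral.integral_congr (fun t ht => ?_)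
      rw [uIcc_of_le (by positivity)] at ht
      have h2 := hnorm t ht.1
      rw [← h0, norm_eq_zero] at h2
      simp only [h2, sub_zero]
    rw [h1, loop_energy (hcL j)] at hj
    have := hcE j
    have := En_nonneg (c j)
    linarith
  · have hone := closed_one hB hper hqS (by rw [hqper]) h0 hlt
    obtain ⟨j, hj1, hj2⟩ := ((hH1 (η ^ 2) (by positivity)).and (hGM η hη)).exists
    refine hcN j ⟨q.1, hqS.1, q.2, hqS.2, hone, ?_, ?_⟩
    · intro t
      rw [Exp_smul G hqS.1 hqS.2]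
      show ‖c j t - (fl G (q, t)).1‖ ≤ η
      rw [← hdfl]
      exact hj2.2 t
    · have e1 : (fun t => Exp G q.1 (t • q.2)) = d := by
        funext t
        rw [Exp_smul G hqS.1 hqS.2, hdfl]
      rw [e1]
      have e2 : ∀ t, deriv d t = (qq lg w d t).2 := fun t =>
        (hasDerivAt_c' hsg hw hwB hKd hg t).deriv
      simp only [e2]
      exact hj1

end Crest.Agent.R208.PS
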