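import Crest.Agent.R208.MS5

-- ▼ part R208/NL1
section

/-!
R208, block NL (helper530), part NL1: the last stage of the natural contraction, the retracted
linear homotopy of a loop of small energy to (the retraction of) its mean.
-/

set_option autoImplicit false
set_option linter.unusedSectionVars false

open Set Filter Topology MeasureTheory
open scoped ContDiff RealInnerProductSpace Real
open Crest.GeometryTopology.Submanifold
open Crest.Agent.R241.DDefs Crest.Agent.R241.D Crest.Agent.R241.D2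
open Crest.Agent.R208.MS

noncomputable section

namespace Crest.Agent.R208.NL

variable {n N : ℕ} {κ : ℝ} {S : Set (Euc N)} {ρ : Euc N → Euc N} {r' K η : ℝ} {c : ℝ → Euc N}

/-- the mean of a loop -/
def mn (c : ℝ → Euc N) : Euc N := (1 / (2 * π)) • ∫ t in (0:ℝ)..(2 * π), c t

/-- the last stage of the contraction -/
def ac (ρ : Euc N → Euc N) (σ : ℝ) (c : ℝ → Euc N) (t : ℝ) : Euc N :=
  ρ ((1 - σ) • c t + σ • mn c)

/-- `η` is small -/
structure Sm2 (r' K η : ℝ) : Prop where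
  s0 : 0 ≤ η
  s1 : 4 * π * η < r' ^ 2
  s2 : 8 * K ^ 2 * (4 * π * η) ≤ 1

theorem exists_sm2 (hr' : 0 < r') (K : ℝ) : ∃ η₀ > 0, ∀ η, 0 ≤ η → η ≤ η₀ → Sm2 r' K η := by
  have hπ := Real.pi_pos
  refine ⟨min (r' ^ 2 / (8 * π)) (1 / (32 * π * (K ^ 2 + 1))), by positivity, fun η h0 h1 => ?_⟩
  have h2 := h1.trans (min_le_left _ _)
  have h3 := h1.trans (min_le_right _ _)
  rw [le_div_iff₀ (by positivity)] at h2 h3
  refine ⟨h0, ?_, ?_⟩
  · have : 0 < r' ^ 2 := by positivity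
    nlinarith
  · have : 0 ≤ π * η := by positivity
    nlinarith

theorem Sm2.mono {η' : ℝ} (h : Sm2 r' K η) (h0 : 0 ≤ η') (h1 : η' ≤ η) : Sm2 r' K η' := by
  have hπ := Real.pi_pos
  have h2 : 4 * π * η' ≤ 4 * π * η := by gcongr
  exact ⟨h0, h2.trans_lt h.s1, (mul_le_mul_of_nonneg_left h2 (by positivity)).trans h.s2⟩

theorem mn_shift (hc : Loop S c) (s : ℝ) : mn (fun t => c (t + s)) = mn c := by
  unfold mn
  congr 1
  rw [intervalIntegral.integral_comp_add_right c s, zero_add]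
  have h : Function.Periodic c (2 * π) := hc.per
  have := h.intervalIntegral_add_eq s 0
  rw [zero_add] at this
  rw [← this, add_comm]

theorem mn_const (x : Euc N) : mn (fun _ => x) = x := by
  unfold mn
  have hπ := Real.pi_pos
  rw [intervalIntegral.integral_const, sub_zero, smul_smul, one_div_mul_cancel (by positivity),
    one_smul]

theorem mn_sub_sq_le (hc : Loop S c) (hB : En c ≤ η) (t : ℝ) : ‖mn c - c t‖ ^ 2 ≤ 4 * π * η := by
  have hπ := Real.pi_pos
  have hη : 0 ≤ η := (En_nonneg c).trans hB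
  rw [← mn_shift hc t]
  have e1 : mn (fun u => c (u + t)) - c t =
      (1 / (2 * π)) • ∫ u in (0:ℝ)..(2 * π), (c (u + t) - c t) := by
    rw [intervalIntegral.integral_sub _ intervalIntegrable_const, intervalIntegral.integral_const,
      sub_zero, smul_sub, mn, smul_smul, one_div_mul_cancel (by positivity), one_smul]
    exact (hc.smooth.continuous.comp (by fun_prop)).intervalIntegrable _ _
  rw [e1]
  have h2 := norm_avg_sq_le (f := fun u => c (u + t) - c t)
    ((hc.smooth.continuous.comp (by fun_prop)).sub continuous_const) (w := 2 * π) (by positivity)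
  refine h2.trans ?_
  have h3 : ∫ u in (0:ℝ)..(2 * π), ‖c (u + t) - c t‖ ^ 2 ≤
      ∫ _u in (0:ℝ)..(2 * π), 4 * π * η := by
    refine intervalIntegral.integral_mono_on (by positivity) ?_ intervalIntegrable_const ?_
    · have h4 : Continuous fun u => c (u + t) - c t :=
        (hc.smooth.continuous.comp (by fun_prop)).sub continuous_const
      exact (h4.norm.pow 2).intervalIntegrable _ _
    · intro u hu
      have h4 := hc.dist_le hB t hu.1 hu.2
      rw [norm_sub_rev, add_comm t u] at h4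
      refine h4.trans ?_
      have := hu.2
      nlinarith
  rw [intervalIntegral.integral_const, smul_eq_mul, sub_zero] at h3
  have h5 := mul_le_mul_of_nonneg_left h3 (show (0:ℝ) ≤ 1 / (2 * π) by positivity)
  refine h5.trans (le_of_eq ?_)
  field_simp

theorem ac_close (hs : Sm2 r' K η) (hr' : 0 < r') (hc : Loop S c) {σ : ℝ}
    (hB : σ = 0 ∨ En c ≤ η)
    (h0 : 0 ≤ σ) (h1 : σ ≤ 1) (t : ℝ) : ‖((1 - σ) • c t + σ • mn c) - c t‖ < r' := by
  have h2 : ((1 - σ) • c t + σ • mn c) - c t = σ • (mn c - c t) := by module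
  rcases hB with rfl | hB
  · rw [h2, zero_smul, norm_zero]
    exact hr'
  rw [h2, norm_smul, Real.norm_eq_abs, abs_of_nonneg h0]
  have h3 : ‖mn c - c t‖ < r' := by
    refine lt_of_pow_lt_pow_left₀ 2 hr'.le ?_
    exact (mn_sub_sq_le hc hB t).trans_lt hs.s1
  exact lt_of_le_of_lt (mul_le_of_le_one_left (norm_nonneg _) h1) h3

variable (hR : Retr S ρ r' K)

include hR in
theorem loop_ac (hs : Sm2 r' K η) (hc : Loop S c) {σ : ℝ} (hB : σ = 0 ∨ En c ≤ η)
    (h0 : 0 ≤ σ) (h1 : σ ≤ 1) : Loop S (ac ρ σ c) := by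
  refine ⟨?_, ?_, ?_⟩
  · rw [contDiff_iff_contDiffAt]
    intro t
    have h2 := hR.smooth (c t) (hc.mem t) _ (ac_close hs hR.r_pos hc hB h0 h1 t)
    have h3 : ContDiff ℝ ∞ fun t => (1 - σ) • c t + σ • mn c :=
      (hc.smooth.const_smul (1 - σ)).add contDiff_const
    exact ContDiffAt.comp t h2 h3.contDiffAt
  · intro t
    simp only [ac, hc.per]
  · intro t
    exact hR.mem (c t) (hc.mem t) _ (ac_close hs hR.r_pos hc hB h0 h1 t)

theorem ac_shift (hc : Loop S c) (σ s t : ℝ) :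
    ac ρ σ (fun u => c (u + s)) t = ac ρ σ c (t + s) := by
  unfold ac
  rw [mn_shift hc]

include hR in
theorem ac_zero (hc : Loop S c) (t : ℝ) : ac ρ 0 c t = c t := by
  unfold ac
  rw [sub_zero, one_smul, zero_smul, add_zero]
  exact hR.eq _ (hc.mem t)

theorem ac_one (t : ℝ) : ac ρ 1 c t = ρ (mn c) := by
  unfold ac
  rw [sub_self, one_smul, zero_smul, zero_add]

include hR in
theorem ac_const {x : Euc N} (hx : x ∈ S) (σ t : ℝ) : ac ρ σ (fun _ => x) t = x := by
  unfold ac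
  rw [mn_const, ← add_smul, sub_add_cancel, one_smul]
  exact hR.eq x hx

include hR in
theorem norm_fderiv_le {x q : Euc N} (hx : x ∈ S) (hq : ‖q - x‖ < r') :
    ‖fderiv ℝ ρ q‖ ≤ 1 + K * ‖q - x‖ := by
  have h1 := hR.lip x hx q hq
  have h2 := hR.fd x hx x (by rw [sub_self, norm_zero]; exact hR.r_pos)
  rw [hR.eq x hx, sub_self, norm_zero, mul_zero, add_zero] at h2
  have h3 : fderiv ℝ ρ q = (fderiv ℝ ρ q - fderiv ℝ ρ x) + fderiv ℝ ρ x := by abel
  rw [h3]
  have := norm_add_le (fderiv ℝ ρ q - fderiv ℝ ρ x) (fderiv ℝ ρ x)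
  linarith

include hR in
theorem En_ac_le (hs : Sm2 r' K η) (hc : Loop S c) (hB : En c ≤ η) {σ : ℝ}
    (h0 : 0 ≤ σ) (h1 : σ ≤ 1) : En (ac ρ σ c) ≤ 2 * En c := by
  have hπ := Real.pi_pos
  have hK := hR.one_le
  have hL := loop_ac hR hs hc (Or.inr hB) h0 h1
  have hd : ∀ t, deriv (ac ρ σ c) t =
      fderiv ℝ ρ ((1 - σ) • c t + σ • mn c) ((1 - σ) • deriv c t) := by
    intro t
    have h2 := hR.smooth (c t) (hc.mem t) _ (ac_close hs hR.r_pos hc (Or.inr hB) h0 h1 t)
    have h3 : HasDerivAt (fun t => (1 - σ) • c t + σ • mn c) ((1 - σ) • deriv c t) t :=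
      ((hc.hasDerivAt t).const_smul (1 - σ)).add_const _
    exact ((h2.differentiableAt (by simp)).hasFDerivAt.comp_hasDerivAt t h3).deriv
  have hpt : ∀ t, ‖deriv (ac ρ σ c) t‖ ^ 2 ≤ 2 * ‖deriv c t‖ ^ 2 := by
    intro t
    rw [hd]
    set q := (1 - σ) • c t + σ • mn c with hq
    have h2 : ‖fderiv ℝ ρ q‖ ≤ 1 + K * ‖q - c t‖ :=
      norm_fderiv_le hR (hc.mem t) (ac_close hs hR.r_pos hc (Or.inr hB) h0 h1 t)
    have h3 : ‖q - c t‖ ^ 2 ≤ 4 * π * η := by
      have h4 : q - c t = σ • (mn c - c t) := by rw [hq]; module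
      rw [h4, norm_smul, mul_pow, Real.norm_eq_abs, sq_abs]
      have h5 := mn_sub_sq_le hc hB t
      have h6 : σ ^ 2 ≤ 1 := by nlinarith
      exact (mul_le_of_le_one_left (by positivity) h6).trans h5
    have h4 : ‖fderiv ℝ ρ q‖ ^ 2 ≤ 2 := by
      set d := ‖q - c t‖
      have h5 : (K * d) ^ 2 ≤ 1 / 8 := by
        rw [mul_pow]
        have := mul_le_mul_of_nonneg_left h3 (show (0:ℝ) ≤ K ^ 2 by positivity)
        have := hs.s2
        linarith
      have h6 : ‖fderiv ℝ ρ q‖ ^ 2 ≤ (1 + K * d) ^ 2 := pow_le_pow_left₀ (norm_nonneg _) h2 2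
      have h7 : K * d ≤ 3 / 8 := by
        by_contra hcon
        push Not at hcon
        nlinarith
      nlinarith
    have h5 : ‖fderiv ℝ ρ q ((1 - σ) • deriv c t)‖ ≤ ‖fderiv ℝ ρ q‖ * ‖deriv c t‖ := by
      refine (ContinuousLinearMap.le_opNorm _ _).trans ?_
      refine mul_le_mul_of_nonneg_left ?_ (norm_nonneg _)
      rw [norm_smul, Real.norm_eq_abs, abs_of_nonneg (by linarith)]
      exact mul_le_of_le_one_left (norm_nonneg _) (by linarith)
    have h6 := pow_le_pow_left₀ (norm_nonneg _) h5 2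
    rw [mul_pow] at h6
    refine h6.trans (mul_le_mul_of_nonneg_right h4 (by positivity))
  have h2 : ∫ t in (0:ℝ)..(2 * π), ‖deriv (ac ρ σ c) t‖ ^ 2 ≤
      ∫ t in (0:ℝ)..(2 * π), 2 * ‖deriv c t‖ ^ 2 := by
    refine intervalIntegral.integral_mono_on (by positivity)
      (hL.continuous_sq.intervalIntegrable _ _) ?_ fun t _ => hpt t
    exact (hc.continuous_sq.const_mul 2).intervalIntegrable _ _
  rw [intervalIntegral.integral_const_mul, int_eq_En, int_eq_En] at h2
  linarith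

/-! ### families -/
variable {E : Type} [NormedAddCommGroup E] [NormedSpace ℝ E] [FiniteDimensional ℝ E]
variable {X : Set E} {φ : ℝ → E → E} {f : E → Euc N}

theorem contDiffAt_mn (hφ : CM.Cir X φ) (hf : Fam S X f) {z : E} (hz : z ∈ X) :
    ContDiffAt ℝ ∞ (fun z => mn (oc φ f z)) z := by
  have hπ := Real.pi_pos
  have e1 : (fun z => mn (oc φ f z)) = FI.I1 (fun q : E × ℝ => f (φ (2 * π * q.2) q.1)) := by
    funext z
    unfold mn FI.I1 oc
    have h1 := intervalIntegral.integral_comp_mul_left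
      (f := fun t => f (φ t z)) (a := 0) (b := 1) (c := 2 * π) (by positivity)
    rw [mul_zero, mul_one] at h1
    rw [one_div, ← h1]
  rw [e1]
  refine FI.contDiffAt_I1 fun τ _ => ?_
  have h1 : ContDiffAt ℝ ∞ (fun q : E × ℝ => (2 * π * q.2, q.1)) (z, τ) := by fun_prop
  have h2 : ContDiffAt ℝ ∞ (fun q : E × ℝ => φ (2 * π * q.2) q.1) (z, τ) :=
    ContDiffAt.comp (z, τ) (g := fun q : ℝ × E => φ q.1 q.2) (hφ.smooth _ z hz) h1
  exact ContDiffAt.comp (z, τ) (hf.smooth _ (hφ.maps _ hz)) h2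

/-- the family has orbit loops `c` -/
theorem contDiffAt_oc0 (hφ : CM.Cir X φ) (hf : Fam S X f) {z : E} (hz : z ∈ X) :
    ContDiffAt ℝ ∞ (fun z => oc φ f z 0) z := by
  have := hf.smooth _ (hφ.maps 0 hz)
  exact ContDiffAt.comp z this (hφ.smooth_right 0 hz)

/-- smooth invariant function with values in `[0,1]` -/
structure Cut (X : Set E) (φ : ℝ → E → E) (σ : E → ℝ) : Prop where
  smooth : ∀ z ∈ X, ContDiffAt ℝ ∞ σ z
  nonneg : ∀ z ∈ X, 0 ≤ σ z
  le_one : ∀ z ∈ X, σ z ≤ 1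
  inv : ∀ z ∈ X, ∀ t, σ (φ t z) = σ z

variable {σ : E → ℝ}

/-- the last stage on families, variable time -/
def fac (φ : ℝ → E → E) (ρ : Euc N → Euc N) (σ : E → ℝ) (f : E → Euc N) (z : E) : Euc N :=
  ac ρ (σ z) (oc φ f z) 0

theorem oc_fac (hφ : CM.Cir X φ) (hf : Fam S X f) (hσ : Cut X φ σ) {z : E} (hz : z ∈ X) :
    oc φ (fac φ ρ σ f) z = ac ρ (σ z) (oc φ f z) := by
  funext t
  change fac φ ρ σ f (φ t z) = _
  unfold fac
  rw [oc_shift hφ hz, ac_shift (loop_oc hφ hf hz), zero_add, hσ.inv z hz]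

include hR in
theorem fam_fac (hφ : CM.Cir X φ) (hf : Fam S X f) (hσ : Cut X φ σ) (hs : Sm2 r' K η)
    (hB : ∀ z ∈ X, σ z = 0 ∨ En (oc φ f z) ≤ η) : Fam S X (fac φ ρ σ f) := by
  refine ⟨fun z hz => ?_, fun z hz => ?_⟩
  · have hL := loop_oc hφ hf hz
    have e1 := contDiffAt_mn hφ hf hz
    have e2 := contDiffAt_oc0 hφ hf hz
    have e3 : ContDiffAt ℝ ∞ (fun z => (1 - σ z) • oc φ f z 0 + σ z • mn (oc φ f z)) z :=
      ((contDiffAt_const.sub (hσ.smooth z hz)).smul e2).add ((hσ.smooth z hz).smul e1)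
    have e4 := hR.smooth _ (hL.mem 0) _
      (ac_close hs hR.r_pos hL (hB z hz) (hσ.nonneg z hz) (hσ.le_one z hz) 0)
    exact ContDiffAt.comp z (g := ρ) e4 e3
  · exact (loop_ac hR hs (loop_oc hφ hf hz) (hB z hz) (hσ.nonneg z hz) (hσ.le_one z hz)).mem 0

/-! ### the Birkhoff step with variable time -/
variable {G : Geo n N κ S} {lg : Euc N → Euc N → Euc N} {r C B w : ℝ}

/-- the step on families, variable time -/
def fsv (φ : ℝ → E → E) (G : Geo n N κ S) (lg : Euc N → Euc N → Euc N) (ρ : Euc N → Euc N)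
    (w : ℝ) (σ : E → ℝ) (f : E → Euc N) (z : E) : Euc N := st G lg ρ w (σ z) (oc φ f z) 0

theorem oc_fsv (hφ : CM.Cir X φ) (hσ : Cut X φ σ) {z : E} (hz : z ∈ X) :
    oc φ (fsv φ G lg ρ w σ f) z = st G lg ρ w (σ z) (oc φ f z) := by
  funext t
  change fsv φ G lg ρ w σ f (φ t z) = _
  unfold fsv
  rw [oc_shift hφ hz, st_shift, zero_add, hσ.inv z hz]

include hR in
theorem fam_fsv (hsg : SG G lg r C) (hφ : CM.Cir X φ) (hf : Fam S X f) (hσ : Cut X φ σ)
    (hs : Small r C r' K B w) (hB : ∀ z ∈ X, En (oc φ f z) ≤ B) :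
    Fam S X (fsv φ G lg ρ w σ f) := by
  refine ⟨fun z hz => ?_, fun z hz => ?_⟩
  · have h1 := MS.contDiffAt_fst hsg hR hφ hf hs hz (hB z hz) (hσ.nonneg z hz) (hσ.le_one z hz)
    have h2 : ContDiffAt ℝ ∞ (fun z : E => (z, σ z)) z := contDiffAt_id.prodMk (hσ.smooth z hz)
    exact ContDiffAt.comp z (g := fun q : E × ℝ => fst φ G lg ρ w q.2 f q.1) h1 h2
  · exact (loop_st hsg hR (loop_oc hφ hf hz) (hB z hz) hs (hσ.nonneg z hz)
      (hσ.le_one z hz)).mem 0

end Crest.Agent.R208.NL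
end
end

-- ▼ part R208/NL2

/-!
R208, block NL (helper530), part NL2: the natural contraction of loops of energy `< π`:
`J` averaged Birkhoff steps followed by the linear homotopy to the mean, concatenated smoothly.
Everything is a function of the loop, commutes with rotations, and fixes constant loops.
-/

set_option autoImplicit false
set_option linter.unusedSectionVars false

open Set Filter Topology MeasureTheory
open scoped ContDiff RealInnerProductSpace Real
open Crest.GeometryTopology.Submanifold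
open Crest.Agent.R241.DDefs Crest.Agent.R241.D Crest.Agent.R241.D2
open Crest.Agent.R208.MS

noncomputable section

namespace Crest.Agent.R208.NL

variable {n N : ℕ} {κ : ℝ} {S : Set (Euc N)} {G : Geo n N κ S} {lg : Euc N → Euc N → Euc N}
  {ρ : Euc N → Euc N} {w : ℝ} {c : ℝ → Euc N} {J : ℕ}

/-- time function of the `j`-th of the stages `0, …, J` -/
def kj (J j : ℕ) (s : ℝ) : ℝ := Real.smoothTransition ((J + 1) * (2 * s - 1 / 2) - j)

theorem contDiff_kj (J j : ℕ) : ContDiff ℝ ∞ (kj J j) :=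
  Real.smoothTransition.contDiff.comp (by fun_prop)

theorem kj_nonneg (J j : ℕ) (s : ℝ) : 0 ≤ kj J j s := Real.smoothTransition.nonneg _
theorem kj_le_one (J j : ℕ) (s : ℝ) : kj J j s ≤ 1 := Real.smoothTransition.le_one _

theorem kj_zero (J j : ℕ) {s : ℝ} (hs : s ≤ 1 / 4) : kj J j s = 0 := by
  refine Real.smoothTransition.zero_of_nonpos ?_
  have h1 : (0:ℝ) ≤ j := Nat.cast_nonneg j
  have h2 : (0:ℝ) ≤ J := Nat.cast_nonneg J
  nlinarith

theorem kj_one {J j : ℕ} (hj : j ≤ J) {s : ℝ} (hs : 3 / 4 ≤ s) : kj J j s = 1 := by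
  refine Real.smoothTransition.one_of_one_le ?_
  have h1 : (j:ℝ) ≤ J := Nat.cast_le.2 hj
  have h2 : (0:ℝ) ≤ J := Nat.cast_nonneg J
  nlinarith

/-- the stages are successive -/
theorem kj_prev {J i j : ℕ} (hij : i < j) {s : ℝ} (hs : kj J j s ≠ 0) : kj J i s = 1 := by
  have h1 : (0:ℝ) < (J + 1) * (2 * s - 1 / 2) - j := by
    by_contra h
    push Not at h
    exact hs (Real.smoothTransition.zero_of_nonpos h)
  refine Real.smoothTransition.one_of_one_le ?_
  have h2 : (i:ℝ) + 1 ≤ j := by exact_mod_cast hij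
  linarith

/-- the first `j` Birkhoff stages at time `s` -/
def stk (G : Geo n N κ S) (lg : Euc N → Euc N → Euc N) (ρ : Euc N → Euc N) (w : ℝ) (J : ℕ) :
    ℕ → ℝ → (ℝ → Euc N) → ℝ → Euc N
  | 0, _, c => c
  | j + 1, s, c => st G lg ρ w (kj J j s) (stk G lg ρ w J j s c)

/-- **the natural contraction of loops** -/
def Lam (G : Geo n N κ S) (lg : Euc N → Euc N → Euc N) (ρ : Euc N → Euc N) (w : ℝ) (J : ℕ)
    (s : ℝ) (c : ℝ → Euc N) : ℝ → Euc N := ac ρ (kj J J s) (stk G lg ρ w J J s c)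

/-- data for the natural contraction below the energy `E₀` -/
structure LD (G : Geo n N κ S) (lg : Euc N → Euc N → Euc N) (ρ : Euc N → Euc N) (w : ℝ) (J : ℕ)
    (r C r' K B E₀ η : ℝ) : Prop where
  sg : SG G lg r C
  rt : Retr S ρ r' K
  sm : Small r C r' K B w
  s2 : Sm2 r' K η
  le : E₀ ≤ B
  /-- the steps do not increase the energy -/
  st : ∀ c, Loop S c → En c ≤ B → ∀ σ, 0 ≤ σ → σ ≤ 1 → En (st G lg ρ w σ c) ≤ En c
  /-- after `J` steps the energy is small -/
  it : ∀ c, Loop S c → En c ≤ E₀ → En ((MS.st G lg ρ w 1)^[J] c) ≤ η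

section loops
variable {r C r' K B E₀ η : ℝ}

theorem stk_spec (h : LD G lg ρ w J r C r' K B E₀ η) (hc : Loop S c) (hE : En c ≤ B) (s : ℝ)
    (j : ℕ) : Loop S (stk G lg ρ w J j s c) ∧ En (stk G lg ρ w J j s c) ≤ En c := by
  induction j with
  | zero => exact ⟨hc, le_rfl⟩
  | succ j ih =>
    obtain ⟨h1, h2⟩ := ih
    exact ⟨loop_st h.sg h.rt h1 (h2.trans hE) h.sm (kj_nonneg _ _ _) (kj_le_one _ _ _),
      (h.st _ h1 (h2.trans hE) _ (kj_nonneg _ _ _) (kj_le_one _ _ _)).trans h2⟩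

theorem stk_one {s : ℝ} (j : ℕ) (hs : ∀ i < j, kj J i s = 1) :
    stk G lg ρ w J j s c = (MS.st G lg ρ w 1)^[j] c := by
  induction j with
  | zero => rfl
  | succ j ih =>
    rw [Function.iterate_succ_apply', ← ih fun i hi => hs i (by omega)]
    change MS.st G lg ρ w (kj J j s) _ = _
    rw [hs j (by omega)]

theorem stk_zero (h : LD G lg ρ w J r C r' K B E₀ η) (hc : Loop S c) {s : ℝ} (hs : s ≤ 1 / 4)
    (j : ℕ) : stk G lg ρ w J j s c = c := by
  induction j with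
  | zero => rfl
  | succ j ih =>
    change MS.st G lg ρ w (kj J j s) (stk G lg ρ w J j s c) = _
    rw [ih, kj_zero _ _ hs]
    exact funext fun t => st_zero h.rt hc t


theorem stk_const (h : LD G lg ρ w J r C r' K B E₀ η) {x : Euc N} (hx : x ∈ S) (s : ℝ) (j : ℕ) :
    stk G lg ρ w J j s (fun _ => x) = fun _ => x := by
  induction j with
  | zero => rfl
  | succ j ih =>
    change MS.st G lg ρ w (kj J j s) (stk G lg ρ w J j s fun _ => x) = _
    rw [ih]
    exact funext fun t => st_const h.sg h.rt h.sm.pos hx _ t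

theorem last_ok (h : LD G lg ρ w J r C r' K B E₀ η) (hc : Loop S c) (hE : En c ≤ E₀) (s : ℝ) :
    kj J J s = 0 ∨ En (stk G lg ρ w J J s c) ≤ η := by
  by_cases hs : kj J J s = 0
  · exact Or.inl hs
  · right
    rw [stk_one J fun i hi => kj_prev hi hs]
    exact h.it c hc hE


theorem En_Lam_le (h : LD G lg ρ w J r C r' K B E₀ η) (hc : Loop S c) (hE : En c ≤ E₀) (s : ℝ) :
    En (Lam G lg ρ w J s c) ≤ max (En c) (2 * η) := by
  have h1 := stk_spec h hc (hE.trans h.le) s J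
  rcases last_ok h hc hE s with h2 | h2
  · have h3 : Lam G lg ρ w J s c = stk G lg ρ w J J s c := by
      unfold Lam
      rw [h2]
      exact funext fun t => ac_zero h.rt h1.1 t
    rw [h3]
    exact h1.2.trans (le_max_left _ _)
  · refine (En_ac_le h.rt h.s2 h1.1 h2 (kj_nonneg _ _ _) (kj_le_one _ _ _)).trans
      (le_trans ?_ (le_max_right _ _))
    linarith

theorem Lam_start (h : LD G lg ρ w J r C r' K B E₀ η) (hc : Loop S c) {s : ℝ} (hs : s ≤ 1 / 4) :
    Lam G lg ρ w J s c = c := by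
  unfold Lam
  rw [stk_zero h hc hs, kj_zero _ _ hs]
  exact funext fun t => ac_zero h.rt hc t

/-- the end point of the contraction -/
def lend (G : Geo n N κ S) (lg : Euc N → Euc N → Euc N) (ρ : Euc N → Euc N) (w : ℝ) (J : ℕ)
    (c : ℝ → Euc N) : Euc N := ρ (mn ((MS.st G lg ρ w 1)^[J] c))

theorem Lam_end {s : ℝ} (hs : 3 / 4 ≤ s) : Lam G lg ρ w J s c = fun _ => lend G lg ρ w J c := by
  unfold Lam
  rw [stk_one J fun i hi => kj_one hi.le hs, kj_one le_rfl hs]
  exact funext fun t => ac_one t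


theorem Lam_const (h : LD G lg ρ w J r C r' K B E₀ η) {x : Euc N} (hx : x ∈ S) (s : ℝ) :
    Lam G lg ρ w J s (fun _ => x) = fun _ => x := by
  unfold Lam
  rw [stk_const h hx]
  exact funext fun t => ac_const h.rt hx _ t

end loops

/-! ### families -/
section families
variable {E : Type} [NormedAddCommGroup E] [NormedSpace ℝ E] [FiniteDimensional ℝ E]
variable {X : Set E} {φ : ℝ → E → E} {f : E → Euc N} {r C r' K B E₀ η : ℝ} {σ : E → ℝ}

/-- smooth invariant function -/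
structure SI (X : Set E) (φ : ℝ → E → E) (σ : E → ℝ) : Prop where
  smooth : ∀ z ∈ X, ContDiffAt ℝ ∞ σ z
  inv : ∀ z ∈ X, ∀ t, σ (φ t z) = σ z

theorem SI.cut (h : SI X φ σ) (J j : ℕ) : Cut X φ (fun z => kj J j (σ z)) where
  smooth := fun z hz => (contDiff_kj J j).contDiffAt.comp z (h.smooth z hz)
  nonneg := fun _ _ => kj_nonneg _ _ _
  le_one := fun _ _ => kj_le_one _ _ _
  inv := fun z hz t => by rw [h.inv z hz]

/-- the Birkhoff stages of a family; the time is a function on the parameter space -/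
def Fstk (φ : ℝ → E → E) (G : Geo n N κ S) (lg : Euc N → Euc N → Euc N) (ρ : Euc N → Euc N)
    (w : ℝ) (J : ℕ) (σ : E → ℝ) (f : E → Euc N) : ℕ → E → Euc N
  | 0 => f
  | j + 1 => fsv φ G lg ρ w (fun z => kj J j (σ z)) (Fstk φ G lg ρ w J σ f j)

/-- **the natural contraction of a family** -/
def FLam (φ : ℝ → E → E) (G : Geo n N κ S) (lg : Euc N → Euc N → Euc N) (ρ : Euc N → Euc N)
    (w : ℝ) (J : ℕ) (σ : E → ℝ) (f : E → Euc N) : E → Euc N :=
  fac φ ρ (fun z => kj J J (σ z)) (Fstk φ G lg ρ w J σ f J)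

theorem Fstk_spec (h : LD G lg ρ w J r C r' K B E₀ η) (hφ : CM.Cir X φ) (hf : Fam S X f)
    (hσ : SI X φ σ) (hE : ∀ z ∈ X, En (oc φ f z) ≤ B) (j : ℕ) :
    Fam S X (Fstk φ G lg ρ w J σ f j) ∧ ∀ z ∈ X,
      oc φ (Fstk φ G lg ρ w J σ f j) z = stk G lg ρ w J j (σ z) (oc φ f z) := by
  induction j with
  | zero => exact ⟨hf, fun z _ => rfl⟩
  | succ j ih =>
    obtain ⟨h1, h2⟩ := ih
    have hB : ∀ z ∈ X, En (oc φ (Fstk φ G lg ρ w J σ f j) z) ≤ B := fun z hz => by
      rw [h2 z hz]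
      exact (stk_spec h (loop_oc hφ hf hz) (hE z hz) (σ z) j).2.trans (hE z hz)
    refine ⟨fam_fsv h.rt h.sg hφ h1 (hσ.cut J j) h.sm hB, fun z hz => ?_⟩
    change oc φ (fsv φ G lg ρ w (fun z => kj J j (σ z)) (Fstk φ G lg ρ w J σ f j)) z = _
    rw [oc_fsv hφ (hσ.cut J j) hz, h2 z hz]
    rfl

/-- the orbit loops of the contracted family are the contracted loops -/
theorem oc_FLam (h : LD G lg ρ w J r C r' K B E₀ η) (hφ : CM.Cir X φ) (hf : Fam S X f)
    (hσ : SI X φ σ) (hE : ∀ z ∈ X, En (oc φ f z) ≤ B) {z : E} (hz : z ∈ X) :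
    oc φ (FLam φ G lg ρ w J σ f) z = Lam G lg ρ w J (σ z) (oc φ f z) := by
  have h1 := Fstk_spec h hφ hf hσ hE J
  unfold FLam
  rw [oc_fac hφ h1.1 (hσ.cut J J) hz, h1.2 z hz]
  rfl


/-- the family is contracted only where `σ z > 1/4`; there the energy has to be `≤ E₀` -/
theorem fam_FLam (h : LD G lg ρ w J r C r' K B E₀ η) (hφ : CM.Cir X φ) (hf : Fam S X f)
    (hσ : SI X φ σ) (hE : ∀ z ∈ X, En (oc φ f z) ≤ B)
    (hE' : ∀ z ∈ X, kj J J (σ z) = 0 ∨ En (oc φ f z) ≤ E₀) :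
    Fam S X (FLam φ G lg ρ w J σ f) := by
  have h1 := Fstk_spec h hφ hf hσ hE J
  refine fam_fac h.rt hφ h1.1 (hσ.cut J J) h.s2 fun z hz => ?_
  rcases hE' z hz with h2 | h2
  · exact Or.inl h2
  · rw [h1.2 z hz]
    exact last_ok h (loop_oc hφ hf hz) h2 (σ z)


end families

/-! ### homotopies: the parameter space `X × ℝ` -/
section homotopy
variable {E : Type} [NormedAddCommGroup E] [NormedSpace ℝ E] [FiniteDimensional ℝ E]
variable {X : Set E} {φ : ℝ → E → E} {f : E → Euc N} {r C r' K B E₀ η : ℝ} {σ : E → ℝ}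

/-- the action on `X × ℝ` -/
def pR (φ : ℝ → E → E) (t : ℝ) (q : E × ℝ) : E × ℝ := (φ t q.1, q.2)

theorem cir_pR (hφ : CM.Cir X φ) : CM.Cir (X ×ˢ (univ : Set ℝ)) (pR φ) where
  smooth := by
    rintro t ⟨z, s⟩ ⟨hz, -⟩
    have h1 : ContDiffAt ℝ ∞ (fun q : ℝ × (E × ℝ) => (q.1, q.2.1)) (t, (z, s)) := by fun_prop
    have h2 : ContDiffAt ℝ ∞ (fun q : ℝ × (E × ℝ) => φ q.1 q.2.1) (t, (z, s)) :=
      ContDiffAt.comp (t, (z, s)) (g := fun q : ℝ × E => φ q.1 q.2) (hφ.smooth t z hz) h1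
    have h3 : ContDiffAt ℝ ∞ (fun q : ℝ × (E × ℝ) => q.2.2) (t, (z, s)) := by fun_prop
    exact h2.prodMk h3
  maps := fun t q hq => ⟨hφ.maps t hq.1, mem_univ _⟩
  zero := fun q hq => Prod.ext (hφ.zero _ hq.1) rfl
  add := fun s t q hq => Prod.ext (hφ.add s t _ hq.1) rfl
  per := fun q hq => Prod.ext (hφ.per _ hq.1) rfl
  free := fun t q hq he => hφ.free t _ hq.1 (congrArg Prod.fst he)

theorem fam_fst (hf : Fam S X f) : Fam S (X ×ˢ (univ : Set ℝ)) (fun q : E × ℝ => f q.1) :=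
  ⟨fun q hq => ContDiffAt.comp q (hf.smooth _ hq.1) contDiffAt_fst, fun q hq => hf.maps _ hq.1⟩




end homotopy

end Crest.Agent.R208.NL
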