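import Crest.Agent.R208.VC6
import Crest.Agent.R208.TX1
import Crest.Agent.R208.CM4b
import Crest.Agent.R208.NL2
import Crest.Agent.R208.MS3_Mg
import Crest.Agent.R208.MS1
import Crest.Agent.R208.MS1b

-- ▼ part R208/EX1
section

/-!
R208, block EX (helper530), part EX1: connections, and the explicit basic primitive of the
difference of the forms `vv` for two connections.
-/

set_option autoImplicit false
set_option linter.unusedSectionVars false
set_option linter.unusedVariables false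

open MeasureTheory Set Filter Topology Module
open scoped ContDiff
open Crest.Agent.R208.F Crest.Agent.R208.FI Crest.Agent.R208.CW Crest.Agent.R208.T
open Crest.Agent.R208.CM (Cir gen)
open Crest.Agent.R208.VC

noncomputable section

namespace Crest.Agent.R208.EX

universe u v
variable {E : Type u} [NormedAddCommGroup E] [NormedSpace ℝ E] [FiniteDimensional ℝ E]
  {F' : Type v} [NormedAddCommGroup F'] [NormedSpace ℝ F'] [FiniteDimensional ℝ F']
  {m : ℕ} {X : Set E} {φ : ℝ → E → E} {a b c e e1 β θ θ' : E → Ext E} {x : E}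

/-! ### connections -/

/-- connection form (of an action which need not be free) -/
structure Cn (X : Set E) (φ : ℝ → E → E) (θ : E → Ext E) : Prop where
  sm : Sm X θ
  hom : Hom 1 θ
  unit : ∀ x ∈ X, ii (gen φ x) (θ x) = 1
  inv : Inv X φ θ

theorem Cn.mono {X' : Set E} (h : Cn X φ θ) (hs : X' ⊆ X) : Cn X' φ θ :=
  ⟨h.sm.mono hs, h.hom, fun x hx => h.unit x (hs hx), fun t => (h.inv t).mono_tan hs⟩

theorem inv_of_hom2 (h : Hom 2 a) (x : E) : F.inv (a x) = a x := by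
  rw [inv_deg (h x)]; norm_num

theorem inv_of_hom1 (h : Hom 1 a) (x : E) : F.inv (a x) = - a x := by
  rw [inv_deg (h x)]; norm_num

theorem Inv.d' (h : Act X φ) (hX : Sub m X) (ha : Sm X a) (hi : Inv X φ a) : Inv X φ (F.d a) :=
  fun t => ((d_pull_eqv (smap h t) ha).symm.trans
    (Eqv.d hX (ha.pull (smap h t)) ha (hi t)))

theorem Cn.bas (h : Act X φ) (hX : Sub m X) (hθ : Cn X φ θ) : Bas X φ (F.d θ) where
  sm := hθ.sm.d
  cl := d_d' hθ.sm
  ev := fun x _ => inv_of_hom2 hθ.hom.d x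
  inv := Inv.d' h hX hθ.sm hθ.inv
  hz := by
    have h1 := Inv.d_iV h hX hθ.sm hθ.inv
    have h2 : Eqv X (iV φ θ) 1 := Eqv.of_eq fun x hx => hθ.unit x hx
    have h3 := h2.d hX (Sm.iV h hθ.sm) (b := (1 : E → Ext E)) (fun _ _ => contDiffAt_const)
    have h4 : F.d (1 : E → Ext E) = 0 := funext fun x => F.d_const 1 x
    rw [h4] at h3
    have h5 := h1.symm.trans h3
    have h6 := h5.neg
    rw [neg_neg, neg_zero] at h6
    exact h6

theorem Cn.pull {X' : Set F'} {φ' : ℝ → F' → F'} {g : F' → E} (h : Act X φ) (h' : Act X' φ')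
    (hg : SMap X' X g) (heq : ∀ t, ∀ y ∈ X', g (φ' t y) = φ t (g y)) (hθ : Cn X φ θ) :
    Cn X' φ' (F.pull g θ) where
  sm := hθ.sm.pull hg
  hom := hθ.hom.pull
  unit := fun y hy => by
    rw [F.pull, ii_pb]
    have h1 := fderiv_gen_eq h h' hg heq hy
    have h2 : ((fderiv ℝ g y : F' →L[ℝ] E) : F' →ₗ[ℝ] E) (gen φ' y) = gen φ (g y) := h1
    rw [h2, hθ.unit _ (hg.maps hy), map_one]
  inv := Inv.pull h h' hg heq hθ.inv

/-- the difference of two connections is horizontal and invariant -/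
theorem Cn.sub_hz (hθ : Cn X φ θ) (hθ' : Cn X φ θ') : Hz X φ (θ - θ') :=
  Eqv.of_eq fun x hx => by
    change ii (gen φ x) (θ x - θ' x) = 0
    rw [map_sub, hθ.unit x hx, hθ'.unit x hx, sub_self]

theorem Cn.sub_inv (hθ : Cn X φ θ) (hθ' : Cn X φ θ') : Inv X φ (θ - θ') := hθ.inv.sub hθ'.inv

/-! ### the divided differences -/

theorem Bas.add (h : Bas X φ e) (h' : Bas X φ e1) : Bas X φ (e + e1) where
  sm := h.sm.add h'.sm
  cl := Cl.add h.sm h'.sm h.cl h'.cl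
  ev := fun x hx => by rw [Pi.add_apply, map_add, h.ev x hx, h'.ev x hx]
  inv := h.inv.add h'.inv
  hz := h.hz.add h'.hz

theorem Bas.zero : Bas X φ (0 : E → Ext E) where
  sm := Sm.zero
  cl := fun x _ => by rw [d_zero', Pi.zero_apply, map_zero]
  ev := fun x _ => map_zero _
  inv := fun t => by rw [pull_zero']; exact Eqv.refl _
  hz := Eqv.of_eq fun x _ => map_zero _

/-- `(e^n - e1^n) / (e - e1)` -/
def Qn (e e1 : E → Ext E) : ℕ → E → Ext E
  | 0 => 0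
  | n + 1 => e ^ n + Qn e e1 n * e1

theorem bas_Qn (h : Bas X φ e) (h' : Bas X φ e1) (n : ℕ) : Bas X φ (Qn e e1 n) := by
  induction n with
  | zero => exact Bas.zero
  | succ n ih => exact Bas.add (h.pow n) (ih.mul h')

theorem mul_Qn (h : Bas X φ e) (h' : Bas X φ e1) (n : ℕ) :
    Eqv X ((e - e1) * Qn e e1 n) (e ^ n - e1 ^ n) := by
  refine Eqv.of_eq fun x hx => ?_
  induction n with
  | zero =>
    change (e x - e1 x) * 0 = e x ^ 0 - e1 x ^ 0
    rw [mul_zero, pow_zero, pow_zero, sub_self]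
  | succ n ih =>
    change (e x - e1 x) * (e x ^ n + Qn e e1 n x * e1 x) = e x ^ (n + 1) - e1 x ^ (n + 1)
    have ih' : (e x - e1 x) * Qn e e1 n x = e x ^ n - e1 x ^ n := ih
    have h1 : e1 x * e x ^ n = e x ^ n * e1 x := even_comm (h'.ev x hx) _
    rw [mul_add, ← mul_assoc, ih', sub_mul, sub_mul, h1, pow_succ', pow_succ]
    abel

theorem nat_Qn (g : F' → E) (e e1 : E → Ext E) (n : ℕ) :
    F.pull g (Qn e e1 n) = Qn (F.pull g e) (F.pull g e1) n := by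
  induction n with
  | zero => exact pull_zero' g
  | succ n ih =>
    change F.pull g (e ^ n + Qn e e1 n * e1) = F.pull g e ^ n + Qn (F.pull g e) (F.pull g e1) n * _
    rw [pull_add', pull_mul', VC.pull_pow', ih]

theorem eqv_pow (h : Eqv X a b) (n : ℕ) : Eqv X (a ^ n) (b ^ n) := by
  induction n with
  | zero => rw [pow_zero, pow_zero]; exact Eqv.refl _
  | succ n ih => rw [pow_succ, pow_succ]; exact ih.mul h

theorem eqv_Qn {e' e1' : E → Ext E} (h : Eqv X e e') (h' : Eqv X e1 e1') (n : ℕ) :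
    Eqv X (Qn e e1 n) (Qn e' e1' n) := by
  induction n with
  | zero => exact Eqv.refl _
  | succ n ih => exact (eqv_pow h n).add (ih.mul h')

/-- `d (β Q c) = (e^n - e1^n) c` if `dβ = e - e1` and `c` is closed -/
theorem d_prim (h : Bas X φ e) (h' : Bas X φ e1) (hβ : Sm X β) (hdβ : Eqv X (F.d β) (e - e1))
    (hc : Sm X c) (hcc : Cl X c) (n : ℕ) :
    Eqv X (F.d (β * (Qn e e1 n * c))) (e ^ n * c - e1 ^ n * c) := by
  have hQ := bas_Qn h h' n
  have h1 := d_mul_eqv hβ (hQ.sm.mul hc)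
  have h2 : Eqv X (F.d (Qn e e1 n * c)) 0 := resZero_iff.1 (Cl.mul hQ.sm hc hQ.cl hcc)
  refine h1.trans ?_
  have h3 := (hdβ.mul (Eqv.refl (Qn e e1 n * c))).add
    ((Eqv.refl (fun x => F.inv (β x))).mul h2)
  refine h3.trans ?_
  rw [mul_zero, add_zero, ← mul_assoc, ← sub_mul]
  exact (mul_Qn h h' n).mul (Eqv.refl c)

/-- the primitive of the change of connection -/
def cor (e e1 β : E → Ext E) (p q : ℕ) (r s : ℝ) (A ξ : E → Ext E) : E → Ext E :=
  -(r • (β * (Qn e e1 p * ξ))) - s • (β * (Qn e e1 q * (A * ξ)))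

variable {p q : ℕ} {r s : ℝ}

theorem sm_cor (h : Act X φ) (he : Bas X φ e) (he1 : Bas X φ e1) (hβ : Sm X β) (hb : Dat X b) :
    Sm X (cor e e1 β p q r s (Av φ b) (xi φ b)) :=
  ((hβ.mul ((bas_Qn he he1 p).sm.mul (sm_xi h hb.sm))).smul r).neg.sub
    ((hβ.mul ((bas_Qn he he1 q).sm.mul ((sm_Av h hb.sm).mul (sm_xi h hb.sm)))).smul s)

theorem d_cor (h : Act X φ) (hX : Sub m X) (he : Bas X φ e) (he1 : Bas X φ e1) (hβ : Sm X β)
    (hdβ : Eqv X (F.d β) (e - e1)) (hb : Dat X b) :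
    Eqv X (F.d (cor e e1 β p q r s (Av φ b) (xi φ b)))
      (vv φ e p q r s b - vv φ e1 p q r s b) := by
  have s1 := hβ.mul ((bas_Qn he he1 p).sm.mul (sm_xi h hb.sm))
  have s2 := hβ.mul ((bas_Qn he he1 q).sm.mul ((sm_Av h hb.sm).mul (sm_xi h hb.sm)))
  have h1 := d_prim he he1 hβ hdβ (sm_xi h hb.sm) (cl_xi h hX hb.sm hb.cl) p
  have h2 := d_prim he he1 hβ hdβ ((sm_Av h hb.sm).mul (sm_xi h hb.sm))
    (cl_Av_xi h hX hb.sm hb.cl) q
  have h3 := d_sub_eqv (s1.smul r).neg (s2.smul s)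
  have h4 : Eqv X (F.d (-(r • (β * (Qn e e1 p * xi φ b)))))
      (-(r • (e ^ p * xi φ b - e1 ^ p * xi φ b))) := by
    rw [d_neg']
    exact ((d_smul_eqv r s1).trans (h1.smul r)).neg
  have h5 := (d_smul_eqv s s2).trans (h2.smul s)
  refine h3.trans ((h4.sub h5).trans (Eqv.of_eq fun x _ => ?_))
  simp only [vv, Pi.sub_apply, Pi.neg_apply, Pi.smul_apply]
  module

theorem hz_cor (h : Act X φ) (he : Bas X φ e) (he1 : Bas X φ e1) (hβ : Hz X φ β) (hb : Dat X b) :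
    Hz X φ (cor e e1 β p q r s (Av φ b) (xi φ b)) :=
  ((hβ.mul ((bas_Qn he he1 p).hz.mul (hz_xi φ b))).smul r).neg.sub
    ((hβ.mul ((bas_Qn he he1 q).hz.mul (hz_Av_xi h hb.sm hb.ev))).smul s)

theorem Inv.neg {a : E → Ext E} (ha : Inv X φ a) : Inv X φ (-a) := fun t => by
  rw [pull_neg']; exact (ha t).neg

theorem inv_cor (h : Act X φ) (he : Bas X φ e) (he1 : Bas X φ e1) (hβ : Inv X φ β) (hb : Dat X b) :
    Inv X φ (cor e e1 β p q r s (Av φ b) (xi φ b)) :=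
  (Inv.neg ((hβ.mul ((bas_Qn he he1 p).inv.mul (inv_xi h hb.sm))).smul r)).sub
    ((hβ.mul ((bas_Qn he he1 q).inv.mul ((inv_Av h hb.sm).mul (inv_xi h hb.sm)))).smul s)

theorem rs_cor_eq_zero {ξ A : E → Ext E} (h0 : rsL X x (ξ x) = 0) :
    rsL X x (cor e e1 β p q r s A ξ x) = 0 := by
  rw [rsL_apply] at h0 ⊢
  simp only [cor, Pi.sub_apply, Pi.neg_apply, Pi.smul_apply, Pi.mul_apply, map_sub, map_neg,
    map_smul, map_mul, h0, mul_zero, smul_zero, neg_zero, sub_zero]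

theorem nat_cor {X' : Set F'} {φ' : ℝ → F' → F'} {g : F' → E} {e' e1' β' : F' → Ext F'}
    (h : Act X φ) (h' : Act X' φ')
    (hg : SMap X' X g) (heq : ∀ t, ∀ y ∈ X', g (φ' t y) = φ t (g y)) (hb : Sm X b)
    {b' : F' → Ext F'} (hb' : Sm X' b') (hbb : Eqv X' (F.pull g b) b')
    (hee : Eqv X' (F.pull g e) e') (hee1 : Eqv X' (F.pull g e1) e1')
    (hββ : Eqv X' (F.pull g β) β') :
    Eqv X' (F.pull g (cor e e1 β p q r s (Av φ b) (xi φ b)))
      (cor e' e1' β' p q r s (Av φ' b') (xi φ' b')) := by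
  have h1 := (nat_xi h h' hg heq hb).trans (eqv_xi h' (hb.pull hg) hb' hbb)
  have h2 := (nat_Av h h' hg heq hb).trans (eqv_Av h' (hb.pull hg) hb' hbb)
  rw [cor, pull_sub', pull_neg', pull_smul', pull_smul', pull_mul', pull_mul', pull_mul',
    pull_mul', pull_mul', nat_Qn, nat_Qn]
  exact ((hββ.mul ((eqv_Qn hee hee1 p).mul h1)).smul r).neg.sub
    ((hββ.mul ((eqv_Qn hee hee1 q).mul (h2.mul h1))).smul s)

end Crest.Agent.R208.EX
end
end

-- ▼ part R208/EX2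
section

/-!
R208, block EX (helper530), part EX2: the natural basic primitive of `vv` for a family which is
joined to a family of standard form (near `UM` the pull-back of the model family, elsewhere
constant loops).
-/

set_option autoImplicit false
set_option linter.unusedSectionVars false
set_option linter.unusedVariables false

open MeasureTheory Set Filter Topology Module
open scoped ContDiff
open Crest.Agent.R208.F Crest.Agent.R208.FI Crest.Agent.R208.CW Crest.Agent.R208.T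
open Crest.Agent.R208.CM (Cir gen)
open Crest.Agent.R208.VC

noncomputable section

namespace Crest.Agent.R208.EX

universe u v w z
variable {E : Type u} [NormedAddCommGroup E] [NormedSpace ℝ E] [FiniteDimensional ℝ E]
  {F' : Type v} [NormedAddCommGroup F'] [NormedSpace ℝ F'] [FiniteDimensional ℝ F']
  {P : Type w} [NormedAddCommGroup P] [NormedSpace ℝ P] [FiniteDimensional ℝ P]
  {V : Type z} [NormedAddCommGroup V] [NormedSpace ℝ V] [FiniteDimensional ℝ V]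
  {m : ℕ} {X : Set E} {φ : ℝ → E → E} {a b θ : E → Ext E} {x : E} {μ : E → ℝ}

/-! ### the region where `μ > 0` -/

/-- the region where `μ > 0` -/
def Up (X : Set E) (μ : E → ℝ) : Set E := X ∩ {x | 0 < μ x}
/-- the region where `μ < 1` -/
def Lo (X : Set E) (μ : E → ℝ) : Set E := X ∩ {x | μ x < 1}

theorem inter_interior {A : Set E} (h : ∀ x ∈ X, x ∈ A → A ∈ 𝓝 x) : X ∩ A = X ∩ interior A := by
  ext x
  constructor
  · rintro ⟨h1, h2⟩
    exact ⟨h1, mem_interior_iff_mem_nhds.2 (h x h1 h2)⟩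
  · rintro ⟨h1, h2⟩
    exact ⟨h1, interior_subset h2⟩

theorem up_eq (hμ : ∀ x ∈ X, ContDiffAt ℝ ∞ μ x) : Up X μ = X ∩ interior {x | 0 < μ x} :=
  inter_interior fun x hx h => (hμ x hx).continuousAt.eventually (lt_mem_nhds h)

theorem lo_eq (hμ : ∀ x ∈ X, ContDiffAt ℝ ∞ μ x) : Lo X μ = X ∩ interior {x | μ x < 1} :=
  inter_interior fun x hx h => (hμ x hx).continuousAt.eventually (gt_mem_nhds h)

theorem sub_up (hμ : ∀ x ∈ X, ContDiffAt ℝ ∞ μ x) (hX : Sub m X) : Sub m (Up X μ) := by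
  rw [up_eq hμ]; exact Sub.inter_open' hX isOpen_interior

theorem sub_lo (hμ : ∀ x ∈ X, ContDiffAt ℝ ∞ μ x) (hX : Sub m X) : Sub m (Lo X μ) := by
  rw [lo_eq hμ]; exact Sub.inter_open' hX isOpen_interior

theorem rs_up (hμ : ∀ x ∈ X, ContDiffAt ℝ ∞ μ x) (h : Eqv (Up X μ) a b) (hx : x ∈ Up X μ) :
    rsL X x (a x) = rsL X x (b x) := by
  rw [up_eq hμ] at h hx
  exact eqv_of_open isOpen_interior h hx.1 hx.2

theorem rs_lo (hμ : ∀ x ∈ X, ContDiffAt ℝ ∞ μ x) (h : Eqv (Lo X μ) a b) (hx : x ∈ Lo X μ) :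
    rsL X x (a x) = rsL X x (b x) := by
  rw [lo_eq hμ] at h hx
  exact eqv_of_open isOpen_interior h hx.1 hx.2

/-- restriction to a subset is determined by the restriction to the whole -/
theorem rs_sub {X' : Set E} (hs : X' ⊆ X) {c c' : Ext E} (h : rsL X x c = rsL X x c') :
    rsL X' x c = rsL X' x c' := by
  rw [rsL_apply, rsL_apply] at h ⊢
  have h3 : (Tan X' x).subtype = (Tan X x).subtype ∘ₗ Submodule.inclusion (Tan_mono_of_subset hs x) :=
    rfl
  rw [h3, ← pb_comp, ← pb_comp, h]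

/-! ### the model -/

/-- the model family `f1` over `Y` with a basic primitive `lam` of its form `vv` -/
structure Mod (S : Set V) (om : V → Ext V) (Y : Set P) (φY : ℝ → P → P) (θ1 : P → Ext P)
    (f1 : P → V) (lam : P → Ext P) (p q : ℕ) (r s : ℝ) : Prop where
  sub : ∃ k, Sub k Y
  act : Act Y φY
  mf : SMap Y S f1
  dat : Dat S om
  cn : Cn Y φY θ1
  sl : Sm Y lam
  il : Inv Y φY lam
  hl : Hz Y φY lam
  dl : Eqv Y (vv φY (F.d θ1) p q r s (F.pull f1 om)) (F.d lam)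

/-- a family `f` with a homotopy `H` to a family of standard form -/
structure ND (X : Set E) (φ : ℝ → E → E) (S : Set V) (Y : Set P) (φY : ℝ → P → P) (f1 : P → V)
    (lam : P → Ext P) (f : E → V) (H : E × ℝ → V) (μ : E → ℝ) (Γ : E → P) : Prop where
  sf : SMap X S f
  sH : SMap (X ×ˢ univ) S H
  H0 : ∀ x ∈ X, H (x, 0) = f x
  cH : ∀ x ∈ X, (∀ t, f (φ t x) = f x) → ∀ s t, H (φ t x, s) = f x
  sμ : ∀ x ∈ X, ContDiffAt ℝ ∞ μ x
  iμ : ∀ x ∈ X, ∀ t, μ (φ t x) = μ x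
  sΓ : SMap (Up X μ) Y Γ
  eΓ : ∀ t, ∀ x ∈ Up X μ, Γ (φ t x) = φY t (Γ x)
  H1 : ∀ x ∈ Up X μ, H (x, 1) = f1 (Γ x)
  H1' : ∀ x ∈ Lo X μ, ∀ t, H (φ t x, 1) = H (x, 1)
  lam0 : ∀ x ∈ Up X μ, μ x < 1 → lam (Γ x) = 0
  cμ : ∀ x ∈ X, (∀ t, f (φ t x) = f x) → μ x < 1

/-- cut-off, `0` for `t ≤ 1/4`, `1` for `t ≥ 3/4` -/
def kx (t : ℝ) : ℝ := Real.smoothTransition (2 * t - 1 / 2)

theorem contDiff_kx : ContDiff ℝ ∞ kx := Real.smoothTransition.contDiff.comp (by fun_prop)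

theorem kx_zero {t : ℝ} (h : t ≤ 1 / 4) : kx t = 0 :=
  Real.smoothTransition.zero_of_nonpos (by linarith)

theorem kx_one {t : ℝ} (h : 3 / 4 ≤ t) : kx t = 1 :=
  Real.smoothTransition.one_of_one_le (by linarith)

/-- the form near `UM` -/
def KK (φ : ℝ → E → E) (θ : E → Ext E) (om : V → Ext V) (θ1 lam : P → Ext P) (p q : ℕ) (r s : ℝ)
    (H : E × ℝ → V) (Γ : E → P) : E → Ext E :=
  F.pull Γ lam + cor (F.d θ) (F.pull Γ (F.d θ1)) (θ - F.pull Γ θ1) p q r s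
    (Av φ (F.pull (fun x => H (x, 1)) om)) (xi φ (F.pull (fun x => H (x, 1)) om))

/-- the primitive for the family `H (·, 1)` -/
def G0 (φ : ℝ → E → E) (θ : E → Ext E) (om : V → Ext V) (θ1 lam : P → Ext P) (p q : ℕ) (r s : ℝ)
    (H : E × ℝ → V) (μ : E → ℝ) (Γ : E → P) (x : E) : Ext E :=
  kx (μ x) • KK φ θ om θ1 lam p q r s H Γ x

/-- **the natural primitive** -/
def Eta (φ : ℝ → E → E) (θ : E → Ext E) (om : V → Ext V) (θ1 lam : P → Ext P) (p q : ℕ) (r s : ℝ)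
    (H : E × ℝ → V) (μ : E → ℝ) (Γ : E → P) : E → Ext E :=
  G0 φ θ om θ1 lam p q r s H μ Γ -
    eta (vv (pr φ) (F.pull (fun p : E × ℝ => p.1) (F.d θ)) p q r s (F.pull H om))

section main
variable {S : Set V} {om : V → Ext V} {Y : Set P} {φY : ℝ → P → P} {θ1 lam : P → Ext P}
  {f1 : P → V} {p q : ℕ} {r s : ℝ} {f : E → V} {H : E × ℝ → V} {Γ : E → P}

theorem ND.act_up (h : Act X φ) (hN : ND X φ S Y φY f1 lam f H μ Γ) : Act (Up X μ) φ :=
  h.mono inter_subset_left fun t x hx => ⟨h.maps t hx.1, by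
    change 0 < μ (φ t x)
    rw [hN.iμ x hx.1]
    exact hx.2⟩

theorem ND.smap_one (hN : ND X φ S Y φY f1 lam f H μ Γ) : SMap X S (fun x => H (x, 1)) :=
  hN.sH.comp (smap_at (mem_univ _))

variable (h : Act X φ) (hX : Sub m X) (hM : Mod S om Y φY θ1 f1 lam p q r s) (hθ : Cn X φ θ)
  (hN : ND X φ S Y φY f1 lam f H μ Γ)

include hM hN in
theorem dat_one : Dat X (F.pull (fun x => H (x, 1)) om) := hM.dat.pull hN.smap_one

include h hM hN in
theorem cn_up : Cn (Up X μ) φ (F.pull Γ θ1) :=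
  hM.cn.pull hM.act (hN.act_up h) hN.sΓ hN.eΓ

include h hM hN in
theorem bas_up : Bas (Up X μ) φ (F.pull Γ (F.d θ1)) := by
  obtain ⟨k, hk⟩ := hM.sub
  exact (hM.cn.bas hM.act hk).pull hM.act (hN.act_up h) hN.sΓ hN.eΓ

include h hX hM hθ hN in
theorem sm_KK : Sm (Up X μ) (KK φ θ om θ1 lam p q r s H Γ) :=
  (hM.sl.pull hN.sΓ).add (sm_cor (hN.act_up h)
    ((hθ.mono inter_subset_left).bas (hN.act_up h) (sub_up hN.sμ hX)) (bas_up h hM hN)
    ((hθ.sm.mono inter_subset_left).sub (cn_up h hM hN).sm)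
    ((dat_one hM hN).mono inter_subset_left))

include h hX hM hθ hN in
theorem inv_KK : Inv (Up X μ) φ (KK φ θ om θ1 lam p q r s H Γ) :=
  (Inv.pull hM.act (hN.act_up h) hN.sΓ hN.eΓ hM.il).add (inv_cor (hN.act_up h)
    ((hθ.mono inter_subset_left).bas (hN.act_up h) (sub_up hN.sμ hX)) (bas_up h hM hN)
    ((hθ.mono inter_subset_left).sub_inv (cn_up h hM hN))
    ((dat_one hM hN).mono inter_subset_left))

include h hX hM hθ hN in
theorem hz_KK : Hz (Up X μ) φ (KK φ θ om θ1 lam p q r s H Γ) :=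
  (Hz.pull hM.act (hN.act_up h) hN.sΓ hN.eΓ hM.hl).add (hz_cor (hN.act_up h)
    ((hθ.mono inter_subset_left).bas (hN.act_up h) (sub_up hN.sμ hX)) (bas_up h hM hN)
    ((hθ.mono inter_subset_left).sub_hz (cn_up h hM hN))
    ((dat_one hM hN).mono inter_subset_left))

include h hM hN in
/-- the form of the model on the region -/
theorem vv_up : Eqv (Up X μ) (F.pull Γ (vv φY (F.d θ1) p q r s (F.pull f1 om)))
    (vv φ (F.pull Γ (F.d θ1)) p q r s (F.pull (fun x => H (x, 1)) om)) := by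
  have hd := (hM.dat.pull hM.mf)
  refine (nat_vv hM.act (hN.act_up h) hN.sΓ hN.eΓ hd.sm).trans ?_
  refine eqv_vv (hN.act_up h) (hd.sm.pull hN.sΓ) ((dat_one hM hN).sm.mono inter_subset_left) ?_
    (Eqv.refl _)
  have h1 : Eqv (Up X μ) (F.pull Γ (F.pull f1 om)) (F.pull (fun x => f1 (Γ x)) om) :=
    Eqv.of_eq fun x hx => F.pull_comp (hN.sΓ.diff hx) (hM.mf.diff (hN.sΓ.maps hx))
  refine h1.trans (eqv_pull_of_eq om (fun x hx => (hM.mf.comp hN.sΓ).diff hx)
    (fun x hx => hN.smap_one.diff hx.1) fun x hx => (hN.H1 x hx).symm)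

include h hX hM hθ hN in
theorem d_KK : Eqv (Up X μ) (F.d (KK φ θ om θ1 lam p q r s H Γ))
    (vv φ (F.d θ) p q r s (F.pull (fun x => H (x, 1)) om)) := by
  have hXu := sub_up hN.sμ hX
  have hau := hN.act_up h
  have hb := (dat_one hM hN).mono (X' := Up X μ) inter_subset_left
  have hθu := hθ.mono (X' := Up X μ) inter_subset_left
  have hβ : Sm (Up X μ) (θ - F.pull Γ θ1) := hθu.sm.sub (cn_up h hM hN).sm
  have hdβ : Eqv (Up X μ) (F.d (θ - F.pull Γ θ1)) (F.d θ - F.pull Γ (F.d θ1)) :=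
    (d_sub_eqv hθu.sm (cn_up h hM hN).sm).trans
      ((Eqv.refl _).sub (d_pull_eqv hN.sΓ hM.cn.sm))
  have e1 := d_cor (p := p) (q := q) (r := r) (s := s) hau hXu (hθu.bas hau hXu) (bas_up h hM hN)
    hβ hdβ hb
  have e2 : Eqv (Up X μ) (F.d (F.pull Γ lam))
      (vv φ (F.pull Γ (F.d θ1)) p q r s (F.pull (fun x => H (x, 1)) om)) :=
    (d_pull_eqv hN.sΓ hM.sl).trans ((hM.dl.symm.pull hN.sΓ).trans (vv_up h hM hN))
  have e3 := (d_add_eqv (hM.sl.pull hN.sΓ) (sm_cor (p := p) (q := q) (r := r) (s := s) hau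
    (hθu.bas hau hXu) (bas_up h hM hN) hβ hb)).trans (e2.add e1)
  rwa [add_sub_cancel] at e3

include h hM hN in
/-- the forms of `H (·, 1)` vanish on the lower region -/
theorem xi_lo (hx : x ∈ Lo X μ) : rsL X x (xi φ (F.pull (fun x => H (x, 1)) om) x) = 0 :=
  rs_xi_eq_zero h (dat_one hM hN).sm hx.1
    (ii_cv_pull h hx.1 (fun r => hN.smap_one.diff (h.maps r hx.1)) fun r => hN.H1' x hx r)

include h hM hN in
theorem vv_lo (e : E → Ext E) (hx : x ∈ Lo X μ) :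
    rsL X x (vv φ e p q r s (F.pull (fun x => H (x, 1)) om) x) = 0 :=
  rs_vv_eq_zero h (dat_one hM hN).sm hx.1
    (ii_cv_pull h hx.1 (fun r => hN.smap_one.diff (h.maps r hx.1)) fun r => hN.H1' x hx r)

include h hM hN in
theorem KK_lo (hx : x ∈ Up X μ) (hx1 : μ x < 1) :
    rsL X x (KK φ θ om θ1 lam p q r s H Γ x) = 0 := by
  have h1 : F.pull Γ lam x = 0 := by rw [F.pull, hN.lam0 x hx hx1, map_zero]
  have h2 := rs_cor_eq_zero (e := F.d θ) (e1 := F.pull Γ (F.d θ1)) (β := θ - F.pull Γ θ1)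
    (p := p) (q := q) (r := r) (s := s) (A := Av φ (F.pull (fun x => H (x, 1)) om))
    (xi_lo h hM hN ⟨hx.1, hx1⟩)
  rw [KK, Pi.add_apply, map_add, h1, map_zero, zero_add, h2]

include h hM hN in
theorem G0_lo (hx : x ∈ Lo X μ) : rsL X x (G0 φ θ om θ1 lam p q r s H μ Γ x) = 0 := by
  rw [G0]
  rcases le_or_gt (μ x) 0 with h0 | h0
  · rw [kx_zero (by linarith), zero_smul, map_zero]
  · rw [map_smul, KK_lo h hM hN ⟨hx.1, h0⟩ hx.2, smul_zero]

include h hM hN in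
theorem G0_up (hx : x ∈ Up X μ) : rsL X x (G0 φ θ om θ1 lam p q r s H μ Γ x) =
    rsL X x (KK φ θ om θ1 lam p q r s H Γ x) := by
  rcases lt_or_ge (μ x) 1 with h0 | h0
  · rw [G0_lo h hM hN ⟨hx.1, h0⟩, KK_lo h hM hN hx h0]
  · rw [G0, kx_one (by linarith), one_smul]

include h hX hM hθ hN in
theorem sm_G0 : Sm X (G0 φ θ om θ1 lam p q r s H μ Γ) := by
  intro x hx
  rcases le_or_gt (μ x) 0 with h0 | h0
  · have h1 : ∀ᶠ y in 𝓝 x, μ y < 1 / 4 :=
      (hN.sμ x hx).continuousAt.eventually (gt_mem_nhds (by linarith))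
    refine (contDiffAt_const (c := (0 : Ext E))).congr_of_eventuallyEq (h1.mono fun y hy => ?_)
    rw [G0, kx_zero hy.le, zero_smul]
  · exact (contDiff_kx.contDiffAt.comp x (hN.sμ x hx)).smul
      (sm_KK h hX hM hθ hN x ⟨hx, h0⟩)

include h hX hM hθ hN in
theorem d_G0 : Eqv X (F.d (G0 φ θ om θ1 lam p q r s H μ Γ))
    (vv φ (F.d θ) p q r s (F.pull (fun x => H (x, 1)) om)) := by
  refine eqv_iff.2 fun x hx => ?_
  rcases le_or_gt (μ x) 0 with h0 | h0
  · have hxl : x ∈ Lo X μ := ⟨hx, by change μ x < 1; linarith⟩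
    have h1 : Eqv (Lo X μ) (G0 φ θ om θ1 lam p q r s H μ Γ) 0 := eqv_iff.2 fun y hy => by
      have h2 := G0_lo (θ := θ) (p := p) (q := q) (r := r) (s := s) h hM hN hy
      have h3 := rs_sub (X' := Lo X μ) (X := X) inter_subset_left
        (h2.trans (map_zero _).symm : rsL X y _ = rsL X y 0)
      exact h3
    have h2 := h1.d (sub_lo hN.sμ hX) ((sm_G0 h hX hM hθ hN).mono inter_subset_left) Sm.zero
    rw [d_zero'] at h2
    have h3 := rs_lo hN.sμ h2 hxl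
    have h4 := vv_lo (p := p) (q := q) (r := r) (s := s) h hM hN (F.d θ) hxl
    rw [rsL_apply] at h3 h4
    rw [h3, h4, Pi.zero_apply, map_zero]
  · have hxu : x ∈ Up X μ := ⟨hx, h0⟩
    have h1 : Eqv (Up X μ) (G0 φ θ om θ1 lam p q r s H μ Γ) (KK φ θ om θ1 lam p q r s H Γ) :=
      eqv_iff.2 fun y hy => rs_sub (X' := Up X μ) (X := X) inter_subset_left (G0_up h hM hN hy)
    have h2 := (h1.d (sub_up hN.sμ hX) ((sm_G0 h hX hM hθ hN).mono inter_subset_left)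
      (sm_KK h hX hM hθ hN)).trans (d_KK h hX hM hθ hN)
    exact rs_up hN.sμ h2 hxu

include h hX hM hθ hN in
theorem inv_G0 : Inv X φ (G0 φ θ om θ1 lam p q r s H μ Γ) := by
  intro t
  refine eqv_iff.2 fun x hx => ?_
  have h1 : F.pull (φ t) (G0 φ θ om θ1 lam p q r s H μ Γ) x =
      kx (μ (φ t x)) • F.pull (φ t) (KK φ θ om θ1 lam p q r s H Γ) x := F.pull_smul _ _ _ _
  rw [h1, hN.iμ x hx, map_smul]
  change _ = pb (Tan X x).subtype (kx (μ x) • _)
  rw [map_smul]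
  rcases le_or_gt (μ x) 0 with h0 | h0
  · rw [kx_zero (by linarith), zero_smul, zero_smul]
  · congr 1
    exact rs_up hN.sμ (inv_KK h hX hM hθ hN t) ⟨hx, h0⟩

include h hX hM hθ hN in
theorem hz_G0 : Hz X φ (G0 φ θ om θ1 lam p q r s H μ Γ) := by
  refine eqv_iff.2 fun x hx => ?_
  have h1 : iV φ (G0 φ θ om θ1 lam p q r s H μ Γ) x =
      kx (μ x) • iV φ (KK φ θ om θ1 lam p q r s H Γ) x := map_smul (ii (gen φ x)) _ _
  rw [h1, map_smul]
  rcases le_or_gt (μ x) 0 with h0 | h0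
  · rw [kx_zero (by linarith), zero_smul, Pi.zero_apply, map_zero]
  · have h2 := rs_up hN.sμ (hz_KK h hX hM hθ hN) ⟨hx, h0⟩
    rw [rsL_apply, rsL_apply] at h2
    rw [h2, Pi.zero_apply, map_zero, smul_zero]

end main

end Crest.Agent.R208.EX
end
end

-- ▼ part R208/EX3
section

/-!
R208, block EX (helper530), part EX3: **the natural basic primitive of `vv`**: smooth, invariant,
horizontal, zero where the loops are constant, natural under equivariant maps.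
-/

set_option autoImplicit false
set_option linter.unusedSectionVars false
set_option linter.unusedVariables false

open MeasureTheory Set Filter Topology Module
open scoped ContDiff
open Crest.Agent.R208.F Crest.Agent.R208.FI Crest.Agent.R208.CW Crest.Agent.R208.T
open Crest.Agent.R208.CM (Cir gen)
open Crest.Agent.R208.VC

noncomputable section

namespace Crest.Agent.R208.EX

universe u v w z
variable {E : Type u} [NormedAddCommGroup E] [NormedSpace ℝ E] [FiniteDimensional ℝ E]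
  {F' : Type v} [NormedAddCommGroup F'] [NormedSpace ℝ F'] [FiniteDimensional ℝ F']
  {P : Type w} [NormedAddCommGroup P] [NormedSpace ℝ P] [FiniteDimensional ℝ P]
  {V : Type z} [NormedAddCommGroup V] [NormedSpace ℝ V] [FiniteDimensional ℝ V]
  {m : ℕ} {X : Set E} {φ : ℝ → E → E} {a b θ : E → Ext E} {x : E} {μ : E → ℝ}
  {S : Set V} {om : V → Ext V} {Y : Set P} {φY : ℝ → P → P} {θ1 lam : P → Ext P}
  {f1 : P → V} {p q : ℕ} {r s : ℝ} {f : E → V} {H : E × ℝ → V} {Γ : E → P}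

section main
variable (h : Act X φ) (hX : Sub m X) (hM : Mod S om Y φY θ1 f1 lam p q r s) (hθ : Cn X φ θ)
  (hN : ND X φ S Y φY f1 lam f H μ Γ)

include hM hN in
theorem dat_H : Dat (X ×ˢ (univ : Set ℝ)) (F.pull H om) := hM.dat.pull hN.sH

include h hX hM hθ hN in
theorem sm_Eta : Sm X (Eta φ θ om θ1 lam p q r s H μ Γ) :=
  (sm_G0 h hX hM hθ hN).sub (sm_hom h (subset_univ _) (hθ.bas h hX) (dat_H hM hN))

include h hX hM hθ hN in
theorem inv_Eta : Inv X φ (Eta φ θ om θ1 lam p q r s H μ Γ) :=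
  (inv_G0 h hX hM hθ hN).sub
    (inv_hom h isOpen_univ (subset_univ _) (hθ.bas h hX) (dat_H hM hN))

include h hX hM hθ hN in
theorem hz_Eta : Hz X φ (Eta φ θ om θ1 lam p q r s H μ Γ) :=
  (hz_G0 h hX hM hθ hN).sub
    (hz_hom h isOpen_univ (subset_univ _) (hθ.bas h hX) (dat_H hM hN))

include h hX hM hθ hN in
/-- **`vv` of the family is the differential of the natural primitive** -/
theorem d_Eta : Eqv X (vv φ (F.d θ) p q r s (F.pull f om))
    (F.d (Eta φ θ om θ1 lam p q r s H μ Γ)) := by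
  have hB := dat_H hM hN
  have he := hθ.bas h hX
  have h1 := hom_vv (p := p) (q := q) (r := r) (s := s) h hX isOpen_univ (subset_univ _) he hB
  have hb0 : Dat X (F.pull f om) := hM.dat.pull hN.sf
  have hb1 : Dat X (F.pull (fun x => H (x, 1)) om) := dat_one hM hN
  have e1 : Eqv X (F.pull (fun y => (y, (1 : ℝ))) (F.pull H om))
      (F.pull (fun x => H (x, 1)) om) := Eqv.of_eq fun x hx =>
    F.pull_comp ((smap_at (X := X) (mem_univ (1 : ℝ))).diff hx) (hN.sH.diff ⟨hx, mem_univ _⟩)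
  have e0' : Eqv X (F.pull (fun y => (y, (0 : ℝ))) (F.pull H om))
      (F.pull (fun x => H (x, 0)) om) := Eqv.of_eq fun x hx =>
    F.pull_comp ((smap_at (X := X) (mem_univ (0 : ℝ))).diff hx) (hN.sH.diff ⟨hx, mem_univ _⟩)
  have hs0 : SMap X S (fun x => H (x, 0)) := hN.sH.comp (smap_at (mem_univ _))
  have e0 := e0'.trans (eqv_pull_of_eq om (fun x hx => hs0.diff hx) (fun x hx => hN.sf.diff hx)
    fun x hx => hN.H0 x hx)
  have f1 := eqv_vv (e := F.d θ) (p := p) (q := q) (r := r) (s := s) h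
    (hB.sm.pull (smap_at (X := X) (mem_univ (1 : ℝ)))) hb1.sm e1 (Eqv.refl _)
  have f0 := eqv_vv (e := F.d θ) (p := p) (q := q) (r := r) (s := s) h
    (hB.sm.pull (smap_at (X := X) (mem_univ (0 : ℝ)))) hb0.sm e0 (Eqv.refl _)
  have h2 := (f1.sub f0).symm.trans h1
  have h3 := (d_sub_eqv (sm_G0 h hX hM hθ hN)
    (sm_hom (p := p) (q := q) (r := r) (s := s) h (subset_univ _) he hB)).trans
    ((d_G0 h hX hM hθ hN).sub h2.symm)
  rw [sub_sub_cancel] at h3
  exact h3.symm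

include h hX hM hθ hN in
/-- the primitive vanishes where the loops are constant -/
theorem Eta_zero (hx : x ∈ X) (hc : ∀ t, f (φ t x) = f x) :
    rsL X x (Eta φ θ om θ1 lam p q r s H μ Γ x) = 0 := by
  have h1 := G0_lo (θ := θ) (p := p) (q := q) (r := r) (s := s) h hM hN ⟨hx, hN.cμ x hx hc⟩
  have h2 : ∀ t r, H (φ r x, t) = H (x, t) := by
    intro t r
    have e1 := hN.cH x hx hc t 0
    rw [h.zero x hx] at e1
    rw [hN.cH x hx hc t r, e1]
  have h3 := rs_hom_pull_eq_zero (p := p) (q := q) (r := r) (s := s) h isOpen_univ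
    (subset_univ _) (hθ.bas h hX) hN.sH hM.dat hx fun t _ r => h2 t r
  rw [Eta, Pi.sub_apply, map_sub, h1, h3, sub_zero]

end main

section nat
variable {m' : ℕ} {X' : Set F'} {φ' : ℝ → F' → F'} {θ' : F' → Ext F'} {μ' : F' → ℝ}
  {f' : F' → V} {H' : F' × ℝ → V} {Γ' : F' → P} {g : F' → E}
  (h : Act X φ) (hX : Sub m X) (hM : Mod S om Y φY θ1 f1 lam p q r s) (hθ : Cn X φ θ)
  (hN : ND X φ S Y φY f1 lam f H μ Γ)
  (h' : Act X' φ') (hX' : Sub m' X') (hθ' : Cn X' φ' θ')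
  (hN' : ND X' φ' S Y φY f1 lam f' H' μ' Γ')
  (hg : SMap X' X g) (heq : ∀ t, ∀ y ∈ X', g (φ' t y) = φ t (g y))
  (hHH : ∀ y ∈ X', ∀ s, H' (y, s) = H (g y, s)) (hμμ : ∀ y ∈ X', μ' y = μ (g y))
  (hΓΓ : ∀ y ∈ Up X' μ', Γ' y = Γ (g y)) (hθθ : Eqv X' (F.pull g θ) θ')

include hg hμμ in
theorem smap_up : SMap (Up X' μ') (Up X μ) g :=
  ⟨fun y hy => hg.smooth y hy.1, fun y hy => ⟨hg.maps hy.1, by
    have h2 : 0 < μ' y := hy.2
    change 0 < μ (g y)
    rwa [← hμμ y hy.1]⟩⟩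

include h hX hM hθ hN h' hX' hθ' hN' hg heq hHH hμμ hΓΓ hθθ in
theorem nat_KK : Eqv (Up X' μ') (F.pull g (KK φ θ om θ1 lam p q r s H Γ))
    (KK φ' θ' om θ1 lam p q r s H' Γ') := by
  have hgu := smap_up hg hμμ
  have hΓg : ∀ w : P → Ext P, Eqv (Up X' μ') (F.pull g (F.pull Γ w)) (F.pull Γ' w) := fun w => by
    have e1 : Eqv (Up X' μ') (F.pull g (F.pull Γ w)) (F.pull (fun y => Γ (g y)) w) :=
      Eqv.of_eq fun y hy => F.pull_comp (hgu.diff hy) (hN.sΓ.diff (hgu.maps hy))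
    exact e1.trans (eqv_pull_of_eq w (fun y hy => (hN.sΓ.comp hgu).diff hy)
      (fun y hy => hN'.sΓ.diff hy) fun y hy => (hΓΓ y hy).symm)
  have e1 : Eqv (Up X' μ') (F.pull g (F.pull (fun x => H (x, 1)) om))
      (F.pull (fun x => H' (x, 1)) om) := by
    have e1 : Eqv (Up X' μ') (F.pull g (F.pull (fun x => H (x, 1)) om))
        (F.pull (fun y => H (g y, 1)) om) := Eqv.of_eq fun y hy =>
      F.pull_comp (hgu.diff hy) (hN.smap_one.diff (hg.maps hy.1))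
    exact e1.trans (eqv_pull_of_eq om (fun y hy => (hN.smap_one.comp hg).diff hy.1)
      (fun y hy => hN'.smap_one.diff hy.1) fun y hy => (hHH y hy.1 1).symm)
  have e2 : Eqv X' (F.pull g (F.d θ)) (F.d θ') :=
    (d_pull_eqv hg hθ.sm).symm.trans (hθθ.d hX' (hθ.sm.pull hg) hθ'.sm)
  have e3 := nat_cor (e := F.d θ) (e1 := F.pull Γ (F.d θ1)) (β := θ - F.pull Γ θ1)
    (b := F.pull (fun x => H (x, 1)) om) (b' := F.pull (fun x => H' (x, 1)) om)
    (e' := F.d θ') (e1' := F.pull Γ' (F.d θ1)) (β' := θ' - F.pull Γ' θ1)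
    (p := p) (q := q) (r := r) (s := s)
    (hN.act_up h) (hN'.act_up h') hgu (fun t y hy => heq t y hy.1)
    ((dat_one hM hN).sm.mono inter_subset_left) ((dat_one hM hN').sm.mono inter_subset_left) e1
    (e2.mono_tan inter_subset_left) (hΓg _) (by
      rw [pull_sub']
      exact (hθθ.mono_tan inter_subset_left).sub (hΓg θ1))
  rw [KK, pull_add', KK]
  exact (hΓg lam).add e3

include h hX hM hθ hN h' hX' hθ' hN' hg heq hHH hμμ hΓΓ hθθ in
theorem nat_G0 : Eqv X' (F.pull g (G0 φ θ om θ1 lam p q r s H μ Γ))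
    (G0 φ' θ' om θ1 lam p q r s H' μ' Γ') := by
  refine eqv_iff.2 fun y hy => ?_
  have h1 : F.pull g (G0 φ θ om θ1 lam p q r s H μ Γ) y =
      kx (μ (g y)) • F.pull g (KK φ θ om θ1 lam p q r s H Γ) y := F.pull_smul _ _ _ _
  rw [h1, ← hμμ y hy, map_smul]
  change _ = pb (Tan X' y).subtype (kx (μ' y) • _)
  rw [map_smul]
  rcases le_or_gt (μ' y) 0 with h0 | h0
  · rw [kx_zero (by linarith), zero_smul, zero_smul]
  · congr 1
    exact rs_up hN'.sμ (nat_KK h hX hM hθ hN h' hX' hθ' hN' hg heq hHH hμμ hΓΓ hθθ) ⟨hy, h0⟩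

include h hX hM hθ hN h' hX' hθ' hN' hg heq hHH hμμ hΓΓ hθθ in
/-- **naturality of the primitive** -/
theorem nat_Eta : Eqv X' (F.pull g (Eta φ θ om θ1 lam p q r s H μ Γ))
    (Eta φ' θ' om θ1 lam p q r s H' μ' Γ') := by
  have hB := dat_H hM hN
  have hB' := dat_H hM hN'
  have he := hθ.bas h hX
  have he' := hθ'.bas h' hX'
  rw [Eta, pull_sub', Eta]
  refine (nat_G0 h hX hM hθ hN h' hX' hθ' hN' hg heq hHH hμμ hΓΓ hθθ).sub ?_
  have hg1 : SMap (X' ×ˢ (univ : Set ℝ)) (X ×ˢ (univ : Set ℝ)) (fun p : F' × ℝ => (g p.1, p.2)) :=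
    ⟨fun y hy => (ContDiffAt.comp y (hg.smooth _ hy.1) contDiffAt_fst).prodMk contDiffAt_snd,
      fun y hy => ⟨hg.maps hy.1, hy.2⟩⟩
  have hsΨ := sm_vv (p := p) (q := q) (r := r) (s := s) (h.pr univ) (he.pr h univ) hB
  have hsΨ' := sm_vv (p := p) (q := q) (r := r) (s := s) (h'.pr univ) (he'.pr h' univ) hB'
  refine (Eqv.of_eq fun y hy => nat_eta (subset_univ _) hsΨ hg hy).trans
    (eqv_eta isOpen_univ (subset_univ _) (hsΨ.pull hg1) hsΨ' ?_)
  refine (nat_vv (h.pr univ) (h'.pr univ) hg1 (fun t y hy => Prod.ext (heq t _ hy.1) rfl)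
    hB.sm).trans (eqv_vv (h'.pr univ) (hB.sm.pull hg1) hB'.sm ?_ ?_)
  · have e1 : Eqv (X' ×ˢ (univ : Set ℝ)) (F.pull (fun p : F' × ℝ => (g p.1, p.2)) (F.pull H om))
        (F.pull (fun p : F' × ℝ => H (g p.1, p.2)) om) := Eqv.of_eq fun y hy =>
      F.pull_comp (hg1.diff hy) (hN.sH.diff (hg1.maps hy))
    exact e1.trans (eqv_pull_of_eq om (fun y hy => (hN.sH.comp hg1).diff hy)
      (fun y hy => hN'.sH.diff hy) fun y hy => (hHH y.1 hy.1 y.2).symm)
  · have e2 : Eqv X' (F.pull g (F.d θ)) (F.d θ') :=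
      (d_pull_eqv hg hθ.sm).symm.trans (hθθ.d hX' (hθ.sm.pull hg) hθ'.sm)
    have e3 : Eqv (X' ×ˢ (univ : Set ℝ))
        (F.pull (fun p : F' × ℝ => (g p.1, p.2)) (F.pull (fun p : E × ℝ => p.1) (F.d θ)))
        (F.pull (fun p : F' × ℝ => p.1) (F.pull g (F.d θ))) := Eqv.of_eq fun y hy => by
      have d1 : DifferentiableAt ℝ (fun p : E × ℝ => p.1) ((fun p : F' × ℝ => (g p.1, p.2)) y) :=
        differentiableAt_fst
      rw [F.pull_comp (hg1.diff hy) d1,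
        F.pull_comp (differentiableAt_fst : DifferentiableAt ℝ (fun p : F' × ℝ => p.1) y)
          (hg.diff hy.1)]
      rfl
    exact e3.trans (e2.pull (smap_fst X' univ))

end nat

end Crest.Agent.R208.EX
end
end

-- ▼ part R208/EX4
section

/-!
R208, block EX (helper530), part EX4: shrinking the support of the primitive of the model family by
a radial fibre map; the model `Mod` over a total space.
-/

set_option autoImplicit false
set_option linter.unusedSectionVars false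
set_option linter.unusedVariables false

open MeasureTheory Set Filter Topology Module
open scoped ContDiff
open Crest.Agent.R208.F Crest.Agent.R208.FI Crest.Agent.R208.CW Crest.Agent.R208.T
open Crest.Agent.R208.CM (Cir gen phR Rep)
open Crest.Agent.R208.VC

noncomputable section

namespace Crest.Agent.R208.EX

universe u w z
variable {E : Type u} [NormedAddCommGroup E] [NormedSpace ℝ E] [FiniteDimensional ℝ E]
  {W : Type w} [NormedAddCommGroup W] [InnerProductSpace ℝ W] [FiniteDimensional ℝ W]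
  {V : Type z} [NormedAddCommGroup V] [NormedSpace ℝ V] [FiniteDimensional ℝ V]
  {X : Set E} {φ : ℝ → E → E} {R : ℝ → W →L[ℝ] W} {Q : E → W →L[ℝ] W} {ρ : ℝ}

/-- radial factor: `1` for `t ≤ 9/4`, `≥ 1 + |ρ|` for `t ≥ 64/25` -/
def rk (ρ t : ℝ) : ℝ := 1 + |ρ| * Real.smoothTransition ((t - 9 / 4) * 10)

theorem contDiff_rk (ρ : ℝ) : ContDiff ℝ ∞ (rk ρ) := by
  have h : ContDiff ℝ ∞ fun t : ℝ => Real.smoothTransition ((t - 9 / 4) * 10) :=
    Real.smoothTransition.contDiff.comp (by fun_prop)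
  exact contDiff_const.add (contDiff_const.mul h)

theorem one_le_rk (ρ t : ℝ) : 1 ≤ rk ρ t := by
  have := mul_nonneg (abs_nonneg ρ) (Real.smoothTransition.nonneg ((t - 9 / 4) * 10))
  unfold rk
  linarith

theorem rk_one (ρ : ℝ) {t : ℝ} (h : t ≤ 9 / 4) : rk ρ t = 1 := by
  rw [rk, Real.smoothTransition.zero_of_nonpos (by linarith), mul_zero, add_zero]

theorem rk_big (ρ : ℝ) {t : ℝ} (h : 64 / 25 ≤ t) : rk ρ t = 1 + |ρ| := by
  rw [rk, Real.smoothTransition.one_of_one_le (by linarith), mul_one]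

/-- the radial fibre map -/
def rD (ρ : ℝ) (y : E × W) : E × W := (y.1, rk ρ (‖y.2‖ ^ 2) • y.2)

theorem contDiff_rD (ρ : ℝ) : ContDiff ℝ ∞ (rD (E := E) (W := W) ρ) := by
  have h : ContDiff ℝ ∞ fun y : E × W => rk ρ (‖y.2‖ ^ 2) :=
    (contDiff_rk ρ).comp ((contDiff_norm_sq ℝ).comp contDiff_snd)
  exact contDiff_fst.prodMk (h.smul contDiff_snd)

theorem rD_mem {y : E × W} (hy : y ∈ Tot X Q) : rD ρ y ∈ Tot X Q := by
  refine ⟨hy.1, ?_⟩
  change Q y.1 (rk ρ (‖y.2‖ ^ 2) • y.2) = rk ρ (‖y.2‖ ^ 2) • y.2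
  rw [map_smul, hy.2]

theorem smap_rD : SMap (Tot X Q) (Tot X Q) (rD ρ) :=
  ⟨fun _ _ => (contDiff_rD ρ).contDiffAt, fun _ hy => rD_mem hy⟩

theorem rD_equi (hR : ∀ t w, ‖R t w‖ = ‖w‖) (t : ℝ) (y : E × W) :
    rD ρ (phR φ R t y) = phR φ R t (rD ρ y) := by
  refine Prod.ext rfl ?_
  change rk ρ (‖R t y.2‖ ^ 2) • R t y.2 = R t (rk ρ (‖y.2‖ ^ 2) • y.2)
  rw [hR, map_smul]

theorem norm_rD_le (y : E × W) : ‖y.2‖ ≤ ‖(rD ρ y).2‖ := by
  change ‖y.2‖ ≤ ‖rk ρ (‖y.2‖ ^ 2) • y.2‖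
  rw [norm_smul, Real.norm_eq_abs, abs_of_nonneg (by linarith [one_le_rk ρ (‖y.2‖ ^ 2)])]
  exact le_mul_of_one_le_left (norm_nonneg _) (one_le_rk _ _)

theorem lt_norm_rD {y : E × W} (hy : 64 / 25 ≤ ‖y.2‖ ^ 2) : ρ < ‖(rD ρ y).2‖ := by
  change ρ < ‖rk ρ (‖y.2‖ ^ 2) • y.2‖
  rw [rk_big ρ hy, norm_smul, Real.norm_eq_abs, abs_of_nonneg (by positivity)]
  have h1 : 8 / 5 ≤ ‖y.2‖ := by
    by_contra h
    push Not at h
    nlinarith [norm_nonneg y.2]
  have h2 := le_abs_self ρ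
  nlinarith [abs_nonneg ρ]

variable {S : Set V} {om : V → Ext V} {θ0 : E → Ext E} {f1 : E × W → V}
  {lam' : E × W → Ext (E × W)} {p q : ℕ} {r s : ℝ}

/-- **the model**, from a primitive with large support -/
theorem exists_mod (hsub : ∃ k, Sub k (Tot X Q)) (hact : Act X φ)
    (hT : Act (Tot X Q) (phR φ R)) (hR : ∀ t w, ‖R t w‖ = ‖w‖) (hcn : Cn X φ θ0)
    (hf : SMap (Tot X Q) S f1) (hdat : Dat S om)
    (hconst : ∀ y ∈ Tot X Q, 9 / 4 ≤ ‖y.2‖ ^ 2 → ∀ t, f1 (phR φ R t y) = f1 y)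
    (sl : Sm (Tot X Q) lam') (il : Inv (Tot X Q) (phR φ R) lam')
    (hl : Hz (Tot X Q) (phR φ R) lam')
    (dl : Eqv (Tot X Q) (vv (phR φ R) (F.d (F.pull (fun y : E × W => y.1) θ0)) p q r s
      (F.pull f1 om)) (F.d lam'))
    (supp : ∀ y ∈ Tot X Q, ρ < ‖y.2‖ → lam' y = 0) :
    ∃ lam : E × W → Ext (E × W),
      Mod S om (Tot X Q) (phR φ R) (F.pull (fun y : E × W => y.1) θ0) f1 lam p q r s ∧
      ∀ y ∈ Tot X Q, 64 / 25 ≤ ‖y.2‖ ^ 2 → lam y = 0 := by
  set Y := Tot X Q with hY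
  set φY := phR φ R with hφY
  set D : E × W → E × W := rD ρ with hD
  have hDs : SMap Y Y D := smap_rD
  have hDe : ∀ t, ∀ y ∈ Y, D (φY t y) = φY t (D y) := fun t y _ => rD_equi hR t y
  have hfst : SMap Y X (fun y : E × W => y.1) :=
    ⟨fun _ _ => contDiffAt_fst, fun _ hy => hy.1⟩
  have hcnY : Cn Y φY (F.pull (fun y : E × W => y.1) θ0) :=
    hcn.pull hact hT hfst fun t y hy => rfl
  obtain ⟨k, hk⟩ := hsub
  have he := hcnY.bas hT hk
  have hb : Dat Y (F.pull f1 om) := hdat.pull hf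
  -- the pulled back primitive
  have h1 : Eqv Y (F.d (F.pull D lam')) (vv φY (F.d (F.pull (fun y : E × W => y.1) θ0)) p q r s
      (F.pull (fun y => f1 (D y)) om)) := by
    refine (d_pull_eqv hDs sl).trans ((dl.symm.pull hDs).trans ?_)
    refine (nat_vv hT hT hDs hDe hb.sm).trans (eqv_vv hT (hb.sm.pull hDs)
      ((hdat.pull (hf.comp hDs)).sm) ?_ ?_)
    · exact Eqv.of_eq fun y hy => F.pull_comp (hDs.diff hy) (hf.diff (hDs.maps hy))
    · refine (d_pull_eqv hDs hcnY.sm).symm.trans ?_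
      have e1 : Eqv Y (F.pull D (F.pull (fun y : E × W => y.1) θ0))
          (F.pull (fun y : E × W => y.1) θ0) := Eqv.of_eq fun y hy => by
        have d1 : DifferentiableAt ℝ (fun y : E × W => y.1) (D y) := differentiableAt_fst
        rw [F.pull_comp (hDs.diff hy) d1]
        rfl
      exact e1.d hk (hcnY.sm.pull hDs) hcnY.sm
  -- the two families have the same form
  have h2 : Eqv Y (vv φY (F.d (F.pull (fun y : E × W => y.1) θ0)) p q r s
      (F.pull (fun y => f1 (D y)) om)) (vv φY (F.d (F.pull (fun y : E × W => y.1) θ0)) p q r s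
      (F.pull f1 om)) := by
    refine eqv_iff.2 fun y hy => ?_
    have hfD := hf.comp hDs
    rcases lt_or_ge (‖y.2‖ ^ 2) (9 / 4) with h0 | h0
    · set U : Set (E × W) := {y | ‖y.2‖ ^ 2 < 9 / 4} with hU
      have hUo : IsOpen U :=
        isOpen_lt ((continuous_norm.comp continuous_snd).pow 2) continuous_const
      have hTU : Act (Y ∩ U) φY := hT.mono inter_subset_left fun t x hx =>
        ⟨hT.maps t hx.1, by
          change ‖R t x.2‖ ^ 2 < 9 / 4
          rw [hR]; exact hx.2⟩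
      refine eqv_of_open hUo (eqv_vv hTU ((hdat.pull hfD).sm.mono inter_subset_left)
        (hb.sm.mono inter_subset_left) ?_ (Eqv.refl _)) hy h0
      refine eqv_pull_of_eq om (fun x hx => hfD.diff hx.1) (fun x hx => hf.diff hx.1)
        fun x hx => ?_
      have hx2 : ‖x.2‖ ^ 2 < 9 / 4 := hx.2
      change f1 (x.1, rk ρ (‖x.2‖ ^ 2) • x.2) = f1 x
      rw [rk_one ρ hx2.le, one_smul]
    · have hc1 := hconst y hy h0
      have hc2 : ∀ t, f1 (D (φY t y)) = f1 (D y) := fun t => by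
        rw [hDe t y hy]
        refine hconst (D y) (hDs.maps hy) (h0.trans ?_) t
        exact pow_le_pow_left₀ (norm_nonneg _) (norm_rD_le y) 2
      have e1 := rs_vv_eq_zero (e := F.d (F.pull (fun y : E × W => y.1) θ0)) (p := p) (q := q)
        (r := r) (s := s) hT hb.sm hy (ii_cv_pull hT hy (fun t => hf.diff (hT.maps t hy)) hc1)
      have e2 := rs_vv_eq_zero (e := F.d (F.pull (fun y : E × W => y.1) θ0)) (p := p) (q := q)
        (r := r) (s := s) hT (hdat.pull hfD).sm hy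
        (ii_cv_pull hT hy (fun t => hfD.diff (hT.maps t hy)) hc2)
      rw [rsL_apply] at e1 e2
      rw [e1, e2]
  refine ⟨F.pull D lam', ⟨⟨k, hk⟩, hT, hf, hdat, hcnY, sl.pull hDs, Inv.pull hT hT hDs hDe il,
    Hz.pull hT hT hDs hDe hl, (h1.trans h2).symm⟩, fun y hy h0 => ?_⟩
  rw [F.pull, supp (D y) (hDs.maps hy) (lt_norm_rD h0), map_zero]

end Crest.Agent.R208.EX
end
end

-- ▼ part R208/EX5

/-!
R208, block EX (helper530), part EX5: the natural homotopy of a family of loops of energy `≤ B < 4π`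
to standard form: `J` averaged Birkhoff steps followed by the operator near `UM`.
-/

set_option autoImplicit false
set_option linter.unusedSectionVars false
set_option linter.unusedVariables false

open MeasureTheory Set Filter Topology Module
open scoped ContDiff RealInnerProductSpace Real
open Crest.GeometryTopology.Submanifold
open Crest.Agent.R241.DDefs Crest.Agent.R241.D Crest.Agent.R241.D2
open Crest.Agent.R208.MS Crest.Agent.R208.NL
open Crest.Agent.R208.CW (SMap)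
open Crest.Agent.R208.F (Ext)

noncomputable section

namespace Crest.Agent.R208.EX

variable {n N : ℕ} {κ : ℝ} {S : Set (Euc N)} {G : Geo n N κ S} {lg : Euc N → Euc N → Euc N}
  {ρ : Euc N → Euc N} {w : ℝ} {J : ℕ} {r C r' K B : ℝ}
  {P : Type} [NormedAddCommGroup P] [NormedSpace ℝ P] [FiniteDimensional ℝ P]
  {Y : Set P} {φY : ℝ → P → P} {f1 : P → Euc N} {far : P → Prop}

/-- a family `f` with a homotopy `H` to a family of standard form -/
structure NDf {E : Type} [NormedAddCommGroup E] [NormedSpace ℝ E] [FiniteDimensional ℝ E]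
    (X : Set E) (φ : ℝ → E → E) (S : Set (Euc N)) (Y : Set P) (φY : ℝ → P → P) (f1 : P → Euc N)
    (far : P → Prop) (f : E → Euc N) (H : E × ℝ → Euc N) (μ : E → ℝ) (Γ : E → P) : Prop where
  sf : SMap X S f
  sH : SMap (X ×ˢ univ) S H
  H0 : ∀ x ∈ X, H (x, 0) = f x
  cH : ∀ x ∈ X, (∀ t, f (φ t x) = f x) → ∀ s t, H (φ t x, s) = f x
  sμ : ∀ x ∈ X, ContDiffAt ℝ ∞ μ x
  iμ : ∀ x ∈ X, ∀ t, μ (φ t x) = μ x
  sΓ : SMap (Up X μ) Y Γ
  eΓ : ∀ t, ∀ x ∈ Up X μ, Γ (φ t x) = φY t (Γ x)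
  H1 : ∀ x ∈ Up X μ, H (x, 1) = f1 (Γ x)
  H1' : ∀ x ∈ Lo X μ, ∀ t, H (φ t x, 1) = H (x, 1)
  far0 : ∀ x ∈ Up X μ, μ x < 1 → far (Γ x)
  cμ : ∀ x ∈ X, (∀ t, f (φ t x) = f x) → μ x < 1

section fam
variable {E : Type} [NormedAddCommGroup E] [NormedSpace ℝ E] [FiniteDimensional ℝ E]
  {X : Set E} {φ : ℝ → E → E} {f g : E → Euc N} {H : E × ℝ → Euc N} {μ : E → ℝ} {Γ : E → P}

theorem NDf.nd {lam : P → Ext P} (h : NDf X φ S Y φY f1 far f H μ Γ)
    (hl : ∀ y ∈ Y, far y → lam y = 0) : ND X φ S Y φY f1 lam f H μ Γ where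
  sf := h.sf
  sH := h.sH
  H0 := h.H0
  cH := h.cH
  sμ := h.sμ
  iμ := h.iμ
  sΓ := h.sΓ
  eΓ := h.eΓ
  H1 := h.H1
  H1' := h.H1'
  lam0 := fun x hx h1 => hl _ (h.sΓ.maps hx) (h.far0 x hx h1)
  cμ := h.cμ

/-! ### concatenation of homotopies -/

/-- cut-off: `0` for `s ≤ 7/16`, `1` for `s ≥ 9/16` -/
def kc (s : ℝ) : ℝ := Real.smoothTransition (8 * s - 7 / 2)

theorem contDiff_kc : ContDiff ℝ ∞ kc := Real.smoothTransition.contDiff.comp (by fun_prop)
theorem kc_zero {s : ℝ} (h : s ≤ 7 / 16) : kc s = 0 :=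
  Real.smoothTransition.zero_of_nonpos (by linarith)
theorem kc_one {s : ℝ} (h : 9 / 16 ≤ s) : kc s = 1 :=
  Real.smoothTransition.one_of_one_le (by linarith)

/-- concatenation: `H₁` for `s ≤ 7/16`, `H₂ (·, 2 s - 1)` for `s ≥ 9/16` -/
def cat (H₁ H₂ : E × ℝ → Euc N) (q : E × ℝ) : Euc N :=
  (1 - kc q.2) • H₁ q + kc q.2 • H₂ (q.1, 2 * q.2 - 1)

theorem contDiffAt_cat {H₁ H₂ : E × ℝ → Euc N} {x : E} {s : ℝ} (h1 : ContDiffAt ℝ ∞ H₁ (x, s))
    (h2 : ContDiffAt ℝ ∞ H₂ (x, 2 * s - 1)) : ContDiffAt ℝ ∞ (cat H₁ H₂) (x, s) := by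
  have e1 : ContDiffAt ℝ ∞ (fun q : E × ℝ => kc q.2) (x, s) :=
    contDiff_kc.contDiffAt.comp (x, s) contDiffAt_snd
  have e2 : ContDiffAt ℝ ∞ (fun q : E × ℝ => (q.1, 2 * q.2 - 1)) (x, s) := by fun_prop
  have e3 : ContDiffAt ℝ ∞ (fun q : E × ℝ => H₂ (q.1, 2 * q.2 - 1)) (x, s) :=
    ContDiffAt.comp (x, s) (g := H₂) h2 e2
  exact ((contDiffAt_const.sub e1).smul h1).add (e1.smul e3)

/-- the value of the concatenation -/
theorem cat_eq {H₁ H₂ : E × ℝ → Euc N} {x : E} {y : Euc N} (h1 : ∀ s ≥ 3 / 8, H₁ (x, s) = y)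
    (h2 : ∀ s ≤ 1 / 4, H₂ (x, s) = y) (s : ℝ) :
    cat H₁ H₂ (x, s) = if s ≤ 1 / 2 then H₁ (x, s) else H₂ (x, 2 * s - 1) := by
  unfold cat
  change (1 - kc s) • H₁ (x, s) + kc s • H₂ (x, 2 * s - 1) = _
  rcases le_or_gt s (7 / 16) with h | h
  · rw [if_pos (by linarith), kc_zero h, sub_zero, one_smul, zero_smul, add_zero]
  rcases le_or_gt (9 / 16) s with h' | h'
  · rw [if_neg (by linarith), kc_one h', sub_self, zero_smul, one_smul, zero_add]
  · rw [h1 s (by linarith), h2 _ (by linarith), ← add_smul, sub_add_cancel, one_smul, ite_self]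

/-- the Birkhoff stages as a homotopy -/
def HB (φ : ℝ → E → E) (G : Geo n N κ S) (lg : Euc N → Euc N → Euc N) (ρ : Euc N → Euc N)
    (w : ℝ) (J : ℕ) (f : E → Euc N) : E × ℝ → Euc N :=
  Fstk (pR φ) G lg ρ w J (fun q => 2 * q.2) (fun q => f q.1) J

/-- the data of NL2 with trivial last stage -/
theorem exists_ld (hsg : SG G lg r C) (hR : Retr S ρ r' K) (hs : Small r C r' K B w) (hB : 0 ≤ B)
    (J : ℕ) : LD G lg ρ w J r C r' K B (-1) 0 where
  sg := hsg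
  rt := hR
  sm := hs
  s2 := ⟨le_rfl, by rw [mul_zero]; exact pow_pos hR.r_pos 2, by norm_num⟩
  le := by linarith
  st := fun c hc hB σ h0 h1 => by
    have h2 := FL.En_st_mix_le hsg hR hc hB hs h0 h1
    have h3 := gr_nonneg' (G := G) (lg := lg) (c := c) hs
    have : 0 ≤ σ * gr G lg w c / 16 := by positivity
    linarith
  it := fun c hc h => by linarith [En_nonneg c]

theorem HB_spec (hsg : SG G lg r C) (hR : Retr S ρ r' K) (hs : Small r C r' K B w) (hB : 0 ≤ B)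
    (hφ : CM.Cir X φ) (hf : Fam S X f) (hE : ∀ z ∈ X, En (oc φ f z) ≤ B) (J : ℕ) :
    Fam S (X ×ˢ (univ : Set ℝ)) (HB φ G lg ρ w J f) ∧ ∀ x ∈ X, ∀ s t,
      HB φ G lg ρ w J f (φ t x, s) = stk G lg ρ w J J (2 * s) (oc φ f x) t := by
  have hX := cir_pR hφ
  have hF := fam_fst hf
  have hS : SI (X ×ˢ (univ : Set ℝ)) (pR φ) (fun q => 2 * q.2) :=
    ⟨fun _ _ => contDiffAt_const.mul contDiffAt_snd, fun _ _ _ => rfl⟩
  have h1 := Fstk_spec (exists_ld hsg hR hs hB J) hX hF hS (fun q hq => hE _ hq.1) J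
  exact ⟨h1.1, fun x hx s t => congrFun (h1.2 (x, s) ⟨hx, mem_univ _⟩) t⟩

end fam

/-! ### the operator near `UM` -/

/-- the statement on the operator near `UM` (helper131): for families all of whose loops are
`ε`-near `UM` or of energy `≤ π - δ`. -/
def NearOp (G : Geo n N κ S) (Y : Set P) (φY : ℝ → P → P) (f1 : P → Euc N) (far : P → Prop)
    (ε δ : ℝ) (HN : ℝ → (ℝ → Euc N) → Euc N) (mu : (ℝ → Euc N) → ℝ) (Gm : (ℝ → Euc N) → P) :
    Prop :=
  ∀ (E : Type) [NormedAddCommGroup E] [NormedSpace ℝ E] [FiniteDimensional ℝ E] (X : Set E)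
    (φ : ℝ → E → E) (f : E → Euc N), CM.Cir X φ → Fam S X f →
    (∀ z ∈ X, NearUM G ε (oc φ f z) ∨ En (oc φ f z) ≤ π - δ) →
    ∃ (H : E × ℝ → Euc N) (μ : E → ℝ) (Γ : E → P), NDf X φ S Y φY f1 far f H μ Γ ∧
      (∀ z ∈ X, ∀ s, H (z, s) = HN s (oc φ f z)) ∧ (∀ z ∈ X, ∀ s ≤ 1 / 4, H (z, s) = f z) ∧
      (∀ z ∈ X, μ z = mu (oc φ f z)) ∧ (∀ z ∈ Up X μ, Γ z = Gm (oc φ f z))

/-- **natural operators bringing families of energy `≤ B` to standard form** -/
def NatOp (S : Set (Euc N)) (Y : Set P) (φY : ℝ → P → P) (f1 : P → Euc N)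
    (far : P → Prop) (B : ℝ) (HL : ℝ → (ℝ → Euc N) → Euc N) (mu : (ℝ → Euc N) → ℝ)
    (Gm : (ℝ → Euc N) → P) : Prop :=
  ∀ (E : Type) [NormedAddCommGroup E] [NormedSpace ℝ E] [FiniteDimensional ℝ E] (X : Set E)
    (φ : ℝ → E → E) (f : E → Euc N), CM.Cir X φ → Fam S X f → (∀ z ∈ X, En (oc φ f z) ≤ B) →
    ∃ (H : E × ℝ → Euc N) (μ : E → ℝ) (Γ : E → P), NDf X φ S Y φY f1 far f H μ Γ ∧
      (∀ z ∈ X, ∀ s, H (z, s) = HL s (oc φ f z)) ∧
      (∀ z ∈ X, μ z = mu (oc φ f z)) ∧ (∀ z ∈ Up X μ, Γ z = Gm (oc φ f z))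

theorem NatOp.mono {B B' : ℝ} (hBB : B ≤ B') {HL : ℝ → (ℝ → Euc N) → Euc N}
    {mu : (ℝ → Euc N) → ℝ} {Gm : (ℝ → Euc N) → P} (h : NatOp S Y φY f1 far B' HL mu Gm) :
    NatOp S Y φY f1 far B HL mu Gm :=
  fun E _ _ _ X φ f hφ hf hE => h E X φ f hφ hf fun z hz => (hE z hz).trans hBB

/-- one family -/
theorem nearOp_comp (hsg : SG G lg r C) (hR : Retr S ρ r' K) (hs : Small r C r' K B w)
    (hB : 0 ≤ B) {ε δ : ℝ}
    (hJ : ∀ c, Loop S c → En c ≤ B → NearUM G ε ((st G lg ρ w 1)^[J] c) ∨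
      En ((st G lg ρ w 1)^[J] c) ≤ π - δ)
    {HN : ℝ → (ℝ → Euc N) → Euc N} {mu : (ℝ → Euc N) → ℝ} {Gm : (ℝ → Euc N) → P}
    (hN : NearOp G Y φY f1 far ε δ HN mu Gm) :
    NatOp S Y φY f1 far B
      (fun s c => if s ≤ 1 / 2 then stk G lg ρ w J J (2 * s) c 0
        else HN (2 * s - 1) ((st G lg ρ w 1)^[J] c))
      (fun c => mu ((st G lg ρ w 1)^[J] c)) (fun c => Gm ((st G lg ρ w 1)^[J] c)) := by
  intro E _ _ _ X φ f hφ hf hE
  obtain ⟨b1, b2⟩ := HB_spec hsg hR hs hB hφ hf hE J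
  obtain ⟨i1, i2⟩ := itf_spec hsg hR hφ hf hs hE J
  set fJ := itf φ G lg ρ w J f with hfJ
  have i3 : ∀ z ∈ X, oc φ fJ z = (st G lg ρ w 1)^[J] (oc φ f z) := fun z hz => (i2 z hz).2
  obtain ⟨H₂, μ, Γ, hND, c1, c2, c3, c4⟩ := hN E X φ fJ hφ i1 fun z hz => by
    rw [i3 z hz]
    exact hJ _ (loop_oc hφ hf hz) (hE z hz)
  have hz0 : ∀ z ∈ X, ∀ s, HB φ G lg ρ w J f (z, s) = stk G lg ρ w J J (2 * s) (oc φ f z) 0 := by
    intro z hz s
    have := b2 z hz s 0
    rwa [hφ.zero z hz] at this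
  have hJ0 : ∀ z ∈ X, fJ z = ((st G lg ρ w 1)^[J] (oc φ f z)) 0 := by
    intro z hz
    have h1 := congrFun (i3 z hz) 0
    unfold oc at h1
    rwa [hφ.zero z hz] at h1
  have hB1 : ∀ z ∈ X, ∀ s ≥ 3 / 8, HB φ G lg ρ w J f (z, s) = fJ z := by
    intro z hz s hs'
    rw [hz0 z hz, hJ0 z hz, stk_one J fun i hi => kj_one hi.le (by linarith)]
  have hcat : ∀ z ∈ X, ∀ s, cat (HB φ G lg ρ w J f) H₂ (z, s) =
      if s ≤ 1 / 2 then HB φ G lg ρ w J f (z, s) else H₂ (z, 2 * s - 1) := fun z hz s =>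
    cat_eq (hB1 z hz) (c2 z hz) s
  have hconst : ∀ z ∈ X, (∀ t, f (φ t z) = f z) → ∀ t, fJ (φ t z) = f z := by
    intro z hz hc t
    have h1 := congrFun (i3 z hz) t
    have h2 : oc φ f z = fun _ => f z := funext fun t => hc t
    rw [h2] at h1
    have h3 : (st G lg ρ w 1)^[J] (fun _ => f z) = fun _ => f z := by
      have := stk_const (exists_ld hsg hR hs hB J) (hf.maps z hz) 1 J
      rwa [stk_one J fun i hi => kj_one hi.le (by norm_num)] at this
    rw [h3] at h1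
    exact h1
  have hconst' : ∀ z ∈ X, (∀ t, f (φ t z) = f z) → ∀ t, fJ (φ t z) = fJ z := by
    intro z hz hc t
    have h1 := hconst z hz hc 0
    rw [hφ.zero z hz] at h1
    rw [hconst z hz hc t, h1]
  refine ⟨cat (HB φ G lg ρ w J f) H₂, μ, Γ, ⟨⟨hf.smooth, hf.maps⟩, ⟨fun q hq => ?_, fun q hq => ?_⟩,
    fun x hx => ?_, fun x hx hc s t => ?_, hND.sμ, hND.iμ, hND.sΓ, hND.eΓ, fun x hx => ?_,
    fun x hx t => ?_, hND.far0, fun x hx hc => hND.cμ x hx (hconst' x hx hc)⟩,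
    fun z hz s => ?_, fun z hz => ?_, fun z hz => ?_⟩
  · exact contDiffAt_cat (b1.smooth _ ⟨hq.1, mem_univ _⟩) (hND.sH.smooth _ ⟨hq.1, mem_univ _⟩)
  · obtain ⟨x, s⟩ := q
    rw [hcat x hq.1]
    split_ifs
    · exact b1.maps _ ⟨hq.1, mem_univ _⟩
    · exact hND.sH.maps ⟨hq.1, mem_univ _⟩
  · rw [hcat x hx, if_pos (by norm_num), hz0 x hx, mul_zero,
      stk_zero (exists_ld hsg hR hs hB J) (loop_oc hφ hf hx) (by norm_num)]
    unfold oc
    rw [hφ.zero x hx]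
  · rw [hcat _ (hφ.maps t hx)]
    split_ifs
    · rw [b2 x hx]
      have h2 : oc φ f x = fun _ => f x := funext fun t => hc t
      rw [h2, stk_const (exists_ld hsg hR hs hB J) (hf.maps x hx)]
    · rw [hND.cH x hx (hconst' x hx hc)]
      have h1 := hconst x hx hc 0
      rwa [hφ.zero x hx] at h1
  · rw [hcat x hx.1, if_neg (by norm_num)]
    have : (2 : ℝ) * 1 - 1 = 1 := by norm_num
    rw [this]
    exact hND.H1 x hx
  · rw [hcat _ (hφ.maps t hx.1), hcat x hx.1, if_neg (by norm_num), if_neg (by norm_num)]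
    have : (2 : ℝ) * 1 - 1 = 1 := by norm_num
    rw [this]
    exact hND.H1' x hx t
  · rw [hcat z hz]
    beta_reduce
    split_ifs
    · rw [hz0 z hz]
    · rw [c1 z hz, i3 z hz]
  · rw [c3 z hz, i3 z hz]
  · rw [c4 z hz, i3 z hz.1]


end Crest.Agent.R208.EX
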