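import Crest.Agent.R208.SV5
import Crest.Agent.R208.MSDefs
import Crest.Agent.R208.MS3_Mg
import Crest.Agent.R208.NL2
import Crest.Agent.R208.NB8
import Crest.Agent.R208.CM4b
import Crest.Agent.R208.CM6b

-- ▼ part R208/FL2
section

/-!
R208, block FL (helper613), part FL2: (1) smooth scalar cut-offs; (2) the energy of the loops
`t ↦ Exp (γ t) (ε A t)` with `A` a periodic tangent field along a unit speed closed geodesic
(uniform upper bound by the index form).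
-/

set_option autoImplicit false

open Set Filter Topology MeasureTheory
open scoped ContDiff RealInnerProductSpace Real
open Crest.GeometryTopology.Submanifold
open Crest.Agent.R241.DDefs Crest.Agent.R241.D Crest.Agent.R241.D2

noncomputable section

namespace Crest.Agent.R208.FL

/-! ### scalars -/

/-- `0` for `q ≤ a`, `1` for `q ≥ a + 1/4` -/
def ct (a q : ℝ) : ℝ := Real.smoothTransition (4 * (q - a))

theorem contDiff_ct (a : ℝ) : ContDiff ℝ ∞ (ct a) := by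
  unfold ct
  exact Real.smoothTransition.contDiff.comp (by fun_prop)

theorem ct_zero {a q : ℝ} (h : q ≤ a) : ct a q = 0 :=
  Real.smoothTransition.zero_of_nonpos (by linarith)

theorem ct_one {a q : ℝ} (h : a + 1 / 4 ≤ q) : ct a q = 1 :=
  Real.smoothTransition.one_of_one_le (by linarith)

theorem ct_nonneg (a q : ℝ) : 0 ≤ ct a q := Real.smoothTransition.nonneg _

theorem ct_le_one (a q : ℝ) : ct a q ≤ 1 := Real.smoothTransition.le_one _

/-- `1` for `q ≤ 1`, `1 / √q` for `q ≥ 5/4` -/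
def lam (q : ℝ) : ℝ := 1 + ct 1 q * ((√q)⁻¹ - 1)







/-! ### energy near a closed geodesic -/

variable {n N : ℕ} {κ : ℝ} {S : Set (Euc N)} {G : Geo n N κ S}

open Crest.Agent.R208.SV



end Crest.Agent.R208.FL
end
end

-- ▼ part R208/FL3
section

/-!
R208, block FL (helper613), part FL3: the energy of the loops `t ↦ ρ (γ t + s A t)` with `A` a
periodic tangent field along a unit speed closed geodesic and `ρ` a retraction with orthogonal
derivative along `S`: uniform upper bound by the index form, up to third order.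
-/

set_option autoImplicit false

open Set Filter Topology MeasureTheory
open scoped ContDiff RealInnerProductSpace Real
open Crest.GeometryTopology.Submanifold
open Crest.Agent.R241.DDefs Crest.Agent.R241.D Crest.Agent.R241.D2

noncomputable section

namespace Crest.Agent.R208.FL

open Crest.Agent.R208.SV Crest.Agent.R208.MS
open Crest.Agent.R208.L (TanTS dfl)

section taylor

variable {H : Type*} [NormedAddCommGroup H] [NormedSpace ℝ H]

theorem mvtH {f f' : ℝ → H} {C s : ℝ} (hs : 0 ≤ s)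
    (hf : ∀ r ∈ Icc 0 s, HasDerivAt f (f' r) r) (hb : ∀ r ∈ Icc 0 s, ‖f' r‖ ≤ C) :
    ‖f s - f 0‖ ≤ C * s := by
  have h := norm_image_sub_le_of_norm_deriv_le_segment' (f := f) (f' := f') (C := C) (a := 0)
    (b := s) (fun x hx => (hf x hx).hasDerivWithinAt)
    (fun x hx => hb x ⟨hx.1, hx.2.le⟩) s ⟨hs, le_rfl⟩
  simpa using h

/-- uniform first order Taylor estimate -/
theorem taylor1 {Z : Type*} [NormedAddCommGroup Z] [NormedSpace ℝ Z] {K : Set Z}
    (hK : IsCompact K) {g0 g1 : Z × ℝ → H}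
    (h1 : ∀ z ∈ K, ∀ s ∈ Icc (0 : ℝ) 1, HasDerivAt (fun s => g0 (z, s)) (g1 (z, s)) s)
    (h3 : ∀ z ∈ K, ∀ s ∈ Icc (0 : ℝ) 1, ContDiffAt ℝ 1 g1 (z, s)) :
    ∃ C, 0 ≤ C ∧ ∀ z ∈ K, ∀ s ∈ Icc (0 : ℝ) 1,
      ‖g0 (z, s) - g0 (z, 0) - s • g1 (z, 0)‖ ≤ C * s ^ 2 := by
  have hcont : ContinuousOn (fun p => fderiv ℝ g1 p (0, 1)) (K ×ˢ Icc (0 : ℝ) 1) := by
    rintro ⟨z, s⟩ ⟨hz, hs⟩
    have h4 : ContDiffAt ℝ 0 (fderiv ℝ g1) (z, s) := (h3 z hz s hs).fderiv_right (by norm_num)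
    exact (h4.continuousAt.clm_apply continuousAt_const).continuousWithinAt
  obtain ⟨C, hC⟩ := (hK.prod isCompact_Icc).exists_bound_of_continuousOn hcont
  refine ⟨max C 0, le_max_right _ _, ?_⟩
  intro z hz s hs
  have hsub : ∀ r ∈ Icc 0 s, r ∈ Icc (0 : ℝ) 1 := fun r hr => ⟨hr.1, hr.2.trans hs.2⟩
  have e2 : ∀ r ∈ Icc (0 : ℝ) 1, HasDerivAt (fun s => g1 (z, s)) (fderiv ℝ g1 (z, r) (0, 1)) r := by
    intro r hr
    have h5 := ((h3 z hz r hr).differentiableAt (by norm_num)).hasFDerivAt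
    have h6 : HasDerivAt (fun s : ℝ => ((z, s) : Z × ℝ)) (0, 1) r :=
      (hasDerivAt_const r z).prodMk (hasDerivAt_id r)
    exact HasFDerivAt.comp_hasDerivAt (f := fun s : ℝ => ((z, s) : Z × ℝ)) r h5 h6
  have b2 : ∀ r ∈ Icc (0 : ℝ) 1, ‖g1 (z, r) - g1 (z, 0)‖ ≤ max C 0 * r := by
    intro r hr
    refine mvtH (f := fun s => g1 (z, s)) hr.1 (fun r' hr' => e2 r' ⟨hr'.1, hr'.2.trans hr.2⟩)
      fun r' hr' => ?_
    exact (hC (z, r') ⟨hz, hr'.1, hr'.2.trans hr.2⟩).trans (le_max_left _ _)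
  have b1 := mvtH (f := fun s => g0 (z, s) - s • g1 (z, 0))
      (f' := fun s => g1 (z, s) - g1 (z, 0))
      (C := max C 0 * s) hs.1 (fun r' hr' => ?_) fun r' hr' => ?_
  · simp only [zero_smul, sub_zero] at b1
    rw [sub_right_comm] at b1
    refine b1.trans (le_of_eq ?_)
    ring
  · have h7 := h1 z hz r' ⟨hr'.1, hr'.2.trans hs.2⟩
    have h8 : HasDerivAt (fun s : ℝ => s • g1 (z, 0)) (g1 (z, 0)) r' := by
      simpa using (hasDerivAt_id r').smul_const (g1 (z, 0))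
    exact h7.fun_sub h8
  · refine (b2 r' ⟨hr'.1, hr'.2.trans hs.2⟩).trans ?_
    exact mul_le_mul_of_nonneg_left hr'.2 (le_max_right _ _)

end taylor

variable {n N : ℕ} {κ : ℝ} {S : Set (Euc N)} {G : Geo n N κ S} {ρ : Euc N → Euc N} {r' K : ℝ}

section rho

variable (hR : Retr S ρ r' K) (hP : ∀ x ∈ S, fderiv ℝ ρ x = G.P x)

include hR in
theorem contDiffAt_fderiv_rho {x a : Euc N} (hx : x ∈ S) (ha : ‖a‖ < r') :
    ContDiffAt ℝ ∞ (fderiv ℝ ρ) (x + a) :=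
  (hR.smooth x hx (x + a) (by rwa [add_sub_cancel_left])).fderiv_right (by simp)

include hR hP in
/-- second derivative of `ρ` along `S` in tangent directions -/
theorem fderiv2_rho {x v : Euc N} (hx : x ∈ S) (hv : v ∈ G.T x) :
    fderiv ℝ (fderiv ℝ ρ) x v = fderiv ℝ G.P x v := by
  obtain ⟨c, c', hc0, hc'0, hev⟩ := G.exists_geod x hx v hv
  have h0 := hev.self_of_nhds
  have hcd : HasDerivAt c v 0 := hc'0 ▸ h0.2.1
  have h1 : HasFDerivAt (fderiv ℝ ρ) (fderiv ℝ (fderiv ℝ ρ) x) (c 0) := by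
    rw [hc0]
    have h2 := contDiffAt_fderiv_rho hR hx (a := 0) (by rw [norm_zero]; exact hR.r_pos)
    rw [add_zero] at h2
    exact (h2.differentiableAt (by simp)).hasFDerivAt
  have h3 : HasDerivAt (fun t => fderiv ℝ ρ (c t)) (fderiv ℝ (fderiv ℝ ρ) x v) 0 :=
    h1.comp_hasDerivAt (0:ℝ) hcd
  have h4 : HasFDerivAt G.P (fderiv ℝ G.P x) (c 0) := by
    rw [hc0]
    exact (differentiable_P G x).hasFDerivAt
  have h5 : HasDerivAt (fun t => G.P (c t)) (fderiv ℝ G.P x v) 0 := h4.comp_hasDerivAt (0:ℝ) hcd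
  have h6 : HasDerivAt (fun t => fderiv ℝ ρ (c t)) (fderiv ℝ G.P x v) 0 := by
    refine h5.congr_of_eventuallyEq ?_
    filter_upwards [hev] with t ht
    exact hP _ ht.1
  exact h3.unique h6

/-- the compact set of the estimates -/
def KR (G : Geo n N κ S) (m : ℝ) : Set ((Euc N × Euc N) × (Euc N × Euc N)) :=
  {p | (p.1 ∈ TS G ∧ ‖p.1.2‖ ≤ m) ∧ ((p.1.1, p.2.1) ∈ TS G ∧ ‖p.2.1‖ ≤ 1) ∧ ‖p.2.2‖ ≤ m}

theorem isCompact_KR (hc : IsCompact S) (m : ℝ) : IsCompact (KR G m) := by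
  have h1 : IsCompact ((S ×ˢ Metric.closedBall (0 : Euc N) m) ×ˢ
      (Metric.closedBall (0 : Euc N) 1 ×ˢ Metric.closedBall (0 : Euc N) m)) :=
    (hc.prod (isCompact_closedBall _ _)).prod
      ((isCompact_closedBall _ _).prod (isCompact_closedBall _ _))
  refine h1.of_isClosed_subset ?_ ?_
  · have h2 := isClosed_TS G
    have h3 : IsClosed {p : (Euc N × Euc N) × (Euc N × Euc N) | p.1 ∈ TS G} :=
      h2.preimage continuous_fst
    have h4 : IsClosed {p : (Euc N × Euc N) × (Euc N × Euc N) | ‖p.1.2‖ ≤ m} :=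
      isClosed_le (continuous_fst.snd.norm) continuous_const
    have h5 : IsClosed {p : (Euc N × Euc N) × (Euc N × Euc N) | (p.1.1, p.2.1) ∈ TS G} :=
      h2.preimage (continuous_fst.fst.prodMk continuous_snd.fst)
    have h6 : IsClosed {p : (Euc N × Euc N) × (Euc N × Euc N) | ‖p.2.1‖ ≤ 1} :=
      isClosed_le (continuous_snd.fst.norm) continuous_const
    have h7 : IsClosed {p : (Euc N × Euc N) × (Euc N × Euc N) | ‖p.2.2‖ ≤ m} :=
      isClosed_le (continuous_snd.snd.norm) continuous_const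
    exact (h3.inter h4).inter ((h5.inter h6).inter h7)
  · rintro ⟨⟨x, a⟩, y, b⟩ ⟨⟨h3, h4⟩, ⟨h5, h6⟩, h7⟩
    exact ⟨⟨h3.1, by simpa using h4⟩, by simpa using h6, by simpa using h7⟩

include hR in
theorem hasDerivAt_rho_line {x a : Euc N} (hx : x ∈ S) (ha : ‖a‖ < r') {s : ℝ}
    (hs : s ∈ Icc (0:ℝ) 1) : HasDerivAt (fun s : ℝ => ρ (x + s • a)) (fderiv ℝ ρ (x + s • a) a) s := by
  have h1 : ‖s • a‖ < r' := by
    rw [norm_smul, Real.norm_of_nonneg hs.1]
    exact (mul_le_of_le_one_left (norm_nonneg _) hs.2).trans_lt ha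
  have h2 := (hR.smooth x hx (x + s • a) (by rwa [add_sub_cancel_left])).differentiableAt (by simp)
  have h3 : HasDerivAt (fun s : ℝ => x + s • a) a s := by
    simpa using ((hasDerivAt_id s).smul_const a).const_add x
  exact h2.hasFDerivAt.comp_hasDerivAt s h3

include hR hP in
/-- second order expansion of `ρ` against the acceleration of a geodesic -/
theorem exists_T1 (hc : IsCompact S) {m : ℝ} (hm : m < r') : ∃ C, 0 ≤ C ∧
    ∀ p ∈ KR G m, ∀ s ∈ Icc (0:ℝ) 1,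
      |⟪II G p.1.1 p.2.1 p.2.1, ρ (p.1.1 + s • p.1.2) - p.1.1⟫ -
        s ^ 2 / 2 * ⟪II G p.1.1 p.2.1 p.2.1, II G p.1.1 p.1.2 p.1.2⟫| ≤ C * s ^ 3 := by
  have hsm : ∀ p ∈ KR G m, ∀ s ∈ Icc (0:ℝ) 1, ‖s • p.1.2‖ < r' := by
    intro p hp s hs
    rw [norm_smul, Real.norm_of_nonneg hs.1]
    exact (mul_le_of_le_one_left (norm_nonneg _) hs.2).trans_lt (hp.1.2.trans_lt hm)
  have hline : ∀ (p : (Euc N × Euc N) × (Euc N × Euc N)) (s : ℝ), ContDiffAt ℝ ∞
      (fun q : ((Euc N × Euc N) × (Euc N × Euc N)) × ℝ => q.1.1.1 + q.2 • q.1.1.2) (p, s) := by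
    intro p s
    fun_prop
  have hII : ContDiff ℝ ∞ (fun q : ((Euc N × Euc N) × (Euc N × Euc N)) × ℝ =>
      II G q.1.1.1 q.1.2.1 q.1.2.1) := by
    have h1 : ContDiff ℝ ∞ (fderiv ℝ G.P) := G.contDiff_P.fderiv_right (by simp)
    exact ((h1.comp (by fun_prop)).clm_apply (by fun_prop)).clm_apply (by fun_prop)
  have key := taylor2 (K := KR G m) (isCompact_KR hc m)
    (g0 := fun q => ⟪II G q.1.1.1 q.1.2.1 q.1.2.1, ρ (q.1.1.1 + q.2 • q.1.1.2)⟫)
    (g1 := fun q => ⟪II G q.1.1.1 q.1.2.1 q.1.2.1,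
      fderiv ℝ ρ (q.1.1.1 + q.2 • q.1.1.2) q.1.1.2⟫)
    (g2 := fun q => ⟪II G q.1.1.1 q.1.2.1 q.1.2.1,
      fderiv ℝ (fderiv ℝ ρ) (q.1.1.1 + q.2 • q.1.1.2) q.1.1.2 q.1.1.2⟫) ?_ ?_ ?_
  · obtain ⟨C, hC0, hC⟩ := key
    refine ⟨C, hC0, fun p hp s hs => ?_⟩
    have h1 := hC p hp s hs
    simp only [zero_smul, add_zero] at h1
    rw [hR.eq _ hp.1.1.1, hP _ hp.1.1.1, (P_eq_self G hp.1.1.1).1 hp.1.1.2,
      fderiv2_rho hR hP hp.1.1.1 hp.1.1.2, inner_II G hp.1.1.1 hp.2.1.1.2 hp.2.1.1.2 hp.1.1.2,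
      mul_zero, sub_zero, ← inner_sub_right] at h1
    exact h1
  · intro p hp s hs
    have h1 := hasDerivAt_rho_line hR hp.1.1.1 (hp.1.2.trans_lt hm) hs
    have h2 := (hasDerivAt_const s (II G p.1.1 p.2.1 p.2.1)).inner ℝ h1
    simpa using h2
  · intro p hp s hs
    have h0 := contDiffAt_fderiv_rho hR hp.1.1.1 (hsm p hp s hs)
    have h1 : HasDerivAt (fun s : ℝ => p.1.1 + s • p.1.2) p.1.2 s := by
      simpa using ((hasDerivAt_id s).smul_const p.1.2).const_add p.1.1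
    have h2 : HasDerivAt (fun s : ℝ => fderiv ℝ ρ (p.1.1 + s • p.1.2))
        (fderiv ℝ (fderiv ℝ ρ) (p.1.1 + s • p.1.2) p.1.2) s :=
      (h0.differentiableAt (by simp)).hasFDerivAt.comp_hasDerivAt s h1
    have h3 := h2.clm_apply (hasDerivAt_const s p.1.2)
    have h4 := (hasDerivAt_const s (II G p.1.1 p.2.1 p.2.1)).inner ℝ h3
    simpa using h4
  · intro p hp s hs
    have h0 := contDiffAt_fderiv_rho hR hp.1.1.1 (hsm p hp s hs)
    have h1 : ContDiffAt ℝ ∞ (fderiv ℝ (fderiv ℝ ρ)) (p.1.1 + s • p.1.2) :=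
      h0.fderiv_right (by simp)
    have h2 : ContDiffAt ℝ ∞ (fun q : ((Euc N × Euc N) × (Euc N × Euc N)) × ℝ =>
        fderiv ℝ (fderiv ℝ ρ) (q.1.1.1 + q.2 • q.1.1.2)) (p, s) :=
      ContDiffAt.comp (p, s) (g := fderiv ℝ (fderiv ℝ ρ)) h1 (hline p s)
    have h3 : ContDiffAt ℝ ∞ (fun q : ((Euc N × Euc N) × (Euc N × Euc N)) × ℝ => q.1.1.2)
      (p, s) := by fun_prop
    exact (hII.contDiffAt.inner ℝ ((h2.clm_apply h3).clm_apply h3)).of_le (by simp)

include hR hP in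
/-- first order expansion of the velocity -/
theorem exists_T2 (hc : IsCompact S) {m : ℝ} (hm : m < r') : ∃ C, 0 ≤ C ∧
    ∀ p ∈ KR G m, TanTS G p.1 p.2 → ∀ s ∈ Icc (0:ℝ) 1,
      ‖fderiv ℝ ρ (p.1.1 + s • p.1.2) (p.2.1 + s • p.2.2) - p.2.1 - s • p.2.2‖ ≤ C * s ^ 2 := by
  have hsm : ∀ p ∈ KR G m, ∀ s ∈ Icc (0:ℝ) 1, ‖s • p.1.2‖ < r' := by
    intro p hp s hs
    rw [norm_smul, Real.norm_of_nonneg hs.1]
    exact (mul_le_of_le_one_left (norm_nonneg _) hs.2).trans_lt (hp.1.2.trans_lt hm)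
  have hline : ∀ (p : (Euc N × Euc N) × (Euc N × Euc N)) (s : ℝ), ContDiffAt ℝ ∞
      (fun q : ((Euc N × Euc N) × (Euc N × Euc N)) × ℝ => q.1.1.1 + q.2 • q.1.1.2) (p, s) := by
    intro p s
    fun_prop
  have key := taylor1 (K := KR G m) (isCompact_KR hc m)
    (g0 := fun q => fderiv ℝ ρ (q.1.1.1 + q.2 • q.1.1.2) (q.1.2.1 + q.2 • q.1.2.2))
    (g1 := fun q => fderiv ℝ (fderiv ℝ ρ) (q.1.1.1 + q.2 • q.1.1.2) q.1.1.2
        (q.1.2.1 + q.2 • q.1.2.2) + fderiv ℝ ρ (q.1.1.1 + q.2 • q.1.1.2) q.1.2.2) ?_ ?_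
  · obtain ⟨C, hC0, hC⟩ := key
    refine ⟨C, hC0, fun p hp ht s hs => ?_⟩
    have h1 := hC p hp s hs
    simp only [zero_smul, add_zero] at h1
    have h2 : fderiv ℝ (fderiv ℝ ρ) p.1.1 p.1.2 p.2.1 + fderiv ℝ ρ p.1.1 p.2.2 = p.2.2 := by
      rw [hP _ hp.1.1.1, fderiv2_rho hR hP hp.1.1.1 hp.1.1.2]
      have h3 := snd_eq ht
      have h4 : II G p.1.1 p.1.2 p.2.1 = fderiv ℝ G.P p.1.1 p.1.2 p.2.1 := rfl
      rw [h4] at h3
      rw [add_comm]
      exact h3.symm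
    rw [h2, hP _ hp.1.1.1, (P_eq_self G hp.1.1.1).1 hp.2.1.1.2] at h1
    exact h1
  · intro p hp s hs
    have h0 := contDiffAt_fderiv_rho hR hp.1.1.1 (hsm p hp s hs)
    have h1 : HasDerivAt (fun s : ℝ => p.1.1 + s • p.1.2) p.1.2 s := by
      simpa using ((hasDerivAt_id s).smul_const p.1.2).const_add p.1.1
    have h1' : HasDerivAt (fun s : ℝ => p.2.1 + s • p.2.2) p.2.2 s := by
      simpa using ((hasDerivAt_id s).smul_const p.2.2).const_add p.2.1
    have h2 : HasDerivAt (fun s : ℝ => fderiv ℝ ρ (p.1.1 + s • p.1.2))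
        (fderiv ℝ (fderiv ℝ ρ) (p.1.1 + s • p.1.2) p.1.2) s :=
      (h0.differentiableAt (by simp)).hasFDerivAt.comp_hasDerivAt s h1
    exact h2.clm_apply h1'
  · intro p hp s hs
    have h0 := contDiffAt_fderiv_rho hR hp.1.1.1 (hsm p hp s hs)
    have h1 : ContDiffAt ℝ ∞ (fderiv ℝ (fderiv ℝ ρ)) (p.1.1 + s • p.1.2) :=
      h0.fderiv_right (by simp)
    have h2 : ContDiffAt ℝ ∞ (fun q : ((Euc N × Euc N) × (Euc N × Euc N)) × ℝ =>
        fderiv ℝ (fderiv ℝ ρ) (q.1.1.1 + q.2 • q.1.1.2)) (p, s) :=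
      ContDiffAt.comp (p, s) (g := fderiv ℝ (fderiv ℝ ρ)) h1 (hline p s)
    have h2' : ContDiffAt ℝ ∞ (fun q : ((Euc N × Euc N) × (Euc N × Euc N)) × ℝ =>
        fderiv ℝ ρ (q.1.1.1 + q.2 • q.1.1.2)) (p, s) :=
      ContDiffAt.comp (p, s) (g := fderiv ℝ ρ) h0 (hline p s)
    have h3 : ContDiffAt ℝ ∞ (fun q : ((Euc N × Euc N) × (Euc N × Euc N)) × ℝ => q.1.1.2)
      (p, s) := by fun_prop
    have h4 : ContDiffAt ℝ ∞ (fun q : ((Euc N × Euc N) × (Euc N × Euc N)) × ℝ =>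
      q.1.2.1 + q.2 • q.1.2.2) (p, s) := by fun_prop
    have h5 : ContDiffAt ℝ ∞ (fun q : ((Euc N × Euc N) × (Euc N × Euc N)) × ℝ => q.1.2.2)
      (p, s) := by fun_prop
    exact (((h2.clm_apply h3).clm_apply h4).add (h2'.clm_apply h5)).of_le (by simp)

include hR in
theorem hasDerivAt_rho_cv {z : Euc N × Euc N} (hz : z ∈ TS G) {a b : ℝ} {A A' : ℝ → Euc N}
    (hA : Fld G z a b A A') {t s : ℝ} (ht : t ∈ Ioo a b) (hs : ‖s • A t‖ < r') :
    HasDerivAt (fun t => ρ ((fl G (z, t)).1 + s • A t))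
      (fderiv ℝ ρ ((fl G (z, t)).1 + s • A t) ((fl G (z, t)).2 + s • A' t)) t := by
  have h1 : HasDerivAt (fun t => (fl G (z, t)).1) (fl G (z, t)).2 t :=
    hda_fst (hasDerivAt_fl G (complete G hz t))
  have h2 := (hA.der t ⟨ht.1.le, ht.2.le⟩).hasDerivAt (Icc_mem_nhds ht.1 ht.2)
  have h3 : HasDerivAt (fun t => (fl G (z, t)).1 + s • A t) ((fl G (z, t)).2 + s • A' t) t :=
    h1.add (h2.const_smul s)
  have h4 := (hR.smooth _ (fl_mem G hz t).1 ((fl G (z, t)).1 + s • A t)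
    (by rwa [add_sub_cancel_left])).differentiableAt (by simp)
  exact h4.hasFDerivAt.comp_hasDerivAt t h3

include hR hP in
/-- **uniform energy bound**, normalised fields -/
theorem exists_rho_core (hc : IsCompact S) {m : ℝ} (hm0 : 0 ≤ m) (hm : m < r') : ∃ C, 0 ≤ C ∧
    ∀ z ∈ TS G, ‖z.2‖ = 1 → ∀ (L : ℝ) (A A' : ℝ → Euc N), Fld G z (-1) (L + 1) A A' → 0 ≤ L →
      fl G (z, L) = z → A L = A 0 → (∀ t ∈ Icc 0 L, ‖A t‖ ≤ m) → (∀ t ∈ Icc 0 L, ‖A' t‖ ≤ m) →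
      ∀ s ∈ Icc (0:ℝ) 1,
        ∫ t in (0:ℝ)..L, ‖deriv (fun t => ρ ((fl G (z, t)).1 + s • A t)) t‖ ^ 2 ≤
          L + s ^ 2 * ix G z 0 L A A' A A' + C * s ^ 3 * L := by
  obtain ⟨C₁, hC₁0, hC₁⟩ := exists_T1 hR hP hc hm
  obtain ⟨C₂, hC₂0, hC₂⟩ := exists_T2 hR hP hc hm
  refine ⟨2 * C₁ + 2 * m * C₂ + C₂ ^ 2, by positivity, ?_⟩
  intro z hz hz1 L A A' hA hL hfl hper hAm hA'm s hs
  have hA0 : Fld G z 0 L A A' := hA.mono (Icc_subset_Icc (by norm_num) (by linarith))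
  have hio : ∀ t ∈ Icc 0 L, t ∈ Ioo (-1) (L + 1) := fun t ht => ⟨by linarith [ht.1], by linarith [ht.2]⟩
  have hsA : ∀ t ∈ Icc 0 L, ‖s • A t‖ < r' := by
    intro t ht
    rw [norm_smul, Real.norm_of_nonneg hs.1]
    exact (mul_le_of_le_one_left (norm_nonneg _) hs.2).trans_lt ((hAm t ht).trans_lt hm)
  set F : ℝ → Euc N := fun t => ρ ((fl G (z, t)).1 + s • A t) with hF
  set F' : ℝ → Euc N := fun t =>
    fderiv ℝ ρ ((fl G (z, t)).1 + s • A t) ((fl G (z, t)).2 + s • A' t) with hF'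
  have hFd : ∀ t ∈ Icc 0 L, HasDerivAt F (F' t) t := fun t ht =>
    hasDerivAt_rho_cv hR hz hA (hio t ht) (hsA t ht)
  have hγc : Continuous (fun t => fl G (z, t)) := continuous_fl hz
  have hγd : ∀ t, HasDerivAt (fun t => (fl G (z, t)).1) (fl G (z, t)).2 t := fun t =>
    hda_fst (hasDerivAt_fl G (complete G hz t))
  have hγd2 : ∀ t, HasDerivAt (fun t => (fl G (z, t)).2) (X G (fl G (z, t))).2 t := fun t =>
    hda_snd (hasDerivAt_fl G (complete G hz t))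
  have hFc : ContinuousOn F (Icc 0 L) := fun t ht => (hFd t ht).continuousAt.continuousWithinAt
  have hF'c : ContinuousOn F' (Icc 0 L) := by
    intro t ht
    have h1 := contDiffAt_fderiv_rho hR (fl_mem G hz t).1 (hsA t ht)
    have h2 : ContinuousWithinAt (fun t => (fl G (z, t)).1 + s • A t) (Icc 0 L) t :=
      (hγc.fst.continuousWithinAt).add ((hA0.contX t ht).const_smul s)
    have h3 : ContinuousWithinAt (fun t => (fl G (z, t)).2 + s • A' t) (Icc 0 L) t :=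
      (hγc.snd.continuousWithinAt).add ((hA0.cont t ht).const_smul s)
    have h4 : ContinuousWithinAt (fun t => fderiv ℝ ρ ((fl G (z, t)).1 + s • A t)) (Icc 0 L) t :=
      ContinuousAt.comp_continuousWithinAt (g := fderiv ℝ ρ)
        (f := fun t => (fl G (z, t)).1 + s • A t) h1.continuousAt h2
    exact h4.clm_apply h3
  have hXc : Continuous (fun t => (X G (fl G (z, t))).2) :=
    ((contDiff_X G).continuous.comp hγc).snd
  -- the derivative in the statement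
  have e0 : ∫ t in (0:ℝ)..L, ‖deriv F t‖ ^ 2 = ∫ t in (0:ℝ)..L, ‖F' t‖ ^ 2 := by
    refine intervalIntegral.integral_congr fun t ht => ?_
    rw [uIcc_of_le hL] at ht
    simp only [(hFd t ht).deriv]
  rw [e0]
  -- integration by parts
  have hparts : ∫ t in (0:ℝ)..L, (⟪(fl G (z, t)).2, F' t - (fl G (z, t)).2⟫ +
      ⟪(X G (fl G (z, t))).2, F t - (fl G (z, t)).1⟫) = 0 := by
    have h1 : ∀ t ∈ Ioo 0 L, HasDerivAt (fun t => ⟪(fl G (z, t)).2, F t - (fl G (z, t)).1⟫)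
        (⟪(fl G (z, t)).2, F' t - (fl G (z, t)).2⟫ +
          ⟪(X G (fl G (z, t))).2, F t - (fl G (z, t)).1⟫) t := by
      intro t ht
      exact (hγd2 t).inner ℝ ((hFd t ⟨ht.1.le, ht.2.le⟩).sub (hγd t))
    have h2 : ContinuousOn (fun t => ⟪(fl G (z, t)).2, F t - (fl G (z, t)).1⟫) (Icc 0 L) :=
      hγc.snd.continuousOn.inner (hFc.sub hγc.fst.continuousOn)
    rw [intervalIntegral.integral_eq_sub_of_hasDerivAt_of_le hL h2 h1 ?_]
    · have h3 : F L = F 0 := by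
        simp only [hF]
        rw [hfl, hper, fl_zero]
      rw [h3, hfl, fl_zero, sub_self]
    · apply ContinuousOn.intervalIntegrable
      rw [uIcc_of_le hL]
      exact (hγc.snd.continuousOn.inner (hF'c.sub hγc.snd.continuousOn)).add
        (hXc.continuousOn.inner (hFc.sub hγc.fst.continuousOn))
  -- pointwise
  have hpt : ∀ t ∈ Icc 0 L, ‖F' t‖ ^ 2 ≤ (1 + s ^ 2 * ixd G z A A' A A' t +
      (2 * C₁ + 2 * m * C₂ + C₂ ^ 2) * s ^ 3) +
        2 * (⟪(fl G (z, t)).2, F' t - (fl G (z, t)).2⟫ +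
          ⟪(X G (fl G (z, t))).2, F t - (fl G (z, t)).1⟫) := by
    intro t ht
    have hft := fl_mem G hz t
    have htan : TanTS G ((fl G (z, t)).1, A t) ((fl G (z, t)).2, A' t) :=
      hA.tanTS hz (by linarith) ⟨(hio t ht).1.le, (hio t ht).2.le⟩
    have hy1 : ‖(fl G (z, t)).2‖ = 1 := by rw [norm_fl G hz, hz1]
    have hp : (((fl G (z, t)).1, A t), ((fl G (z, t)).2, A' t)) ∈ KR G m :=
      ⟨⟨⟨hft.1, hA0.mem t ht⟩, hAm t ht⟩, ⟨hft, hy1.le⟩, hA'm t ht⟩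
    have h1 := hC₁ _ hp s hs
    have h2 := hC₂ _ hp htan s hs
    simp only at h1 h2
    have hX : II G (fl G (z, t)).1 (fl G (z, t)).2 (fl G (z, t)).2 = (X G (fl G (z, t))).2 := rfl
    rw [hX] at h1
    have h3 : ‖F' t - (fl G (z, t)).2‖ ≤ s * ‖A' t‖ + C₂ * s ^ 2 := by
      have h4 : F' t - (fl G (z, t)).2 = s • A' t + (F' t - (fl G (z, t)).2 - s • A' t) := by abel
      rw [h4]
      refine (norm_add_le _ _).trans ?_
      rw [norm_smul, Real.norm_of_nonneg hs.1]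
      exact add_le_add le_rfl h2
    have h5 : ‖F' t - (fl G (z, t)).2‖ ^ 2 ≤ (s * ‖A' t‖ + C₂ * s ^ 2) ^ 2 :=
      pow_le_pow_left₀ (norm_nonneg _) h3 2
    have h6 : ‖F' t‖ ^ 2 = 1 + 2 * ⟪(fl G (z, t)).2, F' t - (fl G (z, t)).2⟫ +
        ‖F' t - (fl G (z, t)).2‖ ^ 2 := by
      have h7 : F' t = (fl G (z, t)).2 + (F' t - (fl G (z, t)).2) := by abel
      conv_lhs => rw [h7, norm_add_sq_real, hy1]
      ring
    have h8 : (s * ‖A' t‖ + C₂ * s ^ 2) ^ 2 ≤ s ^ 2 * ‖A' t‖ ^ 2 +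
        (2 * m * C₂ + C₂ ^ 2) * s ^ 3 := by
      have h9 := hA'm t ht
      have h10 : s ^ 3 * ‖A' t‖ ≤ s ^ 3 * m := mul_le_mul_of_nonneg_left h9 (pow_nonneg hs.1 3)
      have h11 : s ^ 4 ≤ s ^ 3 := by
        have : s ^ 4 = s ^ 3 * s := by ring
        rw [this]
        exact mul_le_of_le_one_right (pow_nonneg hs.1 3) hs.2
      have h12 : C₂ ^ 2 * s ^ 4 ≤ C₂ ^ 2 * s ^ 3 := mul_le_mul_of_nonneg_left h11 (by positivity)
      nlinarith
    have h13 := (abs_le.1 h1).1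
    have h14 : ixd G z A A' A A' t = ‖A' t‖ ^ 2 -
        ⟪(X G (fl G (z, t))).2, II G (fl G (z, t)).1 (A t) (A t)⟫ := by
      unfold ixd
      rw [real_inner_self_eq_norm_sq]
    rw [h6, h14]
    have h15 : ⟪(X G (fl G (z, t))).2, F t - (fl G (z, t)).1⟫ =
      ⟪(X G (fl G (z, t))).2, ρ ((fl G (z, t)).1 + s • A t) - (fl G (z, t)).1⟫ := rfl
    rw [h15]
    nlinarith
  have i1 : IntervalIntegrable (fun t => ‖F' t‖ ^ 2) volume 0 L := by
    apply ContinuousOn.intervalIntegrable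
    rw [uIcc_of_le hL]
    exact hF'c.norm.pow 2
  have i2 := hA0.intble hz hL hA0
  have i3 : IntervalIntegrable (fun t => ⟪(fl G (z, t)).2, F' t - (fl G (z, t)).2⟫ +
      ⟪(X G (fl G (z, t))).2, F t - (fl G (z, t)).1⟫) volume 0 L := by
    apply ContinuousOn.intervalIntegrable
    rw [uIcc_of_le hL]
    exact (hγc.snd.continuousOn.inner (hF'c.sub hγc.snd.continuousOn)).add
      (hXc.continuousOn.inner (hFc.sub hγc.fst.continuousOn))
  have i4 : IntervalIntegrable (fun t => 1 + s ^ 2 * ixd G z A A' A A' t +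
      (2 * C₁ + 2 * m * C₂ + C₂ ^ 2) * s ^ 3) volume 0 L :=
    (intervalIntegrable_const.add (i2.const_mul _)).add intervalIntegrable_const
  have hint := intervalIntegral.integral_mono_on hL i1 (i4.add (i3.const_mul 2)) hpt
  rw [intervalIntegral.integral_add i4 (i3.const_mul 2), intervalIntegral.integral_const_mul 2,
    hparts, mul_zero, add_zero,
    intervalIntegral.integral_add (intervalIntegrable_const.add (i2.const_mul _))
      intervalIntegrable_const,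
    intervalIntegral.integral_add intervalIntegrable_const (i2.const_mul _),
    intervalIntegral.integral_const_mul, intervalIntegral.integral_const,
    intervalIntegral.integral_const] at hint
  simp only [sub_zero, smul_eq_mul, mul_one] at hint
  refine hint.trans (le_of_eq ?_)
  unfold ix
  ring

end rho

end Crest.Agent.R208.FL
end
end

-- ▼ part R208/FL4

/-!
R208, block FL (helper613), part FL4: `exists_LD` (data of the natural contraction below `π`), the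
representation `Rt (nuP K)`, scalars, and the energies of the level one family near the zero
section.
-/

set_option autoImplicit false

open Set Filter Topology MeasureTheory
open scoped ContDiff RealInnerProductSpace Real
open Crest.GeometryTopology.Submanifold
open Crest.Agent.R241.DDefs Crest.Agent.R241.D Crest.Agent.R241.D2

noncomputable section

namespace Crest.Agent.R208.FL

open Crest.Agent.R208.SV Crest.Agent.R208.MS Crest.Agent.R208.NN

variable {n N K k : ℕ} {κ : ℝ} {S : Set (Euc N)} {G : Geo n N κ S} {lg : Euc N → Euc N → Euc N}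
  {ρ : Euc N → Euc N} {r C r' Kr B w : ℝ}

/-- **the data of the natural contraction exist** for every level `E₀ < π` -/
theorem exists_LD (hB : Bl n N κ S G π) (hper : HS.Per G) (hsg : SG G lg r C)
    (hR : Retr S ρ r' Kr) (hB4 : B < 4 * π) (hs : Small r C r' Kr B w) {E₀ η : ℝ} (h0 : E₀ < π)
    (hE₀B : E₀ ≤ B) (hη : 0 < η) (h2 : NL.Sm2 r' Kr η) :
    ∃ J, ∀ J', J ≤ J' → NL.LD G lg ρ w J' r C r' Kr B E₀ η := by
  have hps : PSOK G lg w B := PS.ps hB hper hsg hs.pos hs.le_two_pi hs.s1 hB4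
  obtain ⟨J, hJ⟩ := exists_J hs.pos.le (stepOK hsg hR hs) hps h0 hE₀B hη
  refine ⟨J, fun J' hJ' => ⟨hsg, hR, hs, h2, hE₀B, ?_, fun c hc hE => hJ c hc hE J' hJ'⟩⟩
  intro c hc hcB σ hσ0 hσ1
  have h3 := En_st_mix_le hsg hR hc hcB hs hσ0 hσ1
  have h4 : 0 ≤ gr G lg w c := gr_nonneg' hs
  have h5 : 0 ≤ σ * gr G lg w c / 16 := by positivity
  linarith

/-! ### the representation -/

theorem contDiff_Rt (ν : Fin K → ℝ) : ContDiff ℝ ∞ (Rt (N := N) ν) := by
  rw [contDiff_clm_apply_iff]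
  intro w
  rw [contDiff_euclidean]
  intro x
  have h0 : ContDiff ℝ ∞ (fun s : ℝ => ν x.1.1 * s) := contDiff_const.mul contDiff_id
  have h1 : ContDiff ℝ ∞ (fun s : ℝ => Real.cos (ν x.1.1 * s)) := Real.contDiff_cos.comp h0
  have h2 : ContDiff ℝ ∞ (fun s : ℝ => Real.sin (ν x.1.1 * s)) := Real.contDiff_sin.comp h0
  by_cases hx : x.1.2 = 0
  · have h3 : (fun s => Rt ν s w x) = fun s => Real.cos (ν x.1.1 * s) * w ((x.1.1, 0), x.2) +
        Real.sin (ν x.1.1 * s) * w ((x.1.1, 1), x.2) := by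
      funext s
      simp [Rt, hx]
    rw [h3]
    exact (h1.mul contDiff_const).add (h2.mul contDiff_const)
  · have h3 : (fun s => Rt ν s w x) = fun s => -(Real.sin (ν x.1.1 * s) * w ((x.1.1, 0), x.2)) +
        Real.cos (ν x.1.1 * s) * w ((x.1.1, 1), x.2) := by
      funext s
      simp [Rt, hx]
    rw [h3]
    exact (h2.mul contDiff_const).neg.add (h1.mul contDiff_const)

theorem rep_Rt : CM.Rep (Rt (N := N) (nuP K)) where
  smooth := contDiff_Rt _
  zero := Rt_zero _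
  add := Rt_add _
  per := Rt_per
  iso := norm_Rt _

/-! ### scalars -/

/-- time of the contraction: `0` for `q ≤ 1`, `1` for `q ≥ 5/4` (`q = ‖w‖²`) -/
def bt (q : ℝ) : ℝ := ct 1 q

/-- `1` for `q ≤ 4`, `1 / √q` for `q ≥ 17/4` -/
def th (q : ℝ) : ℝ := 1 + ct 4 q * ((√q)⁻¹ - 1)

theorem th_one {q : ℝ} (h : q ≤ 4) : th q = 1 := by rw [th, ct_zero h, zero_mul, add_zero]

theorem contDiff_th : ContDiff ℝ ∞ th := by
  rw [contDiff_iff_contDiffAt]
  intro q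
  rcases lt_or_ge q 1 with h | h
  · have h1 : th =ᶠ[𝓝 q] fun _ => (1:ℝ) := by
      filter_upwards [Iio_mem_nhds h] with x hx
      have : x < 1 := hx
      exact th_one (by linarith)
    exact contDiffAt_const.congr_of_eventuallyEq h1
  · have h2 : ContDiffAt ℝ ∞ (fun q : ℝ => (√q)⁻¹) q := by
      have h3 : √q ≠ 0 := by positivity
      exact (Real.contDiffAt_sqrt (by positivity)).inv h3
    exact contDiffAt_const.add ((contDiff_ct 4).contDiffAt.mul (h2.sub contDiffAt_const))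

theorem th_nonneg (q : ℝ) : 0 ≤ th q := by
  rcases le_or_gt q 4 with h | h
  · rw [th_one h]; exact zero_le_one
  · have h1 := ct_nonneg 4 q
    have h2 := ct_le_one 4 q
    have h3 : 0 < (√q)⁻¹ := by positivity
    have h4 : th q = (1 - ct 4 q) + ct 4 q * (√q)⁻¹ := by rw [th]; ring
    rw [h4]
    have : 0 ≤ ct 4 q * (√q)⁻¹ := by positivity
    linarith

theorem th_sqrt {q : ℝ} (hq : 0 < q) : th q * √q = (1 - ct 4 q) * √q + ct 4 q := by
  have h5 : √q ≠ 0 := by positivity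
  unfold th
  field_simp
  ring

theorem th_sq_le {q : ℝ} (hq : 0 ≤ q) : th q ^ 2 * q ≤ 9 := by
  rcases le_or_gt q 4 with h | h
  · rw [th_one h]; linarith
  · have h5 : th q ^ 2 * q = (th q * √q) ^ 2 := by rw [mul_pow, Real.sq_sqrt hq]
    rw [h5, th_sqrt (by linarith)]
    have h1 := ct_nonneg 4 q
    have h2 := ct_le_one 4 q
    rcases le_or_gt (17 / 4) q with h' | h'
    · rw [ct_one (by linarith)]; norm_num
    · have h3 : √q ≤ 3 := by
        rw [Real.sqrt_le_left (by norm_num)]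
        linarith
      have h4 : 0 ≤ √q := Real.sqrt_nonneg q
      have h6 : (1 - ct 4 q) * √q + ct 4 q ≤ 3 := by nlinarith
      have h7 : 0 ≤ (1 - ct 4 q) * √q + ct 4 q := by
        have : 0 ≤ (1 - ct 4 q) * √q := mul_nonneg (by linarith) h4
        linarith
      nlinarith

theorem le_th_sq {q : ℝ} (hq : 0 ≤ q) : min 1 q ≤ th q ^ 2 * q := by
  rcases le_or_gt q 4 with h | h
  · rw [th_one h, one_pow, one_mul]; exact min_le_right _ _
  · refine (min_le_left _ _).trans ?_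
    have h5 : th q ^ 2 * q = (th q * √q) ^ 2 := by rw [mul_pow, Real.sq_sqrt hq]
    rw [h5, th_sqrt (by linarith)]
    have h1 := ct_nonneg 4 q
    have h2 := ct_le_one 4 q
    have h3 : 1 ≤ √q := Real.one_le_sqrt.2 (by linarith)
    refine one_le_pow₀ ?_
    nlinarith

/-! ### the family near the zero section -/

/-- `sg0 (z, w) = ρ (z.1 + ε th(‖w‖²) P (w(0)))` -/
def sg0 (G : Geo n N κ S) (ρ : Euc N → Euc N) (ε : ℝ) (q : (Euc N × Euc N) × Wt N K) : Euc N :=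
  ρ (q.1.1 + (ε * th (‖q.2‖ ^ 2)) • G.P q.1.1 (ev (nuP K) 0 q.2))

/-- the flow on the total space -/
abbrev Ph (G : Geo n N κ S) (K : ℕ) : ℝ → (Euc N × Euc N) × Wt N K → (Euc N × Euc N) × Wt N K :=
  CM.phR (CM.gf G) (Rt (nuP K))

theorem oc_sg0 (ε : ℝ) (q : (Euc N × Euc N) × Wt N K) :
    oc (Ph G K) (sg0 G ρ ε) q = fun t =>
      ρ ((fl G (q.1, t)).1 + (ε * th (‖q.2‖ ^ 2)) • fd G q.1 (nuP K) q.2 t) := by
  funext t
  change ρ ((fl G (q.1, t)).1 + (ε * th (‖Rt (nuP K) t q.2‖ ^ 2)) •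
    G.P (fl G (q.1, t)).1 (ev (nuP K) 0 (Rt (nuP K) t q.2))) = _
  rw [norm_Rt, ev_Rt, zero_add]
  rfl

/-- constants for the level one family -/
theorem exists_eps_one (h : GT.Bla G k) (hR : Retr S ρ r' Kr) (hP : ∀ x ∈ S, fderiv ℝ ρ x = G.P x)
    {δ : ℝ} {PN : Euc N × Euc N → Wt N K →L[ℝ] Wt N K}
    (hN : NB.NegB G (k - 1) (nuP K) δ PN) :
    ∃ ε₀ > 0, ∀ ε, 0 < ε → ε ≤ ε₀ → ∀ q ∈ FI.Tot (L.US G) PN,
      (∀ t, ‖(ε * th (‖q.2‖ ^ 2)) • fd G q.1 (nuP K) q.2 t‖ < r') ∧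
      En (oc (Ph G K) (sg0 G ρ ε) q) ≤ π - (δ / 4) * ε ^ 2 * (th (‖q.2‖ ^ 2) ^ 2 * ‖q.2‖ ^ 2) := by
  have hc := h.bl.cpt
  obtain ⟨Cf, hCf0, hCf⟩ := NB.exists_bound_fd hc G (nuP K)
  set m : ℝ := r' / 2 with hm
  have hr' := hR.r_pos
  obtain ⟨C₀, hC₀0, hC₀⟩ := exists_rho_core hR hP hc (m := m) (by positivity) (by linarith)
  have hδ := hN.pos_δ
  set M : ℝ := Cf + 1 with hM
  have hM0 : 0 < M := by positivity
  -- `ε * 3 * M ≤ m` and `C₀ (3 ε M / m)^3 ..`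
  set ε₀ : ℝ := min (m / (3 * M)) (δ * m ^ 3 / (12 * π * (C₀ + 1) * M ^ 3)) with hε₀
  have hε₀0 : 0 < ε₀ := by
    have := Real.pi_pos
    exact lt_min (by positivity) (by positivity)
  refine ⟨ε₀, hε₀0, fun ε hε hεε₀ q hq => ?_⟩
  obtain ⟨z, w⟩ := q
  have hz : z ∈ L.US G := hq.1
  have hPw : PN z w = w := hq.2
  have hz1 : ‖z.2‖ = 1 := hz.2
  simp only
  have h3M : ε * (3 * M) ≤ m := by
    have := hεε₀.trans (min_le_left _ _)
    rwa [le_div_iff₀ (by positivity)] at this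
  have hth3 : th (‖w‖ ^ 2) * ‖w‖ ≤ 3 := by
    have h1 := th_sq_le (q := ‖w‖ ^ 2) (by positivity)
    have h2 : (th (‖w‖ ^ 2) * ‖w‖) ^ 2 ≤ 3 ^ 2 := by rw [mul_pow]; linarith
    exact (abs_le_of_sq_le_sq' h2 (by norm_num)).2
  have hth0 := th_nonneg (‖w‖ ^ 2)
  -- the scaled parameter
  set a : ℝ := ε * th (‖w‖ ^ 2) * ‖w‖ with ha
  have ha0 : 0 ≤ a := by positivity
  have ha3 : a ≤ 3 * ε := by
    rw [ha, mul_assoc]
    nlinarith
  have hfd : ∀ t, ‖(ε * th (‖w‖ ^ 2)) • fd G z (nuP K) w t‖ ≤ a * M := by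
    intro t
    rw [norm_smul, Real.norm_of_nonneg (by positivity)]
    have h1 := (hCf z hz w t).1
    calc ε * th (‖w‖ ^ 2) * ‖fd G z (nuP K) w t‖ ≤ ε * th (‖w‖ ^ 2) * (Cf * ‖w‖) :=
          mul_le_mul_of_nonneg_left h1 (by positivity)
      _ ≤ ε * th (‖w‖ ^ 2) * (M * ‖w‖) := by gcongr; linarith
      _ = a * M := by rw [ha]; ring
  have haM : a * M ≤ m := by nlinarith
  refine ⟨fun t => (hfd t).trans_lt (haM.trans_lt (by linarith)), ?_⟩
  rw [oc_sg0]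
  simp only
  have hL2 : fl G (z, 2 * π) = z := NN.fl_two_pi h hz
  by_cases hw : w = 0
  · -- the geodesic itself
    subst hw
    have h1 : (fun t => ρ ((fl G (z, t)).1 + (ε * th (‖(0 : Wt N K)‖ ^ 2)) •
        fd G z (nuP K) 0 t)) = fun t => Exp G z.1 (t • z.2) := by
      funext t
      have h2 : NN.fd G z (nuP K) (0 : Wt N K) t = 0 := by unfold NN.fd; simp
      rw [h2, smul_zero, add_zero, hR.eq _ (fl_mem G hz.1 t).1]
      exact (Exp_smul G hz.1.1 hz.1.2 t).symm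
    rw [h1, En_geod G hz.1.1 hz.1.2, hz1]
    simp
  have hw0 : 0 < ‖w‖ := norm_pos_iff.2 hw
  -- unit field, scaled to size `m`
  set c : ℝ := m / (M * ‖w‖) with hcdef
  have hc0 : 0 < c := by positivity
  have hcM : c * (M * ‖w‖) = m := by rw [hcdef]; field_simp
  have hFld : ∀ a b : ℝ, Fld G z a b (c • fd G z (nuP K) w) (c • fd' G z (nuP K) w) :=
    fun a b => (fld_fd hz.1 (nuP K) w a b).smul c
  set s : ℝ := a * M / m with hs
  have hm0 : 0 < m := by positivity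
  have hs0 : 0 ≤ s := by positivity
  have hs1 : s ≤ 1 := by rw [hs, div_le_one hm0]; exact haM
  have hsc : s * c = ε * th (‖w‖ ^ 2) := by
    rw [hs, hcdef, ha]
    field_simp
  have hbound : ∀ t, ‖(c • fd G z (nuP K) w) t‖ ≤ m ∧ ‖(c • fd' G z (nuP K) w) t‖ ≤ m := by
    intro t
    have h1 := hCf z hz w t
    rw [Pi.smul_apply, Pi.smul_apply, norm_smul, norm_smul, Real.norm_of_nonneg hc0.le]
    have h2 : Cf * ‖w‖ ≤ M * ‖w‖ := by gcongr; linarith
    rw [← hcM]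
    exact ⟨mul_le_mul_of_nonneg_left (h1.1.trans h2) hc0.le,
      mul_le_mul_of_nonneg_left (h1.2.1.trans h2) hc0.le⟩
  have hper2 : (c • fd G z (nuP K) w) (2 * π) = (c • fd G z (nuP K) w) 0 := by
    rw [Pi.smul_apply, Pi.smul_apply, NN.fd_two_pi h hz w]
  have key := hC₀ z hz.1 hz1 (2 * π) (c • fd G z (nuP K) w) (c • fd' G z (nuP K) w)
    (hFld _ _) (by positivity) hL2 hper2 (fun t _ => (hbound t).1) (fun t _ => (hbound t).2)
    s ⟨hs0, hs1⟩
  have hfun : (fun t => ρ ((fl G (z, t)).1 + s • (c • fd G z (nuP K) w) t)) =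
      fun t => ρ ((fl G (z, t)).1 + (ε * th (‖w‖ ^ 2)) • fd G z (nuP K) w t) := by
    funext t
    rw [Pi.smul_apply, smul_smul, hsc]
  rw [hfun, ix_smul_left, ix_smul_right] at key
  have hneg := (NN.qf_ge G z (nuP K) w).trans (hN.neg z hz w hPw)
  set I := ix G z 0 (2 * π) (fd G z (nuP K) w) (fd' G z (nuP K) w) (fd G z (nuP K) w)
    (fd' G z (nuP K) w) with hI
  have h1 : s ^ 2 * (c * (c * I)) ≤ -(δ * a ^ 2) := by
    have h2 : s ^ 2 * (c * (c * I)) = (s * c) ^ 2 * I := by ring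
    rw [h2, hsc]
    have h3 : (ε * th (‖w‖ ^ 2)) ^ 2 * I ≤ (ε * th (‖w‖ ^ 2)) ^ 2 * -(δ * ‖w‖ ^ 2) :=
      mul_le_mul_of_nonneg_left hneg (by positivity)
    refine h3.trans (le_of_eq ?_)
    rw [ha]; ring
  have h4 : C₀ * s ^ 3 * (2 * π) ≤ (δ / 2) * a ^ 2 := by
    have h5 : s ^ 3 = a ^ 2 * (a * M ^ 3 / m ^ 3) := by rw [hs]; field_simp
    have h6 : a ≤ 3 * ε₀ := ha3.trans (by linarith)
    have h7 : ε₀ ≤ δ * m ^ 3 / (12 * π * (C₀ + 1) * M ^ 3) := min_le_right _ _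
    have hpi := Real.pi_pos
    have h8 : a * (12 * π * (C₀ + 1) * M ^ 3) ≤ 3 * (δ * m ^ 3) := by
      rw [le_div_iff₀ (by positivity)] at h7
      calc a * (12 * π * (C₀ + 1) * M ^ 3) ≤ 3 * ε₀ * (12 * π * (C₀ + 1) * M ^ 3) :=
            mul_le_mul_of_nonneg_right h6 (by positivity)
        _ = 3 * (ε₀ * (12 * π * (C₀ + 1) * M ^ 3)) := by ring
        _ ≤ 3 * (δ * m ^ 3) := mul_le_mul_of_nonneg_left h7 (by norm_num)
    have h9 : C₀ * (a * M ^ 3 / m ^ 3) * (2 * π) ≤ δ / 2 := by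
      have h10 : C₀ * (a * M ^ 3 / m ^ 3) * (2 * π) =
          (a * (2 * π * C₀ * M ^ 3)) / m ^ 3 := by field_simp
      rw [h10, div_le_iff₀ (by positivity)]
      have h11 : a * (2 * π * C₀ * M ^ 3) ≤ a * (2 * π * (C₀ + 1) * M ^ 3) := by
        gcongr
        linarith
      have h13 : a * (2 * π * (C₀ + 1) * M ^ 3) = (a * (12 * π * (C₀ + 1) * M ^ 3)) / 6 := by ring
      linarith
    calc C₀ * s ^ 3 * (2 * π) = a ^ 2 * (C₀ * (a * M ^ 3 / m ^ 3) * (2 * π)) := by rw [h5]; ring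
      _ ≤ a ^ 2 * (δ / 2) := mul_le_mul_of_nonneg_left h9 (by positivity)
      _ = (δ / 2) * a ^ 2 := by ring
  have h12 : a ^ 2 = ε ^ 2 * (th (‖w‖ ^ 2) ^ 2 * ‖w‖ ^ 2) := by rw [ha]; ring
  unfold En
  rw [mul_assoc (δ / 4), ← h12]
  linarith

end Crest.Agent.R208.FL
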