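import Crest.Agent.R208.J5
import Crest.Agent.R208.G3

-- ▼ part R208/NB1
section

/-! Row 208, block NB (helper537), part NB1: second variation of the energy along the surface
`(ε,t) ↦ Exp (γ t) (ε W t)`, uniformly; non-negativity of the index form on Dirichlet fields of
minimal geodesics. -/

set_option autoImplicit false
set_option linter.unusedSectionVars false
set_option linter.unusedVariables false

open MeasureTheory Set Filter Topology
open scoped ContDiff RealInnerProductSpace
open Crest.GeometryTopology.Submanifold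
open Crest.Agent.R241.DDefs
open Crest.Agent.R241.D2
open Crest.Agent.R208.J

noncomputable section

namespace Crest.Agent.R208.NB

variable {n N : ℕ} {κ : ℝ} {S : Set (Euc N)} {G : Geo n N κ S} {q z : Euc N × Euc N}

/-- the second derivative of `½ ‖JF‖²` -/
def chi (G : Geo n N κ S) (q z : Euc N × Euc N) (ε : ℝ) : ℝ :=
  ‖G.P (fl G (q, ε)).1 (JF' G q z ε)‖ ^ 2 - ⟪Rm G (fl G (q, ε)) (JF G q z ε), JF G q z ε⟫








/-! ### fields along a geodesic, in the parallel frame -/


variable {w w' : ℝ → Euc N}

















end Crest.Agent.R208.NB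
end
end

-- ▼ part R208/NB2

/-! Row 208, block NB (helper537), part NB2: Jacobi fields with prescribed values at `0` and `π`;
the index form of a closed geodesic is non-negative on an explicit subspace of codimension `k - 1`
(periodic fields), `(k - 1) + (n - 1)` (antiperiodic fields). -/

set_option autoImplicit false
set_option linter.unusedSectionVars false
set_option linter.unusedVariables false

open MeasureTheory Set Filter Topology
open scoped ContDiff RealInnerProductSpace
open Crest.GeometryTopology.Submanifold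
open Crest.Agent.R241.DDefs
open Crest.Agent.R241.D2
open Crest.Agent.R208.J

noncomputable section

namespace Crest.Agent.R208.NB

/-! ### integration by parts -/
section ibp
variable {E : Type*} [NormedAddCommGroup E] [InnerProductSpace ℝ E] [CompleteSpace E]
  {R : ℝ → E →L[ℝ] E} {j j' x x' : ℝ → E}



end ibp

variable {n N : ℕ} {κ : ℝ} {S : Set (Euc N)} {G : Geo n N κ S} {q : Euc N × Euc N}
  {w w' : ℝ → Euc N} {a b ξ η u : Euc N}

/-! ### normal Jacobi fields -/


lemma isJac_lin (hq : q ∈ TS G) : IsJac (Rh G q) (fun t => t • q.2) (fun _ => q.2) :=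
  ⟨fun t => by simpa using (hasDerivAt_id t).smul_const q.2, fun t => by
    rw [map_smul, Rh_velocity hq, smul_zero, neg_zero]; exact hasDerivAt_const t _⟩



/-- the linearised flow is periodic on vectors tangent to the unit sphere bundle -/
lemma per_Dfl (hper : HS.Per G) {z : Euc N × Euc N} (hz : TanTS G q z) (h1 : ‖q.2‖ = 1)
    (hz2 : ⟪q.2, z.2⟫ = 0) (t : ℝ) : Dfl G q (t + 2 * Real.pi) z = Dfl G q t z := by
  have hq := hz.mem
  obtain ⟨c, h0, hc, hm⟩ := hz
  -- the normalised curve
  set c1 : ℝ → Euc N × Euc N := fun s => ((c s).1, (‖(c s).2‖)⁻¹ • (c s).2) with hc1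
  have hn : HasDerivAt (fun s => ‖(c s).2‖) 0 0 := by
    have h2 := (hda_snd hc).norm_sq
    have h3 : HasDerivAt (fun s : ℝ => Real.sqrt (‖(c s).2‖ ^ 2)) _ 0 :=
      h2.sqrt (by simp [h0, h1])
    have h4 : (fun s : ℝ => Real.sqrt (‖(c s).2‖ ^ 2)) = fun s => ‖(c s).2‖ := by
      ext1 s; exact Real.sqrt_sq (norm_nonneg _)
    rw [h4] at h3
    refine h3.congr_deriv ?_
    rw [h0, hz2]; simp
  have hd : HasDerivAt c1 z 0 := by
    have h3 := (hn.inv (by rw [h0, h1]; exact one_ne_zero)).smul (hda_snd hc)
    have h4 := (hda_fst hc).prodMk h3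
    refine h4.congr_deriv ?_
    simp [h0, h1]
  have h01 : c1 0 = q := by simp [hc1, h0, h1]
  have hpos : ∀ᶠ s in 𝓝 (0 : ℝ), (c s).2 ≠ 0 := by
    have hcc : ContinuousAt (fun s => (c s).2) 0 := hc.continuousAt.snd
    refine hcc.eventually_ne ?_
    rw [h0]
    intro h; rw [h, norm_zero] at h1; exact zero_ne_one h1
  have hm1 : ∀ᶠ s in 𝓝 (0 : ℝ), c1 s ∈ TS G ∧ ‖(c1 s).2‖ = 1 := by
    filter_upwards [hm, hpos] with s hs hs0
    refine ⟨⟨hs.1, (G.T _).smul_mem _ hs.2⟩, ?_⟩
    change ‖(‖(c s).2‖)⁻¹ • (c s).2‖ = 1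
    rw [norm_smul, norm_inv, norm_norm, inv_mul_cancel₀ (norm_ne_zero_iff.2 hs0)]
  have key : ∀ r : ℝ, HasDerivAt (fun s => fl G (c1 s, r)) (Dfl G q r z) 0 := by
    intro r
    have h3 : HasDerivAt (fun s => (c1 s, r)) (z, (0 : ℝ)) 0 := hd.prodMk (hasDerivAt_const _ _)
    have h4 : DifferentiableAt ℝ (fl G) (c1 0, r) := by
      rw [h01]; exact (contDiffAt_fl' G hq r).differentiableAt (by simp)
    have h5 := h4.hasFDerivAt.comp_hasDerivAt (0 : ℝ) h3
    rw [h01] at h5
    exact h5
  have h5 := key (t + 2 * Real.pi)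
  have h6 := key t
  refine (h5.congr_of_eventuallyEq ?_).unique h6
  filter_upwards [hm1] with s hs
  rw [add_comm, fl_add' G hs.1, hper _ hs.1 hs.2]



/-! ### splitting off the tangential part -/








/-! ### periodicity of the Jacobi tensor -/


end Crest.Agent.R208.NB
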