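import Mathlib
import Crest.Agent.R208.NB3
import Crest.Agent.R208.FH10a
import Crest.Agent.R208.NN1b

-- ▼ part R208/SPJ1
section

/-!
R208, block SPJ1 (helper631): the negative spectral projection `NP B` of a symmetric operator on a
finite-dimensional Euclidean space, its smooth dependence on the operator as long as no eigenvalue
is `0`, equivariance.
-/

set_option autoImplicit false
set_option linter.unusedSectionVars false

open Set Filter Topology Module
open scoped ContDiff RealInnerProductSpace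

noncomputable section

namespace Crest.Agent.R208.SPJ

variable {W : Type*} [NormedAddCommGroup W] [InnerProductSpace ℝ W] [FiniteDimensional ℝ W]

/-- symmetric operator -/
def Sy (B : W →L[ℝ] W) : Prop := ∀ v w, ⟪B v, w⟫ = ⟪v, B w⟫

/-- the span of the eigenvectors with negative eigenvalue -/
def Neg (B : W →L[ℝ] W) : Submodule ℝ W := Submodule.span ℝ {w | ∃ c : ℝ, c < 0 ∧ B w = c • w}

/-- the negative spectral projection -/
def NP (B : W →L[ℝ] W) : W →L[ℝ] W := (Neg B).starProjection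

/-- eigenbasis -/
theorem Sy.exists_basis {B : W →L[ℝ] W} (h : Sy B) :
    ∃ (b : OrthonormalBasis (Fin (finrank ℝ W)) ℝ W) (l : Fin (finrank ℝ W) → ℝ),
      ∀ i, B (b i) = l i • b i := by
  have hs : (B : W →ₗ[ℝ] W).IsSymmetric := fun v w => h v w
  refine ⟨hs.eigenvectorBasis rfl, hs.eigenvalues rfl, fun i => ?_⟩
  have := hs.apply_eigenvectorBasis rfl i
  exact this

section basis

variable {B : W →L[ℝ] W} {ι : Type*} [Fintype ι] {b : OrthonormalBasis ι ℝ W} {l : ι → ℝ}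

theorem inner_apply (hb : ∀ i, B (b i) = l i • b i) (w : W) (i : ι) (h : Sy B) :
    ⟪b i, B w⟫ = l i * ⟪b i, w⟫ := by
  rw [← h, hb, inner_smul_left]; simp

theorem quad_eq (h : Sy B) (hb : ∀ i, B (b i) = l i • b i) (w : W) :
    ⟪B w, w⟫ = ∑ i, l i * ⟪b i, w⟫ ^ 2 := by
  rw [← b.sum_inner_mul_inner]
  refine Finset.sum_congr rfl fun i _ => ?_
  rw [real_inner_comm, inner_apply hb w i h]; ring

theorem norm_sq_eq (w : W) : ‖w‖ ^ 2 = ∑ i, ⟪b i, w⟫ ^ 2 := by
  rw [← real_inner_self_eq_norm_sq, ← b.sum_inner_mul_inner]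
  refine Finset.sum_congr rfl fun i _ => ?_
  rw [real_inner_comm]; ring

theorem mem_Neg (hb : ∀ i, B (b i) = l i • b i) {i : ι} (hi : l i < 0) : b i ∈ Neg B :=
  Submodule.subset_span ⟨l i, hi, hb i⟩

theorem inner_Neg (h : Sy B) (hb : ∀ i, B (b i) = l i • b i) {i : ι} (hi : 0 ≤ l i) {w : W}
    (hw : w ∈ Neg B) : ⟪b i, w⟫ = 0 := by
  refine Submodule.span_induction (p := fun w _ => ⟪b i, w⟫ = 0) ?_ ?_ ?_ ?_ hw
  · rintro w ⟨c, hc, hcw⟩
    have h1 := inner_apply hb w i h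
    rw [hcw, inner_smul_right] at h1
    have h2 : (c - l i) * ⟪b i, w⟫ = 0 := by linarith
    rcases mul_eq_zero.1 h2 with h3 | h3
    · linarith
    · exact h3
  · simp
  · intro x y _ _ hx hy
    rw [inner_add_right, hx, hy, add_zero]
  · intro a x _ hx
    rw [inner_smul_right, hx, mul_zero]


theorem mem_Neg_orth_iff (h : Sy B) (hb : ∀ i, B (b i) = l i • b i) {w : W} :
    w ∈ (Neg B)ᗮ ↔ ∀ i, l i < 0 → ⟪b i, w⟫ = 0 := by
  refine ⟨fun hw i hi => ?_, fun hw => ?_⟩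
  · exact (Submodule.mem_orthogonal _ _).1 hw _ (mem_Neg hb hi)
  · rw [Submodule.mem_orthogonal]
    intro u hu
    rw [← b.sum_inner_mul_inner]
    refine Finset.sum_eq_zero fun i _ => ?_
    by_cases hi : l i < 0
    · rw [hw i hi, mul_zero]
    · rw [real_inner_comm, inner_Neg h hb (not_lt.1 hi) hu, zero_mul]

end basis

theorem NP_mem (B : W →L[ℝ] W) (w : W) : NP B w ∈ Neg B := by
  unfold NP; exact Submodule.starProjection_apply_mem _ _

theorem sub_NP_mem (B : W →L[ℝ] W) (w : W) : w - NP B w ∈ (Neg B)ᗮ := by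
  unfold NP; exact Submodule.sub_starProjection_mem_orthogonal _

theorem NP_eq_self {B : W →L[ℝ] W} {w : W} : NP B w = w ↔ w ∈ Neg B := by
  unfold NP; exact Submodule.starProjection_eq_self_iff

theorem NP_idem (B : W →L[ℝ] W) (w : W) : NP B (NP B w) = NP B w := NP_eq_self.2 (NP_mem B w)

theorem NP_sy (B : W →L[ℝ] W) : Sy (NP B) := fun v w => by
  unfold NP; exact Submodule.inner_starProjection_left_eq_right _ v w

theorem range_NP (B : W →L[ℝ] W) : LinearMap.range (NP B : W →ₗ[ℝ] W) = Neg B := by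
  ext w
  rw [LinearMap.mem_range]
  constructor
  · rintro ⟨v, rfl⟩; exact NP_mem B v
  · intro hw; exact ⟨w, NP_eq_self.2 hw⟩

theorem map_Neg (B : W →L[ℝ] W) {w : W} (hw : w ∈ Neg B) : B w ∈ Neg B := by
  refine Submodule.span_induction (p := fun w _ => B w ∈ Neg B) ?_ ?_ ?_ ?_ hw
  · rintro w ⟨c, hc, hcw⟩
    show B w ∈ Neg B
    rw [hcw]
    exact Submodule.smul_mem _ _ (Submodule.subset_span ⟨c, hc, hcw⟩)
  · simp
  · intro x y _ _ hx hy
    rw [map_add]; exact Submodule.add_mem _ hx hy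
  · intro a x _ hx
    rw [map_smul]; exact Submodule.smul_mem _ _ hx

theorem map_Neg_orth {B : W →L[ℝ] W} (h : Sy B) {w : W} (hw : w ∈ (Neg B)ᗮ) : B w ∈ (Neg B)ᗮ := by
  rw [Submodule.mem_orthogonal] at hw ⊢
  intro u hu
  rw [← h]; exact hw _ (map_Neg B hu)

theorem NP_comm {B : W →L[ℝ] W} (h : Sy B) (w : W) : NP B (B w) = B (NP B w) := by
  have h1 : B w = B (NP B w) + B (w - NP B w) := by rw [← map_add]; congr 1; abel
  have h2 : NP B (B (w - NP B w)) = 0 := by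
    have h3 := map_Neg_orth h (sub_NP_mem B w)
    unfold NP at h3 ⊢
    exact (Submodule.starProjection_apply_eq_zero_iff _).2 h3
  rw [h1, map_add, h2, add_zero]
  exact NP_eq_self.2 (map_Neg B (NP_mem B w))

theorem abs_eig {B : W →L[ℝ] W} {c : ℝ} (hc : ∀ w, c * ‖w‖ ≤ ‖B w‖) {w : W} {l : ℝ}
    (hw : ‖w‖ = 1) (hl : B w = l • w) : c ≤ |l| := by
  have := hc w
  rw [hl, norm_smul, hw, mul_one, mul_one, Real.norm_eq_abs] at this
  exact this

theorem quad_neg {B : W →L[ℝ] W} (h : Sy B) {c : ℝ} (hc : ∀ w, c * ‖w‖ ≤ ‖B w‖) {w : W}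
    (hw : w ∈ Neg B) : ⟪B w, w⟫ ≤ -(c * ‖w‖ ^ 2) := by
  obtain ⟨b, l, hb⟩ := h.exists_basis
  rw [quad_eq h hb, norm_sq_eq (b := b), Finset.mul_sum, ← Finset.sum_neg_distrib]
  refine Finset.sum_le_sum fun i _ => ?_
  by_cases hi : l i < 0
  · have h1 := abs_eig hc (b.norm_eq_one i) (hb i)
    rw [abs_of_neg hi] at h1
    nlinarith [sq_nonneg ⟪b i, w⟫]
  · rw [inner_Neg h hb (not_lt.1 hi) hw]; simp

theorem quad_pos {B : W →L[ℝ] W} (h : Sy B) {c : ℝ} (hc : ∀ w, c * ‖w‖ ≤ ‖B w‖) {w : W}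
    (hw : w ∈ (Neg B)ᗮ) : c * ‖w‖ ^ 2 ≤ ⟪B w, w⟫ := by
  obtain ⟨b, l, hb⟩ := h.exists_basis
  rw [quad_eq h hb, norm_sq_eq (b := b), Finset.mul_sum]
  refine Finset.sum_le_sum fun i _ => ?_
  by_cases hi : l i < 0
  · rw [(mem_Neg_orth_iff h hb).1 hw i hi]; simp
  · have h1 := abs_eig hc (b.norm_eq_one i) (hb i)
    rw [abs_of_nonneg (not_lt.1 hi)] at h1
    nlinarith [sq_nonneg ⟪b i, w⟫]

/-- the absolute value -/
def Ab (B : W →L[ℝ] W) : W →L[ℝ] W := B ∘L (ContinuousLinearMap.id ℝ W - (2 : ℝ) • NP B)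

theorem Ab_apply (B : W →L[ℝ] W) (w : W) : Ab B w = B w - (2 : ℝ) • B (NP B w) := by
  simp [Ab]

theorem Ab_sy {B : W →L[ℝ] W} (h : Sy B) : Sy (Ab B) := fun v w => by
  rw [Ab_apply, Ab_apply, inner_sub_left, inner_sub_right, h, inner_smul_left, inner_smul_right,
    h, NP_sy B, NP_comm h]
  simp

theorem Ab_sq {B : W →L[ℝ] W} (h : Sy B) : Ab B * Ab B = B * B := by
  ext w
  show Ab B (Ab B w) = B (B w)
  rw [Ab_apply, Ab_apply]
  simp only [map_sub, map_smul]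
  rw [NP_comm h, NP_comm h, NP_idem]
  module

theorem Ab_pos {B : W →L[ℝ] W} (h : Sy B) {c : ℝ} (hc : ∀ w, c * ‖w‖ ≤ ‖B w‖) (w : W) :
    c * ‖w‖ ^ 2 ≤ ⟪Ab B w, w⟫ := by
  set p := NP B w with hp
  set q := w - NP B w with hq
  have hw : w = p + q := by rw [hp, hq]; abel
  have hpq : ⟪p, q⟫ = 0 := (Submodule.mem_orthogonal _ _).1 (sub_NP_mem B w) _ (NP_mem B w)
  have hBpq : ⟪B p, q⟫ = 0 :=
    (Submodule.mem_orthogonal _ _).1 (sub_NP_mem B w) _ (map_Neg B (NP_mem B w))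
  have hAb : Ab B w = B q - B p := by
    rw [Ab_apply, hq, map_sub]
    module
  have hBqp : ⟪B q, p⟫ = 0 := by rw [h, real_inner_comm]; exact hBpq
  have h1 := quad_neg h hc (NP_mem B w)
  have h2 := quad_pos h hc (sub_NP_mem B w)
  rw [← hp] at h1
  rw [← hq] at h2
  have h3 : ‖w‖ ^ 2 = ‖p‖ ^ 2 + ‖q‖ ^ 2 := by
    rw [hw, ← real_inner_self_eq_norm_sq, ← real_inner_self_eq_norm_sq,
      ← real_inner_self_eq_norm_sq, inner_add_left, inner_add_right, inner_add_right, hpq,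
      real_inner_comm p q, hpq]
    ring
  have h4 : ⟪Ab B w, w⟫ = ⟪B q, q⟫ - ⟪B p, p⟫ := by
    rw [hAb, hw, inner_sub_left, inner_add_right, inner_add_right, hBpq, hBqp]; ring
  rw [h3, h4]
  nlinarith

/-- Sylvester injectivity -/
theorem syl_inj {X Y H : W →L[ℝ] W} {c : ℝ} (hc : 0 < c) (hX : ∀ w, c * ‖w‖ ^ 2 ≤ ⟪X w, w⟫)
    (hYs : Sy Y) (hY : ∀ w, 0 ≤ ⟪Y w, w⟫) (h : X * H + H * Y = 0) : H = 0 := by
  obtain ⟨b, l, hb⟩ := hYs.exists_basis
  have hl : ∀ i, 0 ≤ l i := fun i => by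
    have := hY (b i)
    rw [hb, inner_smul_left, real_inner_self_eq_norm_sq, b.norm_eq_one] at this
    simpa using this
  have h0 : ∀ i, H (b i) = 0 := fun i => by
    have h1 : X (H (b i)) + H (Y (b i)) = 0 := by
      have := congrArg (fun T : W →L[ℝ] W => T (b i)) h
      simpa using this
    rw [hb, map_smul] at h1
    have h2 := hX (H (b i))
    have h3 : X (H (b i)) = -(l i • H (b i)) := eq_neg_of_add_eq_zero_left h1
    rw [h3, inner_neg_left, inner_smul_left, real_inner_self_eq_norm_sq] at h2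
    have h4 : (c + l i) * ‖H (b i)‖ ^ 2 ≤ 0 := by
      simp at h2; linarith
    have h5 : ‖H (b i)‖ ^ 2 ≤ 0 := by
      by_contra hcon
      have := mul_pos (show 0 < c + l i by linarith [hl i]) (not_le.1 hcon)
      linarith
    have h6 : ‖H (b i)‖ = 0 := by nlinarith [norm_nonneg (H (b i))]
    exact norm_eq_zero.1 h6
  ext w
  rw [← b.sum_repr' w, map_sum]
  simp [h0]

/-- the Sylvester operator -/
def syl (X : W →L[ℝ] W) : (W →L[ℝ] W) →L[ℝ] (W →L[ℝ] W) :=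
  ContinuousLinearMap.mul ℝ (W →L[ℝ] W) X + (ContinuousLinearMap.mul ℝ (W →L[ℝ] W)).flip X


theorem hasFDerivAt_mul_self (X : W →L[ℝ] W) :
    HasFDerivAt (𝕜 := ℝ) (fun X : W →L[ℝ] W => X * X) (syl X) X := by
  have := (hasFDerivAt_id (𝕜 := ℝ) X).mul' (hasFDerivAt_id (𝕜 := ℝ) X)
  refine this.congr_fderiv ?_
  ext y w
  simp [syl]

/-- the local smooth square root -/
theorem exists_root {T₀ : W →L[ℝ] W} (hs : Sy T₀) {c : ℝ} (hc : 0 < c)
    (hp : ∀ w, c * ‖w‖ ^ 2 ≤ ⟪T₀ w, w⟫) :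
    ∃ g : (W →L[ℝ] W) → (W →L[ℝ] W), ContDiffAt ℝ ∞ g (T₀ * T₀) ∧
      ∀ᶠ C in 𝓝 (T₀ * T₀), ∀ T : W →L[ℝ] W, Sy T → (∀ w, 0 ≤ ⟪T w, w⟫) → T * T = C → g C = T := by
  have hm : (∞ : WithTop ℕ∞) ≠ 0 := by simp
  set f : (W →L[ℝ] W) → (W →L[ℝ] W) := fun X => X * X with hf
  have hinj : Function.Injective (syl T₀ : (W →L[ℝ] W) →ₗ[ℝ] (W →L[ℝ] W)) := by
    rw [injective_iff_map_eq_zero]
    intro H hH
    refine syl_inj hc hp hs (fun w => ?_) hH
    exact le_trans (by positivity) (hp w)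
  let e : (W →L[ℝ] W) ≃ₗ[ℝ] (W →L[ℝ] W) := LinearEquiv.ofInjectiveEndo _ hinj
  let E : (W →L[ℝ] W) ≃L[ℝ] (W →L[ℝ] W) := e.toContinuousLinearEquiv
  have hE : (E : (W →L[ℝ] W) →L[ℝ] (W →L[ℝ] W)) = syl T₀ := by
    ext y; rfl
  have hfd : HasFDerivAt (𝕜 := ℝ) f (E : (W →L[ℝ] W) →L[ℝ] (W →L[ℝ] W)) T₀ := by
    rw [hE]; exact hasFDerivAt_mul_self T₀
  have hfc : ContDiffAt ℝ ∞ f T₀ := (contDiff_id.mul contDiff_id).contDiffAt
  set g := hfc.localInverse hfd hm with hg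
  have hgc : ContDiffAt ℝ ∞ g (T₀ * T₀) := hfc.to_localInverse hfd hm
  have hga : g (T₀ * T₀) = T₀ := hfc.localInverse_apply_image hfd hm
  have hright : ∀ᶠ y in 𝓝 (T₀ * T₀), f (g y) = y :=
    (hfc.hasStrictFDerivAt' hfd hm).eventually_right_inverse
  have hpos : ∀ᶠ y in 𝓝 (T₀ * T₀), ‖g y - T₀‖ < c / 2 := by
    have h1 : ContinuousAt (fun y => ‖g y - T₀‖) (T₀ * T₀) := (hgc.continuousAt.sub
      continuousAt_const).norm
    refine h1.eventually_lt continuousAt_const ?_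
    rw [hga, sub_self, norm_zero]; positivity
  refine ⟨g, hgc, ?_⟩
  filter_upwards [hright, hpos] with C h1 h2 T hT hT0 hTC
  have hX : ∀ w, c / 2 * ‖w‖ ^ 2 ≤ ⟪g C w, w⟫ := fun w => by
    have h3 : ⟪g C w, w⟫ = ⟪T₀ w, w⟫ + ⟪(g C - T₀) w, w⟫ := by
      rw [sub_apply, inner_sub_left]; ring
    have h4 : -(c / 2 * ‖w‖ ^ 2) ≤ ⟪(g C - T₀) w, w⟫ := by
      have h5 := abs_real_inner_le_norm ((g C - T₀) w) w
      have h6 : ‖(g C - T₀) w‖ ≤ c / 2 * ‖w‖ :=
        (ContinuousLinearMap.le_opNorm _ _).trans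
          (mul_le_mul_of_nonneg_right h2.le (norm_nonneg _))
      have h7 : ‖(g C - T₀) w‖ * ‖w‖ ≤ c / 2 * ‖w‖ * ‖w‖ :=
        mul_le_mul_of_nonneg_right h6 (norm_nonneg _)
      have h8 := (abs_le.1 h5).1
      nlinarith
    have h5 := hp w
    rw [h3]; nlinarith
  have h3 : g C * (g C - T) + (g C - T) * T = 0 := by
    have : g C * g C = T * T := by rw [hTC]; exact h1
    rw [mul_sub, sub_mul, this]; abel
  exact sub_eq_zero.1 (syl_inj (half_pos hc) hX hT hT0 h3)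

theorem isUnit_of_gap {B : W →L[ℝ] W} {c : ℝ} (hc : 0 < c) (h : ∀ w, c * ‖w‖ ≤ ‖B w‖) :
    IsUnit B := by
  have hinj : Function.Injective (B : W →ₗ[ℝ] W) := by
    rw [injective_iff_map_eq_zero]
    intro w hw
    have h1 := h w
    have h2 : B w = 0 := hw
    rw [h2, norm_zero] at h1
    have h3 : ‖w‖ ≤ 0 := by
      by_contra hcon
      have := mul_pos hc (not_le.1 hcon)
      linarith
    exact norm_le_zero_iff.1 h3
  let e : W ≃ₗ[ℝ] W := LinearEquiv.ofInjectiveEndo _ hinj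
  let f : W ≃L[ℝ] W := e.toContinuousLinearEquiv
  exact ⟨ContinuousLinearEquiv.toUnit f, by ext w; rfl⟩

variable {E : Type*} [NormedAddCommGroup E] [NormedSpace ℝ E]

/-- smoothness of the negative projection of a smooth family -/
theorem contDiffAt_NP {B : E → W →L[ℝ] W} {x : E} (hB : ContDiffAt ℝ ∞ B x)
    (hs : ∀ y, Sy (B y)) {c : ℝ} (hc : 0 < c) (hg : ∀ w, c * ‖w‖ ≤ ‖B x w‖) :
    ContDiffAt ℝ ∞ (fun y => NP (B y)) x := by
  obtain ⟨g, hg1, hg2⟩ := exists_root (Ab_sy (hs x)) hc (Ab_pos (hs x) hg)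
  have hBB : ContDiffAt ℝ ∞ (fun y => B y * B y) x := hB.mul hB
  have hx : Ab (B x) * Ab (B x) = B x * B x := Ab_sq (hs x)
  rw [hx] at hg1 hg2
  have hev := hBB.continuousAt.eventually hg2
  -- gap nearby
  have hgap : ∀ᶠ y in 𝓝 x, ∀ w, c / 2 * ‖w‖ ≤ ‖B y w‖ := by
    have h1 : ContinuousAt (fun y => ‖B y - B x‖) x := (hB.continuousAt.sub
      continuousAt_const).norm
    have h2 : ∀ᶠ y in 𝓝 x, ‖B y - B x‖ < c / 2 := by
      refine h1.eventually_lt continuousAt_const ?_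
      rw [sub_self, norm_zero]; positivity
    filter_upwards [h2] with y h3 w
    have h4 : B x w = B y w - (B y - B x) w := by simp
    have h5 : ‖B x w‖ ≤ ‖B y w‖ + ‖(B y - B x) w‖ := by
      rw [h4]; exact norm_sub_le _ _
    have h6 : ‖(B y - B x) w‖ ≤ c / 2 * ‖w‖ :=
      (ContinuousLinearMap.le_opNorm _ _).trans
        (mul_le_mul_of_nonneg_right h3.le (norm_nonneg _))
    have h7 := hg w
    linarith
  have hAb : ContDiffAt ℝ ∞ (fun y => Ab (B y)) x := by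
    refine (hg1.comp x hBB).congr_of_eventuallyEq ?_
    filter_upwards [hev, hgap] with y h1 h2
    refine (h1 _ (Ab_sy (hs y)) (fun w => ?_) (Ab_sq (hs y))).symm
    exact le_trans (by positivity) (Ab_pos (hs y) h2 w)
  have hunit : IsUnit (B x) := isUnit_of_gap hc hg
  have hinv : ContDiffAt ℝ ∞ (fun y => Ring.inverse (B y)) x := by
    obtain ⟨u, hu⟩ := hunit
    have h1 : ContDiffAt ℝ ∞ (Ring.inverse : (W →L[ℝ] W) → (W →L[ℝ] W)) (B x) := by
      rw [← hu]; exact contDiffAt_ringInverse ℝ u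
    exact h1.comp x hB
  have hfin : ContDiffAt ℝ ∞
      (fun y => (1 / 2 : ℝ) • (1 - Ring.inverse (B y) * Ab (B y))) x :=
    (contDiffAt_const (c := (1 : W →L[ℝ] W))).sub (hinv.mul hAb) |>.const_smul (1 / 2 : ℝ)
  refine hfin.congr_of_eventuallyEq ?_
  filter_upwards [hgap] with y hy
  have hu : IsUnit (B y) := isUnit_of_gap (half_pos hc) hy
  have h1 : Ring.inverse (B y) * Ab (B y) = 1 - (2 : ℝ) • NP (B y) := by
    have h2 : Ab (B y) = B y * (1 - (2 : ℝ) • NP (B y)) := rfl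
    rw [h2, ← mul_assoc, Ring.inverse_mul_cancel _ hu, one_mul]
  rw [h1]
  module

/-- equivariance -/
theorem NP_equiv {V : Type*} [NormedAddCommGroup V] [InnerProductSpace ℝ V]
    [FiniteDimensional ℝ V] (R : W ≃ₗᵢ[ℝ] V) {B : W →L[ℝ] W} {B' : V →L[ℝ] V}
    (h : ∀ w, B' (R w) = R (B w)) (w : W) : NP B' (R w) = R (NP B w) := by
  have h1 : ∀ u ∈ Neg B, R u ∈ Neg B' := fun u hu => by
    refine Submodule.span_induction (p := fun u _ => R u ∈ Neg B') ?_ ?_ ?_ ?_ hu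
    · rintro u ⟨c, hc, hcu⟩
      exact Submodule.subset_span ⟨c, hc, by rw [h, hcu, map_smul]⟩
    · simp
    · intro x y _ _ hx hy
      rw [map_add]; exact Submodule.add_mem _ hx hy
    · intro a x _ hx
      rw [map_smul]; exact Submodule.smul_mem _ _ hx
  have h2 : ∀ u ∈ Neg B', R.symm u ∈ Neg B := fun u hu => by
    refine Submodule.span_induction (p := fun u _ => R.symm u ∈ Neg B) ?_ ?_ ?_ ?_ hu
    · rintro u ⟨c, hc, hcu⟩
      refine Submodule.subset_span ⟨c, hc, R.injective ?_⟩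
      rw [← h, map_smul, LinearIsometryEquiv.apply_symm_apply, hcu]
    · simp
    · intro x y _ _ hx hy
      rw [map_add]; exact Submodule.add_mem _ hx hy
    · intro a x _ hx
      rw [map_smul]; exact Submodule.smul_mem _ _ hx
  have h3 : R (w - NP B w) ∈ (Neg B')ᗮ := by
    rw [Submodule.mem_orthogonal]
    intro u hu
    have h4 := (Submodule.mem_orthogonal _ _).1 (sub_NP_mem B w) _ (h2 u hu)
    rw [← h4, ← R.inner_map_map, LinearIsometryEquiv.apply_symm_apply]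
  have h5 : R w = R (NP B w) + R (w - NP B w) := by rw [← map_add]; congr 1; abel
  have h6 : NP B' (R (w - NP B w)) = 0 := by
    unfold NP at h3 ⊢
    exact (Submodule.starProjection_apply_eq_zero_iff _).2 h3
  rw [h5, map_add, h6, add_zero]
  exact NP_eq_self.2 (h1 _ (NP_mem B w))

/-! ### symmetrisation -/

/-- symmetric part -/
def sym (A : W →L[ℝ] W) : W →L[ℝ] W := (1 / 2 : ℝ) • (A + ContinuousLinearMap.adjoint A)

theorem sym_sy (A : W →L[ℝ] W) : Sy (sym A) := fun v w => by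
  unfold sym
  simp only [smul_apply, add_apply, inner_smul_left, inner_smul_right, inner_add_left,
    inner_add_right, ContinuousLinearMap.adjoint_inner_left,
    ContinuousLinearMap.adjoint_inner_right]
  simp; ring

theorem sym_eq {A : W →L[ℝ] W} (h : Sy A) : sym A = A := by
  have h1 : ContinuousLinearMap.adjoint A = A := by
    ext w
    refine ext_inner_right ℝ fun v => ?_
    rw [ContinuousLinearMap.adjoint_inner_left, ← h]
  unfold sym
  rw [h1]; module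

theorem contDiff_sym : ContDiff ℝ ∞ (sym : (W →L[ℝ] W) → (W →L[ℝ] W)) := by
  have h1 : ContDiff ℝ ∞ fun A : W →L[ℝ] W => ContinuousLinearMap.adjoint A :=
    (ContinuousLinearMap.adjoint (𝕜 := ℝ) (E := W) (F := W)).contDiff
  exact (contDiff_id.add h1).const_smul (1 / 2 : ℝ)

/-! ### gap from min-max -/

theorem gap_of {A : W →L[ℝ] W} (h : Sy A) {δ : ℝ} (hδ : 0 < δ) {r : ℕ} {N Q : Submodule ℝ W}
    (hN : finrank ℝ N = r) (hNd : ∀ w ∈ N, ⟪A w, w⟫ ≤ -(δ * ‖w‖ ^ 2))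
    (hQ : finrank ℝ Q + r = finrank ℝ W) (hQd : ∀ w ∈ Q, 0 ≤ ⟪A w, w⟫) (w : W) :
    δ / 2 * ‖w‖ ≤ ‖A w + (δ / 2) • w‖ := by
  obtain ⟨b, l, hb⟩ := h.exists_basis
  -- no eigenvalue in (-δ, 0)
  have hno : ∀ j, ¬ (-δ < l j ∧ l j < 0) := by
    rintro j ⟨hj1, hj2⟩
    let S₁ : Submodule ℝ W := Submodule.span ℝ (Set.range fun i : {i // -δ < l i} => b i)
    let S₂ : Submodule ℝ W := Submodule.span ℝ (Set.range fun i : {i // l i < 0} => b i)
    have hS₁ : ∀ w ∈ S₁, ∀ i, ¬ (-δ < l i) → ⟪b i, w⟫ = 0 := fun w hw i hi => by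
      refine Submodule.span_induction (p := fun w _ => ⟪b i, w⟫ = 0) ?_ ?_ ?_ ?_ hw
      · rintro _ ⟨k, rfl⟩
        exact b.orthonormal.2 (fun hik => hi (hik ▸ k.2))
      · simp
      · intro x y _ _ hx hy
        rw [inner_add_right, hx, hy, add_zero]
      · intro a x _ hx
        rw [inner_smul_right, hx, mul_zero]
    have hS₂ : ∀ w ∈ S₂, ∀ i, ¬ (l i < 0) → ⟪b i, w⟫ = 0 := fun w hw i hi => by
      refine Submodule.span_induction (p := fun w _ => ⟪b i, w⟫ = 0) ?_ ?_ ?_ ?_ hw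
      · rintro _ ⟨k, rfl⟩
        exact b.orthonormal.2 (fun hik => hi (hik ▸ k.2))
      · simp
      · intro x y _ _ hx hy
        rw [inner_add_right, hx, hy, add_zero]
      · intro a x _ hx
        rw [inner_smul_right, hx, mul_zero]
    have hzero : ∀ w : W, (∀ i, ⟪b i, w⟫ = 0) → w = 0 := fun w hw => by
      rw [← b.sum_repr' w]
      exact Finset.sum_eq_zero fun i _ => by rw [hw i, zero_smul]
    have hd₁ : Disjoint N S₁ := by
      rw [Submodule.disjoint_def]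
      intro w hwN hwS
      have h1 := hNd w hwN
      rw [quad_eq h hb, norm_sq_eq (b := b), Finset.mul_sum, ← Finset.sum_neg_distrib,
        ← sub_nonneg, ← Finset.sum_sub_distrib] at h1
      have h2 : ∀ i ∈ Finset.univ, -(δ * ⟪b i, w⟫ ^ 2) - l i * ⟪b i, w⟫ ^ 2 ≤ 0 := fun i _ => by
        by_cases hi : -δ < l i
        · nlinarith [sq_nonneg ⟪b i, w⟫]
        · rw [hS₁ w hwS i hi]; simp
      have h3 : ∑ i, (-(δ * ⟪b i, w⟫ ^ 2) - l i * ⟪b i, w⟫ ^ 2) = 0 :=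
        le_antisymm (Finset.sum_nonpos h2) h1
      refine hzero w fun i => ?_
      have h4 := (Finset.sum_eq_zero_iff_of_nonpos h2).1 h3 i (Finset.mem_univ i)
      by_cases hi : -δ < l i
      · have h5 : (δ + l i) * ⟪b i, w⟫ ^ 2 = 0 := by linarith
        rcases mul_eq_zero.1 h5 with h6 | h6
        · linarith
        · exact pow_eq_zero_iff (two_ne_zero) |>.1 h6
      · exact hS₁ w hwS i hi
    have hd₂ : Disjoint Q S₂ := by
      rw [Submodule.disjoint_def]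
      intro w hwQ hwS
      have h1 := hQd w hwQ
      rw [quad_eq h hb] at h1
      have h2 : ∀ i ∈ Finset.univ, l i * ⟪b i, w⟫ ^ 2 ≤ 0 := fun i _ => by
        by_cases hi : l i < 0
        · nlinarith [sq_nonneg ⟪b i, w⟫]
        · rw [hS₂ w hwS i hi]; simp
      have h3 : ∑ i, l i * ⟪b i, w⟫ ^ 2 = 0 := le_antisymm (Finset.sum_nonpos h2) h1
      refine hzero w fun i => ?_
      have h4 := (Finset.sum_eq_zero_iff_of_nonpos h2).1 h3 i (Finset.mem_univ i)
      by_cases hi : l i < 0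
      · rcases mul_eq_zero.1 h4 with h6 | h6
        · linarith
        · exact pow_eq_zero_iff (two_ne_zero) |>.1 h6
      · exact hS₂ w hwS i hi
    have hc₁ : finrank ℝ S₁ = Fintype.card {i // -δ < l i} :=
      finrank_span_eq_card (b.orthonormal.linearIndependent.comp _ Subtype.val_injective)
    have hc₂ : finrank ℝ S₂ = Fintype.card {i // l i < 0} :=
      finrank_span_eq_card (b.orthonormal.linearIndependent.comp _ Subtype.val_injective)
    have h1 := Submodule.finrank_add_finrank_le_of_disjoint hd₁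
    have h2 := Submodule.finrank_add_finrank_le_of_disjoint hd₂
    have h3 : finrank ℝ W < Fintype.card {i // -δ < l i} + Fintype.card {i // l i < 0} := by
      rw [Fintype.card_subtype, Fintype.card_subtype]
      have h4 : (Finset.univ.filter fun i => -δ < l i) ∪ (Finset.univ.filter fun i => l i < 0)
          = Finset.univ := by
        ext i
        simp only [Finset.mem_union, Finset.mem_filter, Finset.mem_univ, true_and, iff_true]
        by_contra hcon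
        push Not at hcon
        linarith [hcon.1, hcon.2]
      have h5 := Finset.card_union_add_card_inter (Finset.univ.filter fun i => -δ < l i)
        (Finset.univ.filter fun i => l i < 0)
      rw [h4] at h5
      have h6 : 0 < ((Finset.univ.filter fun i => -δ < l i) ∩
          (Finset.univ.filter fun i => l i < 0)).card := by
        refine Finset.card_pos.2 ⟨j, ?_⟩
        simp [hj1, hj2]
      have h7 : (Finset.univ : Finset (Fin (finrank ℝ W))).card = finrank ℝ W := by simp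
      omega
    omega
  have h1 : (δ / 2 * ‖w‖) ^ 2 ≤ ‖A w + (δ / 2) • w‖ ^ 2 := by
    rw [mul_pow, norm_sq_eq (b := b) w, norm_sq_eq (b := b) (A w + (δ / 2) • w), Finset.mul_sum]
    refine Finset.sum_le_sum fun i _ => ?_
    rw [inner_add_right, inner_smul_right, inner_apply hb w i h, ← add_mul, mul_pow]
    refine mul_le_mul_of_nonneg_right ?_ (sq_nonneg _)
    by_cases hi : l i < 0
    · have h2 : l i ≤ -δ := by
        by_contra hcon
        exact hno i ⟨not_le.1 hcon, hi⟩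
      nlinarith
    · nlinarith [not_lt.1 hi]
  exact (sq_le_sq₀ (by positivity) (norm_nonneg _)).1 h1

/-- **negative spectral projection of a smooth family with a gap** -/
theorem exists_specProj {A : E → W →L[ℝ] W} {X : Set E} (hA : ∀ x ∈ X, ContDiffAt ℝ ∞ A x)
    (hsym : ∀ x ∈ X, Sy (A x)) {δ : ℝ} (hδ : 0 < δ) {r : ℕ}
    (hneg : ∀ x ∈ X, ∃ N : Submodule ℝ W, finrank ℝ N = r ∧ ∀ w ∈ N, ⟪A x w, w⟫ ≤ -(δ * ‖w‖ ^ 2))
    (hpos : ∀ x ∈ X, ∃ Q : Submodule ℝ W, finrank ℝ Q + r = finrank ℝ W ∧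
      ∀ w ∈ Q, 0 ≤ ⟪A x w, w⟫) :
    ∃ P : E → W →L[ℝ] W, (∀ x, P x = NP (sym (A x) + (δ / 2) • ContinuousLinearMap.id ℝ W)) ∧
      (∀ x ∈ X, ContDiffAt ℝ ∞ P x) ∧
      (∀ x w, P x (P x w) = P x w) ∧ (∀ x, Sy (P x)) ∧
      (∀ x ∈ X, finrank ℝ (LinearMap.range (P x : W →ₗ[ℝ] W)) = r) ∧
      (∀ x ∈ X, ∀ w, A x (P x w) = P x (A x w)) ∧
      (∀ x ∈ X, ∀ w, P x w = w → ⟪A x w, w⟫ ≤ -(δ * ‖w‖ ^ 2)) ∧
      (∀ x ∈ X, ∀ w, P x w = 0 → 0 ≤ ⟪A x w, w⟫) ∧
      (∀ (R : W ≃ₗᵢ[ℝ] W) (x y : E), x ∈ X → y ∈ X → (∀ w, A y (R w) = R (A x w)) →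
        ∀ w, P y (R w) = R (P x w)) := by
  set B : E → W →L[ℝ] W := fun x => sym (A x) + (δ / 2) • ContinuousLinearMap.id ℝ W with hB
  have hBs : ∀ x, Sy (B x) := fun x v w => by
    have := sym_sy (A x) v w
    simp only [hB, add_apply, smul_apply, ContinuousLinearMap.id_apply, inner_add_left,
      inner_add_right, inner_smul_left, inner_smul_right, this]
    simp
  have hBA : ∀ x ∈ X, ∀ w, B x w = A x w + (δ / 2) • w := fun x hx w => by
    simp [hB, sym_eq (hsym x hx)]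
  have hgap : ∀ x ∈ X, ∀ w, δ / 2 * ‖w‖ ≤ ‖B x w‖ := fun x hx w => by
    obtain ⟨N, hN, hNd⟩ := hneg x hx
    obtain ⟨Q, hQ, hQd⟩ := hpos x hx
    rw [hBA x hx]
    exact gap_of (hsym x hx) hδ hN hNd hQ hQd w
  have hneg' : ∀ x ∈ X, ∀ w ∈ Neg (B x), ⟪A x w, w⟫ ≤ -(δ * ‖w‖ ^ 2) := fun x hx w hw => by
    have h1 := quad_neg (hBs x) (hgap x hx) hw
    rw [hBA x hx, inner_add_left, inner_smul_left, real_inner_self_eq_norm_sq] at h1
    simp at h1; linarith
  have hpos' : ∀ x ∈ X, ∀ w ∈ (Neg (B x))ᗮ, 0 ≤ ⟪A x w, w⟫ := fun x hx w hw => by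
    have h1 := quad_pos (hBs x) (hgap x hx) hw
    rw [hBA x hx, inner_add_left, inner_smul_left, real_inner_self_eq_norm_sq] at h1
    simp at h1; linarith
  refine ⟨fun x => NP (B x), fun x => rfl, fun x hx => ?_, fun x w => NP_idem _ _,
    fun x => NP_sy _, fun x hx => ?_, fun x hx w => ?_, fun x hx w hw => ?_, fun x hx w hw => ?_,
    fun R x y hx hy h w => ?_⟩
  · refine contDiffAt_NP ?_ hBs (half_pos hδ) (hgap x hx)
    exact ((contDiff_sym.contDiffAt).comp x (hA x hx)).add contDiffAt_const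
  · rw [range_NP]
    obtain ⟨N, hN, hNd⟩ := hneg x hx
    obtain ⟨Q, hQ, hQd⟩ := hpos x hx
    have hd₁ : Disjoint N (Neg (B x))ᗮ := by
      rw [Submodule.disjoint_def]
      intro w hwN hwS
      have h1 := hNd w hwN
      have h2 := hpos' x hx w hwS
      have h3 : δ * ‖w‖ ^ 2 ≤ 0 := by linarith
      have h4 : ‖w‖ ^ 2 ≤ 0 := by
        by_contra hcon
        have := mul_pos hδ (not_le.1 hcon)
        linarith
      exact norm_eq_zero.1 (by nlinarith [norm_nonneg w])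
    have hd₂ : Disjoint Q (Neg (B x)) := by
      rw [Submodule.disjoint_def]
      intro w hwQ hwS
      have h1 := hQd w hwQ
      have h2 := hneg' x hx w hwS
      have h3 : δ * ‖w‖ ^ 2 ≤ 0 := by linarith
      have h4 : ‖w‖ ^ 2 ≤ 0 := by
        by_contra hcon
        have := mul_pos hδ (not_le.1 hcon)
        linarith
      exact norm_eq_zero.1 (by nlinarith [norm_nonneg w])
    have h1 := Submodule.finrank_add_finrank_le_of_disjoint hd₁
    have h2 := Submodule.finrank_add_finrank_le_of_disjoint hd₂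
    have h3 := (Neg (B x)).finrank_add_finrank_orthogonal
    omega
  · have h1 := NP_comm (hBs x) w
    rw [hBA x hx, hBA x hx, map_add, map_smul] at h1
    exact (add_right_cancel h1).symm
  · exact hneg' x hx w (NP_eq_self.1 hw)
  · refine hpos' x hx w ?_
    have h1 := sub_NP_mem (B x) w
    have h2 : NP (B x) w = 0 := hw
    rwa [h2, sub_zero] at h1
  · refine NP_equiv R (fun u => ?_) w
    rw [hBA x hx, hBA y hy, h, map_add, map_smul]

end Crest.Agent.R208.SPJ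
end
end

-- ▼ part R208/NB4
section

/-! Row 208, block NB (helper537), part NB4 (= NN3 of the split #11251): the quadratic form `qf` as
a smooth, symmetric, equivariant field of operators on the space of coefficients. -/

set_option autoImplicit false
set_option linter.unusedSectionVars false
set_option linter.unusedVariables false

open MeasureTheory Set Filter Topology Module
open scoped ContDiff RealInnerProductSpace
open Crest.GeometryTopology.Submanifold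
open Crest.Agent.R241.DDefs
open Crest.Agent.R241.D2
open Crest.Agent.R208.J
open Crest.Agent.R208.NN

noncomputable section

namespace Crest.Agent.R208.NB

variable {n N K : ℕ} {κ : ℝ} {S : Set (Euc N)} {G : Geo n N κ S} {z : Euc N × Euc N}
  {ν : Fin K → ℝ}

/-! ### the integrand -/

/-- value, in terms of a point of the tangent bundle -/
def Fp (G : Geo n N κ S) (ν : Fin K → ℝ) (p : (Euc N × Euc N) × ℝ) : Wt N K →L[ℝ] Euc N :=
  (G.P p.1.1).comp (ev ν p.2)

/-- derivative -/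
def Dp (G : Geo n N κ S) (ν : Fin K → ℝ) (p : (Euc N × Euc N) × ℝ) : Wt N K →L[ℝ] Euc N :=
  (fderiv ℝ G.P p.1.1 p.1.2).comp (ev ν p.2) + (G.P p.1.1).comp (ev' ν p.2)

/-- the second fundamental form term -/
def bII (G : Geo n N κ S) (x : Euc N × Euc N) : Euc N →L[ℝ] Euc N →L[ℝ] ℝ :=
  (ContinuousLinearMap.compL ℝ (Euc N) (Euc N) ℝ (innerSL ℝ (X G x).2)).comp (fderiv ℝ G.P x.1)


/-- the inner product as a bilinear map -/
def ip (N : ℕ) : Euc N →L[ℝ] Euc N →L[ℝ] ℝ := innerSL ℝ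


/-- the integrand of the polarisation of `qf` -/
def bL (G : Geo n N κ S) (ν : Fin K → ℝ) (p : (Euc N × Euc N) × ℝ) :
    Wt N K →L[ℝ] Wt N K →L[ℝ] ℝ :=
  (ip N).bilinearComp (Dp G ν p) (Dp G ν p) -
    (bII G p.1).bilinearComp (Fp G ν p) (Fp G ν p) +
    (ip N).bilinearComp (ev ν p.2 - Fp G ν p)
      (ev ν p.2 - Fp G ν p)

lemma bL_apply (p : (Euc N × Euc N) × ℝ) (w w' : Wt N K) :
    bL G ν p w w' = ⟪Dp G ν p w, Dp G ν p w'⟫ -
      ⟪(X G p.1).2, fderiv ℝ G.P p.1.1 (Fp G ν p w) (Fp G ν p w')⟫ +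
      ⟪ev ν p.2 w - Fp G ν p w, ev ν p.2 w' - Fp G ν p w'⟫ := rfl

lemma contDiff_ev_p (ν : Fin K → ℝ) (w : Wt N K) :
    ContDiff ℝ ∞ (fun p : (Euc N × Euc N) × ℝ => ev ν p.2 w) :=
  ((contDiff_ev ν).comp contDiff_snd).clm_apply contDiff_const

lemma contDiff_ev'_p (ν : Fin K → ℝ) (w : Wt N K) :
    ContDiff ℝ ∞ (fun p : (Euc N × Euc N) × ℝ => ev' ν p.2 w) :=
  ((contDiff_ev' ν).comp contDiff_snd).clm_apply contDiff_const

lemma contDiff_P_p : ContDiff ℝ ∞ (fun p : (Euc N × Euc N) × ℝ => G.P p.1.1) :=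
  G.contDiff_P.comp (contDiff_fst.comp contDiff_fst)

lemma contDiff_dP_p : ContDiff ℝ ∞ (fun p : (Euc N × Euc N) × ℝ => fderiv ℝ G.P p.1.1) :=
  (G.contDiff_P.fderiv_right (by simp)).comp (contDiff_fst.comp contDiff_fst)

lemma contDiff_Fp (w : Wt N K) :
    ContDiff ℝ ∞ (fun p : (Euc N × Euc N) × ℝ => Fp G ν p w) :=
  (contDiff_P_p (G := G)).clm_apply (contDiff_ev_p ν w)

lemma contDiff_Dp (w : Wt N K) :
    ContDiff ℝ ∞ (fun p : (Euc N × Euc N) × ℝ => Dp G ν p w) :=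
  (((contDiff_dP_p (G := G)).clm_apply (contDiff_snd.comp contDiff_fst)).clm_apply
    (contDiff_ev_p ν w)).add ((contDiff_P_p (G := G)).clm_apply (contDiff_ev'_p ν w))

theorem contDiff_bL : ContDiff ℝ ∞ (bL G ν : (Euc N × Euc N) × ℝ → _) := by
  rw [contDiff_clm_apply_iff]
  intro w
  rw [contDiff_clm_apply_iff]
  intro w'
  have hX : ContDiff ℝ ∞ (fun p : (Euc N × Euc N) × ℝ => (X G p.1).2) :=
    contDiff_snd.comp ((contDiff_X G).comp contDiff_fst)
  have h1 := (contDiff_Dp (G := G) (ν := ν) w).inner ℝ (contDiff_Dp (G := G) (ν := ν) w')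
  have h2 := hX.inner ℝ (((contDiff_dP_p (G := G)).clm_apply
    (contDiff_Fp (G := G) (ν := ν) w)).clm_apply (contDiff_Fp (G := G) (ν := ν) w'))
  have h3 := ((contDiff_ev_p ν w).sub (contDiff_Fp (G := G) (ν := ν) w)).inner ℝ
    ((contDiff_ev_p ν w').sub (contDiff_Fp (G := G) (ν := ν) w'))
  exact (h1.sub h2).add h3

/-- the integrand along the geodesic -/
def bz (G : Geo n N κ S) (ν : Fin K → ℝ) (z : Euc N × Euc N) (t : ℝ) :
    Wt N K →L[ℝ] Wt N K →L[ℝ] ℝ := bL G ν (fl G (z, t), t)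

lemma continuous_bz (hz : z ∈ TS G) : Continuous (bz G ν z) :=
  (contDiff_bL (G := G) (ν := ν)).continuous.comp
    ((SV.continuous_fl (G := G) hz).prodMk continuous_id)

/-- the polarisation of `qf` -/
def Bz (G : Geo n N κ S) (ν : Fin K → ℝ) (z : Euc N × Euc N) : Wt N K →L[ℝ] Wt N K →L[ℝ] ℝ :=
  ∫ t in (0 : ℝ)..(2 * Real.pi), bz G ν z t

theorem Bz_apply (hz : z ∈ TS G) (w w' : Wt N K) :
    Bz G ν z w w' = ∫ t in (0 : ℝ)..(2 * Real.pi), bz G ν z t w w' := by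
  have hc := continuous_bz (G := G) (ν := ν) hz
  rw [Bz, ContinuousLinearMap.intervalIntegral_apply (hc.intervalIntegrable _ _),
    ContinuousLinearMap.intervalIntegral_apply
      ((hc.clm_apply continuous_const).intervalIntegrable _ _)]

theorem contDiffAt_Bz (hz : z ∈ TS G) : ContDiffAt ℝ ∞ (Bz G ν) z := by
  have h1 : ContDiffAt ℝ ∞ (FI.I1 (fun p : (Euc N × Euc N) × ℝ =>
      bL G ν (fl G (p.1, 2 * Real.pi * p.2), 2 * Real.pi * p.2))) z := by
    refine FI.contDiffAt_I1 fun t _ => ?_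
    have h2 : ContDiffAt ℝ ∞ (fun p : (Euc N × Euc N) × ℝ => (p.1, 2 * Real.pi * p.2)) (z, t) := by
      fun_prop
    have h3 : ContDiffAt ℝ ∞ (fun p : (Euc N × Euc N) × ℝ => fl G (p.1, 2 * Real.pi * p.2))
        (z, t) := ContDiffAt.comp (z, t) (g := fl G) (contDiffAt_fl' G hz _) h2
    have h4 : ContDiffAt ℝ ∞ (fun p : (Euc N × Euc N) × ℝ =>
        (fl G (p.1, 2 * Real.pi * p.2), 2 * Real.pi * p.2)) (z, t) :=
      h3.prodMk (by fun_prop)
    exact (contDiff_bL (G := G) (ν := ν)).contDiffAt.comp (z, t) h4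
  have h2 : (Bz G ν : Euc N × Euc N → _) = fun z => (2 * Real.pi) •
      FI.I1 (fun p : (Euc N × Euc N) × ℝ =>
        bL G ν (fl G (p.1, 2 * Real.pi * p.2), 2 * Real.pi * p.2)) z := by
    funext z
    have := intervalIntegral.smul_integral_comp_mul_left (a := 0) (b := 1) (bz G ν z)
      (2 * Real.pi)
    rw [mul_zero, mul_one] at this
    exact this.symm
  rw [h2]
  exact h1.const_smul (2 * Real.pi)



lemma continuous_fd (hz : z ∈ TS G) (w : Wt N K) : Continuous (fd G z ν w) :=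
  continuous_iff_continuousAt.2 fun t => (hasDerivAt_fd hz ν w t).continuousAt

lemma continuous_ev (w : Wt N K) : Continuous fun t => ev ν t w :=
  (contDiff_ev ν).continuous.clm_apply continuous_const

theorem Bz_eq (hz : z ∈ TS G) (w w' : Wt N K) : Bz G ν z w w' =
    SV.ix G z 0 (2 * Real.pi) (fd G z ν w) (fd' G z ν w) (fd G z ν w') (fd' G z ν w') +
      ∫ t in (0 : ℝ)..(2 * Real.pi), ⟪ev ν t w - fd G z ν w t, ev ν t w' - fd G z ν w' t⟫ := by
  have hπ : (0 : ℝ) ≤ 2 * Real.pi := by positivity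
  rw [Bz_apply hz]
  have h1 : Continuous fun t => ⟪ev ν t w - fd G z ν w t, ev ν t w' - fd G z ν w' t⟫ :=
    ((continuous_ev w).sub (continuous_fd hz w)).inner
      ((continuous_ev w').sub (continuous_fd hz w'))
  exact intervalIntegral.integral_add
    ((fld_fd hz ν w 0 (2 * Real.pi)).intble hz hπ (fld_fd hz ν w' 0 (2 * Real.pi)))
    (h1.intervalIntegrable _ _)

theorem qf_eq (hz : z ∈ TS G) (w : Wt N K) : qf G z ν w = Bz G ν z w w := by
  rw [Bz_eq hz, qf]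
  congr 1
  refine intervalIntegral.integral_congr fun t _ => ?_
  exact (real_inner_self_eq_norm_sq _).symm

theorem Bz_symm (hz : z ∈ TS G) (w w' : Wt N K) : Bz G ν z w w' = Bz G ν z w' w := by
  have hπ : (0 : ℝ) ≤ 2 * Real.pi := by positivity
  rw [Bz_eq hz, Bz_eq hz, SV.ix_symm hπ hz (fld_fd hz ν w _ _) (fld_fd hz ν w' _ _)]
  congr 1
  refine intervalIntegral.integral_congr fun t _ => ?_
  exact real_inner_comm _ _

/-! ### the operator -/

/-- the operator of a bilinear form -/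
def opB (B : Wt N K →L[ℝ] Wt N K →L[ℝ] ℝ) : Wt N K →L[ℝ] Wt N K :=
  ∑ j, (ContinuousLinearMap.toSpanSingleton ℝ (stdOrthonormalBasis ℝ (Wt N K) j)).comp
    ((ContinuousLinearMap.apply ℝ ℝ (stdOrthonormalBasis ℝ (Wt N K) j : Wt N K)).comp B)

theorem inner_opB (B : Wt N K →L[ℝ] Wt N K →L[ℝ] ℝ) (w w' : Wt N K) :
    ⟪opB B w, w'⟫ = B w w' := by
  set e := stdOrthonormalBasis ℝ (Wt N K) with he
  have h1 : opB B w = ∑ j, B w (e j) • (e j : Wt N K) := by
    simp [opB, he]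
  rw [h1, sum_inner]
  conv_rhs => rw [← e.sum_repr' w']
  rw [map_sum]
  refine Finset.sum_congr rfl fun j _ => ?_
  rw [real_inner_smul_left, map_smul, smul_eq_mul, mul_comm]

/-- the operator of `qf` -/
def Az (G : Geo n N κ S) (ν : Fin K → ℝ) (z : Euc N × Euc N) : Wt N K →L[ℝ] Wt N K :=
  opB (Bz G ν z)

theorem inner_Az (w w' : Wt N K) : ⟪Az G ν z w, w'⟫ = Bz G ν z w w' := inner_opB _ _ _

theorem inner_Az_self (hz : z ∈ TS G) (w : Wt N K) : ⟪Az G ν z w, w⟫ = qf G z ν w := by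
  rw [inner_Az, qf_eq hz]

theorem sy_Az (hz : z ∈ TS G) : SPJ.Sy (Az G ν z) := fun v w => by
  rw [inner_Az, real_inner_comm, inner_Az, Bz_symm hz]

theorem contDiffAt_Az (hz : z ∈ TS G) : ContDiffAt ℝ ∞ (Az G ν) z := by
  unfold Az opB
  refine ContDiffAt.sum fun j _ => ?_
  exact contDiffAt_const.clm_comp (contDiffAt_const.clm_comp (contDiffAt_Bz hz))

/-! ### equivariance -/

lemma Fp_Rt (x : Euc N × Euc N) (t s : ℝ) (w : Wt N K) :
    Fp G ν (x, t) (Rt ν s w) = Fp G ν (x, t + s) w := by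
  change G.P x.1 (ev ν t (Rt ν s w)) = G.P x.1 (ev ν (t + s) w)
  rw [ev_Rt]

lemma Dp_Rt (x : Euc N × Euc N) (t s : ℝ) (w : Wt N K) :
    Dp G ν (x, t) (Rt ν s w) = Dp G ν (x, t + s) w := by
  change fderiv ℝ G.P x.1 x.2 (ev ν t (Rt ν s w)) + G.P x.1 (ev' ν t (Rt ν s w)) =
    fderiv ℝ G.P x.1 x.2 (ev ν (t + s) w) + G.P x.1 (ev' ν (t + s) w)
  rw [ev_Rt, ev'_Rt]

lemma bL_Rt (x : Euc N × Euc N) (t s : ℝ) (w w' : Wt N K) :
    bL G ν (x, t) (Rt ν s w) (Rt ν s w') = bL G ν (x, t + s) w w' := by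
  rw [bL_apply, bL_apply, Fp_Rt, Fp_Rt, Dp_Rt, Dp_Rt]
  change _ + ⟪ev ν t (Rt ν s w) - _, ev ν t (Rt ν s w') - _⟫ = _ +
    ⟪ev ν (t + s) w - _, ev ν (t + s) w' - _⟫
  rw [ev_Rt, ev_Rt]

/-- the frequencies are all integers or all half integers: `R (2π) = σ = ± 1` -/
def Sig (N : ℕ) (ν : Fin K → ℝ) (σ : ℝ) : Prop :=
  σ * σ = 1 ∧ ∀ w : Wt N K, Rt ν (2 * Real.pi) w = σ • w

lemma sig_per : Sig N (nuP K) 1 := ⟨one_mul 1, fun w => by rw [Rt_per, one_smul]⟩


lemma bL_smul (p : (Euc N × Euc N) × ℝ) (σ : ℝ) (hσ : σ * σ = 1) (w w' : Wt N K) :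
    bL G ν p (σ • w) (σ • w') = bL G ν p w w' := by
  simp only [map_smul, smul_apply, smul_eq_mul]
  rw [← mul_assoc, hσ, one_mul]

theorem bz_periodic (hper : HS.Per G) (hz : z ∈ TS G) (h1 : ‖z.2‖ = 1) {σ : ℝ}
    (hσ : Sig N ν σ) (w w' : Wt N K) :
    Function.Periodic (fun t => bz G ν z t w w') (2 * Real.pi) := by
  intro t
  change bL G ν (fl G (z, t + 2 * Real.pi), t + 2 * Real.pi) w w' = bL G ν (fl G (z, t), t) w w'
  have h2 : fl G (z, t + 2 * Real.pi) = fl G (z, t) := by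
    rw [add_comm, fl_add' G hz, hper z hz h1]
  rw [h2, ← bL_Rt, hσ.2, hσ.2, bL_smul _ σ hσ.1]

theorem Bz_equiv (hper : HS.Per G) (hz : z ∈ TS G) (h1 : ‖z.2‖ = 1) {σ : ℝ}
    (hσ : Sig N ν σ) (s : ℝ) (w w' : Wt N K) :
    Bz G ν (fl G (z, s)) (Rt ν s w) (Rt ν s w') = Bz G ν z w w' := by
  have hs := fl_mem G hz s
  rw [Bz_apply hs, Bz_apply hz]
  have h2 : ∀ t, bz G ν (fl G (z, s)) t (Rt ν s w) (Rt ν s w') = bz G ν z (t + s) w w' := by
    intro t
    change bL G ν (fl G (fl G (z, s), t), t) (Rt ν s w) (Rt ν s w') =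
      bL G ν (fl G (z, t + s), t + s) w w'
    rw [bL_Rt, ← fl_add' G hz, add_comm s t]
  simp only [h2]
  rw [intervalIntegral.integral_comp_add_right (fun t => bz G ν z t w w') s, zero_add]
  have h3 := (bz_periodic hper hz h1 hσ w w').intervalIntegral_add_eq s 0
  rw [zero_add, add_comm s] at h3
  exact h3

/-- the rotation as an isometry -/
def Ri (N : ℕ) (ν : Fin K → ℝ) (s : ℝ) : Wt N K ≃ₗᵢ[ℝ] Wt N K :=
  { toFun := Rt ν s
    map_add' := map_add _
    map_smul' := map_smul _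
    invFun := Rt ν (-s)
    left_inv := fun w => by rw [← Rt_add, neg_add_cancel, Rt_zero]
    right_inv := fun w => by rw [← Rt_add, add_neg_cancel, Rt_zero]
    norm_map' := fun w => norm_Rt ν s w }

@[simp] lemma Ri_apply (ν : Fin K → ℝ) (s : ℝ) (w : Wt N K) : Ri N ν s w = Rt ν s w := rfl

theorem Az_equiv (hper : HS.Per G) (hz : z ∈ TS G) (h1 : ‖z.2‖ = 1) {σ : ℝ}
    (hσ : Sig N ν σ) (s : ℝ) (w : Wt N K) :
    Az G ν (fl G (z, s)) (Rt ν s w) = Rt ν s (Az G ν z w) := by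
  refine ext_inner_right ℝ fun v => ?_
  have h2 : v = Rt ν s (Rt ν (-s) v) := by rw [← Rt_add, add_neg_cancel, Rt_zero]
  rw [h2, inner_Az, inner_Rt, inner_Az]
  exact Bz_equiv hper hz h1 hσ s _ _

end Crest.Agent.R208.NB
end
end

-- ▼ part R208/NB5

/-! Row 208, block NB (helper537), part NB5: assembly of the negative bundles `N` (periodic) and
`N_odd` (antiperiodic) from 336's lower bounds (as hypotheses `hneg`), 589's upper bounds and 631's
spectral projections. -/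

set_option autoImplicit false
set_option linter.unusedSectionVars false
set_option linter.unusedVariables false

open MeasureTheory Set Filter Topology Module
open scoped ContDiff RealInnerProductSpace
open Crest.GeometryTopology.Submanifold
open Crest.Agent.R241.DDefs
open Crest.Agent.R241.D2
open Crest.Agent.R208.NN

noncomputable section

namespace Crest.Agent.R208.NB

variable {n N k K r : ℕ} {κ : ℝ} {S : Set (Euc N)} {G : Geo n N κ S} {z : Euc N × Euc N}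
  {ν : Fin K → ℝ} {δ : ℝ} {PN : Euc N × Euc N → Wt N K →L[ℝ] Wt N K} {V V' : ℝ → Euc N}

/-- a smooth equivariant field of negative spaces of `qf` of rank `r` -/
structure NegB (G : Geo n N κ S) (r : ℕ) (ν : Fin K → ℝ) (δ : ℝ)
    (PN : Euc N × Euc N → Wt N K →L[ℝ] Wt N K) : Prop where
  pos_δ : 0 < δ
  smooth : ∀ z ∈ L.US G, ContDiffAt ℝ ∞ PN z
  idem : ∀ z w, PN z (PN z w) = PN z w
  sy : ∀ z, SPJ.Sy (PN z)
  rank : ∀ z ∈ L.US G, finrank ℝ (LinearMap.range (PN z : Wt N K →ₗ[ℝ] Wt N K)) = r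
  equi : ∀ z ∈ L.US G, ∀ s w, PN (fl G (z, s)) (Rt ν s w) = Rt ν s (PN z w)
  neg : ∀ z ∈ L.US G, ∀ w, PN z w = w → qf G z ν w ≤ -(δ * ‖w‖ ^ 2)
  pos : ∀ z ∈ L.US G, ∀ w, PN z w = 0 → 0 ≤ qf G z ν w

lemma fl_mem_US (hz : z ∈ L.US G) (s : ℝ) : fl G (z, s) ∈ L.US G :=
  ⟨fl_mem G hz.1 s, by rw [norm_fl G hz.1]; exact hz.2⟩

theorem exists_NegB (h : GT.Bla G k) {σ : ℝ} (hσ : Sig N ν σ) (hδ : 0 < δ)
    (hneg : ∀ z ∈ L.US G, ∃ M : Submodule ℝ (Wt N K), finrank ℝ M = r ∧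
      ∀ w ∈ M, qf G z ν w ≤ -(δ * ‖w‖ ^ 2))
    (hpos : ∀ z ∈ L.US G, ∃ Q : Submodule ℝ (Wt N K), finrank ℝ Q + r = finrank ℝ (Wt N K) ∧
      ∀ w ∈ Q, 0 ≤ qf G z ν w) :
    ∃ PN : Euc N × Euc N → Wt N K →L[ℝ] Wt N K, NegB G r ν δ PN := by
  obtain ⟨P, -, h1, h2, h3, h4, -, h6, h7, h8⟩ := SPJ.exists_specProj (A := Az G ν)
    (X := L.US G) (fun x hx => contDiffAt_Az hx.1) (fun x hx => sy_Az hx.1) hδ (r := r)
    (fun x hx => by
      obtain ⟨M, hM, hM'⟩ := hneg x hx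
      exact ⟨M, hM, fun w hw => by rw [inner_Az_self hx.1]; exact hM' w hw⟩)
    (fun x hx => by
      obtain ⟨Q, hQ, hQ'⟩ := hpos x hx
      exact ⟨Q, hQ, fun w hw => by rw [inner_Az_self hx.1]; exact hQ' w hw⟩)
  refine ⟨P, hδ, h1, h2, h3, h4, ?_, ?_, ?_⟩
  · intro z hz s w
    exact h8 (Ri N ν s) z (fl G (z, s)) hz (fl_mem_US hz s)
      (fun w => Az_equiv h.ty.per hz.1 hz.2 hσ s w) w
  · intro z hz w hw
    rw [← inner_Az_self hz.1]; exact h6 z hz w hw
  · intro z hz w hw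
    rw [← inner_Az_self hz.1]; exact h7 z hz w hw

/-- periodic case -/
theorem exists_NegB_per (h : GT.Bla G k) (hK : 1 ≤ K) (hδ : 0 < δ)
    (hneg : ∀ z ∈ L.US G, ∃ M : Submodule ℝ (Wt N K), finrank ℝ M = k - 1 ∧
      ∀ w ∈ M, qf G z (nuP K) w ≤ -(δ * ‖w‖ ^ 2)) :
    ∃ PN, NegB G (k - 1) (nuP K) δ PN :=
  exists_NegB h sig_per hδ hneg fun _ hz => hpos_per h hK hz


namespace NegB

variable (H : NegB G r ν δ PN)

include H

theorem pfield : FI.PField (L.US G) r PN := ⟨H.smooth, fun x _ v => H.idem x v, H.rank⟩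

theorem ix_neg (hz : z ∈ L.US G) {w : Wt N K} (hw : PN z w = w) :
    SV.ix G z 0 (2 * Real.pi) (fd G z ν w) (fd' G z ν w) (fd G z ν w) (fd' G z ν w) ≤
      -(δ * ‖w‖ ^ 2) := (qf_ge G z ν w).trans (H.neg z hz w hw)

theorem eq_zero_of_qf (hz : z ∈ L.US G) {w : Wt N K} (hw : PN z w = w)
    (h0 : 0 ≤ qf G z ν w) : w = 0 := by
  have h1 := H.neg z hz w hw
  have h2 := H.pos_δ
  by_contra h3
  have h4 : 0 < ‖w‖ := norm_pos_iff.2 h3
  have : 0 < δ * ‖w‖ ^ 2 := by positivity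
  linarith

/-- the negative space -/
theorem mem_range {w : Wt N K} : w ∈ LinearMap.range (PN z : Wt N K →ₗ[ℝ] Wt N K) ↔
    PN z w = w := by
  constructor
  · rintro ⟨v, rfl⟩; exact H.idem z v
  · intro h; exact ⟨w, h⟩

end NegB

/-! ### the periodic negative bundle and the links -/

namespace NegB

variable (h : GT.Bla G k) (H : NegB G (k - 1) (nuP K) δ PN)

include h H

theorem l0_inj (hz : z ∈ L.US G) {w : Wt N K} (hw : PN z w = w) (h0 : l0 G z (nuP K) w = 0) :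
    w = 0 := H.eq_zero_of_qf hz hw (qf_nonneg_of_l0 h hz h0)

/-- `l0` maps `N_z` bijectively onto `V_pq ⊖ v` -/
theorem l0_bij (hz : z ∈ L.US G) {u : Euc N} (hu : u ∈ V0 G z) :
    ∃ w : Wt N K, PN z w = w ∧ l0 G z (nuP K) w = u := by
  set R := LinearMap.range (PN z : Wt N K →ₗ[ℝ] Wt N K) with hR
  let f : R →ₗ[ℝ] V0 G z := LinearMap.codRestrict (V0 G z)
    ((l0 G z (nuP K) : Wt N K →ₗ[ℝ] Euc N).comp R.subtype) (fun w => l0_mem _ _)
  have hinj : Function.Injective f := by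
    rw [injective_iff_map_eq_zero]
    rintro ⟨w, hw⟩ h0
    have h1 : l0 G z (nuP K) w = 0 := congrArg Subtype.val h0
    exact Subtype.ext (H.l0_inj h hz (H.mem_range.1 hw) h1)
  have hfr : finrank ℝ R = finrank ℝ (V0 G z) := by
    have h1 := H.rank z hz
    have h2 := finrank_V0 h hz
    rw [hR, h1]; omega
  obtain ⟨w, hw⟩ := (LinearMap.injective_iff_surjective_of_finrank_eq_finrank hfr).1 hinj ⟨u, hu⟩
  exact ⟨w, H.mem_range.1 w.2, congrArg Subtype.val hw⟩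

/-- the form of `l0` for an arbitrary field -/
theorem exists_l0 (hz : z ∈ L.US G) (a b : Euc N) :
    ∃ w : Wt N K, PN z w = w ∧ ∀ u ∈ GT.Vs G z.1 (qq G z), ⟪u, z.2⟫ = 0 →
      ⟪u, fd G z (nuP K) w 0⟫ + ⟪GT.lf G z.1 (qq G z) u, fd G z (nuP K) w Real.pi⟫ =
        ⟪u, a⟫ + ⟪GT.lf G z.1 (qq G z) u, b⟫ := by
  set x := (V0 G z).starProjection (a + GT.lf G (qq G z) z.1 b) with hx
  obtain ⟨w, hw, hwx⟩ := H.l0_bij h hz (u := x) (Submodule.starProjection_apply_mem _ _)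
  refine ⟨w, hw, fun u hu hu0 => ?_⟩
  have huV : u ∈ V0 G z := mem_V0.2 ⟨hu, hu0⟩
  rw [← inner_l0 h hz (nuP K) w huV, hwx, hx, ← Submodule.inner_starProjection_left_eq_right,
    Submodule.starProjection_eq_self_iff.2 huV, inner_add_right,
    inner_lf_adj (q := qq G z) h (mem_FF h hz) hu]

/-- **the index form is non-negative on the complement of `N_z` in all `C¹` periodic fields** -/
theorem compl_nonneg (hz : z ∈ L.US G) (hV : SV.Fld G z 0 (2 * Real.pi) V V')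
    (hper : V (2 * Real.pi) = V 0)
    (h0 : ∀ m, PN z m = m →
      SV.ix G z 0 (2 * Real.pi) V V' (fd G z (nuP K) m) (fd' G z (nuP K) m) = 0) :
    0 ≤ SV.ix G z 0 (2 * Real.pi) V V' V V' := by
  have hπ : (0 : ℝ) ≤ 2 * Real.pi := by positivity
  obtain ⟨w, hw, hl⟩ := H.exists_l0 h hz (V 0) (V Real.pi)
  have hF := fld_fd hz.1 (nuP K) w 0 (2 * Real.pi)
  have hD := hV.sub hF
  have h1 := nonneg_per h hz hD (by
    rw [Pi.sub_apply, Pi.sub_apply, hper, fd_two_pi h hz w]) (fun u hu hu0 => by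
    have := hl u hu hu0
    unfold qq at this
    rw [Pi.sub_apply, Pi.sub_apply, inner_sub_right, inner_sub_right]
    linarith)
  rw [SV.ix_sub_self hπ hz.1 hV hF, SV.ix_symm hπ hz.1 hF hV, h0 w hw] at h1
  have h2 := H.ix_neg hz hw
  have h3 := H.pos_δ
  have h4 : 0 ≤ δ * ‖w‖ ^ 2 := by positivity
  linarith

end NegB

end Crest.Agent.R208.NB
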