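import Crest.Agent.R208.NN0
import Mathlib.Analysis.Fourier.AddCircle
import Crest.Agent.R208.NN0b
import Crest.Agent.R208.NB2
import Crest.Agent.R208.SV5
import Crest.Agent.R208.NB5
import Crest.Agent.R208.FL4
import Crest.Agent.R208.MS1
import Crest.Agent.R208.MS1b

-- ▼ part R208/NN2a
section

/-!
Row 208, block [N], part NN2a (helper336): approximation of periodic functions by trigonometric
polynomials `ev (nuP K)`, uniformly with first derivatives.
-/

set_option autoImplicit false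

open MeasureTheory Measure Set Filter Topology Module Metric
open scoped ContDiff RealInnerProductSpace
open Crest.GeometryTopology.Submanifold

noncomputable section

namespace Crest.Agent.R208.NN

variable {N K : ℕ}

instance fact_two_pi_pos : Fact (0 < 2 * Real.pi) := ⟨by positivity⟩

/-- real trigonometric polynomial with coefficients `a` -/
def tr (K : ℕ) (a : Fin K × Fin 2 → ℝ) (t : ℝ) : ℝ :=
  ∑ i : Fin K, (Real.cos ((i : ℕ) * t) * a (i, 0) + Real.sin ((i : ℕ) * t) * a (i, 1))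

lemma tr_add (a b : Fin K × Fin 2 → ℝ) (t : ℝ) : tr K (a + b) t = tr K a t + tr K b t := by
  unfold tr
  rw [← Finset.sum_add_distrib]
  refine Finset.sum_congr rfl fun i _ => ?_
  simp only [Pi.add_apply]; ring

lemma tr_smul (c : ℝ) (a : Fin K × Fin 2 → ℝ) (t : ℝ) : tr K (c • a) t = c * tr K a t := by
  unfold tr
  rw [Finset.mul_sum]
  refine Finset.sum_congr rfl fun i _ => ?_
  simp only [Pi.smul_apply, smul_eq_mul]; ring

lemma tr_single0 (i : Fin K) (t : ℝ) :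
    tr K (Pi.single (i, 0) 1) t = Real.cos ((i : ℕ) * t) := by
  unfold tr
  rw [Finset.sum_eq_single i]
  · simp
  · intro j _ hj
    have h1 : ((j, 0) : Fin K × Fin 2) ≠ (i, 0) := by simpa using hj
    have h2 : ((j, 1) : Fin K × Fin 2) ≠ (i, 0) := by simp
    rw [Pi.single_eq_of_ne h1, Pi.single_eq_of_ne h2]; ring
  · simp

lemma tr_single1 (i : Fin K) (t : ℝ) :
    tr K (Pi.single (i, 1) 1) t = Real.sin ((i : ℕ) * t) := by
  unfold tr
  rw [Finset.sum_eq_single i]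
  · simp
  · intro j _ hj
    have h1 : ((j, 1) : Fin K × Fin 2) ≠ (i, 1) := by simpa using hj
    have h2 : ((j, 0) : Fin K × Fin 2) ≠ (i, 1) := by simp
    rw [Pi.single_eq_of_ne h1, Pi.single_eq_of_ne h2]; ring
  · simp

/-- elements of the span of the Fourier monomials are trigonometric polynomials -/
lemma span_fourier_tr {F : C(AddCircle (2 * Real.pi), ℂ)}
    (hF : F ∈ Submodule.span ℂ (range (@fourier (2 * Real.pi)))) :
    ∃ K0 : ℕ, ∀ K ≥ K0, ∃ a b : Fin K × Fin 2 → ℝ, ∀ t : ℝ,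
      F (t : AddCircle (2 * Real.pi)) = (tr K a t : ℂ) + (tr K b t : ℂ) * Complex.I := by
  induction hF using Submodule.span_induction with
  | mem F h =>
    obtain ⟨n, rfl⟩ := h
    refine ⟨n.natAbs + 1, fun K hK => ?_⟩
    have hn : n.natAbs < K := by omega
    set i : Fin K := ⟨n.natAbs, hn⟩ with hi
    have hival : ((i : ℕ) : ℝ) = |(n : ℝ)| := by
      rw [hi]; simp [Nat.cast_natAbs]
    have hcos : ∀ t : ℝ, Real.cos (((i : ℕ) : ℝ) * t) = Real.cos (n * t) := by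
      intro t
      rw [hival]
      rcases abs_choice (n : ℝ) with h | h
      · rw [h]
      · rw [h, neg_mul, Real.cos_neg]
    have hsin : ∀ t : ℝ, Real.sin (((i : ℕ) : ℝ) * t) = (if 0 ≤ (n : ℝ) then 1 else -1) *
        Real.sin (n * t) := by
      intro t
      rw [hival]
      split_ifs with h
      · rw [abs_of_nonneg h, one_mul]
      · rw [abs_of_neg (not_le.1 h), neg_mul, Real.sin_neg]; ring
    refine ⟨Pi.single (i, 0) 1, (if 0 ≤ (n : ℝ) then (1 : ℝ) else -1) • Pi.single (i, 1) 1,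
      fun t => ?_⟩
    rw [tr_smul, tr_single0, tr_single1, hcos, hsin, fourier_coe_apply]
    have e1 : (2 * Real.pi * Complex.I * n * t / ((2 * Real.pi : ℝ) : ℂ) : ℂ) =
        ((n * t : ℝ) : ℂ) * Complex.I := by
      have : (Real.pi : ℂ) ≠ 0 := by exact_mod_cast Real.pi_ne_zero
      push_cast
      field_simp
    rw [e1, Complex.exp_mul_I, ← Complex.ofReal_cos, ← Complex.ofReal_sin]
    congr 3
    split_ifs <;> ring
  | zero => exact ⟨0, fun K _ => ⟨0, 0, fun t => by simp [tr]⟩⟩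
  | add F F' _ _ h h' =>
    obtain ⟨K1, h⟩ := h
    obtain ⟨K2, h'⟩ := h'
    refine ⟨max K1 K2, fun K hK => ?_⟩
    obtain ⟨a, b, hab⟩ := h K ((le_max_left _ _).trans hK)
    obtain ⟨a', b', hab'⟩ := h' K ((le_max_right _ _).trans hK)
    refine ⟨a + a', b + b', fun t => ?_⟩
    rw [ContinuousMap.add_apply, hab, hab', tr_add, tr_add]
    push_cast
    ring
  | smul c F _ h =>
    obtain ⟨K1, h⟩ := h
    refine ⟨K1, fun K hK => ?_⟩
    obtain ⟨a, b, hab⟩ := h K hK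
    refine ⟨c.re • a + (-c.im) • b, c.re • b + c.im • a, fun t => ?_⟩
    rw [ContinuousMap.smul_apply, hab, tr_add, tr_add, tr_smul, tr_smul, tr_smul, tr_smul,
      smul_eq_mul]
    apply Complex.ext
    · simp
      ring
    · simp

/-- uniform approximation of a continuous periodic real function -/
lemma approx_real {g : ℝ → ℝ} (hg : Continuous g) (hp : Function.Periodic g (2 * Real.pi))
    {ε : ℝ} (hε : 0 < ε) :
    ∃ K0 : ℕ, ∀ K ≥ K0, ∃ a : Fin K × Fin 2 → ℝ, ∀ t : ℝ, |tr K a t - g t| ≤ ε := by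
  set gc : ℝ → ℂ := fun t => (g t : ℂ) with hgc
  have hgcc : Continuous gc := Complex.continuous_ofReal.comp hg
  have hgp : Function.Periodic gc (2 * Real.pi) := fun t => by simp only [hgc]; rw [hp]
  have hl : Continuous (hgp.lift : AddCircle (2 * Real.pi) → ℂ) := by
    refine continuous_coinduced_dom.2 ?_
    exact hgcc
  set Gc : C(AddCircle (2 * Real.pi), ℂ) := ⟨hgp.lift, hl⟩ with hGc
  have h1 : Gc ∈ (Submodule.span ℂ (range (@fourier (2 * Real.pi)))).topologicalClosure := by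
    rw [span_fourier_closure_eq_top]; trivial
  have h2 : Gc ∈ closure ((Submodule.span ℂ (range (@fourier (2 * Real.pi))) : Set _)) := h1
  obtain ⟨F, hF, hd⟩ := Metric.mem_closure_iff.1 h2 ε hε
  obtain ⟨K0, h3⟩ := span_fourier_tr hF
  refine ⟨K0, fun K hK => ?_⟩
  obtain ⟨a, b, hab⟩ := h3 K hK
  refine ⟨a, fun t => ?_⟩
  have h4 : dist (Gc (t : AddCircle (2 * Real.pi))) (F t) ≤ dist Gc F :=
    ContinuousMap.dist_apply_le_dist _
  have h5 : Gc (t : AddCircle (2 * Real.pi)) = (g t : ℂ) := rfl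
  rw [h5, hab, dist_comm, Complex.dist_eq] at h4
  have h6 := (Complex.abs_re_le_norm _).trans (h4.trans hd.le)
  simpa using h6

lemma ev_nuP_apply (K : ℕ) (w : Wt N K) (t : ℝ) (j : Fin N) :
    ev (nuP K) t w j = tr K (fun x => w (x, j)) t := by
  rw [ev_apply]
  unfold tr nuP
  simp only [WithLp.ofLp_sum, WithLp.ofLp_add, WithLp.ofLp_smul, Finset.sum_apply, Pi.add_apply,
    Pi.smul_apply, pr_apply, smul_eq_mul]

/-- uniform approximation of a continuous periodic vector valued function -/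
theorem approx0 {g : ℝ → Euc N} (hg : Continuous g) (hp : Function.Periodic g (2 * Real.pi))
    {ε : ℝ} (hε : 0 < ε) :
    ∃ K0 : ℕ, ∀ K ≥ K0, ∃ w : Wt N K, ∀ t : ℝ, ‖ev (nuP K) t w - g t‖ ≤ ε := by
  have h1 : ∀ j : Fin N, ∃ K0 : ℕ, ∀ K ≥ K0, ∃ a : Fin K × Fin 2 → ℝ, ∀ t : ℝ,
      |tr K a t - g t j| ≤ ε / (N + 1) := by
    intro j
    refine approx_real (g := fun t => g t j) (by fun_prop) (fun t => ?_) (by positivity)
    simp only [hp t]
  choose K0 hK0 using h1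
  refine ⟨Finset.univ.sup K0, fun K hK => ?_⟩
  have h2 : ∀ j, ∃ a : Fin K × Fin 2 → ℝ, ∀ t : ℝ, |tr K a t - g t j| ≤ ε / (N + 1) := fun j =>
    hK0 j K ((Finset.le_sup (Finset.mem_univ j)).trans hK)
  choose a ha using h2
  refine ⟨WithLp.toLp 2 fun x => a x.2 x.1, fun t => ?_⟩
  rw [EuclideanSpace.norm_eq]
  have h3 : ∀ j : Fin N, ‖(ev (nuP K) t (WithLp.toLp 2 fun x => a x.2 x.1) - g t) j‖ ≤
      ε / (N + 1) := by
    intro j
    rw [PiLp.sub_apply, ev_nuP_apply, Real.norm_eq_abs]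
    exact ha j t
  calc √(∑ j, ‖(ev (nuP K) t (WithLp.toLp 2 fun x => a x.2 x.1) - g t) j‖ ^ 2)
      ≤ √(∑ _j : Fin N, (ε / (N + 1)) ^ 2) := by
        apply Real.sqrt_le_sqrt
        apply Finset.sum_le_sum
        intro j _
        have := h3 j
        gcongr
    _ ≤ √(ε ^ 2) := by
        apply Real.sqrt_le_sqrt
        rw [Finset.sum_const, Finset.card_univ, Fintype.card_fin, nsmul_eq_mul, div_pow]
        rw [mul_div_assoc', div_le_iff₀ (by positivity)]
        have : (N : ℝ) ≤ (N + 1) ^ 2 := by nlinarith [(Nat.cast_nonneg N : (0:ℝ) ≤ N)]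
        nlinarith [sq_nonneg ε]
    _ = ε := Real.sqrt_sq hε.le

lemma hasDerivAt_ev_apply (ν : Fin K → ℝ) (w : Wt N K) (t : ℝ) :
    HasDerivAt (fun t => ev ν t w) (ev' ν t w) t := by
  have := (hasDerivAt_ev (N := N) ν t).clm_apply (hasDerivAt_const t w)
  simpa using this

lemma ev_per (K : ℕ) (w : Wt N K) (t : ℝ) : ev (nuP K) (t + 2 * Real.pi) w = ev (nuP K) t w := by
  rw [← ev_Rt, Rt_per]

/-- a function on `ℝ` which is `2π`-periodic and small on `[0,2π]` is small -/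
lemma small_of_per {f : ℝ → Euc N} (hp : Function.Periodic f (2 * Real.pi)) {c : ℝ}
    (h : ∀ t ∈ Icc 0 (2 * Real.pi), ‖f t‖ ≤ c) (t : ℝ) : ‖f t‖ ≤ c := by
  obtain ⟨s, hs, hst⟩ := hp.exists_mem_Ico₀ (by positivity) t
  rw [hst]
  exact h s ⟨hs.1, hs.2.le⟩

/-- **`C¹`-approximation of a periodic `C¹` function** -/
theorem approx1 {f f' : ℝ → Euc N} (hf : ∀ t, HasDerivAt f (f' t) t) (hf' : Continuous f')
    (hp : Function.Periodic f (2 * Real.pi)) {ε : ℝ} (hε : 0 < ε) :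
    ∃ K0 : ℕ, ∀ K ≥ K0, ∃ w : Wt N K, ∀ t : ℝ,
      ‖ev (nuP K) t w - f t‖ ≤ ε ∧ ‖ev' (nuP K) t w - f' t‖ ≤ ε := by
  have hp' : Function.Periodic f' (2 * Real.pi) := by
    intro t
    have h1 : HasDerivAt (fun s => f (s + 2 * Real.pi)) (f' (t + 2 * Real.pi)) t := by
      have := (hf (t + 2 * Real.pi)).scomp t ((hasDerivAt_id t).add_const (2 * Real.pi))
      simpa [Function.comp_def] using this
    have h2 : (fun s => f (s + 2 * Real.pi)) = f := funext hp
    rw [h2] at h1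
    exact h1.unique (hf t)
  set η : ℝ := ε / (4 * Real.pi + 2) with hη
  have hη0 : 0 < η := by have := Real.pi_pos; positivity
  obtain ⟨K0, hK0⟩ := approx0 hf' hp' hη0
  refine ⟨K0 + 1, fun K hK => ?_⟩
  obtain ⟨g, hg⟩ := hK0 K (by omega)
  have hK1 : 0 < K := by omega
  set i0 : Fin K := ⟨0, hK1⟩ with hi0
  set m0 : Euc N := pr i0 0 g with hm0
  -- the primitive with zero constant term
  set w1 : Wt N K := WithLp.toLp 2 fun x =>
    if x.1.1 = i0 then 0 else if x.1.2 = 0 then -((((x.1.1 : ℕ) : ℝ))⁻¹ * g ((x.1.1, 1), x.2)) else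
      (((x.1.1 : ℕ) : ℝ))⁻¹ * g ((x.1.1, 0), x.2) with hw1
  have p0 : ∀ i, pr i 0 w1 = if i = i0 then 0 else -((((i : ℕ) : ℝ))⁻¹ • pr i 1 g) := by
    intro i
    ext j
    rw [pr_apply, hw1]
    by_cases h : i = i0
    · simp [h]
    · simp [h]
  have p1 : ∀ i, pr i 1 w1 = if i = i0 then 0 else (((i : ℕ) : ℝ))⁻¹ • pr i 0 g := by
    intro i
    ext j
    rw [pr_apply, hw1]
    by_cases h : i = i0
    · simp [h]
    · simp [h]
  have hd : ∀ t, ev' (nuP K) t w1 = ev (nuP K) t g - m0 := by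
    intro t
    rw [ev'_apply, ev_apply, eq_sub_iff_add_eq]
    have e1 : m0 = ∑ i : Fin K, if i = i0 then m0 else 0 := by simp
    rw [e1, ← Finset.sum_add_distrib]
    refine Finset.sum_congr rfl fun i _ => ?_
    rw [p0, p1]
    by_cases h : i = i0
    · rw [h]
      simp [nuP, hi0, hm0]
    · simp only [h, if_false, add_zero]
      have hi : ((i : ℕ) : ℝ) ≠ 0 := by
        intro h'
        apply h
        ext
        simpa [hi0] using h'
      unfold nuP
      rw [smul_neg, neg_smul, neg_neg, smul_smul, smul_smul]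
      have e2 : ((i : ℕ) : ℝ) * Real.sin (((i : ℕ) : ℝ) * t) * (((i : ℕ) : ℝ))⁻¹ =
          Real.sin (((i : ℕ) : ℝ) * t) := by field_simp
      have e3 : ((i : ℕ) : ℝ) * Real.cos (((i : ℕ) : ℝ) * t) * (((i : ℕ) : ℝ))⁻¹ =
          Real.cos (((i : ℕ) : ℝ) * t) := by field_simp
      rw [e2, e3, add_comm]
  -- the mean value `m0` is small
  have hD : ∀ t, HasDerivAt (fun t => ev (nuP K) t w1 - f t + t • m0)
      (ev (nuP K) t g - f' t) t := by
    intro t
    have h1 := ((hasDerivAt_ev_apply (nuP K) w1 t).fun_sub (hf t)).fun_add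
      ((hasDerivAt_id t).smul_const m0)
    refine h1.congr_deriv ?_
    rw [hd, one_smul]
    abel
  have hm : ‖m0‖ ≤ η := by
    have h2 := norm_image_sub_le_of_norm_deriv_le_segment' (f := fun t => ev (nuP K) t w1 - f t +
      t • m0) (f' := fun t => ev (nuP K) t g - f' t) (C := η) (a := 0) (b := 2 * Real.pi)
      (fun x _ => (hD x).hasDerivWithinAt) (fun x _ => hg x) (2 * Real.pi)
      ⟨by positivity, le_rfl⟩
    have h3 : ev (nuP K) (2 * Real.pi) w1 = ev (nuP K) 0 w1 := by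
      have := ev_per K w1 0
      rwa [zero_add] at this
    have h4 : f (2 * Real.pi) = f 0 := by
      have := hp 0
      rwa [zero_add] at this
    rw [h3, h4, zero_smul, add_zero, add_sub_cancel_left, sub_zero, norm_smul,
      Real.norm_of_nonneg (by positivity), mul_comm] at h2
    exact le_of_mul_le_mul_right h2 (by positivity)
  -- correct the constant term
  set c0 : Euc N := f 0 - ev (nuP K) 0 w1 with hc0
  set w2 : Wt N K := WithLp.toLp 2 fun x => if x.1.1 = i0 ∧ x.1.2 = 0 then c0 x.2 else 0 with hw2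
  have q0 : ∀ i, pr i 0 w2 = if i = i0 then c0 else 0 := by
    intro i; ext j; rw [pr_apply, hw2]
    by_cases h : i = i0 <;> simp [h]
  have q1 : ∀ i, pr i 1 w2 = 0 := by
    intro i; ext j; rw [pr_apply, hw2]; simp
  have hev2 : ∀ t, ev (nuP K) t w2 = c0 := by
    intro t
    rw [ev_apply]
    simp only [q0, q1, smul_zero, add_zero]
    rw [Finset.sum_eq_single i0]
    · simp [nuP, hi0]
    · intro i _ hi; simp [hi]
    · simp
  have hev2' : ∀ t, ev' (nuP K) t w2 = 0 := by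
    intro t
    rw [ev'_apply]
    simp only [q0, q1, smul_zero, add_zero]
    refine Finset.sum_eq_zero fun i _ => ?_
    by_cases h : i = i0
    · simp [h, nuP, hi0]
    · simp [h]
  have hder : ∀ t, ‖ev' (nuP K) t (w1 + w2) - f' t‖ ≤ 2 * η := by
    intro t
    rw [map_add, hev2', add_zero, hd]
    calc ‖ev (nuP K) t g - m0 - f' t‖ = ‖(ev (nuP K) t g - f' t) - m0‖ := by congr 1; abel
      _ ≤ ‖ev (nuP K) t g - f' t‖ + ‖m0‖ := norm_sub_le _ _
      _ ≤ 2 * η := by linarith [hg t]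
  refine ⟨w1 + w2, fun t => ⟨?_, (hder t).trans ?_⟩⟩
  · have hper : Function.Periodic (fun t => ev (nuP K) t (w1 + w2) - f t) (2 * Real.pi) := by
      intro t
      simp only [ev_per, hp t]
    refine small_of_per (f := fun t => ev (nuP K) t (w1 + w2) - f t) hper (fun t ht => ?_) t
    have h2 := norm_image_sub_le_of_norm_deriv_le_segment'
      (f := fun t => ev (nuP K) t (w1 + w2) - f t)
      (f' := fun t => ev' (nuP K) t (w1 + w2) - f' t) (C := 2 * η) (a := 0) (b := 2 * Real.pi)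
      (fun x _ => ((hasDerivAt_ev_apply (nuP K) (w1 + w2) x).fun_sub (hf x)).hasDerivWithinAt)
      (fun x _ => hder x) t ht
    have h3 : ev (nuP K) 0 (w1 + w2) - f 0 = 0 := by
      rw [map_add, hev2, hc0]; abel
    rw [h3, sub_zero, sub_zero] at h2
    refine h2.trans ?_
    have ht2 := ht.2
    have hpi := Real.pi_pos
    calc 2 * η * t ≤ 2 * η * (2 * Real.pi) := by gcongr
      _ ≤ η * (4 * Real.pi + 2) := by nlinarith
      _ = ε := by rw [hη]; field_simp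
  · have hpi := Real.pi_pos
    calc 2 * η ≤ η * (4 * Real.pi + 2) := by nlinarith
      _ = ε := by rw [hη]; field_simp

end Crest.Agent.R208.NN
end
end

-- ▼ part R208/NN2b
section

/-!
Row 208, block [N], part NN2b (helper336): the density `Psi` of the quadratic form `qf`, dominated
convergence, approximation of Lipschitz periodic functions.
-/

set_option autoImplicit false

open MeasureTheory Measure Set Filter Topology Module Metric
open scoped ContDiff RealInnerProductSpace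
open Crest.GeometryTopology.Submanifold
open Crest.Agent.R241.DDefs
open Crest.Agent.R241.D2
open Crest.Agent.R208.L (om TanTS dfl om_dfl)

noncomputable section

namespace Crest.Agent.R208.NN

variable {n N K : ℕ} {κ : ℝ} {S : Set (Euc N)} {G : Geo n N κ S} {z : Euc N × Euc N}

variable (G) in
/-- density of `qf` as a function of time, value and derivative -/
def Psi (z : Euc N × Euc N) (t : ℝ) (x y : Euc N) : ℝ :=
  ‖fderiv ℝ G.P (fl G (z, t)).1 (fl G (z, t)).2 x + G.P (fl G (z, t)).1 y‖ ^ 2 -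
    ⟪(X G (fl G (z, t))).2, II G (fl G (z, t)).1 (G.P (fl G (z, t)).1 x)
      (G.P (fl G (z, t)).1 x)⟫ + ‖x - G.P (fl G (z, t)).1 x‖ ^ 2

lemma continuous_Psi (hz : z ∈ TS G) :
    Continuous fun p : ℝ × (Euc N × Euc N) => Psi G z p.1 p.2.1 p.2.2 := by
  have h1 : Continuous fun p : ℝ × (Euc N × Euc N) => fl G (z, p.1) :=
    (SV.continuous_fl (G := G) hz).comp continuous_fst
  have h3 : Continuous (fderiv ℝ G.P) := G.contDiff_P.continuous_fderiv (by simp)
  have h4 : Continuous fun p : ℝ × (Euc N × Euc N) =>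
      fderiv ℝ G.P (fl G (z, p.1)).1 (fl G (z, p.1)).2 := (h3.comp h1.fst).clm_apply h1.snd
  have h5 : Continuous fun p : ℝ × (Euc N × Euc N) => G.P (fl G (z, p.1)).1 :=
    G.contDiff_P.continuous.comp h1.fst
  have h6 : Continuous fun p : ℝ × (Euc N × Euc N) => (X G (fl G (z, p.1))).2 :=
    ((contDiff_X G).continuous.comp h1).snd
  have hx : Continuous fun p : ℝ × (Euc N × Euc N) => p.2.1 := by fun_prop
  have hy : Continuous fun p : ℝ × (Euc N × Euc N) => p.2.2 := by fun_prop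
  have h7 := h5.clm_apply hx
  have h8 : Continuous fun p : ℝ × (Euc N × Euc N) => II G (fl G (z, p.1)).1
      (G.P (fl G (z, p.1)).1 p.2.1) (G.P (fl G (z, p.1)).1 p.2.1) :=
    ((h3.comp h1.fst).clm_apply h7).clm_apply h7
  exact ((((h4.clm_apply hx).add (h5.clm_apply hy)).norm.pow 2).sub (h6.inner h8)).add
    ((hx.sub h7).norm.pow 2)

lemma continuous_ev (ν : Fin K → ℝ) (w : Wt N K) : Continuous fun t => ev ν t w :=
  (contDiff_ev ν).continuous.clm_apply continuous_const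

lemma continuous_ev' (ν : Fin K → ℝ) (w : Wt N K) : Continuous fun t => ev' ν t w :=
  (contDiff_ev' ν).continuous.clm_apply continuous_const

lemma qf_eq (hz : z ∈ TS G) (ν : Fin K → ℝ) (w : Wt N K) :
    qf G z ν w = ∫ t in (0 : ℝ)..(2 * Real.pi), Psi G z t (ev ν t w) (ev' ν t w) := by
  unfold qf SV.ix
  rw [← intervalIntegral.integral_add ((fld_fd hz ν w 0 (2 * Real.pi)).intble hz
    (by positivity) (fld_fd hz ν w 0 (2 * Real.pi)))]
  · refine intervalIntegral.integral_congr fun t _ => ?_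
    simp only [SV.ixd, Psi, fd, fd', real_inner_self_eq_norm_sq]
  · apply Continuous.intervalIntegrable
    have h1 : Continuous fun t => fd G z ν w t := continuous_iff_continuousAt.2 fun t =>
      (hasDerivAt_fd hz ν w t).continuousAt
    exact ((continuous_ev ν w).sub h1).norm.pow 2

lemma Psi_fld {a b : ℝ} {A A' : ℝ → Euc N} (hz : z ∈ TS G) (hab : a < b)
    (hA : SV.Fld G z a b A A') {t : ℝ} (ht : t ∈ Icc a b) :
    Psi G z t (A t) (A' t) = SV.ixd G z A A' A A' t := by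
  have h1 := der_eq hz hA hab ht
  have h2 := (P_eq_self G (fl_mem G hz t).1).1 (hA.mem t ht)
  unfold Psi SV.ixd
  rw [h2]
  have h3 : fderiv ℝ G.P (fl G (z, t)).1 (fl G (z, t)).2 (A t) + G.P (fl G (z, t)).1 (A' t) =
      A' t := h1.symm
  rw [h3, sub_self, norm_zero, real_inner_self_eq_norm_sq]
  ring

attribute [local irreducible] Psi

/-- dominated convergence for `Psi` -/
lemma tendsto_Psi (hz : z ∈ TS G) {x y : ℕ → ℝ → Euc N} {x0 y0 : ℝ → Euc N} {M a b : ℝ}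
    (hab : a ≤ b)
    (hx : ∀ m, Continuous (x m)) (hy : ∀ m, Continuous (y m))
    (hxM : ∀ m, ∀ t, ‖x m t‖ ≤ M) (hyM : ∀ m, ∀ t, ‖y m t‖ ≤ M)
    (hxl : ∀ t, Tendsto (fun m => x m t) atTop (𝓝 (x0 t)))
    (hyl : ∀ᵐ t, Tendsto (fun m => y m t) atTop (𝓝 (y0 t))) :
    Tendsto (fun m => ∫ t in a..b, Psi G z t (x m t) (y m t)) atTop
      (𝓝 (∫ t in a..b, Psi G z t (x0 t) (y0 t))) := by
  have hc := continuous_Psi (G := G) hz
  have hK : IsCompact (Icc a b ×ˢ (closedBall (0 : Euc N) M ×ˢ closedBall (0 : Euc N) M)) :=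
    isCompact_Icc.prod ((isCompact_closedBall _ _).prod (isCompact_closedBall _ _))
  obtain ⟨C, hC⟩ := hK.exists_bound_of_continuousOn hc.continuousOn
  refine intervalIntegral.tendsto_integral_filter_of_dominated_convergence
    (F := fun m t => Psi G z t (x m t) (y m t)) (f := fun t => Psi G z t (x0 t) (y0 t))
    (fun _ => C) ?_ ?_ ?_ ?_
  · refine Eventually.of_forall fun m => ?_
    have h2 : Continuous fun t : ℝ => ((t, (x m t, y m t)) : ℝ × (Euc N × Euc N)) :=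
      continuous_id.prodMk ((hx m).prodMk (hy m))
    have h3 : Continuous fun t => Psi G z t (x m t) (y m t) := by
      have := hc.comp h2
      simpa only [Function.comp_def] using this
    exact h3.aestronglyMeasurable
  · refine Eventually.of_forall fun m => ?_
    refine Eventually.of_forall fun t ht => ?_
    rw [uIoc_of_le hab] at ht
    have h5 : ((t, (x m t, y m t)) : ℝ × (Euc N × Euc N)) ∈
        Icc a b ×ˢ (closedBall (0 : Euc N) M ×ˢ closedBall (0 : Euc N) M) :=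
      ⟨⟨ht.1.le, ht.2⟩, mem_closedBall_zero_iff.2 (hxM m t), mem_closedBall_zero_iff.2 (hyM m t)⟩
    exact hC _ h5
  · simp
  · filter_upwards [hyl] with t ht _
    have h1 := (hc.tendsto (t, (x0 t, y0 t)))
    have h2 : Tendsto (fun m => (t, (x m t, y m t))) atTop (𝓝 (t, (x0 t, y0 t))) :=
      tendsto_const_nhds.prodMk_nhds ((hxl t).prodMk_nhds ht)
    exact h1.comp h2

/-! ### Lipschitz periodic functions -/

/-- Steklov average -/
def stk (F : ℝ → Euc N) (h t : ℝ) : Euc N := h⁻¹ • ∫ s in t..(t + h), F s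

lemma hasDerivAt_stk {F : ℝ → Euc N} (hF : Continuous F) (h t : ℝ) :
    HasDerivAt (stk F h) (h⁻¹ • (F (t + h) - F t)) t := by
  have hi : ∀ a b : ℝ, IntervalIntegrable F volume a b := fun a b => hF.intervalIntegrable a b
  have h1 : ∀ x, HasDerivAt (fun x => ∫ s in (0 : ℝ)..x, F s) (F x) x := fun x =>
    intervalIntegral.integral_hasDerivAt_right (hi 0 x)
      (hF.stronglyMeasurableAtFilter _ _) hF.continuousAt
  have h2 : HasDerivAt (fun x => ∫ s in (0 : ℝ)..(x + h), F s) (F (t + h)) t := by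
    have := (h1 (t + h)).scomp t ((hasDerivAt_id t).add_const h)
    simpa [Function.comp_def] using this
  have h3 := (h2.fun_sub (h1 t)).const_smul h⁻¹
  have e : stk F h = fun x => h⁻¹ • ((∫ s in (0 : ℝ)..(x + h), F s) - ∫ s in (0 : ℝ)..x, F s) := by
    funext x
    unfold stk
    rw [intervalIntegral.integral_interval_sub_left (hi _ _) (hi _ _)]
  rw [e]
  exact h3

lemma stk_sub_le {F : ℝ → Euc N} {L : ℝ} (hL : ∀ s t, ‖F t - F s‖ ≤ L * |t - s|)
    (hF : Continuous F) {h : ℝ} (hh : 0 < h) (t : ℝ) : ‖stk F h t - F t‖ ≤ L * h := by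
  have hL0 : 0 ≤ L := by
    have := (norm_nonneg _).trans (hL 0 1)
    simpa using this
  have e : stk F h t - F t = h⁻¹ • ∫ s in t..(t + h), (F s - F t) := by
    rw [intervalIntegral.integral_sub (hF.intervalIntegrable _ _) (by simp)]
    unfold stk
    rw [intervalIntegral.integral_const, add_sub_cancel_left, smul_sub, smul_smul,
      inv_mul_cancel₀ hh.ne', one_smul]
  rw [e, norm_smul, norm_inv, Real.norm_of_nonneg hh.le, inv_mul_le_iff₀ hh]
  have h2 : ‖∫ s in t..(t + h), (F s - F t)‖ ≤ (L * h) * |t + h - t| := by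
    refine intervalIntegral.norm_integral_le_of_norm_le_const fun s hs => ?_
    rw [uIoc_of_le (by linarith)] at hs
    refine (hL t s).trans ?_
    rw [abs_of_nonneg (by linarith [hs.1])]
    exact mul_le_mul_of_nonneg_left (by linarith [hs.2]) hL0
  rw [add_sub_cancel_left, abs_of_pos hh] at h2
  linarith

lemma stk_per {F : ℝ → Euc N} (hp : Function.Periodic F (2 * Real.pi)) (h : ℝ) :
    Function.Periodic (stk F h) (2 * Real.pi) := by
  intro t
  unfold stk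
  congr 1
  have h1 : ∫ s in (t + 2 * Real.pi)..(t + 2 * Real.pi + h), F s =
      ∫ s in t..(t + h), F (s + 2 * Real.pi) := by
    rw [intervalIntegral.integral_comp_add_right]
    congr 1
    ring
  rw [h1]
  simp only [hp _]

/-- **approximation of a Lipschitz periodic function**, with bounded derivatives converging
wherever the function is differentiable -/
theorem approx_lip {F : ℝ → Euc N} {L : ℝ} (hL : ∀ s t, ‖F t - F s‖ ≤ L * |t - s|)
    (hF : Continuous F) (hp : Function.Periodic F (2 * Real.pi)) (m : ℕ) :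
    ∃ K0 : ℕ, ∀ K ≥ K0, ∃ w : Wt N K, ∀ t : ℝ,
      ‖ev (nuP K) t w - F t‖ ≤ (L + 1) * (1 / ((m : ℝ) + 1)) ∧
      ‖ev' (nuP K) t w - ((m : ℝ) + 1) • (F (t + 1 / ((m : ℝ) + 1)) - F t)‖ ≤
        1 / ((m : ℝ) + 1) := by
  have hm : (0 : ℝ) < 1 / ((m : ℝ) + 1) := Nat.one_div_pos_of_nat
  obtain ⟨K0, h0⟩ := approx1 (fun t => hasDerivAt_stk hF (1 / ((m : ℝ) + 1)) t)
    (by fun_prop) (stk_per hp _) hm
  refine ⟨K0, fun K hK => ?_⟩
  obtain ⟨w, hw⟩ := h0 K hK
  refine ⟨w, fun t => ⟨?_, ?_⟩⟩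
  · have h1 := (hw t).1
    have h2 := stk_sub_le hL hF hm t
    calc ‖ev (nuP K) t w - F t‖ = ‖(ev (nuP K) t w - stk F (1 / ((m : ℝ) + 1)) t) +
          (stk F (1 / ((m : ℝ) + 1)) t - F t)‖ := by congr 1; abel
      _ ≤ 1 / ((m : ℝ) + 1) + L * (1 / ((m : ℝ) + 1)) := (norm_add_le _ _).trans (by gcongr)
      _ = (L + 1) * (1 / ((m : ℝ) + 1)) := by ring
  · have h1 := (hw t).2
    rwa [one_div, inv_inv, ← one_div] at h1

end Crest.Agent.R208.NN
end
end

-- ▼ part R208/NN2c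
section

/-!
Row 208, block [N], part NN2c (helper336): the broken negative fields `δ X_w + J_w` (`J_w` on
`[0,π]`, `0` on `[π,2π]`) of one closed geodesic.
-/

set_option autoImplicit false

open MeasureTheory Measure Set Filter Topology Module Metric
open scoped ContDiff RealInnerProductSpace
open Crest.GeometryTopology.Submanifold
open Crest.Agent.R241.DDefs
open Crest.Agent.R241.D2
open Crest.Agent.R208.L (om TanTS dfl om_dfl)

noncomputable section

namespace Crest.Agent.R208.NN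

variable {n N K k : ℕ} {κ : ℝ} {S : Set (Euc N)} {G : Geo n N κ S} {z : Euc N × Euc N}
  {w : Euc N}

/-! ### Jacobi fields vanishing at `0` and `π` -/

lemma jf_per (hper : HS.Per G) (hz : z ∈ TS G) (h1 : ‖z.2‖ = 1) (hw : w ∈ G.T z.1)
    (hvw : ⟪z.2, w⟫ = 0) (t : ℝ) : dfl G z (t + 2 * Real.pi) (0, w) = dfl G z t (0, w) := by
  have h2 := NB.per_Dfl (G := G) hper (z := (0, w)) (q := z) (GT.tanTS_vert hz hw) h1 hvw t
  rw [L.dfl_apply hz, L.dfl_apply hz]
  exact h2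

lemma jf_zero (hz : z ∈ TS G) (ξ : Euc N × Euc N) : SV.jf G z ξ 0 = ξ.1 := by
  unfold SV.jf; rw [L.dfl_zero hz]

lemma jf'_zero (hz : z ∈ TS G) (ξ : Euc N × Euc N) : SV.jf' G z ξ 0 = ξ.2 := by
  unfold SV.jf'; rw [L.dfl_zero hz]

/-- the space of initial velocities of the null fields -/
def Wz (G : Geo n N κ S) (z : Euc N × Euc N) : Submodule ℝ (Euc N) :=
  (ℝ ∙ z.2)ᗮ ⊓ GT.Vs G z.1 (Exp G z.1 (Real.pi • z.2))

lemma mem_Wz : w ∈ Wz G z ↔ ⟪z.2, w⟫ = 0 ∧ w ∈ GT.Vs G z.1 (Exp G z.1 (Real.pi • z.2)) := by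
  unfold Wz
  rw [Submodule.mem_inf, Submodule.mem_orthogonal_singleton_iff_inner_right]

lemma Wz_le (h : GT.Bla G k) (hz : z ∈ TS G) (h1 : ‖z.2‖ = 1) (hw : w ∈ Wz G z) :
    w ∈ G.T z.1 := h.Vs_le (h.mem_FF hz.1 hz.2 h1) (mem_Wz.1 hw).2

lemma finrank_Wz (h : GT.Bla G k) (hz : z ∈ TS G) (h1 : ‖z.2‖ = 1) :
    finrank ℝ (Wz G z) + 1 = k := by
  have h2 : (ℝ ∙ z.2) ≤ GT.Vs G z.1 (Exp G z.1 (Real.pi • z.2)) := by
    rw [Submodule.span_singleton_le_iff_mem]
    exact GT.mem_Vs hz.2 h1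
  have h3 := Submodule.finrank_add_inf_finrank_orthogonal h2
  rw [h.finrank_Vs (h.mem_FF hz.1 hz.2 h1)] at h3
  have h4 : finrank ℝ (ℝ ∙ z.2) = 1 := finrank_span_singleton (by
    intro h0; rw [h0, norm_zero] at h1; exact zero_ne_one h1)
  rw [h4] at h3
  unfold Wz
  omega

lemma jf_pi (h : GT.Bla G k) (hz : z ∈ TS G) (h1 : ‖z.2‖ = 1) (hw : w ∈ Wz G z) :
    SV.jf G z (0, w) Real.pi = 0 := by
  obtain ⟨hvw, hV⟩ := mem_Wz.1 hw
  have hF := h.mem_FF hz.1 hz.2 h1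
  have h2 := (h.ker_iff hF (GT.mem_Vs hz.2 h1) h1 (b := w)).2 ⟨hV, hvw⟩
  have hT : TanTS G (z.1, z.2) (0, w) := GT.tanTS_vert hz h2.1
  have h3 := SV.dfl_scale hT Real.pi
  unfold SV.jf
  rw [show z = (z.1, z.2) from rfl, h3]
  have h4 := GT.dfl_vert_fst (G := G) (z := (z.1, Real.pi • z.2))
    ⟨hz.1, (G.T _).smul_mem _ hz.2⟩ (Real.pi • w)
  rw [h4]
  simp only
  rw [map_smul, h2.2, smul_zero]

/-- `J_w` vanishes wherever `sin` vanishes -/
lemma jf_sin (h : GT.Bla G k) (hz : z ∈ TS G) (h1 : ‖z.2‖ = 1) (hw : w ∈ Wz G z) {t : ℝ}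
    (ht : Real.sin t = 0) : SV.jf G z (0, w) t = 0 := by
  obtain ⟨m, rfl⟩ := Real.sin_eq_zero_iff.1 ht
  have hp : Function.Periodic (SV.jf G z (0, w)) (2 * Real.pi) := fun t => by
    unfold SV.jf
    rw [jf_per h.ty.per hz h1 (Wz_le h hz h1 hw) (mem_Wz.1 hw).1]
  rcases Int.even_or_odd' m with ⟨j, hj | hj⟩
  · have e : (m : ℝ) * Real.pi = 0 + j * (2 * Real.pi) := by rw [hj]; push_cast; ring
    rw [e, hp.int_mul j, jf_zero hz]
  · have e : (m : ℝ) * Real.pi = Real.pi + j * (2 * Real.pi) := by rw [hj]; push_cast; ring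
    rw [e, hp.int_mul j, jf_pi h hz h1 hw]

/-! ### Lipschitz bounds -/

lemma exists_lip {f f' : ℝ → Euc N} (hf : ∀ t, HasDerivAt f (f' t) t) (hf' : Continuous f')
    (hp' : Function.Periodic f' (2 * Real.pi)) :
    ∃ L, 0 ≤ L ∧ ∀ s t, ‖f t - f s‖ ≤ L * |t - s| := by
  obtain ⟨L, hL⟩ := (isCompact_Icc (a := (0:ℝ)) (b := 2 * Real.pi)).exists_bound_of_continuousOn
    hf'.continuousOn
  have hb : ∀ t, ‖f' t‖ ≤ max L 0 := small_of_per hp' fun t ht => (hL t ht).trans (le_max_left _ _)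
  refine ⟨max L 0, le_max_right _ _, fun s t => ?_⟩
  have := Convex.norm_image_sub_le_of_norm_hasDerivWithin_le (s := univ) (x := s) (y := t)
    (fun x _ => (hf x).hasDerivWithinAt) (fun x _ => hb x) convex_univ (mem_univ _) (mem_univ _)
  simpa using this

lemma lip_glue {c : ℝ → Prop} [DecidablePred c] {J : ℝ → Euc N} {L : ℝ} (hL0 : 0 ≤ L)
    (hL : ∀ s t, ‖J t - J s‖ ≤ L * |t - s|)
    (hc : ∀ s t, c s → ¬ c t → ∃ r ∈ uIcc s t, J r = 0) (s t : ℝ) :
    ‖(if c t then J t else 0) - (if c s then J s else 0)‖ ≤ L * |t - s| := by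
  have habs : ∀ {r : ℝ}, r ∈ uIcc s t → |t - r| ≤ |t - s| ∧ |s - r| ≤ |t - s| := by
    intro r hr
    have h1 := Set.abs_sub_right_of_mem_uIcc hr
    have h2 := Set.abs_sub_left_of_mem_uIcc hr
    rw [abs_sub_comm s r]
    exact ⟨h1, h2⟩
  by_cases h1 : c t <;> by_cases h2 : c s
  · simpa [h1, h2] using hL s t
  · obtain ⟨r, hr, hr0⟩ := hc t s h1 h2
    simp only [h1, h2, if_true, if_false, sub_zero]
    have h3 := hL r t
    rw [hr0, sub_zero] at h3
    rw [uIcc_comm] at hr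
    exact h3.trans (mul_le_mul_of_nonneg_left (habs hr).1 hL0)
  · obtain ⟨r, hr, hr0⟩ := hc s t h2 h1
    simp only [h1, h2, if_true, if_false, zero_sub, norm_neg]
    have h3 := hL r s
    rw [hr0, sub_zero] at h3
    exact h3.trans (mul_le_mul_of_nonneg_left (habs hr).2 hL0)
  · simp [h1, h2]
    positivity

/-- sign changes of the sine -/
lemma sin_change {s t : ℝ} (hs : 0 < Real.sin s) (ht : ¬ 0 < Real.sin t) :
    ∃ r ∈ uIcc s t, Real.sin r = 0 := by
  have h1 := intermediate_value_uIcc (a := s) (b := t) (f := Real.sin)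
    Real.continuous_sin.continuousOn
  have h2 : (0 : ℝ) ∈ uIcc (Real.sin s) (Real.sin t) := by
    rw [uIcc_comm, uIcc_of_le (by linarith [not_lt.1 ht])]
    exact ⟨not_lt.1 ht, hs.le⟩
  obtain ⟨r, hr, hr0⟩ := h1 h2
  exact ⟨r, hr, hr0⟩

lemma ae_sin_ne : ∀ᵐ t : ℝ, Real.sin t ≠ 0 := by
  have h1 : {t : ℝ | Real.sin t = 0} ⊆ range fun m : ℤ => (m : ℝ) * Real.pi := by
    intro t ht
    obtain ⟨m, hm⟩ := Real.sin_eq_zero_iff.1 ht
    exact ⟨m, hm⟩
  exact ((countable_range _).mono h1).ae_notMem volume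

/-- derivative of a glued function away from the zeros of the sine -/
lemma hasDerivAt_glue {J J' : ℝ → Euc N} (hJ : ∀ t, HasDerivAt J (J' t) t) {t : ℝ}
    (ht : Real.sin t ≠ 0) :
    HasDerivAt (fun t => if 0 < Real.sin t then J t else 0)
      (if 0 < Real.sin t then J' t else 0) t := by
  rcases lt_or_gt_of_ne ht with h | h
  · rw [if_neg (not_lt.2 h.le)]
    refine (hasDerivAt_const t (0 : Euc N)).congr_of_eventuallyEq ?_
    filter_upwards [(Real.continuous_sin.tendsto t).eventually (gt_mem_nhds h)] with s hs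
    rw [if_neg (not_lt.2 (le_of_lt hs))]
  · rw [if_pos h]
    refine (hJ t).congr_of_eventuallyEq ?_
    filter_upwards [(Real.continuous_sin.tendsto t).eventually (lt_mem_nhds h)] with s hs
    rw [if_pos hs]

end Crest.Agent.R208.NN
end
end

-- ▼ part R208/NN2d
section

/-!
Row 208, block [N], part NN2d (helper336): the broken fields `FL w = δ X_w + J_w` and the value of
the form on them.
-/

set_option autoImplicit false

open MeasureTheory Measure Set Filter Topology Module Metric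
open scoped ContDiff RealInnerProductSpace
open Crest.GeometryTopology.Submanifold
open Crest.Agent.R241.DDefs
open Crest.Agent.R241.D2
open Crest.Agent.R208.L (om TanTS dfl om_dfl)

noncomputable section

namespace Crest.Agent.R208.NN

variable {n N K k : ℕ} {κ : ℝ} {S : Set (Euc N)} {G : Geo n N κ S} {z : Euc N × Euc N}
  {w : Euc N}

/-- the cut off `(1 + cos t)/2` -/
def rh (t : ℝ) : ℝ := (1 + Real.cos t) / 2

def rh' (t : ℝ) : ℝ := -Real.sin t / 2

lemma hasDerivAt_rh (t : ℝ) : HasDerivAt rh (rh' t) t := by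
  unfold rh rh'
  exact ((Real.hasDerivAt_cos t).const_add 1).div_const 2

lemma rh_zero : rh 0 = 1 := by unfold rh; simp
lemma rh_pi : rh Real.pi = 0 := by unfold rh; simp
lemma abs_rh (t : ℝ) : |rh t| ≤ 1 := by
  unfold rh
  rw [abs_le]
  constructor <;> linarith [Real.cos_le_one t, Real.neg_one_le_cos t]
lemma abs_rh' (t : ℝ) : |rh' t| ≤ 1 := by
  unfold rh'
  rw [abs_le]
  constructor <;> linarith [Real.sin_le_one t, Real.neg_one_le_sin t]

variable (G) in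
/-- the smooth field `P (ρ(t) w)` -/
def Xf (z : Euc N × Euc N) (w : Euc N) (t : ℝ) : Euc N := G.P (fl G (z, t)).1 (rh t • w)

variable (G) in
def Xf' (z : Euc N × Euc N) (w : Euc N) (t : ℝ) : Euc N :=
  fderiv ℝ G.P (fl G (z, t)).1 (fl G (z, t)).2 (rh t • w) + G.P (fl G (z, t)).1 (rh' t • w)

lemma hasDerivAt_Xf (hz : z ∈ TS G) (w : Euc N) (t : ℝ) :
    HasDerivAt (Xf G z w) (Xf' G z w t) t := by
  have h1 : HasDerivAt (fun t => (fl G (z, t)).1) (fl G (z, t)).2 t :=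
    hda_fst (hasDerivAt_fl G (complete G hz t))
  have h2 : HasDerivAt (fun t => G.P (fl G (z, t)).1)
      (fderiv ℝ G.P (fl G (z, t)).1 (fl G (z, t)).2) t :=
    ((G.contDiff_P.differentiable (by simp)).differentiableAt.hasFDerivAt).comp_hasDerivAt t h1
  exact h2.clm_apply ((hasDerivAt_rh t).smul_const w)

lemma continuous_rh : Continuous rh := by unfold rh; fun_prop
lemma continuous_rh' : Continuous rh' := by unfold rh'; fun_prop

lemma continuous_Xf' (hz : z ∈ TS G) (w : Euc N) : Continuous (Xf' G z w) := by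
  have h1 := SV.continuous_fl (G := G) hz
  have h3 : Continuous (fderiv ℝ G.P) := G.contDiff_P.continuous_fderiv (by simp)
  exact (((h3.comp h1.fst).clm_apply h1.snd).clm_apply (continuous_rh.smul continuous_const)).add
    ((G.contDiff_P.continuous.comp h1.fst).clm_apply (continuous_rh'.smul continuous_const))

lemma fld_Xf (hz : z ∈ TS G) (w : Euc N) (a b : ℝ) : SV.Fld G z a b (Xf G z w) (Xf' G z w) where
  der t _ := (hasDerivAt_Xf hz w t).hasDerivWithinAt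
  cont := (continuous_Xf' hz w).continuousOn
  mem t _ := P_mem G (fl_mem G hz t).1

lemma fl_per' (hper : HS.Per G) (hz : z ∈ TS G) (h1 : ‖z.2‖ = 1) (t : ℝ) :
    fl G (z, t + 2 * Real.pi) = fl G (z, t) := by
  rw [add_comm, fl_add' G hz, hper z hz h1]

lemma rh_per (t : ℝ) : rh (t + 2 * Real.pi) = rh t := by unfold rh; rw [Real.cos_add_two_pi]
lemma rh'_per (t : ℝ) : rh' (t + 2 * Real.pi) = rh' t := by unfold rh'; rw [Real.sin_add_two_pi]

variable (G) in
/-- the broken field as a linear function of `w` -/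
def FL (z : Euc N × Euc N) (δ t : ℝ) (w : Euc N) : Euc N :=
  δ • Xf G z w t + (if 0 < Real.sin t then SV.jf G z (0, w) t else 0)

variable (G) in
/-- its derivative -/
def FL' (z : Euc N × Euc N) (δ t : ℝ) (w : Euc N) : Euc N :=
  δ • Xf' G z w t + (if 0 < Real.sin t then SV.jf' G z (0, w) t else 0)

lemma FL_add (z : Euc N × Euc N) (δ t : ℝ) (w w' : Euc N) :
    FL G z δ t (w + w') = FL G z δ t w + FL G z δ t w' := by
  have e : ((0, w + w') : Euc N × Euc N) = (0, w) + (0, w') := by ext1 <;> simp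
  simp only [FL, Xf, SV.jf, e, map_add, smul_add, Prod.fst_add]
  split_ifs <;> module

lemma FL_smul (z : Euc N × Euc N) (δ t c : ℝ) (w : Euc N) :
    FL G z δ t (c • w) = c • FL G z δ t w := by
  have e : ((0, c • w) : Euc N × Euc N) = c • (0, w) := by ext1 <;> simp
  simp only [FL, Xf, SV.jf, e, map_smul, Prod.smul_fst]
  split_ifs <;> module

lemma FL'_add (z : Euc N × Euc N) (δ t : ℝ) (w w' : Euc N) :
    FL' G z δ t (w + w') = FL' G z δ t w + FL' G z δ t w' := by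
  have e : ((0, w + w') : Euc N × Euc N) = (0, w) + (0, w') := by ext1 <;> simp
  simp only [FL', Xf', SV.jf', e, map_add, smul_add, Prod.snd_add]
  split_ifs <;> module

lemma FL'_smul (z : Euc N × Euc N) (δ t c : ℝ) (w : Euc N) :
    FL' G z δ t (c • w) = c • FL' G z δ t w := by
  have e : ((0, c • w) : Euc N × Euc N) = c • (0, w) := by ext1 <;> simp
  simp only [FL', Xf', SV.jf', e, map_smul, Prod.smul_snd]
  split_ifs <;> module

variable (G) in
/-- `FL` as a linear map -/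
def FLl (z : Euc N × Euc N) (δ t : ℝ) : Euc N →ₗ[ℝ] Euc N where
  toFun := FL G z δ t
  map_add' := FL_add z δ t
  map_smul' := FL_smul z δ t

variable (G) in
def FLl' (z : Euc N × Euc N) (δ t : ℝ) : Euc N →ₗ[ℝ] Euc N where
  toFun := FL' G z δ t
  map_add' := FL'_add z δ t
  map_smul' := FL'_smul z δ t

lemma FL_lip (h : GT.Bla G k) (hz : z ∈ TS G) (h1 : ‖z.2‖ = 1) (hw : w ∈ Wz G z) (δ : ℝ) :
    ∃ L, 0 ≤ L ∧ ∀ s t, ‖FL G z δ t w - FL G z δ s w‖ ≤ L * |t - s| := by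
  have hwT := Wz_le h hz h1 hw
  have hvw := (mem_Wz.1 hw).1
  obtain ⟨L1, h10, hL1⟩ := exists_lip (fun t => hasDerivAt_Xf hz w t) (continuous_Xf' hz w)
    (fun t => by unfold Xf'; rw [fl_per' h.ty.per hz h1, rh_per, rh'_per])
  obtain ⟨L2, h20, hL2⟩ := exists_lip (fun t => SV.hasDerivAt_jf hz (0, w) t)
    (continuous_iff_continuousAt.2 fun t => (SV.hasDerivAt_jf' hz (0, w) t).continuousAt)
    (fun t => by unfold SV.jf'; rw [jf_per h.ty.per hz h1 hwT hvw])
  have hg := lip_glue (c := fun t => 0 < Real.sin t) (J := SV.jf G z (0, w)) h20 hL2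
    (fun s t hs ht => by
      obtain ⟨r, hr, hr0⟩ := sin_change hs ht
      exact ⟨r, hr, jf_sin h hz h1 hw hr0⟩)
  refine ⟨|δ| * L1 + L2, by positivity, fun s t => ?_⟩
  unfold FL
  calc ‖δ • Xf G z w t + (if 0 < Real.sin t then SV.jf G z (0, w) t else 0) -
        (δ • Xf G z w s + (if 0 < Real.sin s then SV.jf G z (0, w) s else 0))‖
      = ‖δ • (Xf G z w t - Xf G z w s) + ((if 0 < Real.sin t then SV.jf G z (0, w) t else 0) -
        (if 0 < Real.sin s then SV.jf G z (0, w) s else 0))‖ := by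
        congr 1; module
    _ ≤ |δ| * (L1 * |t - s|) + L2 * |t - s| := by
        refine (norm_add_le _ _).trans (add_le_add ?_ (hg s t))
        rw [norm_smul, Real.norm_eq_abs]
        exact mul_le_mul_of_nonneg_left (hL1 s t) (abs_nonneg _)
    _ = (|δ| * L1 + L2) * |t - s| := by ring

lemma FL_per (h : GT.Bla G k) (hz : z ∈ TS G) (h1 : ‖z.2‖ = 1) (hw : w ∈ Wz G z) (δ : ℝ) :
    Function.Periodic (fun t => FL G z δ t w) (2 * Real.pi) := by
  intro t
  simp only [FL, Xf, SV.jf]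
  rw [fl_per' h.ty.per hz h1, rh_per, Real.sin_add_two_pi,
    jf_per h.ty.per hz h1 (Wz_le h hz h1 hw) (mem_Wz.1 hw).1]

lemma FL_cont (h : GT.Bla G k) (hz : z ∈ TS G) (h1 : ‖z.2‖ = 1) (hw : w ∈ Wz G z) (δ : ℝ) :
    Continuous (fun t => FL G z δ t w) := by
  obtain ⟨L, hL0, hL⟩ := FL_lip h hz h1 hw δ
  have : LipschitzWith (Real.toNNReal L) (fun t => FL G z δ t w) := by
    refine LipschitzWith.of_dist_le_mul fun s t => ?_
    rw [dist_eq_norm, Real.coe_toNNReal _ hL0, Real.dist_eq]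
    exact hL t s
  exact this.continuous

lemma FL_der (hz : z ∈ TS G) (w : Euc N) (δ : ℝ) {t : ℝ} (ht : Real.sin t ≠ 0) :
    HasDerivAt (fun t => FL G z δ t w) (FL' G z δ t w) t :=
  ((hasDerivAt_Xf hz w t).const_smul δ).fun_add
    (hasDerivAt_glue (fun t => SV.hasDerivAt_jf hz (0, w) t) ht)

/-- the index form of `X_w` is bounded by `C |w|²` -/
lemma exists_ix_Xf (h : GT.Bla G k) : ∃ C, 0 ≤ C ∧ ∀ z ∈ TS G, ‖z.2‖ = 1 → ∀ w : Euc N,
    SV.ix G z 0 (2 * Real.pi) (Xf G z w) (Xf' G z w) (Xf G z w) (Xf' G z w) ≤ C * ‖w‖ ^ 2 := by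
  obtain ⟨B, hB0, hB⟩ := SV.exists_II_bound G h.bl.cpt
  refine ⟨((B + 1) ^ 2 + B * B) * (2 * Real.pi), by have := Real.pi_pos; positivity, ?_⟩
  intro z hz h1 w
  have hfl : ∀ t, ‖(fl G (z, t)).2‖ = 1 := fun t => by rw [norm_fl G hz, h1]
  have hpt : ∀ t ∈ Icc 0 (2 * Real.pi), SV.ixd G z (Xf G z w) (Xf' G z w) (Xf G z w) (Xf' G z w) t
      ≤ ((B + 1) ^ 2 + B * B) * ‖w‖ ^ 2 := by
    intro t _
    have hS := (fl_mem G hz t).1
    have e1 : ‖rh t • w‖ ≤ ‖w‖ := by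
      rw [norm_smul, Real.norm_eq_abs]
      exact mul_le_of_le_one_left (norm_nonneg _) (abs_rh t)
    have e2 : ‖rh' t • w‖ ≤ ‖w‖ := by
      rw [norm_smul, Real.norm_eq_abs]
      exact mul_le_of_le_one_left (norm_nonneg _) (abs_rh' t)
    have e3 : ‖Xf G z w t‖ ≤ ‖w‖ := (SV.norm_P_le hS _).trans e1
    have e4 : ‖Xf' G z w t‖ ≤ (B + 1) * ‖w‖ := by
      unfold Xf'
      refine (norm_add_le _ _).trans ?_
      have h5 := hB _ hS (fl G (z, t)).2 (rh t • w)
      rw [hfl, mul_one] at h5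
      have h6 := (SV.norm_P_le (G := G) hS (rh' t • w)).trans e2
      have h7 : B * ‖rh t • w‖ ≤ B * ‖w‖ := by gcongr
      unfold II at h5
      linarith
    have e5 : ‖(X G (fl G (z, t))).2‖ ≤ B := by
      have h5 := hB _ hS (fl G (z, t)).2 (fl G (z, t)).2
      rw [hfl, mul_one, mul_one] at h5
      exact h5
    have e6 : ‖II G (fl G (z, t)).1 (Xf G z w t) (Xf G z w t)‖ ≤ B * ‖w‖ * ‖w‖ :=
      (hB _ hS _ _).trans (by gcongr)
    have e7 : -⟪(X G (fl G (z, t))).2, II G (fl G (z, t)).1 (Xf G z w t) (Xf G z w t)⟫ ≤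
        B * (B * ‖w‖ * ‖w‖) := by
      refine (neg_le_abs _).trans ((abs_real_inner_le_norm _ _).trans ?_)
      gcongr
    unfold SV.ixd
    rw [real_inner_self_eq_norm_sq]
    have e8 : ‖Xf' G z w t‖ ^ 2 ≤ ((B + 1) * ‖w‖) ^ 2 := by gcongr
    nlinarith
  have hi := (fld_Xf hz w 0 (2 * Real.pi)).intble hz (by positivity) (fld_Xf hz w 0 (2 * Real.pi))
  unfold SV.ix
  have h2 := intervalIntegral.integral_mono_on (by positivity) hi
    (g := fun _ => ((B + 1) ^ 2 + B * B) * ‖w‖ ^ 2) (by simp) hpt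
  refine h2.trans (le_of_eq ?_)
  rw [intervalIntegral.integral_const]
  simp only [sub_zero, smul_eq_mul]
  ring

/-- **the value of the form on the broken field** -/
lemma int_Psi_FL (h : GT.Bla G k) (hz : z ∈ TS G) (h1 : ‖z.2‖ = 1) (hw : w ∈ Wz G z) (δ : ℝ) :
    ∫ t in (0 : ℝ)..(2 * Real.pi), Psi G z t (FL G z δ t w) (FL' G z δ t w) =
      δ ^ 2 * SV.ix G z 0 (2 * Real.pi) (Xf G z w) (Xf' G z w) (Xf G z w) (Xf' G z w) -
        2 * δ * ‖w‖ ^ 2 := by
  have hwT := Wz_le h hz h1 hw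
  have hpi := Real.pi_pos
  set A : ℝ → Euc N := δ • Xf G z w with hA
  set A' : ℝ → Euc N := δ • Xf' G z w with hA'
  set J : ℝ → Euc N := SV.jf G z (0, w) with hJ
  set J' : ℝ → Euc N := SV.jf' G z (0, w) with hJ'
  have fA : ∀ a b, SV.Fld G z a b A A' := fun a b => (fld_Xf hz w a b).smul δ
  have hT : TanTS G z (0, w) := GT.tanTS_vert hz hwT
  have fJ : ∀ a b, SV.Fld G z a b J J' := fun a b => SV.fld_jf hT a b
  have fAJ : SV.Fld G z 0 Real.pi (A + J) (A' + J') := (fA _ _).add (fJ _ _)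
  -- the first half
  have i1 : ∀ᵐ t : ℝ, t ∈ Ioc 0 Real.pi → Psi G z t (FL G z δ t w) (FL' G z δ t w) =
      SV.ixd G z (A + J) (A' + J') (A + J) (A' + J') t := by
    filter_upwards [ae_sin_ne] with t hs ht
    have hs0 : 0 < Real.sin t := by
      rcases ht.2.lt_or_eq with h2 | h2
      · exact Real.sin_pos_of_pos_of_lt_pi ht.1 h2
      · exact absurd (by rw [h2]; exact Real.sin_pi) hs
    rw [← Psi_fld hz hpi fAJ ⟨ht.1.le, ht.2⟩]
    unfold FL FL'
    rw [if_pos hs0, if_pos hs0]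
    rfl
  have i2 : ∀ᵐ t : ℝ, t ∈ Ioc Real.pi (2 * Real.pi) →
      Psi G z t (FL G z δ t w) (FL' G z δ t w) = SV.ixd G z A A' A A' t := by
    filter_upwards [ae_sin_ne] with t hs ht
    have hs0 : ¬ 0 < Real.sin t := by
      intro h0
      have h3 : Real.sin (t - 2 * Real.pi) = Real.sin t := Real.sin_sub_two_pi t
      have h4 : Real.sin (t - 2 * Real.pi) ≤ 0 :=
        Real.sin_nonpos_of_nonpos_of_neg_pi_le (by linarith [ht.2]) (by linarith [ht.1])
      linarith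
    rw [← Psi_fld hz (by linarith : Real.pi < 2 * Real.pi) (fA _ _) ⟨ht.1.le, ht.2⟩]
    unfold FL FL'
    rw [if_neg hs0, if_neg hs0, add_zero, add_zero]
    rfl
  have e1 : ∫ t in (0 : ℝ)..Real.pi, Psi G z t (FL G z δ t w) (FL' G z δ t w) =
      SV.ix G z 0 Real.pi (A + J) (A' + J') (A + J) (A' + J') := by
    unfold SV.ix
    refine intervalIntegral.integral_congr_ae ?_
    rw [uIoc_of_le hpi.le]
    exact i1
  have e2 : ∫ t in Real.pi..(2 * Real.pi), Psi G z t (FL G z δ t w) (FL' G z δ t w) =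
      SV.ix G z Real.pi (2 * Real.pi) A A' A A' := by
    unfold SV.ix
    refine intervalIntegral.integral_congr_ae ?_
    rw [uIoc_of_le (by linarith)]
    exact i2
  have j1 : IntervalIntegrable (fun t => Psi G z t (FL G z δ t w) (FL' G z δ t w)) volume
      0 Real.pi := by
    refine (fAJ.intble hz hpi.le fAJ).congr_ae ?_
    rw [uIoc_of_le hpi.le, EventuallyEq, ae_restrict_iff' measurableSet_Ioc]
    filter_upwards [i1] with t ht hm
    exact (ht hm).symm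
  have j2 : IntervalIntegrable (fun t => Psi G z t (FL G z δ t w) (FL' G z δ t w)) volume
      Real.pi (2 * Real.pi) := by
    refine ((fA _ _).intble hz (by linarith) (fA _ _)).congr_ae ?_
    rw [uIoc_of_le (by linarith), EventuallyEq, ae_restrict_iff' measurableSet_Ioc]
    filter_upwards [i2] with t ht hm
    exact (ht hm).symm
  rw [← intervalIntegral.integral_add_adjacent_intervals j1 j2, e1, e2,
    SV.ix_add_self hpi.le hz (fA _ _) (fJ _ _)]
  have e3 : SV.ix G z 0 Real.pi J J' A A' = -(δ * ‖w‖ ^ 2) := by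
    rw [hJ, hJ', SV.ix_jac hT hpi.le (fA _ _), jf'_zero hz]
    have a1 : A Real.pi = 0 := by
      rw [hA, Pi.smul_apply]; unfold Xf; rw [rh_pi, zero_smul, map_zero, smul_zero]
    have a2 : A 0 = δ • w := by
      rw [hA, Pi.smul_apply]; unfold Xf
      rw [rh_zero, one_smul, fl_zero, (P_eq_self G hz.1).1 hwT]
    rw [a1, a2, inner_zero_right, inner_smul_right, real_inner_self_eq_norm_sq]
    ring
  have e4 : SV.ix G z 0 Real.pi J J' J J' = 0 := by
    have a1 : J Real.pi = 0 := jf_pi h hz h1 hw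
    have a2 : J 0 = 0 := jf_zero hz _
    have a3 := SV.ix_jac hT hpi.le (fJ _ _)
    rw [a1, a2] at a3
    rw [hJ, hJ', a3]
    simp
  rw [e3, e4]
  have e5 := SV.ix_add_interval hz hpi.le (by linarith : Real.pi ≤ 2 * Real.pi) (fA 0 Real.pi)
    (fA 0 Real.pi) (fA Real.pi (2 * Real.pi)) (fA Real.pi (2 * Real.pi))
  have e6 : SV.ix G z 0 (2 * Real.pi) A A' A A' =
      δ ^ 2 * SV.ix G z 0 (2 * Real.pi) (Xf G z w) (Xf' G z w) (Xf G z w) (Xf' G z w) := by
    rw [hA, hA', SV.ix_smul_left, SV.ix_smul_right]; ring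
  rw [← e6, ← e5]
  ring

end Crest.Agent.R208.NN
end
end

-- ▼ part R208/NN2e
section

/-!
Row 208, block [N], part NN2e (helper336): for one closed geodesic the form `qf` is negative
definite on a `(k-1)`-dimensional space of trigonometric polynomials.
-/

set_option autoImplicit false

open MeasureTheory Set Filter Topology Module Metric
open scoped ContDiff RealInnerProductSpace
open Crest.GeometryTopology.Submanifold
open Crest.Agent.R241.DDefs
open Crest.Agent.R241.D2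
open Crest.Agent.R208.L (om TanTS dfl om_dfl)

noncomputable section

namespace Crest.Agent.R208.NN

variable {n N K k : ℕ} {κ : ℝ} {S : Set (Euc N)} {G : Geo n N κ S} {z : Euc N × Euc N}
  {w : Euc N}

lemma Psi_smul (z : Euc N × Euc N) (c t : ℝ) (x y : Euc N) :
    Psi G z t (c • x) (c • y) = c ^ 2 * Psi G z t x y := by
  unfold Psi II
  simp only [map_smul, smul_apply, real_inner_smul_right, ← smul_sub, ← smul_add, norm_smul,
    mul_pow, Real.norm_eq_abs, sq_abs]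
  ring

lemma qf_smul (hz : z ∈ TS G) (ν : Fin K → ℝ) (c : ℝ) (w : Wt N K) :
    qf G z ν (c • w) = c ^ 2 * qf G z ν w := by
  rw [qf_eq hz, qf_eq hz, ← intervalIntegral.integral_const_mul]
  refine intervalIntegral.integral_congr fun t _ => ?_
  simp only [map_smul]
  exact Psi_smul z c t _ _

lemma qf_zero (hz : z ∈ TS G) (ν : Fin K → ℝ) : qf G z ν (0 : Wt N K) = 0 := by
  have := qf_smul hz ν 0 (0 : Wt N K)
  simpa using this

/-- difference quotients converge to the derivative -/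
lemma tendsto_dq {F : ℝ → Euc N} {F' : Euc N} {t : ℝ} (hF : HasDerivAt F F' t) :
    Tendsto (fun m : ℕ => ((m : ℝ) + 1) • (F (t + 1 / ((m : ℝ) + 1)) - F t)) atTop (𝓝 F') := by
  have h1 := hF.tendsto_slope_zero
  have h2 : Tendsto (fun m : ℕ => 1 / ((m : ℝ) + 1)) atTop (𝓝[≠] 0) := by
    rw [tendsto_nhdsWithin_iff]
    refine ⟨tendsto_one_div_add_atTop_nhds_zero_nat, Eventually.of_forall fun m => ?_⟩
    simp only [mem_compl_iff, mem_singleton_iff]
    positivity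
  have h3 := h1.comp h2
  refine h3.congr fun m => ?_
  simp only [Function.comp_apply, one_div, inv_inv]

set_option maxHeartbeats 400000 in
theorem exists_neg_z (h : GT.Bla G k) (hz : z ∈ TS G) (h1 : ‖z.2‖ = 1) :
    ∃ K, ∃ N0 : Submodule ℝ (Wt N K), finrank ℝ N0 + 1 = k ∧
      ∀ w ∈ N0, w ≠ 0 → qf G z (nuP K) w < 0 := by
  by_contra hcon
  push Not at hcon
  -- data
  obtain ⟨C, hC0, hC⟩ := exists_ix_Xf h
  set δ : ℝ := 1 / (C + 1) with hδ
  have hδ0 : 0 < δ := by positivity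
  set d := finrank ℝ (Wz G z) with hd
  have hdk : d + 1 = k := finrank_Wz h hz h1
  set b := stdOrthonormalBasis ℝ (Wz G z) with hb
  -- the basic fields
  have hbm : ∀ j, ((b j : Wz G z) : Euc N) ∈ Wz G z := fun j => (b j).2
  have hL : ∀ j, ∃ L, 0 ≤ L ∧ ∀ s t, ‖FL G z δ t (b j) - FL G z δ s (b j)‖ ≤ L * |t - s| :=
    fun j => FL_lip h hz h1 (hbm j) δ
  choose L hL0 hL using hL
  have hB : ∀ j, ∃ B, ∀ t, ‖FL G z δ t (b j)‖ ≤ B := by
    intro j
    obtain ⟨B, hB⟩ := (isCompact_Icc (a := (0:ℝ)) (b := 2 * Real.pi)).exists_bound_of_continuousOn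
      (FL_cont h hz h1 (hbm j) δ).continuousOn
    exact ⟨B, fun t => small_of_per (FL_per h hz h1 (hbm j) δ) hB t⟩
  choose B hB using hB
  have happ : ∀ j (m : ℕ), ∃ K0 : ℕ, ∀ K ≥ K0, ∃ w : Wt N K, ∀ t : ℝ,
      ‖ev (nuP K) t w - FL G z δ t (b j)‖ ≤ (L j + 1) * (1 / ((m : ℝ) + 1)) ∧
      ‖ev' (nuP K) t w - ((m : ℝ) + 1) •
        (FL G z δ (t + 1 / ((m : ℝ) + 1)) (b j) - FL G z δ t (b j))‖ ≤ 1 / ((m : ℝ) + 1) :=
    fun j m => approx_lip (hL j) (FL_cont h hz h1 (hbm j) δ) (FL_per h hz h1 (hbm j) δ) m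
  choose K0 hK0 using happ
  set Km : ℕ → ℕ := fun m => Finset.univ.sup fun j => K0 j m with hKm
  have hT : ∀ j m, ∃ w : Wt N (Km m), ∀ t : ℝ,
      ‖ev (nuP (Km m)) t w - FL G z δ t (b j)‖ ≤ (L j + 1) * (1 / ((m : ℝ) + 1)) ∧
      ‖ev' (nuP (Km m)) t w - ((m : ℝ) + 1) •
        (FL G z δ (t + 1 / ((m : ℝ) + 1)) (b j) - FL G z δ t (b j))‖ ≤ 1 / ((m : ℝ) + 1) :=
    fun j m => hK0 j m (Km m) (Finset.le_sup (f := fun j => K0 j m) (Finset.mem_univ j))
  choose T hT using hT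
  -- the linear maps
  set Lin : ∀ m, EuclideanSpace ℝ (Fin d) →ₗ[ℝ] Wt N (Km m) := fun m =>
    { toFun := fun c => ∑ j, c j • T j m
      map_add' := fun c c' => by
        simp only [PiLp.add_apply, add_smul, Finset.sum_add_distrib]
      map_smul' := fun a c => by
        simp only [PiLp.smul_apply, smul_eq_mul, RingHom.id_apply, Finset.smul_sum, smul_smul] }
    with hLin
  -- a bad unit vector for every `m`
  have hbad : ∀ m, ∃ c : EuclideanSpace ℝ (Fin d), ‖c‖ = 1 ∧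
      0 ≤ qf G z (nuP (Km m)) (Lin m c) := by
    intro m
    have hex : ∃ c : EuclideanSpace ℝ (Fin d), c ≠ 0 ∧ 0 ≤ qf G z (nuP (Km m)) (Lin m c) := by
      by_cases hinj : Function.Injective (Lin m)
      · have hfr : finrank ℝ (LinearMap.range (Lin m)) = d := by
          rw [LinearMap.finrank_range_of_inj hinj, finrank_euclideanSpace, Fintype.card_fin]
        obtain ⟨w, ⟨c, rfl⟩, hw0, hq⟩ := hcon (Km m) (LinearMap.range (Lin m)) (by rw [hfr, hdk])
        exact ⟨c, fun hc => hw0 (by rw [hc, map_zero]), hq⟩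
      · rw [← LinearMap.ker_eq_bot, Submodule.eq_bot_iff] at hinj
        push Not at hinj
        obtain ⟨c, hc, hc0⟩ := hinj
        rw [LinearMap.mem_ker] at hc
        exact ⟨c, hc0, by rw [hc, qf_zero hz]⟩
    obtain ⟨c, hc0, hq⟩ := hex
    refine ⟨‖c‖⁻¹ • c, norm_smul_inv_norm hc0, ?_⟩
    rw [map_smul, qf_smul hz]
    positivity
  choose c hc1 hcq using hbad
  -- a convergent subsequence
  obtain ⟨c0, hc0, φ, hφ, hlim⟩ := (isCompact_sphere (0 : EuclideanSpace ℝ (Fin d)) 1).tendsto_subseq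
    (x := c) (fun m => by simpa using hc1 m)
  have hc0n : ‖c0‖ = 1 := by simpa using hc0
  -- the limit vector
  set w0 : Euc N := ∑ j, c0 j • ((b j : Wz G z) : Euc N) with hw0
  have hw0m : w0 ∈ Wz G z := Submodule.sum_mem _ fun j _ => (Wz G z).smul_mem _ (b j).2
  have hw0n : ‖w0‖ = 1 := by
    have e1 : w0 = ((b.repr.symm c0 : Wz G z) : Euc N) := by
      rw [← b.sum_repr_symm, hw0, Submodule.coe_sum]
      rfl
    rw [e1]
    change ‖b.repr.symm c0‖ = 1
    rw [LinearIsometryEquiv.norm_map, hc0n]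
  -- values of the approximations
  have hevL : ∀ m t (e : EuclideanSpace ℝ (Fin d)), ev (nuP (Km m)) t (Lin m e) =
      ∑ j, e j • ev (nuP (Km m)) t (T j m) := by
    intro m t e
    simp only [hLin, LinearMap.coe_mk, AddHom.coe_mk, map_sum, map_smul]
  have hevL' : ∀ m t (e : EuclideanSpace ℝ (Fin d)), ev' (nuP (Km m)) t (Lin m e) =
      ∑ j, e j • ev' (nuP (Km m)) t (T j m) := by
    intro m t e
    simp only [hLin, LinearMap.coe_mk, AddHom.coe_mk, map_sum, map_smul]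
  have hcj : ∀ m j, |c m j| ≤ 1 := by
    intro m j
    have := PiLp.norm_apply_le (p := 2) (c m) j
    rw [hc1 m] at this
    simpa using this
  have hm1 : ∀ m : ℕ, 1 / ((m : ℝ) + 1) ≤ 1 := fun m => by
    rw [div_le_one (by positivity)]
    linarith [(Nat.cast_nonneg m : (0:ℝ) ≤ m)]
  have hm0 : ∀ m : ℕ, 0 < 1 / ((m : ℝ) + 1) := fun m => Nat.one_div_pos_of_nat
  have bd1 : ∀ j m t, ‖ev (nuP (Km m)) t (T j m)‖ ≤ B j + (L j + 1) := by
    intro j m t
    have e1 := (hT j m t).1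
    have e2 := hB j t
    have e3 : (L j + 1) * (1 / ((m : ℝ) + 1)) ≤ (L j + 1) * 1 :=
      mul_le_mul_of_nonneg_left (hm1 m) (by linarith [hL0 j])
    calc ‖ev (nuP (Km m)) t (T j m)‖ = ‖(ev (nuP (Km m)) t (T j m) - FL G z δ t (b j)) +
          FL G z δ t (b j)‖ := by rw [sub_add_cancel]
      _ ≤ ‖ev (nuP (Km m)) t (T j m) - FL G z δ t (b j)‖ + ‖FL G z δ t (b j)‖ := norm_add_le _ _
      _ ≤ B j + (L j + 1) := by linarith
  have bd2 : ∀ j m t, ‖ev' (nuP (Km m)) t (T j m)‖ ≤ L j + 1 := by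
    intro j m t
    have e1 := (hT j m t).2
    have e2 := hL j t (t + 1 / ((m : ℝ) + 1))
    rw [add_sub_cancel_left, abs_of_pos (hm0 m)] at e2
    have e3 : ‖((m : ℝ) + 1) •
        (FL G z δ (t + 1 / ((m : ℝ) + 1)) (b j) - FL G z δ t (b j))‖ ≤ L j := by
      rw [norm_smul, Real.norm_of_nonneg (by positivity)]
      calc ((m : ℝ) + 1) * ‖FL G z δ (t + 1 / ((m : ℝ) + 1)) (b j) - FL G z δ t (b j)‖
          ≤ ((m : ℝ) + 1) * (L j * (1 / ((m : ℝ) + 1))) := by gcongr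
        _ = L j := by field_simp
    have e4 := hm1 m
    have e5 := norm_le_norm_add_norm_sub' (ev' (nuP (Km m)) t (T j m)) (((m : ℝ) + 1) •
        (FL G z δ (t + 1 / ((m : ℝ) + 1)) (b j) - FL G z δ t (b j)))
    linarith
  set M : ℝ := ∑ j, (|B j| + (L j + 1)) with hM
  have hM1 : ∀ m t, ‖ev (nuP (Km m)) t (Lin m (c m))‖ ≤ M := by
    intro m t
    rw [hevL]
    refine (norm_sum_le _ _).trans (Finset.sum_le_sum fun j _ => ?_)
    rw [norm_smul, Real.norm_eq_abs]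
    have e1 := bd1 j m t
    have e2 := le_abs_self (B j)
    calc |c m j| * ‖ev (nuP (Km m)) t (T j m)‖ ≤ 1 * ‖ev (nuP (Km m)) t (T j m)‖ :=
          mul_le_mul_of_nonneg_right (hcj m j) (norm_nonneg _)
      _ ≤ |B j| + (L j + 1) := by rw [one_mul]; linarith
  have hM2 : ∀ m t, ‖ev' (nuP (Km m)) t (Lin m (c m))‖ ≤ M := by
    intro m t
    rw [hevL']
    refine (norm_sum_le _ _).trans (Finset.sum_le_sum fun j _ => ?_)
    rw [norm_smul, Real.norm_eq_abs]
    have e1 := bd2 j m t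
    calc |c m j| * ‖ev' (nuP (Km m)) t (T j m)‖ ≤ 1 * ‖ev' (nuP (Km m)) t (T j m)‖ :=
          mul_le_mul_of_nonneg_right (hcj m j) (norm_nonneg _)
      _ ≤ |B j| + (L j + 1) := by rw [one_mul]; linarith [abs_nonneg (B j)]
  have hone : Tendsto (fun m : ℕ => 1 / ((m : ℝ) + 1)) atTop (𝓝 0) :=
    tendsto_one_div_add_atTop_nhds_zero_nat
  have hTl : ∀ j t, Tendsto (fun m => ev (nuP (Km m)) t (T j m)) atTop
      (𝓝 (FL G z δ t (b j))) := by
    intro j t
    rw [tendsto_iff_norm_sub_tendsto_zero]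
    refine squeeze_zero (fun _ => norm_nonneg _) (fun m => (hT j m t).1) ?_
    simpa using hone.const_mul (L j + 1)
  have hTl' : ∀ j t, Real.sin t ≠ 0 → Tendsto (fun m => ev' (nuP (Km m)) t (T j m)) atTop
      (𝓝 (FL' G z δ t (b j))) := by
    intro j t ht
    have e1 := tendsto_dq (FL_der hz (b j : Euc N) δ ht)
    have e2 : Tendsto (fun m => ev' (nuP (Km m)) t (T j m) - ((m : ℝ) + 1) •
        (FL G z δ (t + 1 / ((m : ℝ) + 1)) (b j) - FL G z δ t (b j))) atTop (𝓝 0) := by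
      rw [tendsto_zero_iff_norm_tendsto_zero]
      exact squeeze_zero (fun _ => norm_nonneg _) (fun m => (hT j m t).2) hone
    have e3 := e2.add e1
    simpa using e3
  have hcl : ∀ j, Tendsto (fun m => c (φ m) j) atTop (𝓝 (c0 j)) := by
    intro j
    have e1 : Continuous fun x : EuclideanSpace ℝ (Fin d) => x j := by fun_prop
    exact (e1.tendsto c0).comp hlim
  have hX : ∀ t, Tendsto (fun m => ev (nuP (Km (φ m))) t (Lin (φ m) (c (φ m)))) atTop
      (𝓝 (FL G z δ t w0)) := by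
    intro t
    have e1 : FL G z δ t w0 = ∑ j, c0 j • FL G z δ t (b j) := by
      change FLl G z δ t w0 = ∑ j, c0 j • FLl G z δ t (b j)
      rw [hw0, map_sum]
      simp only [map_smul]
    rw [e1]
    simp only [hevL]
    exact tendsto_finsetSum _ fun j _ => (hcl j).smul ((hTl j t).comp hφ.tendsto_atTop)
  have hY : ∀ᵐ t : ℝ, Tendsto (fun m => ev' (nuP (Km (φ m))) t (Lin (φ m) (c (φ m)))) atTop
      (𝓝 (FL' G z δ t w0)) := by
    filter_upwards [ae_sin_ne] with t ht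
    have e1 : FL' G z δ t w0 = ∑ j, c0 j • FL' G z δ t (b j) := by
      change FLl' G z δ t w0 = ∑ j, c0 j • FLl' G z δ t (b j)
      rw [hw0, map_sum]
      simp only [map_smul]
    rw [e1]
    simp only [hevL']
    exact tendsto_finsetSum _ fun j _ => (hcl j).smul ((hTl' j t ht).comp hφ.tendsto_atTop)
  have hlimI := tendsto_Psi (G := G) hz (by positivity : (0:ℝ) ≤ 2 * Real.pi)
    (x := fun m t => ev (nuP (Km (φ m))) t (Lin (φ m) (c (φ m))))
    (y := fun m t => ev' (nuP (Km (φ m))) t (Lin (φ m) (c (φ m))))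
    (fun m => continuous_ev _ _) (fun m => continuous_ev' _ _) (fun m t => hM1 (φ m) t)
    (fun m t => hM2 (φ m) t) hX hY
  have hge : 0 ≤ ∫ t in (0 : ℝ)..(2 * Real.pi), Psi G z t (FL G z δ t w0) (FL' G z δ t w0) := by
    refine ge_of_tendsto' hlimI fun m => ?_
    have := hcq (φ m)
    rwa [qf_eq hz] at this
  rw [int_Psi_FL h hz h1 hw0m, hw0n] at hge
  have h5 := hC z hz h1 w0
  rw [hw0n] at h5
  have h6 : δ * (C + 1) = 1 := by rw [hδ]; field_simp
  nlinarith [mul_le_mul_of_nonneg_left h5 (sq_nonneg δ)]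

end Crest.Agent.R208.NN
end
end

-- ▼ part R208/NN2f
section

/-!
Row 208, block [N], part NN2f (helper336): `hneg`, uniformly on the unit sphere bundle.
-/

set_option autoImplicit false

open MeasureTheory Set Filter Topology Module Metric
open scoped ContDiff RealInnerProductSpace
open Crest.GeometryTopology.Submanifold
open Crest.Agent.R241.DDefs
open Crest.Agent.R241.D2
open Crest.Agent.R208.L (om TanTS dfl om_dfl)

noncomputable section

namespace Crest.Agent.R208.NN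

variable {n N K k : ℕ} {κ : ℝ} {S : Set (Euc N)} {G : Geo n N κ S} {z : Euc N × Euc N}
  {w : Euc N}

/-! ### inclusion `Wt N K → Wt N (K+1)` -/

/-- extension of the coefficients by zero -/
def io (w : Wt N K) : Wt N (K + 1) :=
  WithLp.toLp 2 fun x => (Fin.lastCases (motive := fun _ => ℝ) 0 (fun i => w ((i, x.1.2), x.2))
    x.1.1 : ℝ)

lemma pr_io_castSucc (i : Fin K) (e : Fin 2) (w : Wt N K) : pr i.castSucc e (io w) = pr i e w := by
  ext j
  simp [io]

lemma pr_io_last (e : Fin 2) (w : Wt N K) : pr (Fin.last K) e (io w) = 0 := by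
  ext j
  simp [io]

/-- `io` as a linear map -/
def ioL (N K : ℕ) : Wt N K →ₗ[ℝ] Wt N (K + 1) where
  toFun := io
  map_add' w w' := by
    refine ext_pr fun i e => ?_
    refine Fin.lastCases ?_ (fun i => ?_) i
    · rw [map_add, pr_io_last, pr_io_last, pr_io_last, add_zero]
    · rw [map_add, pr_io_castSucc, pr_io_castSucc, pr_io_castSucc, map_add]
  map_smul' c w := by
    refine ext_pr fun i e => ?_
    refine Fin.lastCases ?_ (fun i => ?_) i
    · rw [RingHom.id_apply, map_smul, pr_io_last, pr_io_last, smul_zero]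
    · rw [RingHom.id_apply, map_smul, pr_io_castSucc, pr_io_castSucc, map_smul]

lemma nuP_castSucc (i : Fin K) : nuP (K + 1) i.castSucc = nuP K i := rfl

lemma ev_io (t : ℝ) (w : Wt N K) : ev (nuP (K + 1)) t (io w) = ev (nuP K) t w := by
  rw [ev_apply, ev_apply, Fin.sum_univ_castSucc, pr_io_last, pr_io_last]
  simp only [pr_io_castSucc, nuP_castSucc, smul_zero, add_zero]

lemma ev'_io (t : ℝ) (w : Wt N K) : ev' (nuP (K + 1)) t (io w) = ev' (nuP K) t w := by
  rw [ev'_apply, ev'_apply, Fin.sum_univ_castSucc, pr_io_last, pr_io_last]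
  simp only [pr_io_castSucc, nuP_castSucc, smul_zero, add_zero]

lemma qf_io (hz : z ∈ TS G) (w : Wt N K) : qf G z (nuP (K + 1)) (io w) = qf G z (nuP K) w := by
  rw [qf_eq hz, qf_eq hz]
  simp only [ev_io, ev'_io]

lemma norm_io (w : Wt N K) : ‖io w‖ = ‖w‖ := by
  have h1 : ⟪io w, io w⟫ = ⟪w, w⟫ := by
    rw [inner_eq_sum, inner_eq_sum, Fin.sum_univ_castSucc, pr_io_last, pr_io_last]
    simp only [pr_io_castSucc, inner_zero_left, add_zero]
  rw [real_inner_self_eq_norm_sq, real_inner_self_eq_norm_sq] at h1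
  exact (sq_eq_sq₀ (norm_nonneg _) (norm_nonneg _)).1 h1

lemma ioL_inj (N K : ℕ) : Function.Injective (ioL N K) := by
  rw [← LinearMap.ker_eq_bot, Submodule.eq_bot_iff]
  intro w hw
  rw [LinearMap.mem_ker] at hw
  have : ‖io w‖ = 0 := by
    change ‖ioL N K w‖ = 0
    rw [hw, norm_zero]
  rwa [norm_io, norm_eq_zero] at this

/-! ### the uniform statement -/

variable (G) in
/-- a `(k-1)`-dimensional subspace on which `qf ≤ -δ|w|²` -/
def QQ (k K : ℕ) (δ : ℝ) (z : Euc N × Euc N) : Prop :=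
  ∃ M : Submodule ℝ (Wt N K), finrank ℝ M + 1 = k ∧
    ∀ w ∈ M, qf G z (nuP K) w ≤ -(δ * ‖w‖ ^ 2)

lemma QQ.succ {δ : ℝ} (hz : z ∈ TS G) (h : QQ G k K δ z) : QQ G k (K + 1) δ z := by
  obtain ⟨M, h1, h2⟩ := h
  refine ⟨M.map (ioL N K), ?_, ?_⟩
  · rw [← h1, (Submodule.equivMapOfInjective (ioL N K) (ioL_inj N K) M).finrank_eq]
  · rintro _ ⟨w, hw, rfl⟩
    change qf G z (nuP (K + 1)) (io w) ≤ -(δ * ‖io w‖ ^ 2)
    rw [qf_io hz, norm_io]
    exact h2 w hw

lemma QQ.mono_K {δ : ℝ} (hz : z ∈ TS G) (h : QQ G k K δ z) {K' : ℕ} (hK : K ≤ K') :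
    QQ G k K' δ z := by
  induction K', hK using Nat.le_induction with
  | base => exact h
  | succ m _ ih => exact ih.succ hz

lemma QQ.mono_δ {δ δ' : ℝ} (h : QQ G k K δ z) (hδ : δ' ≤ δ) : QQ G k K δ' z := by
  obtain ⟨M, h1, h2⟩ := h
  refine ⟨M, h1, fun w hw => (h2 w hw).trans ?_⟩
  have := sq_nonneg ‖w‖
  nlinarith

/-- local version -/
lemma QQ_local (h : GT.Bla G k) (hz : z ∈ TS G) (h1 : ‖z.2‖ = 1) :
    ∃ K δ, 0 < δ ∧ ∀ᶠ y in 𝓝[L.US G] z, QQ G k K δ y := by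
  obtain ⟨K, M, hM, hneg⟩ := exists_neg_z h hz h1
  -- a uniform constant on the unit sphere of `M`
  have hc : ∃ c : ℝ, 0 < c ∧ ∀ w ∈ M, ⟪NB.Az G (nuP K) z w, w⟫ ≤ -(c * ‖w‖ ^ 2) := by
    set Sph : Set (Wt N K) := sphere 0 1 ∩ (M : Set (Wt N K)) with hSph
    have hcpt : IsCompact Sph := (isCompact_sphere _ _).inter_right M.closed_of_finiteDimensional
    have hcont : Continuous fun w : Wt N K => ⟪NB.Az G (nuP K) z w, w⟫ := by fun_prop
    have hsph : ∀ w ∈ Sph, ⟪NB.Az G (nuP K) z w, w⟫ < 0 := by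
      intro w hw
      rw [NB.inner_Az_self hz]
      refine hneg w hw.2 ?_
      rintro rfl
      have := hw.1
      simp at this
    obtain ⟨c, hc0, hc⟩ : ∃ c : ℝ, 0 < c ∧ ∀ w ∈ Sph, ⟪NB.Az G (nuP K) z w, w⟫ ≤ -c := by
      rcases Sph.eq_empty_or_nonempty with he | hne
      · exact ⟨1, one_pos, fun w hw => by rw [he] at hw; exact absurd hw (notMem_empty _)⟩
      · obtain ⟨w0, hw0, hmax⟩ := hcpt.exists_isMaxOn hne hcont.continuousOn
        refine ⟨-⟪NB.Az G (nuP K) z w0, w0⟫, by linarith [hsph w0 hw0], fun w hw => ?_⟩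
        rw [neg_neg]
        exact hmax hw
    refine ⟨c, hc0, fun w hw => ?_⟩
    by_cases hw0 : w = 0
    · rw [hw0]; simp
    · have hn : 0 < ‖w‖ := norm_pos_iff.2 hw0
      have h2 := hc (‖w‖⁻¹ • w) ⟨by simp [norm_smul, hn.ne'], M.smul_mem _ hw⟩
      rw [map_smul, real_inner_smul_left, real_inner_smul_right] at h2
      have h3 : ‖w‖⁻¹ * (‖w‖⁻¹ * ⟪NB.Az G (nuP K) z w, w⟫) * ‖w‖ ^ 2 ≤ -c * ‖w‖ ^ 2 := by
        gcongr
      have h4 : ‖w‖⁻¹ * (‖w‖⁻¹ * ⟪NB.Az G (nuP K) z w, w⟫) * ‖w‖ ^ 2 =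
          ⟪NB.Az G (nuP K) z w, w⟫ := by field_simp
      rw [h4] at h3
      linarith
  obtain ⟨c, hc0, hc⟩ := hc
  refine ⟨K, c / 2, by positivity, ?_⟩
  have hcA : ContinuousAt (NB.Az G (nuP K)) z := (NB.contDiffAt_Az hz).continuousAt
  have hev : ∀ᶠ y in 𝓝 z, ‖NB.Az G (nuP K) y - NB.Az G (nuP K) z‖ < c / 2 := by
    have := Metric.tendsto_nhds.1 hcA.tendsto (c / 2) (by positivity)
    filter_upwards [this] with y hy
    rwa [dist_eq_norm] at hy
  filter_upwards [nhdsWithin_le_nhds hev, self_mem_nhdsWithin] with y hy hyU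
  refine ⟨M, hM, fun w hw => ?_⟩
  rw [← NB.inner_Az_self hyU.1]
  have h2 : ⟪NB.Az G (nuP K) y w, w⟫ = ⟪NB.Az G (nuP K) z w, w⟫ +
      ⟪(NB.Az G (nuP K) y - NB.Az G (nuP K) z) w, w⟫ := by
    rw [sub_apply, inner_sub_left]; ring
  have h3 : ⟪(NB.Az G (nuP K) y - NB.Az G (nuP K) z) w, w⟫ ≤ c / 2 * ‖w‖ ^ 2 := by
    refine (real_inner_le_norm _ _).trans ?_
    have h4 := (NB.Az G (nuP K) y - NB.Az G (nuP K) z).le_opNorm w
    calc ‖(NB.Az G (nuP K) y - NB.Az G (nuP K) z) w‖ * ‖w‖ ≤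
        (‖NB.Az G (nuP K) y - NB.Az G (nuP K) z‖ * ‖w‖) * ‖w‖ := by gcongr
      _ ≤ (c / 2 * ‖w‖) * ‖w‖ := by gcongr
      _ = c / 2 * ‖w‖ ^ 2 := by ring
  rw [h2]
  linarith [hc w hw]

/-- **hneg, periodic case** -/
theorem hneg_per (h : GT.Bla G k) : ∃ K0 : ℕ, ∀ K ≥ K0, ∃ δ : ℝ, 0 < δ ∧ ∀ z ∈ L.US G,
    ∃ M : Submodule ℝ (Wt N K), finrank ℝ M = k - 1 ∧
      ∀ w ∈ M, qf G z (nuP K) w ≤ -(δ * ‖w‖ ^ 2) := by
  have hcpt : IsCompact (L.US G) := LB.isCompact_US h.bl.cpt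
  have key : ∃ K0 δ, 0 < δ ∧ ∀ z ∈ L.US G, QQ G k K0 δ z := by
    refine hcpt.induction_on (p := fun s => ∃ K0 δ, 0 < δ ∧ ∀ z ∈ s ∩ L.US G, QQ G k K0 δ z)
      ?_ ?_ ?_ ?_ |>.imp fun K0 hK0 => ?_
    · exact ⟨0, 1, one_pos, fun z hz => absurd hz.1 (notMem_empty _)⟩
    · rintro s t hst ⟨K0, δ, h0, h1⟩
      exact ⟨K0, δ, h0, fun z hz => h1 z ⟨hst hz.1, hz.2⟩⟩
    · rintro s t ⟨K1, δ1, h1, h1'⟩ ⟨K2, δ2, h2, h2'⟩
      refine ⟨max K1 K2, min δ1 δ2, lt_min h1 h2, ?_⟩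
      rintro z ⟨hz | hz, hzU⟩
      · exact ((h1' z ⟨hz, hzU⟩).mono_K hzU.1 (le_max_left _ _)).mono_δ (min_le_left _ _)
      · exact ((h2' z ⟨hz, hzU⟩).mono_K hzU.1 (le_max_right _ _)).mono_δ (min_le_right _ _)
    · intro z hz
      obtain ⟨K, δ, h0, hev⟩ := QQ_local h hz.1 hz.2
      obtain ⟨t, ht, hq⟩ := hev.exists_mem
      exact ⟨t, ht, K, δ, h0, fun y hy => hq y hy.1⟩
    · obtain ⟨δ, h0, h1⟩ := hK0
      exact ⟨δ, h0, fun z hz => h1 z ⟨hz, hz⟩⟩
  obtain ⟨K0, δ, h0, h1⟩ := key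
  refine ⟨K0, fun K hK => ⟨δ, h0, fun z hz => ?_⟩⟩
  obtain ⟨M, hM, h2⟩ := (h1 z hz).mono_K hz.1 hK
  exact ⟨M, by omega, h2⟩

/-- **the negative bundle exists** -/
theorem exists_NegB (h : GT.Bla G k) : ∃ K0 : ℕ, ∀ K ≥ K0, ∃ δ : ℝ, ∃ PN,
    NB.NegB G (k - 1) (nuP K) δ PN := by
  obtain ⟨K0, hK0⟩ := hneg_per h
  refine ⟨max K0 1, fun K hK => ?_⟩
  obtain ⟨δ, h0, h1⟩ := hK0 K ((le_max_left _ _).trans hK)
  exact ⟨δ, NB.exists_NegB_per h ((le_max_right _ _).trans hK) h0 h1⟩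

end Crest.Agent.R208.NN
end
end

-- ▼ part R208/FL5

/-!
R208, block FL (helper613), part FL5: **(F1)** the level one family
`f1 : Tot (US G) PN → S`: orbit loops `t ↦ ρ (γ t + ε nf w t)` for `‖w‖ ≤ 1`, energies `≤ π`, `< π`
off the zero section, constant loops for `‖w‖² ≥ 5/4`, obtained from the natural contraction.
-/

set_option autoImplicit false

open Set Filter Topology MeasureTheory
open scoped ContDiff RealInnerProductSpace Real
open Crest.GeometryTopology.Submanifold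
open Crest.Agent.R241.DDefs Crest.Agent.R241.D Crest.Agent.R241.D2

noncomputable section

namespace Crest.Agent.R208.FL

open Crest.Agent.R208.SV Crest.Agent.R208.MS Crest.Agent.R208.NN

variable {n N K k : ℕ} {κ : ℝ} {S : Set (Euc N)} {G : Geo n N κ S} {lg : Euc N → Euc N → Euc N}
  {ρ : Euc N → Euc N} {r C r' Kr B w δ : ℝ} {PN : Euc N × Euc N → Wt N K →L[ℝ] Wt N K}

/-- geometric data common to all levels -/
structure D0 (G : Geo n N κ S) (k K : ℕ) (lg : Euc N → Euc N → Euc N) (ρ : Euc N → Euc N)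
    (r C r' Kr B w δ : ℝ) (PN : Euc N × Euc N → Wt N K →L[ℝ] Wt N K) : Prop where
  bla : GT.Bla G k
  neg : NB.NegB G (k - 1) (nuP K) δ PN
  sg : SG G lg r C
  rt : Retr S ρ r' Kr
  der : ∀ x ∈ S, fderiv ℝ ρ x = G.P x
  sm : Small r C r' Kr B w
  piB : π ≤ B
  B4 : B < 4 * π

/-- the data exist, `B` arbitrary in `[π, 4π)`, all large `K`, all small `w` -/
theorem exists_D0 (h : GT.Bla G k) {B : ℝ} (hB : π ≤ B) (hB4 : B < 4 * π) :
    ∃ (lg : Euc N → Euc N → Euc N) (ρ : Euc N → Euc N) (r C r' Kr : ℝ) (K : ℕ) (δ : ℝ)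
      (PN : Euc N × Euc N → Wt N K →L[ℝ] Wt N K), ∃ w₀ > 0, ∀ w, 0 < w → w ≤ w₀ →
        D0 G k K lg ρ r C r' Kr B w δ PN := by
  obtain ⟨lg, r, C, hsg⟩ := exists_SG h.bl
  obtain ⟨ρ, r', Kr, hR, hder⟩ := exists_Retr h.bl
  obtain ⟨K0, hK0⟩ := NN.exists_NegB h
  obtain ⟨δ, PN, hN⟩ := hK0 K0 le_rfl
  obtain ⟨w₀, hw₀, hw⟩ := exists_small (r := r) (r' := r') hsg.r_pos hR.r_pos C Kr B
  exact ⟨lg, ρ, r, C, r', Kr, K0, δ, PN, w₀, hw₀, fun w h0 h1 =>
    ⟨h, hN, hsg, hR, hder, hw w h0 h1, hB, hB4⟩⟩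

/-- data of the level one family -/
structure D1 (G : Geo n N κ S) (k K : ℕ) (lg : Euc N → Euc N → Euc N) (ρ : Euc N → Euc N)
    (r C r' Kr B w δ : ℝ) (PN : Euc N × Euc N → Wt N K →L[ℝ] Wt N K) (ε : ℝ) (J : ℕ)
    (E₀ η : ℝ) : Prop extends D0 G k K lg ρ r C r' Kr B w δ PN where
  eps_pos : 0 < ε
  small : ∀ q ∈ FI.Tot (L.US G) PN, ∀ t,
    ‖(ε * th (‖q.2‖ ^ 2)) • NN.fd G q.1 (nuP K) q.2 t‖ < r'
  en : ∀ q ∈ FI.Tot (L.US G) PN, En (oc (Ph G K) (sg0 G ρ ε) q) ≤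
    π - (δ / 4) * ε ^ 2 * (th (‖q.2‖ ^ 2) ^ 2 * ‖q.2‖ ^ 2)
  ld : NL.LD G lg ρ w J r C r' Kr B E₀ η
  le_E : π - (δ / 4) * ε ^ 2 ≤ E₀
  E_lt : E₀ < π
  eta_pos : 0 < η
  eta_le : 2 * η ≤ E₀

/-- **existence of the level one data** -/
theorem D0.exists_D1 (h : D0 G k K lg ρ r C r' Kr B w δ PN) : ∃ ε₀ > 0, ∀ ε, 0 < ε → ε ≤ ε₀ →
    ∀ E₁ < π, ∀ η₁ > 0, ∃ E₀ η : ℝ, E₁ ≤ E₀ ∧ η ≤ η₁ ∧ ∃ J₀ : ℕ, ∀ J, J₀ ≤ J →
      D1 G k K lg ρ r C r' Kr B w δ PN ε J E₀ η := by
  obtain ⟨ε₀, hε₀, hε⟩ := exists_eps_one h.bla h.rt h.der h.neg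
  obtain ⟨η₂, hη₂, hη₂'⟩ := NL.exists_sm2 h.rt.r_pos Kr
  refine ⟨ε₀, hε₀, fun ε he hee E₁ hE₁ η₁ hη₁ => ?_⟩
  have hpi := Real.pi_gt_three
  have hδ := h.neg.pos_δ
  set E₀ : ℝ := max (max E₁ (π - (δ / 4) * ε ^ 2)) 1 with hE₀
  set η : ℝ := min (min η₁ η₂) (1 / 2) with hη
  have hη0 : 0 < η := lt_min (lt_min hη₁ hη₂) (by norm_num)
  have hE₀lt : E₀ < π := by
    have : 0 < (δ / 4) * ε ^ 2 := by positivity
    exact max_lt (max_lt hE₁ (by linarith)) (by linarith)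
  obtain ⟨J₀, hJ₀⟩ := exists_LD h.bla.bl h.bla.ty.per h.sg h.rt h.B4 h.sm hE₀lt
    (hE₀lt.le.trans h.piB) hη0 (hη₂' η hη0.le ((min_le_left _ _).trans (min_le_right _ _)))
  refine ⟨E₀, η, (le_max_left _ _).trans (le_max_left _ _),
    (min_le_left _ _).trans (min_le_left _ _), J₀, fun J hJ => ?_⟩
  exact
    { toD0 := h
      eps_pos := he
      small := fun q hq t => (hε ε he hee q hq).1 t
      en := fun q hq => (hε ε he hee q hq).2
      ld := hJ₀ J hJ
      le_E := (le_max_right _ _).trans (le_max_left _ _)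
      E_lt := hE₀lt
      eta_pos := hη0
      eta_le := by
        have h1 : η ≤ 1 / 2 := min_le_right _ _
        have h2 : (1:ℝ) ≤ E₀ := le_max_right _ _
        linarith }

/-- the time of the contraction -/
def tm (q : (Euc N × Euc N) × Wt N K) : ℝ := bt (‖q.2‖ ^ 2)

/-- **the level one family** -/
def f1 (G : Geo n N κ S) (lg : Euc N → Euc N → Euc N) (ρ : Euc N → Euc N) (w : ℝ) (J : ℕ) (ε : ℝ) :
    (Euc N × Euc N) × Wt N K → Euc N :=
  NL.FLam (Ph G K) G lg ρ w J tm (sg0 G ρ ε)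

section

variable {ε E₀ η : ℝ} {J : ℕ}

theorem D0.cir (h : D0 G k K lg ρ r C r' Kr B w δ PN) : CM.Cir (FI.Tot (L.US G) PN) (Ph G K) :=
  (CM.cir_US h.bla.bl h.bla.ty.per).tot rep_Rt fun x hx t w => h.neg.equi x hx t w

theorem tm_si (X : Set ((Euc N × Euc N) × Wt N K)) : NL.SI X (Ph G K) tm where
  smooth := fun z _ => by
    unfold tm bt
    exact ((contDiff_ct 1).comp ((contDiff_norm_sq ℝ).comp contDiff_snd)).contDiffAt
  inv := fun z _ t => by
    unfold tm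
    change bt (‖Rt (nuP K) t z.2‖ ^ 2) = _
    rw [norm_Rt]

theorem contDiff_sg_in (G : Geo n N κ S) (ε : ℝ) : ContDiff ℝ ∞
    (fun q : (Euc N × Euc N) × Wt N K =>
      q.1.1 + (ε * th (‖q.2‖ ^ 2)) • G.P q.1.1 (ev (nuP K) 0 q.2)) := by
  have h1 : ContDiff ℝ ∞ (fun q : (Euc N × Euc N) × Wt N K => th (‖q.2‖ ^ 2)) :=
    contDiff_th.comp ((contDiff_norm_sq ℝ).comp contDiff_snd)
  have h2 : ContDiff ℝ ∞ (fun q : (Euc N × Euc N) × Wt N K => G.P q.1.1) :=
    G.contDiff_P.comp (by fun_prop)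
  have h3 : ContDiff ℝ ∞ (fun q : (Euc N × Euc N) × Wt N K => (ev (nuP K) 0 q.2 : Euc N)) :=
    (ev (nuP K) 0 : Wt N K →L[ℝ] Euc N).contDiff.comp contDiff_snd
  have h4 : ContDiff ℝ ∞ (fun q : (Euc N × Euc N) × Wt N K => q.1.1) := by fun_prop
  exact h4.add ((contDiff_const.mul h1).smul (h2.clm_apply h3))

theorem D1.fam0 (h : D1 G k K lg ρ r C r' Kr B w δ PN ε J E₀ η) :
    Fam S (FI.Tot (L.US G) PN) (sg0 G ρ ε) := by
  have key : ∀ q ∈ FI.Tot (L.US G) PN, q.1.1 ∈ S ∧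
      ‖(q.1.1 + (ε * th (‖q.2‖ ^ 2)) • G.P q.1.1 (ev (nuP K) 0 q.2)) - q.1.1‖ < r' := by
    intro q hq
    have h1 := h.small q hq 0
    unfold NN.fd at h1
    rw [fl_zero] at h1
    exact ⟨hq.1.1.1, by rwa [add_sub_cancel_left]⟩
  refine ⟨fun q hq => ?_, fun q hq => h.rt.mem _ (key q hq).1 _ (key q hq).2⟩
  exact ContDiffAt.comp q (h.rt.smooth _ (key q hq).1 _ (key q hq).2)
    (contDiff_sg_in G ε).contDiffAt

theorem D1.en_le (h : D1 G k K lg ρ r C r' Kr B w δ PN ε J E₀ η) {q : (Euc N × Euc N) × Wt N K}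
    (hq : q ∈ FI.Tot (L.US G) PN) : En (oc (Ph G K) (sg0 G ρ ε) q) ≤ B := by
  have h1 := h.en q hq
  have h2 := h.neg.pos_δ
  have h3 : 0 ≤ (δ / 4) * ε ^ 2 * (th (‖q.2‖ ^ 2) ^ 2 * ‖q.2‖ ^ 2) := by positivity
  have h4 := h.piB
  linarith

theorem D1.en_le' (h : D1 G k K lg ρ r C r' Kr B w δ PN ε J E₀ η) {q : (Euc N × Euc N) × Wt N K}
    (hq : q ∈ FI.Tot (L.US G) PN) (h1 : 1 ≤ ‖q.2‖ ^ 2) :
    En (oc (Ph G K) (sg0 G ρ ε) q) ≤ E₀ := by
  have h2 := h.en q hq
  have h3 := le_th_sq (q := ‖q.2‖ ^ 2) (by positivity)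
  rw [min_eq_left h1] at h3
  have h4 := h.neg.pos_δ
  have h5 : (δ / 4) * ε ^ 2 * 1 ≤ (δ / 4) * ε ^ 2 * (th (‖q.2‖ ^ 2) ^ 2 * ‖q.2‖ ^ 2) :=
    mul_le_mul_of_nonneg_left h3 (by positivity)
  have h6 := h.le_E
  linarith

theorem tm_le {q : (Euc N × Euc N) × Wt N K} (h : ‖q.2‖ ^ 2 ≤ 1) : tm q ≤ 1 / 4 := by
  unfold tm bt
  rw [ct_zero h]
  norm_num

theorem D1.dich (h : D1 G k K lg ρ r C r' Kr B w δ PN ε J E₀ η) {q : (Euc N × Euc N) × Wt N K}
    (hq : q ∈ FI.Tot (L.US G) PN) :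
    NL.kj J J (tm q) = 0 ∨ En (oc (Ph G K) (sg0 G ρ ε) q) ≤ E₀ := by
  rcases le_total (‖q.2‖ ^ 2) 1 with h1 | h1
  · exact Or.inl (NL.kj_zero _ _ (tm_le h1))
  · exact Or.inr (h.en_le' hq h1)

/-- (F1), smoothness -/
theorem D1.fam (h : D1 G k K lg ρ r C r' Kr B w δ PN ε J E₀ η) :
    Fam S (FI.Tot (L.US G) PN) (f1 G lg ρ w J ε) :=
  NL.fam_FLam h.ld h.cir h.fam0 (tm_si _) (fun _ hq => h.en_le hq) fun _ hq => h.dich hq

/-- (F1), the orbit loops -/
theorem D1.oc_f1 (h : D1 G k K lg ρ r C r' Kr B w δ PN ε J E₀ η) {q : (Euc N × Euc N) × Wt N K}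
    (hq : q ∈ FI.Tot (L.US G) PN) : oc (Ph G K) (f1 G lg ρ w J ε) q =
      NL.Lam G lg ρ w J (tm q) (oc (Ph G K) (sg0 G ρ ε) q) :=
  NL.oc_FLam h.ld h.cir h.fam0 (tm_si _) (fun _ hq => h.en_le hq) hq

/-- (F1), the orbit loops for `‖w‖ ≤ 1` -/
theorem D1.oc_f1_near (h : D1 G k K lg ρ r C r' Kr B w δ PN ε J E₀ η)
    {q : (Euc N × Euc N) × Wt N K} (hq : q ∈ FI.Tot (L.US G) PN) (h1 : ‖q.2‖ ^ 2 ≤ 1) :
    oc (Ph G K) (f1 G lg ρ w J ε) q = fun t =>
      ρ ((fl G (q.1, t)).1 + ε • NN.fd G q.1 (nuP K) q.2 t) := by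
  rw [h.oc_f1 hq, NL.Lam_start h.ld (loop_oc h.cir h.fam0 hq) (tm_le h1), oc_sg0,
    th_one (by linarith), mul_one]

theorem D1.f1_near (h : D1 G k K lg ρ r C r' Kr B w δ PN ε J E₀ η)
    {q : (Euc N × Euc N) × Wt N K} (hq : q ∈ FI.Tot (L.US G) PN) (h1 : ‖q.2‖ ^ 2 ≤ 1) :
    f1 G lg ρ w J ε q = ρ (q.1.1 + ε • G.P q.1.1 (ev (nuP K) 0 q.2)) := by
  have h2 := congrFun (h.oc_f1_near hq h1) 0
  unfold oc at h2
  rw [h.cir.zero q hq] at h2
  rw [h2]
  unfold NN.fd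
  rw [fl_zero]

/-- (F1), the zero section -/
theorem D1.f1_zero (h : D1 G k K lg ρ r C r' Kr B w δ PN ε J E₀ η) {z : Euc N × Euc N}
    (hz : z ∈ L.US G) : f1 G lg ρ w J ε (z, (0 : Wt N K)) = z.1 := by
  rw [h.f1_near (q := (z, (0 : Wt N K))) ⟨hz, map_zero _⟩ (by simp)]
  simp only [map_zero, smul_zero, add_zero]
  exact h.rt.eq _ hz.1.1

/-- (F1), energies -/
theorem D1.En_f1_le (h : D1 G k K lg ρ r C r' Kr B w δ PN ε J E₀ η)
    {q : (Euc N × Euc N) × Wt N K} (hq : q ∈ FI.Tot (L.US G) PN) :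
    En (oc (Ph G K) (f1 G lg ρ w J ε) q) ≤ max (π - (δ / 4) * ε ^ 2 * min 1 (‖q.2‖ ^ 2)) (2 * η) ∧
    (‖q.2‖ ^ 2 ≤ 1 → En (oc (Ph G K) (f1 G lg ρ w J ε) q) ≤ π - (δ / 4) * ε ^ 2 * ‖q.2‖ ^ 2) ∧
    (1 ≤ ‖q.2‖ ^ 2 → En (oc (Ph G K) (f1 G lg ρ w J ε) q) ≤ E₀) := by
  have hδ := h.neg.pos_δ
  have h2 := h.en q hq
  have h3 := le_th_sq (q := ‖q.2‖ ^ 2) (by positivity)
  have h5 : (δ / 4) * ε ^ 2 * min 1 (‖q.2‖ ^ 2) ≤
      (δ / 4) * ε ^ 2 * (th (‖q.2‖ ^ 2) ^ 2 * ‖q.2‖ ^ 2) :=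
    mul_le_mul_of_nonneg_left h3 (by positivity)
  have hL := loop_oc h.cir h.fam0 hq
  have hn : ‖q.2‖ ^ 2 ≤ 1 →
      En (oc (Ph G K) (f1 G lg ρ w J ε) q) ≤ π - (δ / 4) * ε ^ 2 * ‖q.2‖ ^ 2 := by
    intro h1
    rw [h.oc_f1 hq, NL.Lam_start h.ld hL (tm_le h1)]
    rw [min_eq_right h1] at h5
    linarith
  have hf : 1 ≤ ‖q.2‖ ^ 2 → En (oc (Ph G K) (f1 G lg ρ w J ε) q) ≤
      max (π - (δ / 4) * ε ^ 2 * min 1 (‖q.2‖ ^ 2)) (2 * η) := by
    intro h1
    rw [h.oc_f1 hq]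
    refine (NL.En_Lam_le h.ld hL (h.en_le' hq h1) _).trans (max_le_max ?_ le_rfl)
    linarith
  refine ⟨?_, hn, fun h1 => ?_⟩
  · rcases le_total (‖q.2‖ ^ 2) 1 with h1 | h1
    · rw [min_eq_right h1]
      exact (hn h1).trans (le_max_left _ _)
    · exact hf h1
  · refine (hf h1).trans (max_le ?_ h.eta_le)
    rw [min_eq_left h1, mul_one]
    exact h.le_E

/-- (F1), constant loops far from the zero section -/
theorem D1.f1_const (h : D1 G k K lg ρ r C r' Kr B w δ PN ε J E₀ η)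
    {q : (Euc N × Euc N) × Wt N K} (hq : q ∈ FI.Tot (L.US G) PN) (h1 : 5 / 4 ≤ ‖q.2‖ ^ 2) (t : ℝ) :
    f1 G lg ρ w J ε (Ph G K t q) = f1 G lg ρ w J ε q := by
  have h2 : (3:ℝ) / 4 ≤ tm q := by
    unfold tm bt
    rw [ct_one (by linarith)]
    norm_num
  have h3 := h.oc_f1 hq
  rw [NL.Lam_end h2] at h3
  have h4 := congrFun h3 t
  have h5 := congrFun h3 0
  unfold oc at h4 h5
  rw [h.cir.zero q hq] at h5
  rw [h4, h5]

end

end Crest.Agent.R208.FL
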