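import Crest.Agent.R208.FT6
import Crest.Agent.R208.EX9
import Crest.Agent.R208.CO6_Mg
import Crest.Agent.R208.FL5
import Crest.Agent.R208.FI2a
import Crest.Agent.R208.FH10a
import Mathlib.MeasureTheory.Function.L2Space
import Crest.Agent.R208.LB2
import Crest.Agent.R208.MS5
import Crest.Agent.R208.HS1
import Crest.Agent.R208.FV3
import Crest.Agent.R208.EX5
import Crest.Agent.R208.EX8
import Crest.Agent.R208.EX11

-- ▼ part R208/FT7
section

/-!
R208, (8,2), block F2 (helper336), part FT7: the orbit loops of the level two family over the total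
space over `US G`, as a smooth family of loops (`EX.LF`), and the slices of the family over `X'`.
-/

set_option autoImplicit false
set_option linter.unusedSectionVars false
set_option linter.unusedVariables false

open Set Filter Topology MeasureTheory
open scoped ContDiff RealInnerProductSpace Real
open Crest.GeometryTopology.Submanifold
open Crest.Agent.R241.DDefs Crest.Agent.R241.D Crest.Agent.R241.D2

noncomputable section

namespace Crest.Agent.R208.FT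

open Crest.Agent.R208.SV Crest.Agent.R208.MS Crest.Agent.R208.NN Crest.Agent.R208.FL
open Crest.Agent.R208.CM (Cir Rep phR gf)

variable {n N K k : ℕ} {κ : ℝ} {S : Set (Euc N)} {G : Geo n N κ S} {lg : Euc N → Euc N → Euc N}
  {ρ : Euc N → Euc N} {r C r' Kr B w δ : ℝ} {PN : Euc N × Euc N → Wt N K →L[ℝ] Wt N K}
  {H₂ : Type} [NormedAddCommGroup H₂] [InnerProductSpace ℝ H₂] [FiniteDimensional ℝ H₂]
  {P₂ : Euc N × Euc N → H₂ →L[ℝ] H₂} {Rr : ℝ → H₂ →L[ℝ] H₂}
  {xi0 : Euc N × Euc N → H₂ →L[ℝ] Euc N} {δ₂ ε ε₂ E₀ η : ℝ} {J : ℕ}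
  {E : Type} [NormedAddCommGroup E] [NormedSpace ℝ E] [FiniteDimensional ℝ E]
  {X : Set E} {φ : ℝ → E → E} {pi0 : E → Euc N × Euc N}

theorem contDiffAt_Ph2 (hR : ContDiff ℝ ∞ Rr) {p : ((Euc N × Euc N) × H₂) × Wt N K}
    (hz : p.1.1 ∈ L.US G) (t : ℝ) : ContDiffAt ℝ ∞
      (fun q : (((Euc N × Euc N) × H₂) × Wt N K) × ℝ => Ph2 G K Rr q.2 q.1) (p, t) := by
  unfold Ph2
  have h1 : ContDiffAt ℝ ∞ (fun q : (((Euc N × Euc N) × H₂) × Wt N K) × ℝ =>
      fl G (q.1.1.1, 2 * q.2)) (p, t) := by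
    have h2 : ContDiffAt ℝ ∞ (fun q : (((Euc N × Euc N) × H₂) × Wt N K) × ℝ =>
      ((q.1.1.1, 2 * q.2) : (Euc N × Euc N) × ℝ)) (p, t) := by fun_prop
    exact ContDiffAt.comp (g := fl G) (p, t) (contDiffAt_fl' G hz.1 (2 * t)) h2
  have h3 : ContDiff ℝ ∞ (fun q : (((Euc N × Euc N) × H₂) × Wt N K) × ℝ =>
      Rr (2 * q.2) q.1.1.2) :=
    (hR.comp (by fun_prop)).clm_apply (by fun_prop)
  have h4 : ContDiff ℝ ∞ (fun q : (((Euc N × Euc N) × H₂) × Wt N K) × ℝ =>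
      (Rt (nuP K) (2 * q.2) q.1.2 : Wt N K)) :=
    ((rep_Rt (N := N) (K := K)).smooth.comp (by fun_prop)).clm_apply (by fun_prop)
  exact (h1.prodMk h3.contDiffAt).prodMk h4.contDiffAt

theorem Ph2_per (hX : XI G P₂ Rr xi0 δ₂) (hfl : ∀ z ∈ L.US G, fl G (z, 2 * π) = z)
    {p : ((Euc N × Euc N) × H₂) × Wt N K} (hz : p.1.1 ∈ L.US G) (t : ℝ) :
    Ph2 G K Rr (t + 2 * π) p = Ph2 G K Rr t p := by
  have e : 2 * (t + 2 * π) = 2 * t + 2 * π + 2 * π := by ring
  unfold Ph2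
  refine Prod.ext (Prod.ext ?_ ?_) ?_
  · change fl G (p.1.1, 2 * (t + 2 * π)) = fl G (p.1.1, 2 * t)
    rw [e, AK.fl_add_two_pi hz.1 (hfl _ hz), AK.fl_add_two_pi hz.1 (hfl _ hz)]
  · change Rr (2 * (t + 2 * π)) p.1.2 = Rr (2 * t) p.1.2
    rw [show 2 * (t + 2 * π) = 2 * t + 2 * (2 * π) by ring, hX.add, hX.four]
  · change (Rt (nuP K) (2 * (t + 2 * π)) p.2 : Wt N K) = Rt (nuP K) (2 * t) p.2
    rw [e, Rt_add, Rt_per, Rt_add, Rt_per]

namespace D2

variable (h : D2 G k K lg ρ r C r' Kr B w δ PN ε J E₀ η P₂ Rr xi0 δ₂ ε₂)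

include h

/-- **the orbit loops of `f2` over the total space over `US G`** -/
theorem lf_f2 : EX.LF S (TP.TT (L.US G) P₂ PN)
    (fun p t => f2 G lg ρ w J xi0 ε ε₂ (Ph2 G K Rr t p)) where
  smooth p hp t := ContDiffAt.comp (g := f2 G lg ρ w J xi0 ε ε₂) (p, t)
    (h.contDiffAt_f2 (h.Ph2_mem hp t)) (contDiffAt_Ph2 h.xi.smR hp.1.1 t)
  per p hp t := by
    rw [Ph2_per h.xi (fun z hz => NN.fl_two_pi h.bla hz) hp.1.1]
  mem p hp t := h.f2_mem (h.Ph2_mem hp t)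




end D2

end Crest.Agent.R208.FT
end
end

-- ▼ part R208/NG7
section

/-!
R208, block NG (helper131), part NG7: the natural operator near the closed geodesics (U4):
definitions and rotation equivariance.
-/

set_option autoImplicit false

open Set Filter Topology MeasureTheory
open scoped ContDiff RealInnerProductSpace Real
open Crest.GeometryTopology.Submanifold
open Crest.Agent.R241.DDefs Crest.Agent.R241.D Crest.Agent.R241.D2
open Crest.Agent.R208.MS (exists_unif P_self P_mem Retr En Loop)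
open Crest.Agent.R208.NN (Wt fd fd' nuP hasDerivAt_fd continuous_fd' fd_mem fld_fd Rt ev)
open Crest.Agent.R208.NB (NegB npr)
open Crest.Agent.R208.FI (Tan)

noncomputable section

namespace Crest.Agent.R208.NG

variable {n N k K : ℕ} {κ : ℝ} {S : Set (Euc N)} {G : Geo n N κ S} {ρ : Euc N → Euc N} {δ C : ℝ}
  {z : Euc N × Euc N}

/-- squared `L²` distance of `c` to the geodesic of `v` -/
def L2 (G : Geo n N κ S) (c : ℝ → Euc N) (v : Euc N × Euc N) : ℝ :=
  ∫ t in (0:ℝ)..(2 * π), ‖c t - ga G v t‖ ^ 2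

/-- (U1): the nearest closed geodesic -/
structure GG (G : Geo n N κ S) (gg : (ℝ → Euc N) → Euc N × Euc N) (e Cg : ℝ) : Prop where
  pos : 0 < e
  mem : ∀ c, ContinuousOn c (Icc 0 (2 * π)) → gg c ∈ L.US G
  min : ∀ c, ContinuousOn c (Icc 0 (2 * π)) → ∀ v ∈ L.US G, L2 G c (gg c) ≤ L2 G c v
  orth : ∀ c, ContinuousOn c (Icc 0 (2 * π)) → ∀ ξ ∈ Tan (L.US G) (gg c),
    ∫ t in (0:ℝ)..(2 * π), ⟪c t - ga G (gg c) t, SV.jf G (gg c) ξ t⟫ = 0
  lip : ∀ c, ContinuousOn c (Icc 0 (2 * π)) → ∀ v ∈ L.US G, L2 G c v < e ^ 2 →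
    ‖gg c - v‖ ^ 2 ≤ Cg * L2 G c v
  equi : ∀ c, Continuous c → (∀ t, c (t + 2 * π) = c t) → (∃ v ∈ L.US G, L2 G c v < e ^ 2) →
    ∀ s, gg (fun t => c (t + s)) = fl G (gg c, s)
  smooth : ∀ (E : Type) [NormedAddCommGroup E] [NormedSpace ℝ E] [FiniteDimensional ℝ E]
    (F : E × ℝ → Euc N) (x : E), (∀ t ∈ Icc (0:ℝ) (2 * π), ContDiffAt ℝ ∞ F (x, t)) →
    (∃ v ∈ L.US G, L2 G (fun t => F (x, t)) v < e ^ 2) →
    ContDiffAt ℝ ∞ (fun x' => gg (fun t => F (x', t))) x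

/-- squared `H¹` distance to the nearest closed geodesic -/
def dd (G : Geo n N κ S) (gg : (ℝ → Euc N) → Euc N × Euc N) (c : ℝ → Euc N) : ℝ :=
  L2 G c (gg c) + ∫ t in (0:ℝ)..(2 * π), ‖dv' G (gg c) c t‖ ^ 2

/-- `N`-component of the deviation from the nearest closed geodesic -/
def mm (G : Geo n N κ S) (K : ℕ) (δN : ℝ) (PN : Euc N × Euc N → Wt N K →L[ℝ] Wt N K)
    (gg : (ℝ → Euc N) → Euc N × Euc N) (c : ℝ → Euc N) : Wt N K := nn G K δN PN (gg c) c

/-- the rescaled `N`-component -/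
def ww (G : Geo n N κ S) (K : ℕ) (δN : ℝ) (PN : Euc N × Euc N → Wt N K →L[ℝ] Wt N K)
    (gg : (ℝ → Euc N) → Euc N × Euc N) (ε : ℝ) (c : ℝ → Euc N) : Wt N K :=
  (2 / ε) • mm G K δN PN gg c

/-- cut-off: `1` for `dd c ≤ a²/4`, `0` for `dd c ≥ 5a²/16` -/
def sgm (G : Geo n N κ S) (gg : (ℝ → Euc N) → Euc N × Euc N) (a : ℝ) (c : ℝ → Euc N) : ℝ :=
  1 - FL.ct 1 (4 / a ^ 2 * dd G gg c)

/-- the time of the contraction -/
def bet (G : Geo n N κ S) (K : ℕ) (δN : ℝ) (PN : Euc N × Euc N → Wt N K →L[ℝ] Wt N K)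
    (gg : (ℝ → Euc N) → Euc N × Euc N) (a ε : ℝ) (c : ℝ → Euc N) : ℝ :=
  1 - sgm G gg a c * (1 - FL.bt (‖ww G K δN PN gg ε c‖ ^ 2))

/-- the cut-off `μ` -/
def mu (G : Geo n N κ S) (K : ℕ) (δN : ℝ) (PN : Euc N × Euc N → Wt N K →L[ℝ] Wt N K)
    (gg : (ℝ → Euc N) → Euc N × Euc N) (a ε : ℝ) (c : ℝ → Euc N) : ℝ :=
  sgm G gg a c * (1 - FL.ct (64 / 25) (‖ww G K δN PN gg ε c‖ ^ 2))

/-- direction of the segment -/
def bb (G : Geo n N κ S) (K : ℕ) (δN : ℝ) (PN : Euc N × Euc N → Wt N K →L[ℝ] Wt N K)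
    (gg : (ℝ → Euc N) → Euc N × Euc N) (c : ℝ → Euc N) (t : ℝ) : Euc N :=
  ga G (gg c) t + (2:ℝ) • fd G (gg c) (nuP K) (mm G K δN PN gg c) t - c t

/-- the first stage -/
def S1 (G : Geo n N κ S) (K : ℕ) (ρ : Euc N → Euc N) (δN : ℝ)
    (PN : Euc N × Euc N → Wt N K →L[ℝ] Wt N K)
    (gg : (ℝ → Euc N) → Euc N × Euc N) (a : ℝ) (s : ℝ) (c : ℝ → Euc N) (t : ℝ) : Euc N :=
  ρ (c t + (s * sgm G gg a c) • bb G K δN PN gg c t)

/-- time functions of the two stages -/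
def k1 (s : ℝ) : ℝ := Real.smoothTransition (4 * s - 1)
def k2 (s : ℝ) : ℝ := Real.smoothTransition (4 * s - 2)

/-- **the operator** -/
def HN (G : Geo n N κ S) (K : ℕ) (lg : Euc N → Euc N → Euc N) (ρ : Euc N → Euc N) (w : ℝ)
    (J : ℕ) (δN : ℝ) (PN : Euc N × Euc N → Wt N K →L[ℝ] Wt N K)
    (gg : (ℝ → Euc N) → Euc N × Euc N) (a ε : ℝ) (s : ℝ) (c : ℝ → Euc N) : ℝ → Euc N :=
  NL.Lam G lg ρ w J (k2 s * bet G K δN PN gg a ε c) (S1 G K ρ δN PN gg a (k1 s) c)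

/-! ### rotations -/

variable {δN : ℝ} {PN : Euc N × Euc N → Wt N K →L[ℝ] Wt N K}
  {gg : (ℝ → Euc N) → Euc N × Euc N} {e Cg a ε : ℝ} {c : ℝ → Euc N}

theorem int_per (f : ℝ → ℝ) (hf : ∀ t, f (t + 2 * π) = f t) (s : ℝ) :
    (∫ t in (0:ℝ)..(2 * π), f (t + s)) = ∫ t in (0:ℝ)..(2 * π), f t := by
  replace hf : Function.Periodic f (2 * π) := hf
  rw [intervalIntegral.integral_comp_add_right (fun x => f x), zero_add, add_comm (2 * π) s,
    hf.intervalIntegral_add_eq s 0, zero_add]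

theorem ga_shift (hz : z ∈ TS G) (s t : ℝ) : ga G (fl G (z, s)) t = ga G z (t + s) := by
  rw [ga, ga, add_comm t s, fl_add' G hz]

theorem ga'_shift (hz : z ∈ TS G) (s t : ℝ) : ga' G (fl G (z, s)) t = ga' G z (t + s) := by
  rw [ga', ga', add_comm t s, fl_add' G hz]

theorem ga_per (h : GT.Bla G k) (hz : z ∈ L.US G) (t : ℝ) : ga G z (t + 2 * π) = ga G z t := by
  rw [← ga_shift hz.1, NN.fl_two_pi h hz]

theorem ga'_per (h : GT.Bla G k) (hz : z ∈ L.US G) (t : ℝ) : ga' G z (t + 2 * π) = ga' G z t := by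
  rw [← ga'_shift hz.1, NN.fl_two_pi h hz]

theorem fl_US (hz : z ∈ L.US G) (s : ℝ) : fl G (z, s) ∈ L.US G :=
  ⟨fl_mem G hz.1 s, by rw [norm_fl G hz.1]; exact hz.2⟩

theorem fd_shift (hz : z ∈ TS G) (s t : ℝ) (m : Wt N K) :
    fd G (fl G (z, s)) (nuP K) (Rt (nuP K) s m) t = fd G z (nuP K) m (t + s) := by
  unfold NN.fd
  rw [NN.ev_Rt, add_comm t s, fl_add' G hz]

theorem L2_shift (h : GT.Bla G k) (hc : Loop S c) (hz : z ∈ L.US G) (s : ℝ) :
    L2 G (fun t => c (t + s)) (fl G (z, s)) = L2 G c z := by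
  unfold L2
  simp only [ga_shift hz.1]
  exact int_per (fun u => ‖c u - ga G z u‖ ^ 2) (fun t => by simp only [hc.per, ga_per h hz]) s

/-- the domain where the nearest geodesic is unique -/
def Dm (G : Geo n N κ S) (e : ℝ) (c : ℝ → Euc N) : Prop := ∃ v ∈ L.US G, L2 G c v < e ^ 2

theorem Dm.shift (h : GT.Bla G k) (hc : Loop S c) (hD : Dm G e c) (s : ℝ) :
    Dm G e (fun t => c (t + s)) := by
  obtain ⟨v, hv, h1⟩ := hD
  exact ⟨fl G (v, s), fl_US hv s, by rw [L2_shift h hc hv]; exact h1⟩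

theorem loop_shift (hc : Loop S c) (s : ℝ) : Loop S (fun t => c (t + s)) :=
  ⟨hc.smooth.comp (by fun_prop), fun t => by
    have := hc.per (t + s)
    rw [← this]; ring_nf, fun t => hc.mem _⟩

theorem Dm.of_shift (h : GT.Bla G k) (hc : Loop S c) {s : ℝ}
    (hD : Dm G e (fun t => c (t + s))) : Dm G e c := by
  have := hD.shift h (loop_shift hc s) (-s)
  simpa using this

theorem dd_ge : L2 G c (gg c) ≤ dd G gg c := by
  have : 0 ≤ ∫ t in (0:ℝ)..(2 * π), ‖dv' G (gg c) c t‖ ^ 2 :=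
    intervalIntegral.integral_nonneg (by positivity) fun t _ => by positivity
  unfold dd
  linarith

theorem le_dd_of_not (hg : GG G gg e Cg) (hc : ContinuousOn c (Icc 0 (2 * π)))
    (hD : ¬ Dm G e c) : e ^ 2 ≤ dd G gg c := by
  by_contra h1
  push Not at h1
  exact hD ⟨gg c, hg.mem c hc, dd_ge.trans_lt h1⟩

theorem deriv_shift (c : ℝ → Euc N) (s t : ℝ) :
    deriv (fun t => c (t + s)) t = deriv c (t + s) := deriv_comp_add_const ..

theorem Loop.contOn (hc : Loop S c) (s : Set ℝ) : ContinuousOn c s :=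
  hc.smooth.continuous.continuousOn

theorem dd_shift (h : GT.Bla G k) (hg : GG G gg e Cg) (hc : Loop S c) (hD : Dm G e c) (s : ℝ) :
    dd G gg (fun t => c (t + s)) = dd G gg c := by
  have h1 := hg.equi c hc.smooth.continuous hc.per hD s
  have hz := hg.mem c (Loop.contOn hc _)
  unfold dd
  rw [h1, L2_shift h hc hz]
  congr 1
  have h2 : ∀ t, dv' G (fl G (gg c, s)) (fun t => c (t + s)) t = dv' G (gg c) c (t + s) :=
    fun t => by simp only [dv', ga'_shift hz.1, deriv_shift]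
  simp only [h2]
  exact int_per (fun u => ‖dv' G (gg c) c u‖ ^ 2)
    (fun t => by simp only [dv', hc.deriv_per, ga'_per h hz]) s

theorem sgm_zero_of_not (hg : GG G gg e Cg) (ha : 0 < a) (hae : 5 * a ^ 2 / 16 ≤ e ^ 2)
    (hc : ContinuousOn c (Icc 0 (2 * π))) (hD : ¬ Dm G e c) : sgm G gg a c = 0 := by
  have h1 := le_dd_of_not hg hc hD
  have h2 : 1 + 1 / 4 ≤ 4 / a ^ 2 * dd G gg c := by
    rw [div_mul_eq_mul_div, le_div_iff₀ (by positivity)]
    linarith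
  rw [sgm, FL.ct_one h2, sub_self]

theorem sgm_shift (h : GT.Bla G k) (hg : GG G gg e Cg) (ha : 0 < a)
    (hae : 5 * a ^ 2 / 16 ≤ e ^ 2) (hc : Loop S c) (s : ℝ) :
    sgm G gg a (fun t => c (t + s)) = sgm G gg a c := by
  by_cases hD : Dm G e c
  · unfold sgm
    rw [dd_shift h hg hc hD]
  · rw [sgm_zero_of_not hg ha hae (Loop.contOn hc _) hD,
      sgm_zero_of_not hg ha hae (Loop.contOn (loop_shift hc s) _)
        fun h' => hD (h'.of_shift h hc)]

theorem mm_shift (h : GT.Bla G k) (H : NegB G (k - 1) (nuP K) δN PN) (hg : GG G gg e Cg)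
    (hc : Loop S c) (hD : Dm G e c) (s : ℝ) :
    mm G K δN PN gg (fun t => c (t + s)) = Rt (nuP K) s (mm G K δN PN gg c) := by
  have h1 := hg.equi c hc.smooth.continuous hc.per hD s
  have hz := hg.mem c (Loop.contOn hc _)
  unfold mm nn
  rw [h1]
  have h2 : PF G (fl G (gg c, s)) (dv G (fl G (gg c, s)) fun t => c (t + s)) =
      fun t => PF G (gg c) (dv G (gg c) c) (t + s) := by
    funext t
    simp only [PF, dv, ga_shift hz.1]
  rw [h2]
  refine H.npr_equiv h hz NB.sig_per ?_ (fun t => ?_) s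
  · exact continuous_iff_continuousAt.2 fun t => (hda_PF hz.1 (hda_dv hz.1 hc t)).continuousAt
  · simp only [PF, dv, hc.per, ga_per h hz, one_smul]

theorem ww_shift (h : GT.Bla G k) (H : NegB G (k - 1) (nuP K) δN PN) (hg : GG G gg e Cg)
    (hc : Loop S c) (hD : Dm G e c) (s : ℝ) :
    ww G K δN PN gg ε (fun t => c (t + s)) = Rt (nuP K) s (ww G K δN PN gg ε c) := by
  rw [ww, ww, mm_shift h H hg hc hD, map_smul]

theorem norm_ww_shift (h : GT.Bla G k) (H : NegB G (k - 1) (nuP K) δN PN) (hg : GG G gg e Cg)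
    (hc : Loop S c) (hD : Dm G e c) (s : ℝ) :
    ‖ww G K δN PN gg ε (fun t => c (t + s))‖ = ‖ww G K δN PN gg ε c‖ := by
  rw [ww_shift h H hg hc hD, NN.norm_Rt]

theorem bet_shift (h : GT.Bla G k) (H : NegB G (k - 1) (nuP K) δN PN) (hg : GG G gg e Cg)
    (ha : 0 < a) (hae : 5 * a ^ 2 / 16 ≤ e ^ 2) (hc : Loop S c) (s : ℝ) :
    bet G K δN PN gg a ε (fun t => c (t + s)) = bet G K δN PN gg a ε c := by
  unfold bet
  rw [sgm_shift h hg ha hae hc]
  by_cases hD : Dm G e c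
  · rw [norm_ww_shift h H hg hc hD]
  · rw [sgm_zero_of_not hg ha hae (Loop.contOn hc _) hD]
    simp

theorem mu_shift (h : GT.Bla G k) (H : NegB G (k - 1) (nuP K) δN PN) (hg : GG G gg e Cg)
    (ha : 0 < a) (hae : 5 * a ^ 2 / 16 ≤ e ^ 2) (hc : Loop S c) (s : ℝ) :
    mu G K δN PN gg a ε (fun t => c (t + s)) = mu G K δN PN gg a ε c := by
  unfold mu
  rw [sgm_shift h hg ha hae hc]
  by_cases hD : Dm G e c
  · rw [norm_ww_shift h H hg hc hD]
  · rw [sgm_zero_of_not hg ha hae (Loop.contOn hc _) hD]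
    simp

theorem bb_shift (h : GT.Bla G k) (H : NegB G (k - 1) (nuP K) δN PN) (hg : GG G gg e Cg)
    (hc : Loop S c) (hD : Dm G e c) (s t : ℝ) :
    bb G K δN PN gg (fun t => c (t + s)) t = bb G K δN PN gg c (t + s) := by
  have h1 := hg.equi c hc.smooth.continuous hc.per hD s
  have hz := hg.mem c (Loop.contOn hc _)
  unfold bb
  rw [mm_shift h H hg hc hD, h1, ga_shift hz.1, fd_shift hz.1]

theorem S1_shift (h : GT.Bla G k) (H : NegB G (k - 1) (nuP K) δN PN) (hg : GG G gg e Cg)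
    (ha : 0 < a) (hae : 5 * a ^ 2 / 16 ≤ e ^ 2) (hc : Loop S c) (s' s t : ℝ) :
    S1 G K ρ δN PN gg a s' (fun t => c (t + s)) t = S1 G K ρ δN PN gg a s' c (t + s) := by
  unfold S1
  rw [sgm_shift h hg ha hae hc]
  by_cases hD : Dm G e c
  · rw [bb_shift h H hg hc hD]
  · rw [sgm_zero_of_not hg ha hae (Loop.contOn hc _) hD]
    simp

end Crest.Agent.R208.NG
end
end

-- ▼ part R208/NG8
section

/-!
R208, block NG (helper131), part NG8: the constants of the natural operator near the closed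
geodesics.
-/

set_option autoImplicit false

open Set Filter Topology MeasureTheory
open scoped ContDiff RealInnerProductSpace Real
open Crest.GeometryTopology.Submanifold
open Crest.Agent.R241.DDefs Crest.Agent.R241.D Crest.Agent.R241.D2
open Crest.Agent.R208.MS (exists_unif P_self P_mem Retr En Loop NearUM Close)
open Crest.Agent.R208.NN (Wt fd fd' nuP hasDerivAt_fd continuous_fd' fd_mem fld_fd Rt ev)
open Crest.Agent.R208.NB (NegB npr)
open Crest.Agent.R208.FI (Tan)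

noncomputable section

namespace Crest.Agent.R208.NG

variable {n N k K : ℕ} {κ : ℝ} {S : Set (Euc N)} {G : Geo n N κ S} {ρ : Euc N → Euc N} {δ C : ℝ}
  {z : Euc N × Euc N} {δN : ℝ} {PN : Euc N × Euc N → Wt N K →L[ℝ] Wt N K}
  {gg : (ℝ → Euc N) → Euc N × Euc N} {e Cg a ε : ℝ} {c : ℝ → Euc N}

/-- Sobolev -/
theorem sob {w w' : ℝ → Euc N} (hw : ∀ t, HasDerivAt w (w' t) t) (hw' : Continuous w')
    (hper : ∀ t, w (t + 2 * π) = w t) (t : ℝ) :
    ‖w t‖ ^ 2 ≤ 4 * π * ((∫ t in (0:ℝ)..(2 * π), ‖w t‖ ^ 2) +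
      ∫ t in (0:ℝ)..(2 * π), ‖w' t‖ ^ 2) := by
  have hpi := Real.pi_gt_three
  have hwc : Continuous w := continuous_iff_continuousAt.2 fun t => (hw t).continuousAt
  -- reduce to `t ∈ [0, 2π)`
  have hP : Function.Periodic w (2 * π) := hper
  obtain ⟨t', ht', htt⟩ := hP.exists_mem_Ico₀ (by positivity) t
  rw [htt]
  set Q := ∫ t in (0:ℝ)..(2 * π), ‖w' t‖ with hQ
  have hQ0 : 0 ≤ Q := intervalIntegral.integral_nonneg (by positivity) fun _ _ => norm_nonneg _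
  have key : ∀ s ∈ Icc (0:ℝ) (2 * π), ‖w t'‖ ≤ ‖w s‖ + Q := by
    intro s hs
    have h1 : ∫ u in s..t', w' u = w t' - w s :=
      intervalIntegral.integral_eq_sub_of_hasDerivAt (fun u _ => hw u)
        (hw'.intervalIntegrable _ _)
    have h2 : ‖w t' - w s‖ ≤ Q := by
      rw [← h1]
      refine (intervalIntegral.norm_integral_le_abs_integral_norm).trans ?_
      rw [hQ]
      have hn : Continuous fun u => ‖w' u‖ := hw'.norm
      rcases le_total s t' with hst | hst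
      · rw [abs_of_nonneg (intervalIntegral.integral_nonneg hst fun _ _ => norm_nonneg _)]
        exact intervalIntegral.integral_mono_interval hs.1 hst ht'.2.le
          (Eventually.of_forall fun _ => norm_nonneg _) (hn.intervalIntegrable _ _)
      · rw [intervalIntegral.integral_symm, abs_neg,
          abs_of_nonneg (intervalIntegral.integral_nonneg hst fun _ _ => norm_nonneg _)]
        exact intervalIntegral.integral_mono_interval ht'.1 hst hs.2
          (Eventually.of_forall fun _ => norm_nonneg _) (hn.intervalIntegrable _ _)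
    have h3 : w t' = w s + (w t' - w s) := by abel
    rw [h3]
    exact (norm_add_le _ _).trans (by linarith)
  have h1 : ∀ s ∈ Icc (0:ℝ) (2 * π), ‖w t'‖ ^ 2 ≤ 2 * ‖w s‖ ^ 2 + 2 * Q ^ 2 := by
    intro s hs
    have := pow_le_pow_left₀ (norm_nonneg _) (key s hs) 2
    nlinarith [sq_nonneg (‖w s‖ - Q)]
  have h2 := intervalIntegral.integral_mono_on (a := 0) (b := 2 * π) (μ := volume) (by positivity)
    (f := fun _ => ‖w t'‖ ^ 2) (g := fun s => 2 * ‖w s‖ ^ 2 + 2 * Q ^ 2) intervalIntegrable_const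
    (Continuous.intervalIntegrable (by fun_prop) _ _) h1
  rw [intervalIntegral.integral_const, intervalIntegral.integral_add
    (Continuous.intervalIntegrable (by fun_prop) _ _) intervalIntegrable_const,
    intervalIntegral.integral_const_mul, intervalIntegral.integral_const, smul_eq_mul,
    smul_eq_mul, sub_zero] at h2
  have h3 := NB.int_norm_sq_le (W := w') hw'.continuousOn
  rw [← hQ] at h3
  set I0 := ∫ t in (0:ℝ)..(2 * π), ‖w t‖ ^ 2 with hI0
  set I1 := ∫ t in (0:ℝ)..(2 * π), ‖w' t‖ ^ 2 with hI1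
  have hI00 : 0 ≤ I0 := intervalIntegral.integral_nonneg (by positivity) fun _ _ => by positivity
  have h4 : ‖w t'‖ ^ 2 * (2 * π) ≤ 2 * I0 + 2 * π * (2 * (2 * π * I1)) := by nlinarith
  have h6 : 0 ≤ (8 * π ^ 2 - 2) * I0 := mul_nonneg (by nlinarith) hI00
  have h5 : ‖w t'‖ ^ 2 * (2 * π) ≤ (4 * π * (I0 + I1)) * (2 * π) := by nlinarith
  exact le_of_mul_le_mul_right h5 (by positivity)

theorem dv_per' (h : GT.Bla G k) (hz : z ∈ L.US G) (hc : Loop S c) (t : ℝ) :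
    dv G z c (t + 2 * π) = dv G z c t := by
  rw [dv, dv, hc.per, ga_per h hz]

/-- `dd` is the squared `H¹` norm of the deviation -/
theorem dd_eq (hz : gg c ∈ L.US G) (hc : Loop S c) :
    dd G gg c = ∫ t in (0:ℝ)..(2 * π), (‖dv G (gg c) c t‖ ^ 2 + ‖dv' G (gg c) c t‖ ^ 2) := by
  have h1 : Continuous fun t => ‖dv G (gg c) c t‖ ^ 2 := (cont_dv hz.1 hc).norm.pow 2
  have h2 : Continuous fun t => ‖dv' G (gg c) c t‖ ^ 2 := (cont_dv' hz.1 hc).norm.pow 2
  rw [intervalIntegral.integral_add (h1.intervalIntegrable _ _) (h2.intervalIntegrable _ _)]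
  rfl

theorem dd_nonneg (G : Geo n N κ S) (gg : (ℝ → Euc N) → Euc N × Euc N) (c : ℝ → Euc N) :
    0 ≤ dd G gg c := by
  unfold dd L2
  exact add_nonneg (intervalIntegral.integral_nonneg (by positivity) fun _ _ => by positivity)
    (intervalIntegral.integral_nonneg (by positivity) fun _ _ => by positivity)

theorem sup_dv (h : GT.Bla G k) (hz : gg c ∈ L.US G) (hc : Loop S c) (t : ℝ) :
    ‖dv G (gg c) c t‖ ^ 2 ≤ 4 * π * dd G gg c :=
  sob (hda_dv hz.1 hc) (cont_dv' hz.1 hc) (dv_per' h hz hc) t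

theorem S1_eq (a : ℝ) (s : ℝ) (c : ℝ → Euc N) :
    S1 G K ρ δN PN gg a s c = sg G K ρ δN PN (gg c) c (s * sgm G gg a c) := by
  funext t
  simp only [S1, sg, bb, dv, mm]
  congr 1
  module

/-- coercivity, from (U2) -/
theorem coer_of_U2 {c0 C1 : ℝ} (h : GT.Bla G k) (hg : GG G gg e Cg)
    (hU : ∀ z ∈ L.US G, ∀ A A', CO.TF G z A A' → A (2 * π) = A 0 →
      (∀ ξ ∈ Tan (L.US G) z, ∫ t in (0:ℝ)..(2 * π), ⟪A t, SV.jf G z ξ t⟫ = 0) →
      c0 * CO.Hn A A' ≤ SV.ix G z 0 (2 * π) A A' A A' + C1 * ‖npr G (nuP K) δN PN z A‖ ^ 2)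
    (hc : Loop S c) : Coer G K δN PN c0 C1 (gg c) c := by
  have hz := hg.mem c (Loop.contOn hc _)
  refine hU (gg c) hz (PF G (gg c) (dv G (gg c) c)) (PF' G (gg c) (dv G (gg c) c)
    (dv' G (gg c) c)) ⟨fun t => hda_PF hz.1 (hda_dv hz.1 hc t),
      cont_PF' hz.1 (cont_dv hz.1 hc) (cont_dv' hz.1 hc), fun t => P_mem (ga_mem hz.1 t) _⟩ ?_ ?_
  · simp only [PF, dv_per (NN.fl_two_pi h hz) hc]
    rw [ga, ga, NN.fl_two_pi h hz, fl_zero]
  · intro ξ hξ
    refine Eq.trans ?_ (hg.orth c (Loop.contOn hc _) ξ hξ)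
    apply intervalIntegral.integral_congr
    intro t _
    have h1 : SV.jf G (gg c) ξ t ∈ G.T (fl G (gg c, t)).1 :=
      SV.jf_mem (NN.tanTS_of_Tan h hz hξ) t
    simp only [PF, dv]
    rw [inner_P_left G (ga_mem hz.1 t), P_self (ga_mem hz.1 t) h1]

/-- the velocity of the geodesics is Lipschitz in the initial condition -/
theorem exists_lip (h : GT.Bla G k) : ∃ δL > 0, ∃ CL : ℝ, 0 ≤ CL ∧ ∀ u ∈ L.US G, ∀ v ∈ L.US G,
    ‖u - v‖ < δL → ∀ t ∈ Icc (0:ℝ) (2 * π), ‖ga' G u t - ga' G v t‖ ≤ CL * ‖u - v‖ := by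
  have hUS : IsCompact (L.US G) := LB.isCompact_US h.bl.cpt
  have hK : IsCompact (L.US G ×ˢ Icc (0:ℝ) (2 * π)) := hUS.prod isCompact_Icc
  obtain ⟨δ₁, hδ₁, C₁, hC₁, h₁⟩ := exists_unif hK (isOpen_fd G)
    (f := fl G) (fun q hq => complete G hq.1.1 q.2) (contDiffOn_fl G)
  refine ⟨δ₁, hδ₁, C₁, by linarith, fun u hu v hv huv t ht => ?_⟩
  have h2 := (h₁ (v, t) ⟨hv, ht⟩).2.1 (u, t) (by
    rw [Metric.mem_ball, dist_eq_norm, Prod.mk_sub_mk, sub_self, Prod.norm_mk, norm_zero,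
      max_eq_left (norm_nonneg _)]
    exact huv) (v, t) (Metric.mem_ball_self hδ₁)
  have h3 : ‖((u, t) : (Euc N × Euc N) × ℝ) - (v, t)‖ = ‖u - v‖ := by
    rw [Prod.mk_sub_mk, sub_self, Prod.norm_mk, norm_zero, max_eq_left (norm_nonneg _)]
  rw [h3] at h2
  refine le_trans ?_ h2
  exact norm_snd_le (fl G (u, t) - fl G (v, t))

end Crest.Agent.R208.NG
end
end

-- ▼ part R208/NR1
section

/-!
R208, block (U1) (helper378): nearest point map onto a compact submanifold embedded in a Hilbert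
space (tubular neighbourhood, `K : X → H` an injective immersion), smooth and Lipschitz near
`K(X)`.
-/

set_option autoImplicit false
set_option linter.unusedSectionVars false

open Set Filter Topology Module
open scoped ContDiff RealInnerProductSpace
open Crest.Agent.R208.F Crest.Agent.R208.FI

noncomputable section

namespace Crest.Agent.R208.NR

variable {E : Type*} [NormedAddCommGroup E] [NormedSpace ℝ E] [FiniteDimensional ℝ E]
  {H : Type*} [NormedAddCommGroup H] [InnerProductSpace ℝ H] [CompleteSpace H]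

/-- `x ∈ X` minimises the distance of `h` to `K(X)` -/
def Near (X : Set E) (K : E → H) (h : H) (x : E) : Prop := x ∈ X ∧ ∀ x' ∈ X, ‖h - K x‖ ≤ ‖h - K x'‖

/-- a nearest point is critical -/
theorem Near.crit {n : ℕ} {X : Set E} (hX : Sub n X) {K : E → H} {h : H} {x : E}
    (hn : Near X K h x) (hK : ContDiffAt ℝ ∞ K x) {ξ : E} (hξ : ξ ∈ Tan X x) :
    ⟪h - K x, fderiv ℝ K x ξ⟫ = 0 := by
  obtain ⟨f, W, O1, ℓ, hl, hxO⟩ := hX.exists_loc hn.1
  have hfx : f (ℓ x) = x := hl.right_inv hn.1 hxO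
  have hℓW : ℓ x ∈ W := hl.maps x hxO
  have hr := hl.range_eq_Tan hℓW
  rw [hfx] at hr
  rw [← hr] at hξ
  obtain ⟨u, hu⟩ := hξ
  have hu' : fderiv ℝ f (ℓ x) u = ξ := hu
  have hmin : IsLocalMin (fun v => ‖h - K (f v)‖ ^ 2) (ℓ x) := by
    filter_upwards [hl.oW.mem_nhds hℓW] with v hv
    have h1 := hn.2 (f v) (hl.mem hv).1
    rw [hfx]
    exact pow_le_pow_left₀ (norm_nonneg _) h1 2
  have hKd : HasFDerivAt K (fderiv ℝ K x) (f (ℓ x)) := by
    rw [hfx]; exact (hK.differentiableAt (by simp)).hasFDerivAt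
  have hd : HasFDerivAt (fun v => h - K (f v)) (-((fderiv ℝ K x).comp (fderiv ℝ f (ℓ x)))) (ℓ x) :=
    (hKd.comp (ℓ x) ((hl.fC' hℓW).differentiableAt (by simp)).hasFDerivAt).const_sub h
  have h0 := hmin.hasFDerivAt_eq_zero hd.norm_sq
  have h1 := congrArg (fun L => L u) h0
  simp only [smul_apply, ContinuousLinearMap.comp_apply, neg_apply, innerSL_apply_apply,
    zero_apply, nsmul_eq_mul, Nat.cast_ofNat, hu', hfx, inner_neg_right] at h1
  rcases mul_eq_zero.1 h1 with h3 | h3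
  · norm_num at h3
  · linarith

theorem local_tub {n : ℕ} {X : Set E} (hX : Sub n X) {K : E → H}
    (hK : ∀ v ∈ X, ContDiffAt ℝ ∞ K v) {x0 : E} (hx0 : x0 ∈ X)
    (imm : ∀ ξ ∈ Tan X x0, fderiv ℝ K x0 ξ = 0 → ξ = 0) :
    ∃ (A : Set E) (B : Set H) (ρ : H → E), IsOpen A ∧ x0 ∈ A ∧ IsOpen B ∧ K x0 ∈ B ∧
      ContDiffOn ℝ ∞ ρ B ∧ ∀ h ∈ B, ∀ x ∈ A, Near X K h x → x = ρ h := by
  classical
  obtain ⟨f, W, O1, ℓ, hl, hxO⟩ := hX.exists_loc hx0
  set u0 := ℓ x0 with hu0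
  have hfu0 : f u0 = x0 := hl.right_inv hx0 hxO
  have hu0W : u0 ∈ W := hl.maps x0 hxO
  set Ψ : Eu n → H := fun u => K (f u) with hΨ
  have hΨc : ∀ u ∈ W, ContDiffAt ℝ ∞ Ψ u := fun u hu =>
    (hK (f u) (hl.mem hu).1).comp u (hl.fC' hu)
  set eb : Fin n → Eu n := fun i => EuclideanSpace.single i (1:ℝ) with heb
  set F : H × Eu n → Eu n := fun p =>
    WithLp.toLp 2 (fun i => ⟪p.1 - Ψ p.2, fderiv ℝ Ψ p.2 (eb i)⟫) with hF
  set G : H × Eu n → H × Eu n := fun p => (p.1, F p) with hG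
  have hfc : ∀ p : H × Eu n, p.2 ∈ W → ContDiffAt ℝ ∞ (fun p : H × Eu n => Ψ p.2) p := fun p hp =>
    (hΨc p.2 hp).comp p contDiffAt_snd
  have hfc' : ∀ p : H × Eu n, p.2 ∈ W → ContDiffAt ℝ ∞ (fun p : H × Eu n => fderiv ℝ Ψ p.2) p :=
    fun p hp => ((hΨc p.2 hp).fderiv_right (m := ∞) (by simp)).comp p contDiffAt_snd
  have hFc : ∀ p : H × Eu n, p.2 ∈ W → ContDiffAt ℝ ∞ F p := by
    intro p hp
    rw [contDiffAt_euclidean]
    intro i
    exact (contDiffAt_fst.sub (hfc p hp)).inner ℝ ((hfc' p hp).clm_apply contDiffAt_const)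
  have hGc : ∀ p : H × Eu n, p.2 ∈ W → ContDiffAt ℝ ∞ G p := fun p hp =>
    contDiffAt_fst.prodMk (hFc p hp)
  set p0 : H × Eu n := (K x0, u0) with hp0
  set A := fderiv ℝ Ψ u0 with hA
  have hAd : HasFDerivAt Ψ A u0 := ((hΨc u0 hu0W).differentiableAt (by simp)).hasFDerivAt
  have hAc : A = (fderiv ℝ K x0).comp (fderiv ℝ f u0) := by
    have h1 : HasFDerivAt K (fderiv ℝ K x0) (f u0) := by
      rw [hfu0]; exact ((hK x0 hx0).differentiableAt (by simp)).hasFDerivAt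
    exact hAd.unique (h1.comp u0 ((hl.fC' hu0W).differentiableAt (by simp)).hasFDerivAt)
  have hAinj : ∀ du, A du = 0 → du = 0 := by
    intro du hdu
    rw [hAc, ContinuousLinearMap.comp_apply] at hdu
    have h1 : fderiv ℝ f u0 du ∈ Tan X x0 := by
      rw [← hfu0, ← hl.range_eq_Tan hu0W]
      exact ⟨du, rfl⟩
    have h2 := imm _ h1 hdu
    have := hl.chart.inj u0 hu0W
    exact this (by rw [map_zero]; exact h2)
  set L := fderiv ℝ F p0 with hL
  have hLd : HasFDerivAt F L p0 := ((hFc p0 hu0W).differentiableAt (by simp)).hasFDerivAt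
  -- the partial derivative is injective
  have hinj : Function.Injective ((L.comp (ContinuousLinearMap.inr ℝ H (Eu n))) : Eu n →ₗ[ℝ] Eu n) := by
    rw [injective_iff_map_eq_zero]
    intro du h0
    have h0' : L ((0 : H), du) = 0 := h0
    have hcomp : ∀ i, ⟪A du, A (eb i)⟫ = (0:ℝ) := by
      intro i
      have h6 : HasFDerivAt (fun p : H × Eu n => F p i)
          ((EuclideanSpace.proj i : Eu n →L[ℝ] ℝ) ∘L L) p0 :=
        (EuclideanSpace.proj i : Eu n →L[ℝ] ℝ).hasFDerivAt.comp p0 hLd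
      have h7 : HasFDerivAt (fun p : H × Eu n => p.1 - Ψ p.2)
          (ContinuousLinearMap.fst ℝ _ _ - A ∘L (ContinuousLinearMap.snd ℝ _ _)) p0 := by
        refine HasFDerivAt.sub hasFDerivAt_fst ?_
        exact HasFDerivAt.comp (g := Ψ) (f := fun p : H × Eu n => p.2) p0 hAd hasFDerivAt_snd
      have h8 : HasFDerivAt (fun p : H × Eu n => fderiv ℝ Ψ p.2 (eb i))
          (fderiv ℝ (fun p : H × Eu n => fderiv ℝ Ψ p.2 (eb i)) p0) p0 :=
        (((hfc' p0 hu0W).clm_apply contDiffAt_const).differentiableAt (by simp)).hasFDerivAt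
      have h9 := (h6.unique (h7.inner ℝ h8))
      have h10 := congrArg (fun L => L ((0:H), du)) h9
      have hz : K x0 - Ψ u0 = 0 := by simp only [hΨ, hfu0, sub_self]
      simp only [ContinuousLinearMap.comp_apply, h0'] at h10
      simp only [hp0, hz, ContinuousLinearMap.prod_apply, fderivInnerCLM_apply,
        inner_zero_left, zero_add] at h10
      have h11 : (0:ℝ) = -⟪A du, A (eb i)⟫ := by simpa using h10
      linarith
    have h11 : A du = ∑ i, du i • A (eb i) := by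
      conv_lhs => rw [← (EuclideanSpace.basisFun (Fin n) ℝ).sum_repr du]
      rw [map_sum]
      refine Finset.sum_congr rfl fun i _ => ?_
      rw [map_smul]
      simp [heb]
    have h12 : ⟪A du, A du⟫ = (0:ℝ) := by
      conv_lhs => rw [h11]
      nth_rewrite 2 [← h11]
      rw [real_inner_comm, inner_sum]
      refine Finset.sum_eq_zero fun i _ => ?_
      rw [inner_smul_right, hcomp i, mul_zero]
    exact hAinj du (inner_self_eq_zero.1 h12)
  set M : Eu n ≃L[ℝ] Eu n := (LinearEquiv.ofInjectiveEndo _ hinj).toContinuousLinearEquiv with hM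
  have hMa : ∀ du, M du = L (0, du) := fun du => rfl
  set Me : (H × Eu n) ≃L[ℝ] (H × Eu n) := ContinuousLinearEquiv.skewProd
    (ContinuousLinearEquiv.refl ℝ H) M (L.comp (ContinuousLinearMap.inl ℝ H (Eu n))) with hMe
  have hMev : (Me : H × Eu n →L[ℝ] H × Eu n) = (ContinuousLinearMap.fst ℝ H (Eu n)).prod L := by
    refine ContinuousLinearMap.ext fun x => ?_
    have h1 : Me x = (x.1, M x.2 + L (x.1, 0)) := rfl
    change Me x = (x.1, L x)
    rw [h1, hMa, ← map_add]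
    simp
  have hGp : HasFDerivAt G (Me : H × Eu n →L[ℝ] H × Eu n) p0 := by
    rw [hMev]
    exact hasFDerivAt_fst.prodMk hLd
  set e := (hGc p0 hu0W).toOpenPartialHomeomorph G hGp (by simp) with he
  have hpe : p0 ∈ e.source := ContDiffAt.mem_toOpenPartialHomeomorph_source _ _ _
  have hWo : IsOpen ((univ : Set H) ×ˢ W) := isOpen_univ.prod hl.oW
  have hcont : ContinuousOn (fderiv ℝ G) ((univ : Set H) ×ˢ W) := by
    have h1 : ContDiffOn ℝ ∞ G ((univ : Set H) ×ˢ W) := fun p hp => (hGc p hp.2).contDiffWithinAt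
    exact h1.continuousOn_fderiv_of_isOpen hWo (by simp)
  set Pn : Set (H × Eu n) := (((univ : Set H) ×ˢ W) ∩ (fderiv ℝ G) ⁻¹'
    {L | ∃ M : (H × Eu n) ≃L[ℝ] (H × Eu n), (M : H × Eu n →L[ℝ] H × Eu n) = L}) ∩ e.source with hPn
  have hPo : IsOpen Pn := (hcont.isOpen_inter_preimage hWo ContinuousLinearEquiv.isOpen).inter e.open_source
  have hp0P : p0 ∈ Pn := ⟨⟨⟨mem_univ _, hu0W⟩, Me, hGp.fderiv.symm⟩, hpe⟩
  have hT : IsOpen (G '' Pn) := e.isOpen_image_of_subset_source hPo (fun y hy => hy.2)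
  have hFp0 : F p0 = 0 := by
    ext i
    simp [hF, hp0, hΨ, hfu0]
  have hGp0 : G p0 = (K x0, 0) := by
    change (p0.1, F p0) = _
    rw [hFp0]
  -- the neighbourhoods
  have hnb : {q : H × E | q.2 ∈ O1 ∧ (q.1, ℓ q.2) ∈ Pn} ∈ 𝓝 (K x0, x0) := by
    have hc : ContinuousAt (fun q : H × E => (q.1, ℓ q.2)) (K x0, x0) :=
      continuousAt_fst.prodMk ((hl.lC' hxO).continuousAt.comp (x := (K x0, x0)) continuousAt_snd)
    have h1 : (Prod.snd ⁻¹' O1 : Set (H × E)) ∈ 𝓝 (K x0, x0) :=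
      (continuousAt_snd (p := (K x0, x0))).preimage_mem_nhds (hl.oO.mem_nhds hxO)
    exact Filter.inter_mem h1 (hc.preimage_mem_nhds (hPo.mem_nhds hp0P))
  obtain ⟨B, A', hBo, hB0, hAo, hA0, hBA⟩ := mem_nhds_prod_iff'.1 hnb
  refine ⟨A', (fun y : H => (y, (0 : Eu n))) ⁻¹' (G '' Pn) ∩ B,
    fun y => f (e.symm (y, 0)).2, hAo, hA0, ?_, ?_, ?_, ?_⟩
  · exact (hT.preimage (by fun_prop)).inter hBo
  · exact ⟨⟨p0, hp0P, hGp0⟩, hB0⟩
  · rintro y ⟨⟨p, hpP, hpy⟩, -⟩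
    apply ContDiffAt.contDiffWithinAt
    have hBq : (y, (0 : Eu n)) = e p := hpy.symm
    have hys : e.symm (y, 0) = p := by rw [hBq]; exact e.left_inv hpP.2
    obtain ⟨M, hM⟩ := hpP.1.2
    have hM' : HasFDerivAt e (M : (H × Eu n) →L[ℝ] (H × Eu n)) (e.symm (y, 0)) := by
      rw [hys, hM]
      exact ((hGc p hpP.1.1.2).differentiableAt (by simp)).hasFDerivAt
    have h1 : ContDiffAt ℝ ∞ e.symm (y, (0 : Eu n)) :=
      e.contDiffAt_symm (by rw [hBq]; exact e.map_source hpP.2) hM'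
        (by rw [hys]; exact hGc p hpP.1.1.2)
    have h2 : ContDiffAt ℝ ∞ (fun y : H => (e.symm (y, (0 : Eu n))).2) y :=
      contDiffAt_snd.comp y (h1.comp y (contDiffAt_id.prodMk contDiffAt_const))
    refine ContDiffAt.comp y ?_ h2
    rw [hys]
    exact hl.fC' hpP.1.1.2
  · rintro y ⟨-, hy⟩ x hxA hxn
    obtain ⟨hxO1, hPx⟩ := hBA (show (y, x) ∈ B ×ˢ A' from ⟨hy, hxA⟩)
    simp only at hxO1 hPx
    have hfx : f (ℓ x) = x := hl.right_inv hxn.1 hxO1
    have hℓW : ℓ x ∈ W := hPx.1.1.2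
    have hΨd : fderiv ℝ Ψ (ℓ x) = (fderiv ℝ K x).comp (fderiv ℝ f (ℓ x)) := by
      have h1 : HasFDerivAt K (fderiv ℝ K x) (f (ℓ x)) := by
        rw [hfx]; exact ((hK x hxn.1).differentiableAt (by simp)).hasFDerivAt
      exact (h1.comp (ℓ x) ((hl.fC' hℓW).differentiableAt (by simp)).hasFDerivAt).fderiv
    have hF0 : F (y, ℓ x) = 0 := by
      ext i
      have h2 := hxn.crit hX (hK x hxn.1) (ξ := fderiv ℝ f (ℓ x) (eb i)) (by
        have h3 := hl.range_eq_Tan hℓW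
        rw [hfx] at h3
        rw [← h3]
        exact ⟨eb i, rfl⟩)
      change ⟪y - K (f (ℓ x)), fderiv ℝ Ψ (ℓ x) (eb i)⟫ = 0
      rw [hΨd, hfx]
      exact h2
    have hGe : G (y, ℓ x) = (y, (0 : Eu n)) := by simp only [hG, hF0]
    have hsy : e.symm (y, (0 : Eu n)) = (y, ℓ x) := by
      rw [← hGe]
      exact e.left_inv hPx.2
    simp only [hsy, hfx]

/-- **tubular neighbourhood theorem in a Hilbert space**: the nearest point map. -/
theorem exists_tub {n : ℕ} {X : Set E} (hX : Clo n X) (hne : X.Nonempty) {K : E → H}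
    (hK : ∀ v ∈ X, ContDiffAt ℝ ∞ K v) (inj : InjOn K X)
    (imm : ∀ v ∈ X, ∀ ξ ∈ Tan X v, fderiv ℝ K v ξ = 0 → ξ = 0) :
    ∃ (p : H → E) (η C : ℝ), 0 < η ∧ 0 ≤ C ∧ (∀ h, Near X K h (p h)) ∧
      (∀ v ∈ X, ∀ h, ‖h - K v‖ < η → ContDiffAt ℝ ∞ p h ∧ (∀ u, Near X K h u → u = p h) ∧
        ‖p h - v‖ ≤ C * ‖h - K v‖) ∧ ∀ v ∈ X, p (K v) = v := by
  classical
  have hKc : ContinuousOn K X := fun v hv => (hK v hv).continuousAt.continuousWithinAt
  have hex : ∀ h : H, ∃ x, Near X K h x := by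
    intro h
    obtain ⟨x, hx, hmin⟩ := hX.compact.exists_isMinOn hne
      (f := fun x => ‖h - K x‖) ((continuousOn_const.sub hKc).norm)
    exact ⟨x, hx, fun x' hx' => hmin hx'⟩
  choose p hp using hex
  have hpK : ∀ v ∈ X, p (K v) = v := by
    intro v hv
    have h1 := (hp (K v)).2 v hv
    rw [sub_self, norm_zero] at h1
    exact (inj hv (hp (K v)).1 (sub_eq_zero.1 (norm_le_zero_iff.1 h1))).symm
  -- local statement
  have hloc : ∀ v ∈ X, ∃ B : Set H, IsOpen B ∧ K v ∈ B ∧ ∀ h ∈ B, ContDiffAt ℝ ∞ p h ∧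
      ∀ u, Near X K h u → u = p h := by
    intro v hv
    obtain ⟨A, B, ρ, hA, hvA, hB, hvB, hρ, hρn⟩ := local_tub hX.sub hK hv (imm v hv)
    -- far points of `X`
    have hcp : IsCompact (X \ A) := hX.compact.diff hA
    obtain ⟨δ, hδ, hδA⟩ : ∃ δ > 0, ∀ x ∈ X, ‖K v - K x‖ < δ → x ∈ A := by
      rcases (X \ A).eq_empty_or_nonempty with he | hne'
      · exact ⟨1, one_pos, fun x hx _ => by
          by_contra h
          exact (he ▸ (⟨hx, h⟩ : x ∈ X \ A) : x ∈ (∅ : Set E))⟩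
      · obtain ⟨y, hy, hmin⟩ := hcp.exists_isMinOn hne'
          (f := fun x => ‖K v - K x‖) ((continuousOn_const.sub (hKc.mono sdiff_subset)).norm)
        refine ⟨‖K v - K y‖, norm_pos_iff.2 (sub_ne_zero.2 fun h => ?_), fun x hx hxd => ?_⟩
        · exact hy.2 ((inj hv hy.1 h) ▸ hvA)
        · by_contra h
          exact absurd (hmin ⟨hx, h⟩) (not_le.2 hxd)
    have hnr : ∀ h ∈ B ∩ Metric.ball (K v) (δ / 2), ∀ u, Near X K h u → u = ρ h := by
      rintro h ⟨hhB, hhb⟩ u hu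
      refine hρn h hhB u (hδA u hu.1 ?_) hu
      have h1 := hu.2 v hv
      rw [Metric.mem_ball, dist_eq_norm] at hhb
      have h2 : K v - K u = (h - K u) - (h - K v) := by abel
      rw [h2]
      linarith [norm_sub_le (h - K u) (h - K v)]
    refine ⟨B ∩ Metric.ball (K v) (δ / 2), hB.inter Metric.isOpen_ball,
      ⟨hvB, Metric.mem_ball_self (by positivity)⟩, fun h hh => ⟨?_, fun u hu => ?_⟩⟩
    · refine (hρ.contDiffAt (hB.mem_nhds hh.1)).congr_of_eventuallyEq ?_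
      filter_upwards [(hB.inter Metric.isOpen_ball).mem_nhds hh] with h' hh'
      exact hnr h' hh' _ (hp h')
    · rw [hnr h hh u hu, hnr h hh _ (hp h)]
  choose! B hBo hvB hBp using hloc
  -- Lipschitz neighbourhoods
  have hlip : ∀ v ∈ X, ∃ ε > 0, ∃ C : ℝ, 0 ≤ C ∧ Metric.ball (K v) (2 * ε) ⊆ B v ∧
      ∀ h ∈ Metric.ball (K v) (2 * ε), ∀ h' ∈ Metric.ball (K v) (2 * ε),
        ‖p h - p h'‖ ≤ C * ‖h - h'‖ := by
    intro v hv
    have h1 : ContDiffAt ℝ 1 p (K v) := (hBp v hv (K v) (hvB v hv)).1.of_le (by simp)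
    obtain ⟨C, s, hs, hC⟩ := h1.exists_lipschitzOnWith
    obtain ⟨ε, hε, hεs⟩ := Metric.mem_nhds_iff.1 (Filter.inter_mem hs ((hBo v hv).mem_nhds (hvB v hv)))
    refine ⟨ε / 2, by positivity, C, C.2, ?_, ?_⟩
    · rw [mul_div_cancel₀ ε two_ne_zero]
      exact hεs.trans inter_subset_right
    · rw [mul_div_cancel₀ ε two_ne_zero]
      intro h hh h' hh'
      have := hC.dist_le_mul h (hεs hh).1 h' (hεs hh').1
      rwa [dist_eq_norm, dist_eq_norm] at this
  choose! ε hε Cc hCc hεB hεl using hlip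
  -- finite subcover
  have hVo : ∀ v ∈ X, IsOpen (Metric.ball (K v) (ε v)) := fun v _ => Metric.isOpen_ball
  have himg : IsCompact (K '' X) := hX.compact.image_of_continuousOn hKc
  obtain ⟨T, hT⟩ := himg.elim_finite_subcover (fun v : X => Metric.ball (K v) (ε v))
    (fun v => Metric.isOpen_ball) (by
      rintro _ ⟨v, hv, rfl⟩
      exact mem_iUnion.2 ⟨⟨v, hv⟩, Metric.mem_ball_self (hε v hv)⟩)
  obtain ⟨w0, hw0⟩ := hne
  have hTne : T.Nonempty := by
    have := hT ⟨w0, hw0, rfl⟩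
    obtain ⟨v, hv, -⟩ := mem_iUnion₂.1 this
    exact ⟨v, hv⟩
  obtain ⟨v1, hv1, hmin⟩ := T.exists_min_image (fun v => ε v) hTne
  obtain ⟨v2, hv2, hmax⟩ := T.exists_max_image (fun v => Cc v) hTne
  refine ⟨p, ε v1, Cc v2, hε _ v1.2, hCc _ v2.2, hp, fun v hv h hh => ?_, hpK⟩
  obtain ⟨w, hw, hvw⟩ := mem_iUnion₂.1 (hT ⟨v, hv, rfl⟩)
  have hKv : K v ∈ Metric.ball (K w) (2 * ε w) :=
    Metric.ball_subset_ball (by linarith [hε w w.2]) hvw
  have hhw : h ∈ Metric.ball (K w) (2 * ε w) := by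
    rw [Metric.mem_ball, dist_eq_norm] at hvw ⊢
    have h1 : h - K w = (h - K v) + (K v - K w) := by abel
    rw [h1]
    have h2 := hmin w hw
    linarith [norm_add_le (h - K v) (K v - K w)]
  obtain ⟨h1, h2⟩ := hBp w w.2 h (hεB w w.2 hhw)
  refine ⟨h1, h2, ?_⟩
  have h3 := hεl w w.2 h hhw (K v) hKv
  rw [hpK v hv] at h3
  exact h3.trans (mul_le_mul_of_nonneg_right (hmax w hw) (norm_nonneg _))

end Crest.Agent.R208.NR
end
end

-- ▼ part R208/NR2
section

/-!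
R208, block (U1) (helper378): smooth families of curves are smooth maps into `C([a,b], H)` and
into `L²([a,b], V)`.
-/

set_option autoImplicit false
set_option linter.unusedSectionVars false

open MeasureTheory Set Filter Topology Module
open scoped ContDiff RealInnerProductSpace

noncomputable section

namespace Crest.Agent.R208.NR

section cm
universe u
variable {E H : Type u} [NormedAddCommGroup E] [NormedSpace ℝ E] [FiniteDimensional ℝ E]
  [NormedAddCommGroup H] [NormedSpace ℝ H] {a b : ℝ}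

/-- the curve `c` as a continuous map on `[a,b]` (`0` if `c` is not continuous there) -/
def cm {H : Type*} [NormedAddCommGroup H] (a b : ℝ) (c : ℝ → H) : C(Icc a b, H) := by
  classical exact
  if h : ContinuousOn c (Icc a b) then ⟨fun t => c t, continuousOn_iff_continuous_domRestrict.1 h⟩
    else 0

theorem cm_apply {H : Type*} [NormedAddCommGroup H] {c : ℝ → H} (h : ContinuousOn c (Icc a b))
    (t : Icc a b) : cm a b c t = c t := by
  unfold cm
  rw [dif_pos h]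
  rfl

/-- the slices over `[a,b]` -/
def SlI (a b : ℝ) (U : Set (E × ℝ)) : Set E := {x | ∀ t ∈ Icc a b, (x, t) ∈ U}

theorem isOpen_SlI {U : Set (E × ℝ)} (hU : IsOpen U) : IsOpen (SlI a b U) := by
  rw [isOpen_iff_mem_nhds]
  intro x hx
  obtain ⟨V, W, hV, hW, hxV, hIW, hVW⟩ := generalized_tube_lemma (isCompact_singleton (x := x))
    (isCompact_Icc (a := a) (b := b)) hU (by
      rintro ⟨y, t⟩ ⟨hy, ht⟩
      rw [mem_singleton_iff] at hy
      subst hy
      exact hx t ht)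
  exact mem_of_superset (hV.mem_nhds (hxV rfl)) fun y hy t ht => hVW ⟨hy, hIW ht⟩

theorem contOn_slice {U : Set (E × ℝ)} {g : E × ℝ → H} (hg : ContinuousOn g U) {x : E}
    (hx : x ∈ SlI a b U) : ContinuousOn (fun t => g (x, t)) (Icc a b) :=
  hg.comp (by fun_prop) fun t ht => hx t ht

/-- the slice map `x ↦ g(x,·)` -/
def ev (a b : ℝ) (g : E × ℝ → H) (x : E) : C(Icc a b, H) := cm a b fun t => g (x, t)

theorem continuousOn_ev {U : Set (E × ℝ)} (hU : IsOpen U) {g : E × ℝ → H} (hg : ContinuousOn g U) :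
    ContinuousOn (ev a b g) (SlI a b U) := by
  intro x hx
  refine ContinuousAt.continuousWithinAt ?_
  have hn := (isOpen_SlI (a := a) (b := b) hU).mem_nhds hx
  have h1 : TendstoUniformly (fun (y : E) (t : Icc a b) => g (y, t)) (fun t => g (x, t)) (𝓝 x) := by
    refine ContinuousOn.tendstoUniformly (f := fun (y : E) (t : Icc a b) => g (y, t)) hn ?_
    refine hg.comp (f := fun q : E × Icc a b => (q.1, (q.2 : ℝ))) (by fun_prop) ?_
    rintro ⟨y, t⟩ ⟨hy, -⟩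
    exact hy t t.2
  rw [ContinuousAt, ContinuousMap.tendsto_iff_tendstoUniformly]
  have h2 : (⇑(ev a b g x) : Icc a b → H) = fun t : Icc a b => g (x, (t : ℝ)) :=
    funext fun t => cm_apply (contOn_slice hg hx) t
  rw [h2]
  intro u hu
  filter_upwards [h1 u hu, hn] with y hy hy' t
  have h3 : ev a b g y t = g (y, (t : ℝ)) := cm_apply (contOn_slice hg hy') t
  rw [h3]
  exact hy t

/-- `x ↦ (t ↦ L(t) x)` -/
def TrA (L : C(Icc a b, E →L[ℝ] H)) : E →L[ℝ] C(Icc a b, H) where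
  toFun := fun x => ⟨fun t => L t x, L.continuous.clm_apply continuous_const⟩
  map_add' := fun x y => by ext t; exact map_add (L t) x y
  map_smul' := fun r x => by ext t; exact map_smul (L t) r x
  cont := LinearMap.continuous_of_finiteDimensional
    (⟨⟨fun x => ⟨fun t => L t x, L.continuous.clm_apply continuous_const⟩,
    fun x y => by ext t; exact map_add (L t) x y⟩, fun r x => by ext t; exact map_smul (L t) r x⟩ :
    E →ₗ[ℝ] C(Icc a b, H))

/-- `L ↦ (x ↦ (t ↦ L(t) x))`, linear -/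
def TrL (a b : ℝ) (E H : Type u) [NormedAddCommGroup E] [NormedSpace ℝ E] [FiniteDimensional ℝ E]
    [NormedAddCommGroup H] [NormedSpace ℝ H] : C(Icc a b, E →L[ℝ] H) →ₗ[ℝ] (E →L[ℝ] C(Icc a b, H)) where
  toFun := TrA
  map_add' := fun L M => by ext x t; rfl
  map_smul' := fun r L => by ext x t; rfl

/-- `L ↦ (x ↦ (t ↦ L(t) x))` -/
def Tr (a b : ℝ) (E H : Type u) [NormedAddCommGroup E] [NormedSpace ℝ E] [FiniteDimensional ℝ E]
    [NormedAddCommGroup H] [NormedSpace ℝ H] : C(Icc a b, E →L[ℝ] H) →L[ℝ] (E →L[ℝ] C(Icc a b, H)) where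
  toLinearMap := TrL a b E H
  cont := by
    refine AddMonoidHomClass.continuous_of_bound (TrL a b E H) 1 fun L => ?_
    rw [one_mul]
    refine ContinuousLinearMap.opNorm_le_bound _ (norm_nonneg _) fun x => ?_
    rw [ContinuousMap.norm_le _ (by positivity)]
    intro t
    exact (ContinuousLinearMap.le_opNorm (L t) x).trans
      (mul_le_mul_of_nonneg_right (L.norm_coe_le_norm t) (norm_nonneg _))

@[simp] theorem Tr_apply (L : C(Icc a b, E →L[ℝ] H)) (x : E) (t : Icc a b) :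
    Tr a b E H L x t = L t x := rfl

theorem hasFDerivAt_ev {U : Set (E × ℝ)} (hU : IsOpen U) {g : E × ℝ → H}
    (hg : ContDiffOn ℝ 1 g U) {x : E} (hx : x ∈ SlI a b U) :
    HasFDerivAt (ev a b g) (Tr a b E H
      (ev a b (fun p => (fderiv ℝ g p).comp (ContinuousLinearMap.inl ℝ E ℝ)) x)) x := by
  set g' : E × ℝ → E →L[ℝ] H := fun p => (fderiv ℝ g p).comp (ContinuousLinearMap.inl ℝ E ℝ) with hg'
  have hg0 : ContinuousOn g U := hg.continuousOn
  have hg1 : ContinuousOn g' U :=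
    (hg.continuousOn_fderiv_of_isOpen hU (by norm_num)).clm_comp continuousOn_const
  have hn := (isOpen_SlI (a := a) (b := b) hU).mem_nhds hx
  have hc : ContinuousAt (ev a b g') x :=
    (continuousOn_ev hU hg1).continuousAt hn
  rw [hasFDerivAt_iff_isLittleO_nhds_zero, Asymptotics.isLittleO_iff]
  intro ε hε
  have h1 : ∀ᶠ y in 𝓝 x, ‖ev a b g' y - ev a b g' x‖ < ε := by
    have := hc.eventually (Metric.ball_mem_nhds _ hε)
    filter_upwards [this] with y hy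
    rwa [dist_eq_norm] at hy
  obtain ⟨r, hr, hrb⟩ := Metric.mem_nhds_iff.1 (Filter.inter_mem h1 hn)
  have h2 : ∀ᶠ h in 𝓝 (0 : E), ‖h‖ < r := by
    have := Metric.ball_mem_nhds (0 : E) hr
    filter_upwards [this] with y hy
    rwa [Metric.mem_ball, dist_zero_right] at hy
  filter_upwards [h2] with h hh
  rw [ContinuousMap.norm_le _ (by positivity)]
  intro t
  have hy : x + h ∈ Metric.ball x r := by rw [Metric.mem_ball, dist_eq_norm]; simpa using hh
  have hxb : x ∈ Metric.ball x r := Metric.mem_ball_self hr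
  have e1 : ev a b g (x + h) t = g (x + h, t) := cm_apply (contOn_slice hg0 (hrb hy).2) t
  have e2 : ev a b g x t = g (x, t) := cm_apply (contOn_slice hg0 hx) t
  have e3 : ∀ y ∈ Metric.ball x r, ev a b g' y t = g' (y, t) := fun y hy =>
    cm_apply (contOn_slice hg1 (hrb hy).2) t
  have h3 := Convex.norm_image_sub_le_of_norm_hasFDerivWithin_le' (f := fun y => g (y, (t : ℝ)))
    (f' := fun y => g' (y, t)) (s := Metric.ball x r) (C := ε) (φ := g' (x, t)) (x := x) (y := x + h)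
    (fun y hy => by
      have h1 : HasFDerivAt g (fderiv ℝ g (y, (t : ℝ))) (y, (t : ℝ)) :=
        ((hg.contDiffAt (hU.mem_nhds ((hrb hy).2 t t.2))).differentiableAt
          (by norm_num)).hasFDerivAt
      have h2 : HasFDerivAt (fun y : E => (y, (t : ℝ))) (ContinuousLinearMap.inl ℝ E ℝ) y :=
        (hasFDerivAt_id y).prodMk (hasFDerivAt_const (t : ℝ) y)
      exact (h1.comp y h2).hasFDerivWithinAt)
    (fun y hy => by
      have h4 := (hrb hy).1
      have h5 := ContinuousMap.norm_coe_le_norm (ev a b g' y - ev a b g' x) t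
      rw [ContinuousMap.sub_apply, e3 y hy, e3 x hxb] at h5
      exact h5.trans (le_of_lt h4))
    (convex_ball x r) hxb hy
  rw [add_sub_cancel_left] at h3
  change ‖ev a b g (x + h) t - ev a b g x t - ev a b g' x t h‖ ≤ _
  rw [e1, e2, e3 x hxb]
  exact h3

theorem contDiffOn_ev (n : ℕ) {H : Type u} [NormedAddCommGroup H] [NormedSpace ℝ H]
    {U : Set (E × ℝ)} (hU : IsOpen U) {g : E × ℝ → H} (hg : ContDiffOn ℝ n g U) :
    ContDiffOn ℝ n (ev a b g) (SlI a b U) := by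
  induction n generalizing H with
  | zero =>
    rw [Nat.cast_zero, contDiffOn_zero] at hg ⊢
    exact continuousOn_ev hU hg
  | succ n ih =>
    have h1 : ContDiffOn ℝ 1 g U := hg.of_le (by norm_cast; omega)
    have h2 : ContDiffOn ℝ n (fun p => (fderiv ℝ g p).comp (ContinuousLinearMap.inl ℝ E ℝ)) U := by
      have h3 : ContDiffOn ℝ n (fderiv ℝ g) U := by
        refine hg.fderiv_of_isOpen hU ?_
        push_cast
        exact le_rfl
      exact h3.clm_comp contDiffOn_const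
    have h4 := ih h2
    push_cast
    rw [contDiffOn_succ_iff_fderiv_of_isOpen (isOpen_SlI hU)]
    refine ⟨fun x hx => (hasFDerivAt_ev hU h1 hx).differentiableAt.differentiableWithinAt,
      fun h => absurd h (by simp), ?_⟩
    have h5 : ContDiff ℝ n (Tr a b E H : C(Icc a b, E →L[ℝ] H) → (E →L[ℝ] C(Icc a b, H))) := by
      exact ContinuousLinearMap.contDiff (𝕜 := ℝ) (E := C(Icc a b, E →L[ℝ] H))
        (F := (E →L[ℝ] C(Icc a b, H))) (Tr a b E H)
    have h6 := h5.comp_contDiffOn h4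
    exact h6.congr fun x hx => (hasFDerivAt_ev hU h1 hx).fderiv

theorem contDiffAt_ev_nat {n : ℕ} {g : E × ℝ → H} {x : E}
    (hg : ∀ t ∈ Icc a b, ContDiffAt ℝ n g (x, t)) : ContDiffAt ℝ n (ev a b g) x := by
  set U : Set (E × ℝ) := {p | ContDiffAt ℝ n g p} with hU
  have hUo : IsOpen U := by
    rw [isOpen_iff_mem_nhds]
    intro p hp
    exact ContDiffAt.eventually hp (by simp)
  have h1 : ContDiffOn ℝ n g U := fun p hp => ContDiffAt.contDiffWithinAt hp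
  exact (contDiffOn_ev n hUo h1).contDiffAt ((isOpen_SlI hUo).mem_nhds hg)

/-- **a smooth family of curves is a smooth map into `C([a,b],H)`** -/
theorem contDiffAt_ev {g : E × ℝ → H} {x : E}
    (hg : ∀ t ∈ Icc a b, ContDiffAt ℝ ∞ g (x, t)) : ContDiffAt ℝ ∞ (ev a b g) x := by
  rw [contDiffAt_infty]
  intro n
  exact contDiffAt_ev_nat fun t ht => contDiffAt_infty.1 (hg t ht) n

theorem fderiv_ev {g : E × ℝ → H} {x : E}
    (hg : ∀ t ∈ Icc a b, ContDiffAt ℝ 1 g (x, t)) (ξ : E) :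
    fderiv ℝ (ev a b g) x ξ = cm a b fun t => fderiv ℝ g (x, t) (ξ, 0) := by
  set U : Set (E × ℝ) := {p | ContDiffAt ℝ 1 g p} with hU
  have hUo : IsOpen U := by
    rw [isOpen_iff_mem_nhds]
    intro p hp
    exact ContDiffAt.eventually hp (by simp)
  have h1 : ContDiffOn ℝ 1 g U := fun p hp => ContDiffAt.contDiffWithinAt hp
  have h2 : ContinuousOn (fderiv ℝ g) U := h1.continuousOn_fderiv_of_isOpen hUo (by norm_num)
  have h3 : ContinuousOn (fun p => (fderiv ℝ g p).comp (ContinuousLinearMap.inl ℝ E ℝ)) U :=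
    h2.clm_comp continuousOn_const
  rw [(hasFDerivAt_ev hUo h1 hg).fderiv]
  ext t
  rw [Tr_apply, ev, cm_apply (contOn_slice h3 hg),
    cm_apply ((contOn_slice h2 hg).clm_apply continuousOn_const)]
  rfl

end cm

/-! ### `L²` -/

section L2
variable {V : Type*} [NormedAddCommGroup V] [InnerProductSpace ℝ V] [CompleteSpace V] {a b : ℝ}

/-- Lebesgue measure on `[a,b]` -/
def mI (a b : ℝ) : Measure (Icc a b) := Measure.comap Subtype.val volume

instance finI (a b : ℝ) : IsFiniteMeasure (mI a b) := by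
  refine ⟨?_⟩
  rw [mI, comap_subtype_coe_apply measurableSet_Icc, image_univ, Subtype.range_coe]
  exact measure_Icc_lt_top

/-- the curve `c` as an element of `L²([a,b], V)` -/
def el (a b : ℝ) (c : ℝ → V) : Lp V 2 (mI a b) :=
  ContinuousMap.toLp 2 (mI a b) ℝ (cm a b c)

theorem integral_I (hab : a ≤ b) (f : ℝ → ℝ) : ∫ t : Icc a b, f t ∂(mI a b) = ∫ t in a..b, f t := by
  rw [mI, integral_subtype_comap measurableSet_Icc, intervalIntegral.integral_of_le hab,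
    integral_Icc_eq_integral_Ioc]

theorem inner_el (hab : a ≤ b) {c d : ℝ → V} (hc : ContinuousOn c (Icc a b))
    (hd : ContinuousOn d (Icc a b)) : ⟪el a b c, el a b d⟫ = ∫ t in a..b, ⟪c t, d t⟫ := by
  rw [L2.inner_def, ← integral_I hab]
  refine integral_congr_ae ?_
  filter_upwards [ContinuousMap.coeFn_toLp (𝕜 := ℝ) (p := 2) (mI a b) (cm a b c),
    ContinuousMap.coeFn_toLp (𝕜 := ℝ) (p := 2) (mI a b) (cm a b d)] with t h1 h2
  rw [el, el, h1, h2, cm_apply hc, cm_apply hd]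

theorem norm_el_sq (hab : a ≤ b) {c : ℝ → V} (hc : ContinuousOn c (Icc a b)) :
    ‖el a b c‖ ^ 2 = ∫ t in a..b, ‖c t‖ ^ 2 := by
  rw [← real_inner_self_eq_norm_sq, inner_el hab hc hc]
  refine intervalIntegral.integral_congr fun t _ => ?_
  exact real_inner_self_eq_norm_sq (c t)

theorem el_sub {c d : ℝ → V} (hc : ContinuousOn c (Icc a b))
    (hd : ContinuousOn d (Icc a b)) : el a b (fun t => c t - d t) = el a b c - el a b d := by
  rw [el, el, el, ← map_sub]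
  congr 1
  ext t
  have h1 : cm a b (fun t => c t - d t) t = c t - d t := cm_apply (hc.sub hd) t
  rw [ContinuousMap.sub_apply, cm_apply hc, cm_apply hd, h1]

theorem norm_el_sub_sq (hab : a ≤ b) {c d : ℝ → V} (hc : ContinuousOn c (Icc a b))
    (hd : ContinuousOn d (Icc a b)) : ‖el a b c - el a b d‖ ^ 2 = ∫ t in a..b, ‖c t - d t‖ ^ 2 := by
  rw [← el_sub hc hd]
  exact norm_el_sq hab (hc.sub hd)

theorem inner_el_sub (hab : a ≤ b) {c d e : ℝ → V} (hc : ContinuousOn c (Icc a b))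
    (hd : ContinuousOn d (Icc a b)) (he : ContinuousOn e (Icc a b)) :
    ⟪el a b c - el a b d, el a b e⟫ = ∫ t in a..b, ⟪c t - d t, e t⟫ := by
  rw [← el_sub hc hd]
  exact inner_el hab (hc.sub hd) he

theorem el_congr {c d : ℝ → V} (h : ∀ t ∈ Icc a b, c t = d t) : el a b c = el a b d := by
  have h1 : ContinuousOn c (Icc a b) ↔ ContinuousOn d (Icc a b) :=
    continuousOn_congr h
  rw [el, el]
  congr 1
  by_cases hc : ContinuousOn c (Icc a b)
  · ext t
    rw [cm_apply hc, cm_apply (h1.1 hc), h t t.2]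
  · unfold cm
    rw [dif_neg hc, dif_neg (fun h' => hc (h1.2 h'))]

end L2

section L2E
universe u
variable {E V : Type u} [NormedAddCommGroup E] [NormedSpace ℝ E] [FiniteDimensional ℝ E]
  [NormedAddCommGroup V] [InnerProductSpace ℝ V] [CompleteSpace V] {a b : ℝ}

/-- **a smooth family of curves is a smooth map into `L²([a,b],V)`** -/
theorem contDiffAt_el {g : E × ℝ → V} {x : E}
    (hg : ∀ t ∈ Icc a b, ContDiffAt ℝ ∞ g (x, t)) :
    ContDiffAt ℝ ∞ (fun x => el a b fun t => g (x, t)) x :=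
  (ContinuousLinearMap.contDiff (𝕜 := ℝ) (E := C(Icc a b, V)) (F := Lp V 2 (mI a b))
    (ContinuousMap.toLp 2 (mI a b) ℝ)).contDiffAt.comp x (contDiffAt_ev hg)

theorem fderiv_el {g : E × ℝ → V} {x : E}
    (hg : ∀ t ∈ Icc a b, ContDiffAt ℝ ∞ g (x, t)) (ξ : E) :
    fderiv ℝ (fun x => el a b fun t => g (x, t)) x ξ = el a b fun t => fderiv ℝ g (x, t) (ξ, 0) := by
  have h1 : HasFDerivAt (ev a b g) (fderiv ℝ (ev a b g) x) x :=
    ((contDiffAt_ev hg).differentiableAt (by simp)).hasFDerivAt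
  have h2 := (ContinuousMap.toLp (E := V) 2 (mI a b) ℝ).hasFDerivAt.comp x h1
  have h3 : fderiv ℝ (fun x => el a b fun t => g (x, t)) x =
      (ContinuousMap.toLp (E := V) 2 (mI a b) ℝ).comp (fderiv ℝ (ev a b g) x) :=
    h2.fderiv
  rw [h3, ContinuousLinearMap.comp_apply,
    fderiv_ev (fun t ht => (hg t ht).of_le (by simp))]
  rfl

end L2E

end Crest.Agent.R208.NR
end
end

-- ▼ part R208/NR3
section

/-!
R208, block (U1) (helper378): **the `L²`-nearest geodesic** `gg c ∈ US G` of a loop `c`.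
-/

set_option autoImplicit false
set_option linter.unusedSectionVars false

open Set Filter Topology Module MeasureTheory
open scoped ContDiff RealInnerProductSpace Real
open Crest.GeometryTopology.Submanifold
open Crest.Agent.R241.DDefs Crest.Agent.R241.D Crest.Agent.R241.D2
open Crest.Agent.R208.FI (Clo Sub Tan)
open Crest.Agent.R208.L (US dfl)

noncomputable section

namespace Crest.Agent.R208.NR

variable {n N : ℕ} {κ : ℝ} {S : Set (Euc N)} {G : Geo n N κ S}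

/-- the geodesic with initial data `v` -/
def ga (G : Geo n N κ S) (v : Euc N × Euc N) (t : ℝ) : Euc N := (fl G (v, t)).1

/-- squared `L²` distance over `[0,2π]` -/
def D2 (G : Geo n N κ S) (c : ℝ → Euc N) (v : Euc N × Euc N) : ℝ :=
  ∫ t in (0:ℝ)..(2 * π), ‖c t - ga G v t‖ ^ 2

theorem two_pi_nonneg : (0:ℝ) ≤ 2 * π := by positivity

theorem contDiffAt_ga {v : Euc N × Euc N} (hv : v ∈ TS G) (t : ℝ) :
    ContDiffAt ℝ ∞ (fun p : (Euc N × Euc N) × ℝ => ga G p.1 p.2) (v, t) :=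
  (contDiffAt_fl' G hv t).fst

theorem contDiff_ga {v : Euc N × Euc N} (hv : v ∈ TS G) : ContDiff ℝ ∞ (ga G v) := by
  rw [contDiff_iff_contDiffAt]
  intro t
  exact ContDiffAt.comp (f := fun t : ℝ => (v, t)) t (contDiffAt_ga hv t)
    (contDiffAt_const.prodMk contDiffAt_id)

theorem contOn_ga {v : Euc N × Euc N} (hv : v ∈ TS G) {s : Set ℝ} : ContinuousOn (ga G v) s :=
  (contDiff_ga hv).continuous.continuousOn

theorem hasDerivAt_ga {v : Euc N × Euc N} (hv : v ∈ TS G) (t : ℝ) :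
    HasDerivAt (ga G v) (fl G (v, t)).2 t :=
  hda_fst (hasDerivAt_fl G (complete G hv t))

theorem ga_add {v : Euc N × Euc N} (hv : v ∈ TS G) (s t : ℝ) :
    ga G v (s + t) = ga G (fl G (v, s)) t := by
  unfold ga
  rw [fl_add' G hv s t]

theorem fl_mem_US {v : Euc N × Euc N} (hv : v ∈ US G) (t : ℝ) : fl G (v, t) ∈ US G :=
  ⟨fl_mem G hv.1 t, by rw [norm_fl G hv.1 t]; exact hv.2⟩

theorem ga_per (hper : HS.Per G) {v : Euc N × Euc N} (hv : v ∈ US G) (t : ℝ) :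
    ga G v (t + 2 * π) = ga G v t := by
  rw [add_comm, ga_add hv.1, hper v hv.1 hv.2]

/-- the element of `L²([0,2π])` -/
def K (G : Geo n N κ S) (v : Euc N × Euc N) : Lp (Euc N) 2 (mI 0 (2 * π)) :=
  el 0 (2 * π) (fun t => ga G v t)

theorem D2_eq {c : ℝ → Euc N} (hc : ContinuousOn c (Icc 0 (2 * π))) {v : Euc N × Euc N}
    (hv : v ∈ TS G) : D2 G c v = ‖el 0 (2 * π) c - K G v‖ ^ 2 :=
  (norm_el_sub_sq two_pi_nonneg hc (contOn_ga hv)).symm

theorem contDiffAt_K {v : Euc N × Euc N} (hv : v ∈ TS G) : ContDiffAt ℝ ∞ (K G) v :=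
  contDiffAt_el (g := fun p : (Euc N × Euc N) × ℝ => ga G p.1 p.2) fun t _ => contDiffAt_ga hv t

theorem fderiv_ga {v : Euc N × Euc N} (hv : v ∈ TS G) (t : ℝ) (ξ : Euc N × Euc N) :
    fderiv ℝ (fun p : (Euc N × Euc N) × ℝ => ga G p.1 p.2) (v, t) (ξ, 0) = (dfl G v t ξ).1 := by
  rw [L.dfl_apply hv]
  have h1 := ((contDiffAt_fl' G hv t).differentiableAt (by simp)).hasFDerivAt
  have h2 : HasFDerivAt (fun p : (Euc N × Euc N) × ℝ => ga G p.1 p.2)
      ((ContinuousLinearMap.fst ℝ (Euc N) (Euc N)).comp (fderiv ℝ (fl G) (v, t))) (v, t) := h1.fst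
  rw [h2.fderiv]
  rfl

theorem fderiv_K {v : Euc N × Euc N} (hv : v ∈ TS G) (ξ : Euc N × Euc N) :
    fderiv ℝ (K G) v ξ = el 0 (2 * π) fun t => (dfl G v t ξ).1 := by
  have h1 := fderiv_el (a := 0) (b := 2 * π) (g := fun p : (Euc N × Euc N) × ℝ => ga G p.1 p.2)
    (fun t _ => contDiffAt_ga hv t) ξ
  refine h1.trans (el_congr fun t _ => ?_)
  exact fderiv_ga hv t ξ

theorem hasDerivAt_dfl_fst {v : Euc N × Euc N} (hv : v ∈ TS G) (ξ : Euc N × Euc N) (t : ℝ) :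
    HasDerivAt (fun t => (dfl G v t ξ).1) (dfl G v t ξ).2 t := by
  have h1 := hda_fst (L.hasDerivAt_dfl hv ξ t)
  rwa [L.fderiv_X_fst] at h1

theorem contOn_dfl_fst {v : Euc N × Euc N} (hv : v ∈ TS G) (ξ : Euc N × Euc N) {s : Set ℝ} :
    ContinuousOn (fun t => (dfl G v t ξ).1) s :=
  fun t _ => (hasDerivAt_dfl_fst hv ξ t).continuousAt.continuousWithinAt

/-- a continuous curve with vanishing `L²` norm vanishes -/
theorem eq_zero_of_int {a b : ℝ} (hab : a < b) {f : ℝ → Euc N} (hf : ContinuousOn f (Icc a b))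
    (h : ∫ t in a..b, ‖f t‖ ^ 2 = 0) : ∀ t ∈ Icc a b, f t = 0 := by
  intro t ht
  by_contra hne
  have := intervalIntegral.integral_pos hab (hf.norm.pow 2) (fun x _ => sq_nonneg _)
    ⟨t, ht, pow_pos (norm_pos_iff.2 hne) 2⟩
  exact (ne_of_gt this) h

/-- two values and derivatives at `0` -/
theorem deriv_eq_of_eqOn {f g : ℝ → Euc N} {f' g' : Euc N}
    (h : ∀ t ∈ Icc (0:ℝ) (2 * π), f t = g t) (hf : HasDerivAt f f' 0) (hg : HasDerivAt g g' 0) :
    f' = g' := by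
  have hm : (0:ℝ) ∈ Icc (0:ℝ) (2 * π) := ⟨le_rfl, two_pi_nonneg⟩
  have hu : UniqueDiffWithinAt ℝ (Icc (0:ℝ) (2 * π)) 0 :=
    uniqueDiffOn_Icc (by positivity) 0 hm
  refine UniqueDiffWithinAt.eq_deriv _ hu (hf.hasDerivWithinAt) ?_
  exact (hg.hasDerivWithinAt (s := Icc (0:ℝ) (2 * π))).congr h (h 0 hm)

theorem injOn_K : InjOn (K G) (US G) := by
  intro u hu v hv huv
  have h1 : ∫ t in (0:ℝ)..(2 * π), ‖ga G u t - ga G v t‖ ^ 2 = 0 := by
    rw [← norm_el_sub_sq two_pi_nonneg (contOn_ga hu.1) (contOn_ga hv.1)]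
    have h2 : el 0 (2 * π) (ga G u) = el 0 (2 * π) (ga G v) := huv
    rw [h2, sub_self, norm_zero]
    norm_num
  have h2 := eq_zero_of_int (by positivity) ((contOn_ga hu.1).sub (contOn_ga hv.1)) h1
  have h3 : ∀ t ∈ Icc (0:ℝ) (2 * π), ga G u t = ga G v t := fun t ht => sub_eq_zero.1 (h2 t ht)
  have h4 := h3 0 ⟨le_rfl, two_pi_nonneg⟩
  have h5 := deriv_eq_of_eqOn h3 (hasDerivAt_ga hu.1 0) (hasDerivAt_ga hv.1 0)
  unfold ga at h4
  rw [fl_zero, fl_zero] at h4 h5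
  exact Prod.ext h4 h5

theorem imm_K {v : Euc N × Euc N} (hv : v ∈ TS G) {ξ : Euc N × Euc N}
    (h : fderiv ℝ (K G) v ξ = 0) : ξ = 0 := by
  rw [fderiv_K hv] at h
  have h1 : ∫ t in (0:ℝ)..(2 * π), ‖(dfl G v t ξ).1‖ ^ 2 = 0 := by
    rw [← norm_el_sq two_pi_nonneg (contOn_dfl_fst hv ξ), h, norm_zero]
    norm_num
  have h2 := eq_zero_of_int (by positivity) (contOn_dfl_fst hv ξ) h1
  have h3 := h2 0 ⟨le_rfl, two_pi_nonneg⟩
  have h4 := deriv_eq_of_eqOn (g := fun _ => (0 : Euc N)) h2 (hasDerivAt_dfl_fst hv ξ 0)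
    (hasDerivAt_const 0 0)
  rw [L.dfl_zero hv] at h3 h4
  exact Prod.ext h3 h4

/-- **the `L²`-nearest geodesic**: properties of the map `gg` (radius `η`, constant `C`) -/
structure NG (G : Geo n N κ S) (gg : (ℝ → Euc N) → Euc N × Euc N) (η C : ℝ) : Prop where
  η_pos : 0 < η
  C_nonneg : 0 ≤ C
  mem : ∀ c, gg c ∈ US G
  min : ∀ c, ContinuousOn c (Icc 0 (2 * π)) → ∀ v ∈ US G, D2 G c (gg c) ≤ D2 G c v
  congr : ∀ c d : ℝ → Euc N, (∀ t ∈ Icc 0 (2 * π), c t = d t) → gg c = gg d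
  fix : ∀ v ∈ US G, gg (ga G v) = v
  uniq : ∀ c, ContinuousOn c (Icc 0 (2 * π)) → ∀ v ∈ US G, D2 G c v < η ^ 2 →
    ∀ u ∈ US G, (∀ w ∈ US G, D2 G c u ≤ D2 G c w) → u = gg c
  lip : ∀ c, ContinuousOn c (Icc 0 (2 * π)) → ∀ v ∈ US G, D2 G c v < η ^ 2 →
    ‖gg c - v‖ ≤ C * Real.sqrt (D2 G c v)
  orth : ∀ c, ContinuousOn c (Icc 0 (2 * π)) → ∀ ξ ∈ Tan (US G) (gg c),
    ∫ t in (0:ℝ)..(2 * π), ⟪c t - ga G (gg c) t, (dfl G (gg c) t ξ).1⟫ = 0
  smooth : ∀ {E : Type} [NormedAddCommGroup E] [NormedSpace ℝ E] [FiniteDimensional ℝ E]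
    (g : E × ℝ → Euc N) (z : E), (∀ t ∈ Icc 0 (2 * π), ContDiffAt ℝ ∞ g (z, t)) →
    ∀ v ∈ US G, D2 G (fun t => g (z, t)) v < η ^ 2 →
      ContDiffAt ℝ ∞ (fun z' => gg fun t => g (z', t)) z

theorem exists_NG {d : ℕ} (hX : Clo d (US G)) (hne : (US G).Nonempty) :
    ∃ gg η C, NG G gg η C := by
  obtain ⟨p, η, C, hη, hC, hp, hpl, hpK⟩ := exists_tub hX hne
    (K := K G) (fun v hv => contDiffAt_K hv.1) injOn_K (fun v hv ξ _ h => imm_K hv.1 h)
  have hsq : ∀ c, ContinuousOn c (Icc 0 (2 * π)) → ∀ v ∈ US G, D2 G c v < η ^ 2 →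
      ‖el 0 (2 * π) c - K G v‖ < η := by
    intro c hc v hv h
    rw [D2_eq hc hv.1] at h
    exact lt_of_pow_lt_pow_left₀ 2 hη.le h
  refine ⟨fun c => p (el 0 (2 * π) c), η, C, hη, hC, fun c => (hp _).1, fun c hc v hv => ?_,
    fun c d h => by rw [el_congr h], fun v hv => hpK v hv, fun c hc v hv h u hu hmin => ?_,
    fun c hc v hv h => ?_, fun c hc ξ hξ => ?_, fun g z hg v hv h => ?_⟩
  · rw [D2_eq hc hv.1, D2_eq hc (hp _).1.1]
    exact pow_le_pow_left₀ (norm_nonneg _) ((hp (el 0 (2 * π) c)).2 v hv) 2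
  · refine (hpl v hv _ (hsq c hc v hv h)).2.1 u ⟨hu, fun w hw => ?_⟩
    have h1 := hmin w hw
    rw [D2_eq hc hu.1, D2_eq hc hw.1] at h1
    exact (sq_le_sq₀ (norm_nonneg _) (norm_nonneg _)).1 h1
  · have h1 := (hpl v hv _ (hsq c hc v hv h)).2.2
    rwa [D2_eq hc hv.1, Real.sqrt_sq (norm_nonneg _)]
  · have h1 := (hp (el 0 (2 * π) c)).crit hX.sub (contDiffAt_K (hp _).1.1) hξ
    rw [fderiv_K (hp _).1.1] at h1
    rwa [K, inner_el_sub two_pi_nonneg hc (contOn_ga (hp _).1.1)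
      (contOn_dfl_fst (hp _).1.1 ξ)] at h1
  · have hc : ContinuousOn (fun t => g (z, t)) (Icc 0 (2 * π)) := fun t ht =>
      (ContinuousAt.comp (f := fun t : ℝ => (z, t)) (hg t ht).continuousAt
        (by fun_prop)).continuousWithinAt
    exact (hpl v hv _ (hsq _ hc v hv h)).1.comp z (contDiffAt_el hg)

end Crest.Agent.R208.NR
end
end

-- ▼ part R208/NR4
section

/-!
R208, block (U1) (helper378), part 2: the `L²`-nearest geodesic `gg` is equivariant and smooth on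
circle families of loops; smoothness of the `L²`- and `H¹`-distances.
-/

set_option autoImplicit false
set_option linter.unusedSectionVars false

open Set Filter Topology Module MeasureTheory
open scoped ContDiff RealInnerProductSpace Real
open Crest.GeometryTopology.Submanifold
open Crest.Agent.R241.DDefs Crest.Agent.R241.D Crest.Agent.R241.D2
open Crest.Agent.R208.FI (Clo Sub Tan)
open Crest.Agent.R208.L (US dfl)
open Crest.Agent.R208.MS (oc Fam Loop)

noncomputable section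

namespace Crest.Agent.R208.NR

variable {n N : ℕ} {κ : ℝ} {S : Set (Euc N)} {G : Geo n N κ S}
  {gg : (ℝ → Euc N) → Euc N × Euc N} {η C : ℝ}


/-- the `L²` distance of the rotated loop -/
theorem D2_shift (hper : HS.Per G) {c : ℝ → Euc N} (hcp : ∀ t, c (t + 2 * π) = c t)
    {v : Euc N × Euc N} (hv : v ∈ US G) (s : ℝ) :
    D2 G (fun t => c (t + s)) v = D2 G c (fl G (v, -s)) := by
  have hP : Function.Periodic (fun t => ‖c t - ga G v (t - s)‖ ^ 2) (2 * π) := by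
    intro t
    have h1 : t + 2 * π - s = (t - s) + 2 * π := by ring
    simp only [h1, hcp, ga_per hper hv]
  have h1 : ∀ t, ga G (fl G (v, -s)) t = ga G v (t - s) := by
    intro t
    rw [← ga_add hv.1]
    congr 1
    ring
  have h2 := hP.intervalIntegral_add_eq 0 s
  unfold D2
  simp only [h1]
  rw [zero_add] at h2
  rw [h2]
  have h3 := intervalIntegral.integral_comp_add_right (a := (0:ℝ)) (b := 2 * π)
    (fun t => ‖c t - ga G v (t - s)‖ ^ 2) s
  simp only [add_sub_cancel_right] at h3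
  rw [h3, zero_add, add_comm (2 * π) s]

/-- **equivariance** of the nearest geodesic -/
theorem NG.shift (h : NG G gg η C) (hper : HS.Per G) {c : ℝ → Euc N} (hc : Continuous c)
    (hcp : ∀ t, c (t + 2 * π) = c t) {v : Euc N × Euc N} (hv : v ∈ US G)
    (hd : D2 G c v < η ^ 2) (s : ℝ) : gg (fun t => c (t + s)) = fl G (gg c, s) := by
  set c' : ℝ → Euc N := fun t => c (t + s) with hc'
  have hcc' : Continuous c' := hc.comp (continuous_add_const s)
  have h1 : fl G (gg c', -s) = gg c := by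
    refine h.uniq c hc.continuousOn v hv hd _ (fl_mem_US (h.mem c') _) fun w hw => ?_
    rw [← D2_shift hper hcp (h.mem c') s]
    refine (h.min c' hcc'.continuousOn (fl G (w, s)) (fl_mem_US hw s)).trans (le_of_eq ?_)
    rw [hc', D2_shift hper hcp (fl_mem_US hw s) s, ← fl_add' G hw.1 s (-s), add_neg_cancel, fl_zero]
  rw [← h1, ← fl_add' G (h.mem c').1 (-s) s, neg_add_cancel, fl_zero]


/-! ### circle families -/

variable {E : Type} [NormedAddCommGroup E] [NormedSpace ℝ E] [FiniteDimensional ℝ E]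
  {X : Set E} {φ : ℝ → E → E} {f : E → Euc N}

/-- the joint map of a circle family -/
theorem contDiffAt_oc (hφ : CM.Cir X φ) (hf : ∀ z ∈ X, ContDiffAt ℝ ∞ f z) {z : E} (hz : z ∈ X)
    (t : ℝ) : ContDiffAt ℝ ∞ (fun p : E × ℝ => oc φ f p.1 p.2) (z, t) := by
  have h1 : ContDiffAt ℝ ∞ (fun p : E × ℝ => φ p.2 p.1) (z, t) :=
    ContDiffAt.comp (g := fun q : ℝ × E => φ q.1 q.2) (z, t) (hφ.smooth t z hz)
      (contDiffAt_snd.prodMk contDiffAt_fst)
  exact ContDiffAt.comp (g := f) (f := fun p : E × ℝ => φ p.2 p.1) (z, t) (hf _ (hφ.maps t hz)) h1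

/-- **smoothness of the nearest geodesic on circle families** -/
theorem NG.contDiffAt_oc (h : NG G gg η C) (hφ : CM.Cir X φ) (hf : ∀ z ∈ X, ContDiffAt ℝ ∞ f z)
    {z : E} (hz : z ∈ X) {v : Euc N × Euc N} (hv : v ∈ US G) (hd : D2 G (oc φ f z) v < η ^ 2) :
    ContDiffAt ℝ ∞ (fun z' => gg (oc φ f z')) z :=
  h.smooth (fun p : E × ℝ => oc φ f p.1 p.2) z (fun t _ => NR.contDiffAt_oc hφ hf hz t) v hv hd

/-- equivariance on circle families -/
theorem NG.oc_shift (h : NG G gg η C) (hper : HS.Per G) (hφ : CM.Cir X φ) (hf : Fam S X f)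
    {z : E} (hz : z ∈ X) {v : Euc N × Euc N} (hv : v ∈ US G) (hd : D2 G (oc φ f z) v < η ^ 2)
    (s : ℝ) : gg (oc φ f (φ s z)) = fl G (gg (oc φ f z), s) := by
  have hl := MS.loop_oc hφ hf hz
  rw [MS.oc_shift hφ hz s]
  exact h.shift hper hl.smooth.continuous hl.per hv hd s

/-! ### smoothness of integrals over `[a,b]` -/

theorem contDiffAt_int {H : Type} [NormedAddCommGroup H] [NormedSpace ℝ H] {a b : ℝ} (hab : a ≤ b)
    {g : E × ℝ → H} {x : E} (hg : ∀ t ∈ Icc a b, ContDiffAt ℝ ∞ g (x, t)) :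
    ContDiffAt ℝ ∞ (fun x => ∫ t in a..b, g (x, t)) x := by
  have h1 : (fun x => ∫ t in a..b, g (x, t)) =
      fun x => (b - a) • FI.I1 (fun p : E × ℝ => g (p.1, a + p.2 * (b - a))) x := by
    funext x
    unfold FI.I1
    have h2 := intervalIntegral.smul_integral_comp_mul_add (a := (0:ℝ)) (b := 1)
      (fun t => g (x, t)) (b - a) a
    have h3 : (fun s : ℝ => g (x, a + s * (b - a))) = fun s => g (x, (b - a) * s + a) := by
      funext s; congr 2; ring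
    simp only at h2 ⊢
    rw [h3, h2]
    congr 1 <;> ring
  rw [h1]
  refine ContDiffAt.const_smul _ (FI.contDiffAt_I1 fun s hs => ?_)
  refine ContDiffAt.comp (g := g) (f := fun p : E × ℝ => (p.1, a + p.2 * (b - a))) (x, s)
    (hg _ ⟨?_, ?_⟩) ?_
  · have := mul_nonneg hs.1 (sub_nonneg.2 hab)
    simp only
    linarith
  · have := mul_le_mul_of_nonneg_right hs.2 (sub_nonneg.2 hab)
    simp only
    linarith
  · exact contDiffAt_fst.prodMk (contDiffAt_const.add (contDiffAt_snd.mul contDiffAt_const))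

/-- the time derivative of a smooth family -/
theorem contDiffAt_deriv_snd {H : Type} [NormedAddCommGroup H] [NormedSpace ℝ H]
    {g : E × ℝ → H} {x : E} {t : ℝ} (hg : ContDiffAt ℝ ∞ g (x, t)) :
    ContDiffAt ℝ ∞ (fun p : E × ℝ => deriv (fun s => g (p.1, s)) p.2) (x, t) := by
  have h1 : ContDiffAt ℝ ∞ (fun p : E × ℝ => fderiv ℝ g p (0, 1)) (x, t) :=
    (hg.fderiv_right (m := ∞) (by simp)).clm_apply contDiffAt_const
  refine h1.congr_of_eventuallyEq ?_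
  have h2 : ∀ᶠ p in 𝓝 (x, t), ContDiffAt ℝ 1 g p :=
    (hg.of_le (by simp)).eventually (by simp)
  filter_upwards [h2] with p hp
  have h3 : HasFDerivAt g (fderiv ℝ g p) (p.1, p.2) := (hp.differentiableAt (by simp)).hasFDerivAt
  have h4 : HasDerivAt (fun s : ℝ => ((p.1, s) : E × ℝ)) (0, 1) p.2 :=
    (hasDerivAt_const p.2 p.1).prodMk (hasDerivAt_id p.2)
  exact (HasFDerivAt.comp_hasDerivAt (f := fun s : ℝ => ((p.1, s) : E × ℝ)) p.2 h3 h4).deriv

/-- smoothness of the `L²` distance of a family of curves to a family of geodesics -/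
theorem contDiffAt_D2 {g : E × ℝ → Euc N} {z : E} (hg : ∀ t ∈ Icc 0 (2 * π), ContDiffAt ℝ ∞ g (z, t))
    {w : E → Euc N × Euc N} (hw : ContDiffAt ℝ ∞ w z) (hwm : w z ∈ US G) :
    ContDiffAt ℝ ∞ (fun z' => D2 G (fun t => g (z', t)) (w z')) z := by
  refine contDiffAt_int (g := fun p : E × ℝ => ‖g p - ga G (w p.1) p.2‖ ^ 2) two_pi_nonneg
    fun t ht => ContDiffAt.norm_sq ℝ ((hg t ht).sub ?_)
  exact ContDiffAt.comp (g := fun p : (Euc N × Euc N) × ℝ => ga G p.1 p.2)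
    (f := fun p : E × ℝ => (w p.1, p.2)) (z, t) (contDiffAt_ga hwm.1 t)
    ((hw.comp (z, t) contDiffAt_fst).prodMk contDiffAt_snd)

/-- squared `L²` distance of the velocities -/
def D2' (G : Geo n N κ S) (c : ℝ → Euc N) (v : Euc N × Euc N) : ℝ :=
  ∫ t in (0:ℝ)..(2 * π), ‖deriv c t - (fl G (v, t)).2‖ ^ 2

/-- smoothness of the `H¹` distance of a family of curves to a family of geodesics -/
theorem contDiffAt_D2' {g : E × ℝ → Euc N} {z : E}
    (hg : ∀ t ∈ Icc 0 (2 * π), ContDiffAt ℝ ∞ g (z, t))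
    {w : E → Euc N × Euc N} (hw : ContDiffAt ℝ ∞ w z) (hwm : w z ∈ US G) :
    ContDiffAt ℝ ∞ (fun z' => D2' G (fun t => g (z', t)) (w z')) z := by
  refine contDiffAt_int (g := fun p : E × ℝ => ‖deriv (fun s => g (p.1, s)) p.2 -
    (fl G (w p.1, p.2)).2‖ ^ 2) two_pi_nonneg
    fun t ht => ContDiffAt.norm_sq ℝ ((contDiffAt_deriv_snd (hg t ht)).sub ?_)
  exact ContDiffAt.comp (g := fun p : (Euc N × Euc N) × ℝ => (fl G p).2)
    (f := fun p : E × ℝ => (w p.1, p.2)) (z, t) (contDiffAt_fl' G hwm.1 t).snd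
    ((hw.comp (z, t) contDiffAt_fst).prodMk contDiffAt_snd)



/-- `US G` is nonempty -/
theorem nonempty_US (hne : S.Nonempty) (hn : 1 ≤ n) : (US G).Nonempty := by
  obtain ⟨x, hx⟩ := hne
  have h1 : 0 < finrank ℝ (G.T x) := by rw [G.finrank_T x hx]; omega
  have hb : G.T x ≠ ⊥ := by
    intro h
    rw [h, finrank_bot] at h1
    omega
  obtain ⟨v, hv, hv0⟩ := Submodule.exists_mem_ne_zero_of_ne_bot hb
  refine ⟨(x, ‖v‖⁻¹ • v), ⟨hx, (G.T x).smul_mem _ hv⟩, ?_⟩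
  change ‖‖v‖⁻¹ • v‖ = 1
  rw [norm_smul, norm_inv, norm_norm, inv_mul_cancel₀ (norm_ne_zero_iff.2 hv0)]

/-- **(U1)**: the `L²`-nearest geodesic exists -/
theorem exists_gg (hB : Bl n N κ S G π) : ∃ gg η C, NG G gg η C :=
  exists_NG (LB.clo_US (d := 2 * (n - 1) + 1) (FV.sub_S hB) hB.cpt (by have := hB.hn; omega))
    (nonempty_US hB.conn.nonempty hB.hn)

end Crest.Agent.R208.NR
end
end

-- ▼ part R208/NG9
section

/-!
R208, block NG (helper131), part NG9: the constants of the natural operator near the closed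
geodesics, existence.
-/

set_option autoImplicit false

open Set Filter Topology MeasureTheory
open scoped ContDiff RealInnerProductSpace Real
open Crest.GeometryTopology.Submanifold
open Crest.Agent.R241.DDefs Crest.Agent.R241.D Crest.Agent.R241.D2
open Crest.Agent.R208.MS (exists_unif P_self P_mem Retr En Loop NearUM Close)
open Crest.Agent.R208.NN (Wt fd fd' nuP hasDerivAt_fd continuous_fd' fd_mem fld_fd Rt ev)
open Crest.Agent.R208.NB (NegB npr)
open Crest.Agent.R208.FI (Tan)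

noncomputable section

namespace Crest.Agent.R208.NG

variable {n N k K : ℕ} {κ : ℝ} {S : Set (Euc N)} {G : Geo n N κ S} {ρ : Euc N → Euc N} {δ C : ℝ}
  {z : Euc N × Euc N} {δN : ℝ} {PN : Euc N × Euc N → Wt N K →L[ℝ] Wt N K}
  {gg : (ℝ → Euc N) → Euc N × Euc N} {e Cg a ε ηc : ℝ} {c : ℝ → Euc N}

/-- (U1) in the present format -/
theorem gg_of_NG {η C' : ℝ} (hper : HS.Per G) (h : NR.NG G gg η C') : GG G gg η (C' ^ 2) where
  pos := h.η_pos
  mem := fun c _ => h.mem c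
  min := fun c hc v hv => h.min c hc v hv
  orth := fun c hc ξ hξ => h.orth c hc ξ hξ
  lip := fun c hc v hv hd => by
    have h1 := h.lip c hc v hv hd
    have h2 := pow_le_pow_left₀ (norm_nonneg _) h1 2
    have h3 : Real.sqrt (NR.D2 G c v) ^ 2 = L2 G c v :=
      Real.sq_sqrt (intervalIntegral.integral_nonneg (by positivity) fun _ _ => by positivity)
    rw [mul_pow, h3] at h2
    exact h2
  equi := fun c hc hp hD s => by
    obtain ⟨v, hv, hd⟩ := hD
    exact h.shift hper hc hp hv hd s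
  smooth := fun E _ _ _ F x hF hD => by
    obtain ⟨v, hv, hd⟩ := hD
    exact h.smooth F x hF v hv hd

/-- the constants -/
structure KC (G : Geo n N κ S) (K : ℕ) (ρ : Euc N → Euc N) (δ δN : ℝ)
    (PN : Euc N × Euc N → Wt N K →L[ℝ] Wt N K) (gg : (ℝ → Euc N) → Euc N × Euc N)
    (e a ε ηc : ℝ) : Prop where
  apos : 0 < a
  ae : 4 * a ^ 2 ≤ e ^ 2
  api : a ^ 2 ≤ π
  eps : 0 < ε
  tube : ∀ c, Loop S c → dd G gg c < a ^ 2 → ∀ s : ℝ, 0 ≤ s → s ≤ 1 → ∀ t,
    ‖dv G (gg c) c t + s • ((2:ℝ) • fd G (gg c) (nuP K) (nn G K δN PN (gg c) c) t -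
      dv G (gg c) c t)‖ < δ
  enB : ∀ c, Loop S c → dd G gg c < a ^ 2 → ∀ s : ℝ, 0 ≤ s → s ≤ 1 →
    En (sg G K ρ δN PN (gg c) c s) ≤ π + 1
  low : ∀ c, Loop S c → dd G gg c < a ^ 2 → En c ≤ π → ∀ s : ℝ, 0 ≤ s → s ≤ 1 →
    En (sg G K ρ δN PN (gg c) c s) ≤ En c
  big : ∀ c, Loop S c → dd G gg c < a ^ 2 → a ^ 2 / 4 ≤ dd G gg c → En c ≤ π →
    3 ≤ ‖ww G K δN PN gg ε c‖ ^ 2
  std : ∀ c, Loop S c → dd G gg c < a ^ 2 →
    En (sg G K ρ δN PN (gg c) c 1) ≤ π - δN / 4 * ‖(2:ℝ) • mm G K δN PN gg c‖ ^ 2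
  nr : ∀ c, Loop S c → NearUM G ηc c → dd G gg c < a ^ 2 / 4

theorem Exp_ga {x v : Euc N} (hx : x ∈ S) (hv : v ∈ G.T x) (t : ℝ) :
    Exp G x (t • v) = ga G (x, v) t := by
  have := fl_scale (G := G) (x := x) (v := v) ⟨hx, hv⟩ t 1
  rw [Exp, ga]
  rw [mul_one] at this
  rw [this]

theorem En_rho_le (hc : Cst G ρ δ C) (hz : z ∈ TS G) (hz1 : ‖z.2‖ = 1) {u u' : ℝ → Euc N}
    (hu : ∀ t, HasDerivAt u (u' t) t) (hu' : Continuous u') (hb : ∀ t, ‖u t‖ < δ)
    (hb1 : ∀ t, C * ‖u t‖ ≤ 1 / 20) :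
    En (fun t => ρ (ga G z t + u t)) ≤ 5 / 4 * π + 5 * ∫ t in (0:ℝ)..(2 * π), ‖u' t‖ ^ 2 := by
  have hpi : (0:ℝ) ≤ 2 * π := by positivity
  have hucont : Continuous u := continuous_iff_continuousAt.2 fun t => (hu t).continuousAt
  have hd : ∀ t, deriv (fun t => ρ (ga G z t + u t)) t =
      fderiv ℝ ρ (ga G z t + u t) (ga' G z t + u' t) := fun t =>
    (hda_rho hc hz (hu t) (hb t)).deriv
  have hF := cont_fdrho hc hz hucont hb
  have hcd : Continuous fun t => fderiv ℝ ρ (ga G z t + u t) (ga' G z t + u' t) :=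
    hF.clm_apply ((cont_ga' hz).add hu')
  unfold En
  simp only [hd]
  have h1 : ∀ t ∈ Icc (0:ℝ) (2 * π), ‖fderiv ℝ ρ (ga G z t + u t) (ga' G z t + u' t)‖ ^ 2 ≤
      5 / 4 * 2 + 10 * ‖u' t‖ ^ 2 - 5 / 4 := by
    intro t _
    set w := ga' G z t + u' t with hw
    have e1 : ‖ga' G z t‖ = 1 := by rw [ga', norm_fl G hz, hz1]
    have e2 : ‖w‖ ≤ 1 + ‖u' t‖ := (norm_add_le _ _).trans (by rw [e1])
    have e3 := hc.l1 _ (ga_mem hz t) (ga G z t + u t) (by simpa using hb t)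
    rw [add_sub_cancel_left] at e3
    have e4 : ‖fderiv ℝ ρ (ga G z t + u t) w‖ ≤ 21 / 20 * ‖w‖ := by
      have e5 : fderiv ℝ ρ (ga G z t + u t) w =
          G.P (ga G z t) w + (fderiv ℝ ρ (ga G z t + u t) - G.P (ga G z t)) w := by
        simp
      rw [e5]
      refine (norm_add_le _ _).trans ?_
      have e6 := norm_P_le (G := G) (ga_mem hz t) w
      have e7 := ((fderiv ℝ ρ (ga G z t + u t) - G.P (ga G z t)).le_opNorm w).trans
        (mul_le_mul_of_nonneg_right (e3.trans (hb1 t)) (norm_nonneg w))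
      linarith
    have e8 : ‖fderiv ℝ ρ (ga G z t + u t) w‖ ≤ 21 / 20 * (1 + ‖u' t‖) := by
      nlinarith [norm_nonneg w]
    have e9 := pow_le_pow_left₀ (norm_nonneg _) e8 2
    nlinarith [sq_nonneg (1 - 8 * ‖u' t‖), norm_nonneg (u' t)]
  have h0 : Continuous fun t => ‖fderiv ℝ ρ (ga G z t + u t) (ga' G z t + u' t)‖ ^ 2 :=
    hcd.norm.pow 2
  have h2 := intervalIntegral.integral_mono_on (a := 0) (b := 2 * π) (μ := volume) hpi
    (h0.intervalIntegrable _ _)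
    (Continuous.intervalIntegrable (by fun_prop) _ _) h1
  have h3 : (∫ t in (0:ℝ)..(2 * π), (5 / 4 * 2 + 10 * ‖u' t‖ ^ 2 - 5 / 4)) =
      10 * (∫ t in (0:ℝ)..(2 * π), ‖u' t‖ ^ 2) + 5 / 4 * (2 * π) := by
    have e1 : ∀ t, (5 / 4 * 2 + 10 * ‖u' t‖ ^ 2 - 5 / 4) = 10 * ‖u' t‖ ^ 2 + 5 / 4 := fun t => by
      ring
    simp only [e1]
    rw [intervalIntegral.integral_add (Continuous.intervalIntegrable (by fun_prop) _ _)
      intervalIntegrable_const, intervalIntegral.integral_const_mul,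
      intervalIntegral.integral_const, smul_eq_mul]
    ring
  rw [h3] at h2
  linarith

/-- the `N`-component is controlled by the distance -/
theorem exists_norm_mm (h : GT.Bla G k) (H : NegB G (k - 1) (nuP K) δN PN)
    (hg : GG G gg e Cg) :
    ∃ Cm ≥ 0, ∀ c, Loop S c → ‖mm G K δN PN gg c‖ ^ 2 ≤ Cm ^ 2 * dd G gg c := by
  obtain ⟨Cn, hCn0, hCn⟩ := H.exists_bound_npr_sq h.bl.cpt
  refine ⟨Real.sqrt Cn, Real.sqrt_nonneg _, fun c hc => ?_⟩
  rw [Real.sq_sqrt hCn0]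
  have hz := hg.mem c (Loop.contOn hc _)
  have hcw := cont_dv hz.1 hc
  have hPF : Continuous (PF G (gg c) (dv G (gg c) c)) :=
    continuous_iff_continuousAt.2 fun t => (hda_PF hz.1 (hda_dv hz.1 hc t)).continuousAt
  refine (hCn (gg c) hz _ hPF.continuousOn).trans (mul_le_mul_of_nonneg_left ?_ hCn0)
  refine le_trans ?_ (dd_ge (G := G) (gg := gg) (c := c))
  refine intervalIntegral.integral_mono_on (by positivity) ((hPF.norm.pow 2).intervalIntegrable _ _)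
    ((hcw.norm.pow 2).intervalIntegrable _ _) fun t _ => ?_
  exact pow_le_pow_left₀ (norm_nonneg _) (norm_P_le (ga_mem hz.1 t) _) 2

end Crest.Agent.R208.NG
end
end

-- ▼ part R208/NG10
section

/-!
R208, block NG (helper131), part NG10: existence of the constants of the natural operator near the
closed geodesics.
-/

set_option autoImplicit false

open Set Filter Topology MeasureTheory
open scoped ContDiff RealInnerProductSpace Real
open Crest.GeometryTopology.Submanifold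
open Crest.Agent.R241.DDefs Crest.Agent.R241.D Crest.Agent.R241.D2
open Crest.Agent.R208.MS (exists_unif P_self P_mem Retr En Loop NearUM Close)
open Crest.Agent.R208.NN (Wt fd fd' nuP hasDerivAt_fd continuous_fd' fd_mem fld_fd Rt ev)
open Crest.Agent.R208.NB (NegB npr)
open Crest.Agent.R208.FI (Tan)

noncomputable section

namespace Crest.Agent.R208.NG

variable {n N k K : ℕ} {κ : ℝ} {S : Set (Euc N)} {G : Geo n N κ S} {ρ : Euc N → Euc N} {δ C : ℝ}
  {z : Euc N × Euc N} {δN : ℝ} {PN : Euc N × Euc N → Wt N K →L[ℝ] Wt N K}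
  {gg : (ℝ → Euc N) → Euc N × Euc N} {e Cg a ε ηc : ℝ} {c : ℝ → Euc N}

theorem fd_smul (G : Geo n N κ S) (z : Euc N × Euc N) (r : ℝ) (m : Wt N K) (t : ℝ) :
    NN.fd G z (nuP K) (r • m) t = r • NN.fd G z (nuP K) m t := by
  simp only [NN.fd, map_smul]

/-- deviation of the segment -/
def us (G : Geo n N κ S) (K : ℕ) (z : Euc N × Euc N) (c : ℝ → Euc N) (m : Wt N K) (s t : ℝ) :
    Euc N := dv G z c t + s • ((2:ℝ) • fd G z (nuP K) m t - dv G z c t)

/-- its derivative -/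
def us' (G : Geo n N κ S) (K : ℕ) (z : Euc N × Euc N) (c : ℝ → Euc N) (m : Wt N K) (s t : ℝ) :
    Euc N := dv' G z c t + s • ((2:ℝ) • fd' G z (nuP K) m t - dv' G z c t)

theorem hda_us (hz : z ∈ TS G) (hc : Loop S c) (m : Wt N K) (s t : ℝ) :
    HasDerivAt (us G K z c m s) (us' G K z c m s t) t :=
  (hda_dv hz hc t).add ((((hasDerivAt_fd hz (nuP K) m t).const_smul (2:ℝ)).sub
    (hda_dv hz hc t)).const_smul s)

theorem cont_us' (hz : z ∈ TS G) (hc : Loop S c) (m : Wt N K) (s : ℝ) :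
    Continuous (us' G K z c m s) :=
  (cont_dv' hz hc).add ((((continuous_fd' hz (nuP K) m).const_smul (2:ℝ)).sub
    (cont_dv' hz hc)).const_smul s)

theorem norm_seg_le {x y : Euc N} {s : ℝ} (h0 : 0 ≤ s) (h1 : s ≤ 1) :
    ‖x + s • ((2:ℝ) • y - x)‖ ≤ ‖x‖ + 2 * ‖y‖ := by
  have e1 : x + s • ((2:ℝ) • y - x) = (1 - s) • x + (2 * s) • y := by module
  rw [e1]
  refine (norm_add_le _ _).trans ?_
  rw [norm_smul, norm_smul, Real.norm_of_nonneg (by linarith), Real.norm_of_nonneg (by linarith)]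
  nlinarith [norm_nonneg x, norm_nonneg y, mul_nonneg h0 (norm_nonneg x),
    mul_nonneg (sub_nonneg.2 h1) (norm_nonneg y)]

theorem sg_eq (c : ℝ → Euc N) (s : ℝ) : sg G K ρ δN PN (gg c) c s =
    fun t => ρ (ga G (gg c) t + us G K (gg c) c (mm G K δN PN gg c) s t) := rfl

theorem sg_one (c : ℝ → Euc N) (s : ℝ) (hs : s = 1) : sg G K ρ δN PN (gg c) c s =
    fun t => ρ (ga G (gg c) t + fd G (gg c) (nuP K) ((2:ℝ) • mm G K δN PN gg c) t) := by
  funext t
  simp only [sg, hs, one_smul, add_sub_cancel, fd_smul]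
  rfl

theorem aux4 {a x y : ℝ} (hx : 0 ≤ x) (hy : y = (x * a) ^ 2) :
    2 * a ^ 2 + 2 * π * (8 * y) ≤ 16 * ((4 + 2 * x) * a) ^ 2 := by
  have hpi4 := Real.pi_lt_d2
  have e1 : ((4 + 2 * x) * a) ^ 2 = (16 + 16 * x + 4 * x ^ 2) * a ^ 2 := by ring
  have e3 : 0 ≤ x ^ 2 * a ^ 2 := by positivity
  have e4 : 0 ≤ x * a ^ 2 := by positivity
  have e5 : 0 ≤ a ^ 2 := by positivity
  have e6 : 0 ≤ (64 - 16 * π) * (x ^ 2 * a ^ 2) := mul_nonneg (by linarith) e3
  rw [e1, hy]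
  nlinarith

theorem sq_add_two {x X Y : ℝ} (hx : 0 ≤ x) (h : x ≤ X + Y) :
    x ^ 2 ≤ 2 * X ^ 2 + 2 * Y ^ 2 := by
  have := pow_le_pow_left₀ hx h 2
  nlinarith [sq_nonneg (X - Y)]

/-- a loop near a unit speed geodesic is in the domain -/
theorem exists_nr (h : GT.Bla G k) (hg : GG G gg e Cg) (hCg : 0 ≤ Cg) {a : ℝ} (hapos : 0 < a) :
    ∃ ηc > 0, ∀ c, Loop S c → NearUM G ηc c → dd G gg c < a ^ 2 / 4 := by
  obtain ⟨δL, hδL, CL, hCL, hlip⟩ := exists_lip h
  have he := hg.pos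
  have hpi4 := Real.pi_lt_d2
  have hpi3 := Real.pi_gt_three
  set κ₁ := min (min (e ^ 2 / 8) (δL ^ 2 / (8 * (Cg + 1)))) (a ^ 2 / (8 * (9 + 90 * CL ^ 2 * Cg)))
    with hκ₁
  have hκpos : 0 < κ₁ := by
    simp only [hκ₁, lt_min_iff]
    exact ⟨⟨by positivity, by positivity⟩, by positivity⟩
  set ηc := min 1 κ₁ with hηc
  have hηpos : 0 < ηc := lt_min one_pos hκpos
  have hη1 : ηc ≤ 1 := min_le_left _ _
  have hη2 : ηc ≤ κ₁ := min_le_right _ _
  have hηsq : ηc ^ 2 ≤ κ₁ := by nlinarith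
  have hk1 : ηc ^ 2 ≤ e ^ 2 / 8 := hηsq.trans ((min_le_left _ _).trans (min_le_left _ _))
  have hk2 : ηc ^ 2 ≤ δL ^ 2 / (8 * (Cg + 1)) :=
    hηsq.trans ((min_le_left _ _).trans (min_le_right _ _))
  have hk3 : ηc ^ 2 ≤ a ^ 2 / (8 * (9 + 90 * CL ^ 2 * Cg)) := hηsq.trans (min_le_right _ _)
  rw [le_div_iff₀ (by positivity)] at hk2 hk3
  refine ⟨ηc, hηpos, fun c hcl hn => ?_⟩
  obtain ⟨x, hx, v, hv, hv1, hcl'⟩ := hn
  have hz : ((x, v) : Euc N × Euc N) ∈ L.US G := ⟨⟨hx, hv⟩, hv1⟩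
  have hE : ∀ t, Exp G x (t • v) = ga G (x, v) t := fun t => Exp_ga hx hv t
  have hE' : (fun t => Exp G x (t • v)) = ga G (x, v) := funext hE
  rw [hE'] at hcl'
  generalize ((x, v) : Euc N × Euc N) = z at hz hcl'
  have hzg := hg.mem c (Loop.contOn hcl _)
  have hcg := cont_ga (G := G) hz.1
  have hcc := hcl.smooth.continuous
  have hη0 : 0 ≤ ηc ^ 2 := sq_nonneg _
  have k1 : L2 G c z ≤ 7 * ηc ^ 2 := by
    have e0 : Continuous fun t => ‖c t - ga G z t‖ ^ 2 := (hcc.sub hcg).norm.pow 2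
    have e1 := intervalIntegral.integral_mono_on (a := 0) (b := 2 * π) (μ := volume)
      (by positivity) (e0.intervalIntegrable _ _) (g := fun _ => ηc ^ 2)
      intervalIntegrable_const (fun t _ => pow_le_pow_left₀ (norm_nonneg _) (hcl'.sup t) 2)
    rw [intervalIntegral.integral_const, smul_eq_mul, sub_zero] at e1
    refine e1.trans ?_
    exact mul_le_mul_of_nonneg_right (by linarith) hη0
  have he2 := pow_pos he 2
  have k2 : L2 G c z < e ^ 2 := by linarith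
  have k3 := hg.lip c (Loop.contOn hcl _) z hz k2
  have k4 : ‖gg c - z‖ ^ 2 ≤ Cg * (7 * ηc ^ 2) :=
    k3.trans (mul_le_mul_of_nonneg_left k1 hCg)
  have hCη := mul_nonneg hCg hη0
  have k5 : ‖gg c - z‖ < δL := by
    refine lt_of_pow_lt_pow_left₀ 2 hδL.le (k4.trans_lt ?_)
    have : 0 < δL ^ 2 := by positivity
    linarith
  have k6 : L2 G c (gg c) ≤ 7 * ηc ^ 2 := (hg.min c (Loop.contOn hcl _) z hz).trans k1
  have hdg : deriv (ga G z) = ga' G z := funext fun t => (hda_ga hz.1 t).deriv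
  have k7 : (∫ t in (0:ℝ)..(2 * π), ‖dv' G (gg c) c t‖ ^ 2) ≤
      2 * ηc ^ 2 + 2 * π * (2 * (CL ^ 2 * (Cg * (7 * ηc ^ 2)))) := by
    have e0 := cont_dv' hzg.1 hcl
    have e0n : Continuous fun t => ‖dv' G (gg c) c t‖ ^ 2 := e0.norm.pow 2
    have e0' : Continuous fun t => deriv c t - deriv (ga G z) t := by
      rw [hdg]
      exact hcl.continuous_deriv.sub (cont_ga' hz.1)
    have e0'' : Continuous fun t => 2 * ‖deriv c t - deriv (ga G z) t‖ ^ 2 :=
      (e0'.norm.pow 2).const_mul 2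
    have hpt : ∀ t ∈ Icc (0:ℝ) (2 * π), ‖dv' G (gg c) c t‖ ^ 2 ≤
        2 * ‖deriv c t - deriv (ga G z) t‖ ^ 2 + 2 * (CL ^ 2 * (Cg * (7 * ηc ^ 2))) := by
      intro t ht
      have f1 := hlip z hz (gg c) hzg (by rwa [norm_sub_rev]) t ht
      have f2 : dv' G (gg c) c t = (deriv c t - deriv (ga G z) t) +
          (ga' G z t - ga' G (gg c) t) := by
        rw [dv', (hda_ga hz.1 t).deriv]; abel
      have f3 : ‖dv' G (gg c) c t‖ ≤ ‖deriv c t - deriv (ga G z) t‖ +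
          CL * ‖gg c - z‖ := by
        rw [f2]
        refine (norm_add_le _ _).trans ?_
        rw [norm_sub_rev (gg c) z]
        linarith
      have f4 := sq_add_two (norm_nonneg _) f3
      have f5 : CL ^ 2 * ‖gg c - z‖ ^ 2 ≤ CL ^ 2 * (Cg * (7 * ηc ^ 2)) :=
        mul_le_mul_of_nonneg_left k4 (by positivity)
      rw [mul_pow] at f4
      linarith
    have e1 := intervalIntegral.integral_mono_on (a := 0) (b := 2 * π) (μ := volume)
      (g := fun t => 2 * ‖deriv c t - deriv (ga G z) t‖ ^ 2 +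
        2 * (CL ^ 2 * (Cg * (7 * ηc ^ 2))))
      (by positivity) (e0n.intervalIntegrable _ _)
      ((e0''.add continuous_const).intervalIntegrable _ _) hpt
    rw [intervalIntegral.integral_add (e0''.intervalIntegrable _ _)
      intervalIntegrable_const, intervalIntegral.integral_const_mul,
      intervalIntegral.integral_const, smul_eq_mul, sub_zero] at e1
    have e2 := hcl'.h1
    refine e1.trans ?_
    linarith
  have k8 : dd G gg c = L2 G c (gg c) + ∫ t in (0:ℝ)..(2 * π), ‖dv' G (gg c) c t‖ ^ 2 := rfl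
  rw [k8]
  have k9 : 0 ≤ CL ^ 2 * Cg * ηc ^ 2 := by positivity
  have k10 : 2 * π * (2 * (CL ^ 2 * (Cg * (7 * ηc ^ 2)))) ≤ 90 * (CL ^ 2 * Cg * ηc ^ 2) := by
    have : 2 * π * (2 * (CL ^ 2 * (Cg * (7 * ηc ^ 2)))) = (28 * π) * (CL ^ 2 * Cg * ηc ^ 2) := by
      ring
    rw [this]
    exact mul_le_mul_of_nonneg_right (by linarith) k9
  have ha2 := pow_pos hapos 2
  linarith

set_option maxHeartbeats 1000000 in
theorem exists_KC (h : GT.Bla G k) (H : NegB G (k - 1) (nuP K) δN PN) (hc : Cst G ρ δ C)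
    (hg : GG G gg e Cg) (hCg : 0 ≤ Cg) {c0 C1 : ℝ} (hc0 : 0 < c0) (hC1 : 0 ≤ C1)
    (hU : ∀ z ∈ L.US G, ∀ A A', CO.TF G z A A' → A (2 * π) = A 0 →
      (∀ ξ ∈ Tan (L.US G) z, ∫ t in (0:ℝ)..(2 * π), ⟪A t, SV.jf G z ξ t⟫ = 0) →
      c0 * CO.Hn A A' ≤ SV.ix G z 0 (2 * π) A A' A A' + C1 * ‖npr G (nuP K) δN PN z A‖ ^ 2) :
    ∃ a > 0, ∃ ηc > 0, ∃ ε₁ > 0, ∀ ε, 0 < ε → ε ≤ ε₁ → KC G K ρ δ δN PN gg e a ε ηc := by
  obtain ⟨Cf, hCf0, hCf⟩ := NB.exists_bound_fd h.bl.cpt G (nuP K : Fin K → ℝ)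
  obtain ⟨Cm, hCm0, hCm⟩ := exists_norm_mm (K := K) (δN := δN) (PN := PN) h H hg
  obtain ⟨η₀, hη₀, C₂, hC₂, hne⟩ := near_energy h H hc hc0 hC1
  obtain ⟨r₀, hr₀, hst1, hst2⟩ := exists_std h H hc
  have hδ := hc.pos
  have hC := hc.one
  have he := hg.pos
  have hpi4 := Real.pi_lt_d2
  have hpi3 := Real.pi_gt_three
  set Cu := 4 + 2 * Cf * Cm with hCu
  have hCfm : 0 ≤ Cf * Cm := mul_nonneg hCf0 hCm0
  have hCu4 : 4 ≤ Cu := by rw [hCu]; linarith
  set a := min (min (min (δ / (2 * Cu)) (1 / (20 * C * Cu))) (min (η₀ / 4) (r₀ / (2 * (Cm + 1)))))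
    (min (e / 2) 1) with ha
  have hapos : 0 < a := by
    simp only [ha, lt_min_iff]
    refine ⟨⟨⟨by positivity, by positivity⟩, by positivity, by positivity⟩, by positivity, one_pos⟩
  have ha1 : a ≤ δ / (2 * Cu) :=
    ((min_le_left _ _).trans (min_le_left _ _)).trans (min_le_left _ _)
  have ha2 : a ≤ 1 / (20 * C * Cu) :=
    ((min_le_left _ _).trans (min_le_left _ _)).trans (min_le_right _ _)
  have ha3 : a ≤ η₀ / 4 := ((min_le_left _ _).trans (min_le_right _ _)).trans (min_le_left _ _)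
  have ha4 : a ≤ r₀ / (2 * (Cm + 1)) :=
    ((min_le_left _ _).trans (min_le_right _ _)).trans (min_le_right _ _)
  have ha5 : a ≤ e / 2 := (min_le_right _ _).trans (min_le_left _ _)
  have ha6 : a ≤ 1 := (min_le_right _ _).trans (min_le_right _ _)
  rw [le_div_iff₀ (by positivity)] at ha1 ha2 ha3 ha4
  have hCua : C * (Cu * a) ≤ 1 / 20 := by nlinarith
  have hCua' : Cu * a ≤ 1 / 20 := by
    have : 0 ≤ (C - 1) * (Cu * a) := mul_nonneg (by linarith) (by positivity)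
    nlinarith
  have hCuδ : Cu * a < δ := by
    have : 0 < Cu * a := by positivity
    nlinarith
  -- pointwise estimates
  have P1 : ∀ c, Loop S c → dd G gg c < a ^ 2 → ∀ t, ‖dv G (gg c) c t‖ ≤ 4 * a := by
    intro c hcl hd t
    have h1 := sup_dv (gg := gg) h (hg.mem c (Loop.contOn hcl _)) hcl t
    have h2 := dd_nonneg G gg c
    refine le_of_sq_le_sq ?_ (by positivity)
    nlinarith
  have P2 : ∀ c, Loop S c → dd G gg c < a ^ 2 → ‖mm G K δN PN gg c‖ ≤ Cm * a := by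
    intro c hcl hd
    have h1 := hCm c hcl
    refine le_of_sq_le_sq (h1.trans ?_) (by positivity)
    rw [mul_pow]
    exact mul_le_mul_of_nonneg_left hd.le (by positivity)
  have P3 : ∀ c, Loop S c → dd G gg c < a ^ 2 → ∀ s, 0 ≤ s → s ≤ 1 → ∀ t,
      ‖us G K (gg c) c (mm G K δN PN gg c) s t‖ ≤ Cu * a := by
    intro c hcl hd s hs0 hs1 t
    refine (norm_seg_le hs0 hs1).trans ?_
    have h1 := P1 c hcl hd t
    have h2 := P2 c hcl hd
    have h3 := (hCf (gg c) (hg.mem c (Loop.contOn hcl _)) (mm G K δN PN gg c) t).1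
    have h4 : Cf * ‖mm G K δN PN gg c‖ ≤ Cf * (Cm * a) := mul_le_mul_of_nonneg_left h2 hCf0
    rw [hCu]
    nlinarith
  -- energy of the segment
  have P4 : ∀ c, Loop S c → dd G gg c < a ^ 2 → ∀ s, 0 ≤ s → s ≤ 1 →
      ∫ t in (0:ℝ)..(2 * π), ‖us' G K (gg c) c (mm G K δN PN gg c) s t‖ ^ 2 ≤ 1 / 25 := by
    intro c hcl hd s hs0 hs1
    have hz := hg.mem c (Loop.contOn hcl _)
    set m := mm G K δN PN gg c with hm
    have h2 := P2 c hcl hd
    rw [← hm] at h2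
    have hpt : ∀ t ∈ Icc (0:ℝ) (2 * π), ‖us' G K (gg c) c m s t‖ ^ 2 ≤
        2 * ‖dv' G (gg c) c t‖ ^ 2 + 8 * (Cf * (Cm * a)) ^ 2 := by
      intro t _
      have k1 := norm_seg_le (x := dv' G (gg c) c t) (y := fd' G (gg c) (nuP K) m t) hs0 hs1
      have k2 := (hCf (gg c) hz m t).2.1
      have k3 : Cf * ‖m‖ ≤ Cf * (Cm * a) := mul_le_mul_of_nonneg_left h2 hCf0
      have k4 : ‖us' G K (gg c) c m s t‖ ≤ ‖dv' G (gg c) c t‖ + 2 * (Cf * (Cm * a)) := by
        refine k1.trans ?_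
        linarith
      have k5 := sq_add_two (norm_nonneg _) k4
      rw [mul_pow 2] at k5
      linarith
    have hcd := cont_dv' hz.1 hcl
    have h0 : Continuous fun t => ‖us' G K (gg c) c m s t‖ ^ 2 :=
      (cont_us' hz.1 hcl m s).norm.pow 2
    have h1 := intervalIntegral.integral_mono_on (a := 0) (b := 2 * π) (μ := volume)
      (by positivity) (h0.intervalIntegrable _ _)
      (Continuous.intervalIntegrable (by fun_prop) _ _) hpt
    rw [intervalIntegral.integral_add (Continuous.intervalIntegrable (by fun_prop) _ _)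
      intervalIntegrable_const, intervalIntegral.integral_const_mul,
      intervalIntegral.integral_const, smul_eq_mul, sub_zero] at h1
    have h3 : (∫ t in (0:ℝ)..(2 * π), ‖dv' G (gg c) c t‖ ^ 2) ≤ a ^ 2 := by
      have e1 : 0 ≤ L2 G c (gg c) :=
        intervalIntegral.integral_nonneg (by positivity) fun _ _ => by positivity
      have e2 : dd G gg c = L2 G c (gg c) + ∫ t in (0:ℝ)..(2 * π), ‖dv' G (gg c) c t‖ ^ 2 := rfl
      linarith
    have h5 : 2 * a ^ 2 + 2 * π * (8 * (Cf * (Cm * a)) ^ 2) ≤ 16 * (Cu * a) ^ 2 := by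
      have := aux4 (a := a) (y := (Cf * (Cm * a)) ^ 2) hCfm (by ring)
      rwa [← mul_assoc 2 Cf Cm, ← hCu] at this
    have h6 : (Cu * a) ^ 2 ≤ (1 / 20) ^ 2 := pow_le_pow_left₀ (by positivity) hCua' 2
    nlinarith
  obtain ⟨ηc, hηpos, hnr⟩ := exists_nr h hg hCg hapos
  refine ⟨a, hapos, ηc, hηpos, Real.sqrt (a ^ 2 / (3 * (C₂ + 1))), by positivity,
    fun ε hε hε1 => ?_⟩
  have hεsq : ε ^ 2 ≤ a ^ 2 / (3 * (C₂ + 1)) := by
    have := pow_le_pow_left₀ hε.le hε1 2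
    rwa [Real.sq_sqrt (by positivity)] at this
  rw [le_div_iff₀ (by positivity)] at hεsq
  refine ⟨hapos, by nlinarith, by nlinarith, hε, fun c hcl hd s hs0 hs1 t => ?_,
    fun c hcl hd s hs0 hs1 => ?_, fun c hcl hd hE s hs0 hs1 => ?_, fun c hcl hd hd' hE => ?_,
    fun c hcl hd => ?_, fun c hcl hn => ?_⟩
  · exact (P3 c hcl hd s hs0 hs1 t).trans_lt hCuδ
  · have hz := hg.mem c (Loop.contOn hcl _)
    rw [sg_eq]
    have h1 := En_rho_le (u := us G K (gg c) c (mm G K δN PN gg c) s)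
      (u' := us' G K (gg c) c (mm G K δN PN gg c) s) hc hz.1 hz.2
      (fun t => hda_us hz.1 hcl _ s t) (cont_us' hz.1 hcl _ s)
      (fun t => (P3 c hcl hd s hs0 hs1 t).trans_lt hCuδ)
      (fun t => (mul_le_mul_of_nonneg_left (P3 c hcl hd s hs0 hs1 t) (by linarith)).trans hCua)
    have h2 := P4 c hcl hd s hs0 hs1
    linarith
  · have hz := hg.mem c (Loop.contOn hcl _)
    have h1 := (hne (gg c) hz c hcl (fun t => (P1 c hcl hd t).trans (by linarith)) hE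
      (coer_of_U2 h hg hU hcl)).2 s hs0 hs1
    have h2 := H.pos_δ
    have h3 : 0 ≤ δN / 2 * s * ‖nn G K δN PN (gg c) c‖ ^ 2 := by positivity
    linarith
  · have hz := hg.mem c (Loop.contOn hcl _)
    have h1 := (hne (gg c) hz c hcl (fun t => (P1 c hcl hd t).trans (by linarith)) hE
      (coer_of_U2 h hg hU hcl)).1
    rw [← dd_eq hz hcl] at h1
    have h2 : ‖ww G K δN PN gg ε c‖ ^ 2 = 4 / ε ^ 2 * ‖nn G K δN PN (gg c) c‖ ^ 2 := by
      have e1 : ‖ww G K δN PN gg ε c‖ = 2 / ε * ‖nn G K δN PN (gg c) c‖ := by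
        rw [ww, norm_smul, Real.norm_of_nonneg (by positivity), mm]
      rw [e1, mul_pow, div_pow]
      norm_num
    rw [h2, div_mul_eq_mul_div, le_div_iff₀ (by positivity)]
    set X := ‖nn G K δN PN (gg c) c‖ ^ 2 with hX
    have hX0 : 0 ≤ X := by positivity
    have h3 : a ^ 2 / 4 ≤ (C₂ + 1) * X := by linarith
    have h5 : 3 * ε ^ 2 * (C₂ + 1) ≤ 4 * X * (C₂ + 1) := by nlinarith
    exact le_of_mul_le_mul_right h5 (by positivity)
  · have hz := hg.mem c (Loop.contOn hcl _)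
    rw [sg_one c 1 rfl]
    refine hst2 (gg c) hz _ ?_ ?_
    · rw [map_smul]
      congr 1
      exact H.npr_mem hz _
    · rw [norm_smul, Real.norm_of_nonneg (by norm_num)]
      have := P2 c hcl hd
      nlinarith
  · exact hnr c hcl hn

end Crest.Agent.R208.NG
end
end

-- ▼ part R208/NG11
section

/-!
R208, block NG (helper131), part NG11: the operator near the closed geodesics on a single loop.
-/

set_option autoImplicit false
set_option linter.unusedSectionVars false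

open Set Filter Topology MeasureTheory
open scoped ContDiff RealInnerProductSpace Real
open Crest.GeometryTopology.Submanifold
open Crest.Agent.R241.DDefs Crest.Agent.R241.D Crest.Agent.R241.D2
open Crest.Agent.R208.MS (exists_unif P_self P_mem Retr En Loop NearUM Close oc)
open Crest.Agent.R208.NN (Wt fd fd' nuP hasDerivAt_fd continuous_fd' fd_mem fld_fd Rt ev)
open Crest.Agent.R208.NB (NegB npr)
open Crest.Agent.R208.FI (Tan)

noncomputable section

namespace Crest.Agent.R208.NG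

variable {n N k K : ℕ} {κ : ℝ} {S : Set (Euc N)} {G : Geo n N κ S} {ρ : Euc N → Euc N} {δ C : ℝ}
  {z : Euc N × Euc N} {δN : ℝ} {PN : Euc N × Euc N → Wt N K →L[ℝ] Wt N K}
  {gg : (ℝ → Euc N) → Euc N × Euc N} {e Cg a ε ηc : ℝ} {c : ℝ → Euc N}
  {lg : Euc N → Euc N → Euc N} {r Cs r' Kr B w E₀ η : ℝ} {J : ℕ}

/-! ### scalars -/

theorem sgm_one (ha : 0 < a) (h : dd G gg c ≤ a ^ 2 / 4) : sgm G gg a c = 1 := by
  rw [sgm, FL.ct_zero, sub_zero]
  rw [div_mul_eq_mul_div, div_le_iff₀ (by positivity)]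
  linarith

theorem sgm_zero (ha : 0 < a) (h : 5 * a ^ 2 / 16 ≤ dd G gg c) : sgm G gg a c = 0 := by
  rw [sgm, FL.ct_one, sub_self]
  rw [div_mul_eq_mul_div, le_div_iff₀ (by positivity)]
  linarith

theorem sgm_zero' (ha : 0 < a) (h : a ^ 2 ≤ dd G gg c) : sgm G gg a c = 0 :=
  sgm_zero ha (by linarith [sq_nonneg a])

theorem sgm_nonneg : 0 ≤ sgm G gg a c := by
  unfold sgm; linarith [FL.ct_le_one 1 (4 / a ^ 2 * dd G gg c)]

theorem sgm_le_one : sgm G gg a c ≤ 1 := by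
  unfold sgm; linarith [FL.ct_nonneg 1 (4 / a ^ 2 * dd G gg c)]

theorem lt_of_sgm (ha : 0 < a) (h : sgm G gg a c ≠ 0) : dd G gg c < a ^ 2 := by
  by_contra h1
  push Not at h1
  exact h (sgm_zero' ha h1)

theorem bet_of_ww (h : 5 / 4 ≤ ‖ww G K δN PN gg ε c‖ ^ 2) : bet G K δN PN gg a ε c = 1 := by
  rw [bet, FL.bt, FL.ct_one (by linarith)]
  ring

theorem bet_of_sgm (h : sgm G gg a c = 0) : bet G K δN PN gg a ε c = 1 := by
  rw [bet, h]; ring

theorem mu_of_sgm (h : sgm G gg a c = 0) : mu G K δN PN gg a ε c = 0 := by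
  rw [mu, h]; ring

theorem k1_zero {s : ℝ} (h : s ≤ 1 / 4) : k1 s = 0 :=
  Real.smoothTransition.zero_of_nonpos (by linarith)
theorem k1_one {s : ℝ} (h : 1 / 2 ≤ s) : k1 s = 1 :=
  Real.smoothTransition.one_of_one_le (by linarith)
theorem k2_zero {s : ℝ} (h : s ≤ 1 / 2) : k2 s = 0 :=
  Real.smoothTransition.zero_of_nonpos (by linarith)
theorem k2_one {s : ℝ} (h : 3 / 4 ≤ s) : k2 s = 1 :=
  Real.smoothTransition.one_of_one_le (by linarith)
theorem k1_nonneg (s : ℝ) : 0 ≤ k1 s := Real.smoothTransition.nonneg _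
theorem k1_le_one (s : ℝ) : k1 s ≤ 1 := Real.smoothTransition.le_one _
theorem contDiff_k1 : ContDiff ℝ ∞ k1 := Real.smoothTransition.contDiff.comp (by fun_prop)
theorem contDiff_k2 : ContDiff ℝ ∞ k2 := Real.smoothTransition.contDiff.comp (by fun_prop)

/-! ### the first stage -/

theorem S1_of_zero (hc : Cst G ρ δ C) (hcl : Loop S c) {s : ℝ} (h : s * sgm G gg a c = 0) :
    S1 G K ρ δN PN gg a s c = c := by
  funext t
  rw [S1, h, zero_smul, add_zero]
  exact hc.eq _ (hcl.mem t)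

theorem two_mm (hε : 0 < ε) : (2:ℝ) • mm G K δN PN gg c = ε • ww G K δN PN gg ε c := by
  rw [ww, smul_smul]
  congr 1
  field_simp

theorem mem_Tot (H : NegB G (k - 1) (nuP K) δN PN) (hg : GG G gg e Cg) (hcl : Loop S c) :
    (gg c, ww G K δN PN gg ε c) ∈ FI.Tot (L.US G) PN := by
  have hz := hg.mem c (Loop.contOn hcl _)
  refine ⟨hz, ?_⟩
  change PN (gg c) (ww G K δN PN gg ε c) = ww G K δN PN gg ε c
  rw [ww, map_smul]
  congr 1
  exact H.npr_mem hz _

theorem S1_end (hk : KC G K ρ δ δN PN gg e a ε ηc) (hs : sgm G gg a c = 1)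
    (hw : ‖ww G K δN PN gg ε c‖ ^ 2 ≤ 4) :
    S1 G K ρ δN PN gg a 1 c =
      oc (FL.Ph G K) (FL.sg0 G ρ ε) (gg c, ww G K δN PN gg ε c) := by
  rw [S1_eq, hs, mul_one, sg_one c 1 rfl, FL.oc_sg0, FL.th_one hw, mul_one]
  funext t
  rw [two_mm hk.eps, fd_smul]

section
variable (hD : FL.D1 G k K lg ρ r Cs r' Kr B w δN PN ε J E₀ η) (hc : Cst G ρ δ C)
  (hg : GG G gg e Cg) (hk : KC G K ρ δ δN PN gg e a ε ηc) (hB : π + 1 ≤ B)
include hD hc hg hk

/-- far from the closed geodesics the energy is below `E₀` -/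
theorem le_E₀ (hcl : Loop S c) (hP : NearUM G ηc c ∨ En c ≤ E₀) (h : a ^ 2 / 4 ≤ dd G gg c) :
    En c ≤ E₀ := by
  rcases hP with h1 | h1
  · exact absurd (hk.nr c hcl h1) (not_lt.2 h)
  · exact h1

theorem en_S1_low (hcl : Loop S c) (hE : En c ≤ E₀) {s : ℝ} (h0 : 0 ≤ s) (h1 : s ≤ 1) :
    En (S1 G K ρ δN PN gg a s c) ≤ En c := by
  by_cases h2 : sgm G gg a c = 0
  · rw [S1_of_zero hc hcl (by rw [h2, mul_zero])]
  · rw [S1_eq]
    exact hk.low c hcl (lt_of_sgm hk.apos h2) (hE.trans hD.E_lt.le) _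
      (mul_nonneg h0 sgm_nonneg) (mul_le_one₀ h1 sgm_nonneg sgm_le_one)

include hB in
theorem en_S1_B (hcl : Loop S c) (hP : NearUM G ηc c ∨ En c ≤ E₀) {s : ℝ} (h0 : 0 ≤ s)
    (h1 : s ≤ 1) : En (S1 G K ρ δN PN gg a s c) ≤ B := by
  rcases lt_or_ge (dd G gg c) (a ^ 2) with h2 | h2
  · rw [S1_eq]
    exact (hk.enB c hcl h2 _ (mul_nonneg h0 sgm_nonneg)
      (mul_le_one₀ h1 sgm_nonneg sgm_le_one)).trans hB
  · have h3 := le_E₀ hD hc hg hk hcl hP (by linarith [sq_nonneg a])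
    have h4 := hD.E_lt
    linarith [en_S1_low hD hc hg hk hcl h3 h0 h1]

theorem dich_S1 (hcl : Loop S c) (hP : NearUM G ηc c ∨ En c ≤ E₀) (s : ℝ) :
    NL.kj J J (k2 s * bet G K δN PN gg a ε c) = 0 ∨
      En (S1 G K ρ δN PN gg a (k1 s) c) ≤ E₀ := by
  rcases le_total s (1 / 2) with hs | hs
  · left
    rw [k2_zero hs, zero_mul]
    exact NL.kj_zero _ _ (by norm_num)
  rcases le_total (a ^ 2 / 4) (dd G gg c) with h2 | h2
  · right
    have h3 := le_E₀ hD hc hg hk hcl hP h2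
    exact (en_S1_low hD hc hg hk hcl h3 (k1_nonneg s) (k1_le_one s)).trans h3
  · have h3 := sgm_one hk.apos h2
    rcases le_total (‖ww G K δN PN gg ε c‖ ^ 2) 1 with h4 | h4
    · left
      rw [bet, h3, FL.bt, FL.ct_zero h4]
      norm_num
      exact NL.kj_zero _ _ (by norm_num)
    · right
      rw [S1_eq, k1_one hs, h3, one_mul]
      have ha := hk.apos
      have h5 := hk.std c hcl (by nlinarith)
      rw [two_mm hk.eps, norm_smul, Real.norm_of_nonneg hk.eps.le, mul_pow] at h5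
      have h6 := hD.le_E
      have h7 := hD.neg.pos_δ
      have h8 : δN / 4 * ε ^ 2 * 1 ≤ δN / 4 * ε ^ 2 * ‖ww G K δN PN gg ε c‖ ^ 2 :=
        mul_le_mul_of_nonneg_left h4 (by positivity)
      linarith

/-- where `μ > 0` the loop is near -/
theorem mu_pos (hcl : Loop S c) (hP : NearUM G ηc c ∨ En c ≤ E₀)
    (hm : 0 < mu G K δN PN gg a ε c) :
    dd G gg c ≤ a ^ 2 / 4 ∧ sgm G gg a c = 1 ∧ ‖ww G K δN PN gg ε c‖ ^ 2 < 3 := by
  have h1 : sgm G gg a c ≠ 0 := fun h => by rw [mu_of_sgm h] at hm; exact lt_irrefl _ hm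
  have h2 : ‖ww G K δN PN gg ε c‖ ^ 2 < 3 := by
    by_contra h
    push Not at h
    rw [mu, FL.ct_one (by linarith)] at hm
    norm_num at hm
  have h3 : dd G gg c ≤ a ^ 2 / 4 := by
    by_contra h
    push Not at h
    have h4 := le_E₀ hD hc hg hk hcl hP h.le
    have h5 := hk.big c hcl (lt_of_sgm hk.apos h1) h.le (h4.trans hD.E_lt.le)
    linarith
  exact ⟨h3, sgm_one hk.apos h3, h2⟩

theorem HN_one (hcl : Loop S c) (hP : NearUM G ηc c ∨ En c ≤ E₀)
    (hm : 0 < mu G K δN PN gg a ε c) :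
    HN G K lg ρ w J δN PN gg a ε 1 c =
      oc (FL.Ph G K) (FL.f1 G lg ρ w J ε) (gg c, ww G K δN PN gg ε c) := by
  obtain ⟨-, h1, h2⟩ := mu_pos hD hc hg hk hcl hP hm
  rw [hD.oc_f1 (mem_Tot hD.neg hg hcl), HN, k1_one (by norm_num), k2_one (by norm_num), one_mul,
    S1_end hk h1 (by linarith), bet, h1]
  congr 1
  rw [FL.tm]
  ring

theorem bet_one (hcl : Loop S c) (hP : NearUM G ηc c ∨ En c ≤ E₀)
    (hm : mu G K δN PN gg a ε c < 1) : bet G K δN PN gg a ε c = 1 := by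
  rcases le_total (a ^ 2 / 4) (dd G gg c) with h2 | h2
  · have h3 := le_E₀ hD hc hg hk hcl hP h2
    by_cases h4 : sgm G gg a c = 0
    · exact bet_of_sgm h4
    · have h5 := hk.big c hcl (lt_of_sgm hk.apos h4) h2 (h3.trans hD.E_lt.le)
      exact bet_of_ww (by linarith)
  · have h3 := sgm_one hk.apos h2
    refine bet_of_ww ?_
    by_contra h
    push Not at h
    rw [mu, h3, FL.ct_zero (by linarith)] at hm
    norm_num at hm

theorem far_of (hcl : Loop S c) (hP : NearUM G ηc c ∨ En c ≤ E₀)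
    (hm0 : 0 < mu G K δN PN gg a ε c) (hm : mu G K δN PN gg a ε c < 1) :
    64 / 25 ≤ ‖ww G K δN PN gg ε c‖ ^ 2 := by
  obtain ⟨-, h1, -⟩ := mu_pos hD hc hg hk hcl hP hm0
  by_contra h
  push Not at h
  rw [mu, h1, FL.ct_zero h.le] at hm
  norm_num at hm

theorem HN_one' (hcl : Loop S c) (hP : NearUM G ηc c ∨ En c ≤ E₀)
    (hm : mu G K δN PN gg a ε c < 1) :
    HN G K lg ρ w J δN PN gg a ε 1 c =
      fun _ => NL.lend G lg ρ w J (S1 G K ρ δN PN gg a 1 c) := by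
  rw [HN, k1_one (by norm_num), k2_one (by norm_num), one_mul, bet_one hD hc hg hk hcl hP hm,
    NL.Lam_end (by norm_num)]

theorem HN_start (hcl : Loop S c) {s : ℝ} (hs : s ≤ 1 / 4) :
    HN G K lg ρ w J δN PN gg a ε s c = c := by
  rw [HN, k1_zero hs, k2_zero (by linarith), zero_mul, S1_of_zero hc hcl (zero_mul _),
    NL.Lam_start hD.ld hcl (by norm_num)]

theorem sgm_const {x : Euc N} (hx : x ∈ S) : sgm G gg a (fun _ => x) = 0 := by
  have hcl : Loop S fun _ : ℝ => x := ⟨contDiff_const, fun _ => rfl, fun _ => hx⟩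
  have hz := hg.mem (fun _ => x) (Loop.contOn hcl _)
  refine sgm_zero' hk.apos ?_
  have h1 : 0 ≤ L2 G (fun _ => x) (gg fun _ => x) :=
    intervalIntegral.integral_nonneg (by positivity) fun _ _ => by positivity
  have h2 : (∫ t in (0:ℝ)..(2 * π), ‖dv' G (gg fun _ => x) (fun _ => x) t‖ ^ 2) = 2 * π := by
    have : ∀ t, ‖dv' G (gg fun _ => x) (fun _ => x) t‖ ^ 2 = 1 := fun t => by
      rw [dv', deriv_const, zero_sub, norm_neg, ga', norm_fl G hz.1, hz.2, one_pow]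
    simp only [this]
    simp
  have h3 := hk.api
  have h4 := Real.pi_pos
  unfold dd
  rw [h2]
  linarith

theorem HN_const {x : Euc N} (hx : x ∈ S) (s : ℝ) :
    HN G K lg ρ w J δN PN gg a ε s (fun _ => x) = fun _ => x := by
  have hcl : Loop S fun _ : ℝ => x := ⟨contDiff_const, fun _ => rfl, fun _ => hx⟩
  rw [HN, S1_of_zero hc hcl (by rw [sgm_const hD hc hg hk hx, mul_zero]),
    NL.Lam_const hD.ld hx]

theorem mu_const {x : Euc N} (hx : x ∈ S) : mu G K δN PN gg a ε (fun _ => x) = 0 :=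
  mu_of_sgm (sgm_const hD hc hg hk hx)

end

end Crest.Agent.R208.NG
end
end

-- ▼ part R208/NG12
section

/-!
R208, block NG (helper131), part NG12: the first stage on circle families, smoothness.
-/

set_option autoImplicit false
set_option linter.unusedSectionVars false

open Set Filter Topology MeasureTheory
open scoped ContDiff RealInnerProductSpace Real
open Crest.GeometryTopology.Submanifold
open Crest.Agent.R241.DDefs Crest.Agent.R241.D Crest.Agent.R241.D2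
open Crest.Agent.R208.MS (exists_unif P_self P_mem Retr En Loop NearUM Close oc Fam loop_oc oc_shift)
open Crest.Agent.R208.NN (Wt fd fd' nuP hasDerivAt_fd continuous_fd' fd_mem fld_fd Rt ev)
open Crest.Agent.R208.NB (NegB npr)
open Crest.Agent.R208.FI (Tan)

noncomputable section

namespace Crest.Agent.R208.NG

variable {n N k K : ℕ} {κ : ℝ} {S : Set (Euc N)} {G : Geo n N κ S} {ρ : Euc N → Euc N} {δ C : ℝ}
  {z : Euc N × Euc N} {δN : ℝ} {PN : Euc N × Euc N → Wt N K →L[ℝ] Wt N K}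
  {gg : (ℝ → Euc N) → Euc N × Euc N} {e Cg a ε ηc : ℝ} {c : ℝ → Euc N}
  {E : Type} [NormedAddCommGroup E] [NormedSpace ℝ E] [FiniteDimensional ℝ E]
  {X : Set E} {φ : ℝ → E → E} {f : E → Euc N}

section sm
variable (H : NegB G (k - 1) (nuP K) δN PN) (hg : GG G gg e Cg)
  (hφ : CM.Cir X φ) (hf : Fam S X f) {x : E} (hx : x ∈ X)

include hφ hf hx in
theorem sm_oc (t : ℝ) : ContDiffAt ℝ ∞ (fun p : E × ℝ => oc φ f p.1 p.2) (x, t) :=
  NR.contDiffAt_oc hφ hf.smooth hx t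

include hg hφ hf hx in
theorem gg_mem : gg (oc φ f x) ∈ L.US G := hg.mem _ (Loop.contOn (loop_oc hφ hf hx) _)

variable (hDm : Dm G e (oc φ f x))
include hg hφ hf hx hDm

theorem sm_gg : ContDiffAt ℝ ∞ (fun x' => gg (oc φ f x')) x :=
  hg.smooth E (fun p => oc φ f p.1 p.2) x (fun t _ => sm_oc hφ hf hx t) hDm

theorem sm_gg' (t : ℝ) : ContDiffAt ℝ ∞ (fun p : E × ℝ => (gg (oc φ f p.1), p.2)) (x, t) := by
  have h1 : ContDiffAt ℝ ∞ (fun p : E × ℝ => gg (oc φ f p.1)) (x, t) :=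
    ContDiffAt.comp (x, t) (g := fun x' => gg (oc φ f x')) (f := Prod.fst)
      (sm_gg hg hφ hf hx hDm) contDiffAt_fst
  exact h1.prodMk contDiffAt_snd

theorem sm_ga (t : ℝ) : ContDiffAt ℝ ∞ (fun p : E × ℝ => ga G (gg (oc φ f p.1)) p.2) (x, t) :=
  ContDiffAt.comp (x, t) (g := fun p : (Euc N × Euc N) × ℝ => ga G p.1 p.2)
    (f := fun p : E × ℝ => (gg (oc φ f p.1), p.2))
    (NR.contDiffAt_ga (gg_mem hg hφ hf hx).1 t) (sm_gg' hg hφ hf hx hDm t)

theorem sm_dd : ContDiffAt ℝ ∞ (fun x' => dd G gg (oc φ f x')) x :=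
  (NR.contDiffAt_D2 (g := fun p : E × ℝ => oc φ f p.1 p.2) (fun t _ => sm_oc hφ hf hx t)
    (sm_gg hg hφ hf hx hDm) (gg_mem hg hφ hf hx)).add
  (NR.contDiffAt_D2' (g := fun p : E × ℝ => oc φ f p.1 p.2) (fun t _ => sm_oc hφ hf hx t)
    (sm_gg hg hφ hf hx hDm) (gg_mem hg hφ hf hx))

theorem sm_sgm (a : ℝ) : ContDiffAt ℝ ∞ (fun x' => sgm G gg a (oc φ f x')) x := by
  have h1 : ContDiffAt ℝ ∞ (fun x' => 4 / a ^ 2 * dd G gg (oc φ f x')) x :=
    contDiffAt_const.mul (sm_dd hg hφ hf hx hDm)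
  exact contDiffAt_const.sub (ContDiffAt.comp x (g := FL.ct 1) (FL.contDiff_ct 1).contDiffAt h1)

include H

theorem sm_mm : ContDiffAt ℝ ∞ (fun x' => mm G K δN PN gg (oc φ f x')) x := by
  refine H.contDiffAt_npr (F := fun p : E × ℝ => G.P (ga G (gg (oc φ f p.1)) p.2)
    (oc φ f p.1 p.2 - ga G (gg (oc φ f p.1)) p.2)) (sm_gg hg hφ hf hx hDm)
    (gg_mem hg hφ hf hx) fun t _ => ?_
  have h1 := sm_ga hg hφ hf hx hDm t
  have h2 : ContDiffAt ℝ ∞ (fun p : E × ℝ => G.P (ga G (gg (oc φ f p.1)) p.2)) (x, t) :=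
    ContDiffAt.comp (x, t) (g := G.P) G.contDiff_P.contDiffAt h1
  exact h2.clm_apply ((sm_oc hφ hf hx t).sub h1)

theorem sm_ww (ε : ℝ) : ContDiffAt ℝ ∞ (fun x' => ww G K δN PN gg ε (oc φ f x')) x :=
  (sm_mm H hg hφ hf hx hDm).const_smul (2 / ε)

theorem sm_nww (ε : ℝ) : ContDiffAt ℝ ∞ (fun x' => ‖ww G K δN PN gg ε (oc φ f x')‖ ^ 2) x :=
  (sm_ww H hg hφ hf hx hDm ε).norm_sq ℝ

theorem sm_bet (a ε : ℝ) : ContDiffAt ℝ ∞ (fun x' => bet G K δN PN gg a ε (oc φ f x')) x := by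
  have h1 : ContDiffAt ℝ ∞ (fun x' => FL.bt (‖ww G K δN PN gg ε (oc φ f x')‖ ^ 2)) x :=
    ContDiffAt.comp x (g := FL.bt) (FL.contDiff_ct 1).contDiffAt (sm_nww H hg hφ hf hx hDm ε)
  exact contDiffAt_const.sub ((sm_sgm hg hφ hf hx hDm a).mul (contDiffAt_const.sub h1))

theorem sm_mu (a ε : ℝ) : ContDiffAt ℝ ∞ (fun x' => mu G K δN PN gg a ε (oc φ f x')) x := by
  have h1 : ContDiffAt ℝ ∞ (fun x' => FL.ct (64 / 25) (‖ww G K δN PN gg ε (oc φ f x')‖ ^ 2)) x :=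
    ContDiffAt.comp x (g := FL.ct (64 / 25)) (FL.contDiff_ct _).contDiffAt
      (sm_nww H hg hφ hf hx hDm ε)
  exact (sm_sgm hg hφ hf hx hDm a).mul (contDiffAt_const.sub h1)

theorem sm_bb : ContDiffAt ℝ ∞ (fun x' => bb G K δN PN gg (oc φ f x') 0) x := by
  have h0 : ContDiffAt ℝ ∞ (fun x' : E => (x', (0:ℝ))) x := by fun_prop
  have h1 : ContDiffAt ℝ ∞ (fun x' => ga G (gg (oc φ f x')) 0) x :=
    ContDiffAt.comp x (g := fun p : E × ℝ => ga G (gg (oc φ f p.1)) p.2)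
      (sm_ga hg hφ hf hx hDm 0) h0
  have h2 : ContDiffAt ℝ ∞ (fun x' => oc φ f x' 0) x :=
    ContDiffAt.comp x (g := fun p : E × ℝ => oc φ f p.1 p.2) (sm_oc hφ hf hx 0) h0
  have h3 : ContDiffAt ℝ ∞ (fun x' => ((gg (oc φ f x'), mm G K δN PN gg (oc φ f x')), (0:ℝ))) x :=
    ((sm_gg hg hφ hf hx hDm).prodMk (sm_mm H hg hφ hf hx hDm)).prodMk contDiffAt_const
  have h4 : ContDiffAt ℝ ∞ (fun x' => NN.fd G (gg (oc φ f x')) (nuP K)
      (mm G K δN PN gg (oc φ f x')) 0) x :=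
    ContDiffAt.comp x
      (g := fun p : ((Euc N × Euc N) × Wt N K) × ℝ => NN.fd G p.1.1 (nuP K) p.1.2 p.2)
      (NB.contDiffAt_fd (gg_mem hg hφ hf hx).1 _ _).1 h3
  exact (h1.add (h4.const_smul (2:ℝ))).sub h2

end sm

/-! ### parameters whose loops are far from the closed geodesics -/

theorem ev_far (hg : GG G gg e Cg) (hφ : CM.Cir X φ) (hf : Fam S X f) {x : E} (hx : x ∈ X)
    (hDm : ¬ Dm G e (oc φ f x)) : ∀ᶠ x' in 𝓝 x, e ^ 2 / 4 ≤ dd G gg (oc φ f x') := by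
  have he := hg.pos
  have hcl := loop_oc hφ hf hx
  have h1 : ∀ᶠ x' in 𝓝 x, ∀ t ∈ Icc (0:ℝ) (2 * π),
      ContinuousAt (fun p : E × ℝ => oc φ f p.1 p.2) (x', t) ∧
      ‖oc φ f x' t - oc φ f x t‖ < e / 8 := by
    refine isCompact_Icc.eventually_forall_of_forall_eventually fun t _ => ?_
    have k1 : ∀ᶠ p : E × ℝ in 𝓝 (x, t), ContDiffAt ℝ 1 (fun p : E × ℝ => oc φ f p.1 p.2) p :=
      ((sm_oc hφ hf hx t).of_le (by simp)).eventually (by simp)
    have k2 : ContinuousAt (fun p : E × ℝ => ‖oc φ f p.1 p.2 - oc φ f x p.2‖) (x, t) :=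
      ((sm_oc hφ hf hx t).continuousAt.sub
        (hcl.smooth.continuous.comp continuous_snd).continuousAt).norm
    have k3 : ∀ᶠ p : E × ℝ in 𝓝 (x, t), ‖oc φ f p.1 p.2 - oc φ f x p.2‖ < e / 8 :=
      k2.eventually_lt_const (by simp only [sub_self, norm_zero]; positivity)
    filter_upwards [k1, k3] with p hp1 hp2
    exact ⟨hp1.continuousAt, hp2⟩
  filter_upwards [h1] with x' hx'
  set c' := oc φ f x' with hc'
  have hcont : ContinuousOn c' (Icc 0 (2 * π)) := fun t ht =>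
    (ContinuousAt.comp (f := fun t : ℝ => (x', t)) (hx' t ht).1
      (by fun_prop : ContinuousAt (fun t : ℝ => (x', t)) t)).continuousWithinAt
  have hv := hg.mem c' hcont
  set v := gg c' with hvd
  have h2 : e ^ 2 ≤ L2 G (oc φ f x) v := by
    by_contra hcon
    push Not at hcon
    exact hDm ⟨v, hv, hcon⟩
  have hga := cont_ga (G := G) hv.1
  have h3 : L2 G (oc φ f x) v ≤ 2 * L2 G c' v + 2 * π * (2 * (e / 8) ^ 2) := by
    have e0 : Continuous fun t => ‖oc φ f x t - ga G v t‖ ^ 2 :=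
      (hcl.smooth.continuous.sub hga).norm.pow 2
    have e1 : ContinuousOn (fun t => ‖c' t - ga G v t‖ ^ 2) (Icc 0 (2 * π)) :=
      (hcont.sub hga.continuousOn).norm.pow 2
    have e2 : IntervalIntegrable (fun t => ‖c' t - ga G v t‖ ^ 2) volume 0 (2 * π) :=
      e1.intervalIntegrable_of_Icc (by positivity)
    have e3 := intervalIntegral.integral_mono_on (a := 0) (b := 2 * π) (μ := volume)
      (g := fun t => 2 * ‖c' t - ga G v t‖ ^ 2 + 2 * (e / 8) ^ 2)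
      (by positivity) (e0.intervalIntegrable _ _)
      ((e2.const_mul 2).add intervalIntegrable_const) (fun t ht => by
        have f1 := (hx' t ht).2
        have f2 : oc φ f x t - ga G v t = (c' t - ga G v t) + -(c' t - oc φ f x t) := by abel
        have f3 : ‖oc φ f x t - ga G v t‖ ≤ ‖c' t - ga G v t‖ + e / 8 := by
          rw [f2]
          refine (norm_add_le _ _).trans ?_
          rw [norm_neg]
          linarith
        exact sq_add_two (norm_nonneg _) f3)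
    rw [intervalIntegral.integral_add (e2.const_mul 2) intervalIntegrable_const,
      intervalIntegral.integral_const_mul, intervalIntegral.integral_const, smul_eq_mul,
      sub_zero] at e3
    exact e3
  have h4 := dd_ge (G := G) (gg := gg) (c := c')
  have hpi := Real.pi_lt_d2
  have h5 : 2 * π * (2 * (e / 8) ^ 2) ≤ e ^ 2 / 4 := by
    have : 2 * π * (2 * (e / 8) ^ 2) = π * (e ^ 2 / 16) := by ring
    rw [this]
    nlinarith [sq_nonneg e]
  have h6 : 0 < e ^ 2 := by positivity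
  linarith

theorem ev_sgm (hg : GG G gg e Cg) (hφ : CM.Cir X φ) (hf : Fam S X f) {x : E} (hx : x ∈ X)
    (hDm : ¬ Dm G e (oc φ f x)) (ha : 0 < a) (hae : 4 * a ^ 2 ≤ e ^ 2) :
    ∀ᶠ x' in 𝓝 x, sgm G gg a (oc φ f x') = 0 := by
  filter_upwards [ev_far hg hφ hf hx hDm] with x' hx'
  exact sgm_zero' ha (by linarith)

/-! ### the first stage -/

/-- the first stage of the homotopy of a family -/
def Ff (G : Geo n N κ S) (K : ℕ) (ρ : Euc N → Euc N) (δN : ℝ)
    (PN : Euc N × Euc N → Wt N K →L[ℝ] Wt N K)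
    (gg : (ℝ → Euc N) → Euc N × Euc N) (a : ℝ) (φ : ℝ → E → E) (f : E → Euc N) (q : E × ℝ) :
    Euc N := S1 G K ρ δN PN gg a (k1 q.2) (oc φ f q.1) 0

/-- the time of the contraction -/
def Tf (G : Geo n N κ S) (K : ℕ) (δN : ℝ)
    (PN : Euc N × Euc N → Wt N K →L[ℝ] Wt N K)
    (gg : (ℝ → Euc N) → Euc N × Euc N) (a ε : ℝ) (φ : ℝ → E → E) (f : E → Euc N) (q : E × ℝ) :
    ℝ := k2 q.2 * bet G K δN PN gg a ε (oc φ f q.1)

section fam
variable (h : GT.Bla G k) (H : NegB G (k - 1) (nuP K) δN PN) (hc : Cst G ρ δ C)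
  (hg : GG G gg e Cg) (hk : KC G K ρ δ δN PN gg e a ε ηc)
  (hφ : CM.Cir X φ) (hf : Fam S X f)
include h H hc hg hk hφ hf

theorem kc_ae : 5 * a ^ 2 / 16 ≤ e ^ 2 := by
  have := hk.ae
  linarith [sq_nonneg a]

theorem oc_Ff {x : E} (hx : x ∈ X) (s : ℝ) :
    oc (NL.pR φ) (Ff G K ρ δN PN gg a φ f) (x, s) =
      S1 G K ρ δN PN gg a (k1 s) (oc φ f x) := by
  funext t
  change S1 G K ρ δN PN gg a (k1 s) (oc φ f (φ t x)) 0 = _
  rw [oc_shift hφ hx, S1_shift h H hg hk.apos (kc_ae h H hc hg hk hφ hf) (loop_oc hφ hf hx),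
    zero_add]

/-- the point of the first stage: the argument of `ρ` is near `S` -/
theorem arg_near {x : E} (hx : x ∈ X) {s : ℝ} (h0 : 0 ≤ s) (h1 : s ≤ 1) :
    ∃ y ∈ S, ‖(oc φ f x 0 + (s * sgm G gg a (oc φ f x)) • bb G K δN PN gg (oc φ f x) 0) - y‖ <
      δ := by
  have hcl := loop_oc hφ hf hx
  by_cases h2 : sgm G gg a (oc φ f x) = 0
  · refine ⟨oc φ f x 0, hcl.mem 0, ?_⟩
    rw [h2, mul_zero, zero_smul, add_zero, sub_self, norm_zero]
    exact hc.pos
  · have hz := gg_mem hg hφ hf hx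
    refine ⟨ga G (gg (oc φ f x)) 0, ga_mem hz.1 0, ?_⟩
    have h3 := hk.tube (oc φ f x) hcl (lt_of_sgm hk.apos h2) (s * sgm G gg a (oc φ f x))
      (mul_nonneg h0 sgm_nonneg) (mul_le_one₀ h1 sgm_nonneg sgm_le_one) 0
    refine lt_of_eq_of_lt ?_ h3
    congr 1
    simp only [bb, dv, mm]
    module

theorem fam_Ff : Fam S (X ×ˢ (univ : Set ℝ)) (Ff G K ρ δN PN gg a φ f) := by
  refine ⟨?_, ?_⟩
  · rintro ⟨x, s⟩ ⟨hx, -⟩
    have h0 : ContDiffAt ℝ ∞ (fun q : E × ℝ => k1 q.2) (x, s) :=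
      ContDiffAt.comp (x, s) (g := k1) contDiff_k1.contDiffAt contDiffAt_snd
    by_cases hDm : Dm G e (oc φ f x)
    · obtain ⟨y, hy, hy'⟩ := arg_near h H hc hg hk hφ hf hx (k1_nonneg s) (k1_le_one s)
      have h1 : ContDiffAt ℝ ∞ (fun q : E × ℝ => oc φ f q.1 0) (x, s) :=
        ContDiffAt.comp (x, s) (g := fun p : E × ℝ => oc φ f p.1 p.2) (f := fun q => (q.1, 0))
          (sm_oc hφ hf hx 0) (by fun_prop)
      have h2 : ContDiffAt ℝ ∞ (fun q : E × ℝ => sgm G gg a (oc φ f q.1)) (x, s) :=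
        ContDiffAt.comp (x, s) (g := fun x' => sgm G gg a (oc φ f x'))
          (sm_sgm hg hφ hf hx hDm a) contDiffAt_fst
      have h3 : ContDiffAt ℝ ∞ (fun q : E × ℝ => bb G K δN PN gg (oc φ f q.1) 0) (x, s) :=
        ContDiffAt.comp (x, s) (g := fun x' => bb G K δN PN gg (oc φ f x') 0)
          (sm_bb H hg hφ hf hx hDm) contDiffAt_fst
      exact ContDiffAt.comp (x, s) (g := ρ) (f := fun q : E × ℝ => oc φ f q.1 0 +
        (k1 q.2 * sgm G gg a (oc φ f q.1)) • bb G K δN PN gg (oc φ f q.1) 0)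
        (hc.sm y hy _ hy') (h1.add ((h0.mul h2).smul h3))
    · have h1 := ev_sgm hg hφ hf hx hDm hk.apos hk.ae
      have h2 : ∀ᶠ q : E × ℝ in 𝓝 (x, s), sgm G gg a (oc φ f q.1) = 0 :=
        continuousAt_fst.eventually h1
      have h3 : ContDiffAt ℝ ∞ (fun q : E × ℝ => oc φ f q.1 0) (x, s) :=
        ContDiffAt.comp (x, s) (g := fun p : E × ℝ => oc φ f p.1 p.2) (f := fun q => (q.1, 0))
          (sm_oc hφ hf hx 0) (by fun_prop)
      have h4 : ContDiffAt ℝ ∞ (fun q : E × ℝ => ρ (oc φ f q.1 0)) (x, s) :=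
        ContDiffAt.comp (x, s) (g := ρ) (f := fun q : E × ℝ => oc φ f q.1 0)
          (hc.sm _ ((loop_oc hφ hf hx).mem 0) _ (by rw [sub_self, norm_zero]; exact hc.pos)) h3
      refine h4.congr_of_eventuallyEq ?_
      filter_upwards [h2] with q hq
      simp only [Ff, S1, hq, mul_zero, zero_smul, add_zero]
  · rintro ⟨x, s⟩ ⟨hx, -⟩
    obtain ⟨y, hy, hy'⟩ := arg_near h H hc hg hk hφ hf hx (k1_nonneg s) (k1_le_one s)
    exact hc.mem y hy _ hy'

theorem si_Tf : NL.SI (X ×ˢ (univ : Set ℝ)) (NL.pR φ) (Tf G K δN PN gg a ε φ f) := by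
  refine ⟨?_, ?_⟩
  · rintro ⟨x, s⟩ ⟨hx, -⟩
    have h0 : ContDiffAt ℝ ∞ (fun q : E × ℝ => k2 q.2) (x, s) :=
      ContDiffAt.comp (x, s) (g := k2) contDiff_k2.contDiffAt contDiffAt_snd
    by_cases hDm : Dm G e (oc φ f x)
    · exact h0.mul (ContDiffAt.comp (x, s) (g := fun x' => bet G K δN PN gg a ε (oc φ f x'))
        (sm_bet H hg hφ hf hx hDm a ε) contDiffAt_fst)
    · have h1 := ev_sgm hg hφ hf hx hDm hk.apos hk.ae
      have h2 : ∀ᶠ q : E × ℝ in 𝓝 (x, s), sgm G gg a (oc φ f q.1) = 0 :=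
        continuousAt_fst.eventually h1
      refine h0.congr_of_eventuallyEq ?_
      filter_upwards [h2] with q hq
      simp only [Tf, bet_of_sgm hq, mul_one]
  · rintro ⟨x, s⟩ ⟨hx, -⟩ t
    change k2 s * bet G K δN PN gg a ε (oc φ f (φ t x)) = k2 s * bet G K δN PN gg a ε (oc φ f x)
    rw [oc_shift hφ hx, bet_shift h H hg hk.apos (kc_ae h H hc hg hk hφ hf) (loop_oc hφ hf hx)]

end fam

end Crest.Agent.R208.NG
end
end

-- ▼ part R208/NG13
section

/-!
R208, block NG (helper131), part NG13: **(U4)** the natural operator near the closed geodesics.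
-/

set_option autoImplicit false
set_option linter.unusedSectionVars false

open Set Filter Topology MeasureTheory
open scoped ContDiff RealInnerProductSpace Real
open Crest.GeometryTopology.Submanifold
open Crest.Agent.R241.DDefs Crest.Agent.R241.D Crest.Agent.R241.D2
open Crest.Agent.R208.MS (exists_unif P_self P_mem Retr En Loop NearUM Close oc Fam loop_oc oc_shift)
open Crest.Agent.R208.NN (Wt fd fd' nuP hasDerivAt_fd continuous_fd' fd_mem fld_fd Rt ev)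
open Crest.Agent.R208.NB (NegB npr)
open Crest.Agent.R208.FI (Tan)

noncomputable section

namespace Crest.Agent.R208.NG

variable {n N k K : ℕ} {κ : ℝ} {S : Set (Euc N)} {G : Geo n N κ S} {ρ : Euc N → Euc N} {δ C : ℝ}
  {z : Euc N × Euc N} {δN : ℝ} {PN : Euc N × Euc N → Wt N K →L[ℝ] Wt N K}
  {gg : (ℝ → Euc N) → Euc N × Euc N} {e Cg a ε ηc : ℝ} {c : ℝ → Euc N}
  {lg : Euc N → Euc N → Euc N} {r Cs r' Kr B w E₀ η : ℝ} {J : ℕ}
  {E : Type} [NormedAddCommGroup E] [NormedSpace ℝ E] [FiniteDimensional ℝ E]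
  {X : Set E} {φ : ℝ → E → E} {f : E → Euc N}

/-- the homotopy of a family -/
def Hf (G : Geo n N κ S) (K : ℕ) (lg : Euc N → Euc N → Euc N) (ρ : Euc N → Euc N) (w : ℝ)
    (J : ℕ) (δN : ℝ) (PN : Euc N × Euc N → Wt N K →L[ℝ] Wt N K)
    (gg : (ℝ → Euc N) → Euc N × Euc N) (a ε : ℝ) (φ : ℝ → E → E) (f : E → Euc N) :
    E × ℝ → Euc N :=
  NL.FLam (NL.pR φ) G lg ρ w J (Tf G K δN PN gg a ε φ f) (Ff G K ρ δN PN gg a φ f)

variable (hD : FL.D1 G k K lg ρ r Cs r' Kr B w δN PN ε J E₀ η) (hc : Cst G ρ δ C)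
  (hg : GG G gg e Cg) (hk : KC G K ρ δ δN PN gg e a ε ηc) (hB : π + 1 ≤ B)
include hD hc hg hk hB

theorem Hf_spec (hφ : CM.Cir X φ) (hf : Fam S X f)
    (hP : ∀ z ∈ X, NearUM G ηc (oc φ f z) ∨ En (oc φ f z) ≤ E₀) :
    Fam S (X ×ˢ (univ : Set ℝ)) (Hf G K lg ρ w J δN PN gg a ε φ f) ∧
    ∀ x ∈ X, ∀ s t, Hf G K lg ρ w J δN PN gg a ε φ f (φ t x, s) =
      HN G K lg ρ w J δN PN gg a ε s (oc φ f x) t := by
  have hX := NL.cir_pR hφ
  have hF := fam_Ff hD.bla hD.neg hc hg hk hφ hf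
  have hS := si_Tf (ε := ε) hD.bla hD.neg hc hg hk hφ hf
  have hoc : ∀ q ∈ X ×ˢ (univ : Set ℝ), oc (NL.pR φ) (Ff G K ρ δN PN gg a φ f) q =
      S1 G K ρ δN PN gg a (k1 q.2) (oc φ f q.1) := fun q hq =>
    oc_Ff hD.bla hD.neg hc hg hk hφ hf hq.1 q.2
  have hEB : ∀ q ∈ X ×ˢ (univ : Set ℝ), En (oc (NL.pR φ) (Ff G K ρ δN PN gg a φ f) q) ≤ B :=
    fun q hq => by
      rw [hoc q hq]
      exact en_S1_B hD hc hg hk hB (loop_oc hφ hf hq.1) (hP _ hq.1) (k1_nonneg _) (k1_le_one _)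
  have hdi : ∀ q ∈ X ×ˢ (univ : Set ℝ), NL.kj J J (Tf G K δN PN gg a ε φ f q) = 0 ∨
      En (oc (NL.pR φ) (Ff G K ρ δN PN gg a φ f) q) ≤ E₀ := fun q hq => by
    rw [hoc q hq]
    exact dich_S1 hD hc hg hk (loop_oc hφ hf hq.1) (hP _ hq.1) q.2
  refine ⟨NL.fam_FLam hD.ld hX hF hS hEB hdi, fun x hx s t => ?_⟩
  have h1 := congrFun (NL.oc_FLam hD.ld hX hF hS hEB (z := (x, s)) ⟨hx, mem_univ _⟩) t
  rw [hoc _ ⟨hx, mem_univ _⟩] at h1
  exact h1

/-- **(U4)** -/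
theorem nearOp {δ' : ℝ} (hδ' : π - δ' ≤ E₀) :
    EX.NearOp G (FI.Tot (L.US G) PN) (FL.Ph G K) (FL.f1 G lg ρ w J ε)
      (fun y => 64 / 25 ≤ ‖y.2‖ ^ 2) ηc δ'
      (fun s c => HN G K lg ρ w J δN PN gg a ε s c 0) (mu G K δN PN gg a ε)
      (fun c => (gg c, ww G K δN PN gg ε c)) := by
  intro E _ _ _ X φ f hφ hf hP0
  have h := hD.bla
  have H := hD.neg
  have hP : ∀ z ∈ X, NearUM G ηc (oc φ f z) ∨ En (oc φ f z) ≤ E₀ := fun z hz =>
    (hP0 z hz).imp id fun h1 => h1.trans hδ'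
  obtain ⟨h1, h2⟩ := Hf_spec hD hc hg hk hB hφ hf hP
  have hcl : ∀ x ∈ X, Loop S (oc φ f x) := fun x hx => loop_oc hφ hf hx
  have h3 : ∀ x ∈ X, ∀ s, Hf G K lg ρ w J δN PN gg a ε φ f (x, s) =
      HN G K lg ρ w J δN PN gg a ε s (oc φ f x) 0 := fun x hx s => by
    have := h2 x hx s 0
    rwa [hφ.zero x hx] at this
  have h0 : ∀ x ∈ X, oc φ f x 0 = f x := fun x hx => by
    unfold oc; rw [hφ.zero x hx]
  have hconst : ∀ x ∈ X, (∀ t, f (φ t x) = f x) → oc φ f x = fun _ => f x := fun x _ hx' =>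
    funext fun t => hx' t
  have hae := kc_ae h H hc hg hk hφ hf
  have hDm : ∀ x ∈ X, 0 < mu G K δN PN gg a ε (oc φ f x) → Dm G e (oc φ f x) := by
    intro x hx hm
    have h4 := (mu_pos hD hc hg hk (hcl x hx) (hP x hx) hm).1
    by_contra hcon
    have h5 := le_dd_of_not hg (Loop.contOn (hcl x hx) _) hcon
    have h6 := hk.ae
    have h7 := hg.pos
    have h8 : 0 < e ^ 2 := by positivity
    linarith
  refine ⟨Hf G K lg ρ w J δN PN gg a ε φ f, fun x => mu G K δN PN gg a ε (oc φ f x),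
    fun x => (gg (oc φ f x), ww G K δN PN gg ε (oc φ f x)),
    ⟨⟨hf.smooth, hf.maps⟩, ⟨h1.smooth, h1.maps⟩, fun x hx => ?_, fun x hx hx' s t => ?_,
      fun x hx => ?_, fun x hx t => ?_, ⟨fun x hx => ?_, fun x hx => ?_⟩, fun t x hx => ?_,
      fun x hx => ?_, fun x hx t => ?_, fun x hx hx' => ?_, fun x hx hx' => ?_⟩,
    fun z hz s => h3 z hz s, fun z hz s hs => ?_, fun z hz => rfl, fun z hz => rfl⟩
  · rw [h3 x hx, HN_start hD hc hg hk (hcl x hx) (by norm_num), h0 x hx]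
  · rw [h2 x hx, hconst x hx hx', HN_const hD hc hg hk (hf.maps x hx)]
  · by_cases hd : Dm G e (oc φ f x)
    · exact sm_mu H hg hφ hf hx hd a ε
    · have h4 := ev_sgm hg hφ hf hx hd hk.apos hk.ae
      refine (contDiffAt_const (c := (0:ℝ))).congr_of_eventuallyEq ?_
      filter_upwards [h4] with q hq
      exact mu_of_sgm hq
  · change mu G K δN PN gg a ε (oc φ f (φ t x)) = mu G K δN PN gg a ε (oc φ f x)
    rw [oc_shift hφ hx, mu_shift h H hg hk.apos hae (hcl x hx)]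
  · have hd := hDm x hx.1 hx.2
    exact (sm_gg hg hφ hf hx.1 hd).prodMk (sm_ww H hg hφ hf hx.1 hd ε)
  · exact mem_Tot H hg (hcl x hx.1)
  · have hd := hDm x hx.1 hx.2
    have hl := hcl x hx.1
    change (gg (oc φ f (φ t x)), ww G K δN PN gg ε (oc φ f (φ t x))) = _
    rw [oc_shift hφ hx.1, ww_shift h H hg hl hd, hg.equi _ hl.smooth.continuous hl.per hd]
    rfl
  · rw [h3 x hx.1, HN_one hD hc hg hk (hcl x hx.1) (hP x hx.1) hx.2]
    have h4 := mem_Tot (ε := ε) H hg (hcl x hx.1)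
    unfold oc at h4 ⊢
    rw [hD.cir.zero _ h4]
  · rw [h2 x hx.1, h3 x hx.1, HN_one' hD hc hg hk (hcl x hx.1) (hP x hx.1) hx.2]
  · exact far_of hD hc hg hk (hcl x hx.1) (hP x hx.1) hx.2 hx'
  · change mu G K δN PN gg a ε (oc φ f x) < 1
    rw [hconst x hx hx', mu_const hD hc hg hk (hf.maps x hx)]
    exact one_pos
  · rw [h3 z hz, HN_start hD hc hg hk (hcl z hz) hs, h0 z hz]

end Crest.Agent.R208.NG
end
end

-- ▼ part R208/NG14
section

/-!
R208, block NG (helper131), part NG14: **(U4)** existence of the natural operator near the closed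
geodesics, and of the natural operators below `4π`.
-/

set_option autoImplicit false

open Set Filter Topology MeasureTheory
open scoped ContDiff RealInnerProductSpace Real
open Crest.GeometryTopology.Submanifold
open Crest.Agent.R241.DDefs Crest.Agent.R241.D Crest.Agent.R241.D2
open Crest.Agent.R208.MS (exists_unif P_self P_mem Retr En Loop NearUM Close oc Fam loop_oc oc_shift)
open Crest.Agent.R208.NN (Wt nuP)

noncomputable section

namespace Crest.Agent.R208.NG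

variable {n N k K : ℕ} {κ : ℝ} {S : Set (Euc N)} {G : Geo n N κ S} {ρ : Euc N → Euc N}
  {δN : ℝ} {PN : Euc N × Euc N → Wt N K →L[ℝ] Wt N K}
  {lg : Euc N → Euc N → Euc N} {r Cs r' Kr B w : ℝ}

/-- **(U4)** the operator near the closed geodesics; `ηc` and `ε₁` do not depend on `ε, J, E₀` -/
theorem exists_nearOp (h0 : FL.D0 G k K lg ρ r Cs r' Kr B w δN PN) (hB : π + 1 ≤ B) :
    ∃ (gg : (ℝ → Euc N) → Euc N × Euc N) (a ηc ε₁ : ℝ), 0 < ηc ∧ 0 < ε₁ ∧
      ∀ ε, 0 < ε → ε ≤ ε₁ → ∀ (J : ℕ) (E₀ η : ℝ),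
        FL.D1 G k K lg ρ r Cs r' Kr B w δN PN ε J E₀ η → ∀ δ', π - δ' ≤ E₀ →
        EX.NearOp G (FI.Tot (L.US G) PN) (FL.Ph G K) (FL.f1 G lg ρ w J ε)
          (fun y => 64 / 25 ≤ ‖y.2‖ ^ 2) ηc δ'
          (fun s c => HN G K lg ρ w J δN PN gg a ε s c 0) (mu G K δN PN gg a ε)
          (fun c => (gg c, ww G K δN PN gg ε c)) := by
  obtain ⟨gg, e, C', hN⟩ := NR.exists_gg (G := G) h0.bla.bl
  have hg := gg_of_NG h0.bla.ty.per hN
  obtain ⟨δ, C, -, hc⟩ := exists_Cst h0.bla.bl.cpt h0.rt h0.der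
  obtain ⟨c0, C1, hc0, hC1, hU⟩ := CO.U2 h0.bla h0.bla.bl.cpt h0.neg
  obtain ⟨a, ha, ηc, hηc, ε₁, hε₁, hK⟩ := exists_KC h0.bla h0.neg hc hg (sq_nonneg C') hc0 hC1 hU
  exact ⟨gg, a, ηc, ε₁, hηc, hε₁, fun ε hε hε1 J E₀ η hD δ' hδ' =>
    nearOp hD hc hg (hK ε hε hε1) hB hδ'⟩


end Crest.Agent.R208.NG
end
end

-- ▼ part R208/NG15
section

/-!
R208, block NG (helper131), part NG15: the natural operators below `4π`, the level `B'` is chosen
after `ε` (530's order of the constants).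
-/

set_option autoImplicit false

open Set Filter Topology MeasureTheory
open scoped ContDiff RealInnerProductSpace Real
open Crest.GeometryTopology.Submanifold
open Crest.Agent.R241.DDefs Crest.Agent.R241.D Crest.Agent.R241.D2
open Crest.Agent.R208.NN (Wt nuP)

noncomputable section

namespace Crest.Agent.R208.NG

variable {n N k K : ℕ} {κ : ℝ} {S : Set (Euc N)} {G : Geo n N κ S} {ρ : Euc N → Euc N}
  {δN : ℝ} {PN : Euc N × Euc N → Wt N K →L[ℝ] Wt N K}
  {lg : Euc N → Euc N → Euc N} {r Cs r' Kr B w : ℝ}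

/-- **the natural operators below any `B' < 4π`** (`B'` is chosen after `ε`; `E₁` depends on
`B'`): for every level one family of the data with `E₁ ≤ E₀` -/
theorem exists_natOp' (h0 : FL.D0 G k K lg ρ r Cs r' Kr B w δN PN) (hB : π + 1 ≤ B) :
    ∃ ε₁ > 0, ∀ ε, 0 < ε → ε ≤ ε₁ → ∀ B' < 4 * π, ∃ E₁ < π, ∀ (J : ℕ) (E₀ η : ℝ), E₁ ≤ E₀ →
      FL.D1 G k K lg ρ r Cs r' Kr B w δN PN ε J E₀ η →
        ∃ (HL : ℝ → (ℝ → Euc N) → Euc N) (mu : (ℝ → Euc N) → ℝ)
          (Gm : (ℝ → Euc N) → (Euc N × Euc N) × Wt N K),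
          EX.NatOp S (FI.Tot (L.US G) PN) (FL.Ph G K) (FL.f1 G lg ρ w J ε)
            (fun y => 64 / 25 ≤ ‖y.2‖ ^ 2) B' HL mu Gm := by
  obtain ⟨gg, a, ηc, ε₁, hηc, hε₁, hN⟩ := exists_nearOp h0 hB
  refine ⟨ε₁, hε₁, fun ε hε hε1 B' hB' => ?_⟩
  obtain ⟨δ, hδ, hd⟩ := EX.exists_delta (G := G) h0.bla.bl h0.bla.ty.per hB' hηc
  exact ⟨π - δ, by linarith, fun J E₀ η hE hD => hd _ _ _ _ _ _ _ _
    (hN ε hε hε1 J E₀ η hD δ hE)⟩

end Crest.Agent.R208.NG
end
end

-- ▼ part R208/EX12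

/-!
R208, (8,2), block ED (helper530), part EX12: **the order of the constants**. The gap of the level
two family is made independent of the contraction constants `E₀, η, J` (`D2.gap`), so that the level
`B'` of the natural primitive can be chosen before them; `exists_setup` gives the whole package.
-/

set_option autoImplicit false
set_option linter.unusedSectionVars false
set_option linter.unusedVariables false

open Set Filter Topology MeasureTheory
open scoped ContDiff RealInnerProductSpace Real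
open Crest.GeometryTopology.Submanifold
open Crest.Agent.R241.DDefs Crest.Agent.R241.D Crest.Agent.R241.D2

noncomputable section

namespace Crest.Agent.R208.FT

open Crest.Agent.R208.SV Crest.Agent.R208.MS Crest.Agent.R208.NN Crest.Agent.R208.FL
open Crest.Agent.R208.CM (Cir Rep phR gf)

variable {n N K k : ℕ} {κ : ℝ} {S : Set (Euc N)} {G : Geo n N κ S} {lg : Euc N → Euc N → Euc N}
  {ρ : Euc N → Euc N} {r C r' Kr B w δ : ℝ} {PN : Euc N × Euc N → Wt N K →L[ℝ] Wt N K}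
  {H₂ : Type} [NormedAddCommGroup H₂] [InnerProductSpace ℝ H₂] [FiniteDimensional ℝ H₂]
  {P₂ : Euc N × Euc N → H₂ →L[ℝ] H₂} {Rr : ℝ → H₂ →L[ℝ] H₂}
  {xi0 : Euc N × Euc N → H₂ →L[ℝ] Euc N} {δ₂ : ℝ} {ε ε₂ E₀ η : ℝ} {J : ℕ}
  {E : Type} [NormedAddCommGroup E] [NormedSpace ℝ E] [FiniteDimensional ℝ E]
  {X : Set E} {φ : ℝ → E → E} {pi0 : E → Euc N × Euc N}

/-- the explicit gap: it does not depend on `E₀, η, J` -/
def gp (δ δ₂ ε ε₂ : ℝ) : ℝ := min (min δ δ₂ * ε ^ 2 / 4) (min δ δ₂ * ε₂ ^ 2)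

theorem gp_pos (hδ : 0 < δ) (hδ₂ : 0 < δ₂) (hε : 0 < ε) (hε₂ : 0 < ε₂) : 0 < gp δ δ₂ ε ε₂ := by
  have h : 0 < min δ δ₂ := lt_min hδ hδ₂
  exact lt_min (by positivity) (by positivity)

/-- the explicit level -/
def lev (δ δ₂ ε ε₂ : ℝ) : ℝ := 4 * π - gp δ δ₂ ε ε₂ / 4

theorem lev_lt (hδ : 0 < δ) (hδ₂ : 0 < δ₂) (hε : 0 < ε) (hε₂ : 0 < ε₂) :
    lev δ δ₂ ε ε₂ < 4 * π := by
  have := gp_pos hδ hδ₂ hε hε₂
  unfold lev; linarith

namespace D2

variable (h : D2 G k K lg ρ r C r' Kr B w δ PN ε J E₀ η P₂ Rr xi0 δ₂ ε₂)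

include h

theorem gp_pos : 0 < gp δ δ₂ ε ε₂ := FT.gp_pos h.neg.pos_δ h.xi.pos h.eps_pos h.e2_pos

theorem lev_lt : lev δ δ₂ ε ε₂ < 4 * π := FT.lev_lt h.neg.pos_δ h.xi.pos h.eps_pos h.e2_pos

/-- **energies of the level two family, gap independent of `E₀, η, J`** -/
theorem en_unif (hη : 2 * η ≤ π - (δ / 4) * ε ^ 2) {p : ((Euc N × Euc N) × H₂) × Wt N K}
    (hp : p ∈ TP.TT (L.US G) P₂ PN) : En (fun t => f2 G lg ρ w J xi0 ε ε₂ (Ph2 G K Rr t p)) ≤
      4 * π - gp δ δ₂ ε ε₂ * min 1 (‖p.2‖ ^ 2 + ‖p.1.2‖ ^ 2) := by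
  have hδ := h.neg.pos_δ
  have hδ₂ := h.xi.pos
  have he := h.eps_pos
  have he2 := h.e2_pos
  have hd0 := h.gp_pos
  set μ : ℝ := min δ δ₂ with hμ
  have hμ0 : 0 < μ := lt_min hδ hδ₂
  set δ' : ℝ := gp δ δ₂ ε ε₂ with hδ'
  have hd1 : δ' ≤ μ * ε ^ 2 / 4 := min_le_left _ _
  have hd2 : δ' ≤ μ * ε₂ ^ 2 := min_le_right _ _
  have hd3 : δ' ≤ δ * ε ^ 2 := by
    have h1 : μ * ε ^ 2 ≤ δ * ε ^ 2 := by
      have : μ ≤ δ := min_le_left _ _
      gcongr
    have h2 : 0 ≤ μ * ε ^ 2 := by positivity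
    linarith
  have hm1 : min 1 (‖p.2‖ ^ 2 + ‖p.1.2‖ ^ 2) ≤ 1 := min_le_left _ _
  have hm2 : min 1 (‖p.2‖ ^ 2 + ‖p.1.2‖ ^ 2) ≤ ‖p.2‖ ^ 2 + ‖p.1.2‖ ^ 2 := min_le_right _ _
  have hm0 : 0 ≤ min 1 (‖p.2‖ ^ 2 + ‖p.1.2‖ ^ 2) := le_min zero_le_one (by positivity)
  have hb0 : 0 ≤ bb ε₂ p ^ 2 * ‖p.1.2‖ ^ 2 := by positivity
  rcases le_or_gt (‖p.2‖ ^ 2) (1 / 4) with h1 | h1
  · refine (h.En_near hp (by linarith)).trans ?_
    have h3 := le_th_sq (q := ‖p.1.2‖ ^ 2) (by positivity)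
    have h4 : bb ε₂ p ^ 2 * ‖p.1.2‖ ^ 2 = ε₂ ^ 2 * (th (‖p.1.2‖ ^ 2) ^ 2 * ‖p.1.2‖ ^ 2) := by
      unfold bb; rw [cu_one h1]; ring
    rw [h4]
    have h5 : μ * (ε₂ ^ 2 * min 1 (‖p.1.2‖ ^ 2)) ≤
        μ * (ε₂ ^ 2 * (th (‖p.1.2‖ ^ 2) ^ 2 * ‖p.1.2‖ ^ 2)) := by gcongr
    have h6 : min 1 (‖p.2‖ ^ 2 + ‖p.1.2‖ ^ 2) ≤ ‖p.2‖ ^ 2 + min 1 (‖p.1.2‖ ^ 2) := by
      rcases le_total 1 (‖p.1.2‖ ^ 2) with h7 | h7
      · rw [min_eq_left h7]; exact hm1.trans (by nlinarith [sq_nonneg ‖p.2‖])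
      · rw [min_eq_right h7]; exact hm2
    have h7 : 0 ≤ min 1 (‖p.1.2‖ ^ 2) := le_min zero_le_one (by positivity)
    have h8 : δ' * min 1 (‖p.2‖ ^ 2 + ‖p.1.2‖ ^ 2) ≤
        δ' * ‖p.2‖ ^ 2 + δ' * min 1 (‖p.1.2‖ ^ 2) := by
      rw [← mul_add]; gcongr
    have h9 : δ' * ‖p.2‖ ^ 2 ≤ μ * (ε ^ 2 * ‖p.2‖ ^ 2) := by
      have h10 : δ' ≤ μ * ε ^ 2 := by
        have : 0 ≤ μ * ε ^ 2 := by positivity
        linarith
      calc δ' * ‖p.2‖ ^ 2 ≤ μ * ε ^ 2 * ‖p.2‖ ^ 2 := by gcongr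
        _ = _ := by ring
    have h10 : δ' * min 1 (‖p.1.2‖ ^ 2) ≤ μ * (ε₂ ^ 2 * min 1 (‖p.1.2‖ ^ 2)) := by
      calc δ' * min 1 (‖p.1.2‖ ^ 2) ≤ μ * ε₂ ^ 2 * min 1 (‖p.1.2‖ ^ 2) := by gcongr
        _ = _ := by ring
    linarith
  · have hlow : δ' * min 1 (‖p.2‖ ^ 2 + ‖p.1.2‖ ^ 2) ≤ δ' := by nlinarith
    rcases le_or_gt (‖p.2‖ ^ 2) 1 with h2 | h2
    · refine (h.En_near hp h2).trans ?_
      have h3 : μ * ε ^ 2 / 4 ≤ μ * (ε ^ 2 * ‖p.2‖ ^ 2) := by
        have : μ * ε ^ 2 * (1 / 4) ≤ μ * ε ^ 2 * ‖p.2‖ ^ 2 := by gcongr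
        linarith
      have h4 : 0 ≤ μ * (bb ε₂ p ^ 2 * ‖p.1.2‖ ^ 2) := by positivity
      rw [mul_add]
      linarith
    · rw [h.En_far hp (by linarith)]
      have h3 := (h.toD1.En_f1_le (mem_Tot hp)).1
      have h4 : min 1 (‖((p.1.1, p.2) : (Euc N × Euc N) × Wt N K).2‖ ^ 2) = 1 :=
        min_eq_left h2.le
      rw [h4, mul_one, max_eq_left hη] at h3
      linarith

/-- **the level**: `lev δ δ₂ ε ε₂ < 4π` bounds all orbit energies where `c2 > 0` -/
theorem level_unif (hη : 2 * η ≤ π - (δ / 4) * ε ^ 2) (hm : Eqm G X φ pi0)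
    {p : (E × H₂) × Wt N K} (hp : p ∈ TX X pi0 P₂ PN) (hc : 0 < c2 p) :
    En (oc (P2x φ N K Rr) (f2x G lg ρ w J xi0 ε ε₂ pi0) p) ≤ lev δ δ₂ ε ε₂ := by
  rw [h.oc_f2x hm hp]
  refine (h.en_unif hη (hm.Fg_mem hp)).trans ?_
  have h1 : 1 / 4 < ‖p.2‖ ^ 2 + ‖p.1.2‖ ^ 2 := by
    by_contra h2
    unfold c2 at hc
    rw [ct_zero (not_lt.1 h2)] at hc
    exact lt_irrefl _ hc
  have h2 : (1:ℝ) / 4 ≤ min 1 (‖(Fg pi0 p).2‖ ^ 2 + ‖(Fg pi0 p).1.2‖ ^ 2) :=
    le_min (by norm_num) h1.le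
  have h3 := h.gp_pos
  unfold lev
  nlinarith

/-- the same over `US G` itself -/
theorem level_unif_US (hη : 2 * η ≤ π - (δ / 4) * ε ^ 2) {p : ((Euc N × Euc N) × H₂) × Wt N K}
    (hp : p ∈ TP.TT (L.US G) P₂ PN) (hc : 0 < c2 p) :
    En (fun t => f2 G lg ρ w J xi0 ε ε₂ (Ph2 G K Rr t p)) ≤ lev δ δ₂ ε ε₂ := by
  refine (h.en_unif hη hp).trans ?_
  have h1 : 1 / 4 < ‖p.2‖ ^ 2 + ‖p.1.2‖ ^ 2 := by
    by_contra h2
    unfold c2 at hc
    rw [ct_zero (not_lt.1 h2)] at hc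
    exact lt_irrefl _ hc
  have h2 : (1:ℝ) / 4 ≤ min 1 (‖p.2‖ ^ 2 + ‖p.1.2‖ ^ 2) :=
    le_min (by norm_num) h1.le
  have h3 := h.gp_pos
  unfold lev
  nlinarith

end D2


end Crest.Agent.R208.FT
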