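import Crest.Agent.R208.CM3
import Crest.Agent.R208.CM4b
import Crest.Agent.R208.TP2

-- ▼ part R208/TP3
section

/-! Row 208, block TP (helper382).  TP3: quotient maps of circle actions (abstract), descent of
basic forms, total spaces. -/

set_option autoImplicit false
set_option linter.unusedSectionVars false
set_option linter.unusedVariables false

open MeasureTheory Set Filter Topology Module
open scoped ContDiff RealInnerProductSpace
open Crest.Agent.R208.F Crest.Agent.R208.FI Crest.Agent.R208.CW Crest.Agent.R208.T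
open Crest.Agent.R208.CM

noncomputable section

namespace Crest.Agent.R208.TP

section qm
variable {E E' : Type*} [NormedAddCommGroup E] [NormedSpace ℝ E] [FiniteDimensional ℝ E]
  [NormedAddCommGroup E'] [NormedSpace ℝ E'] [FiniteDimensional ℝ E']
  {X : Set E} {Y : Set E'} {φ : ℝ → E → E} {q : E → E'}

/-- `q : X → Y` is the quotient map of the circle action `φ`, with smooth local sections -/
structure QM (X : Set E) (φ : ℝ → E → E) (Y : Set E') (q : E → E') : Prop where
  smap : SMap X Y q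
  act : ∀ x ∈ X, ∀ t, q (φ t x) = q x
  sep : ∀ x ∈ X, ∀ y ∈ X, q x = q y → ∃ t, y = φ t x
  ker : ∀ x ∈ X, ∀ v ∈ Tan X x, fderiv ℝ q x v = 0 → ∃ c : ℝ, v = c • gen φ x
  sec : ∀ x ∈ X, ∃ (σ : E' → E) (O' : Set E'), IsOpen O' ∧ q x ∈ O' ∧ ContDiffOn ℝ ∞ σ O' ∧
    (∀ y ∈ O', σ y ∈ X) ∧ (∀ y ∈ Y ∩ O', q (σ y) = y) ∧ σ (q x) = x
  surj : ∀ y ∈ Y, ∃ x ∈ X, q x = y
  clos : IsClosed Y

namespace QM

theorem tan (hq : QM X φ Y q) {x : E} (hx : x ∈ X) :
    Tan Y (q x) ≤ (Tan X x).map (fderiv ℝ q x : E →ₗ[ℝ] E') := by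
  obtain ⟨σ, O', a1, a2, a3, a5, a6, a4⟩ := hq.sec x hx
  have hσd : HasFDerivAt σ (fderiv ℝ σ (q x)) (q x) :=
    ((a3.contDiffAt (a1.mem_nhds a2)).differentiableAt (by simp)).hasFDerivAt
  have hqd : HasFDerivAt q (fderiv ℝ q x) (σ (q x)) := by
    rw [a4]; exact (hq.smap.diff hx).hasFDerivAt
  have hcomp : HasFDerivAt (fun z => q (σ z)) ((fderiv ℝ q x).comp (fderiv ℝ σ (q x))) (q x) :=
    HasFDerivAt.comp (g := q) (f := σ) (q x) hqd hσd
  intro w hw
  have e1 := fderiv_eq_of_eqOn (X := Y) (f := fun z => q (σ z)) (g := fun z => z)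
    hcomp.differentiableAt differentiableAt_id (by
      filter_upwards [nhdsWithin_le_nhds (a1.mem_nhds a2), self_mem_nhdsWithin] with z hz hzY
      exact a6 _ ⟨hzY, hz⟩) hw
  rw [hcomp.fderiv] at e1
  have e2 : fderiv ℝ (fun z : E' => z) (q x) w = w := by
    rw [fderiv_fun_id]; rfl
  rw [e2] at e1
  refine ⟨fderiv ℝ σ (q x) w, ?_, e1⟩
  have h3 := fderiv_mem_Tan (X := X) (h := σ) (y := q x) hσd.differentiableAt (by
    filter_upwards [a1.mem_nhds a2] with z hz using a5 _ hz) w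
  rw [a4] at h3
  exact h3

/-- forms on the quotient are determined by their pull-backs, pointwise -/
theorem pt_of_pull (hq : QM X φ Y q) {x : E} (hx : x ∈ X) {c c' : Ext E'}
    (h : pb (Tan X x).subtype (pb (fderiv ℝ q x : E →ₗ[ℝ] E') c) =
      pb (Tan X x).subtype (pb (fderiv ℝ q x : E →ₗ[ℝ] E') c')) :
    pb (Tan Y (q x)).subtype c = pb (Tan Y (q x)).subtype c' := by
  have hmem : ∀ v : Tan X x, fderiv ℝ q x v ∈ Tan Y (q x) := fun v =>
    fderiv_mapsTo_Tan (hq.smap.diff hx) (fun z hz => hq.smap.maps hz) v.2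
  let A : Tan X x →ₗ[ℝ] Tan Y (q x) :=
    (((fderiv ℝ q x : E →L[ℝ] E') : E →ₗ[ℝ] E') ∘ₗ (Tan X x).subtype).codRestrict _ hmem
  have hA : Function.Surjective A := by
    rintro ⟨w, hw⟩
    obtain ⟨v, hv, rfl⟩ := hq.tan hx hw
    exact ⟨⟨v, hv⟩, rfl⟩
  apply pb_injective hA
  rw [pb_comp, pb_comp] at h
  rw [pb_comp, pb_comp]
  exact h

theorem eqv_of_pull (hq : QM X φ Y q) {a b : E' → Ext E'}
    (h : Eqv X (F.pull q a) (F.pull q b)) : Eqv Y a b := by
  refine eqv_iff.2 fun y hy => ?_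
  obtain ⟨x, hx, rfl⟩ := hq.surj y hy
  exact hq.pt_of_pull hx (eqv_iff.1 h x hx)

theorem cl_of_pull (hq : QM X φ Y q) {a : E' → Ext E'} (ha : Sm Y a) (hab : Cl X (F.pull q a)) :
    Cl Y a := by
  rw [Cl, resZero_iff] at hab ⊢
  refine hq.eqv_of_pull ?_
  rw [pull_zero']
  exact (d_pull_eqv hq.smap ha).symm.trans hab

/-- **descent of basic forms** -/
theorem exists_basic (hq : QM X φ Y q) (h : Cir X φ) {om : E → Ext E}
    (hs : Sm X om) (hinv : ∀ t, Eqv X (F.pull (φ t) om) om)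
    (hor : Eqv X (fun x => ii (gen φ x) (om x)) 0) :
    ∃ om' : E' → Ext E', ContDiff ℝ ∞ om' ∧ Eqv X (F.pull q om') om := by
  have hinv' : ∀ x ∈ X, ∀ t, pb (Tan X x).subtype (F.pull (φ t) om x) =
      pb (Tan X x).subtype (om x) := fun x hx t => eqv_iff.1 (hinv t) x hx
  have hor' : ∀ x ∈ X, pb (Tan X x).subtype (ii (gen φ x) (om x)) = 0 := fun x hx => by
    have := eqv_iff.1 hor x hx
    rw [this]; exact map_zero _
  suffices hk : ∃ s : E' → Ext E', ContDiff ℝ ∞ s ∧
      ∀ y ∈ Y, s y ∈ {c : Ext E' | ∀ x ∈ X, q x = y →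
        pb (Tan X x).subtype (pb (fderiv ℝ q x : E →ₗ[ℝ] E') c) =
          pb (Tan X x).subtype (om x)} by
    obtain ⟨s, hs', hsA⟩ := hk
    exact ⟨s, hs', eqv_iff.2 fun x hx => hsA _ (hq.smap.maps hx) x hx rfl⟩
  refine exists_glueC (X := Y) hq.clos
    (fun y => {c : Ext E' | ∀ x ∈ X, q x = y →
      pb (Tan X x).subtype (pb (fderiv ℝ q x : E →ₗ[ℝ] E') c) =
        pb (Tan X x).subtype (om x)}) (fun y hy => ?_) (fun y hy => ?_)
  · have : {c : Ext E' | ∀ x ∈ X, q x = y →
        pb (Tan X x).subtype (pb (fderiv ℝ q x : E →ₗ[ℝ] E') c) =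
          pb (Tan X x).subtype (om x)} = ⋂ x ∈ {x ∈ X | q x = y},
        (((pb (Tan X x).subtype : Ext E →ₐ[ℝ] Ext (Tan X x)).toLinearMap ∘ₗ
          (pb (fderiv ℝ q x : E →ₗ[ℝ] E') : Ext E' →ₐ[ℝ] Ext E).toLinearMap) ⁻¹'
            {pb (Tan X x).subtype (om x)}) := by
      ext w
      simp only [mem_setOf_eq, mem_iInter]
      exact ⟨fun h x hx => h x hx.1 hx.2, fun h x hx hxy => h x ⟨hx, hxy⟩⟩
    rw [this]
    exact convex_iInter₂ fun x hx => (convex_singleton _).linear_preimage _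
  · obtain ⟨x, hx, rfl⟩ := hq.surj y hy
    obtain ⟨σ, O', a1, a2, a3, a5, a6, a4⟩ := hq.sec x hx
    refine ⟨O', F.pull σ om, a1, a2, fun y hy => ContDiffAt.contDiffWithinAt ?_, ?_⟩
    · exact contDiffAt_pull (a3.contDiffAt (a1.mem_nhds hy)) (by simp) (hs _ (a5 y hy))
    · rintro y ⟨hyQ, hyO⟩ x' hx' rfl
      have hσX := a5 _ hyO
      obtain ⟨t, ht⟩ := hq.sep x' hx' _ hσX (by rw [a6 _ ⟨hyQ, hyO⟩])
      -- the two tangent maps
      have hσd : HasFDerivAt σ (fderiv ℝ σ (q x')) (q x') :=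
        ((a3.contDiffAt (a1.mem_nhds hyO)).differentiableAt (by simp)).hasFDerivAt
      have hjd : HasFDerivAt q (fderiv ℝ q x') x' := (hq.smap.diff hx').hasFDerivAt
      have hφd : HasFDerivAt (φ t) (fderiv ℝ (φ t) x') x' :=
        ((h.smooth_right t hx').differentiableAt (by simp)).hasFDerivAt
      have hjd2 : HasFDerivAt q (fderiv ℝ q (φ t x')) (φ t x') :=
        (hq.smap.diff (h.maps t hx')).hasFDerivAt
      have hσj : HasFDerivAt (fun z => σ (q z))
          ((fderiv ℝ σ (q x')).comp (fderiv ℝ q x')) x' :=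
        HasFDerivAt.comp (g := σ) (f := q) x' hσd hjd
      have hjφ : HasFDerivAt (fun z => q (φ t z))
          ((fderiv ℝ q (φ t x')).comp (fderiv ℝ (φ t) x')) x' :=
        HasFDerivAt.comp (g := q) (f := φ t) x' hjd2 hφd
      have hjO : ∀ᶠ z in 𝓝 x', q z ∈ O' :=
        (hq.smap.smooth x' hx').continuousAt.eventually (a1.mem_nhds hyO)
      have hA : ∀ v ∈ Tan X x', fderiv ℝ σ (q x') (fderiv ℝ q x' v) ∈ Tan X (φ t x') := by
        intro v hv
        have e1 : fderiv ℝ (fun z => σ (q z)) x' v = fderiv ℝ σ (q x') (fderiv ℝ q x' v) := by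
          rw [hσj.fderiv]; rfl
        rw [← e1, ← ht]
        refine fderiv_mem_Tan (h := fun z => σ (q z)) hσj.differentiableAt ?_ v
        filter_upwards [hjO] with z hz using a5 _ hz
      have hB : ∀ v ∈ Tan X x', fderiv ℝ (φ t) x' v ∈ Tan X (φ t x') := fun v hv =>
        fderiv_mapsTo_Tan hφd.differentiableAt (fun z hz => h.maps t hz) hv
      set A : Tan X x' →ₗ[ℝ] Tan X (φ t x') :=
        LinearMap.codRestrict _ (((fderiv ℝ σ (q x') : E' →ₗ[ℝ] E) ∘ₗ
          (fderiv ℝ q x' : E →ₗ[ℝ] E')) ∘ₗ (Tan X x').subtype) (fun v => hA v v.2) with hAd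
      set B : Tan X x' →ₗ[ℝ] Tan X (φ t x') :=
        LinearMap.codRestrict _ ((fderiv ℝ (φ t) x' : E →ₗ[ℝ] E) ∘ₗ (Tan X x').subtype)
          (fun v => hB v v.2) with hBd
      have hAs : (Tan X (φ t x')).subtype ∘ₗ A = ((fderiv ℝ σ (q x') : E' →ₗ[ℝ] E) ∘ₗ
          (fderiv ℝ q x' : E →ₗ[ℝ] E')) ∘ₗ (Tan X x').subtype := by
        rw [hAd]; rfl
      have hBs : (Tan X (φ t x')).subtype ∘ₗ B =
          (fderiv ℝ (φ t) x' : E →ₗ[ℝ] E) ∘ₗ (Tan X x').subtype := by
        rw [hBd]; rfl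
      have key : pb A (pb (Tan X (φ t x')).subtype (om (φ t x'))) =
          pb B (pb (Tan X (φ t x')).subtype (om (φ t x'))) := by
        refine pb_eq_of_sub_mem A B ⟨gen φ (φ t x'), h.gen_mem (h.maps t hx')⟩ _ ?_ ?_
        · rw [ii_pb]
          exact hor' _ (h.maps t hx')
        · intro v
          have h1 : ((A v : E) - (B v : E)) ∈ Tan X (φ t x') :=
            (Tan X (φ t x')).sub_mem (A v).2 (B v).2
          have h2 : fderiv ℝ q (φ t x') ((A v : E) - (B v : E)) = 0 := by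
            rw [map_sub]
            have e1 : fderiv ℝ q (φ t x') (B v : E) = fderiv ℝ q x' v := by
              have := fderiv_eq_of_eqOn (X := X) (f := fun z => q (φ t z)) (g := q)
                hjφ.differentiableAt
                hjd.differentiableAt (eventually_nhdsWithin_of_forall fun z hz => hq.act z hz t)
                v.2
              rw [hjφ.fderiv] at this
              exact this
            have e2 : fderiv ℝ q (φ t x') (A v : E) = fderiv ℝ q x' v := by
              have hjd3 : HasFDerivAt q (fderiv ℝ q (φ t x')) (σ (q x')) := by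
                rw [ht]; exact hjd2
              have hcomp : HasFDerivAt (fun z => q (σ (q z)))
                  ((fderiv ℝ q (φ t x')).comp
                    ((fderiv ℝ σ (q x')).comp (fderiv ℝ q x'))) x' :=
                HasFDerivAt.comp (g := q) (f := fun z => σ (q z)) x' hjd3 hσj
              have := fderiv_eq_of_eqOn (X := X) (f := fun z => q (σ (q z))) (g := q)
                hcomp.differentiableAt hjd.differentiableAt (by
                  filter_upwards [nhdsWithin_le_nhds hjO, self_mem_nhdsWithin] with z hz hzX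
                  exact a6 _ ⟨hq.smap.maps hzX, hz⟩) v.2
              rw [hcomp.fderiv] at this
              exact this
            rw [e1, e2, sub_self]
          obtain ⟨c, hc⟩ := hq.ker _ (h.maps t hx') _ h1 h2
          exact ⟨c, Subtype.ext hc⟩
      rw [pb_comp, pb_comp, hAs, hBs] at key
      rw [← hinv' x' hx' t]
      change pb (Tan X x').subtype (pb (fderiv ℝ q x' : E →ₗ[ℝ] E')
        (pb (fderiv ℝ σ (q x') : E' →ₗ[ℝ] E) (om (σ (q x'))))) =
        pb (Tan X x').subtype (pb (fderiv ℝ (φ t) x' : E →ₗ[ℝ] E) (om (φ t x')))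
      rw [pb_comp, pb_comp, pb_comp, ht]
      exact key

end QM

end qm

section emb
variable {E : Type} [NormedAddCommGroup E] [NormedSpace ℝ E] [FiniteDimensional ℝ E]
  {X : Set E} {φ : ℝ → E → E} {m : ℕ} {g : E → Fin m → ℂ} {n : ℕ}

/-- the quotient map of 971 -/
theorem qm_jj (hg : Emb X φ g) (h : Cir X φ) (hX : Clo (n + 1) X) :
    QM X φ (Quo X g) (jj g) where
  smap := hg.smap_jj
  act := fun x hx t => hg.jj_act hx t
  sep := fun x hx y hy hxy => (hg.jj_eq_iff hx hy).1 hxy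
  ker := fun x hx v hv h0 => (hg.ker_jj h hx hv).1 h0
  sec := fun x hx => by
    obtain ⟨σ, O', a1, a2, a3, a4, a5, a6⟩ := hg.exists_sec h hX hx
    exact ⟨σ, O', a1, a2, a3, a5, a6, a4⟩
  surj := fun _ hy => hy
  clos := (hg.isCompact_Quo hX.compact).isClosed

end emb

end Crest.Agent.R208.TP
end
end

-- ▼ part R208/TP4

/-! Row 208, block TP (helper382).  TP4: quotient maps on total spaces; descent of basic forms with
compact vertical support on `P₂ ⊕ P₁`. -/

set_option autoImplicit false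
set_option linter.unusedSectionVars false
set_option linter.unusedVariables false
set_option maxHeartbeats 1000000

open MeasureTheory Set Filter Topology Module
open scoped ContDiff RealInnerProductSpace
open Crest.Agent.R208.F Crest.Agent.R208.FI Crest.Agent.R208.CW Crest.Agent.R208.T
open Crest.Agent.R208.CM

noncomputable section

namespace Crest.Agent.R208.TP

section tot
variable {E E' : Type*} [NormedAddCommGroup E] [NormedSpace ℝ E] [FiniteDimensional ℝ E]
  [NormedAddCommGroup E'] [NormedSpace ℝ E'] [FiniteDimensional ℝ E']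
  {W V : Type*} [NormedAddCommGroup W] [InnerProductSpace ℝ W] [FiniteDimensional ℝ W]
  [NormedAddCommGroup V] [InnerProductSpace ℝ V] [FiniteDimensional ℝ V]
  {X : Set E} {Y : Set E'} {φ : ℝ → E → E} {q : E → E'} {R : ℝ → W →L[ℝ] W}
  {T : E → W →L[ℝ] V} {P : E → W →L[ℝ] W} {P' : E' → V →L[ℝ] V} {r : ℕ}

theorem hasFDerivAt_Th {x : E} {w : W} (hq : DifferentiableAt ℝ q x)
    (hT : DifferentiableAt ℝ T x) :
    HasFDerivAt (Th q T) (((fderiv ℝ q x).comp (ContinuousLinearMap.fst ℝ E W)).prod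
      ((T x).comp (ContinuousLinearMap.snd ℝ E W) +
        ((fderiv ℝ T x).comp (ContinuousLinearMap.fst ℝ E W)).flip w)) (x, w) := by
  have h1 : HasFDerivAt (fun z : E × W => q z.1)
      ((fderiv ℝ q x).comp (ContinuousLinearMap.fst ℝ E W)) (x, w) :=
    HasFDerivAt.comp (g := q) (f := fun z : E × W => z.1) (x, w) hq.hasFDerivAt hasFDerivAt_fst
  have h2 : HasFDerivAt (fun z : E × W => T z.1)
      ((fderiv ℝ T x).comp (ContinuousLinearMap.fst ℝ E W)) (x, w) :=
    HasFDerivAt.comp (g := T) (f := fun z : E × W => z.1) (x, w) hT.hasFDerivAt hasFDerivAt_fst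
  have h3 := h2.clm_apply (hasFDerivAt_snd (𝕜 := ℝ) (E := E) (F := W) (p := (x, w)))
  exact h1.prodMk h3

theorem smap_Th (hq : QM X φ Y q) (hT : Triv X φ R T) (hP' : ∀ x ∈ X, P' (q x) = Qd T P x) :
    SMap (Tot X P) (Tot Y P') (Th q T) := by
  refine ⟨fun z hz => ?_, fun z hz => ⟨hq.smap.maps hz.1, ?_⟩⟩
  · exact ((hq.smap.smooth z.1 hz.1).comp z contDiffAt_fst).prodMk
      (((hT.smooth z.1 hz.1).comp z contDiffAt_fst).clm_apply contDiffAt_snd)
  · change P' (q z.1) (T z.1 z.2) = T z.1 z.2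
    rw [hP' _ hz.1, hT.Qd_T hz.1, hz.2]

/-- **total spaces**: `(x,w) ↦ (q x, T x w)` is the quotient map of `(φ t, R t)` -/
theorem QM.tot (hq : QM X φ Y q) (h : Cir X φ) (hR : Rep R) (hT : Triv X φ R T)
    (hP : PField X r P) (he : ∀ x ∈ X, ∀ t w, P (φ t x) (R t w) = R t (P x w))
    (hsP' : ContinuousOn P' Y) (hP' : ∀ x ∈ X, P' (q x) = Qd T P x) :
    QM (Tot X P) (phR φ R) (Tot Y P') (Th q T) where
  smap := smap_Th hq hT hP'
  act := fun z hz t => Prod.ext (hq.act _ hz.1 t) (hT.equi _ hz.1 t z.2)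
  sep := by
    intro z hz z' hz' hzz
    have h1 : q z.1 = q z'.1 := congrArg Prod.fst hzz
    have h2 : T z.1 z.2 = T z'.1 z'.2 := congrArg Prod.snd hzz
    obtain ⟨t, ht⟩ := hq.sep _ hz.1 _ hz'.1 h1
    refine ⟨t, Prod.ext ht ?_⟩
    rw [ht, hT.equi' hR hz.1] at h2
    have h3 := hT.inj hz.1 h2
    change z'.2 = R t z.2
    rw [h3, hR.add_neg]
  ker := by
    rintro ⟨x, w⟩ ⟨hx, hw⟩ ⟨v1, v2⟩ hv h0
    change x ∈ X at hx
    have hqd := hq.smap.diff hx
    have hTd : DifferentiableAt ℝ T x := (hT.smooth x hx).differentiableAt (by simp)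
    have hTh := hasFDerivAt_Th (w := w) hqd hTd
    have hv1 : v1 ∈ Tan X x := by
      have := fderiv_mapsTo_Tan (X := Tot X P) (Y := X) (h := (Prod.fst : E × W → E))
        (x := (x, w)) differentiableAt_fst (fun z hz => hz.1) hv
      rwa [fderiv_fst] at this
    have e1 : fderiv ℝ q x v1 = 0 := by
      have := congrArg Prod.fst h0
      rw [hTh.fderiv] at this
      exact this
    obtain ⟨c, hc⟩ := hq.ker x hx v1 hv1 e1
    -- the generator
    have htot := Cir.tot h hR he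
    have hd1 : HasDerivAt (fun t => phR φ R t (x, w)) (gen (phR φ R) (x, w)) 0 := by
      have := (htot.smooth_left 0 (x := (x, w)) ⟨hx, hw⟩).differentiableAt (by simp)
      exact this.hasDerivAt
    have hg1 : (gen (phR φ R) (x, w)).1 = gen φ x := by
      have h2 : HasDerivAt (fun t => φ t x) (gen (phR φ R) (x, w)).1 0 :=
        (ContinuousLinearMap.fst ℝ E W).hasFDerivAt.comp_hasDerivAt (0 : ℝ) hd1
      exact h2.deriv.symm
    have hz0 : phR φ R 0 (x, w) = (x, w) := htot.zero (x, w) ⟨hx, hw⟩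
    have hg2 : fderiv ℝ (Th q T) (x, w) (gen (phR φ R) (x, w)) = 0 := by
      have h3 : HasFDerivAt (Th q T) (fderiv ℝ (Th q T) (x, w)) (phR φ R 0 (x, w)) := by
        rw [hz0]; exact hTh.differentiableAt.hasFDerivAt
      have h4 := h3.comp_hasDerivAt (0 : ℝ) hd1
      have h5 : (Th q T) ∘ (fun t => phR φ R t (x, w)) = fun _ => Th q T (x, w) := by
        funext t
        exact Prod.ext (hq.act _ hx t) (hT.equi _ hx t w)
      rw [h5] at h4
      exact h4.unique (hasDerivAt_const (0 : ℝ) (Th q T (x, w)))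
    refine ⟨c, ?_⟩
    have h6 : fderiv ℝ (Th q T) (x, w) ((v1, v2) - c • gen (phR φ R) (x, w)) = 0 := by
      rw [map_sub, map_smul, hg2, h0, smul_zero, sub_zero]
    have h7 : ((v1, v2) - c • gen (phR φ R) (x, w)).1 = 0 := by
      change v1 - c • (gen (phR φ R) (x, w)).1 = 0
      rw [hg1, hc, sub_self]
    set k := ((v1, v2) - c • gen (phR φ R) (x, w)) with hk
    have h8 : T x k.2 = 0 := by
      have := congrArg Prod.snd h6
      rw [hTh.fderiv] at this
      change T x k.2 + (fderiv ℝ T x k.1) w = 0 at this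
      rwa [h7, map_zero, _root_.zero_apply, add_zero] at this
    have h9 : k.2 = 0 := hT.inj hx (by rw [h8, map_zero])
    have h10 : k = 0 := Prod.ext h7 h9
    exact sub_eq_zero.1 h10
  sec := by
    rintro ⟨x, w⟩ ⟨hx, hw⟩
    change x ∈ X at hx
    change P x w = w at hw
    obtain ⟨σ, O', a1, a2, a3, a5, a6, a4⟩ := hq.sec x hx
    have hadj : ContDiff ℝ ∞ (fun A : W →L[ℝ] V => ContinuousLinearMap.adjoint A) :=
      (ContinuousLinearMap.adjoint (𝕜 := ℝ) (E := W) (F := V)).toLinearIsometry.contDiff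
    refine ⟨fun z => (σ z.1, P (σ z.1) (ContinuousLinearMap.adjoint (T (σ z.1)) z.2)),
      O' ×ˢ univ, a1.prod isOpen_univ, ⟨a2, mem_univ _⟩, ?_, ?_, ?_, ?_⟩
    · rintro ⟨b, v⟩ ⟨hb, -⟩
      have hσ : ContDiffAt ℝ ∞ (fun z : E' × V => σ z.1) (b, v) :=
        (a3.contDiffAt (a1.mem_nhds hb)).comp (b, v) contDiffAt_fst
      have hPσ : ContDiffAt ℝ ∞ (fun z : E' × V => P (σ z.1)) (b, v) :=
        (hP.smooth _ (a5 b hb)).comp (b, v) hσ
      have hTσ : ContDiffAt ℝ ∞ (fun z : E' × V => ContinuousLinearMap.adjoint (T (σ z.1)))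
          (b, v) :=
        hadj.contDiffAt.comp (b, v) ((hT.smooth _ (a5 b hb)).comp (b, v) hσ)
      exact (hσ.prodMk (hPσ.clm_apply (hTσ.clm_apply contDiffAt_snd))).contDiffWithinAt
    · rintro ⟨b, v⟩ ⟨hb, -⟩
      exact ⟨a5 b hb, hP.idem _ (a5 b hb) _⟩
    · rintro ⟨b, v⟩ ⟨⟨hbY, hv⟩, hb, -⟩
      change b ∈ Y at hbY
      change P' b v = v at hv
      have hq1 : q (σ b) = b := a6 b ⟨hbY, hb⟩
      refine Prod.ext hq1 ?_
      change T (σ b) (P (σ b) (ContinuousLinearMap.adjoint (T (σ b)) v)) = v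
      rw [← Qd_apply, ← hP' _ (a5 b hb), hq1, hv]
    · refine Prod.ext a4 ?_
      change P (σ (q x)) (ContinuousLinearMap.adjoint (T (σ (q x))) (T x w)) = w
      rw [a4, hT.adj hx, hw]
  surj := by
    rintro ⟨b, v⟩ ⟨hb, hv⟩
    obtain ⟨x, hx, rfl⟩ := hq.surj b hb
    change P' (q x) v = v at hv
    rw [hP' x hx] at hv
    obtain ⟨h3, h4⟩ := hT.mem_range hx hv
    exact ⟨(x, ContinuousLinearMap.adjoint (T x) v), ⟨hx, h4⟩, Prod.ext rfl h3⟩
  clos := by
    have h1 : Tot Y P' = (Y ×ˢ (univ : Set V)) ∩ (fun z : E' × V => P' z.1 z.2 - z.2) ⁻¹' {0} := by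
      ext z
      simp only [Tot, mem_inter_iff, mem_prod, mem_univ, and_true, mem_preimage,
        mem_singleton_iff, sub_eq_zero]
      rfl
    rw [h1]
    refine ContinuousOn.preimage_isClosed_of_isClosed ?_ (hq.clos.prod isClosed_univ)
      isClosed_singleton
    exact ((hsP'.comp continuousOn_fst fun z hz => hz.1).clm_apply continuousOn_snd).sub
      continuousOn_snd

end tot

end Crest.Agent.R208.TP
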