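import Crest.Agent.R208.EX5
import Crest.Agent.R208.TP4
import Crest.Agent.R208.VE1

-- ▼ part R208/EX6
section

/-!
R208, block EX (helper530), part EX6: **the natural primitive as an interface**: the predicate
`IsEta M φ θ f η X`, existence for families of energy `≤ B`, its properties and naturality; the
relative form `vv - d (cut • η)`.
-/

set_option autoImplicit false
set_option linter.unusedSectionVars false
set_option linter.unusedVariables false

open MeasureTheory Set Filter Topology Module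
open scoped ContDiff RealInnerProductSpace Real
open Crest.GeometryTopology.Submanifold
open Crest.Agent.R241.DDefs Crest.Agent.R241.D Crest.Agent.R241.D2
open Crest.Agent.R208.F Crest.Agent.R208.FI Crest.Agent.R208.CW Crest.Agent.R208.T
open Crest.Agent.R208.CM (Cir gen)
open Crest.Agent.R208.VC
open Crest.Agent.R208.MS (Fam oc En)

noncomputable section

namespace Crest.Agent.R208.EX

variable {n N : ℕ} {κ : ℝ} {S : Set (Euc N)}

/-- the data of the natural primitive -/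
structure ED (N : ℕ) where
  P : Type
  [i1 : NormedAddCommGroup P]
  [i2 : NormedSpace ℝ P]
  [i3 : FiniteDimensional ℝ P]
  S : Set (Euc N)
  om : Euc N → Ext (Euc N)
  Y : Set P
  φY : ℝ → P → P
  θ1 : P → Ext P
  f1 : P → Euc N
  lam : P → Ext P
  far : P → Prop
  p : ℕ
  q : ℕ
  r : ℝ
  s : ℝ
  B : ℝ
  HL : ℝ → (ℝ → Euc N) → Euc N
  mu : (ℝ → Euc N) → ℝ
  Gm : (ℝ → Euc N) → P

attribute [instance] ED.i1 ED.i2 ED.i3

/-- the data are good -/
structure ED.OK (D : ED N) : Prop where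
  mod : Mod D.S D.om D.Y D.φY D.θ1 D.f1 D.lam D.p D.q D.r D.s
  far : ∀ y ∈ D.Y, D.far y → D.lam y = 0
  nat : NatOp D.S D.Y D.φY D.f1 D.far D.B D.HL D.mu D.Gm

section def_
variable {E : Type} [NormedAddCommGroup E] [NormedSpace ℝ E] [FiniteDimensional ℝ E]

/-- the closed basic form of a family -/
def ED.vf (D : ED N) (φ : ℝ → E → E) (θ : E → Ext E) (f : E → Euc N) : E → Ext E :=
  vv φ (F.d θ) D.p D.q D.r D.s (F.pull f D.om)

/-- `η` is the natural primitive of `vf` of the family `f` over `X` -/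
def ED.IsEta (D : ED N) (X : Set E) (φ : ℝ → E → E) (θ : E → Ext E) (f : E → Euc N)
    (η : E → Ext E) : Prop :=
  ∃ (H : E × ℝ → Euc N) (μ : E → ℝ) (Γ : E → D.P),
    NDf X φ D.S D.Y D.φY D.f1 D.far f H μ Γ ∧
    (∀ z ∈ X, ∀ s, H (z, s) = D.HL s (oc φ f z)) ∧
    (∀ z ∈ X, μ z = D.mu (oc φ f z)) ∧ (∀ z ∈ Up X μ, Γ z = D.Gm (oc φ f z)) ∧
    Sm X η ∧ Eqv X η (Eta φ θ D.om D.θ1 D.lam D.p D.q D.r D.s H μ Γ)

end def_

section main
variable {E : Type} [NormedAddCommGroup E] [NormedSpace ℝ E] [FiniteDimensional ℝ E]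
  {E' : Type} [NormedAddCommGroup E'] [NormedSpace ℝ E'] [FiniteDimensional ℝ E']
  {D : ED N} {m : ℕ} {X : Set E} {φ : ℝ → E → E} {θ η η' : E → Ext E} {f : E → Euc N} {x : E}

/-- **existence** -/
theorem ED.exists_eta (hD : D.OK) (h : Cir X φ) (hX : Sub m X) (hθ : Cn X φ θ)
    (hf : Fam D.S X f) (hE : ∀ z ∈ X, En (oc φ f z) ≤ D.B) : ∃ η, D.IsEta X φ θ f η := by
  obtain ⟨H, μ, Γ, h1, h2, h3, h4⟩ := hD.nat E X φ f h hf hE
  exact ⟨_, H, μ, Γ, h1, h2, h3, h4, sm_Eta (Act.of_cir h) hX hD.mod hθ (h1.nd hD.far),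
    Eqv.refl _⟩

theorem ED.IsEta.sm (hη : D.IsEta X φ θ f η) : Sm X η := by
  obtain ⟨H, μ, Γ, -, -, -, -, h5, -⟩ := hη
  exact h5

theorem Inv.of_eqv {a b : E → Ext E} (h : Act X φ) (hab : Eqv X a b) (hb : Inv X φ b) :
    Inv X φ a := fun t => (hab.pull (smap h t)).trans ((hb t).trans hab.symm)

theorem ED.IsEta.inv (hη : D.IsEta X φ θ f η) (hD : D.OK) (h : Act X φ) (hX : Sub m X)
    (hθ : Cn X φ θ) : Inv X φ η := by
  obtain ⟨H, μ, Γ, h1, -, -, -, h5, h6⟩ := hη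
  exact Inv.of_eqv h h6 (inv_Eta h hX hD.mod hθ (h1.nd hD.far))

theorem ED.IsEta.hz (hη : D.IsEta X φ θ f η) (hD : D.OK) (h : Act X φ) (hX : Sub m X)
    (hθ : Cn X φ θ) : Hz X φ η := by
  obtain ⟨H, μ, Γ, h1, -, -, -, h5, h6⟩ := hη
  exact Hz.of_eqv h h6 (hz_Eta h hX hD.mod hθ (h1.nd hD.far))

/-- the differential of the natural primitive is the form of the family -/
theorem ED.IsEta.d (hη : D.IsEta X φ θ f η) (hD : D.OK) (h : Act X φ) (hX : Sub m X)
    (hθ : Cn X φ θ) : Eqv X (D.vf φ θ f) (F.d η) := by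
  obtain ⟨H, μ, Γ, h1, -, -, -, h5, h6⟩ := hη
  have hN := h1.nd hD.far
  exact (d_Eta h hX hD.mod hθ hN).trans (h6.d hX h5 (sm_Eta h hX hD.mod hθ hN)).symm

/-- it vanishes where the loops are constant -/
theorem ED.IsEta.zero (hη : D.IsEta X φ θ f η) (hD : D.OK) (h : Act X φ) (hX : Sub m X)
    (hθ : Cn X φ θ) (hx : x ∈ X) (hc : ∀ t, f (φ t x) = f x) : rsL X x (η x) = 0 := by
  obtain ⟨H, μ, Γ, h1, -, -, -, h5, h6⟩ := hη
  have e1 := Eta_zero h hX hD.mod hθ (h1.nd hD.far) hx hc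
  have e2 := eqv_iff.1 h6 x hx
  rw [rsL_apply] at e1 ⊢
  rw [e2, e1]

/-- **naturality** -/
theorem ED.IsEta.nat {m' : ℕ} {X' : Set E'} {φ' : ℝ → E' → E'} {θ' ζ : E' → Ext E'}
    {f' : E' → Euc N} {g : E' → E} (hη : D.IsEta X φ θ f η) (hζ : D.IsEta X' φ' θ' f' ζ)
    (hD : D.OK) (h : Act X φ) (hX : Sub m X) (hθ : Cn X φ θ)
    (h' : Act X' φ') (hX' : Sub m' X') (hθ' : Cn X' φ' θ')
    (hg : SMap X' X g) (heq : ∀ t, ∀ y ∈ X', g (φ' t y) = φ t (g y))
    (hff : ∀ y ∈ X', f' y = f (g y)) (hθθ : Eqv X' (F.pull g θ) θ') :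
    Eqv X' (F.pull g η) ζ := by
  obtain ⟨H, μ, Γ, h1, h2, h3, h4, h5, h6⟩ := hη
  obtain ⟨H', μ', Γ', h1', h2', h3', h4', h5', h6'⟩ := hζ
  have hoc : ∀ y ∈ X', oc φ' f' y = oc φ f (g y) := by
    intro y hy
    funext t
    change f' (φ' t y) = f (φ t (g y))
    rw [hff _ (h'.maps t hy), heq t y hy]
  have hμμ : ∀ y ∈ X', μ' y = μ (g y) := fun y hy => by
    rw [h3' y hy, hoc y hy, ← h3 _ (hg.maps hy)]
  have hup := smap_up hg hμμ
  refine (h6.pull hg).trans ((nat_Eta h hX hD.mod hθ (h1.nd hD.far) h' hX' hθ'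
    (h1'.nd hD.far) hg heq (fun y hy s => ?_) hμμ (fun y hy => ?_) hθθ).trans h6'.symm)
  · rw [h2' y hy, hoc y hy, ← h2 _ (hg.maps hy)]
  · rw [h4' y hy, hoc y hy.1, ← h4 _ (hup.maps hy)]

/-- uniqueness up to restriction -/
theorem ED.IsEta.unique (hη : D.IsEta X φ θ f η) (hη' : D.IsEta X φ θ f η')
    (hD : D.OK) (h : Act X φ) (hX : Sub m X) (hθ : Cn X φ θ) : Eqv X η η' := by
  have h1 := hη.nat hη' hD h hX hθ h hX hθ (SMap.id X) (fun t y _ => rfl) (fun y _ => rfl)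
    (Eqv.of_eq fun y _ => F.pull_id θ y)
  exact (Eqv.of_eq fun y _ => (F.pull_id η y).symm).trans h1

/-! ### the relative form -/

/-- the relative form: `vf` minus the differential of the cut off primitive -/
def ED.rel (D : ED N) (φ : ℝ → E → E) (θ : E → Ext E) (f : E → Euc N) (c : E → ℝ)
    (η : E → Ext E) : E → Ext E := D.vf φ θ f - F.d (fun x => kx (c x) • η x)

variable {c : E → ℝ}

/-- the cut off primitive is smooth on all of `X` -/
theorem sm_cut (hc : ∀ x ∈ X, ContDiffAt ℝ ∞ c x) (hη : Sm (Up X c) η) :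
    Sm X (fun x => kx (c x) • η x) := by
  intro x hx
  rcases le_or_gt (c x) 0 with h0 | h0
  · have h1 : ∀ᶠ y in 𝓝 x, c y < 1 / 4 :=
      (hc x hx).continuousAt.eventually (gt_mem_nhds (by linarith))
    refine (contDiffAt_const (c := (0 : Ext E))).congr_of_eventuallyEq (h1.mono fun y hy => ?_)
    change kx (c y) • η y = 0
    rw [kx_zero hy.le, zero_smul]
  · exact (contDiff_kx.contDiffAt.comp x (hc x hx)).smul (hη x ⟨hx, h0⟩)

theorem inv_cut (h : Act X φ) (hc : ∀ x ∈ X, ContDiffAt ℝ ∞ c x)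
    (hci : ∀ x ∈ X, ∀ t, c (φ t x) = c x) (hη : Inv (Up X c) φ η) :
    Inv X φ (fun x => kx (c x) • η x) := by
  intro t
  refine eqv_iff.2 fun x hx => ?_
  have h1 : F.pull (φ t) (fun x => kx (c x) • η x) x = kx (c (φ t x)) • F.pull (φ t) η x :=
    F.pull_smul _ _ _ _
  rw [h1, hci x hx, map_smul, map_smul]
  rcases le_or_gt (c x) 0 with h0 | h0
  · rw [kx_zero (by linarith), zero_smul, zero_smul]
  · congr 1
    exact rs_up hc (hη t) ⟨hx, h0⟩

theorem hz_cut (hc : ∀ x ∈ X, ContDiffAt ℝ ∞ c x) (hη : Hz (Up X c) φ η) :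
    Hz X φ (fun x => kx (c x) • η x) := by
  refine eqv_iff.2 fun x hx => ?_
  have h1 : iV φ (fun x => kx (c x) • η x) x = kx (c x) • iV φ η x :=
    map_smul (ii (gen φ x)) _ _
  rw [h1, map_smul]
  rcases le_or_gt (c x) 0 with h0 | h0
  · rw [kx_zero (by linarith), zero_smul, Pi.zero_apply, map_zero]
  · have h2 := rs_up hc hη ⟨hx, h0⟩
    rw [rsL_apply, rsL_apply] at h2
    rw [h2, Pi.zero_apply, map_zero, smul_zero]

theorem act_up (h : Act X φ) (hci : ∀ x ∈ X, ∀ t, c (φ t x) = c x) : Act (Up X c) φ :=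
  h.mono inter_subset_left fun t x hx => ⟨h.maps t hx.1, by
    change 0 < c (φ t x)
    rw [hci x hx.1]; exact hx.2⟩

theorem cir_up (h : Cir X φ) (hci : ∀ x ∈ X, ∀ t, c (φ t x) = c x) : Cir (Up X c) φ :=
  h.mono inter_subset_left fun t x hx => ⟨h.maps t hx.1, by
    change 0 < c (φ t x)
    rw [hci x hx.1]; exact hx.2⟩

theorem fam_up (hf : Fam S X f) : Fam S (Up X c) f :=
  ⟨fun z hz => hf.smooth z hz.1, fun z hz => hf.maps z hz.1⟩

theorem ED.OK.dat (hD : D.OK) (hf : Fam D.S X f) : Dat X (F.pull f D.om) :=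
  hD.mod.dat.pull ⟨hf.smooth, hf.maps⟩

section rel
variable (hD : D.OK) (h : Act X φ) (hX : Sub m X) (hθ : Cn X φ θ) (hf : Fam D.S X f)
  (hc : ∀ x ∈ X, ContDiffAt ℝ ∞ c x) (hci : ∀ x ∈ X, ∀ t, c (φ t x) = c x)
  (hη : D.IsEta (Up X c) φ θ f η)

include hD h hX hθ hf

theorem ED.sm_vf : Sm X (D.vf φ θ f) := sm_vv h (hθ.bas h hX) (hD.dat hf)
theorem ED.cl_vf : Cl X (D.vf φ θ f) := cl_vv h hX (hθ.bas h hX) (hD.dat hf)
theorem ED.inv_vf : Inv X φ (D.vf φ θ f) := inv_vv h (hθ.bas h hX) (hD.dat hf)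
theorem ED.hz_vf : Hz X φ (D.vf φ θ f) := hz_vv h (hθ.bas h hX) (hD.dat hf)

include hc hη

theorem ED.sm_rel : Sm X (D.rel φ θ f c η) :=
  (ED.sm_vf hD h hX hθ hf).sub (sm_cut hc hη.sm).d

theorem ED.cl_rel : Cl X (D.rel φ θ f c η) :=
  Cl.sub (ED.sm_vf hD h hX hθ hf) (sm_cut hc hη.sm).d (ED.cl_vf hD h hX hθ hf)
    (d_d' (sm_cut hc hη.sm))

include hci

theorem ED.inv_rel : Inv X φ (D.rel φ θ f c η) :=
  (ED.inv_vf hD h hX hθ hf).sub (Inv.d' h hX (sm_cut hc hη.sm)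
    (inv_cut h hc hci (hη.inv hD (act_up h hci) (sub_up hc hX) (hθ.mono inter_subset_left))))

theorem ED.hz_rel : Hz X φ (D.rel φ θ f c η) := by
  have hs := sm_cut hc hη.sm
  have hau := act_up h hci
  have hXu := sub_up hc hX
  have hθu := hθ.mono (X' := Up X c) inter_subset_left
  have hi := inv_cut h hc hci (hη.inv hD hau hXu hθu)
  have hz := hz_cut hc (hη.hz hD hau hXu hθu)
  refine (ED.hz_vf hD h hX hθ hf).sub ?_
  have h1 := Inv.d_iV h hX hs hi
  have h2 : Eqv X (F.d (iV φ fun x => kx (c x) • η x)) (F.d (0 : E → Ext E)) :=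
    Eqv.d hX (Sm.iV h hs) Sm.zero hz
  rw [d_zero'] at h2
  have h3 := h1.symm.trans h2
  have h4 := h3.neg
  rw [neg_neg, neg_zero] at h4
  exact h4

/-- the relative form vanishes where `c > 3/4` -/
theorem ED.rel_zero (hx : x ∈ X) (hcx : 3 / 4 < c x) : rsL X x (D.rel φ θ f c η x) = 0 := by
  have hxu : x ∈ Up X c := ⟨hx, by change 0 < c x; linarith⟩
  have hXu := sub_up hc hX
  have h1 : (fun x => kx (c x) • η x) =ᶠ[𝓝 x] η := by
    have h2 : ∀ᶠ y in 𝓝 x, 3 / 4 < c y :=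
      (hc x hx).continuousAt.eventually (lt_mem_nhds hcx)
    filter_upwards [h2] with y hy
    rw [kx_one hy.le, one_smul]
  have h2 : F.d (fun x => kx (c x) • η x) x = F.d η x := F.d_congr h1
  have h3 := rs_up hc (hη.d hD (act_up h hci) hXu (hθ.mono inter_subset_left)) hxu
  have h4 : D.rel φ θ f c η x = D.vf φ θ f x - F.d η x := by
    rw [← h2]; rfl
  rw [h4, map_sub, h3, sub_self]

end rel

/-- the relative form is `vf` where `c < 1/4` -/
theorem ED.rel_eq (hc : ∀ x ∈ X, ContDiffAt ℝ ∞ c x) (hx : x ∈ X) (hcx : c x < 1 / 4) :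
    D.rel φ θ f c η x = D.vf φ θ f x := by
  have h1 : (fun x => kx (c x) • η x) =ᶠ[𝓝 x] fun _ => 0 := by
    have h2 : ∀ᶠ y in 𝓝 x, c y < 1 / 4 :=
      (hc x hx).continuousAt.eventually (gt_mem_nhds hcx)
    filter_upwards [h2] with y hy
    rw [kx_zero hy.le, zero_smul]
  have h2 : F.d (fun x => kx (c x) • η x) x = 0 := by rw [F.d_congr h1, F.d_const]
  change D.vf φ θ f x - F.d (fun x => kx (c x) • η x) x = _
  rw [h2, sub_zero]

/-- **naturality of the relative form** -/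
theorem ED.rel_nat {m' : ℕ} {X' : Set E'} {φ' : ℝ → E' → E'} {θ' ζ : E' → Ext E'}
    {f' : E' → Euc N} {g : E' → E} {c' : E' → ℝ} (hD : D.OK) (h : Act X φ) (hX : Sub m X)
    (hθ : Cn X φ θ) (hf : Fam D.S X f) (hc : ∀ x ∈ X, ContDiffAt ℝ ∞ c x)
    (hci : ∀ x ∈ X, ∀ t, c (φ t x) = c x) (hη : D.IsEta (Up X c) φ θ f η)
    (h' : Act X' φ') (hX' : Sub m' X') (hθ' : Cn X' φ' θ') (hf' : Fam D.S X' f')
    (hc' : ∀ x ∈ X', ContDiffAt ℝ ∞ c' x)
    (hci' : ∀ x ∈ X', ∀ t, c' (φ' t x) = c' x) (hζ : D.IsEta (Up X' c') φ' θ' f' ζ)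
    (hg : SMap X' X g) (heq : ∀ t, ∀ y ∈ X', g (φ' t y) = φ t (g y))
    (hff : ∀ y ∈ X', f' y = f (g y)) (hθθ : Eqv X' (F.pull g θ) θ')
    (hcc : ∀ y ∈ X', c' y = c (g y)) :
    Eqv X' (F.pull g (D.rel φ θ f c η)) (D.rel φ' θ' f' c' ζ) := by
  have hup := smap_up hg hcc
  have e1 := hη.nat hζ hD (act_up h hci) (sub_up hc hX) (hθ.mono inter_subset_left)
    (act_up h' hci') (sub_up hc' hX') (hθ'.mono inter_subset_left) hup
    (fun t y hy => heq t y hy.1) (fun y hy => hff y hy.1) (hθθ.mono_tan inter_subset_left)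
  have hs := sm_cut hc hη.sm
  have hs' := sm_cut hc' hζ.sm
  have e2 : Eqv X' (F.pull g (fun x => kx (c x) • η x)) (fun x => kx (c' x) • ζ x) := by
    refine eqv_iff.2 fun y hy => ?_
    have h1 : F.pull g (fun x => kx (c x) • η x) y = kx (c (g y)) • F.pull g η y :=
      F.pull_smul _ _ _ _
    rw [h1, ← hcc y hy, map_smul, map_smul]
    rcases le_or_gt (c' y) 0 with h0 | h0
    · rw [kx_zero (by linarith), zero_smul, zero_smul]
    · congr 1
      exact rs_up hc' e1 ⟨hy, h0⟩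
  have e3 : Eqv X' (F.pull g (D.vf φ θ f)) (D.vf φ' θ' f') := by
    refine (nat_vv h h' hg heq (hD.dat hf).sm).trans (eqv_vv h' ((hD.dat hf).sm.pull hg)
      (hD.dat hf').sm ?_ ?_)
    · have d1 : Eqv X' (F.pull g (F.pull f D.om)) (F.pull (fun y => f (g y)) D.om) :=
        Eqv.of_eq fun y hy => F.pull_comp (hg.diff hy)
          ((hf.smooth _ (hg.maps hy)).differentiableAt (by simp))
      refine d1.trans (eqv_pull_of_eq D.om (fun y hy => ?_) (fun y hy =>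
        (hf'.smooth y hy).differentiableAt (by simp)) fun y hy => (hff y hy).symm)
      exact (((hf.smooth _ (hg.maps hy)).comp y (hg.smooth y hy))).differentiableAt (by simp)
    · exact (d_pull_eqv hg hθ.sm).symm.trans (hθθ.d hX' (hθ.sm.pull hg) hθ'.sm)
  rw [ED.rel, pull_sub']
  exact e3.sub ((d_pull_eqv hg hs).symm.trans (e2.d hX' (hs.pull hg) hs'))

end main

end Crest.Agent.R208.EX
end
end

-- ▼ part R208/EX7

/-!
R208, block EX (helper530), part EX7: **(LAM)**: basic forms on a total space come from the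
quotient; a primitive on the quotient gives a basic primitive; the model `Mod`.
-/

set_option autoImplicit false
set_option linter.unusedSectionVars false
set_option linter.unusedVariables false

open MeasureTheory Set Filter Topology Module
open scoped ContDiff
open Crest.Agent.R208.F Crest.Agent.R208.FI Crest.Agent.R208.CW Crest.Agent.R208.T
open Crest.Agent.R208.CM
open Crest.Agent.R208.TP (QM)
open Crest.Agent.R208.VC

noncomputable section

namespace Crest.Agent.R208.EX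

section qm
variable {E E' : Type*} [NormedAddCommGroup E] [NormedSpace ℝ E] [FiniteDimensional ℝ E]
  [NormedAddCommGroup E'] [NormedSpace ℝ E'] [FiniteDimensional ℝ E']
  {X : Set E} {Y : Set E'} {φ : ℝ → E → E} {q : E → E'} {a : E' → Ext E'} {b : E → Ext E} {m : ℕ}

/-- a form pulled back from the quotient is invariant -/
theorem QM.inv_pull (hq : QM X φ Y q) (h : Act X φ) (ha : Sm Y a) : Inv X φ (F.pull q a) := by
  intro t
  refine Eqv.trans (b := F.pull (fun x => q (φ t x)) a) (Eqv.of_eq fun x hx =>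
    F.pull_comp ((smap h t).diff hx) (hq.smap.diff (h.maps t hx))) ?_
  refine eqv_pull_of_eq a (fun x hx => ?_) (fun x hx => hq.smap.diff hx)
    fun x hx => hq.act x hx t
  exact (hq.smap.comp (smap h t)).diff hx

/-- a form pulled back from the quotient is horizontal -/
theorem QM.hz_pull (hq : QM X φ Y q) (h : Act X φ) : Hz X φ (F.pull q a) := by
  refine Eqv.of_eq fun x hx => ?_
  have h1 : fderiv ℝ q x (gen φ x) = 0 := by
    have h2 : HasDerivAt (fun t => φ t x) (gen φ x) 0 := by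
      have := (h.smooth 0 x hx).comp (0 : ℝ) (contDiffAt_id.prodMk contDiffAt_const)
      exact (this.differentiableAt (by simp)).hasDerivAt
    have h3 : HasFDerivAt q (fderiv ℝ q x) (φ 0 x) := by
      rw [h.zero x hx]; exact (hq.smap.diff hx).hasFDerivAt
    have h4 := h3.comp_hasDerivAt (0 : ℝ) h2
    have h5 : q ∘ (fun t => φ t x) = fun _ => q x := funext fun t => hq.act x hx t
    rw [h5] at h4
    exact h4.unique (hasDerivAt_const (0 : ℝ) (q x))
  change ii (gen φ x) (pb (fderiv ℝ q x : E →ₗ[ℝ] E') (a (q x))) = 0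
  rw [ii_pb]
  change pb _ (ii (fderiv ℝ q x (gen φ x)) (a (q x))) = 0
  rw [h1, map_zero, LinearMap.zero_apply, map_zero]

/-- a primitive on the quotient gives a basic primitive -/
theorem QM.prim (hq : QM X φ Y q) (h : Act X φ) (ha : Sm Y a) {v : E' → Ext E'}
    (hv : Eqv Y v (F.d a)) (hb : Eqv X (F.pull q v) b) :
    Sm X (F.pull q a) ∧ Inv X φ (F.pull q a) ∧ Hz X φ (F.pull q a) ∧
      Eqv X b (F.d (F.pull q a)) :=
  ⟨ha.pull hq.smap, QM.inv_pull hq h ha, QM.hz_pull hq h,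
    hb.symm.trans ((hv.pull hq.smap).trans (d_pull_eqv hq.smap ha).symm)⟩

end qm

section tot
variable {E E' : Type*} [NormedAddCommGroup E] [NormedSpace ℝ E] [FiniteDimensional ℝ E]
  [NormedAddCommGroup E'] [NormedSpace ℝ E'] [FiniteDimensional ℝ E']
  {W V : Type*} [NormedAddCommGroup W] [InnerProductSpace ℝ W] [FiniteDimensional ℝ W]
  [NormedAddCommGroup V] [InnerProductSpace ℝ V] [FiniteDimensional ℝ V]
  {X : Set E} {Y : Set E'} {φ : ℝ → E → E} {q : E → E'} {R : ℝ → W →L[ℝ] W}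
  {T : E → W →L[ℝ] V} {P : E → W →L[ℝ] W} {P' : E' → V →L[ℝ] V} {r d : ℕ} {ρ : ℝ}
  {V₀ : E × W → Ext (E × W)}

/-- **descent** of a closed basic form with bounded vertical support -/
theorem exists_desc (hQ : QM (Tot X P) (phR φ R) (Tot Y P') (Th q T))
    (hC : Cir (Tot X P) (phR φ R)) (hX : Sub d (Tot X P)) (hT : Triv X φ R T) (hρ : 0 ≤ ρ)
    (sV : Sm (Tot X P) V₀) (cV : Cl (Tot X P) V₀) (iV : Inv (Tot X P) (phR φ R) V₀)
    (bV : Hz (Tot X P) (phR φ R) V₀)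
    (zV : ∀ z ∈ Tot X P, ρ < ‖z.2‖ → rsL (Tot X P) z (V₀ z) = 0) :
    ∃ V' : E' × V → Ext (E' × V), ContDiff ℝ ∞ V' ∧ Cl (Tot Y P') V' ∧
      (∀ y, ρ + 1 < ‖y.2‖ → V' y = 0) ∧ VE.Cs Y P' ρ V' ∧
      Eqv (Tot X P) (F.pull (Th q T) V') V₀ := by
  obtain ⟨V₁, s₁, e₁⟩ := hQ.exists_basic hC sV iV bV
  set Q := Th q T with hQd
  have hn : ∀ z ∈ Tot X P, ‖(Q z).2‖ = ‖z.2‖ := fun z hz => hT.iso _ hz.1 _
  have z₁ : ∀ y ∈ Tot Y P', ρ < ‖y.2‖ → pb (Tan (Tot Y P') y).subtype (V₁ y) = 0 := by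
    intro y hy hy2
    obtain ⟨z, hz, rfl⟩ := hQ.surj y hy
    rw [hn z hz] at hy2
    have h1 := hQ.pt_of_pull hz (c := V₁ (Q z)) (c' := 0) (by
      have := eqv_iff.1 e₁ z hz
      have h0 := zV z hz hy2
      rw [rsL_apply] at h0
      rw [h0] at this
      rw [map_zero, map_zero]
      exact this)
    rwa [map_zero] at h1
  have e2 : Eqv (Tot Y P') (cutH ρ V₁) V₁ := by
    refine eqv_iff.2 fun z hz => ?_
    by_cases h1 : ρ < ‖z.2‖
    · rw [cutH, map_smul, z₁ z hz h1, smul_zero]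
    · rw [cutH, chi_one hρ (not_lt.1 h1), one_smul]
  have s2 : ContDiff ℝ ∞ (cutH ρ V₁) := ((contDiff_chi ρ).comp contDiff_snd).smul s₁
  have s2' : ∀ Z : Set (E' × V), Sm Z (cutH ρ V₁) := fun Z y _ => s2.contDiffAt
  have e3 : Eqv (Tot X P) (F.pull Q (cutH ρ V₁)) V₀ := (e2.pull hQ.smap).trans e₁
  refine ⟨cutH ρ V₁, s2, ?_, fun y hy => ?_, ?_, e3⟩
  · exact hQ.cl_of_pull (s2' _) (Cl.of_eqv hX ((s2' _).pull hQ.smap) sV e3 cV)
  · rw [cutH, chi_zero hρ hy.le, zero_smul]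
  · refine eqv_iff.2 fun z hz => ?_
    have h3 : rsL (Tot Y P') z (cutH ρ V₁ z) = rsL (Tot Y P') z 0 := by
      rw [map_zero, rsL_apply, eqv_iff.1 e2 z hz.1]
      exact z₁ z hz.1 hz.2
    exact rs_sub (X' := Tot Y P' ∩ {z | ρ < ‖z.2‖}) inter_subset_left h3

variable {S' : Type*} [NormedAddCommGroup S'] [NormedSpace ℝ S'] [FiniteDimensional ℝ S']
  {S : Set S'} {om : S' → Ext S'} {θ0 : E → Ext E} {f1 : E × W → S'} {p p' : ℕ} {s t : ℝ}

/-- the form of a family with constant loops far out has bounded vertical support -/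
theorem zero_vv (hA : Act (Tot X P) (phR φ R)) (hf : SMap (Tot X P) S f1) (hdat : Dat S om)
    {e : E × W → Ext (E × W)}
    (hconst : ∀ y ∈ Tot X P, 9 / 4 ≤ ‖y.2‖ ^ 2 → ∀ t, f1 (phR φ R t y) = f1 y)
    {z : E × W} (hz : z ∈ Tot X P) (h : 3 / 2 < ‖z.2‖) :
    rsL (Tot X P) z (vv (phR φ R) e p p' s t (F.pull f1 om) z) = 0 := by
  refine rs_vv_eq_zero hA (hdat.pull hf).sm hz (ii_cv_pull hA hz
    (fun t => hf.diff (hA.maps t hz)) (hconst z hz ?_))
  nlinarith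

/-- **(LAM)**: from a primitive with bounded vertical support on the quotient -/
theorem exists_mod_of_prim (hQ : QM (Tot X P) (phR φ R) (Tot Y P') (Th q T))
    (hC : Cir (Tot X P) (phR φ R)) (hX : Sub d (Tot X P)) (hT : Triv X φ R T)
    (hact : Act X φ) (hR : ∀ t w, ‖R t w‖ = ‖w‖) (hcn : Cn X φ θ0)
    (hf : SMap (Tot X P) S f1) (hdat : Dat S om)
    (hconst : ∀ y ∈ Tot X P, 9 / 4 ≤ ‖y.2‖ ^ 2 → ∀ t, f1 (phR φ R t y) = f1 y)
    {V' : E' × V → Ext (E' × V)} {η' : E' × V → Ext (E' × V)} {ρ' : ℝ}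
    (hV : Eqv (Tot X P) (F.pull (Th q T) V')
      (vv (phR φ R) (F.d (F.pull (fun y : E × W => y.1) θ0)) p p' s t (F.pull f1 om)))
    (hη : Sm (Tot Y P') η') (hd : Eqv (Tot Y P') V' (F.d η')) (h0 : ∀ y, ρ' < ‖y.2‖ → η' y = 0) :
    ∃ lam : E × W → Ext (E × W),
      Mod S om (Tot X P) (phR φ R) (F.pull (fun y : E × W => y.1) θ0) f1 lam p p' s t ∧
      ∀ y ∈ Tot X P, 64 / 25 ≤ ‖y.2‖ ^ 2 → lam y = 0 := by
  obtain ⟨h1, h2, h3, h4⟩ := QM.prim hQ (Act.of_cir hC) hη hd hV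
  refine exists_mod (ρ := ρ') ⟨d, hX⟩ hact (Act.of_cir hC) hR hcn hf hdat hconst h1 h2 h3 h4
    fun y hy hy2 => ?_
  have h5 : ‖(Th q T y).2‖ = ‖y.2‖ := hT.iso _ hy.1 _
  rw [F.pull, h0 _ (by rw [h5]; exact hy2), map_zero]

end tot

end Crest.Agent.R208.EX
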