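import Mathlib

-- ▼ part R208/F1a
section

/-! Row 208, block F (helper150).  F1a: the normed exterior algebra of the dual of a
finite-dimensional space, contraction-free wedge with a differential, linear pull-back. -/

set_option autoImplicit false

open scoped BigOperators ContDiff Topology
open Module

noncomputable section

namespace Crest.Agent.R208.F

/-- exterior algebra of the dual space -/
abbrev Ext (E : Type*) [AddCommGroup E] [Module ℝ E] := ExteriorAlgebra ℝ (Module.Dual ℝ E)

/-- a covector as an element of the exterior algebra -/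
abbrev io {E : Type*} [AddCommGroup E] [Module ℝ E] : Module.Dual ℝ E →ₗ[ℝ] Ext E :=
  ExteriorAlgebra.ι ℝ

section basic
variable {E : Type*} [AddCommGroup E] [Module ℝ E]

theorem io_sq (l : Module.Dual ℝ E) : io l * io l = 0 := ExteriorAlgebra.ι_sq_zero l

theorem io_anti (l m : Module.Dual ℝ E) : io l * io m = - (io m * io l) := by
  have := ExteriorAlgebra.ι_add_mul_swap (R := ℝ) l m
  exact eq_neg_of_add_eq_zero_left this

/-- grade involution -/
abbrev inv : Ext E →ₐ[ℝ] Ext E := CliffordAlgebra.involute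

theorem inv_io (l : Module.Dual ℝ E) : inv (io l) = - io l := CliffordAlgebra.involute_ι _

theorem inv_inv (c : Ext E) : inv (inv c) = c := CliffordAlgebra.involute_involute _

/-- a covector commutes with `c` up to the grade involution -/
theorem io_mul (l : Module.Dual ℝ E) (c : Ext E) : io l * c = inv c * io l := by
  induction c using ExteriorAlgebra.induction with
  | algebraMap r => rw [AlgHom.commutes, Algebra.commutes]
  | ι m => rw [inv_io, io_anti, neg_mul]
  | mul a b ha hb => rw [← mul_assoc, ha, mul_assoc, hb, ← mul_assoc, map_mul]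
  | add a b ha hb => rw [mul_add, ha, hb, map_add, add_mul]

end basic

section pb
variable {E F G : Type*} [AddCommGroup E] [Module ℝ E] [AddCommGroup F] [Module ℝ F]
  [AddCommGroup G] [Module ℝ G]

/-- linear pull-back -/
def pb (A : E →ₗ[ℝ] F) : Ext F →ₐ[ℝ] Ext E := ExteriorAlgebra.map A.dualMap

@[simp] theorem pb_io (A : E →ₗ[ℝ] F) (l : Module.Dual ℝ F) : pb A (io l) = io (l ∘ₗ A) := by
  simp only [pb, ExteriorAlgebra.map_apply_ι]; rfl

theorem pb_comp (A : E →ₗ[ℝ] F) (B : F →ₗ[ℝ] G) (c : Ext G) : pb A (pb B c) = pb (B ∘ₗ A) c := by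
  induction c using ExteriorAlgebra.induction with
  | algebraMap r => simp only [AlgHom.commutes]
  | ι m => simp only [pb_io, LinearMap.comp_assoc]
  | mul a b ha hb => simp only [map_mul, ha, hb]
  | add a b ha hb => simp only [map_add, ha, hb]

@[simp] theorem pb_id (c : Ext E) : pb (LinearMap.id) c = c := by
  induction c using ExteriorAlgebra.induction with
  | algebraMap r => simp only [AlgHom.commutes]
  | ι m => simp only [pb_io, LinearMap.comp_id]
  | mul a b ha hb => simp only [map_mul, ha, hb]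
  | add a b ha hb => simp only [map_add, ha, hb]

theorem pb_inv (A : E →ₗ[ℝ] F) (c : Ext F) : pb A (inv c) = inv (pb A c) := by
  induction c using ExteriorAlgebra.induction with
  | algebraMap r => simp only [AlgHom.commutes]
  | ι m => simp only [pb_io, inv_io, map_neg]
  | mul a b ha hb => simp only [map_mul, ha, hb]
  | add a b ha hb => simp only [map_add, ha, hb]

end pb

section norm
variable (E : Type*) [AddCommGroup E] [Module ℝ E] [FiniteDimensional ℝ E]

/-- a basis of the exterior algebra of the dual -/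
def extBasis : Basis (Finset (Fin (finrank ℝ (Module.Dual ℝ E)))) ℝ (Ext E) :=
  (Module.finBasis ℝ (Module.Dual ℝ E)).ExteriorAlgebra

instance : NormedAddCommGroup (Ext E) :=
  NormedAddCommGroup.induced (Ext E) (Finset (Fin (finrank ℝ (Module.Dual ℝ E))) → ℝ)
    (extBasis E).equivFun.toLinearMap (extBasis E).equivFun.injective

instance : NormedSpace ℝ (Ext E) :=
  NormedSpace.induced ℝ (Ext E) (Finset (Fin (finrank ℝ (Module.Dual ℝ E))) → ℝ)
    (extBasis E).equivFun.toLinearMap

instance : FiniteDimensional ℝ (Ext E) := (extBasis E).finiteDimensional_of_finite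

end norm

section cont
variable {E F : Type*} [NormedAddCommGroup E] [NormedSpace ℝ E] [FiniteDimensional ℝ E]
  [NormedAddCommGroup F] [NormedSpace ℝ F] [FiniteDimensional ℝ F]

variable (E) in
/-- continuous bilinear multiplication -/
def mulL : Ext E →L[ℝ] Ext E →L[ℝ] Ext E :=
  LinearMap.toContinuousLinearMap
    ((LinearMap.toContinuousLinearMap :
      (Ext E →ₗ[ℝ] Ext E) ≃ₗ[ℝ] (Ext E →L[ℝ] Ext E)).toLinearMap ∘ₗ LinearMap.mul ℝ (Ext E))

@[simp] theorem mulL_apply (a b : Ext E) : mulL E a b = a * b := rfl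

/-- continuous version of the grade involution -/
def invL : Ext E →L[ℝ] Ext E := LinearMap.toContinuousLinearMap (inv : Ext E →ₐ[ℝ] Ext E).toLinearMap

@[simp] theorem invL_apply (a : Ext E) : invL a = inv a := rfl

/-- continuous version of pull-back for fixed `A` -/
def pbL (A : E →L[ℝ] F) : Ext F →L[ℝ] Ext E :=
  LinearMap.toContinuousLinearMap (pb (A : E →ₗ[ℝ] F)).toLinearMap

@[simp] theorem pbL_apply (A : E →L[ℝ] F) (c : Ext F) : pbL A c = pb (A : E →ₗ[ℝ] F) c := rfl

theorem contDiff_mul {G : Type*} [NormedAddCommGroup G] [NormedSpace ℝ G] {n : WithTop ℕ∞}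
    {f g : G → Ext E} (hf : ContDiff ℝ n f) (hg : ContDiff ℝ n g) :
    ContDiff ℝ n fun x => f x * g x :=
  (mulL E).isBoundedBilinearMap.contDiff.comp₂ hf hg

theorem contDiffAt_mul {G : Type*} [NormedAddCommGroup G] [NormedSpace ℝ G] {n : WithTop ℕ∞}
    {f g : G → Ext E} {x : G} (hf : ContDiffAt ℝ n f x) (hg : ContDiffAt ℝ n g x) :
    ContDiffAt ℝ n (fun x => f x * g x) x :=
  (mulL E).isBoundedBilinearMap.contDiff.contDiffAt.comp₂ hf hg

theorem hasFDerivAt_mul {G : Type*} [NormedAddCommGroup G] [NormedSpace ℝ G]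
    {f g : G → Ext E} {x : G} {f' g' : G →L[ℝ] Ext E} (hf : HasFDerivAt f f' x)
    (hg : HasFDerivAt g g' x) :
    HasFDerivAt (fun x => f x * g x)
      ((mulL E).precompR G (f x) g' + (mulL E).precompL G f' (g x)) x :=
  (mulL E).hasFDerivAt_of_bilinear hf hg

theorem contDiff_pb_apply (c : Ext F) {n : WithTop ℕ∞} :
    ContDiff ℝ n fun A : E →L[ℝ] F => pb (A : E →ₗ[ℝ] F) c := by
  induction c using ExteriorAlgebra.induction with
  | algebraMap r => simp only [AlgHom.commutes]; exact contDiff_const
  | ι m =>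
    simp only [pb_io]
    let L : (E →L[ℝ] F) →ₗ[ℝ] Ext E :=
      { toFun := fun A => io (m ∘ₗ (A : E →ₗ[ℝ] F))
        map_add' := fun A B => by
          rw [← map_add]; congr 1; ext x; simp
        map_smul' := fun r A => by
          simp only [RingHom.id_apply]; rw [← map_smul]; congr 1; ext x; simp }
    exact (LinearMap.toContinuousLinearMap L).contDiff
  | mul a b ha hb => simp only [map_mul]; exact contDiff_mul ha hb
  | add a b ha hb => simp only [map_add]; exact ha.add hb

end cont

end Crest.Agent.R208.F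
end
end

-- ▼ part R208/F1b

/-! Row 208, block F (helper150).  F1b: exterior derivative, Leibniz, `d d = 0`, pull-back. -/

set_option autoImplicit false
set_option linter.unusedSectionVars false
set_option linter.unusedSimpArgs false

open scoped BigOperators ContDiff Topology
open Module

noncomputable section

namespace Crest.Agent.R208.F

section wd
variable {E : Type*} [NormedAddCommGroup E] [NormedSpace ℝ E] [FiniteDimensional ℝ E]

variable (E) in
/-- antisymmetrisation of a differential, `T ↦ ∑ eᵢ* ∧ T eᵢ` -/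
def wd : (E →L[ℝ] Ext E) →L[ℝ] Ext E :=
  LinearMap.toContinuousLinearMap
    { toFun := fun T => ∑ i, io ((Module.finBasis ℝ E).coord i) * T (Module.finBasis ℝ E i)
      map_add' := fun S T => by
        simp only [add_apply, mul_add, Finset.sum_add_distrib]
      map_smul' := fun r T => by
        simp only [smul_apply, mul_smul_comm, Finset.smul_sum, RingHom.id_apply] }

theorem wd_apply (T : E →L[ℝ] Ext E) :
    wd E T = ∑ i, io ((Module.finBasis ℝ E).coord i) * T (Module.finBasis ℝ E i) := rfl

theorem coord_sum {ι : Type*} [Fintype ι] (b : Basis ι ℝ E) (l : Module.Dual ℝ E) :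
    ∑ i, l (b i) • b.coord i = l := by
  classical
  refine b.ext fun j => ?_
  simp [LinearMap.sum_apply, Finsupp.single_apply]

theorem wd_basis {ι : Type*} [Fintype ι] (b : Basis ι ℝ E) (T : E →L[ℝ] Ext E) :
    wd E T = ∑ i, io (b.coord i) * T (b i) := by
  rw [wd_apply]
  set c := Module.finBasis ℝ E
  calc ∑ i, io (c.coord i) * T (c i)
      = ∑ i, io (c.coord i) * T (∑ j, b.coord j (c i) • b j) := by
        refine Finset.sum_congr rfl fun i _ => ?_
        congr 2
        simp only [Basis.coord_apply]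
        exact (b.sum_repr (c i)).symm
    _ = ∑ i, ∑ j, b.coord j (c i) • (io (c.coord i) * T (b j)) := by
        refine Finset.sum_congr rfl fun i _ => ?_
        simp only [map_sum, map_smul, Finset.mul_sum, mul_smul_comm]
    _ = ∑ j, (∑ i, b.coord j (c i) • io (c.coord i)) * T (b j) := by
        rw [Finset.sum_comm]
        refine Finset.sum_congr rfl fun j _ => ?_
        rw [Finset.sum_mul]
        refine Finset.sum_congr rfl fun i _ => ?_
        rw [smul_mul_assoc]
    _ = ∑ j, io (b.coord j) * T (b j) := by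
        refine Finset.sum_congr rfl fun j _ => ?_
        congr 1
        conv_rhs => rw [← coord_sum c (b.coord j)]
        simp only [map_sum, map_smul]

/-- covector-times-constant -/
theorem wd_smulRight (l : E →L[ℝ] ℝ) (c : Ext E) :
    wd E (l.smulRight c) = io (l : Module.Dual ℝ E) * c := by
  rw [wd_apply]
  have : ∀ i, io ((Module.finBasis ℝ E).coord i) * (l.smulRight c) (Module.finBasis ℝ E i)
      = ((l : Module.Dual ℝ E) (Module.finBasis ℝ E i) • io ((Module.finBasis ℝ E).coord i)) * c := by
    intro i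
    simp only [ContinuousLinearMap.smulRight_apply, mul_smul_comm, smul_mul_assoc]
    rfl
  simp only [this, ← Finset.sum_mul]
  congr 1
  conv_rhs => rw [← coord_sum (Module.finBasis ℝ E) (l : Module.Dual ℝ E)]
  simp only [map_sum, map_smul]

end wd

section d
variable {E F G : Type*} [NormedAddCommGroup E] [NormedSpace ℝ E] [FiniteDimensional ℝ E]
  [NormedAddCommGroup F] [NormedSpace ℝ F] [FiniteDimensional ℝ F]
  [NormedAddCommGroup G] [NormedSpace ℝ G] [FiniteDimensional ℝ G]

/-- exterior derivative -/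
def d (om : E → Ext E) (x : E) : Ext E := wd E (fderiv ℝ om x)

theorem d_of_hasFDerivAt {om : E → Ext E} {x : E} {om' : E →L[ℝ] Ext E} (h : HasFDerivAt om om' x) :
    d om x = wd E om' := by rw [d, h.fderiv]

theorem d_congr {om η : E → Ext E} {x : E} (h : om =ᶠ[𝓝 x] η) : d om x = d η x := by
  rw [d, d, h.fderiv_eq]

theorem d_congr_nhds {om η : E → Ext E} {x : E} (h : om =ᶠ[𝓝 x] η) : d om =ᶠ[𝓝 x] d η := by
  filter_upwards [h.eventuallyEq_nhds] with y hy using d_congr hy

theorem d_add {om η : E → Ext E} {x : E} (h : DifferentiableAt ℝ om x)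
    (h' : DifferentiableAt ℝ η x) : d (fun y => om y + η y) x = d om x + d η x := by
  rw [d_of_hasFDerivAt (h.hasFDerivAt.fun_add h'.hasFDerivAt), map_add]; rfl

theorem d_sub {om η : E → Ext E} {x : E} (h : DifferentiableAt ℝ om x)
    (h' : DifferentiableAt ℝ η x) : d (fun y => om y - η y) x = d om x - d η x := by
  rw [d_of_hasFDerivAt (h.hasFDerivAt.fun_sub h'.hasFDerivAt), map_sub]; rfl

theorem d_neg {om : E → Ext E} {x : E} : d (fun y => - om y) x = - d om x := by
  have : (fun y => - om y) = -om := rfl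
  rw [d, d, this, fderiv_neg, map_neg]

theorem d_const (c : Ext E) (x : E) : d (fun _ => c) x = 0 := by
  rw [d_of_hasFDerivAt (hasFDerivAt_const c x), map_zero]

theorem d_sum {ι : Type*} (s : Finset ι) {om : ι → E → Ext E} {x : E}
    (h : ∀ i ∈ s, DifferentiableAt ℝ (om i) x) :
    d (fun y => ∑ i ∈ s, om i y) x = ∑ i ∈ s, d (om i) x := by
  rw [d_of_hasFDerivAt (HasFDerivAt.fun_sum fun i hi => (h i hi).hasFDerivAt), map_sum]; rfl

theorem d_smul {g : E → ℝ} {om : E → Ext E} {x : E} (hg : DifferentiableAt ℝ g x)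
    (h : DifferentiableAt ℝ om x) :
    d (fun y => g y • om y) x
      = io ((fderiv ℝ g x : E →L[ℝ] ℝ) : Module.Dual ℝ E) * om x + g x • d om x := by
  rw [d_of_hasFDerivAt (hg.hasFDerivAt.fun_smul h.hasFDerivAt), map_add, map_smul, wd_smulRight,
    add_comm]
  rfl

theorem d_const_smul {om : E → Ext E} {x : E} (r : ℝ)
    (h : DifferentiableAt ℝ om x) : d (fun y => r • om y) x = r • d om x := by
  rw [d_of_hasFDerivAt (h.hasFDerivAt.fun_const_smul r), map_smul]; rfl

/-- graded Leibniz rule -/
theorem d_mul {om η : E → Ext E} {x : E} (h : DifferentiableAt ℝ om x)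
    (h' : DifferentiableAt ℝ η x) :
    d (fun y => om y * η y) x = d om x * η x + inv (om x) * d η x := by
  rw [d_of_hasFDerivAt (hasFDerivAt_mul h.hasFDerivAt h'.hasFDerivAt), map_add, add_comm]
  congr 1
  · rw [d, wd_apply, wd_apply, Finset.sum_mul]
    refine Finset.sum_congr rfl fun i _ => ?_
    simp only [ContinuousLinearMap.precompL_apply, mulL_apply, mul_assoc]
  · rw [d, wd_apply, wd_apply, Finset.mul_sum]
    refine Finset.sum_congr rfl fun i _ => ?_
    have h1 : ((mulL E).precompR E (om x) (fderiv ℝ η x)) (finBasis ℝ E i)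
        = om x * fderiv ℝ η x (finBasis ℝ E i) := rfl
    rw [h1, ← mul_assoc, ← mul_assoc, io_mul]

theorem contDiffAt_d {om : E → Ext E} {x : E} {n m : WithTop ℕ∞} (h : ContDiffAt ℝ n om x)
    (hmn : m + 1 ≤ n) : ContDiffAt ℝ m (d om) x :=
  (wd E).contDiff.contDiffAt.comp x (h.fderiv_right hmn)

theorem fderiv_symm {H : Type*} [NormedAddCommGroup H] [NormedSpace ℝ H] {om : E → H} {x : E}
    (h : ContDiffAt ℝ 2 om x) (v w : E) :
    fderiv ℝ (fderiv ℝ om) x v w = fderiv ℝ (fderiv ℝ om) x w v := by
  have := h.isSymmSndFDerivAt (by simp [minSmoothness_of_isRCLikeNormedField])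
  exact this v w

/-- an antisymmetric double sum vanishes -/
theorem sum_io_io {ι : Type*} [Fintype ι] (b : Basis ι ℝ E) (B : ι → ι → Ext E)
    (hB : ∀ i j, B i j = B j i) :
    ∑ i, ∑ j, io (b.coord i) * (io (b.coord j) * B i j) = 0 := by
  have h : ∑ i, ∑ j, io (b.coord i) * (io (b.coord j) * B i j)
      = - ∑ i, ∑ j, io (b.coord i) * (io (b.coord j) * B i j) := by
    conv_lhs => rw [Finset.sum_comm]
    rw [← Finset.sum_neg_distrib]
    refine Finset.sum_congr rfl fun i _ => ?_
    rw [← Finset.sum_neg_distrib]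
    refine Finset.sum_congr rfl fun j _ => ?_
    rw [← mul_assoc, ← mul_assoc, io_anti, neg_mul, hB j i]
  have h2 : (2 : ℝ) • ∑ i, ∑ j, io (b.coord i) * (io (b.coord j) * B i j) = 0 := by
    rw [two_smul]; nth_rewrite 1 [h]; exact neg_add_cancel _
  exact (smul_eq_zero.1 h2).resolve_left two_ne_zero

theorem d_d {om : E → Ext E} {x : E} (h : ContDiffAt ℝ 2 om x) : d (d om) x = 0 := by
  have h1 : HasFDerivAt (fderiv ℝ om) (fderiv ℝ (fderiv ℝ om) x) x :=
    ((h.fderiv_right (m := 1) (by norm_num)).differentiableAt (by norm_num)).hasFDerivAt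
  have h2 : HasFDerivAt (d om) ((wd E).comp (fderiv ℝ (fderiv ℝ om) x)) x :=
    (wd E).hasFDerivAt.comp x h1
  rw [d_of_hasFDerivAt h2, wd_apply]
  simp only [ContinuousLinearMap.comp_apply, wd_apply, Finset.mul_sum]
  exact sum_io_io _ _ fun i j => by
    have := fderiv_symm h (finBasis ℝ E i) (finBasis ℝ E j)
    exact this

/-! ### pull-back -/

/-- pull-back of a form by a map -/
def pull (f : E → F) (om : F → Ext F) (x : E) : Ext E :=
  pb ((fderiv ℝ f x : E →L[ℝ] F) : E →ₗ[ℝ] F) (om (f x))

theorem pull_mul (f : E → F) (om η : F → Ext F) (x : E) :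
    pull f (fun y => om y * η y) x = pull f om x * pull f η x := by simp [pull]

theorem pull_add (f : E → F) (om η : F → Ext F) (x : E) :
    pull f (fun y => om y + η y) x = pull f om x + pull f η x := by simp [pull]

theorem pull_sub (f : E → F) (om η : F → Ext F) (x : E) :
    pull f (fun y => om y - η y) x = pull f om x - pull f η x := by simp [pull]

theorem pull_smul (f : E → F) (g : F → ℝ) (om : F → Ext F) (x : E) :
    pull f (fun y => g y • om y) x = g (f x) • pull f om x := by simp [pull]

theorem pull_comp {f : E → F} {g : F → G} {om : G → Ext G} {x : E} (hf : DifferentiableAt ℝ f x)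
    (hg : DifferentiableAt ℝ g (f x)) :
    pull f (pull g om) x = pull (g ∘ f) om x := by
  simp only [pull, pb_comp, fderiv_comp x hg hf]
  rfl

theorem pull_congr {f g : E → F} {om : F → Ext F} {x : E} (h : f =ᶠ[𝓝 x] g) :
    pull f om x = pull g om x := by
  simp only [pull, h.fderiv_eq, h.eq_of_nhds]

theorem pull_id (om : E → Ext E) (x : E) : pull (fun y => y) om x = om x := by
  simp only [pull, fderiv_fun_id]
  exact pb_id _

theorem contDiffAt_pbc {f : E → F} {x : E} {n m : WithTop ℕ∞} (hf : ContDiffAt ℝ n f x)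
    (hmn : m + 1 ≤ n) (c : Ext F) :
    ContDiffAt ℝ m (fun y => pb ((fderiv ℝ f y : E →L[ℝ] F) : E →ₗ[ℝ] F) c) x :=
  (contDiff_pb_apply c).contDiffAt.comp x (hf.fderiv_right hmn)

theorem differentiableAt_pbc {f : E → F} {x : E} (hf : ContDiffAt ℝ 2 f x) (c : Ext F) :
    DifferentiableAt ℝ (fun y => pb ((fderiv ℝ f y : E →L[ℝ] F) : E →ₗ[ℝ] F) c) x :=
  (contDiffAt_pbc (m := 1) hf (by norm_num) c).differentiableAt (by norm_num)

/-- the pull-back of a constant form is closed -/
theorem d_pbc {f : E → F} {x : E} (hf : ContDiffAt ℝ 2 f x) (c : Ext F) :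
    d (fun y => pb ((fderiv ℝ f y : E →L[ℝ] F) : E →ₗ[ℝ] F) c) x = 0 := by
  induction c using ExteriorAlgebra.induction with
  | algebraMap r => simp only [AlgHom.commutes]; exact d_const _ _
  | ι m =>
    simp only [pb_io]
    let L : (E →L[ℝ] F) →ₗ[ℝ] Ext E :=
      { toFun := fun A => io (m ∘ₗ (A : E →ₗ[ℝ] F))
        map_add' := fun A B => by
          rw [← map_add]; congr 1; ext x; simp
        map_smul' := fun r A => by
          simp only [RingHom.id_apply]; rw [← map_smul]; congr 1; ext x; simp }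
    have h1 : HasFDerivAt (fderiv ℝ f) (fderiv ℝ (fderiv ℝ f) x) x :=
      ((hf.fderiv_right (m := 1) (by norm_num)).differentiableAt (by norm_num)).hasFDerivAt
    have h2 : HasFDerivAt (fun y => io (m ∘ₗ ((fderiv ℝ f y : E →L[ℝ] F) : E →ₗ[ℝ] F)))
        ((LinearMap.toContinuousLinearMap L).comp (fderiv ℝ (fderiv ℝ f) x)) x :=
      (LinearMap.toContinuousLinearMap L).hasFDerivAt.comp x h1
    rw [d_of_hasFDerivAt h2]
    set b := finBasis ℝ E
    rw [wd_basis b]
    have h3 : ∀ v : E, (LinearMap.toContinuousLinearMap L).comp (fderiv ℝ (fderiv ℝ f) x) v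
        = ∑ j, io (b.coord j) * algebraMap ℝ (Ext E) (m (fderiv ℝ (fderiv ℝ f) x v (b j))) := by
      intro v
      change io (m ∘ₗ ((fderiv ℝ (fderiv ℝ f) x v : E →L[ℝ] F) : E →ₗ[ℝ] F)) = _
      conv_lhs => rw [← coord_sum b (m ∘ₗ ((fderiv ℝ (fderiv ℝ f) x v : E →L[ℝ] F) : E →ₗ[ℝ] F))]
      rw [map_sum]
      refine Finset.sum_congr rfl fun j _ => ?_
      rw [map_smul, ← Algebra.commutes, ← Algebra.smul_def]
      rfl
    simp only [h3, Finset.mul_sum]
    exact sum_io_io b _ fun i j => by
      have := fderiv_symm hf (b i) (b j)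
      rw [this]
  | mul a b ha hb =>
    simp only [map_mul]
    rw [d_mul (differentiableAt_pbc hf a) (differentiableAt_pbc hf b), ha, hb, zero_mul, mul_zero,
      add_zero]
  | add a b ha hb =>
    simp only [map_add]
    rw [d_add (differentiableAt_pbc hf a) (differentiableAt_pbc hf b), ha, hb, add_zero]

/-- coordinates of a form -/
def co (om : F → Ext F) (J : Finset (Fin (finrank ℝ (Module.Dual ℝ F)))) (y : F) : ℝ :=
  (extBasis F).coord J (om y)

theorem sum_co (om : F → Ext F) (y : F) : ∑ J, co om J y • extBasis F J = om y :=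
  (extBasis F).sum_repr (om y)

theorem hasFDerivAt_co {om : F → Ext F} {y : F} {om' : F →L[ℝ] Ext F} (h : HasFDerivAt om om' y)
    (J : Finset (Fin (finrank ℝ (Module.Dual ℝ F)))) :
    HasFDerivAt (co om J) ((LinearMap.toContinuousLinearMap ((extBasis F).coord J)).comp om') y :=
  (LinearMap.toContinuousLinearMap ((extBasis F).coord J)).hasFDerivAt.comp y h

theorem contDiffAt_co {om : F → Ext F} {y : F} {n : WithTop ℕ∞} (h : ContDiffAt ℝ n om y)
    (J : Finset (Fin (finrank ℝ (Module.Dual ℝ F)))) : ContDiffAt ℝ n (co om J) y :=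
  (LinearMap.toContinuousLinearMap ((extBasis F).coord J)).contDiff.contDiffAt.comp y h

theorem pull_eq_sum (f : E → F) (om : F → Ext F) (x : E) :
    pull f om x = ∑ J, co om J (f x) • pb ((fderiv ℝ f x : E →L[ℝ] F) : E →ₗ[ℝ] F) (extBasis F J) := by
  rw [pull]
  conv_lhs => rw [← sum_co om (f x)]
  simp only [map_sum, map_smul]

theorem contDiffAt_pull {f : E → F} {om : F → Ext F} {x : E} {n m : WithTop ℕ∞}
    (hf : ContDiffAt ℝ n f x) (hmn : m + 1 ≤ n) (h : ContDiffAt ℝ m om (f x)) :
    ContDiffAt ℝ m (pull f om) x := by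
  have : pull f om = fun x => ∑ J, co om J (f x) •
      pb ((fderiv ℝ f x : E →L[ℝ] F) : E →ₗ[ℝ] F) (extBasis F J) := funext (pull_eq_sum f om)
  rw [this]
  refine ContDiffAt.sum fun J _ => ?_
  exact ((contDiffAt_co h J).comp x (hf.of_le (le_trans le_self_add hmn))).smul
    (contDiffAt_pbc hf hmn _)

/-- `d` commutes with pull-backs -/
theorem d_pull {f : E → F} {om : F → Ext F} {x : E} (hf : ContDiffAt ℝ 2 f x)
    (h : DifferentiableAt ℝ om (f x)) : d (pull f om) x = pull f (d om) x := by
  have hfd : HasFDerivAt f (fderiv ℝ f x) x := (hf.differentiableAt (by norm_num)).hasFDerivAt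
  have : pull f om = fun x => ∑ J, co om J (f x) •
      pb ((fderiv ℝ f x : E →L[ℝ] F) : E →ₗ[ℝ] F) (extBasis F J) := funext (pull_eq_sum f om)
  rw [this]
  have hJ : ∀ J, HasFDerivAt (fun x => co om J (f x))
      (((LinearMap.toContinuousLinearMap ((extBasis F).coord J)).comp (fderiv ℝ om (f x))).comp
        (fderiv ℝ f x)) x := fun J => (hasFDerivAt_co h.hasFDerivAt J).comp x hfd
  rw [d_sum _ fun J _ => ((hJ J).differentiableAt.fun_smul (differentiableAt_pbc hf _))]
  simp only [d_smul (hJ _).differentiableAt (differentiableAt_pbc hf _), d_pbc hf, smul_zero,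
    add_zero, (hJ _).fderiv]
  rw [pull, d]
  have h4 : fderiv ℝ om (f x) = ∑ J, ((LinearMap.toContinuousLinearMap ((extBasis F).coord J)).comp
      (fderiv ℝ om (f x))).smulRight (extBasis F J) := by
    ext v
    simp only [ContinuousLinearMap.sum_apply, ContinuousLinearMap.smulRight_apply,
      ContinuousLinearMap.comp_apply, LinearMap.coe_toContinuousLinearMap']
    exact ((extBasis F).sum_repr _).symm
  conv_rhs => rw [h4]
  simp only [map_sum, wd_smulRight, map_mul, pb_io]
  rfl

end d

end Crest.Agent.R208.F
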