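import Crest.Agent.R208.GT4

/-!
Row 208, block GT (helper989), part GT5: relations between the Chern character classes of the
fields `T_J`, `F_J`, `ℓ`, `T_q C_p ⊗ ℂ`, `V_pq ⊗ ℂ`, `T_q M ⊗ ℂ` on `Z = V_2(V)`.
-/

set_option autoImplicit false

open Set Filter Topology Module Metric
open scoped ContDiff RealInnerProductSpace Kronecker
open Crest.GeometryTopology.Submanifold
open Crest.Agent.R241.DDefs
open Crest.Agent.R241.D2
open Crest.Agent.R208.CW (IdF SM)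
open Crest.Agent.R208.FI (Sub)

noncomputable section

namespace Crest.Agent.R208.GT

variable {n N k d : ℕ} {κ : ℝ} {S : Set (Euc N)} {G : Geo n N κ S}
  {PV : Euc N × Euc N → Euc N →L[ℝ] Euc N} (hV : VField G PV) (h : Bla G k)
  {ζ : (Euc N × Euc N) × (Fin 2 → Euc N)}

include hV h

lemma idf_TJ : IdF (ZZ S PV) (TJ G PV) :=
  ⟨fun _ hζ => smooth_TJ hV h hζ, fun _ hζ => (pencil_ZZ hV h hζ).tj_idem⟩

lemma idf_FJ : IdF (ZZ S PV) (FJ G PV) :=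
  ⟨fun _ hζ => smooth_FJ hV h hζ, fun _ hζ => (pencil_ZZ hV h hζ).fj_idem⟩

omit hV h in
lemma dot_self {v : Euc N} (hv : ‖v‖ = 1) :
    dotProduct (fun c => v c) (fun c => v c) = (1 : ℝ) := by
  have h1 := EuclideanSpace.norm_sq_eq v
  rw [hv, one_pow] at h1
  rw [h1, dotProduct]
  refine Finset.sum_congr rfl fun c _ => ?_
  rw [Real.norm_eq_abs, sq_abs, sq]

omit hV h in
lemma idf_LL : IdF (ZZ S PV) LL :=
  ⟨fun ζ _ => smooth_LL ζ, fun _ hζ =>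
    SP.qL_idem (dot_self (hζ.2.2.1 0)) (dot_self (hζ.2.2.1 1))⟩

/-- `T_q C_p ⊗ ℂ` -/
lemma idf_TC : IdF (ZZ S PV) (fun ζ => SP.cr (mP G PV ζ.1)) :=
  ⟨fun ζ hζ => (smooth_mP hV (smooth_z ζ) hζ.1).cr, fun ζ hζ => by
    rw [← SP.cr_mul, (pencil_ZZ hV h hζ).pp]⟩

/-- `T_p C_q ⊗ ℂ` -/
lemma idf_TC' : IdF (ZZ S PV) (fun ζ => SP.cr (mP G PV ζ.1.swap)) :=
  ⟨fun ζ hζ => (smooth_mP hV (smooth_swap ζ) (FF_symm hζ.1)).cr, fun ζ hζ => by
    rw [← SP.cr_mul, (pencil_ZZ hV h hζ).pp']⟩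


/-- `T_q C_p ⊗ ℂ = T_J + conj T_J` -/
theorem sc_TC (hZ : Sub d (ZZ S PV)) (j : ℕ) : CW.sc hZ (idf_TC hV h) j =
    (1 + (-1) ^ j) * CW.sc hZ (idf_TJ hV h) j := by
  refine CW.sc_add_conj hZ (idf_TC hV h) (idf_TJ hV h) ?_ ?_ ?_ j
  · intro ζ hζ
    exact ((pencil_ZZ hV h hζ).tj_add_cj).symm
  · intro ζ hζ
    exact (pencil_ZZ hV h hζ).tj_mul_cj
  · intro ζ hζ
    exact (pencil_ZZ hV h hζ).cj_mul_tj

/-- `T_p C_q ⊗ ℂ = F_J + conj F_J` -/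
theorem sc_TC' (hZ : Sub d (ZZ S PV)) (j : ℕ) : CW.sc hZ (idf_TC' hV h) j =
    (1 + (-1) ^ j) * CW.sc hZ (idf_FJ hV h) j := by
  refine CW.sc_add_conj hZ (idf_TC' hV h) (idf_FJ hV h) ?_ ?_ ?_ j
  · intro ζ hζ
    exact ((pencil_ZZ hV h hζ).fj_add_cj).symm
  · intro ζ hζ
    exact (pencil_ZZ hV h hζ).fj_mul_cj
  · intro ζ hζ
    exact (pencil_ZZ hV h hζ).cj_mul_fj

/-! ### `T_q M = V_qp ⊕ T_q C_p` -/

/-- `T_x M ⊗ ℂ` as a field of matrices on `S` -/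
def mM (G : Geo n N κ S) (x : Euc N) : Matrix (Fin N) (Fin N) ℂ :=
  SP.cr (SP.mt (bas N) (bas N) (G.P x))

/-- `V_pq ⊗ ℂ` as a field of matrices on `FF S` -/
def mV (PV : Euc N × Euc N → Euc N →L[ℝ] Euc N) (z : Euc N × Euc N) :
    Matrix (Fin N) (Fin N) ℂ := SP.cr (SP.mt (bas N) (bas N) (PV z))

omit hV h in
lemma smooth_mM (x : Euc N) : SM ∞ (mM G) x :=
  (SP.MSm.mt _ _ G.contDiff_P.contDiffAt).cr

omit h in
lemma smooth_mV {z : Euc N × Euc N} (hz : z ∈ FF S) : SM ∞ (mV PV) z :=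
  (SP.MSm.mt _ _ (hV.smooth z hz)).cr

omit hV h in
lemma idf_mM : IdF S (mM G) := ⟨fun x _ => smooth_mM x, fun x hx => by
  rw [mM, ← SP.cr_mul, ← SP.mt_comp]
  congr 2
  ext v : 1
  exact P_idem G hx v⟩

omit h in
lemma idf_mV : IdF (FF S) (mV PV) := ⟨fun _ hz => smooth_mV hV hz, fun z hz => by
  rw [mV, ← SP.cr_mul, ← SP.mt_comp]
  congr 2
  ext v : 1
  exact hV.PV_idem (p := z.1) (q := z.2) hz v⟩

omit hV h in
lemma smap_fst : CW.SMap (ZZ S PV) (FF S) Prod.fst := ⟨fun ζ _ => smooth_z ζ, fun _ hζ => hζ.1⟩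

omit hV h in
lemma smap_swap : CW.SMap (FF S) (FF S) Prod.swap :=
  ⟨fun _ _ => contDiffAt_snd.prodMk contDiffAt_fst, fun _ hz => FF_symm hz⟩

omit hV h in
lemma smap_p : CW.SMap (FF S) S Prod.fst := ⟨fun _ _ => contDiffAt_fst, fun _ hz => hz.1⟩

omit hV h in
lemma smap_q : CW.SMap (FF S) S Prod.snd := ⟨fun _ _ => contDiffAt_snd, fun _ hz => hz.2.1⟩

/-- `T_q C_p ⊗ ℂ` on `FF` -/
lemma idf_TCF : IdF (FF S) (fun z => SP.cr (mP G PV z)) :=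
  ⟨fun z hz => (smooth_mP hV contDiffAt_id hz).cr, fun z hz => by
    rw [← SP.cr_mul, mP, ← SP.mt_comp]
    congr 2
    ext v : 1
    exact hV.PTC_idem h (p := z.1) (q := z.2) hz v⟩

/-- `T_q M = V_qp ⊕ T_q C_p` on classes of `FF` -/
theorem sc_TM (hF : Sub d (FF S)) (j : ℕ) :
    CW.sc hF ((idf_mM (G := G)).comp smap_q) j =
      CW.sc hF ((idf_mV hV).comp smap_swap) j + CW.sc hF (idf_TCF hV h) j := by
  have e0 : SP.cr (0 : Matrix (Fin N) (Fin N) ℝ) = 0 := by ext i j; simp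
  refine CW.sc_orth hF _ _ _ ?_ ?_ ?_ j
  · intro z _
    change SP.cr (SP.mt (bas N) (bas N) (G.P z.2)) =
      SP.cr (SP.mt (bas N) (bas N) (PV z.swap)) + SP.cr (mP G PV z)
    rw [mP, PTC, ← SP.cr_add, ← SP.mt_add, add_sub_cancel]
  · intro z hz
    change SP.cr (SP.mt (bas N) (bas N) (PV z.swap)) * SP.cr (mP G PV z) = 0
    rw [← SP.cr_mul, mP, ← SP.mt_comp, ← e0]
    congr 1
    ext i j
    rw [mt_bas]
    have h1 := hV.PTC_mem h (p := z.1) (q := z.2) hz (bas N j)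
    have h2 : PV z.swap (PTC G PV z (bas N j)) = 0 := hV.PV_eq_zero (FF_symm' hz) h1.2
    rw [ContinuousLinearMap.comp_apply, h2, inner_zero_right]; rfl
  · intro z hz
    change SP.cr (mP G PV z) * SP.cr (SP.mt (bas N) (bas N) (PV z.swap)) = 0
    rw [← SP.cr_mul, mP, ← SP.mt_comp, ← e0]
    congr 1
    ext i j
    rw [mt_bas]
    have h1 := hV.PV_mem (FF_symm' (p := z.1) (q := z.2) hz) (bas N j)
    have h2 : PTC G PV z (PV z.swap (bas N j)) = 0 := hV.PTC_eq_zero h (p := z.1) (q := z.2) hz h1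
    rw [ContinuousLinearMap.comp_apply, h2, inner_zero_right]; rfl

end Crest.Agent.R208.GT
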