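import Crest.Agent.R208.CW4
import Crest.Agent.R208.SP9
import Crest.Agent.R208.CW2
import Crest.Agent.R208.FG1
import Mathlib.Geometry.Manifold.PartitionOfUnity
import Crest.Agent.R208.E4a
import Crest.Agent.R208.FG1e
import Crest.Agent.R208.GT5

-- ▼ part R208/FG3
section

/-! Row 208, block FG (helper586), part FG3: if `P₁`, `P₂` are subfields of `T` with
`range P₁ ∩ range P₂ = 0`, then `c(T) = c(P₁) c(P₂) c(W)` with `W` of the complementary rank. -/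

set_option autoImplicit false
set_option linter.unusedSectionVars false

open Set Filter Topology Module Matrix
open scoped ContDiff BigOperators
open Crest.Agent.R208.F Crest.Agent.R208.FI Crest.Agent.R208.CW

noncomputable section

namespace Crest.Agent.R208.FG

section alg
variable {m : Type*} [Fintype m] [DecidableEq m]

/-- `(1 - P₁) P₂` -/
def tA (P₁ P₂ : Matrix m m ℂ) : Matrix m m ℂ := (1 - P₁) * P₂

/-- left inverse of `tA` on the range of `P₂` -/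
def tB (P₁ P₂ : Matrix m m ℂ) : Matrix m m ℂ :=
  Ring.inverse (SP.gram P₂ (tA P₁ P₂)) * (tA P₁ P₂)ᴴ

/-- projection onto `(1 - P₁) (range P₂)` -/
def tQ (P₁ P₂ : Matrix m m ℂ) : Matrix m m ℂ := tA P₁ P₂ * tB P₁ P₂

variable {T P₁ P₂ : Matrix m m ℂ}

theorem tA_inj (_h2 : P₂ * P₂ = P₂)
    (hinj : ∀ v, P₁.mulVec v = v → P₂.mulVec v = v → v = 0) :
    ∀ v, P₂.mulVec v = v → (tA P₁ P₂).mulVec v = 0 → v = 0 := by
  intro v hv h0
  refine hinj v ?_ hv
  rw [tA, ← Matrix.mulVec_mulVec, hv, Matrix.sub_mulVec, Matrix.one_mulVec, sub_eq_zero] at h0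
  exact h0.symm

theorem tA_P2 (h2 : P₂ * P₂ = P₂) : tA P₁ P₂ * P₂ = tA P₁ P₂ := by
  rw [tA, Matrix.mul_assoc, h2]

theorem tB_tA (h2 : P₂ * P₂ = P₂)
    (hinj : ∀ v, P₁.mulVec v = v → P₂.mulVec v = v → v = 0) : tB P₁ P₂ * tA P₁ P₂ = P₂ := by
  have hu := SP.isUnit_gram (P := P₂) (S := tA P₁ P₂) (tA_inj h2 hinj)
  have hgP : SP.gram P₂ (tA P₁ P₂) * P₂ = (tA P₁ P₂)ᴴ * tA P₁ P₂ := by
    rw [SP.gram, Matrix.add_mul, Matrix.mul_assoc, tA_P2 h2, Matrix.mul_assoc, Matrix.sub_mul,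
      Matrix.one_mul, h2, sub_self, Matrix.mul_zero, add_zero]
  rw [tB, Matrix.mul_assoc, ← hgP, ← Matrix.mul_assoc, Ring.inverse_mul_cancel _ hu, Matrix.one_mul]

theorem tQ_tA (h2 : P₂ * P₂ = P₂)
    (hinj : ∀ v, P₁.mulVec v = v → P₂.mulVec v = v → v = 0) :
    tQ P₁ P₂ * tA P₁ P₂ = tA P₁ P₂ := by
  rw [tQ, Matrix.mul_assoc, tB_tA h2 hinj, tA_P2 h2]

theorem tQ_idem (h2 : P₂ * P₂ = P₂)
    (hinj : ∀ v, P₁.mulVec v = v → P₂.mulVec v = v → v = 0) :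
    tQ P₁ P₂ * tQ P₁ P₂ = tQ P₁ P₂ := by
  conv_lhs => rw [tQ, ← Matrix.mul_assoc]
  have := tQ_tA h2 hinj
  rw [tQ] at this
  rw [this, tQ]

/-- `P₂ ≅ Q` -/
theorem pIso_tQ (h2 : P₂ * P₂ = P₂)
    (hinj : ∀ v, P₁.mulVec v = v → P₂.mulVec v = v → v = 0) :
    SP.PIso P₂ (tQ P₁ P₂) (tA P₁ P₂) (P₂ * tB P₁ P₂) where
  sp := tA_P2 h2
  ps := tQ_tA h2 hinj
  wp := by
    rw [tQ, Matrix.mul_assoc, ← Matrix.mul_assoc (tB P₁ P₂), tB_tA h2 hinj, ← Matrix.mul_assoc, h2]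
  pw := by rw [← Matrix.mul_assoc, h2]
  ws := by rw [Matrix.mul_assoc, tB_tA h2 hinj, h2]
  sw := by rw [← Matrix.mul_assoc, tA_P2 h2, tQ]

theorem P1_tQ (h1 : P₁ * P₁ = P₁) : P₁ * tQ P₁ P₂ = 0 := by
  rw [tQ, tA, ← Matrix.mul_assoc, ← Matrix.mul_assoc, Matrix.mul_sub, Matrix.mul_one, h1, sub_self,
    Matrix.zero_mul, Matrix.zero_mul]

theorem tQ_P1 (h1 : P₁ * P₁ = P₁) (hh : P₁ᴴ = P₁) : tQ P₁ P₂ * P₁ = 0 := by
  have h0 : (tA P₁ P₂)ᴴ * P₁ = 0 := by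
    have e : P₁ * tA P₁ P₂ = 0 := by
      rw [tA, ← Matrix.mul_assoc, Matrix.mul_sub, Matrix.mul_one, h1, sub_self, Matrix.zero_mul]
    have e2 := congrArg Matrix.conjTranspose e
    rwa [conjTranspose_mul, hh, conjTranspose_zero] at e2
  rw [tQ, tB, Matrix.mul_assoc, Matrix.mul_assoc, h0, Matrix.mul_zero, Matrix.mul_zero]

theorem T_tA (a1 : T * P₁ = P₁) (a2 : T * P₂ = P₂) : T * tA P₁ P₂ = tA P₁ P₂ := by
  rw [tA, ← Matrix.mul_assoc, Matrix.mul_sub, Matrix.mul_one, a1, Matrix.sub_mul, a2,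
    Matrix.sub_mul, Matrix.one_mul]

theorem T_tQ (a1 : T * P₁ = P₁) (a2 : T * P₂ = P₂) : T * tQ P₁ P₂ = tQ P₁ P₂ := by
  rw [tQ, ← Matrix.mul_assoc, T_tA a1 a2]

theorem tQ_T (a1 : T * P₁ = P₁) (a2 : T * P₂ = P₂) (hT : Tᴴ = T) :
    tQ P₁ P₂ * T = tQ P₁ P₂ := by
  have h0 : (tA P₁ P₂)ᴴ * T = (tA P₁ P₂)ᴴ := by
    have e2 := congrArg Matrix.conjTranspose (T_tA a1 a2)
    rwa [conjTranspose_mul, hT] at e2
  rw [tQ, tB, Matrix.mul_assoc, Matrix.mul_assoc, h0]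

/-- the complement -/
def tW (T P₁ P₂ : Matrix m m ℂ) : Matrix m m ℂ := T - (P₁ + tQ P₁ P₂)

theorem sum_idem (h1 : P₁ * P₁ = P₁) (hh : P₁ᴴ = P₁) (h2 : P₂ * P₂ = P₂)
    (hinj : ∀ v, P₁.mulVec v = v → P₂.mulVec v = v → v = 0) :
    (P₁ + tQ P₁ P₂) * (P₁ + tQ P₁ P₂) = P₁ + tQ P₁ P₂ := by
  rw [Matrix.add_mul, Matrix.mul_add, Matrix.mul_add, h1, P1_tQ h1, tQ_P1 h1 hh, tQ_idem h2 hinj,
    add_zero, zero_add]

theorem sum_T (a1' : P₁ * T = P₁) (a1 : T * P₁ = P₁) (a2 : T * P₂ = P₂) (hT : Tᴴ = T) :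
    (P₁ + tQ P₁ P₂) * T = P₁ + tQ P₁ P₂ := by
  rw [Matrix.add_mul, a1', tQ_T a1 a2 hT]

theorem T_sum (a1 : T * P₁ = P₁) (a2 : T * P₂ = P₂) :
    T * (P₁ + tQ P₁ P₂) = P₁ + tQ P₁ P₂ := by
  rw [Matrix.mul_add, a1, T_tQ a1 a2]

end alg

section field
variable {E : Type*} [NormedAddCommGroup E] [NormedSpace ℝ E] [FiniteDimensional ℝ E]
  {m : Type*} [Fintype m] [DecidableEq m] {X : Set E} {d : ℕ}

/-- **Whitney formula for two transversal subfields** -/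
theorem cs_three (hX : Sub d X) {T P₁ P₂ : E → Matrix m m ℂ} (hT : IdF X T) (h₁ : IdF X P₁)
    (h₂ : IdF X P₂) (a1 : ∀ x ∈ X, T x * P₁ x = P₁ x) (a1' : ∀ x ∈ X, P₁ x * T x = P₁ x)
    (a2 : ∀ x ∈ X, T x * P₂ x = P₂ x) (hTh : ∀ x ∈ X, (T x)ᴴ = T x)
    (h1h : ∀ x ∈ X, (P₁ x)ᴴ = P₁ x)
    (hinj : ∀ x ∈ X, ∀ v, (P₁ x).mulVec v = v → (P₂ x).mulVec v = v → v = 0) {n r₁ r₂ : ℕ}
    (rT : ∀ x ∈ X, (T x).rank = n) (r1 : ∀ x ∈ X, (P₁ x).rank = r₁)
    (r2 : ∀ x ∈ X, (P₂ x).rank = r₂) :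
    ∃ c : PowerSeries (CW.H X), cs hX hT = cs hX h₁ * cs hX h₂ * c ∧
      ∀ j, n < j + (r₁ + r₂) → PowerSeries.coeff j c = 0 := by
  have sA : ∀ x ∈ X, SM ∞ (fun x => tA (P₁ x) (P₂ x)) x := fun x hx =>
    SP.MSm.mul ((SP.MSm.const 1).sub (h₁.smooth x hx)) (h₂.smooth x hx)
  have sB : ∀ x ∈ X, SM ∞ (fun x => tB (P₁ x) (P₂ x)) x := fun x hx => by
    have hg : SP.MSm ∞ (fun y => SP.gram (P₂ y) (tA (P₁ y) (P₂ y))) x :=
      (SP.MSm.mul (SP.MSm.conjTranspose (sA x hx)) (sA x hx)).add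
        (SP.MSm.mul (SP.MSm.conjTranspose ((SP.MSm.const 1).sub (h₂.smooth x hx)))
          ((SP.MSm.const 1).sub (h₂.smooth x hx)))
    exact SP.MSm.mul (hg.ringInverse (SP.isUnit_gram (tA_inj (h₂.idem x hx) (hinj x hx))))
      (SP.MSm.conjTranspose (sA x hx))
  have sQ : ∀ x ∈ X, SM ∞ (fun x => tQ (P₁ x) (P₂ x)) x := fun x hx =>
    SP.MSm.mul (sA x hx) (sB x hx)
  have iQ : IdF X (fun x => tQ (P₁ x) (P₂ x)) :=
    ⟨sQ, fun x hx => tQ_idem (h₂.idem x hx) (hinj x hx)⟩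
  have iS : IdF X (fun x => P₁ x + tQ (P₁ x) (P₂ x)) :=
    ⟨fun x hx => (h₁.smooth x hx).add (sQ x hx), fun x hx =>
      sum_idem (h₁.idem x hx) (h1h x hx) (h₂.idem x hx) (hinj x hx)⟩
  have eT1 : ∀ x ∈ X, (P₁ x + tQ (P₁ x) (P₂ x)) * T x = P₁ x + tQ (P₁ x) (P₂ x) := fun x hx =>
    sum_T (a1' x hx) (a1 x hx) (a2 x hx) (hTh x hx)
  have eT2 : ∀ x ∈ X, T x * (P₁ x + tQ (P₁ x) (P₂ x)) = P₁ x + tQ (P₁ x) (P₂ x) := fun x hx =>
    T_sum (a1 x hx) (a2 x hx)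
  have iW : IdF X (fun x => tW (T x) (P₁ x) (P₂ x)) := by
    refine ⟨fun x hx => SP.MSm.sub (hT.smooth x hx) ((h₁.smooth x hx).add (sQ x hx)), fun x hx => ?_⟩
    simp only [tW]
    rw [Matrix.sub_mul, Matrix.mul_sub, Matrix.mul_sub, hT.idem x hx, eT1 x hx, eT2 x hx,
      iS.idem x hx, sub_self, sub_zero]
  refine ⟨cs hX iW, ?_, fun j hj => ?_⟩
  · have e1 := cs_orth hX hT iS iW (fun x hx => by simp only [tW]; rw [add_sub_cancel])
      (fun x hx => by simp only [tW]; rw [Matrix.mul_sub, eT1 x hx, iS.idem x hx, sub_self])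
      (fun x hx => by simp only [tW]; rw [Matrix.sub_mul, eT2 x hx, iS.idem x hx, sub_self])
    have e2 := cs_orth hX iS h₁ iQ (fun x _ => rfl) (fun x hx => P1_tQ (h₁.idem x hx))
      (fun x hx => tQ_P1 (h₁.idem x hx) (h1h x hx))
    have e3 := cs_iso hX h₂ iQ sA fun x hx => ⟨_, pIso_tQ (h₂.idem x hx) (hinj x hx)⟩
    rw [e1, e2, ← e3]
  · rw [coeff_cs]
    refine cc_eq_zero hX iW fun x hx => ?_
    have t1 := rank_eq_trace (iW.idem x hx)
    have t2 := rank_eq_trace (hT.idem x hx)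
    have t3 := rank_eq_trace (h₁.idem x hx)
    have t4 := rank_eq_trace (h₂.idem x hx)
    have t5 : (tQ (P₁ x) (P₂ x)).trace = (P₂ x).trace := by
      rw [tQ, Matrix.trace_mul_comm, tB_tA (h₂.idem x hx) (hinj x hx)]
    have t6 : ((tW (T x) (P₁ x) (P₂ x)).rank : ℂ) + r₁ + r₂ = n := by
      rw [t1, ← rT x hx, ← r1 x hx, ← r2 x hx, t2, t3, t4, tW, Matrix.trace_sub, Matrix.trace_add,
        t5]
      ring
    have t7 : (tW (T x) (P₁ x) (P₂ x)).rank + r₁ + r₂ = n := by exact_mod_cast t6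
    change (tW (T x) (P₁ x) (P₂ x)).rank < j
    omega

end field

end Crest.Agent.R208.FG
end
end

-- ▼ part R208/FG2
section

/-! Row 208, block FG (helper586), part FG2: **cover lemma**: classes `a`, `b` on `X` which vanish
on open sets `U`, `U'` with `X ⊆ U ∪ U'` have product `0`. -/

set_option autoImplicit false
set_option linter.unusedSectionVars false

open Set Filter Topology Module
open scoped ContDiff Manifold
open Crest.Agent.R208.F Crest.Agent.R208.FI Crest.Agent.R208.CW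

noncomputable section

namespace Crest.Agent.R208.FG

variable {E : Type*} [NormedAddCommGroup E] [NormedSpace ℝ E] [FiniteDimensional ℝ E]
  {X U : Set E} {d : ℕ}

theorem smap_incl' {X₁ X₂ : Set E} (h : X₁ ⊆ X₂) : SMap X₁ X₂ (fun x => x) :=
  ⟨fun _ _ => contDiffAt_id, fun _ hz => h hz⟩

theorem pullC_id' (e : E → CF E) (x : E) : pullC (fun x => x) e x = e x := by
  rw [pullC, fderiv_fun_id, ContinuousLinearMap.coe_id]
  exact pbC_id _

/-- smooth cut-off functions -/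
theorem exists_cut {U K : Set E} (hU : IsOpen U) (hK : IsClosed K) (h : K ⊆ U) :
    ∃ φ : E → ℝ, ContDiff ℝ ∞ φ ∧ (∀ x ∈ K, ∀ᶠ y in 𝓝 x, φ y = 1) ∧
      ∀ x ∉ U, ∀ᶠ y in 𝓝 x, φ y = 0 := by
  obtain ⟨χ, h0, h1, -⟩ := exists_contMDiffMap_zero_one_nhds_of_isClosed (n := (⊤ : ℕ∞)) 𝓘(ℝ, E)
    (s := Uᶜ) (t := K) hU.isClosed_compl hK
    (by rw [Set.disjoint_compl_left_iff_subset]; exact h)
  exact ⟨χ, χ.contMDiff.contDiff, fun x hx => (eventually_nhdsSet_iff_forall.1 h1) x hx,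
    fun x hx => (eventually_nhdsSet_iff_forall.1 h0) x hx⟩

/-- cut-off of a form -/
def cut (φ : E → ℝ) (ξ : E → CF E) (y : E) : CF E := algebraMap ℂ (CF E) (φ y : ℂ) * ξ y

theorem smo_cut {φ : E → ℝ} (hφ : ContDiff ℝ ∞ φ) (h0 : ∀ x ∉ U, ∀ᶠ y in 𝓝 x, φ y = 0)
    {ξ : E → CF E} (hξ : Smo (X ∩ U) ξ) : Smo X (cut φ ξ) := by
  intro x hx
  by_cases hU : x ∈ U
  · exact (CD.of_fun (Complex.ofRealCLM.contDiff.contDiffAt.comp x hφ.contDiffAt)).mul
      (hξ x ⟨hx, hU⟩)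
  · refine (CD.const (k := ∞) (x := x) (0 : CF E)).congr ?_
    filter_upwards [h0 x hU] with y hy
    rw [cut, hy, Complex.ofReal_zero, map_zero, zero_mul]

theorem cut_one {φ : E → ℝ} {ξ : E → CF E} {x : E} (h1 : ∀ᶠ y in 𝓝 x, φ y = 1) :
    cut φ ξ =ᶠ[𝓝 x] ξ := by
  filter_upwards [h1] with y hy
  rw [cut, hy, Complex.ofReal_one, map_one, one_mul]

theorem rs_of_inter (hU : IsOpen U) {x : E} (hx : x ∈ U) {c c' : CF E}
    (h : rs (X ∩ U) x c = rs (X ∩ U) x c') : rs X x c = rs X x c' := by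
  have h3 : ∀ (K K' : Submodule ℝ E), K = K' → pbC K.subtype c = pbC K.subtype c' →
      pbC K'.subtype c = pbC K'.subtype c' := by
    rintro K K' rfl h; exact h
  exact h3 _ _ (tan_inter hU hx) h

/-- vanishing on an open subset, in terms of forms -/
theorem exists_prim {om : E → CF E} (hom : om ∈ Z X)
    (ha : H.map (smap_incl' (X₁ := X ∩ U) inter_subset_left) (cls om hom) = 0) :
    ∃ ξ : E → CF E, Smo (X ∩ U) ξ ∧ ∀ x ∈ X ∩ U, rs (X ∩ U) x (om x) = rs (X ∩ U) x (dC ξ x) := by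
  rw [H.map_cls] at ha
  obtain ⟨ξ, h1, h2⟩ := cls_eq_zero_iff.1 ha
  refine ⟨ξ, h1, fun x hx => ?_⟩
  rw [← h2 x hx, pullC_id']

/-- **cover lemma** -/
theorem mul_eq_zero_of_cover (hXc : IsClosed X) {U U' : Set E} (hU : IsOpen U)
    (hU' : IsOpen U') (hcov : X ⊆ U ∪ U') {a b : H X}
    (ha : H.map (smap_incl' (X₁ := X ∩ U) inter_subset_left) a = 0)
    (hb : H.map (smap_incl' (X₁ := X ∩ U') inter_subset_left) b = 0) : a * b = 0 := by
  obtain ⟨om, hom, rfl⟩ := a.exists_rep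
  obtain ⟨η, hη, rfl⟩ := b.exists_rep
  obtain ⟨ξ, hξ, hξ2⟩ := exists_prim hom ha
  obtain ⟨ζ, hζ, hζ2⟩ := exists_prim hη hb
  -- the cut-off functions
  obtain ⟨φ, hφ, hφ1, hφ0⟩ := exists_cut hU (hXc.inter hU'.isClosed_compl) (by
    rintro x ⟨hx, hx'⟩
    exact (hcov hx).resolve_right hx')
  set V : Set E := interior {x | φ x = 1} with hV
  have hVo : IsOpen V := isOpen_interior
  obtain ⟨ψ, hψ, hψ1, hψ0⟩ := exists_cut hU' (hXc.inter hVo.isClosed_compl) (by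
    rintro x ⟨hx, hx'⟩
    by_contra hxU
    exact hx' (mem_interior_iff_mem_nhds.2 (hφ1 x ⟨hx, hxU⟩)))
  have hξs : Smo X (cut φ ξ) := smo_cut hφ hφ0 hξ
  have hζs : Smo X (cut ψ ζ) := smo_cut hψ hψ0 hζ
  rw [← cls_mul, cls_eq_zero_iff]
  refine ⟨cut φ ξ * η + om * cut ψ ζ - cut φ ξ * dC (cut ψ ζ),
    ((hξs.mul hη.2.1).add (hom.2.1.mul hζs)).sub (hξs.mul hζs.dC), fun x hx => ?_⟩
  have c1 : CD 1 (cut φ ξ) x := hξs.cd1 hx
  have c2 : CD 1 (cut ψ ζ) x := hζs.cd1 hx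
  have c3 : CD 1 om x := hom.2.1.cd1 hx
  have c4 : CD 1 η x := hη.2.1.cd1 hx
  have c5 : CD 1 (dC (cut ψ ζ)) x := hζs.dC.cd1 hx
  have e1 : dC (cut φ ξ * η + om * cut ψ ζ - cut φ ξ * dC (cut ψ ζ)) x =
      (dC (cut φ ξ) x * η x + invC (cut φ ξ x) * dC η x) +
      (dC om x * cut ψ ζ x + invC (om x) * dC (cut ψ ζ) x) -
      (dC (cut φ ξ) x * dC (cut ψ ζ) x + invC (cut φ ξ x) * dC (dC (cut ψ ζ)) x) := by
    have f1 : dC (cut φ ξ * η + om * cut ψ ζ - cut φ ξ * dC (cut ψ ζ)) x =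
        dC (cut φ ξ * η + om * cut ψ ζ) x - dC (cut φ ξ * dC (cut ψ ζ)) x :=
      dC_sub ((c1.mul c4).add (c3.mul c2)) (c1.mul c5)
    have f2 : dC (cut φ ξ * η + om * cut ψ ζ) x = dC (cut φ ξ * η) x + dC (om * cut ψ ζ) x :=
      dC_add (c1.mul c4) (c3.mul c2)
    have f3 : dC (cut φ ξ * η) x = dC (cut φ ξ) x * η x + invC (cut φ ξ x) * dC η x :=
      dC_mul c1 c4
    have f4 : dC (om * cut ψ ζ) x = dC om x * cut ψ ζ x + invC (om x) * dC (cut ψ ζ) x :=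
      dC_mul c3 c2
    have f5 : dC (cut φ ξ * dC (cut ψ ζ)) x =
        dC (cut φ ξ) x * dC (cut ψ ζ) x + invC (cut φ ξ x) * dC (dC (cut ψ ζ)) x :=
      dC_mul c1 c5
    rw [f1, f2, f3, f4, f5]
  rw [e1, dC_dC ((hζs x hx).of_le two_le)]
  simp only [map_sub, map_add, map_mul, mul_zero, add_zero, hη.2.2 x hx,
    hom.2.2 x hx, zero_mul, zero_add, hom.1 x]
  change rs X x (om x * η x) = _
  rw [map_mul]
  rcases Classical.em (x ∈ V) with hxV | hxV
  · -- `φ = 1` near `x`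
    have h1 : ∀ᶠ y in 𝓝 x, φ y = 1 := mem_interior_iff_mem_nhds.1 hxV
    have hxU : x ∈ U := by
      by_contra hxU
      obtain ⟨y, hy⟩ := (h1.and (hφ0 x hxU)).exists
      rw [hy.1] at hy
      exact one_ne_zero hy.2
    have h2 : rs X x (om x) = rs X x (dC (cut φ ξ) x) := by
      rw [dC_congr (cut_one h1)]
      exact rs_of_inter hU hxU (hξ2 x ⟨hx, hxU⟩)
    rw [h2]
    abel
  · have h1 : ∀ᶠ y in 𝓝 x, ψ y = 1 := hψ1 x ⟨hx, hxV⟩
    have hxU : x ∈ U' := by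
      by_contra hxU
      obtain ⟨y, hy⟩ := (h1.and (hψ0 x hxU)).exists
      rw [hy.1] at hy
      exact one_ne_zero hy.2
    have h2 : rs X x (η x) = rs X x (dC (cut ψ ζ) x) := by
      rw [dC_congr (cut_one h1)]
      exact rs_of_inter hU' hxU (hζ2 x ⟨hx, hxU⟩)
    rw [h2]
    abel

end Crest.Agent.R208.FG
end
end

-- ▼ part R208/FG2b
section

/-! Row 208, block FG (helper586), part FG2b: close maps into a closed manifold induce the same map
on classes. -/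

set_option autoImplicit false
set_option linter.unusedSectionVars false

open Set Filter Topology Module
open scoped ContDiff Manifold
open Crest.Agent.R208.F Crest.Agent.R208.FI Crest.Agent.R208.CW

noncomputable section

namespace Crest.Agent.R208.FG

universe u

variable {E : Type u} [NormedAddCommGroup E] [NormedSpace ℝ E] [FiniteDimensional ℝ E]
  {F : Type*} [NormedAddCommGroup F] [InnerProductSpace ℝ F] [FiniteDimensional ℝ F]

/-- **close maps are homotopic**, on classes -/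
theorem exists_close {n : ℕ} {Y : Set F} (hY : Clo n Y) :
    ∃ δ : ℝ, 0 < δ ∧ ∀ {d : ℕ} {X : Set E} (_ : Sub d X) {f g : E → F} (hf : SMap X Y f)
      (hg : SMap X Y g), (∀ x ∈ X, ‖f x - g x‖ < δ) → ∀ a : H Y, H.map hf a = H.map hg a := by
  obtain ⟨r, O, hO, hYO, hr, hrm, hr1⟩ := Crest.Agent.R208.E.exists_retract hY
  obtain ⟨δ, hδ, hδO⟩ := hY.compact.exists_thickening_subset_open hO hYO
  refine ⟨δ, hδ, fun {d X} hX {f g} hf hg hfg a => ?_⟩
  have hmem : ∀ x ∈ X, ∀ t ∈ Icc (0 : ℝ) 1, f x + t • (g x - f x) ∈ O := by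
    intro x hx t ht
    refine hδO (Metric.mem_thickening_iff.2 ⟨f x, hf.maps hx, ?_⟩)
    rw [dist_eq_norm, add_sub_cancel_left, norm_smul, Real.norm_of_nonneg ht.1]
    have h1 : ‖g x - f x‖ < δ := by rw [norm_sub_rev]; exact hfg x hx
    calc t * ‖g x - f x‖ ≤ 1 * ‖g x - f x‖ :=
          mul_le_mul_of_nonneg_right ht.2 (norm_nonneg _)
      _ < δ := by rw [one_mul]; exact h1
  let Fh : E × ℝ → F := fun z => r (f z.1 + z.2 • (g z.1 - f z.1))
  have hFh : ∀ x ∈ X, ∀ t ∈ Icc (0 : ℝ) 1, ContDiffAt ℝ ∞ Fh (x, t) := by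
    intro x hx t ht
    have h1 : ContDiffAt ℝ ∞ (fun z : E × ℝ => f z.1 + z.2 • (g z.1 - f z.1)) (x, t) := by
      have e1 : ContDiffAt ℝ ∞ (fun z : E × ℝ => f z.1) (x, t) :=
        ContDiffAt.comp (x, t) (hf.smooth x hx) contDiffAt_fst
      have e2 : ContDiffAt ℝ ∞ (fun z : E × ℝ => g z.1) (x, t) :=
        ContDiffAt.comp (x, t) (hg.smooth x hx) contDiffAt_fst
      exact e1.add (contDiffAt_snd.smul (e2.sub e1))
    exact ContDiffAt.comp (x, t) (hr.contDiffAt (hO.mem_nhds (hmem x hx t ht))) h1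
  have hm : ∀ x ∈ X, ∀ t ∈ Icc (0 : ℝ) 1, Fh (x, t) ∈ Y := fun x hx t ht => hrm (hmem x hx t ht)
  have hs : ∀ t ∈ Icc (0 : ℝ) 1, SMap X Y (fun y => Fh (y, t)) := fun t ht =>
    ⟨fun x hx => ContDiffAt.comp (g := Fh) (f := fun y => (y, t)) x (hFh x hx t ht)
      (contDiffAt_id.prodMk contDiffAt_const),
      fun x hx => hm x hx t ht⟩
  have h0 := hs 0 ⟨le_rfl, zero_le_one⟩
  have h1 := hs 1 ⟨zero_le_one, le_rfl⟩
  have k0 : H.map hf a = H.map h0 a := H.map_congr' hX hf h0 (fun x hx => by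
    change f x = r (f x + (0 : ℝ) • (g x - f x))
    rw [zero_smul, add_zero, hr1 _ (hf.maps hx)]) a
  have k1 : H.map hg a = H.map h1 a := H.map_congr' hX hg h1 (fun x hx => by
    change g x = r (f x + (1 : ℝ) • (g x - f x))
    rw [one_smul, add_sub_cancel, hr1 _ (hg.maps hx)]) a
  rw [k0, k1]
  exact (H.map_homotopy hFh hm h0 h1 a).symm

end Crest.Agent.R208.FG
end
end

-- ▼ part R208/FG3b

/-! Row 208, block FG (helper586), part FG3b: on `F ×_M F` off the diagonal `q = q'` the bundle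
`T_pM` contains `V_pq ⊕ V_pq'`. -/

set_option autoImplicit false
set_option linter.unusedSectionVars false

open Set Filter Topology Module Matrix
open scoped ContDiff BigOperators RealInnerProductSpace
open Crest.GeometryTopology.Submanifold
open Crest.Agent.R241.DDefs
open Crest.Agent.R241.D2
open Crest.Agent.R208.F Crest.Agent.R208.FI
open Crest.Agent.R208.CW (SMap IdF SM cs cc integ cls)
open Crest.Agent.R208.GT (bas mM mV)

noncomputable section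

namespace Crest.Agent.R208.FG

/-! ### linear algebra -/

theorem cr_mulVec {m : Type*} [Fintype m] {M : Matrix m m ℝ} {v : m → ℂ}
    (h : (SP.cr M).mulVec v = v) :
    (M.mulVec (fun i => (v i).re) = fun i => (v i).re) ∧
      (M.mulVec (fun i => (v i).im) = fun i => (v i).im) := by
  have h1 : ∀ i, ∑ j, (M i j : ℂ) * v j = v i := fun i => congrFun h i
  constructor
  · funext i
    have := congrArg Complex.re (h1 i)
    rw [Complex.re_sum] at this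
    simp only [Complex.re_ofReal_mul] at this
    exact this
  · funext i
    have := congrArg Complex.im (h1 i)
    rw [Complex.im_sum] at this
    simp only [Complex.im_ofReal_mul] at this
    exact this

theorem fix_of_mulVec {N : ℕ} {T : Euc N →L[ℝ] Euc N} {w : Fin N → ℝ}
    (h : (SP.mt (bas N) (bas N) T).mulVec w = w) :
    T ((bas N).equivFun.symm w) = (bas N).equivFun.symm w := by
  have h1 := SP.mt_mulVec (bas N) (bas N) T ((bas N).equivFun.symm w)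
  have h2 : (⇑((bas N).repr ((bas N).equivFun.symm w)) : Fin N → ℝ) = w :=
    (bas N).equivFun.apply_symm_apply w
  rw [h2, h] at h1
  apply (bas N).equivFun.injective
  rw [LinearEquiv.apply_symm_apply]
  exact h1.symm

theorem rank_cr {N : ℕ} {T : Euc N →L[ℝ] Euc N} (hT : ∀ v, T (T v) = T v) :
    (SP.cr (SP.mt (bas N) (bas N) T)).rank = finrank ℝ (LinearMap.range (T : Euc N →ₗ[ℝ] Euc N)) := by
  have hid : T.comp T = T := by ext1 v; exact hT v
  have h1 : SP.cr (SP.mt (bas N) (bas N) T) * SP.cr (SP.mt (bas N) (bas N) T)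
      = SP.cr (SP.mt (bas N) (bas N) T) := by
    rw [← SP.cr_mul, ← SP.mt_comp, hid]
  have h2 := CW.rank_eq_trace h1
  have hp : LinearMap.IsProj (LinearMap.range (T : Euc N →ₗ[ℝ] Euc N))
      (T : Euc N →ₗ[ℝ] Euc N) := by
    refine ⟨fun x => ⟨x, rfl⟩, ?_⟩
    rintro _ ⟨x, rfl⟩
    exact hT x
  have h3 := hp.trace
  have h4 : (SP.cr (SP.mt (bas N) (bas N) T)).trace
      = ((LinearMap.trace ℝ (Euc N) (T : Euc N →ₗ[ℝ] Euc N) : ℝ) : ℂ) := by
    rw [LinearMap.trace_eq_matrix_trace ℝ (bas N), Matrix.trace, Matrix.trace, Complex.ofReal_sum]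
    rfl
  rw [h4, h3] at h2
  exact_mod_cast h2

theorem cr_hermitian {N : ℕ} {T : Euc N →L[ℝ] Euc N} (hT : ∀ v w, ⟪T v, w⟫ = ⟪v, T w⟫) :
    (SP.cr (SP.mt (bas N) (bas N) T))ᴴ = SP.cr (SP.mt (bas N) (bas N) T) := by
  refine Matrix.ext fun i j => ?_
  rw [conjTranspose_apply, SP.cr_apply, SP.cr_apply, GT.mt_bas, GT.mt_bas, ← hT,
    real_inner_comm (bas N i)]
  exact Complex.conj_ofReal _

theorem cr_mul_of {N : ℕ} {T P : Euc N →L[ℝ] Euc N} (h : ∀ v, T (P v) = P v) :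
    SP.cr (SP.mt (bas N) (bas N) T) * SP.cr (SP.mt (bas N) (bas N) P)
      = SP.cr (SP.mt (bas N) (bas N) P) := by
  have hid : T.comp P = P := by ext1 v; exact h v
  rw [← SP.cr_mul, ← SP.mt_comp, hid]

theorem cr_mul_of' {N : ℕ} {T P : Euc N →L[ℝ] Euc N} (h : ∀ v, P (T v) = P v) :
    SP.cr (SP.mt (bas N) (bas N) P) * SP.cr (SP.mt (bas N) (bas N) T)
      = SP.cr (SP.mt (bas N) (bas N) P) := by
  have hid : P.comp T = P := by ext1 v; exact h v
  rw [← SP.cr_mul, ← SP.mt_comp, hid]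

/-! ### geometry -/

variable {n N k : ℕ} {κ : ℝ} {S : Set (Euc N)} {G : Geo n N κ S}
  {PV : Euc N × Euc N → Euc N →L[ℝ] Euc N}

theorem inner_P {x : Euc N} (hx : x ∈ S) (v w : Euc N) : ⟪G.P x v, w⟫ = ⟪v, G.P x w⟫ := by
  rw [G.P_eq x hx]
  exact Submodule.inner_starProjection_left_eq_right _ _ _

theorem range_P {x : Euc N} (hx : x ∈ S) :
    LinearMap.range (G.P x : Euc N →ₗ[ℝ] Euc N) = G.T x := by
  apply le_antisymm
  · rintro _ ⟨v, rfl⟩; exact P_mem G hx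
  · intro v hv; exact ⟨v, (P_eq_self G hx).1 hv⟩

theorem range_PV (hV : GT.VField G PV) {z : Euc N × Euc N} (hz : z ∈ GT.FF S) :
    LinearMap.range (PV z : Euc N →ₗ[ℝ] Euc N) = GT.Vs G z.1 z.2 := by
  apply le_antisymm
  · rintro _ ⟨v, rfl⟩; exact hV.PV_mem (p := z.1) (q := z.2) hz v
  · intro v hv; exact ⟨v, hV.PV_eq_self (p := z.1) (q := z.2) hz hv⟩

/-- `V_pq ∩ V_pq' = 0` for `q ≠ q'` -/
theorem Vs_inter (h : GT.Bla G k) {p q q' v : Euc N} (hz : (p, q) ∈ GT.FF S)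
    (hz' : (p, q') ∈ GT.FF S) (hne : q ≠ q') (hv : v ∈ GT.Vs G p q) (hv' : v ∈ GT.Vs G p q') :
    v = 0 := by
  by_contra h0
  have h1 := h.Exp_pi hz ((GT.Vs G p q).smul_mem (‖v‖⁻¹ : ℝ) hv) (GT.unit_of h0)
  have h2 := h.Exp_pi hz' ((GT.Vs G p q').smul_mem (‖v‖⁻¹ : ℝ) hv') (GT.unit_of h0)
  exact hne (h1.symm.trans h2)

/-- off the diagonal -/
def offD (N : ℕ) : Set ((Euc N × Euc N) × (Euc N × Euc N)) := {z | z.1.2 ≠ z.2.2}

theorem isOpen_offD : IsOpen (offD N) := by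
  have h1 : Continuous fun z : (Euc N × Euc N) × (Euc N × Euc N) => z.1.2 :=
    continuous_snd.comp continuous_fst
  have h2 : Continuous fun z : (Euc N × Euc N) × (Euc N × Euc N) => z.2.2 :=
    continuous_snd.comp continuous_snd
  exact isOpen_ne_fun h1 h2

/-- `T_pM` on `FFF` -/
theorem idf_TMM : IdF (FFF S) (fun z => mM G z.1.1) :=
  ((GT.idf_mM (G := G)).comp smap_fst).comp smap_1

theorem idf_V1 (hV : GT.VField G PV) : IdF (FFF S) (fun z => mV PV z.1) :=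
  (GT.idf_mV hV).comp smap_1

theorem idf_V2 (hV : GT.VField G PV) : IdF (FFF S) (fun z => mV PV z.2) :=
  (GT.idf_mV hV).comp smap_2

/-- **the Whitney formula off the diagonal** -/
theorem cs_off (h : GT.Bla G k) (hV : GT.VField G PV) {d : ℕ} {U : Set _}
    (hUo : U ⊆ offD N) (hX : Sub d (FFF S ∩ U)) :
    ∃ c : PowerSeries (CW.H (FFF S ∩ U)),
      cs hX ((idf_TMM (G := G)).comp (smap_incl' (X₁ := FFF S ∩ U) inter_subset_left))
        = cs hX ((idf_V1 hV).comp (smap_incl' (X₁ := FFF S ∩ U) inter_subset_left))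
          * cs hX ((idf_V2 hV).comp (smap_incl' (X₁ := FFF S ∩ U) inter_subset_left)) * c ∧
      ∀ j, n < j + (k + k) → PowerSeries.coeff j c = 0 := by
  have hp : ∀ z ∈ FFF S ∩ U, z.1.1 ∈ S := fun z hz => hz.1.1.1
  have e0 : ∀ z ∈ FFF S ∩ U, z.1.1 = z.2.1 := fun z hz => hz.1.2.2
  have f1 : ∀ z ∈ FFF S ∩ U, (z.1.1, z.1.2) ∈ GT.FF S := fun z hz => hz.1.1
  have f2 : ∀ z ∈ FFF S ∩ U, (z.2.1, z.2.2) ∈ GT.FF S := fun z hz => hz.1.2.1
  have f2' : ∀ z ∈ FFF S ∩ U, (z.1.1, z.2.2) ∈ GT.FF S := fun z hz => by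
    rw [e0 z hz]; exact f2 z hz
  refine cs_three hX _ _ _ ?_ ?_ ?_ ?_ ?_ ?_ ?_ ?_ ?_
  · intro z hz
    refine cr_mul_of (T := G.P z.1.1) (P := PV z.1) fun v => ?_
    exact (P_eq_self G (hp z hz)).1 (h.Vs_le (f1 z hz) (hV.PV_mem (f1 z hz) v))
  · intro z hz
    refine cr_mul_of' (T := G.P z.1.1) (P := PV z.1) fun v => ?_
    have h1 : PV z.1 (v - G.P z.1.1 v) = 0 := by
      refine hV.PV_eq_zero (p := z.1.1) (q := z.1.2) (f1 z hz) ?_
      rw [Submodule.mem_orthogonal]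
      intro u hu
      have h2 : G.P z.1.1 u = u := (P_eq_self G (hp z hz)).1 (h.Vs_le (f1 z hz) hu)
      rw [inner_sub_right, ← inner_P (hp z hz), h2, sub_self]
    rw [map_sub, sub_eq_zero] at h1
    exact h1.symm
  · intro z hz
    refine cr_mul_of (T := G.P z.1.1) (P := PV z.2) fun v => ?_
    have h1 : PV z.2 v ∈ G.T z.2.1 := h.Vs_le (f2 z hz) (hV.PV_mem (f2 z hz) v)
    rw [← e0 z hz] at h1
    exact (P_eq_self G (hp z hz)).1 h1
  · intro z hz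
    exact cr_hermitian (T := G.P z.1.1) fun v w => inner_P (hp z hz) v w
  · intro z hz
    exact cr_hermitian (T := PV z.1) fun v w => hV.inner_PV (p := z.1.1) (q := z.1.2) (f1 z hz) v w
  · intro z hz v h1 h2
    obtain ⟨r1, i1⟩ := cr_mulVec (M := SP.mt (bas N) (bas N) (PV z.1)) h1
    obtain ⟨r2, i2⟩ := cr_mulVec (M := SP.mt (bas N) (bas N) (PV z.2)) h2
    have key : ∀ w : Fin N → ℝ, (SP.mt (bas N) (bas N) (PV z.1)).mulVec w = w →
        (SP.mt (bas N) (bas N) (PV z.2)).mulVec w = w → w = 0 := by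
      intro w g1 g2
      have g3 := fix_of_mulVec g1
      have g4 := fix_of_mulVec g2
      have g5 : (bas N).equivFun.symm w = 0 := by
        refine Vs_inter h (f1 z hz) (f2' z hz) (hUo hz.2) ?_ ?_
        · rw [← g3]; exact hV.PV_mem (f1 z hz) _
        · rw [← g4, e0 z hz]; exact hV.PV_mem (f2 z hz) _
      have g6 := congrArg (bas N).equivFun g5
      rwa [LinearEquiv.apply_symm_apply, map_zero] at g6
    have k1 := key _ r1 r2
    have k2 := key _ i1 i2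
    funext i
    exact Complex.ext (congrFun k1 i) (congrFun k2 i)
  · intro z hz
    refine (rank_cr (T := G.P z.1.1) fun v => P_idem G (hp z hz) v).trans ?_
    rw [range_P (hp z hz)]
    exact G.finrank_T _ (hp z hz)
  · intro z hz
    refine (rank_cr (T := PV z.1) fun v => hV.PV_idem (p := z.1.1) (q := z.1.2) (f1 z hz) v).trans ?_
    rw [range_PV hV (f1 z hz)]
    exact h.finrank_Vs (f1 z hz)
  · intro z hz
    refine (rank_cr (T := PV z.2) fun v => hV.PV_idem (p := z.2.1) (q := z.2.2) (f2 z hz) v).trans ?_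
    rw [range_PV hV (f2 z hz)]
    exact h.finrank_Vs (f2 z hz)

/-- classes which vanish off the diagonal are killed by `q^*x - q'^*x` -/
theorem sub_mul_eq_zero (h : GT.Bla G k) {s : CW.H (FFF S)}
    (hs : CW.H.map (smap_incl' (X₁ := FFF S ∩ offD N) inter_subset_left) s = 0) (x : CW.H S) :
    (CW.H.map smap_1 (xq x) - CW.H.map smap_2 (xq x)) * s = 0 := by
  obtain ⟨δ, hδ, hclose⟩ := exists_close.{0} (E := (Euc N × Euc N) × (Euc N × Euc N))
    (GP.clo_S h.bl)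
  have hk := h.ty.le
  have hF := clo_FFF h (d := 2 * n - k) (by omega)
  set U : Set ((Euc N × Euc N) × (Euc N × Euc N)) := {z | ‖z.1.2 - z.2.2‖ < δ} with hU
  have hUo : IsOpen U := by
    have h1 : Continuous fun z : (Euc N × Euc N) × (Euc N × Euc N) => ‖z.1.2 - z.2.2‖ :=
      ((continuous_snd.comp continuous_fst).sub (continuous_snd.comp continuous_snd)).norm
    exact isOpen_lt h1 continuous_const
  have hsub : Sub _ (FFF S ∩ U) := hF.sub.inter_open hUo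
  refine mul_eq_zero_of_cover hF.compact.isClosed hUo (isOpen_offD (N := N)) ?_ ?_ hs
  · intro z _
    by_cases h1 : z.1.2 = z.2.2
    · left
      change ‖z.1.2 - z.2.2‖ < δ
      rw [h1, sub_self, norm_zero]; exact hδ
    · right; exact h1
  · rw [map_sub, sub_eq_zero, xq, CW.H.map_map, CW.H.map_map, CW.H.map_map, CW.H.map_map]
    exact hclose hsub _ _ (fun z hz => hz.2) x

end Crest.Agent.R208.FG
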