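import Crest.Agent.R208.T3a
import Crest.Agent.R208.TX2c
import Crest.Agent.R208.TI5
import Crest.Agent.R208.HY1

-- ▼ part R208/TG1
section

/-! Row 208, block TG (helper88).  TG1: the upper half of the Gysin sequence for an oriented even rank
bundle: fibre integration of closed forms on the sphere bundle. -/

set_option autoImplicit false
set_option linter.unusedSectionVars false

open MeasureTheory Set Filter Topology Module
open scoped ContDiff
open Crest.Agent.R208.F Crest.Agent.R208.FI Crest.Agent.R208.CW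

noncomputable section

namespace Crest.Agent.R208.T

universe u w

variable {E : Type u} {H : Type w} [NormedAddCommGroup E] [NormedSpace ℝ E] [FiniteDimensional ℝ E]
  [NormedAddCommGroup H] [InnerProductSpace ℝ H] [FiniteDimensional ℝ H]
  {X : Set E} {P : E → H →L[ℝ] H} {r d : ℕ} {R c₀ : ℝ} {e : E → Ext E}
  {τ τ' om : E × H → Ext (E × H)}

/-- a closed form on the sphere bundle whose compactly supported coboundary is exact comes from the
base. -/
theorem sph_of_exact {R' : ℝ} (hR' : 2 ≤ R') (hc0 : c₀ ≠ 0)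
    {j : ℕ} {b : E × H → Ext (E × H)}
    (hb : Sm (Sph X P) b) (hd : Hom j b)
    {L : E × H → Ext (E × H)} (sL : Sm (Tot X P) L)
    (vL : ∀ z : E × H, 2 * R' + 1 < ‖z.2‖ → L z = 0)
    (eL : Eqv (Tot X P) (c₀ • F.d (rx b)) (F.d L)) :
    ∃ c : E → Ext E, Sm X c ∧ Cl X c ∧ Hom j c ∧ Coh (Sph X P) b (F.pull Prod.fst c) := by
  set a := rx b with ha
  have sa : Sm (Tot X P) a := hb.rx
  set ξ := c₀ • a - L with hξ
  have sξ : Sm (Tot X P) ξ := (sa.smul c₀).sub sL
  have cξ : Cl (Tot X P) ξ := by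
    rw [Cl, resZero_iff]
    refine (d_sub_eqv (sa.smul c₀) sL).trans ?_
    have h1 : Eqv (Tot X P) (F.d (c₀ • a)) (F.d L) := (d_smul_eqv c₀ sa).trans eL
    have := h1.sub (Eqv.refl (F.d L))
    rwa [sub_self] at this
  have k1 := coh_z0 sξ cξ
  set ρ : ℝ := 2 * R' + 2 with hρ
  have hρ1 : 1 < ρ := by rw [hρ]; linarith
  let s : E × H → E × H := fun z => (z.1, ρ • z.2)
  have hs : SMap (Sph X P) (Tot X P ∩ {z | 1 < ‖z.2‖}) s := by
    refine ⟨fun z _ => by fun_prop, fun z hz => ⟨⟨hz.1.1, ?_⟩, ?_⟩⟩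
    · change P z.1 (ρ • z.2) = ρ • z.2
      rw [map_smul, hz.1.2]
    · change 1 < ‖ρ • z.2‖
      rw [norm_smul, hz.2, mul_one, Real.norm_of_nonneg (by linarith)]
      exact hρ1
  have hs' : SMap (Sph X P) (Tot X P) s := ⟨hs.smooth, fun z hz => (hs.maps hz).1⟩
  have k2 := k1.pull hs'
  have k3 : Eqv (Sph X P) (F.pull s ξ) (c₀ • b) := by
    rw [hξ, pull_sub', pull_smul']
    have h1 : Eqv (Sph X P) (F.pull s L) 0 := Eqv.of_eq fun z hz => by
      refine pull_of_zero (vL _ ?_)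
      change 2 * R' + 1 < ‖ρ • z.2‖
      rw [norm_smul, hz.2, mul_one, Real.norm_of_nonneg (by linarith), hρ]
      linarith
    have h2 : Eqv (Sph X P) (F.pull s a) b := by
      have h3 : Eqv (Sph X P) (F.pull s a) (F.pull s (F.pull rh b)) := Eqv.of_eq fun z hz => by
        rw [F.pull, F.pull, ha, (rx_near_out b (hs.maps hz).2).eq_of_nhds]
      refine h3.trans ((eqv_pull_pull hs (smap_rh') (SMap.id _) (fun z hz => ?_) b).trans
        (Eqv.of_eq fun z _ => F.pull_id b z))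
      refine Prod.ext rfl ?_
      change ‖ρ • z.2‖⁻¹ • (ρ • z.2) = z.2
      rw [norm_smul, hz.2, mul_one, Real.norm_of_nonneg (by linarith), smul_smul,
        inv_mul_cancel₀ (by linarith), one_smul]
    have := (h2.smul c₀).sub h1
    rwa [sub_zero] at this
  have k4 : Eqv (Sph X P) (F.pull s (F.pull z0 ξ)) (F.pull Prod.fst (F.pull zs ξ)) := by
    have h1 : SMap (Sph X P) (Tot X P) (z0 (E := E) (H := H)) :=
      ⟨fun _ _ => contDiffAt_fst.prodMk contDiffAt_const, fun z hz => ⟨hz.1.1, map_zero (P z.1)⟩⟩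
    exact (eqv_pull_pull hs' smap_z0 h1 (fun _ _ => rfl) ξ).trans
      (eqv_pull_pull smap_fstS smap_zs h1 (fun _ _ => rfl) ξ).symm
  have k5 : Coh (Sph X P) (c₀ • b) (F.pull Prod.fst (F.pull zs ξ)) :=
    (Coh.of_eqv k3.symm).trans (k2.trans (Coh.of_eqv k4))
  have k6 := (k5.smul c₀⁻¹).dp j
  have h7 : c₀⁻¹ • c₀ • b = b := by rw [smul_smul, inv_mul_cancel₀ hc0, one_smul]
  rw [h7, hd.dp_eq, ← pull_smul', dp_pull] at k6
  have s1 : Sm X (c₀⁻¹ • F.pull zs ξ) := (sξ.pull smap_zs).smul _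
  exact ⟨dp j (c₀⁻¹ • F.pull zs ξ), s1.dp j,
    Cl.dp j s1 (Cl.smul _ (sξ.pull smap_zs) (cξ.pull smap_zs sξ)), hom_dp _ _, k6⟩

variable [MeasurableSpace H] [BorelSpace H] {μ : Measure H} [μ.IsAddHaarMeasure]

/-- fibre integral of a form on the unit sphere bundle (`τ'` a Thom form of `1 - P`) -/
def push (μ : Measure H) (P : E → H →L[ℝ] H) (τ' : E × H → Ext (E × H))
    (b : E × H → Ext (E × H)) : E → Ext E := pI μ (thE' P τ' (cutH 1 (F.d (rx b))))

theorem eqv_d_rx {b : E × H → Ext (E × H)} (hb : Sm (Sph X P) b) (hc : Cl (Sph X P) b) :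
    Eqv (Tot X P ∩ {z | 1 < ‖z.2‖}) (F.d (rx b)) 0 := by
  refine (d_rx hb).trans ?_
  have := Eqv.pull (smap_rh') (resZero_iff.1 hc)
  rwa [pull_zero'] at this

theorem csf_rx (hX : Sub d X) (hP : PField X r P) {b : E × H → Ext (E × H)}
    (hb : Sm (Sph X P) b) (hc : Cl (Sph X P) b) : CSF X P (max R 2) (cutH 1 (F.d (rx b))) :=
  (csf_cutH hX hP zero_le_one hb.rx.d (d_d' hb.rx) (eqv_d_rx hb hc)).mono
    (by rw [show (1 : ℝ) + 1 = 2 by norm_num]; exact le_max_right R 2)

/-- the Thom lemma for the coboundary of `b` -/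
theorem push_spec (hX : Sub d X) (hP : PField X r P) (hT : ThomPair μ X P r R c₀ e τ τ')
    {b : E × H → Ext (E × H)} (hb : Sm (Sph X P) b) (hc : Cl (Sph X P) b) :
    Sm X (push μ P τ' b) ∧ Cl X (push μ P τ' b) ∧
      ∃ L : E × H → Ext (E × H), Sm (Tot X P) L ∧
        (∀ z : E × H, 2 * max R 2 + 1 < ‖z.2‖ → L z = 0) ∧
        Eqv (Tot X P) (c₀ • cutH 1 (F.d (rx b)) - F.pull Prod.fst (push μ P τ' b) * τ) (F.d L) :=
  thom μ hX hP (hT.mono (le_max_left R 2)) (le_trans (by norm_num) (le_max_right R 2))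
    (csf_rx hX hP hb hc)

theorem sm_push (hX : Sub d X) (hP : PField X r P) (hT : ThomPair μ X P r R c₀ e τ τ')
    {b : E × H → Ext (E × H)} (hb : Sm (Sph X P) b) (hc : Cl (Sph X P) b) :
    Sm X (push μ P τ' b) := (push_spec hX hP hT hb hc).1

theorem cl_push (hX : Sub d X) (hP : PField X r P) (hT : ThomPair μ X P r R c₀ e τ τ')
    {b : E × H → Ext (E × H)} (hb : Sm (Sph X P) b) (hc : Cl (Sph X P) b) :
    Cl X (push μ P τ' b) := (push_spec hX hP hT hb hc).2.1

theorem hom_push (hT : ThomPair μ X P r R c₀ e τ τ')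
    (hrN : r ≤ finrank ℝ H) {i j : ℕ} (hij : j + 1 = i + r) {b : E × H → Ext (E × H)}
    (hd : Hom j b) : Hom i (push μ P τ' b) := fun x => by
  refine isDeg_pI μ (p := i) (fun z => ?_) x
  have h1 : IsDeg ((finrank ℝ H - r) + (j + 1)) (thE' P τ' (cutH 1 (F.d (rx b))) z) :=
    isDeg_mul ((hT.deg' _).pb _) ((Hom.cutH (Hom.d hd.rx) _).pb _)
  have h2 : (finrank ℝ H - r) + (j + 1) = i + finrank ℝ H := by omega
  rwa [h2] at h1

theorem push_mul_e (hX : Sub d X) (hP : PField X r P) (hT : ThomPair μ X P r R c₀ e τ τ')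
    {b : E × H → Ext (E × H)} (hb : Sm (Sph X P) b) (hc : Cl (Sph X P) b) :
    Coh X (push μ P τ' b * e) 0 := by
  obtain ⟨-, -, L, sL, -, eL⟩ := push_spec hX hP hT hb hc
  set c := push μ P τ' b with hcdef
  have he : Eqv (Tot X P) (cutH 1 (F.d (rx b))) (F.d (rx b)) :=
    eqv_cutH' zero_le_one (eqv_d_rx hb hc)
  have k1 : Coh (Tot X P) (c₀ • cutH 1 (F.d (rx b))) (F.pull Prod.fst c * τ) := ⟨L, sL, eL⟩
  have k2 := k1.pull (smap_zs (X := X) (P := P))
  rw [pull_smul', pull_mul'] at k2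
  have k3 : Eqv X (F.pull zs (cutH 1 (F.d (rx b)))) 0 := by
    refine (Eqv.pull smap_zs he).trans (Eqv.of_eq fun x _ => ?_)
    refine pull_of_zero ?_
    have : rx b =ᶠ[𝓝 (zs (E := E) (H := H) x)] fun _ => 0 :=
      rx_near_zero b (by rw [zs]; simp)
    rw [F.d_congr this, F.d_const]
  have k4 : Eqv X (F.pull zs (F.pull (Prod.fst : E × H → E) c)) c :=
    (eqv_pull_pull smap_zs (smap_fst' (X := X) (P := P)) (SMap.id X) (fun _ _ => rfl) c).trans
      (Eqv.of_eq fun x _ => F.pull_id c x)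
  have k5 : Eqv X (c₀ • F.pull zs (cutH 1 (F.d (rx b)))) 0 := by
    have := k3.smul c₀
    rwa [smul_zero] at this
  exact ((Coh.of_eqv k5.symm).trans (k2.trans (Coh.of_eqv (k4.mul hT.zero)))).symm

theorem exists_base_of_push (hX : Sub d X) (hP : PField X r P)
    (hT : ThomPair μ X P r R c₀ e τ τ') {j : ℕ} {b : E × H → Ext (E × H)}
    (hb : Sm (Sph X P) b) (hc : Cl (Sph X P) b) (hd : Hom j b) (h : Coh X (push μ P τ' b) 0) :
    ∃ a : E → Ext E, Sm X a ∧ Cl X a ∧ Hom j a ∧ Coh (Sph X P) b (F.pull Prod.fst a) := by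
  obtain ⟨-, -, L, sL, vL, eL⟩ := push_spec hX hP hT hb hc
  set c := push μ P τ' b with hcdef
  have he : Eqv (Tot X P) (cutH 1 (F.d (rx b))) (F.d (rx b)) :=
    eqv_cutH' zero_le_one (eqv_d_rx hb hc)
  obtain ⟨γ, sγ, eγ⟩ := h
  rw [sub_zero] at eγ
  have sγ' : Sm (Tot X P) (F.pull (Prod.fst : E × H → E) γ) := sγ.pull smap_fst'
  set L' := F.pull (Prod.fst : E × H → E) γ * τ + L with hL'
  have sL' : Sm (Tot X P) L' := (sγ'.mul hT.csf.smooth).add sL
  have vL' : ∀ z : E × H, 2 * max R 2 + 1 < ‖z.2‖ → L' z = 0 := fun z hz => by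
    have h1 : R < ‖z.2‖ := by
      have : R ≤ max R 2 := le_max_left R 2
      have : 2 ≤ max R 2 := le_max_right R 2
      linarith
    rw [hL', Pi.add_apply, Pi.mul_apply, hT.csf.supp z h1, vL z hz, mul_zero, add_zero]
  have eL' : Eqv (Tot X P) (c₀ • F.d (rx b)) (F.d L') := by
    refine ((he.symm.smul c₀).trans ?_)
    have h1 : Eqv (Tot X P) (F.d (F.pull (Prod.fst : E × H → E) γ * τ))
        (F.pull (Prod.fst : E × H → E) c * τ) := by
      refine (d_mul_eqv sγ' hT.csf.smooth).trans ?_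
      have h2 : Eqv (Tot X P) (F.d (F.pull (Prod.fst : E × H → E) γ)) (F.pull Prod.fst c) :=
        (d_pull_eqv smap_fst' sγ).trans (Eqv.pull smap_fst' eγ.symm)
      have h3 := (h2.mul (Eqv.refl τ)).add
        ((Eqv.refl (fun z => F.inv (F.pull (Prod.fst : E × H → E) γ z))).mul
          (resZero_iff.1 hT.csf.closed))
      rwa [mul_zero, add_zero] at h3
    have h4 := (d_add_eqv (sγ'.mul hT.csf.smooth) sL).trans (h1.add eL.symm)
    rw [add_sub_cancel] at h4
    exact h4.symm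
  exact sph_of_exact (le_max_right R 2) hT.ne hb hd sL' vL' eL'

/-- **upper half of the Gysin sequence**: a closed form `b` of degree `j = i + r - 1` on the sphere
bundle has a fibre integral `c` (closed of degree `i` on the base) with `c e ~ 0`; if `c ~ 0` then
`b` comes from the base. -/
theorem sph_push (hX : Sub d X) (hP : PField X r P) (hT : ThomPair μ X P r R c₀ e τ τ')
    (hrN : r ≤ finrank ℝ H) {i j : ℕ} (hij : j + 1 = i + r) {b : E × H → Ext (E × H)}
    (hb : Sm (Sph X P) b) (hc : Cl (Sph X P) b) (hd : Hom j b) :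
    ∃ c : E → Ext E, Sm X c ∧ Cl X c ∧ Hom i c ∧ Coh X (c * e) 0 ∧ (Coh X c 0 →
      ∃ a : E → Ext E, Sm X a ∧ Cl X a ∧ Hom j a ∧ Coh (Sph X P) b (F.pull Prod.fst a)) :=
  ⟨push μ P τ' b, sm_push hX hP hT hb hc, cl_push hX hP hT hb hc, hom_push hT hrN hij hd,
    push_mul_e hX hP hT hb hc, exists_base_of_push hX hP hT hb hc hd⟩

end Crest.Agent.R208.T
end
end

-- ▼ part R208/TG3a
section

/-! Row 208, block T (helper88).  TG3a: the upper half of the Gysin sequence for oriented projection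
fields of any codimension; the sphere bundle of a field whose rank is the dimension of the base. -/

set_option autoImplicit false
set_option linter.unusedSectionVars false

open MeasureTheory Set Filter Topology Module
open scoped ContDiff Matrix
open Crest.Agent.R208.F Crest.Agent.R208.FI Crest.Agent.R208.CW

noncomputable section

namespace Crest.Agent.R208.T

variable {n : Type} [Fintype n] [DecidableEq n]
  {E : Type} [NormedAddCommGroup E] [NormedSpace ℝ E] [FiniteDimensional ℝ E]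
  {ι : Type} [Fintype ι] [DecidableEq ι]
  {X : Set E} {P : E → EuclideanSpace ℝ n →L[ℝ] EuclideanSpace ℝ n}
  {W : E → (ι × Fin 2 → n) → ℝ} {d : ℕ}

/-- the Euler form is exact on the sphere bundle -/
theorem fst_euler_exact {H : Type*} [NormedAddCommGroup H] [InnerProductSpace ℝ H]
    [FiniteDimensional ℝ H] {P : E → H →L[ℝ] H} {R : ℝ} {e : E → Ext E}
    {τ : E × H → Ext (E × H)} (hτ : CSF X P R τ)
    (h0 : Eqv X (F.pull (zs (E := E) (H := H)) τ) e) :
    Coh (Sph X P) (F.pull Prod.fst e) 0 := by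
  have a1 := coh_z0 hτ.smooth hτ.closed
  have a2 : Eqv (Tot X P) (F.pull (z0 (E := E) (H := H)) τ) (F.pull Prod.fst e) := by
    refine (eqv_pull_pull smap_fst' smap_zs (smap_z0 (X := X) (P := P)) (fun _ _ => rfl)
      τ).symm.trans ?_
    exact h0.pull smap_fst'
  have a3 : Coh (Tot X P) τ (F.pull Prod.fst e) := a1.trans (Coh.of_eqv a2)
  set ρ : ℝ := max R 0 + 1 with hρ
  have hρ0 : 0 < ρ := by rw [hρ]; positivity
  have hρR : R < ρ := lt_of_le_of_lt (le_max_left R 0) (by rw [hρ]; linarith)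
  let s : E × H → E × H := fun z => (z.1, ρ • z.2)
  have hs : SMap (Sph X P) (Tot X P) s := by
    refine ⟨fun z _ => by fun_prop, fun z hz => ⟨hz.1.1, ?_⟩⟩
    change P z.1 (ρ • z.2) = ρ • z.2
    rw [map_smul, hz.1.2]
  have a4 := a3.pull hs
  have b2 : Eqv (Sph X P) (F.pull s τ) 0 := Eqv.of_eq fun z hz => by
    refine pull_of_zero (hτ.supp _ ?_)
    change R < ‖ρ • z.2‖
    rw [norm_smul, hz.2, mul_one, Real.norm_of_nonneg hρ0.le]
    exact hρR
  have b3 : Eqv (Sph X P) (F.pull s (F.pull (Prod.fst : E × H → E) e)) (F.pull Prod.fst e) :=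
    eqv_pull_pull hs smap_fst' smap_fstS (fun _ _ => rfl) e
  exact (Coh.of_eqv b3.symm).trans (a4.symm.trans (Coh.of_eqv b2))

/-- the Euler form of an oriented field is exact on the sphere bundle -/
theorem OR.fst_eR_exact (hX : Sub d X) [Nonempty ι] (h : OR X P W) :
    Coh (Sph X P) (F.pull Prod.fst (eR P W)) 0 := by
  have h1 := (fst_euler_exact (csf_thomF hX h) (thomF_zero h)).smul 2⁻¹
  rwa [pull_smul', smul_smul, inv_mul_cancel₀ two_ne_zero, one_smul, smul_zero] at h1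

theorem sph_up_OR {ι' : Type} [Fintype ι'] [DecidableEq ι'] [Nonempty ι] [Nonempty ι']
    (eq : (ι × Fin 2) ⊕ (ι' × Fin 2) ≃ n) (hX : Sub d X) (hc : IsPreconnected X)
    (hne : X.Nonempty) (h : OR X P W) {i j : ℕ} (hij : j + 1 = i + 2 * Fintype.card ι)
    {b : E × EuclideanSpace ℝ n → Ext (E × EuclideanSpace ℝ n)} (hb : Sm (Sph X P) b)
    (hcl : Cl (Sph X P) b) (hd : Hom j b) :
    ∃ c : E → Ext E, Sm X c ∧ Cl X c ∧ Hom i c ∧ Coh X (c * eR P W) 0 ∧ (Coh X c 0 →
      ∃ a : E → Ext E, Sm X a ∧ Cl X a ∧ Hom j a ∧ Coh (Sph X P) b (F.pull Prod.fst a)) := by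
  obtain ⟨W', c₀, hT⟩ := exists_thomPair thd_holds eq hX hc hne h
  obtain ⟨c, h1, h2, h3, h4, h5⟩ := sph_push hX h.pfield hT (T.card_le eq) hij hb hcl hd
  refine ⟨c, h1, h2, h3, ?_, h5⟩
  have h6 := h4.smul 2⁻¹
  rwa [smul_zero, mul_smul_comm, smul_smul, inv_mul_cancel₀ two_ne_zero, one_smul] at h6

/-- **upper half of the Gysin sequence** for oriented projection fields of any codimension -/
theorem sph_up_all [Nonempty ι] (hX : Sub d X) (hc : IsPreconnected X)
    (h : OR X P W) {i j : ℕ} (hij : j + 1 = i + 2 * Fintype.card ι)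
    {b : E × EuclideanSpace ℝ n → Ext (E × EuclideanSpace ℝ n)} (hb : Sm (Sph X P) b)
    (hcl : Cl (Sph X P) b) (hd : Hom j b) :
    ∃ c : E → Ext E, Sm X c ∧ Cl X c ∧ Hom i c ∧ Coh X (c * eR P W) 0 ∧ (Coh X c 0 →
      ∃ a : E → Ext E, Sm X a ∧ Cl X a ∧ Hom j a ∧ Coh (Sph X P) b (F.pull Prod.fst a)) := by
  rcases X.eq_empty_or_nonempty with rfl | hne
  · exact ⟨0, Sm.zero, fun x hx => hx.elim, Hom.zero, Coh.of_eqv (Eqv.of_eq fun z hz => hz.elim),
      fun _ => ⟨0, Sm.zero, fun x hx => hx.elim, Hom.zero,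
        Coh.of_eqv (Eqv.of_eq fun z hz => hz.1.1.elim)⟩⟩
  obtain ⟨q, r, eq, -⟩ := exists_par h hne
  have hS := iM_iso (n := n) (Fin q)
  have h' := h.push hS
  obtain ⟨c, sc, cc, dc, ec, hc'⟩ := sph_up_OR eq hX hc hne h' hij (hb.pull (smap_out hS))
    (hcl.pull (smap_out hS) hb) (hd.pull)
  refine ⟨c, sc, cc, dc, (Coh.of_eqv ((Eqv.refl c).mul (eqv_eR_push hS h))).symm.trans ec, ?_⟩
  intro h0
  obtain ⟨a, sa, ca, da, ea⟩ := hc' h0
  refine ⟨a, sa, ca, da, ?_⟩
  have e1 := ea.pull (smap_in hS)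
  have e2 : Eqv (Sph X P) (F.pull (fun z : E × EuclideanSpace ℝ n =>
        ((z.1, mE (iM n (Fin q)) z.2) : E × EuclideanSpace ℝ (n ⊕ Fin q)))
      (F.pull (fun z : E × EuclideanSpace ℝ (n ⊕ Fin q) =>
        ((z.1, mE (iM n (Fin q))ᵀ z.2) : E × EuclideanSpace ℝ n)) b)) b :=
    (eqv_pull_pull (smap_in hS) (smap_out hS) (SMap.id _) (fun z _ => by
      change (z.1, mE (iM n (Fin q))ᵀ (mE (iM n (Fin q)) z.2)) = z
      rw [mE_mE, hS, mE_one]) b).trans (Eqv.of_eq fun z _ => F.pull_id b z)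
  have e3 := eqv_pull_pull (smap_in (X := X) (P := P) hS) (smap_fstS (X := X)
    (P := pushE (iM n (Fin q)) P)) (smap_fstS (X := X) (P := P)) (fun _ _ => rfl) a
  exact (Coh.of_eqv e2.symm).trans (e1.trans (Coh.of_eqv e3))

section classes
variable {x : E → Ext E} {k r : ℕ}

/-- the classes of a space in degrees `2 ≤ j < r` -/
def Mid (X : Set E) (x : E → Ext E) (k r : ℕ) : Prop :=
  ∀ (j : ℕ) (b : E → Ext E), 2 ≤ j → j < r → Sm X b → Cl X b → Hom j b →
    ∃ c : ℝ, (¬ k ∣ j → c = 0) ∧ Coh X b (c • x ^ (j / k))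

/-- `r = dim X`, `e` not exact, `H¹ = 0`, `H^j` generated by `x ^ (j / k)` for `2 ≤ j < r`: closed forms
of degree `r - 1 ≤ j < r + k - 1` on the sphere bundle come from the base. -/
theorem sph_mid_base [Nonempty ι] (hι : 2 * Fintype.card ι = r) (hX : Sub r X)
    (hc : IsPreconnected X) (h : OR X P W) (hkr : k ≤ r) (h1 : ExactIn X 1) (hM : Mid X x k r)
    (he : ¬ Coh X (eR P W) 0) {j : ℕ} (hj : r ≤ j + 1) (hj' : j + 1 < r + k)
    {b : E × EuclideanSpace ℝ n → Ext (E × EuclideanSpace ℝ n)} (hb : Sm (Sph X P) b)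
    (hcl : Cl (Sph X P) b) (hd : Hom j b) :
    ∃ a : E → Ext E, Sm X a ∧ Cl X a ∧ Hom j a ∧ Coh (Sph X P) b (F.pull Prod.fst a) := by
  obtain ⟨i, hi⟩ := Nat.exists_eq_add_of_le' hj
  obtain ⟨c, sc, cc, dc, ec, hc'⟩ := sph_up_all (i := i) hX hc h (by omega) hb hcl hd
  refine hc' ?_
  rcases Nat.eq_zero_or_pos i with rfl | hi0
  · obtain ⟨t, ht⟩ := const_of_closed hX hc sc cc dc
    have e1 : Eqv X c (t • (1 : E → Ext E)) := Eqv.of_eq fun y hy => by
      rw [ht y hy, Algebra.algebraMap_eq_smul_one]; rfl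
    have e2 : Coh X (t • eR P W) 0 := by
      refine (Coh.of_eqv ?_).trans ec
      have := (e1.mul (Eqv.refl (eR P W))).symm
      rwa [smul_mul_assoc, one_mul] at this
    have ht0 : t = 0 := by
      by_contra h0
      refine he ?_
      have := e2.smul t⁻¹
      rwa [smul_smul, inv_mul_cancel₀ h0, one_smul, smul_zero] at this
    rw [ht0, zero_smul] at e1
    exact Coh.of_eqv e1
  · rcases Nat.lt_or_ge i 2 with h2 | h2
    · have : i = 1 := by omega
      subst this
      exact h1 c sc cc dc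
    · obtain ⟨t, ht, hct⟩ := hM i c h2 (by omega) sc cc dc
      have hki : ¬ k ∣ i := fun hdv => by
        have := Nat.le_of_dvd hi0 hdv
        omega
      rw [ht hki, zero_smul] at hct
      exact hct

/-- **closed forms of degree `r - 1 ≤ j < r + k - 1` on the sphere bundle are exact** -/
theorem sph_mid_exact [Nonempty ι] (hι : 2 * Fintype.card ι = r) (hX : Sub r X)
    (hc : IsPreconnected X) (h : OR X P W) (hr : 3 ≤ r) (hk : 2 ≤ k) (hkr : k ∣ r)
    (h1 : ExactIn X 1) (hM : Mid X x k r) (hD : Dim1 X r)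
    (he : ¬ Coh X (eR P W) 0) {j : ℕ} (hj : r ≤ j + 1) (hj' : j + 1 < r + k) :
    ExactIn (Sph X P) j := by
  intro b hb hcl hd
  have hkr' : k ≤ r := Nat.le_of_dvd (by omega) hkr
  obtain ⟨a, sa, ca, da, ea⟩ := sph_mid_base hι hX hc h hkr' h1 hM he hj hj' hb hcl hd
  rcases Nat.lt_trichotomy j r with h2 | h2 | h2
  · obtain ⟨t, ht, hct⟩ := hM j a (by omega) h2 sa ca da
    have hkj : ¬ k ∣ j := fun hdv => by
      have h3 : k ∣ r - j := Nat.dvd_sub hkr hdv
      have h4 : r - j = 1 := by omega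
      rw [h4, Nat.dvd_one] at h3
      omega
    rw [ht hkj, zero_smul] at hct
    have := hct.pull (smap_fstS (X := X) (P := P))
    rw [pull_zero'] at this
    exact ea.trans this
  · subst h2
    obtain ⟨s, t, hst, hs⟩ := hD a (eR P W) sa ca da h.ec_eR.sm h.ec_eR.cl
      (by have := hom_eR (P := P) (W := W); rwa [hι] at this)
    have hs0 : s ≠ 0 := by
      intro h0
      refine he ?_
      rw [h0, zero_smul, zero_sub] at hs
      have ht : t ≠ 0 := by
        rcases hst with h3 | h3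
        · exact absurd h0 h3
        · exact h3
      have := hs.smul (-t⁻¹)
      rwa [smul_neg, smul_smul, neg_mul, inv_mul_cancel₀ ht, neg_smul, one_smul, neg_neg,
        smul_zero] at this
    have h3 : Coh X a ((s⁻¹ * t) • eR P W) := by
      have := (hs.smul s⁻¹).add (Coh.refl ((s⁻¹ * t) • eR P W))
      rwa [smul_sub, smul_smul, smul_smul, inv_mul_cancel₀ hs0, one_smul, sub_add_cancel,
        smul_zero, zero_add] at this
    have h4 := h3.pull (smap_fstS (X := X) (P := P))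
    rw [pull_smul'] at h4
    have h5 := (h.fst_eR_exact hX).smul (s⁻¹ * t)
    rw [smul_zero] at h5
    exact ea.trans (h4.trans h5)
  · have h3 := (Coh.of_eqv (eqv_of_gt hX da h2)).pull (smap_fstS (X := X) (P := P))
    rw [pull_zero'] at h3
    exact ea.trans h3


end classes

end Crest.Agent.R208.T
end
end

-- ▼ part R208/TG3

/-! Row 208, block T (helper88).  TG3: `H¹(S) = 0`, top degree of `S`, the classes of the unit
tangent bundle in degrees `< n + k - 1`. -/

set_option autoImplicit false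
set_option linter.unusedSectionVars false

open MeasureTheory Set Filter Topology Module
open scoped ContDiff RealInnerProductSpace Matrix
open Crest.GeometryTopology.Submanifold
open Crest.Agent.R241.DDefs
open Crest.Agent.R241.D2
open Crest.Agent.R208.F Crest.Agent.R208.FI Crest.Agent.R208.CW

noncomputable section

namespace Crest.Agent.R208.T

section gen
variable {n : Type} [Fintype n] [DecidableEq n]
  {E : Type} [NormedAddCommGroup E] [NormedSpace ℝ E] [FiniteDimensional ℝ E]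
  {ι : Type} [Fintype ι] [DecidableEq ι]
  {X : Set E} {P : E → EuclideanSpace ℝ n →L[ℝ] EuclideanSpace ℝ n}
  {W : E → (ι × Fin 2 → n) → ℝ} {d q : ℕ}

/-- top degree of a sphere bundle, any codimension -/
theorem dim1_sph_all [Nonempty ι] (hX : Sub d X) (hc : IsPreconnected X) (hne : X.Nonempty)
    (h : OR X P W) (hq : q + 1 = 2 * Fintype.card ι) (h0 : ExactIn X q) : Dim1 (Sph X P) q := by
  obtain ⟨q', r, eq, -⟩ := exists_par h hne
  have hS := iM_iso (n := n) (Fin q')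
  have h' := h.push hS
  obtain ⟨W', c₀, hT⟩ := exists_thomPair thd_holds eq hX hc hne h'
  have h1 := dim1_sph volume hX hc h'.pfield (T.card_le eq) hT hq h0
  refine (HRet.of_inv (smap_in hS) (smap_out hS) fun z _ => ?_).dim1 h1
  change (z.1, mE (iM n (Fin q'))ᵀ (mE (iM n (Fin q')) z.2)) = z
  rw [mE_mE, hS, mE_one]

/-- closed functions on a sphere bundle are constant -/
theorem conn0_sph_all [Nonempty ι] (hX : Sub d X) (hc : IsPreconnected X) (h : OR X P W) :
    Conn0 (Sph X P) := by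
  intro b hb hcl hd
  have hi := Fintype.card_pos (α := ι)
  obtain ⟨c, sc, cc, dc, hc'⟩ := sph_low_all hX hc h (by omega) hb hcl hd
  obtain ⟨t, ht⟩ := const_of_closed hX hc sc cc dc
  refine ⟨t, (hc'.eqv_zero hd dc.pull).trans ?_⟩
  have h1 : Eqv X c (fun _ => algebraMap ℝ (Ext E) t) := Eqv.of_eq ht
  have h2 := h1.pull (smap_fstS (X := X) (P := P))
  rwa [pull_const'] at h2

end gen

variable {n N k : ℕ} {κ : ℝ} {S : Set (Euc N)} {G : Geo n N κ S} {p : Euc N}
  {ι : Type} [Fintype ι] [DecidableEq ι] {W : Euc N → (ι × Fin 2 → Fin N) → ℝ}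
  {ι' : Type} [Fintype ι'] [DecidableEq ι'] {W' : Euc N → (ι' × Fin 2 → Fin N) → ℝ}
  {x : Euc N → Ext (Euc N)}

theorem OR_pt (hp : p ∈ S) (hS : OR S G.P W') :
    OR ({p} : Set (Euc N)) (fun _ => G.P p) (fun _ => W' p) :=
  GP.OR.comp hS (f := fun _ => p) (fun _ _ => contDiffAt_const) fun _ _ => hp

/-- closed `1`-forms on `S` are exact -/
theorem exactIn_one_S (h : GT.Bla G k) (hk : 2 ≤ k) (hkn : k < n) (hp : p ∈ S)
    (hι : 2 * Fintype.card ι = k) (hW : OR (GP.Cut S p) (FV.PC h p) W)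
    (hι' : 2 * Fintype.card ι' = n) (hS : OR S G.P W') : ExactIn S 1 := by
  have : Nonempty ι' := Fintype.card_pos_iff.1 (by omega)
  obtain ⟨Gt, hG, -⟩ := exists_Tube' h hp
  obtain ⟨U, Λ, hpol, -, -⟩ := GP.exists_polar (G := G) h.bl hp one_pos
    (by linarith [Real.pi_gt_three])
  refine hG.exactIn_one hpol (conn0_sph_all (sub_point p)
    isPreconnected_singleton (OR_pt hp hS)) ?_
  intro a sa ca da
  obtain ⟨c, hc, ha⟩ := Cut_classes h hk hkn hp hι hW 1 sa ca da
  have h1 : ¬ k ∣ 1 := fun hd => by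
    have := Nat.le_of_dvd one_pos hd
    omega
  rwa [hc h1, zero_smul] at ha

/-- closed `n`-forms on `S` are proportional modulo exact ones -/
theorem dim1_S (h : GT.Bla G k) (hk : 2 ≤ k) (hkn : k < n) (hp : p ∈ S)
    (hι' : 2 * Fintype.card ι' = n) (hS : OR S G.P W') : Dim1 S n := by
  have : Nonempty ι' := Fintype.card_pos_iff.1 (by omega)
  obtain ⟨Gt, hG, -⟩ := exists_Tube' h hp
  obtain ⟨U, Λ, hpol, -, -⟩ := GP.exists_polar (G := G) h.bl hp one_pos
    (by linarith [Real.pi_gt_three])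
  obtain ⟨i, hi⟩ : ∃ i, n = i + 1 := ⟨n - 1, by omega⟩
  have h1 : Dim1 (Sph ({p} : Set (Euc N)) (fun _ => G.P p)) i :=
    dim1_sph_all (sub_point p) isPreconnected_singleton (singleton_nonempty p) (OR_pt hp hS)
      (by omega) (exactIn_of_gt (sub_point p) (by omega))
  have h2 : ExactIn (GP.Cut S p) (i + 1) := exactIn_of_gt (FV.sub_Cut h hp) (by omega)
  have := hG.dim1 hpol h1 h2
  rwa [← hi] at this

theorem mid_S (h : GT.Bla G k) (hk : 2 ≤ k) (hkn : k < n) (hp : p ∈ S)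
    (hι : 2 * Fintype.card ι = k) (hW : OR (GP.Cut S p) (FV.PC h p) W)
    (sx : Sm S x) (cx : Cl S x) (dx : Hom k x) (ex : Eqv (GP.Cut S p) x (eR (FV.PC h p) W)) :
    Mid S x k n := fun j b hj hjn hb hc hd =>
  S_classes h hk hkn hp hι hW sx cx dx ex j b hj hjn hb hc hd

/-- **`H^j(US) = 0` for `n - 1 ≤ j < n + k - 1`** -/
theorem US_exact (h : GT.Bla G k) (hk : 2 ≤ k) (hkn : k < n) (hdv : k ∣ n) (hp : p ∈ S)
    (hι : 2 * Fintype.card ι = k) (hW : OR (GP.Cut S p) (FV.PC h p) W)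
    (sx : Sm S x) (cx : Cl S x) (dx : Hom k x) (ex : Eqv (GP.Cut S p) x (eR (FV.PC h p) W))
    (hι' : 2 * Fintype.card ι' = n) (hS : OR S G.P W') (he : ¬ Coh S (eR G.P W') 0)
    {j : ℕ} (hj : n ≤ j + 1) (hj' : j + 1 < n + k) : ExactIn (Sph S G.P) j := by
  have : Nonempty ι' := Fintype.card_pos_iff.1 (by omega)
  exact sph_mid_exact hι' (FV.sub_S h.bl) h.bl.conn.isPreconnected hS (by omega) hk hdv
    (exactIn_one_S h hk hkn hp hι hW hι' hS) (mid_S h hk hkn hp hι hW sx cx dx ex)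
    (dim1_S h hk hkn hp hι' hS) he hj hj'



end Crest.Agent.R208.T
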