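import Crest.Agent.R208.TX1b
import Crest.Agent.R208.T3c

/-! Row 208, block T (helper316).  TX2: top degree and degree one on `S`, top degree of spheres,
non-exactness of the top power of the dual form. -/

set_option autoImplicit false
set_option linter.unusedSectionVars false

open MeasureTheory Set Filter Topology Module
open scoped ContDiff
open Crest.Agent.R208.F Crest.Agent.R208.FI Crest.Agent.R208.CW

noncomputable section

namespace Crest.Agent.R208.T

universe u w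

section gen
variable {E : Type u} {F' : Type w} [NormedAddCommGroup E] [NormedSpace ℝ E] [FiniteDimensional ℝ E]
  [NormedAddCommGroup F'] [NormedSpace ℝ F'] [FiniteDimensional ℝ F']
  {X : Set E} {Y : Set F'} {a b e : E → Ext E} {j : ℕ}

/-- two closed forms of degree `j` are linearly dependent modulo exact forms -/
def Dim1 (X : Set E) (j : ℕ) : Prop := ∀ b₁ b₂ : E → Ext E, Sm X b₁ → Cl X b₁ → Hom j b₁ →
  Sm X b₂ → Cl X b₂ → Hom j b₂ → ∃ s t : ℝ, (s ≠ 0 ∨ t ≠ 0) ∧ Coh X (s • b₁ - t • b₂) 0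

/-- closed `0`-forms are constant -/
def Conn0 (X : Set E) : Prop := ∀ b : E → Ext E, Sm X b → Cl X b → Hom 0 b →
  ∃ c : ℝ, Eqv X b (fun _ => algebraMap ℝ (Ext E) c)

/-- `f`, `g` is a retraction up to homotopy -/
structure HRet (X : Set E) (Y : Set F') (f : E → F') (g : F' → E) : Prop where
  sf : SMap X Y f
  sg : SMap Y X g
  coh : ∀ b : E → Ext E, Sm X b → Cl X b → Coh X b (F.pull f (F.pull g b))


theorem HRet.dim1 {f : E → F'} {g : F' → E} (h : HRet X Y f g) (hY : Dim1 Y j) : Dim1 X j := by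
  intro b₁ b₂ s1 c1 d1 s2 c2 d2
  obtain ⟨s, t, hst, h1⟩ := hY (F.pull g b₁) (F.pull g b₂) (s1.pull h.sg) (c1.pull h.sg s1) d1.pull
    (s2.pull h.sg) (c2.pull h.sg s2) d2.pull
  refine ⟨s, t, hst, ?_⟩
  have h2 := h1.pull h.sf
  rw [pull_zero', pull_sub', pull_smul', pull_smul'] at h2
  exact (((h.coh b₁ s1 c1).smul s).sub ((h.coh b₂ s2 c2).smul t)).trans h2

/-- cohomologous forms of degree zero agree -/
theorem Coh.eqv_zero {a b : E → Ext E} (h : Coh X a b) (ha : Hom 0 a) (hb : Hom 0 b) :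
    Eqv X a b := by
  obtain ⟨ξ, -, eξ⟩ := h
  have h1 := eξ.dp 0
  rw [(ha.sub hb).dp_eq] at h1
  have h2 : Eqv X (a - b) 0 := h1.trans (Eqv.of_eq fun x _ => dp_zero_d ξ x)
  have := h2.add (Eqv.refl b)
  rwa [sub_add_cancel, zero_add] at this


theorem pull_const' (f : E → F') (c : ℝ) :
    F.pull f (fun _ => algebraMap ℝ (Ext F') c) = fun _ => algebraMap ℝ (Ext E) c :=
  funext fun _ => AlgHom.commutes _ _

theorem HRet.conn0 {f : E → F'} {g : F' → E} (h : HRet X Y f g) (hY : Conn0 Y) : Conn0 X := by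
  intro b hb hc hd
  obtain ⟨c, h1⟩ := hY (F.pull g b) (hb.pull h.sg) (hc.pull h.sg hb) hd.pull
  have h2 := h1.pull h.sf
  rw [pull_const'] at h2
  exact ⟨c, ((h.coh b hb hc).eqv_zero hd hd.pull.pull).trans h2⟩

theorem HRet.of_inv {f : E → F'} {g : F' → E} (hf : SMap X Y f) (hg : SMap Y X g)
    (hgf : ∀ x ∈ X, g (f x) = x) : HRet X Y f g :=
  ⟨hf, hg, fun b _ _ => Coh.of_eqv ((eqv_pull_pull hf hg (SMap.id X) hgf b).trans
    (Eqv.of_eq fun x _ => F.pull_id b x)).symm⟩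

/-- forms of degree larger than the dimension vanish -/
theorem eqv_of_gt {d : ℕ} (hX : Sub d X) (hb : Hom j b) (hj : d < j) : Eqv X b 0 := by
  refine eqv_iff.2 fun x hx => ?_
  have h1 : IsDeg j (pb (Tan X x).subtype (b x)) := (hb x).pb _
  have h2 : finrank ℝ (Tan X x) = d := hX.finrank_Tan hx
  rw [h1.eq_zero (by omega)]
  simp

theorem exactIn_of_gt {d : ℕ} (hX : Sub d X) (hj : d < j) : ExactIn X j := fun _ _ _ hd =>
  Coh.of_eqv (eqv_of_gt hX hd hj)

end gen

/-! ### spheres -/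
section sph
variable {E : Type u} {H : Type w} [NormedAddCommGroup E] [NormedSpace ℝ E] [FiniteDimensional ℝ E]
  [NormedAddCommGroup H] [InnerProductSpace ℝ H] [FiniteDimensional ℝ H]
  {X : Set E} {P : E → H →L[ℝ] H} {r d j q : ℕ} {R c₀ : ℝ} {e : E → Ext E}
  {τ τ' b b' : E × H → Ext (E × H)}
  [MeasurableSpace H] [BorelSpace H] (μ : Measure H) [μ.IsAddHaarMeasure]

/-- top degree of a bundle of spheres without closed forms of that degree on the base -/
theorem dim1_sph (hX : Sub d X) (hXc : IsPreconnected X) (hP : PField X r P)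
    (hrN : r ≤ finrank ℝ H) (hT : ThomPair μ X P r R c₀ e τ τ') (hq : q + 1 = r)
    (h0 : ExactIn X q) : Dim1 (Sph X P) q := by
  intro b₁ b₂ s1 k1 d1 s2 k2 d2
  have hq' : q + 1 = 0 + r := by omega
  obtain ⟨c₁, hc₁⟩ := const_of_closed hX hXc (sm_cl_fi μ hX hP hT s1 k1).1
    (sm_cl_fi μ hX hP hT s1 k1).2 (hom_fi μ hrN hT.deg' hq' d1)
  obtain ⟨c₂, hc₂⟩ := const_of_closed hX hXc (sm_cl_fi μ hX hP hT s2 k2).1
    (sm_cl_fi μ hX hP hT s2 k2).2 (hom_fi μ hrN hT.deg' hq' d2)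
  have key : ∀ s t : ℝ, s * c₁ = t * c₂ → Coh (Sph X P) (s • b₁ - t • b₂) 0 := by
    intro s t hst
    have sb := (s1.smul s).sub (s2.smul t)
    have cb := Cl.sub (s1.smul s) (s2.smul t) (Cl.smul s s1 k1) (Cl.smul t s2 k2)
    have e1 : Eqv X (fi μ P τ' (s • b₁ - t • b₂)) 0 := by
      refine (fi_sub μ hX hP hT (s1.smul s) (Cl.smul s s1 k1) (s2.smul t)
        (Cl.smul t s2 k2)).trans ?_
      refine ((fi_smul μ s b₁ hX hP hT s1 k1).sub (fi_smul μ t b₂ hX hP hT s2 k2)).trans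
        (Eqv.of_eq fun x hx => ?_)
      rw [Pi.sub_apply, Pi.smul_apply, Pi.smul_apply, hc₁ x hx, hc₂ x hx,
        Algebra.algebraMap_eq_smul_one, Algebra.algebraMap_eq_smul_one, smul_smul, smul_smul, hst,
        sub_self]; rfl
    obtain ⟨c, sc, cc, dc, hc⟩ := sph_of_fi μ hX hP hT sb cb ((d1.smul s).sub (d2.smul t))
      (Coh.of_eqv e1)
    have h2 := (h0 c sc cc dc).pull (smap_fstS (X := X) (P := P))
    rw [pull_zero'] at h2
    exact hc.trans h2
  by_cases h : c₂ = 0 ∧ c₁ = 0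
  · exact ⟨1, 0, Or.inl one_ne_zero, key 1 0 (by rw [h.2, h.1]; ring)⟩
  · refine ⟨c₂, c₁, ?_, key c₂ c₁ (mul_comm _ _)⟩
    by_contra h'
    rw [not_or, not_not, not_not] at h'
    exact h h'


end sph

end Crest.Agent.R208.T
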