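import Mathlib
import Mathlib.RingTheory.PowerSeries.Expand
import Mathlib.Analysis.Complex.Polynomial.Basic
import Crest.Agent.R208.FG3b
import Crest.Agent.R208.TX2
import Crest.Agent.R208.DEG2
import Crest.Agent.R208.TX6b
import Crest.Agent.R208.VX2
import Crest.Agent.R208.TG3

-- ▼ part R208/ClosedForm365
section

/-!
R208 (II): the closed form of `p(TM)` (helper154 #9947 (3)) as a two-term recursion (helper365).
-/

namespace Crest.Agent.R208.CF

open PowerSeries

section Abstract

variable {T : Type*} [CommRing T]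

/-- `g b = [y^b] (y - X)/χ(X,y)`, `χ(X,y) = D + (L-2X) y + y²`, `E` an inverse of `D`. -/
def g (X L E : T) : ℕ → T
  | 0 => -X * E
  | 1 => (1 - (L - 2 * X) * (-X * E)) * E
  | (b + 2) => -((L - 2 * X) * g X L E (b + 1) + g X L E b) * E

variable {X L E D : T}

theorem g_zero (hE : D * E = 1) : D * g X L E 0 = -X := by
  show D * (-X * E) = -X
  linear_combination -X * hE

theorem g_one (hE : D * E = 1) : D * g X L E 1 + (L - 2 * X) * g X L E 0 = 1 := by
  show D * ((1 - (L - 2 * X) * (-X * E)) * E) + (L - 2 * X) * (-X * E) = 1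
  linear_combination (1 - (L - 2 * X) * (-X * E)) * hE

theorem g_rec (hE : D * E = 1) (b : ℕ) :
    D * g X L E (b + 2) + (L - 2 * X) * g X L E (b + 1) + g X L E b = 0 := by
  have : g X L E (b + 2) = -((L - 2 * X) * g X L E (b + 1) + g X L E b) * E := rfl
  rw [this]
  linear_combination -((L - 2 * X) * g X L E (b + 1) + g X L E b) * hE

/-- Wronskian identity. -/
theorem wronskian (hE : D * E = 1) (hD : D = 1 + L * X + X ^ 2) (b : ℕ) :
    D ^ (b + 3) * (g X L E (b + 1) ^ 2 - g X L E (b + 2) * g X L E b) = 1 + 2 * L * X := by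
  induction b with
  | zero =>
    have h0 := g_zero (X := X) (L := L) hE
    have h1 := g_one (X := X) (L := L) hE
    have h2 := g_rec (X := X) (L := L) hE 0
    simp only [zero_add] at h2 ⊢
    have e0 : D * g X L E 0 = -X := h0
    have e1 : D ^ 2 * g X L E 1 = 1 + 2 * L * X - X ^ 2 := by
      have : D ^ 2 * g X L E 1 = D * 1 - (L - 2 * X) * (D * g X L E 0) := by
        linear_combination D * h1
      rw [this, e0, hD]; ring
    have e2 : D ^ 3 * (g X L E 1 ^ 2 - g X L E 2 * g X L E 0)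
        = (D ^ 2 * g X L E 1) * (D * g X L E 1 + (L - 2 * X) * g X L E 0)
          + (D * g X L E 0) ^ 2 := by
      linear_combination (-D ^ 2 * g X L E 0) * h2
    rw [e2, h1, e1, e0]; ring
  | succ b ih =>
    have h2 := g_rec (X := X) (L := L) hE b
    have h3 := g_rec (X := X) (L := L) hE (b + 1)
    have : D ^ (b + 1 + 3) * (g X L E (b + 1 + 1) ^ 2 - g X L E (b + 1 + 2) * g X L E (b + 1))
        = D ^ (b + 3) * (g X L E (b + 1) ^ 2 - g X L E (b + 2) * g X L E b) := by
      have h3' : D * g X L E (b + 1 + 2) = -((L - 2 * X) * g X L E (b + 2) + g X L E (b + 1)) := by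
        linear_combination h3
      have h2' : D * g X L E (b + 2) + (L - 2 * X) * g X L E (b + 1) = - g X L E b := by
        linear_combination h2
      show D ^ (b + 4) * (g X L E (b + 2) ^ 2 - g X L E (b + 1 + 2) * g X L E (b + 1)) = _
      calc D ^ (b + 4) * (g X L E (b + 2) ^ 2 - g X L E (b + 1 + 2) * g X L E (b + 1))
          = D ^ (b + 3) * (D * g X L E (b + 2) ^ 2 - (D * g X L E (b + 1 + 2)) * g X L E (b + 1)) := by
            ring
        _ = D ^ (b + 3) * (g X L E (b + 2) * (D * g X L E (b + 2) + (L - 2 * X) * g X L E (b + 1))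
              + g X L E (b + 1) ^ 2) := by rw [h3']; ring
        _ = _ := by rw [h2']; ring
    rw [this, ih]

/-- `r j` : push-forward of `y^j`. -/
def r (m : ℕ) (X : T) (j : ℕ) : T := if j + 1 = m then 1 else if j = m then -X else 0

theorem rec_unique (hE : D * E = 1) {m : ℕ} (hm : 2 ≤ m) (q : T) (v : ℕ → T)
    (hv : ∀ j, m < j → v j = 0)
    (h : ∀ j, D * v j + (L - 2 * X) * v (j + 1) + v (j + 2) = q * r m X j) :
    ∀ i, i ≤ m → v (m - i) = q * g X L E i := by
  have inj : ∀ a b : T, D * a = D * b → a = b := by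
    intro a b hab
    have : (D * E) * a = (D * E) * b := by
      linear_combination E * hab
    simpa [hE] using this
  intro i
  induction i using Nat.strong_induction_on with
  | _ i ih =>
    intro hi
    match i, ih, hi with
    | 0, _, _ =>
      apply inj
      have h0 := h m
      rw [hv (m + 1) (by omega), hv (m + 2) (by omega)] at h0
      have hr : r m X m = -X := by simp [r]
      rw [hr] at h0
      have := g_zero (X := X) (L := L) hE
      simp only [Nat.sub_zero]
      linear_combination h0 - q * this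
    | 1, ih, hi =>
      apply inj
      have h0 := h (m - 1)
      have e1 : m - 1 + 1 = m := by omega
      have e2 : m - 1 + 2 = m + 1 := by omega
      rw [e1, e2, hv (m + 1) (by omega)] at h0
      have hr : r m X (m - 1) = 1 := by simp [r, e1]
      rw [hr] at h0
      have i0 := ih 0 (by omega) (by omega)
      rw [Nat.sub_zero] at i0
      rw [i0] at h0
      have := g_one (X := X) (L := L) hE
      linear_combination h0 - q * this
    | (b + 2), ih, hi =>
      apply inj
      have h0 := h (m - (b + 2))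
      have e1 : m - (b + 2) + 1 = m - (b + 1) := by omega
      have e2 : m - (b + 2) + 2 = m - b := by omega
      rw [e1, e2] at h0
      have hr : r m X (m - (b + 2)) = 0 := by
        have h1 : ¬ (m - (b + 2) + 1 = m) := by omega
        have h2 : ¬ (m - (b + 2) = m) := by omega
        simp [r, h1, h2]
      rw [hr] at h0
      rw [ih (b + 1) (by omega) (by omega), ih b (by omega) (by omega)] at h0
      have := g_rec (X := X) (L := L) hE b
      linear_combination h0 - q * this

end Abstract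

section Trunc

/-- `ℝ⟦X⟧ / (X^{m+1})` -/
abbrev TT (m : ℕ) : Type := ℝ⟦X⟧ ⧸ Ideal.span {(X : ℝ⟦X⟧) ^ (m + 1)}

/-- the quotient map -/
noncomputable abbrev qt (m : ℕ) : ℝ⟦X⟧ →+* TT m := Ideal.Quotient.mk _

theorem qt_eq_iff {m : ℕ} {f h : ℝ⟦X⟧} : qt m f = qt m h ↔ ∀ i ≤ m, coeff i f = coeff i h := by
  rw [Ideal.Quotient.eq, Ideal.mem_span_singleton, PowerSeries.X_pow_dvd_iff]
  constructor
  · intro H i hi
    have := H i (by omega)
    rw [map_sub, sub_eq_zero] at this
    exact this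
  · intro H i hi
    rw [map_sub, sub_eq_zero]
    exact H i (by omega)

variable {H : Type*} [CommRing H] [Algebra ℝ H] (m s : ℕ) (x : H) (I : H →ₗ[ℝ] ℝ)

/-- `λ_s(f) = Σ_{a ≤ m} I(x^{m-a} f_{s+a}) X^a` in `ℝ⟦X⟧/(X^{m+1})`. -/
noncomputable def lam (f : H⟦X⟧) : TT m :=
  qt m (PowerSeries.mk fun a => I (x ^ (m - a) * coeff (s + a) f))

variable {m s x I}

theorem lam_add (f h : H⟦X⟧) : lam m s x I (f + h) = lam m s x I f + lam m s x I h := by
  unfold lam
  rw [← map_add]
  congr 1
  ext a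
  simp [mul_add]

theorem lam_sub (f h : H⟦X⟧) : lam m s x I (f - h) = lam m s x I f - lam m s x I h := by
  unfold lam
  rw [← map_sub]
  congr 1
  ext a
  simp [mul_sub]

theorem lam_smul (c : ℝ) (f : H⟦X⟧) :
    lam m s x I (C (algebraMap ℝ H c) * f) = qt m (C c) * lam m s x I f := by
  unfold lam
  rw [← map_mul]
  congr 1
  ext a
  rw [coeff_mk, coeff_C_mul, coeff_C_mul, coeff_mk]
  have : x ^ (m - a) * (algebraMap ℝ H c * coeff (s + a) f)
      = c • (x ^ (m - a) * coeff (s + a) f) := by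
    rw [Algebra.smul_def]; ring
  rw [this, map_smul, smul_eq_mul]

theorem lam_x (hx : x ^ (m + 1) = 0) (f : H⟦X⟧) :
    lam m s x I ((C x * X) * f) = qt m X * lam m s x I f := by
  unfold lam
  rw [← map_mul, qt_eq_iff]
  intro a ha
  rw [coeff_mk]
  rcases a with _ | a
  · have : coeff 0 ((X : ℝ⟦X⟧) * PowerSeries.mk fun a => I (x ^ (m - a) * coeff (s + a) f)) = 0 := by
      simp
    rw [this, Nat.sub_zero, Nat.add_zero]
    have e : x ^ m * coeff s (C x * X * f) = x ^ (m + 1) * coeff s (X * f) := by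
      rw [mul_assoc, coeff_C_mul, pow_succ]; ring
    rw [e, hx, zero_mul, map_zero]
  · rw [coeff_succ_X_mul, coeff_mk]
    have e : coeff (s + (a + 1)) (C x * X * f) = x * coeff (s + a) f := by
      rw [mul_assoc, coeff_C_mul, ← add_assoc, coeff_succ_X_mul]
    rw [e]
    have e2 : x ^ (m - (a + 1)) * (x * coeff (s + a) f) = x ^ (m - a) * coeff (s + a) f := by
      have : m - a = (m - (a + 1)) + 1 := by omega
      rw [this, pow_succ]; ring
    rw [e2]

end Trunc

section Main

variable {H : Type*} [CommRing H] [Algebra ℝ H]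

/-- the total class of `V`: `1 + L(x+y) + (x-y)²`, graded by `t = X`. -/
noncomputable def chi (L : ℝ) (x y : H) : H⟦X⟧ :=
  1 + C (L • (x + y)) * X + C ((x - y) ^ 2) * X ^ 2

theorem chi_eq (L : ℝ) (x y : H) : chi L x y =
    (1 + C (algebraMap ℝ H L) * (C x * X) + (C x * X) ^ 2)
    + (C (algebraMap ℝ H L) - 2 * (C x * X)) * (C y * X) + (C y * X) ^ 2 := by
  unfold chi
  rw [Algebra.smul_def]
  simp only [map_mul, map_add, map_pow, map_sub]
  ring

theorem lam_chi {m s : ℕ} {x : H} {I : H →ₗ[ℝ] ℝ} (hx : x ^ (m + 1) = 0) (L : ℝ) (y : H)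
    (f : H⟦X⟧) :
    lam m s x I (f * chi L x y) =
      (1 + qt m (C L) * qt m X + qt m X ^ 2) * lam m s x I f
      + (qt m (C L) - 2 * qt m X) * lam m s x I ((C y * X) * f)
      + lam m s x I ((C y * X) ^ 2 * f) := by
  have e : f * chi L x y = f + C (algebraMap ℝ H L) * ((C x * X) * f) + (C x * X) * ((C x * X) * f)
      + C (algebraMap ℝ H L) * ((C y * X) * f)
      - C (algebraMap ℝ H 2) * ((C x * X) * ((C y * X) * f)) + (C y * X) ^ 2 * f := by
    rw [chi_eq]
    have : (C (algebraMap ℝ H 2) : H⟦X⟧) = 2 := by rw [map_ofNat, map_ofNat]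
    rw [this]; ring
  rw [e, lam_add, lam_sub, lam_add, lam_add, lam_add, lam_smul, lam_x hx, lam_x hx, lam_x hx,
    lam_smul, lam_smul, lam_x hx]
  have : qt m (C (2 : ℝ)) = 2 := by rw [map_ofNat, map_ofNat]
  rw [this]
  ring

/-- numbers of the push-forwards: `ρ (m-1) = 1`, `ρ m = -1`, else `0`. -/
def rho (m : ℕ) (j : ℕ) : ℝ := if j + 1 = m then 1 else if j = m then -1 else 0

theorem lam_mono {m : ℕ} (hm : 2 ≤ m) {x y z : H} {I : H →ₗ[ℝ] ℝ} {N : ℝ}
    (hI : ∀ a b c, a + b + c = 3 * m - 2 → I (x ^ a * y ^ b * z ^ c) = N * rho m b * rho m c)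
    (p : ℕ → ℝ) (hy : y ^ (m + 1) = 0) (hz : z ^ (m + 1) = 0) (j l : ℕ) :
    lam m (2 * m - 2) x I ((C y * X) ^ j * ((C z * X) ^ l * PowerSeries.mk fun i => p i • x ^ i))
      = qt m (C N * PowerSeries.mk p) * r m (qt m X) j * r m (qt m X) l := by
  have key : ∀ a, coeff (2 * m - 2 + a)
      ((C y * X) ^ j * ((C z * X) ^ l * PowerSeries.mk fun i => p i • x ^ i))
      = if j + l ≤ 2 * m - 2 + a then
          p (2 * m - 2 + a - (j + l)) • (x ^ (2 * m - 2 + a - (j + l)) * (y ^ j * z ^ l)) else 0 := by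
    intro a
    have e : ((C y * X) ^ j * ((C z * X) ^ l * PowerSeries.mk fun i => p i • x ^ i) : H⟦X⟧)
        = C (y ^ j * z ^ l) * (X ^ (j + l) * PowerSeries.mk fun i => p i • x ^ i) := by
      rw [mul_pow, mul_pow, map_mul, map_pow, map_pow, pow_add]; ring
    rw [e, coeff_C_mul, coeff_X_pow_mul']
    split_ifs with h
    · rw [coeff_mk, mul_smul_comm, mul_comm (y ^ j * z ^ l)]
    · rw [mul_zero]
  unfold lam
  by_cases hj : m < j
  · have h0 : y ^ j = 0 := by
      have : j = (m + 1) + (j - (m + 1)) := by omega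
      rw [this, pow_add, hy, zero_mul]
    have : r m (qt m X) j = 0 := by
      have h1 : ¬ (j + 1 = m) := by omega
      have h2 : ¬ (j = m) := by omega
      simp [r, h1, h2]
    rw [this, mul_zero, zero_mul, ← map_zero (qt m), qt_eq_iff]
    intro a _
    rw [coeff_mk, key, h0]
    simp
  by_cases hl : m < l
  · have h0 : z ^ l = 0 := by
      have : l = (m + 1) + (l - (m + 1)) := by omega
      rw [this, pow_add, hz, zero_mul]
    have : r m (qt m X) l = 0 := by
      have h1 : ¬ (l + 1 = m) := by omega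
      have h2 : ¬ (l = m) := by omega
      simp [r, h1, h2]
    rw [this, mul_zero, ← map_zero (qt m), qt_eq_iff]
    intro a _
    rw [coeff_mk, key, h0]
    simp
  have key2 : ∀ a ≤ m, I (x ^ (m - a) * coeff (2 * m - 2 + a)
      ((C y * X) ^ j * ((C z * X) ^ l * PowerSeries.mk fun i => p i • x ^ i)))
      = if j + l ≤ 2 * m - 2 + a then
          p (2 * m - 2 + a - (j + l)) * (N * rho m j * rho m l) else 0 := by
    intro a ha
    rw [key]
    split_ifs with h
    · have : x ^ (m - a) * p (2 * m - 2 + a - (j + l)) •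
          (x ^ (2 * m - 2 + a - (j + l)) * (y ^ j * z ^ l))
          = p (2 * m - 2 + a - (j + l)) •
            (x ^ (m - a + (2 * m - 2 + a - (j + l))) * y ^ j * z ^ l) := by
        rw [mul_smul_comm, pow_add]; congr 1; ring
      rw [this, map_smul, smul_eq_mul, hI _ _ _ (by omega)]
    · simp
  by_cases hj1 : j + 1 = m
  · by_cases hl1 : l + 1 = m
    · have e1 : r m (qt m X) j = 1 := by simp [r, hj1]
      have e2 : r m (qt m X) l = 1 := by simp [r, hl1]
      rw [e1, e2, mul_one, mul_one, qt_eq_iff]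
      intro a ha
      rw [coeff_mk, key2 a ha, coeff_C_mul, coeff_mk, if_pos (by omega)]
      have : 2 * m - 2 + a - (j + l) = a := by omega
      rw [this]
      simp only [rho, hj1, hl1, if_true]; ring
    · by_cases hl2 : l = m
      · have e1 : r m (qt m X) j = 1 := by simp [r, hj1]
        have e2 : r m (qt m X) l = qt m (-X) := by
          have : ¬ (m + 1 = m) := by omega
          simp [r, hl2]
        rw [e1, e2, mul_one, ← map_mul, qt_eq_iff]
        intro a ha
        rw [coeff_mk, key2 a ha]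
        have hr : rho m j * rho m l = -1 := by
          simp [rho, hj1, hl2]
        rcases a with _ | a
        · rw [if_neg (by omega)]
          simp
        · rw [if_pos (by omega)]
          have : 2 * m - 2 + (a + 1) - (j + l) = a := by omega
          rw [this]
          have e3 : (C N * PowerSeries.mk p * -X : ℝ⟦X⟧) = -(X * (C N * PowerSeries.mk p)) := by ring
          rw [e3, map_neg, coeff_succ_X_mul, coeff_C_mul, coeff_mk, mul_assoc N, hr]; ring
      · have e2 : r m (qt m X) l = 0 := by simp [r, hl1, hl2]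
        have hr : rho m l = 0 := by simp [rho, hl1, hl2]
        rw [e2, mul_zero, ← map_zero (qt m), qt_eq_iff]
        intro a ha
        rw [coeff_mk, key2 a ha, hr]
        simp
  · by_cases hj2 : j = m
    · by_cases hl1 : l + 1 = m
      · have e1 : r m (qt m X) j = qt m (-X) := by simp [r, hj2]
        have e2 : r m (qt m X) l = 1 := by simp [r, hl1]
        rw [e1, e2, mul_one, ← map_mul, qt_eq_iff]
        intro a ha
        rw [coeff_mk, key2 a ha]
        have hr : rho m j * rho m l = -1 := by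
          simp [rho, hj2, hl1]
        rcases a with _ | a
        · rw [if_neg (by omega)]
          simp
        · rw [if_pos (by omega)]
          have : 2 * m - 2 + (a + 1) - (j + l) = a := by omega
          rw [this]
          have e3 : (C N * PowerSeries.mk p * -X : ℝ⟦X⟧) = -(X * (C N * PowerSeries.mk p)) := by ring
          rw [e3, map_neg, coeff_succ_X_mul, coeff_C_mul, coeff_mk, mul_assoc N, hr]; ring
      · by_cases hl2 : l = m
        · have e1 : r m (qt m X) j = qt m (-X) := by simp [r, hj2]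
          have e2 : r m (qt m X) l = qt m (-X) := by simp [r, hl2]
          rw [e1, e2, ← map_mul, ← map_mul, qt_eq_iff]
          intro a ha
          rw [coeff_mk, key2 a ha]
          have hr : rho m j * rho m l = 1 := by
            simp [rho, hj2, hl2]
          have e3 : (C N * PowerSeries.mk p * -X * -X : ℝ⟦X⟧)
              = X * (X * (C N * PowerSeries.mk p)) := by ring
          rw [e3]
          rcases a with _ | a
          · rw [if_neg (by omega)]
            simp
          · rw [coeff_succ_X_mul]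
            rcases a with _ | a
            · rw [if_neg (by omega)]
              simp
            · rw [if_pos (by omega)]
              have : 2 * m - 2 + (a + 1 + 1) - (j + l) = a := by omega
              rw [this, coeff_succ_X_mul, coeff_C_mul, coeff_mk, mul_assoc N, hr]; ring
        · have e2 : r m (qt m X) l = 0 := by simp [r, hl1, hl2]
          have hr : rho m l = 0 := by simp [rho, hl1, hl2]
          rw [e2, mul_zero, ← map_zero (qt m), qt_eq_iff]
          intro a ha
          rw [coeff_mk, key2 a ha, hr]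
          simp
    · have e2 : r m (qt m X) j = 0 := by simp [r, hj1, hj2]
      have hr : rho m j = 0 := by simp [rho, hj1, hj2]
      rw [e2, mul_zero, zero_mul, ← map_zero (qt m), qt_eq_iff]
      intro a ha
      rw [coeff_mk, key2 a ha, hr]
      simp

/-- **Closed form of the total class of `TM ⊗ ℂ`** (154's #9947 (3)).
`H` = cohomology of `F ×_M F`, `I` = integration, `x = x₁`, `y = x₂`, `z = x₂'`,
`σ = c(TM - V - V')` graded by `t`, `p i` the coefficients of `c(TM) = Σ p_i x^i t^i`. -/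
theorem closed_form {m : ℕ} (hm : 2 ≤ m) (L N : ℝ) (hN : N ≠ 0) {x y z : H} {I : H →ₗ[ℝ] ℝ}
    (hx : x ^ (m + 1) = 0) (hy : y ^ (m + 1) = 0) (hz : z ^ (m + 1) = 0)
    (hI : ∀ a b c, a + b + c = 3 * m - 2 → I (x ^ a * y ^ b * z ^ c) = N * rho m b * rho m c)
    (p : ℕ → ℝ) (hp : p 0 = 1) (σ : H⟦X⟧)
    (hσ : σ * chi L x y * chi L x z = PowerSeries.mk fun i => p i • x ^ i)
    (h : ∀ i, 1 ≤ i → i ≤ m → I (x ^ (m - i) * ((y - z) * z * coeff (2 * m - 4 + i) σ)) = 0) :
    ∀ i ≤ m, coeff i (PowerSeries.mk p * (1 + C (2 * L) * X))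
      = coeff i ((1 + C L * X + X ^ 2) ^ (m + 1)) := by
  set lm := lam m (2 * m - 2) x I with hlm
  set Xq := qt m X
  set Lq := qt m (C L)
  -- inverse of D
  obtain ⟨Ds, hDs⟩ : ∃ Ds : ℝ⟦X⟧, (1 + C L * X + X ^ 2) * Ds = 1 := by
    refine ⟨PowerSeries.invOfUnit (1 + C L * X + X ^ 2) 1, ?_⟩
    apply PowerSeries.mul_invOfUnit
    simp
  have hE : (1 + Lq * Xq + Xq ^ 2) * qt m Ds = 1 := by
    have := congrArg (qt m) hDs
    simpa [Xq, Lq, map_mul, map_add, map_pow] using this
  set D := 1 + Lq * Xq + Xq ^ 2 with hD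
  set E := qt m Ds
  set Q := qt m (C N * PowerSeries.mk p) with hQ
  have hyj : ∀ j, m < j → (C y * X : H⟦X⟧) ^ j = 0 := by
    intro j hj
    have h0 : y ^ j = 0 := by
      have : j = (m + 1) + (j - (m + 1)) := by omega
      rw [this, pow_add, hy, zero_mul]
    rw [mul_pow, ← map_pow, h0, map_zero, zero_mul]
  have hzj : ∀ j, m < j → (C z * X : H⟦X⟧) ^ j = 0 := by
    intro j hj
    have h0 : z ^ j = 0 := by
      have : j = (m + 1) + (j - (m + 1)) := by omega
      rw [this, pow_add, hz, zero_mul]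
    rw [mul_pow, ← map_pow, h0, map_zero, zero_mul]
  have lz : lm 0 = 0 := by
    have := lam_sub (m := m) (s := 2 * m - 2) (x := x) (I := I) 0 0
    rw [sub_zero, sub_self] at this
    exact this
  -- first recursion (in z)
  have hv : ∀ j i, i ≤ m → lm ((C y * X) ^ j * ((C z * X) ^ (m - i) * (σ * chi L x y)))
      = (Q * r m Xq j) * g Xq Lq E i := by
    intro j
    apply rec_unique hE hm (Q * r m Xq j)
      (fun l => lm ((C y * X) ^ j * ((C z * X) ^ l * (σ * chi L x y))))
    · intro l hl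
      simp only [hzj l hl, zero_mul, mul_zero, lz]
    · intro l
      have := lam_chi (s := 2 * m - 2) (I := I) hx L z
        ((C y * X) ^ j * ((C z * X) ^ l * (σ * chi L x y)))
      have e : (C y * X) ^ j * ((C z * X) ^ l * (σ * chi L x y)) * chi L x z
          = (C y * X) ^ j * ((C z * X) ^ l * PowerSeries.mk fun i => p i • x ^ i) := by
        rw [← hσ]; ring
      rw [e, lam_mono hm hI p hy hz] at this
      have e1 : (C z * X) * ((C y * X) ^ j * ((C z * X) ^ l * (σ * chi L x y)))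
          = (C y * X) ^ j * ((C z * X) ^ (l + 1) * (σ * chi L x y)) := by ring
      have e2 : (C z * X) ^ 2 * ((C y * X) ^ j * ((C z * X) ^ l * (σ * chi L x y)))
          = (C y * X) ^ j * ((C z * X) ^ (l + 2) * (σ * chi L x y)) := by ring
      rw [e1, e2] at this
      exact this.symm
  -- second recursion (in y)
  have hu : ∀ l, l ≤ m → ∀ i, i ≤ m →
      lm ((C y * X) ^ (m - i) * ((C z * X) ^ (m - l) * σ))
      = (Q * g Xq Lq E l) * g Xq Lq E i := by
    intro l hl
    apply rec_unique hE hm (Q * g Xq Lq E l)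
      (fun j => lm ((C y * X) ^ j * ((C z * X) ^ (m - l) * σ)))
    · intro j hj
      simp only [hyj j hj, zero_mul, lz]
    · intro j
      have := lam_chi (s := 2 * m - 2) (I := I) hx L y ((C y * X) ^ j * ((C z * X) ^ (m - l) * σ))
      have e : (C y * X) ^ j * ((C z * X) ^ (m - l) * σ) * chi L x y
          = (C y * X) ^ j * ((C z * X) ^ (m - l) * (σ * chi L x y)) := by ring
      rw [e] at this
      have h2 := hv j l hl
      rw [hlm] at h2
      rw [h2] at this
      have e1 : (C y * X) * ((C y * X) ^ j * ((C z * X) ^ (m - l) * σ))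
          = (C y * X) ^ (j + 1) * ((C z * X) ^ (m - l) * σ) := by ring
      have e2 : (C y * X) ^ 2 * ((C y * X) ^ j * ((C z * X) ^ (m - l) * σ))
          = (C y * X) ^ (j + 2) * ((C z * X) ^ (m - l) * σ) := by ring
      rw [e1, e2] at this
      have e3 : Q * g Xq Lq E l * r m Xq j = Q * r m Xq j * g Xq Lq E l := by ring
      rw [e3]
      exact this.symm
  -- the class that vanishes
  have key : ∃ c0 : ℝ, lm (((C y * X) - (C z * X)) * (C z * X) * σ) = qt m (C c0) := by
    refine ⟨I (x ^ m * ((y - z) * z * coeff (2 * m - 4) σ)), ?_⟩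
    rw [hlm]
    unfold lam
    rw [qt_eq_iff]
    intro a ha
    rw [coeff_mk]
    have e : (((C y * X) - (C z * X)) * (C z * X) * σ : H⟦X⟧) = C ((y - z) * z) * (X ^ 2 * σ) := by
      simp only [map_mul, map_sub]; ring
    have e2 : 2 * m - 2 + a = (2 * m - 4 + a) + 2 := by omega
    rw [e, coeff_C_mul, e2, coeff_X_pow_mul]
    rcases a with _ | a
    · simp
    · rw [h (a + 1) (by omega) ha]
      simp
  obtain ⟨c0, hc0⟩ := key
  have e1 : (((C y * X) - (C z * X)) * (C z * X) * σ : H⟦X⟧)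
      = (C y * X) ^ (m - (m - 1)) * ((C z * X) ^ (m - (m - 1)) * σ)
        - (C y * X) ^ (m - m) * ((C z * X) ^ (m - (m - 2)) * σ) := by
    have a1 : m - (m - 1) = 1 := by omega
    have a2 : m - m = 0 := by omega
    have a3 : m - (m - 2) = 2 := by omega
    rw [a1, a2, a3]; ring
  rw [e1, hlm, lam_sub] at hc0
  have h1 := hu (m - 1) (by omega) (m - 1) (by omega)
  have h2 := hu (m - 2) (by omega) m (le_refl m)
  rw [hlm] at h1 h2
  rw [h1, h2] at hc0
  obtain ⟨b, hb⟩ : ∃ b, m = b + 2 := ⟨m - 2, by omega⟩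
  have hw := wronskian (X := Xq) (L := Lq) (E := E) hE hD b
  have a1 : m - 1 = b + 1 := by omega
  have a2 : m - 2 = b := by omega
  have a3 : g Xq Lq E m = g Xq Lq E (b + 2) := congrArg (g Xq Lq E) hb
  rw [a1, a2, a3] at hc0
  have a4 : D ^ (m + 1) = D ^ (b + 3) := congrArg (fun n : ℕ => D ^ n) (by omega)
  have hfin : D ^ (m + 1) * qt m (C c0) = Q * (1 + 2 * Lq * Xq) := by
    rw [a4, ← hc0, ← hw]; ring
  have hfin2 : qt m ((1 + C L * X + X ^ 2) ^ (m + 1) * C c0)
      = qt m (C N * PowerSeries.mk p * (1 + C (2 * L) * X)) := by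
    have : (C (2 * L) : ℝ⟦X⟧) = 2 * C L := by
      rw [map_mul]; congr 1
    rw [this]
    simp only [map_mul, map_pow, map_add, map_one, map_ofNat]
    rw [hD, hQ] at hfin
    simp only [map_mul] at hfin
    exact hfin
  rw [qt_eq_iff] at hfin2
  have h0 := hfin2 0 (by omega)
  have hc : c0 = N := by
    have e1 : coeff 0 ((1 + C L * X + X ^ 2) ^ (m + 1) * C c0 : ℝ⟦X⟧) = c0 := by
      rw [coeff_zero_eq_constantCoeff]
      simp
    have e2 : coeff 0 (C N * PowerSeries.mk p * (1 + C (2 * L) * X) : ℝ⟦X⟧) = N := by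
      rw [coeff_zero_eq_constantCoeff]
      simp only [map_mul, map_add, map_one, constantCoeff_C, constantCoeff_X, mul_zero, add_zero,
        mul_one]
      rw [← coeff_zero_eq_constantCoeff_apply, coeff_mk, hp, mul_one]
    rw [← e1, h0, e2]
  intro i hi
  have := hfin2 i hi
  rw [hc, mul_comm _ (C N : ℝ⟦X⟧), mul_assoc (C N : ℝ⟦X⟧), coeff_C_mul, coeff_C_mul] at this
  exact (mul_left_cancel₀ hN this).symm

end Main

end Crest.Agent.R208.CF
end

-- ▼ part R208/ClosedForm365K
section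

/-!
R208 (II): the closed form of `p(TM)` over an arbitrary field `K` (helper365; version of
`ClosedForm365` asked for by helper586).
-/

namespace Crest.Agent.R208.CFK

open PowerSeries
open Crest.Agent.R208.CF (g r g_zero g_one g_rec wronskian rec_unique)

section Trunc

variable {K : Type*} [Field K]

/-- `K⟦X⟧ / (X^{m+1})` -/
abbrev TT (K : Type*) [Field K] (m : ℕ) : Type _ := K⟦X⟧ ⧸ Ideal.span {(X : K⟦X⟧) ^ (m + 1)}

/-- the quotient map -/
noncomputable abbrev qt (m : ℕ) : K⟦X⟧ →+* TT K m := Ideal.Quotient.mk _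

theorem qt_eq_iff {m : ℕ} {f h : K⟦X⟧} : qt m f = qt m h ↔ ∀ i ≤ m, coeff i f = coeff i h := by
  rw [Ideal.Quotient.eq, Ideal.mem_span_singleton, PowerSeries.X_pow_dvd_iff]
  constructor
  · intro H i hi
    have := H i (by omega)
    rw [map_sub, sub_eq_zero] at this
    exact this
  · intro H i hi
    rw [map_sub, sub_eq_zero]
    exact H i (by omega)

variable {H : Type*} [CommRing H] [Algebra K H] (m s : ℕ) (x : H) (I : H →ₗ[K] K)

/-- `λ_s(f) = Σ_{a ≤ m} I(x^{m-a} f_{s+a}) X^a` in `K⟦X⟧/(X^{m+1})`. -/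
noncomputable def lam (f : H⟦X⟧) : TT K m :=
  qt m (PowerSeries.mk fun a => I (x ^ (m - a) * coeff (s + a) f))

variable {m s x I}

theorem lam_add (f h : H⟦X⟧) : lam m s x I (f + h) = lam m s x I f + lam m s x I h := by
  unfold lam
  rw [← map_add]
  congr 1
  ext a
  simp [mul_add]

theorem lam_sub (f h : H⟦X⟧) : lam m s x I (f - h) = lam m s x I f - lam m s x I h := by
  unfold lam
  rw [← map_sub]
  congr 1
  ext a
  simp [mul_sub]

theorem lam_smul (c : K) (f : H⟦X⟧) :
    lam m s x I (C (algebraMap K H c) * f) = qt m (C c) * lam m s x I f := by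
  unfold lam
  rw [← map_mul]
  congr 1
  ext a
  rw [coeff_mk, coeff_C_mul, coeff_C_mul, coeff_mk]
  have : x ^ (m - a) * (algebraMap K H c * coeff (s + a) f)
      = c • (x ^ (m - a) * coeff (s + a) f) := by
    rw [Algebra.smul_def]; ring
  rw [this, map_smul, smul_eq_mul]

theorem lam_x (hx : x ^ (m + 1) = 0) (f : H⟦X⟧) :
    lam m s x I ((C x * X) * f) = qt m X * lam m s x I f := by
  unfold lam
  rw [← map_mul, qt_eq_iff]
  intro a ha
  rw [coeff_mk]
  rcases a with _ | a
  · have : coeff 0 ((X : K⟦X⟧) * PowerSeries.mk fun a => I (x ^ (m - a) * coeff (s + a) f)) = 0 := by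
      simp
    rw [this, Nat.sub_zero, Nat.add_zero]
    have e : x ^ m * coeff s (C x * X * f) = x ^ (m + 1) * coeff s (X * f) := by
      rw [mul_assoc, coeff_C_mul, pow_succ]; ring
    rw [e, hx, zero_mul, map_zero]
  · rw [coeff_succ_X_mul, coeff_mk]
    have e : coeff (s + (a + 1)) (C x * X * f) = x * coeff (s + a) f := by
      rw [mul_assoc, coeff_C_mul, ← add_assoc, coeff_succ_X_mul]
    rw [e]
    have e2 : x ^ (m - (a + 1)) * (x * coeff (s + a) f) = x ^ (m - a) * coeff (s + a) f := by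
      have : m - a = (m - (a + 1)) + 1 := by omega
      rw [this, pow_succ]; ring
    rw [e2]

end Trunc

section Main

variable {K : Type*} [Field K]

variable {H : Type*} [CommRing H] [Algebra K H]

/-- the total class of `V`: `1 + L(x+y) + (x-y)²`, graded by `t = X`. -/
noncomputable def chi (L : K) (x y : H) : H⟦X⟧ :=
  1 + C (L • (x + y)) * X + C ((x - y) ^ 2) * X ^ 2

theorem chi_eq (L : K) (x y : H) : chi L x y =
    (1 + C (algebraMap K H L) * (C x * X) + (C x * X) ^ 2)
    + (C (algebraMap K H L) - 2 * (C x * X)) * (C y * X) + (C y * X) ^ 2 := by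
  unfold chi
  rw [Algebra.smul_def]
  simp only [map_mul, map_add, map_pow, map_sub]
  ring

theorem lam_chi {m s : ℕ} {x : H} {I : H →ₗ[K] K} (hx : x ^ (m + 1) = 0) (L : K) (y : H)
    (f : H⟦X⟧) :
    lam m s x I (f * chi L x y) =
      (1 + qt m (C L) * qt m X + qt m X ^ 2) * lam m s x I f
      + (qt m (C L) - 2 * qt m X) * lam m s x I ((C y * X) * f)
      + lam m s x I ((C y * X) ^ 2 * f) := by
  have e : f * chi L x y = f + C (algebraMap K H L) * ((C x * X) * f) + (C x * X) * ((C x * X) * f)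
      + C (algebraMap K H L) * ((C y * X) * f)
      - C (algebraMap K H 2) * ((C x * X) * ((C y * X) * f)) + (C y * X) ^ 2 * f := by
    rw [chi_eq]
    have : (C (algebraMap K H 2) : H⟦X⟧) = 2 := by rw [map_ofNat, map_ofNat]
    rw [this]; ring
  rw [e, lam_add, lam_sub, lam_add, lam_add, lam_add, lam_smul, lam_x hx, lam_x hx, lam_x hx,
    lam_smul, lam_smul, lam_x hx]
  have : qt m (C (2 : K)) = 2 := by rw [map_ofNat, map_ofNat]
  rw [this]
  ring

/-- numbers of the push-forwards: `ρ (m-1) = 1`, `ρ m = -1`, else `0`. -/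
def rho (K : Type*) [Field K] (m : ℕ) (j : ℕ) : K := if j + 1 = m then 1 else if j = m then -1 else 0

theorem lam_mono {m : ℕ} (hm : 2 ≤ m) {x y z : H} {I : H →ₗ[K] K} {N : K}
    (hI : ∀ a b c, a + b + c = 3 * m - 2 → I (x ^ a * y ^ b * z ^ c) = N * rho K m b * rho K m c)
    (p : ℕ → K) (hy : y ^ (m + 1) = 0) (hz : z ^ (m + 1) = 0) (j l : ℕ) :
    lam m (2 * m - 2) x I ((C y * X) ^ j * ((C z * X) ^ l * PowerSeries.mk fun i => p i • x ^ i))
      = qt m (C N * PowerSeries.mk p) * r m (qt m (X : K⟦X⟧)) j * r m (qt m (X : K⟦X⟧)) l := by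
  have key : ∀ a, coeff (2 * m - 2 + a)
      ((C y * X) ^ j * ((C z * X) ^ l * PowerSeries.mk fun i => p i • x ^ i))
      = if j + l ≤ 2 * m - 2 + a then
          p (2 * m - 2 + a - (j + l)) • (x ^ (2 * m - 2 + a - (j + l)) * (y ^ j * z ^ l)) else 0 := by
    intro a
    have e : ((C y * X) ^ j * ((C z * X) ^ l * PowerSeries.mk fun i => p i • x ^ i) : H⟦X⟧)
        = C (y ^ j * z ^ l) * (X ^ (j + l) * PowerSeries.mk fun i => p i • x ^ i) := by
      rw [mul_pow, mul_pow, map_mul, map_pow, map_pow, pow_add]; ring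
    rw [e, coeff_C_mul, coeff_X_pow_mul']
    split_ifs with h
    · rw [coeff_mk, mul_smul_comm, mul_comm (y ^ j * z ^ l)]
    · rw [mul_zero]
  unfold lam
  by_cases hj : m < j
  · have h0 : y ^ j = 0 := by
      have : j = (m + 1) + (j - (m + 1)) := by omega
      rw [this, pow_add, hy, zero_mul]
    have : r m (qt m (X : K⟦X⟧)) j = 0 := by
      have h1 : ¬ (j + 1 = m) := by omega
      have h2 : ¬ (j = m) := by omega
      simp [r, h1, h2]
    rw [this, mul_zero, zero_mul, ← map_zero (qt m), qt_eq_iff]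
    intro a _
    rw [coeff_mk, key, h0]
    simp
  by_cases hl : m < l
  · have h0 : z ^ l = 0 := by
      have : l = (m + 1) + (l - (m + 1)) := by omega
      rw [this, pow_add, hz, zero_mul]
    have : r m (qt m (X : K⟦X⟧)) l = 0 := by
      have h1 : ¬ (l + 1 = m) := by omega
      have h2 : ¬ (l = m) := by omega
      simp [r, h1, h2]
    rw [this, mul_zero, ← map_zero (qt m), qt_eq_iff]
    intro a _
    rw [coeff_mk, key, h0]
    simp
  have key2 : ∀ a ≤ m, I (x ^ (m - a) * coeff (2 * m - 2 + a)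
      ((C y * X) ^ j * ((C z * X) ^ l * PowerSeries.mk fun i => p i • x ^ i)))
      = if j + l ≤ 2 * m - 2 + a then
          p (2 * m - 2 + a - (j + l)) * (N * rho K m j * rho K m l) else 0 := by
    intro a ha
    rw [key]
    split_ifs with h
    · have : x ^ (m - a) * p (2 * m - 2 + a - (j + l)) •
          (x ^ (2 * m - 2 + a - (j + l)) * (y ^ j * z ^ l))
          = p (2 * m - 2 + a - (j + l)) •
            (x ^ (m - a + (2 * m - 2 + a - (j + l))) * y ^ j * z ^ l) := by
        rw [mul_smul_comm, pow_add]; congr 1; ring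
      rw [this, map_smul, smul_eq_mul, hI _ _ _ (by omega)]
    · simp
  by_cases hj1 : j + 1 = m
  · by_cases hl1 : l + 1 = m
    · have e1 : r m (qt m (X : K⟦X⟧)) j = 1 := by simp [r, hj1]
      have e2 : r m (qt m (X : K⟦X⟧)) l = 1 := by simp [r, hl1]
      rw [e1, e2, mul_one, mul_one, qt_eq_iff]
      intro a ha
      rw [coeff_mk, key2 a ha, coeff_C_mul, coeff_mk, if_pos (by omega)]
      have : 2 * m - 2 + a - (j + l) = a := by omega
      rw [this]
      simp only [rho, hj1, hl1, if_true]; ring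
    · by_cases hl2 : l = m
      · have e1 : r m (qt m (X : K⟦X⟧)) j = 1 := by simp [r, hj1]
        have e2 : r m (qt m (X : K⟦X⟧)) l = qt m (-X : K⟦X⟧) := by
          have : ¬ (m + 1 = m) := by omega
          simp [r, hl2]
        rw [e1, e2, mul_one, ← map_mul, qt_eq_iff]
        intro a ha
        rw [coeff_mk, key2 a ha]
        have hr : rho K m j * rho K m l = -1 := by
          simp [rho, hj1, hl2]
        rcases a with _ | a
        · rw [if_neg (by omega)]
          simp
        · rw [if_pos (by omega)]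
          have : 2 * m - 2 + (a + 1) - (j + l) = a := by omega
          rw [this]
          have e3 : (C N * PowerSeries.mk p * -X : K⟦X⟧) = -(X * (C N * PowerSeries.mk p)) := by ring
          rw [e3, map_neg, coeff_succ_X_mul, coeff_C_mul, coeff_mk, mul_assoc N, hr]; ring
      · have e2 : r m (qt m (X : K⟦X⟧)) l = 0 := by simp [r, hl1, hl2]
        have hr : rho K m l = 0 := by simp [rho, hl1, hl2]
        rw [e2, mul_zero, ← map_zero (qt m), qt_eq_iff]
        intro a ha
        rw [coeff_mk, key2 a ha, hr]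
        simp
  · by_cases hj2 : j = m
    · by_cases hl1 : l + 1 = m
      · have e1 : r m (qt m (X : K⟦X⟧)) j = qt m (-X : K⟦X⟧) := by simp [r, hj2]
        have e2 : r m (qt m (X : K⟦X⟧)) l = 1 := by simp [r, hl1]
        rw [e1, e2, mul_one, ← map_mul, qt_eq_iff]
        intro a ha
        rw [coeff_mk, key2 a ha]
        have hr : rho K m j * rho K m l = -1 := by
          simp [rho, hj2, hl1]
        rcases a with _ | a
        · rw [if_neg (by omega)]
          simp
        · rw [if_pos (by omega)]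
          have : 2 * m - 2 + (a + 1) - (j + l) = a := by omega
          rw [this]
          have e3 : (C N * PowerSeries.mk p * -X : K⟦X⟧) = -(X * (C N * PowerSeries.mk p)) := by ring
          rw [e3, map_neg, coeff_succ_X_mul, coeff_C_mul, coeff_mk, mul_assoc N, hr]; ring
      · by_cases hl2 : l = m
        · have e1 : r m (qt m (X : K⟦X⟧)) j = qt m (-X : K⟦X⟧) := by simp [r, hj2]
          have e2 : r m (qt m (X : K⟦X⟧)) l = qt m (-X : K⟦X⟧) := by simp [r, hl2]
          rw [e1, e2, ← map_mul, ← map_mul, qt_eq_iff]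
          intro a ha
          rw [coeff_mk, key2 a ha]
          have hr : rho K m j * rho K m l = 1 := by
            simp [rho, hj2, hl2]
          have e3 : (C N * PowerSeries.mk p * -X * -X : K⟦X⟧)
              = X * (X * (C N * PowerSeries.mk p)) := by ring
          rw [e3]
          rcases a with _ | a
          · rw [if_neg (by omega)]
            simp
          · rw [coeff_succ_X_mul]
            rcases a with _ | a
            · rw [if_neg (by omega)]
              simp
            · rw [if_pos (by omega)]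
              have : 2 * m - 2 + (a + 1 + 1) - (j + l) = a := by omega
              rw [this, coeff_succ_X_mul, coeff_C_mul, coeff_mk, mul_assoc N, hr]; ring
        · have e2 : r m (qt m (X : K⟦X⟧)) l = 0 := by simp [r, hl1, hl2]
          have hr : rho K m l = 0 := by simp [rho, hl1, hl2]
          rw [e2, mul_zero, ← map_zero (qt m), qt_eq_iff]
          intro a ha
          rw [coeff_mk, key2 a ha, hr]
          simp
    · have e2 : r m (qt m (X : K⟦X⟧)) j = 0 := by simp [r, hj1, hj2]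
      have hr : rho K m j = 0 := by simp [rho, hj1, hj2]
      rw [e2, mul_zero, zero_mul, ← map_zero (qt m), qt_eq_iff]
      intro a ha
      rw [coeff_mk, key2 a ha, hr]
      simp

/-- **Closed form of the total class of `TM ⊗ ℂ`** (154's #9947 (3)).
`H` = cohomology of `F ×_M F`, `I` = integration, `x = x₁`, `y = x₂`, `z = x₂'`,
`σ = c(TM - V - V')` graded by `t`, `p i` the coefficients of `c(TM) = Σ p_i x^i t^i`. -/
theorem closed_form {m : ℕ} (hm : 2 ≤ m) (L N : K) (hN : N ≠ 0) {x y z : H} {I : H →ₗ[K] K}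
    (hx : x ^ (m + 1) = 0) (hy : y ^ (m + 1) = 0) (hz : z ^ (m + 1) = 0)
    (hI : ∀ a b c, a + b + c = 3 * m - 2 → I (x ^ a * y ^ b * z ^ c) = N * rho K m b * rho K m c)
    (p : ℕ → K) (hp : p 0 = 1) (σ : H⟦X⟧)
    (hσ : σ * chi L x y * chi L x z = PowerSeries.mk fun i => p i • x ^ i)
    (h : ∀ i, 1 ≤ i → i ≤ m → I (x ^ (m - i) * ((y - z) * z * coeff (2 * m - 4 + i) σ)) = 0) :
    ∀ i ≤ m, coeff i (PowerSeries.mk p * (1 + C (2 * L) * X))
      = coeff i ((1 + C L * X + X ^ 2) ^ (m + 1)) := by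
  set lm := lam m (2 * m - 2) x I with hlm
  set Xq := qt m (X : K⟦X⟧)
  set Lq := qt m (C L)
  -- inverse of D
  obtain ⟨Ds, hDs⟩ : ∃ Ds : K⟦X⟧, (1 + C L * X + X ^ 2) * Ds = 1 := by
    refine ⟨PowerSeries.invOfUnit (1 + C L * X + X ^ 2) 1, ?_⟩
    apply PowerSeries.mul_invOfUnit
    simp
  have hE : (1 + Lq * Xq + Xq ^ 2) * qt m Ds = 1 := by
    have := congrArg (qt m) hDs
    simpa [Xq, Lq, map_mul, map_add, map_pow] using this
  set D := 1 + Lq * Xq + Xq ^ 2 with hD
  set E := qt m Ds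
  set Q := qt m (C N * PowerSeries.mk p) with hQ
  have hyj : ∀ j, m < j → (C y * X : H⟦X⟧) ^ j = 0 := by
    intro j hj
    have h0 : y ^ j = 0 := by
      have : j = (m + 1) + (j - (m + 1)) := by omega
      rw [this, pow_add, hy, zero_mul]
    rw [mul_pow, ← map_pow, h0, map_zero, zero_mul]
  have hzj : ∀ j, m < j → (C z * X : H⟦X⟧) ^ j = 0 := by
    intro j hj
    have h0 : z ^ j = 0 := by
      have : j = (m + 1) + (j - (m + 1)) := by omega
      rw [this, pow_add, hz, zero_mul]
    rw [mul_pow, ← map_pow, h0, map_zero, zero_mul]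
  have lz : lm 0 = 0 := by
    have := lam_sub (m := m) (s := 2 * m - 2) (x := x) (I := I) 0 0
    rw [sub_zero, sub_self] at this
    exact this
  -- first recursion (in z)
  have hv : ∀ j i, i ≤ m → lm ((C y * X) ^ j * ((C z * X) ^ (m - i) * (σ * chi L x y)))
      = (Q * r m Xq j) * g Xq Lq E i := by
    intro j
    apply rec_unique hE hm (Q * r m Xq j)
      (fun l => lm ((C y * X) ^ j * ((C z * X) ^ l * (σ * chi L x y))))
    · intro l hl
      simp only [hzj l hl, zero_mul, mul_zero, lz]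
    · intro l
      have := lam_chi (s := 2 * m - 2) (I := I) hx L z
        ((C y * X) ^ j * ((C z * X) ^ l * (σ * chi L x y)))
      have e : (C y * X) ^ j * ((C z * X) ^ l * (σ * chi L x y)) * chi L x z
          = (C y * X) ^ j * ((C z * X) ^ l * PowerSeries.mk fun i => p i • x ^ i) := by
        rw [← hσ]; ring
      rw [e, lam_mono hm hI p hy hz] at this
      have e1 : (C z * X) * ((C y * X) ^ j * ((C z * X) ^ l * (σ * chi L x y)))
          = (C y * X) ^ j * ((C z * X) ^ (l + 1) * (σ * chi L x y)) := by ring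
      have e2 : (C z * X) ^ 2 * ((C y * X) ^ j * ((C z * X) ^ l * (σ * chi L x y)))
          = (C y * X) ^ j * ((C z * X) ^ (l + 2) * (σ * chi L x y)) := by ring
      rw [e1, e2] at this
      exact this.symm
  -- second recursion (in y)
  have hu : ∀ l, l ≤ m → ∀ i, i ≤ m →
      lm ((C y * X) ^ (m - i) * ((C z * X) ^ (m - l) * σ))
      = (Q * g Xq Lq E l) * g Xq Lq E i := by
    intro l hl
    apply rec_unique hE hm (Q * g Xq Lq E l)
      (fun j => lm ((C y * X) ^ j * ((C z * X) ^ (m - l) * σ)))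
    · intro j hj
      simp only [hyj j hj, zero_mul, lz]
    · intro j
      have := lam_chi (s := 2 * m - 2) (I := I) hx L y ((C y * X) ^ j * ((C z * X) ^ (m - l) * σ))
      have e : (C y * X) ^ j * ((C z * X) ^ (m - l) * σ) * chi L x y
          = (C y * X) ^ j * ((C z * X) ^ (m - l) * (σ * chi L x y)) := by ring
      rw [e] at this
      have h2 := hv j l hl
      rw [hlm] at h2
      rw [h2] at this
      have e1 : (C y * X) * ((C y * X) ^ j * ((C z * X) ^ (m - l) * σ))
          = (C y * X) ^ (j + 1) * ((C z * X) ^ (m - l) * σ) := by ring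
      have e2 : (C y * X) ^ 2 * ((C y * X) ^ j * ((C z * X) ^ (m - l) * σ))
          = (C y * X) ^ (j + 2) * ((C z * X) ^ (m - l) * σ) := by ring
      rw [e1, e2] at this
      have e3 : Q * g Xq Lq E l * r m Xq j = Q * r m Xq j * g Xq Lq E l := by ring
      rw [e3]
      exact this.symm
  -- the class that vanishes
  have key : ∃ c0 : K, lm (((C y * X) - (C z * X)) * (C z * X) * σ) = qt m (C c0) := by
    refine ⟨I (x ^ m * ((y - z) * z * coeff (2 * m - 4) σ)), ?_⟩
    rw [hlm]
    unfold lam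
    rw [qt_eq_iff]
    intro a ha
    rw [coeff_mk]
    have e : (((C y * X) - (C z * X)) * (C z * X) * σ : H⟦X⟧) = C ((y - z) * z) * (X ^ 2 * σ) := by
      simp only [map_mul, map_sub]; ring
    have e2 : 2 * m - 2 + a = (2 * m - 4 + a) + 2 := by omega
    rw [e, coeff_C_mul, e2, coeff_X_pow_mul]
    rcases a with _ | a
    · simp
    · rw [h (a + 1) (by omega) ha]
      simp
  obtain ⟨c0, hc0⟩ := key
  have e1 : (((C y * X) - (C z * X)) * (C z * X) * σ : H⟦X⟧)
      = (C y * X) ^ (m - (m - 1)) * ((C z * X) ^ (m - (m - 1)) * σ)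
        - (C y * X) ^ (m - m) * ((C z * X) ^ (m - (m - 2)) * σ) := by
    have a1 : m - (m - 1) = 1 := by omega
    have a2 : m - m = 0 := by omega
    have a3 : m - (m - 2) = 2 := by omega
    rw [a1, a2, a3]; ring
  rw [e1, hlm, lam_sub] at hc0
  have h1 := hu (m - 1) (by omega) (m - 1) (by omega)
  have h2 := hu (m - 2) (by omega) m (le_refl m)
  rw [hlm] at h1 h2
  rw [h1, h2] at hc0
  obtain ⟨b, hb⟩ : ∃ b, m = b + 2 := ⟨m - 2, by omega⟩
  have hw := wronskian (X := Xq) (L := Lq) (E := E) hE hD b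
  have a1 : m - 1 = b + 1 := by omega
  have a2 : m - 2 = b := by omega
  have a3 : g Xq Lq E m = g Xq Lq E (b + 2) := congrArg (g Xq Lq E) hb
  rw [a1, a2, a3] at hc0
  have a4 : D ^ (m + 1) = D ^ (b + 3) := congrArg (fun n : ℕ => D ^ n) (by omega)
  have hfin : D ^ (m + 1) * qt m (C c0) = Q * (1 + 2 * Lq * Xq) := by
    rw [a4, ← hc0, ← hw]; ring
  have hfin2 : qt m ((1 + C L * X + X ^ 2) ^ (m + 1) * C c0)
      = qt m (C N * PowerSeries.mk p * (1 + C (2 * L) * X)) := by
    have : (C (2 * L) : K⟦X⟧) = 2 * C L := by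
      rw [map_mul]; congr 1
    rw [this]
    simp only [map_mul, map_pow, map_add, map_one, map_ofNat]
    rw [hD, hQ] at hfin
    simp only [map_mul] at hfin
    exact hfin
  rw [qt_eq_iff] at hfin2
  have h0 := hfin2 0 (by omega)
  have hc : c0 = N := by
    have e1 : coeff 0 ((1 + C L * X + X ^ 2) ^ (m + 1) * C c0 : K⟦X⟧) = c0 := by
      rw [coeff_zero_eq_constantCoeff]
      simp
    have e2 : coeff 0 (C N * PowerSeries.mk p * (1 + C (2 * L) * X) : K⟦X⟧) = N := by
      rw [coeff_zero_eq_constantCoeff]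
      simp only [map_mul, map_add, map_one, constantCoeff_C, constantCoeff_X, mul_zero, add_zero,
        mul_one]
      rw [← coeff_zero_eq_constantCoeff_apply, coeff_mk, hp, mul_one]
    rw [← e1, h0, e2]
  intro i hi
  have := hfin2 i hi
  rw [hc, mul_comm _ (C N : K⟦X⟧), mul_assoc (C N : K⟦X⟧), coeff_C_mul, coeff_C_mul] at this
  exact (mul_left_cancel₀ hN this).symm

end Main

end Crest.Agent.R208.CFK
end

-- ▼ part R208/FG4
section

/-! Row 208, block FG (helper586), part FG4: the closed form of `c(TM ⊗ ℂ)`: algebra. -/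

set_option autoImplicit false
set_option linter.unusedSectionVars false

open PowerSeries
open scoped BigOperators

noncomputable section

namespace Crest.Agent.R208.FG

open Crest.Agent.R208.CFK (rho chi closed_form)

section num
variable {H : Type*} [CommRing H] [Algebra ℂ H] {m : ℕ} {x y z : H} {I : H →ₗ[ℂ] ℂ}

theorem rho_top {m : ℕ} : rho ℂ m m = -1 := by simp [rho]

theorem rho_pred {m : ℕ} (hm : 1 ≤ m) : rho ℂ m (m - 1) = 1 := by
  simp [rho, Nat.sub_add_cancel hm]

theorem rho_ne {m b : ℕ} (h1 : b ≠ m) (h2 : b + 1 ≠ m) : rho ℂ m b = 0 := by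
  simp [rho, h1, h2]

/-- `y^m = - ∑_{i ≥ 1} x^i y^(m-i)` -/
theorem top_pow (_hm : 1 ≤ m) (hxy : ∑ i ∈ Finset.range (m + 1), x ^ i * y ^ (m - i) = 0) :
    y ^ m = - ∑ i ∈ Finset.range m, x ^ (i + 1) * y ^ (m - (i + 1)) := by
  rw [Finset.sum_range_succ'] at hxy
  rw [pow_zero, one_mul, Nat.sub_zero] at hxy
  rw [← sub_eq_zero, sub_neg_eq_add, add_comm, hxy]

/-- all numbers from one -/
theorem numbers (hm : 2 ≤ m) (hx : x ^ (m + 1) = 0) (hy : y ^ (m + 1) = 0) (hz : z ^ (m + 1) = 0)
    (hxy : ∑ i ∈ Finset.range (m + 1), x ^ i * y ^ (m - i) = 0)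
    (hxz : ∑ i ∈ Finset.range (m + 1), x ^ i * z ^ (m - i) = 0) {a b c : ℕ}
    (habc : a + b + c = 3 * m - 2) :
    I (x ^ a * y ^ b * z ^ c) = I (x ^ m * y ^ (m - 1) * z ^ (m - 1)) * rho ℂ m b * rho ℂ m c := by
  set N := I (x ^ m * y ^ (m - 1) * z ^ (m - 1)) with hN
  have pz : ∀ {w : H}, w ^ (m + 1) = 0 → ∀ j, m < j → w ^ j = 0 := fun {w} hw j hj => by
    have : j = (m + 1) + (j - (m + 1)) := by omega
    rw [this, pow_add, hw, zero_mul]
  -- case `b, c ≤ m - 1`
  have h1 : ∀ a b c : ℕ, a + b + c = 3 * m - 2 → b < m → c < m →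
      I (x ^ a * y ^ b * z ^ c) = N * rho ℂ m b * rho ℂ m c := by
    intro a b c habc hb hc
    rcases lt_or_ge m a with ha | ha
    · rw [pz hx a ha, zero_mul, zero_mul, map_zero]
      by_cases hb' : b + 1 = m
      · have hc' : c + 1 ≠ m := by omega
        rw [rho_ne (by omega) hc', mul_zero]
      · rw [rho_ne (by omega) hb', mul_zero, zero_mul]
    · have hb' : b = m - 1 := by omega
      have hc' : c = m - 1 := by omega
      have ha' : a = m := by omega
      subst hb' hc'
      rw [ha', rho_pred (by omega), mul_one, mul_one]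
  -- case `c ≤ m - 1`
  have h2 : ∀ a b c : ℕ, a + b + c = 3 * m - 2 → c < m →
      I (x ^ a * y ^ b * z ^ c) = N * rho ℂ m b * rho ℂ m c := by
    intro a b c habc hc
    rcases lt_trichotomy b m with hb | hb | hb
    · exact h1 a b c habc hb hc
    · subst hb
      have e1 : x ^ a * y ^ b * z ^ c
          = - ∑ i ∈ Finset.range b, x ^ (a + (i + 1)) * y ^ (b - (i + 1)) * z ^ c := by
        rw [top_pow (by omega) hxy, mul_neg, neg_mul, Finset.mul_sum, Finset.sum_mul]
        congr 1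
        exact Finset.sum_congr rfl fun i _ => by rw [pow_add]; ring
      rw [e1, map_neg, map_sum, Finset.sum_congr rfl fun i hi => h1 (a + (i + 1)) (b - (i + 1)) c
        (by have := Finset.mem_range.1 hi; omega) (by omega) hc]
      rw [Finset.sum_eq_single 0]
      · rw [zero_add, rho_pred (by omega), rho_top]; ring
      · intro i hi hi0
        have := Finset.mem_range.1 hi
        rw [rho_ne (by omega) (by omega), mul_zero, zero_mul]
      · intro h0
        exact absurd (Finset.mem_range.2 (by omega)) h0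
    · rw [pz hy b hb, mul_zero, zero_mul, map_zero, rho_ne (by omega) (by omega), mul_zero, zero_mul]
  rcases lt_trichotomy c m with hc | hc | hc
  · exact h2 a b c habc hc
  · subst hc
    have e1 : x ^ a * y ^ b * z ^ c
        = - ∑ i ∈ Finset.range c, x ^ (a + (i + 1)) * y ^ b * z ^ (c - (i + 1)) := by
      rw [top_pow (by omega) hxz, mul_neg, Finset.mul_sum]
      congr 1
      exact Finset.sum_congr rfl fun i _ => by rw [pow_add]; ring
    rw [e1, map_neg, map_sum, Finset.sum_congr rfl fun i hi => h2 (a + (i + 1)) b (c - (i + 1))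
      (by have := Finset.mem_range.1 hi; omega) (by omega)]
    rw [Finset.sum_eq_single 0]
    · rw [zero_add, rho_pred (by omega), rho_top]; ring
    · intro i hi hi0
      have := Finset.mem_range.1 hi
      rw [rho_ne (b := c - (i + 1)) (by omega) (by omega), mul_zero]
    · intro h0
      exact absurd (Finset.mem_range.2 (by omega)) h0
  · rw [pz hz c hc, mul_zero, map_zero, rho_ne (b := c) (by omega) (by omega), mul_zero]

/-- the total class of `V`, graded by `t = X`, with a sign or scale `e` -/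
def chiE (l : ℕ) (L e : ℂ) (x y : H) : H⟦X⟧ :=
  1 + C (L • (x + y)) * X ^ l + C (e • (x - y) ^ 2) * X ^ (2 * l)

theorem chiE_expand {l : ℕ} (hl : l ≠ 0) (L e : ℂ) (x y : H) :
    chiE l L e x y = expand l hl (chiE 1 L e x y) := by
  rw [chiE, chiE]
  simp only [map_add, map_mul, map_one, map_pow, expand_C, expand_X, pow_one, mul_one]
  rw [← pow_mul, mul_comm 2 l]

theorem chiE_eq_chi {L e s : ℂ} (hs : s ≠ 0) (hse : s ^ 2 = e) (x y : H) :
    chiE 1 L e x y = chi (L / s) (s • x) (s • y) := by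
  rw [chiE, chi, pow_one, mul_one]
  have e1 : (L / s) • (s • x + s • y) = L • (x + y) := by
    rw [← smul_add, smul_smul, div_mul_cancel₀ L hs]
  have e2 : (s • x - s • y) ^ 2 = e • (x - y) ^ 2 := by
    rw [← smul_sub, smul_pow, hse]
  rw [e1, e2]

/-- **the closed form, algebra** -/
theorem closed_alg {l : ℕ} (hl : l ≠ 0) (hm : 2 ≤ m) {L e : ℂ} (he : e ≠ 0)
    (hx : x ^ (m + 1) = 0) (hy : y ^ (m + 1) = 0) (hz : z ^ (m + 1) = 0)
    (hxy : ∑ i ∈ Finset.range (m + 1), x ^ i * y ^ (m - i) = 0)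
    (hxz : ∑ i ∈ Finset.range (m + 1), x ^ i * z ^ (m - i) = 0)
    (hN : I (x ^ m * y ^ (m - 1) * z ^ (m - 1)) ≠ 0) {p : ℕ → ℂ} (hp0 : p 0 = 1)
    {P : H⟦X⟧} (hP : ∀ j, coeff j P = if l ∣ j then p (j / l) • x ^ (j / l) else 0)
    (hσ : ∀ σ : H⟦X⟧, σ * chiE l L e x y * chiE l L e x z = P →
      ∀ j, 2 * l * m < j + (2 * l + 2 * l) → (y - z) * coeff j σ = 0) :
    ∀ i ≤ m, coeff i (PowerSeries.mk p * (1 + C (2 * L) * X))
      = coeff i ((1 + C L * X + C e * X ^ 2) ^ (m + 1)) := by
  obtain ⟨s, hs2⟩ := IsAlgClosed.exists_pow_nat_eq e (n := 2) (by norm_num)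
  have hs : s ≠ 0 := by
    rintro rfl
    apply he
    rw [← hs2]; ring
  set x' := s • x with hx'
  set y' := s • y with hy'
  set z' := s • z with hz'
  -- the series in `E = t^l`
  have hu : ∀ w : H, IsUnit (chiE 1 L e x w) := fun w => by
    rw [PowerSeries.isUnit_iff_constantCoeff, chiE]
    simp
  obtain ⟨u, hu1⟩ := (hu y).mul (hu z)
  set PE : H⟦X⟧ := PowerSeries.mk fun i => p i • x ^ i with hPE
  set σE : H⟦X⟧ := PE * ↑(u⁻¹) with hσE
  have hσE1 : σE * chiE 1 L e x y * chiE 1 L e x z = PE := by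
    rw [mul_assoc, ← hu1, hσE, mul_assoc, Units.inv_mul, mul_one]
  have hPt : expand l hl PE = P := by
    refine PowerSeries.ext fun j => ?_
    rw [coeff_expand, hP, hPE]
    split_ifs
    · rw [coeff_mk]
    · rfl
  have hvan : ∀ i, 2 * m - 4 < i → (y - z) * coeff i σE = 0 := by
    intro i hi
    have h1 := hσ (expand l hl σE) (by
      rw [chiE_expand hl, chiE_expand hl, ← map_mul, ← map_mul, hσE1, hPt]) (l * i) (by
      have h2 : 2 * m < i + 4 := by omega
      have h3 : l * (2 * m) < l * (i + 4) := Nat.mul_lt_mul_of_pos_left h2 (Nat.pos_of_ne_zero hl)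
      nlinarith)
    rwa [coeff_expand_mul] at h1
  have hpow : ∀ {w : H}, w ^ (m + 1) = 0 → (s • w) ^ (m + 1) = 0 := fun {w} hw => by
    rw [smul_pow, hw, smul_zero]
  have hI : ∀ a b c, a + b + c = 3 * m - 2 → I (x' ^ a * y' ^ b * z' ^ c)
      = (s ^ (3 * m - 2) * I (x ^ m * y ^ (m - 1) * z ^ (m - 1))) * rho ℂ m b * rho ℂ m c := by
    intro a b c habc
    have e1 : x' ^ a * y' ^ b * z' ^ c = s ^ (3 * m - 2) • (x ^ a * y ^ b * z ^ c) := by
      rw [hx', hy', hz', smul_pow, smul_pow, smul_pow, ← habc, pow_add, pow_add]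
      simp only [smul_mul_assoc, mul_smul_comm, smul_smul]
      congr 1
      ring
    rw [e1, map_smul, numbers hm hx hy hz hxy hxz habc, smul_eq_mul]
    ring
  have key := closed_form (K := ℂ) hm (L / s) (s ^ (3 * m - 2) * I (x ^ m * y ^ (m - 1) * z ^ (m - 1)))
    (mul_ne_zero (pow_ne_zero _ hs) hN) (x := x') (y := y') (z := z') (I := I) (hpow hx) (hpow hy)
    (hpow hz) hI (fun i => p i / s ^ i) (by simp [hp0]) σE
    (by
      rw [← chiE_eq_chi hs hs2, ← chiE_eq_chi hs hs2, hσE1, hPE]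
      congr 1
      funext i
      rw [hx', smul_pow, smul_smul, div_mul_cancel₀ _ (pow_ne_zero _ hs)])
    (fun i h1 hi => by
      have h2 : (y' - z') * z' * coeff (2 * m - 4 + i) σE
          = s • (z' * ((y - z) * coeff (2 * m - 4 + i) σE)) := by
        rw [hy', hz', ← smul_sub, smul_mul_assoc, smul_mul_assoc]
        congr 1
        ring
      rw [h2, hvan _ (by omega), mul_zero, smul_zero, mul_zero, map_zero])
  intro i hi
  have h1 := key i hi
  have h2 := congrArg (fun c => s ^ i * c) h1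
  simp only [← coeff_rescale] at h2
  have r1 : rescale s (PowerSeries.mk (fun i => p i / s ^ i) * (1 + C (2 * (L / s)) * X))
      = PowerSeries.mk p * (1 + C (2 * L) * X) := by
    rw [map_mul, rescale_mk]
    congr 1
    · congr 1
      funext i
      rw [mul_comm, div_mul_cancel₀ _ (pow_ne_zero _ hs)]
    · rw [map_add, map_one, map_mul, rescale_X]
      congr 1
      have : rescale s (C (2 * (L / s))) = C (2 * (L / s)) := by
        refine PowerSeries.ext fun n => ?_
        rw [coeff_rescale, coeff_C]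
        split_ifs with h
        · rw [h, pow_zero, one_mul]
        · rw [mul_zero]
      rw [this, ← mul_assoc, ← map_mul]
      congr 2
      field_simp
  have r2 : rescale s ((1 + C (L / s) * X + X ^ 2) ^ (m + 1))
      = (1 + C L * X + C e * X ^ 2) ^ (m + 1) := by
    rw [map_pow]
    congr 1
    have : rescale s (C (L / s)) = C (L / s) := by
      refine PowerSeries.ext fun n => ?_
      rw [coeff_rescale, coeff_C]
      split_ifs with h
      · rw [h, pow_zero, one_mul]
      · rw [mul_zero]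
    rw [map_add, map_add, map_one, map_mul, map_pow, rescale_X, this, ← mul_assoc, ← map_mul,
      div_mul_cancel₀ _ hs, mul_pow, ← map_pow, hs2]
  rwa [r1, r2] at h2

end num

end Crest.Agent.R208.FG
end
end

-- ▼ part R208/FG3c
section

/-! Row 208, block FG (helper586), part FG3c: `(x₂ - x₂') · c_j(TM - V - V') = 0` for
`j > n - 2k`. -/

set_option autoImplicit false
set_option linter.unusedSectionVars false

open Set Filter Topology Module Matrix
open scoped ContDiff BigOperators RealInnerProductSpace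
open Crest.GeometryTopology.Submanifold
open Crest.Agent.R241.DDefs
open Crest.Agent.R241.D2
open Crest.Agent.R208.F Crest.Agent.R208.FI
open Crest.Agent.R208.CW (SMap IdF SM cs cc integ cls)
open Crest.Agent.R208.GT (bas mM mV)

noncomputable section

namespace Crest.Agent.R208.FG

variable {n N k : ℕ} {κ : ℝ} {S : Set (Euc N)} {G : Geo n N κ S}
  {PV : Euc N × Euc N → Euc N →L[ℝ] Euc N}

theorem isUnit_cs {E : Type*} [NormedAddCommGroup E] [NormedSpace ℝ E] [FiniteDimensional ℝ E]
    {m : Type*} [Fintype m] [DecidableEq m] {X : Set E} {d : ℕ} (hX : Sub d X)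
    {Q : E → Matrix m m ℂ} (hQ : IdF X Q) : IsUnit (cs hX hQ) := by
  rw [PowerSeries.isUnit_iff_constantCoeff, ← PowerSeries.coeff_zero_eq_constantCoeff_apply,
    CW.coeff_cs, CW.cc_zero]
  exact isUnit_one

/-- the pull-back `H S → H (FFF S)` along `p` -/
def mp (S : Set (Euc N)) : CW.H S →ₐ[ℂ] CW.H (FFF S) :=
  (CW.H.map smap_1).comp (CW.H.map smap_fst)

/-- **vanishing of the high Chern classes of `TM - V - V'` times `x₂ - x₂'`** -/
theorem mul_coeff_eq_zero (h : GT.Bla G k) (hV : GT.VField G PV) (hS : Sub n S) {dF : ℕ}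
    (hF : Sub dF (GT.FF S)) {σ : PowerSeries (CW.H (FFF S))}
    (hσ : σ * (cs hF (GT.idf_mV hV)).map (CW.H.map (smap_1 (S := S)) : CW.H (GT.FF S) →+* CW.H (FFF S))
        * (cs hF (GT.idf_mV hV)).map (CW.H.map (smap_2 (S := S)) : CW.H (GT.FF S) →+* CW.H (FFF S))
      = (cs hS (GT.idf_mM (G := G))).map (mp S : CW.H S →+* CW.H (FFF S)))
    {j : ℕ} (hj : n < j + (k + k)) (x : CW.H S) :
    (CW.H.map smap_1 (xq x) - CW.H.map smap_2 (xq x)) * PowerSeries.coeff j σ = 0 := by
  refine sub_mul_eq_zero h ?_ x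
  have hk := h.ty.le
  have hFF := (clo_FFF h (d := 2 * n - k) (by omega)).sub
  have hX : Sub _ (FFF S ∩ offD N) := hFF.inter_open isOpen_offD
  obtain ⟨c, hc, hc0⟩ := cs_off h hV (U := offD N) (le_refl _) hX
  set i := CW.H.map (smap_incl' (X₁ := FFF S ∩ offD N) (X₂ := FFF S) inter_subset_left) with hi
  have e1 : ((cs hF (GT.idf_mV hV)).map
      (CW.H.map (smap_1 (S := S)) : CW.H (GT.FF S) →+* CW.H (FFF S))).map (i : CW.H (FFF S) →+* CW.H (FFF S ∩ offD N))
      = cs hX ((idf_V1 hV).comp (smap_incl' (X₁ := FFF S ∩ offD N) inter_subset_left)) := by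
    rw [CW.cs_map hFF hF smap_1 (GT.idf_mV hV)]
    exact CW.cs_map hX hFF _ (idf_V1 hV)
  have e2 : ((cs hF (GT.idf_mV hV)).map
      (CW.H.map (smap_2 (S := S)) : CW.H (GT.FF S) →+* CW.H (FFF S))).map (i : CW.H (FFF S) →+* CW.H (FFF S ∩ offD N))
      = cs hX ((idf_V2 hV).comp (smap_incl' (X₁ := FFF S ∩ offD N) inter_subset_left)) := by
    rw [CW.cs_map hFF hF smap_2 (GT.idf_mV hV)]
    exact CW.cs_map hX hFF _ (idf_V2 hV)
  have e3 : ((cs hS (GT.idf_mM (G := G))).map (mp S : CW.H S →+* CW.H (FFF S))).map (i : CW.H (FFF S) →+* CW.H (FFF S ∩ offD N))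
      = cs hX ((idf_TMM (G := G)).comp (smap_incl' (X₁ := FFF S ∩ offD N) inter_subset_left)) := by
    have e4 : (cs hS (GT.idf_mM (G := G))).map (mp S : CW.H S →+* CW.H (FFF S))
        = cs hFF (idf_TMM (G := G)) := by
      have e5 := CW.cs_map hF hS smap_fst (GT.idf_mM (G := G))
      have e6 := CW.cs_map hFF hF smap_1 ((GT.idf_mM (G := G)).comp smap_fst)
      rw [← e5] at e6
      refine Eq.trans ?_ e6
      refine PowerSeries.ext fun a => ?_
      rw [PowerSeries.coeff_map, PowerSeries.coeff_map, PowerSeries.coeff_map]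
      rfl
    rw [e4]
    exact CW.cs_map hX hFF _ (idf_TMM (G := G))
  have e7 := congrArg (PowerSeries.map (i : CW.H (FFF S) →+* CW.H (FFF S ∩ offD N))) hσ
  rw [map_mul, map_mul, e1, e2, e3, hc] at e7
  have hu := (isUnit_cs hX ((idf_V1 hV).comp (smap_incl' (X₁ := FFF S ∩ offD N)
    inter_subset_left))).mul (isUnit_cs hX ((idf_V2 hV).comp (smap_incl' (X₁ := FFF S ∩ offD N)
    inter_subset_left)))
  have e8 : PowerSeries.map (i : CW.H (FFF S) →+* CW.H (FFF S ∩ offD N)) σ = c := by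
    refine hu.mul_left_cancel ?_
    rw [← e7]; ring
  have e9 := congrArg (PowerSeries.coeff j) e8
  rw [hc0 j hj, PowerSeries.coeff_map] at e9
  exact e9

end Crest.Agent.R208.FG
end
end

-- ▼ part R208/FG4b
section

/-! Row 208, block FG (helper586), part FG4b: **(X5)**, the closed form of `c(TM ⊗ ℂ)`. -/

set_option autoImplicit false
set_option linter.unusedSectionVars false

open Set Filter Topology Module Matrix
open scoped ContDiff BigOperators RealInnerProductSpace
open Crest.GeometryTopology.Submanifold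
open Crest.Agent.R241.DDefs
open Crest.Agent.R241.D2
open Crest.Agent.R208.F Crest.Agent.R208.FI
open Crest.Agent.R208.CW (SMap IdF SM cs cc integ cls)
open Crest.Agent.R208.GT (bas mM mV)
open Crest.Agent.R208.T (HD EC rcl Dim1 Coh Hom)

noncomputable section

namespace Crest.Agent.R208.FG

variable {n N k : ℕ} {κ : ℝ} {S : Set (Euc N)} {G : Geo n N κ S}
  {PV : Euc N × Euc N → Euc N →L[ℝ] Euc N}

theorem xp_pow (x : CW.H S) (i : ℕ) : xp (x ^ i) = xp x ^ i := map_pow _ _ _
theorem xq_pow (x : CW.H S) (i : ℕ) : xq (x ^ i) = xq x ^ i := map_pow _ _ _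

theorem smul_pow_top {E : Type*} [NormedAddCommGroup E] [NormedSpace ℝ E] [FiniteDimensional ℝ E]
    {X : Set E} {d k m : ℕ} (hX : Sub d X) {x : CW.H X} (hx : x ∈ HD X k) (hd : d < k * m) :
    x ^ m = 0 := by
  have h1 := T.HD_pow hx m
  rw [T.HD_eq_bot_of_gt hX hd] at h1
  exact (Submodule.mem_bot ℂ).1 h1

/-- **(X5)**: the closed form -/
theorem closed (h : GT.Bla G k) (hk : 2 ≤ k) (hkn : k < n) (hV : GT.VField G PV) (hS : Sub n S)
    {dF : ℕ} (hF : Sub dF (GT.FF S)) {l m : ℕ} (hl : 2 * l = k) (hnm : n = k * m) {x : CW.H S}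
    (hx : x ∈ HD S k) {L e : ℂ} (he : e ≠ 0)
    (hcs : cs hF (GT.idf_mV hV) = 1 + PowerSeries.C (L • (xp x + xq x)) * PowerSeries.X ^ l
      + PowerSeries.C (e • (xp x - xq x) ^ 2) * PowerSeries.X ^ k)
    (hrel : ∑ i ∈ Finset.range (m + 1), xp x ^ i * xq x ^ (m - i) = 0)
    {p : ℕ → ℂ} (hp0 : p 0 = 1)
    (hp : ∀ j, cc hS (GT.idf_mM (G := G)) j = if l ∣ j then p (j / l) • x ^ (j / l) else 0)
    {oS : Euc N → Ext (Euc N)} (hoS : Ori n S oS) (hdS : ∀ y, IsDeg n (oS y))
    {p₀ : Euc N} (hp₀ : p₀ ∈ S) {oC : Euc N → Ext (Euc N)} (hoC : Ori (n - k) (GP.Cut S p₀) oC)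
    (hne : integ (GP.clo_S h.bl) hoS (x ^ m) ≠ 0)
    (hne' : integ (FV.clo_Cut h hp₀) hoC (CW.H.map (smap_cut p₀) (x ^ (m - 1))) ≠ 0) :
    ∀ i ≤ m, PowerSeries.coeff i (PowerSeries.mk p * (1 + PowerSeries.C (2 * L) * PowerSeries.X))
      = PowerSeries.coeff i ((1 + PowerSeries.C L * PowerSeries.X
        + PowerSeries.C e * PowerSeries.X ^ 2) ^ (m + 1)) := by
  have hm : 2 ≤ m := by
    by_contra hlt
    have : m = 0 ∨ m = 1 := by omega
    rcases this with rfl | rfl <;> omega
  have hx0 : x ^ (m + 1) = 0 := smul_pow_top hS hx (by rw [hnm]; nlinarith)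
  -- the three classes on `FFF`
  set X := CW.H.map smap_2 (xp x) with hX
  set Y := CW.H.map smap_1 (xq x) with hY
  set Z := CW.H.map smap_2 (xq x) with hZ
  have hXX : CW.H.map smap_1 (xp x) = X := map_xp (clo_FFF h (d := 2 * n - k) (by
    have := h.ty.le; omega)).sub x
  have ex : X ^ (m + 1) = 0 := by rw [hX, ← map_pow, xp, ← map_pow, hx0, map_zero, map_zero]
  have ey : Y ^ (m + 1) = 0 := by rw [hY, ← map_pow, xq, ← map_pow, hx0, map_zero, map_zero]
  have ez : Z ^ (m + 1) = 0 := by rw [hZ, ← map_pow, xq, ← map_pow, hx0, map_zero, map_zero]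
  have hxy : ∑ i ∈ Finset.range (m + 1), X ^ i * Y ^ (m - i) = 0 := by
    have h1 := congrArg (CW.H.map (smap_1 (S := S))) hrel
    rw [map_sum, map_zero] at h1
    rw [← h1]
    refine Finset.sum_congr rfl fun i _ => ?_
    rw [map_mul, map_pow, map_pow, hXX]
  have hxz : ∑ i ∈ Finset.range (m + 1), X ^ i * Z ^ (m - i) = 0 := by
    have h1 := congrArg (CW.H.map (smap_2 (S := S))) hrel
    rw [map_sum, map_zero] at h1
    rw [← h1]
    refine Finset.sum_congr rfl fun i _ => ?_
    rw [map_mul, map_pow, map_pow]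
  -- the functional
  have ha : x ^ m ∈ HD S n := by rw [hnm]; exact T.HD_pow hx m
  have hb : x ^ (m - 1) ∈ HD S (n - k) := by
    have e1 : n - k = k * (m - 1) := by rw [hnm, Nat.mul_sub, mul_one]
    rw [e1]; exact T.HD_pow hx (m - 1)
  obtain ⟨I, hI⟩ := exists_functional h hk hkn hoS hdS hp₀ hoC ha hb hne hne'
  have hN : I (X ^ m * Y ^ (m - 1) * Z ^ (m - 1)) ≠ 0 := by
    have e1 : X ^ m * Y ^ (m - 1) * Z ^ (m - 1)
        = CW.H.map smap_1 (xq (x ^ (m - 1))) * (CW.H.map smap_2 (xq (x ^ (m - 1)))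
          * CW.H.map smap_2 (xp (x ^ m))) := by
      rw [xq_pow, xp_pow, map_pow, map_pow, map_pow]; ring
    rw [e1]; exact hI
  refine closed_alg (I := I) (l := l) (by omega) hm he ex ey ez hxy hxz hN hp0
    (P := (cs hS (GT.idf_mM (G := G))).map (mp S : CW.H S →+* CW.H (FFF S))) (fun j => ?_)
    (fun σ hσ j hj => ?_)
  · rw [PowerSeries.coeff_map, CW.coeff_cs, hp]
    split_ifs with hj
    · change mp S (p (j / l) • x ^ (j / l)) = _
      rw [map_smul, map_pow]
      congr 2
    · exact map_zero (mp S)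
  · have h1 : (cs hF (GT.idf_mV hV)).map
        (CW.H.map (smap_1 (S := S)) : CW.H (GT.FF S) →+* CW.H (FFF S)) = chiE l L e X Y := by
      rw [hcs, chiE]
      simp only [map_add, map_mul, map_one, map_pow, PowerSeries.map_C, PowerSeries.map_X]
      have e1 : (CW.H.map (smap_1 (S := S)) : CW.H (GT.FF S) →+* CW.H (FFF S))
          (L • (xp x + xq x)) = L • (X + Y) := by
        change CW.H.map smap_1 (L • (xp x + xq x)) = _
        rw [map_smul, map_add, hXX]
      have e2 : (CW.H.map (smap_1 (S := S)) : CW.H (GT.FF S) →+* CW.H (FFF S))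
          (e • (xp x - xq x) ^ 2) = e • (X - Y) ^ 2 := by
        change CW.H.map smap_1 (e • (xp x - xq x) ^ 2) = _
        rw [map_smul, map_pow, map_sub, hXX]
      rw [e1, e2, hl]
    have h2 : (cs hF (GT.idf_mV hV)).map
        (CW.H.map (smap_2 (S := S)) : CW.H (GT.FF S) →+* CW.H (FFF S)) = chiE l L e X Z := by
      rw [hcs, chiE]
      simp only [map_add, map_mul, map_one, map_pow, PowerSeries.map_C, PowerSeries.map_X]
      have e1 : (CW.H.map (smap_2 (S := S)) : CW.H (GT.FF S) →+* CW.H (FFF S))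
          (L • (xp x + xq x)) = L • (X + Z) := by
        change CW.H.map smap_2 (L • (xp x + xq x)) = _
        rw [map_smul, map_add]
      have e2 : (CW.H.map (smap_2 (S := S)) : CW.H (GT.FF S) →+* CW.H (FFF S))
          (e • (xp x - xq x) ^ 2) = e • (X - Z) ^ 2 := by
        change CW.H.map smap_2 (e • (xp x - xq x) ^ 2) = _
        rw [map_smul, map_pow, map_sub]
      rw [e1, e2, hl]
    refine mul_coeff_eq_zero h hV hS hF (σ := σ) ?_ ?_ x
    · rw [h1, h2]; exact hσ
    · rw [hnm, ← hl]; exact hj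

/-! ### the classes of `TM` -/

/-- classes of top degree -/
theorem top_class {x : Euc N → Ext (Euc N)} (hx : EC S x) {m : ℕ} (hdx : Hom n (x ^ m))
    (hD : Dim1 S n) (hxm : ¬ Coh S (x ^ m) 0) {j : ℕ} (hj : 2 * j = n) {c : CW.H S}
    (hc : c ∈ HD S (2 * j)) : ∃ z : ℂ, c = z • rcl hx ^ m := by
  obtain ⟨C, hC⟩ := T.HD_span (Finset.univ : Finset (Fin 1))
    (w := fun _ => x ^ m) (fun _ => hx.pow _)
    (fun b sb cb db => by
      obtain ⟨s, t, hst, h0⟩ := hD b (x ^ m) sb cb (hj ▸ db) (hx.pow m).sm (hx.pow m).cl hdx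
      have hs : s ≠ 0 := by
        rintro rfl
        have ht : t ≠ 0 := by
          rcases hst with h1 | h1
          · exact absurd rfl h1
          · exact h1
        apply hxm
        have h1 := h0.smul (-t⁻¹)
        rw [smul_zero, zero_smul, zero_sub, smul_neg, neg_smul, neg_neg, smul_smul,
          inv_mul_cancel₀ ht, one_smul] at h1
        exact h1
      refine ⟨fun _ => t / s, ?_⟩
      rw [Fin.sum_univ_one]
      have h1 := h0.smul s⁻¹
      rw [smul_zero, smul_sub, smul_smul, inv_mul_cancel₀ hs, one_smul, smul_smul] at h1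
      have h2 := h1.add (T.Coh.refl ((t / s) • x ^ m))
      rw [zero_add, div_eq_inv_mul, sub_add_cancel] at h2
      rw [div_eq_inv_mul]
      exact h2) hc
  refine ⟨C 0, ?_⟩
  rw [hC, Fin.sum_univ_one, T.rcl_pow]

/-- **the Chern classes of `TM ⊗ ℂ` are multiples of powers of `x`** -/
theorem exists_p (hS : Sub n S) {l : ℕ} (hl0 : 0 < l) (hl : 2 * l = k)
    {x : CW.H S}
    (hcl : ∀ j, 2 * j ≤ n → ∀ c ∈ HD S (2 * j), (∃ z : ℂ, c = z • x ^ (2 * j / k)) ∧
      (¬ k ∣ 2 * j → c = 0)) :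
    ∃ p : ℕ → ℂ, p 0 = 1 ∧
      ∀ j, cc hS (GT.idf_mM (G := G)) j = if l ∣ j then p (j / l) • x ^ (j / l) else 0 := by
  have hmem := fun j => T.cc_mem_HD hS (GT.idf_mM (G := G)) j
  have h1 : ∀ i, ∃ z : ℂ, (i = 0 → z = 1) ∧
      cc hS (GT.idf_mM (G := G)) (l * i) = z • x ^ i := by
    intro i
    rcases Nat.eq_zero_or_pos i with rfl | hi
    · exact ⟨1, fun _ => rfl, by rw [mul_zero, CW.cc_zero, pow_zero, one_smul]⟩
    · by_cases hi2 : 2 * (l * i) ≤ n
      · obtain ⟨⟨z, hz⟩, -⟩ := hcl (l * i) hi2 _ (hmem (l * i))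
        refine ⟨z, fun h => by omega, ?_⟩
        rw [hz]
        congr 2
        rw [← mul_assoc, hl]
        exact Nat.mul_div_cancel_left i (by omega)
      · refine ⟨0, fun h => by omega, ?_⟩
        have h2 := hmem (l * i)
        rw [T.HD_eq_bot_of_gt hS (not_le.1 hi2)] at h2
        rw [(Submodule.mem_bot ℂ).1 h2, zero_smul]
  choose p hp using h1
  refine ⟨p, (hp 0).1 rfl, fun j => ?_⟩
  split_ifs with hj
  · obtain ⟨i, rfl⟩ := hj
    rw [(hp i).2, Nat.mul_div_cancel_left i hl0]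
  · by_cases hj2 : 2 * j ≤ n
    · refine (hcl j hj2 _ (hmem j)).2 fun hd => hj ?_
      obtain ⟨c, hc⟩ := hd
      refine ⟨c, ?_⟩
      rw [← hl, mul_assoc] at hc
      omega
    · have h2 := hmem j
      rw [T.HD_eq_bot_of_gt hS (not_le.1 hj2)] at h2
      exact (Submodule.mem_bot ℂ).1 h2

end Crest.Agent.R208.FG
end
end

-- ▼ part R208/FG5

/-! R208, FG5 (helper586): the Chern classes of `V ⊗ ℂ` and of `TM ⊗ ℂ` in the situation `T.XM`. -/

set_option autoImplicit false
set_option linter.unusedSectionVars false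

open MeasureTheory Set Filter Topology Module
open scoped ContDiff RealInnerProductSpace
open Crest.GeometryTopology.Submanifold
open Crest.Agent.R241.DDefs
open Crest.Agent.R241.D2
open Crest.Agent.R208.F Crest.Agent.R208.FI Crest.Agent.R208.CW
open Crest.Agent.R208.T (HD EC rcl Sm Cl Hom Coh Eqv eR OR pull_smul' Dim1)
open Crest.Agent.R208.VX (nE nE_pos)

noncomputable section

namespace Crest.Agent.R208.FG

section gen
variable {E : Type*} [NormedAddCommGroup E] [NormedSpace ℝ E] [FiniteDimensional ℝ E]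
  {X : Set E} {d : ℕ} {o a : E → Ext E}

theorem integ_rcl (hX : Clo d X) (ho : Ori d X o) (ha : EC X a) :
    integ hX ho (rcl ha) = ((J d X o a : ℝ) : ℂ) := by
  rw [rcl, integ_cls]
  refine Complex.ext rfl ?_
  change J d X o (fun _ => (0 : Ext E)) = 0
  have := T.J_smulT (dU := d) (U := X) (oU := o) (a := fun _ => (0 : Ext E)) (0 : ℝ)
  rw [zero_mul] at this
  rw [← this]
  congr 1
  funext x
  exact (smul_zero (0 : ℝ)).symm

end gen

variable {n N k m dF : ℕ} {κ : ℝ} {S : Set (Euc N)} {G : Geo n N κ S} {p : Euc N}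
  {ι : Type} [Fintype ι] [DecidableEq ι] {W : Euc N × Euc N → (ι × Fin 2 → Fin N) → ℝ}
  {x : Euc N → Ext (Euc N)} {h : GT.Bla G k}

/-- **(X3)** in the situation `XM` -/
theorem cs_V (M : T.XM h m W p x) (hF : Sub dF (GT.FF S)) (hx : EC S x) :
    ∃ μ : ℝ, (Odd (k / 2) → μ = 0) ∧
      cc hF (GT.idf_mV (FV.vfield_PVB h)) (k / 2) =
        (μ : ℂ) • (xp (((nE ι : ℝ) : ℂ)⁻¹ • rcl hx) + xq (((nE ι : ℝ) : ℂ)⁻¹ • rcl hx)) ∧
      cs hF (GT.idf_mV (FV.vfield_PVB h)) = 1 +
        PowerSeries.C ((μ : ℂ) •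
          (xp (((nE ι : ℝ) : ℂ)⁻¹ • rcl hx) + xq (((nE ι : ℝ) : ℂ)⁻¹ • rcl hx))) *
            PowerSeries.X ^ (k / 2) +
        PowerSeries.C ((xp (((nE ι : ℝ) : ℂ)⁻¹ • rcl hx) -
          xq (((nE ι : ℝ) : ℂ)⁻¹ • rcl hx)) ^ 2) * PowerSeries.X ^ k := by
  have hrel : Coh (GT.FF S) (F.pull Prod.snd ((-1 : ℝ) • x))
      (F.pull Prod.fst ((-1 : ℝ) • x) + eR (FV.PVB h) W) := by
    have h1 := M.snd_class.smul (-1)
    rw [pull_smul', pull_smul']
    rw [smul_sub, neg_one_smul ℝ (eR _ _), sub_neg_eq_add] at h1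
    exact h1
  obtain ⟨μ, h1, h2, h3⟩ := VX.cs_V h M.hke M.hk M.two_k hF M.hW M.hι (hx.smul (-1)) hrel
    (fun j b hj hjn sb cb db => by
      obtain ⟨f, hf, h1⟩ := T.FF_classes h M.hk M.hkn M.hke M.hne M.hp M.hι M.hW M.sx M.cx M.dx
        M.ex j b hj hjn sb cb db
      refine ⟨fun a => (-1) ^ a * f a, fun hd a => by simp only [hf hd, mul_zero], ?_⟩
      convert h1 using 2 with a
      rw [pull_smul', smul_pow, smul_mul_assoc, smul_smul]
      congr 1
      rw [mul_right_comm, ← mul_pow]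
      norm_num)
  have e1 : ((nE ι : ℝ) : ℂ)⁻¹ • rcl (hx.smul (-1)) = -(((nE ι : ℝ) : ℂ)⁻¹ • rcl hx) := by
    rw [T.rcl_smul, Complex.ofReal_neg, Complex.ofReal_one, neg_one_smul, smul_neg]
  have e2 : xp (-(((nE ι : ℝ) : ℂ)⁻¹ • rcl hx)) = -xp (((nE ι : ℝ) : ℂ)⁻¹ • rcl hx) :=
    map_neg _ _
  have e3 : xq (-(((nE ι : ℝ) : ℂ)⁻¹ • rcl hx)) = -xq (((nE ι : ℝ) : ℂ)⁻¹ • rcl hx) :=
    map_neg _ _
  rw [e1, e2, e3] at h2 h3
  have e4 : ∀ a b : CW.H (GT.FF S), (μ : ℂ) • (-a + -b) = ((-μ : ℝ) : ℂ) • (a + b) := by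
    intro a b
    rw [Complex.ofReal_neg]
    module
  have e5 : ∀ a b : CW.H (GT.FF S), (-a - -b) ^ 2 = (a - b) ^ 2 := by
    intro a b; ring
  rw [e4] at h2 h3
  rw [e5] at h3
  exact ⟨-μ, fun ho => by rw [h1 ho, neg_zero], h2, h3⟩

/-- the classes of degree `≤ n` on `S` are multiples of powers of `x` -/
theorem S_classes_le (M : T.XM h m W p x) (hx : EC S x) (hD : Dim1 S n)
    (hxm : ¬ Coh S (x ^ m) 0) {c₀ : ℂ} (hc₀ : c₀ ≠ 0) (j : ℕ) (hj : 2 * j ≤ n) (c : CW.H S)
    (hc : c ∈ HD S (2 * j)) :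
    (∃ z : ℂ, c = z • (c₀ • rcl hx) ^ (2 * j / k)) ∧ (¬ k ∣ 2 * j → c = 0) := by
  have hfix : ∀ (z : ℂ) (i : ℕ), z • rcl hx ^ i = (z * (c₀ ^ i)⁻¹) • (c₀ • rcl hx) ^ i := by
    intro z i
    rw [smul_pow, smul_smul, mul_assoc, inv_mul_cancel₀ (pow_ne_zero _ hc₀), mul_one]
  rcases hj.lt_or_eq with hj' | hj'
  · obtain ⟨⟨z, hz⟩, h2⟩ := T.S_HD h M.hk M.hkn M.hp M.hι (T.OR_Cut h M.hp M.hW) hx M.dx M.ex
      hj' hc
    exact ⟨⟨_, hz.trans (hfix z _)⟩, h2⟩
  · have hkm : 2 * j / k = m := by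
      rw [hj', M.hn]; exact Nat.mul_div_cancel_left m (by have := M.hk; omega)
    obtain ⟨z, hz⟩ := top_class hx (m := m) (by rw [M.hn]; exact M.dx.pow m) hD hxm hj' hc
    refine ⟨⟨_, by rw [hkm]; exact hz.trans (hfix z _)⟩, fun hd => absurd ?_ hd⟩
    rw [hj', M.hn]
    exact dvd_mul_right k m

/-- **(X3) + (X5)** in the situation `XM`. -/
theorem closed_XM (M : T.XM h m W p x) (hS : Sub n S) (hF : Sub dF (GT.FF S)) (hx : EC S x)
    {oS : Euc N → Ext (Euc N)} (hoS : Ori n S oS) (hdS : ∀ y, IsDeg n (oS y))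
    (hJ : J n S oS (x ^ m) ≠ 0)
    (hrel : Coh (GT.FF S)
      (∑ i ∈ Finset.range (m + 1), F.pull Prod.fst x ^ i * F.pull Prod.snd x ^ (m - i)) 0)
    (hD : Dim1 S n) :
    ∃ μ : ℝ, (Odd (k / 2) → μ = 0) ∧
      cc hF (GT.idf_mV (FV.vfield_PVB h)) (k / 2) =
        (μ : ℂ) • (xp (((nE ι : ℝ) : ℂ)⁻¹ • rcl hx) + xq (((nE ι : ℝ) : ℂ)⁻¹ • rcl hx)) ∧
      cs hF (GT.idf_mV (FV.vfield_PVB h)) = 1 +
        PowerSeries.C ((μ : ℂ) •
          (xp (((nE ι : ℝ) : ℂ)⁻¹ • rcl hx) + xq (((nE ι : ℝ) : ℂ)⁻¹ • rcl hx))) *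
            PowerSeries.X ^ (k / 2) +
        PowerSeries.C ((xp (((nE ι : ℝ) : ℂ)⁻¹ • rcl hx) -
          xq (((nE ι : ℝ) : ℂ)⁻¹ • rcl hx)) ^ 2) * PowerSeries.X ^ k ∧
      ∃ q : ℕ → ℂ, q 0 = 1 ∧
        (∀ j, cc hS (GT.idf_mM (G := G)) j =
          if k / 2 ∣ j then q (j / (k / 2)) • (((nE ι : ℝ) : ℂ)⁻¹ • rcl hx) ^ (j / (k / 2))
          else 0) ∧
        ∀ i ≤ m, PowerSeries.coeff i
            (PowerSeries.mk q * (1 + PowerSeries.C (2 * (μ : ℂ)) * PowerSeries.X))
          = PowerSeries.coeff i ((1 + PowerSeries.C (μ : ℂ) * PowerSeries.X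
            + PowerSeries.X ^ 2) ^ (m + 1)) := by
  obtain ⟨μ, h1, h2, h3⟩ := cs_V M hF hx
  refine ⟨μ, h1, h2, h3, ?_⟩
  have hk := M.hk
  have hn := M.hn
  have hm := M.hm
  have hc0 : ((nE ι : ℝ) : ℂ)⁻¹ ≠ 0 := inv_ne_zero (by exact_mod_cast (nE_pos ι).ne')
  have hkk : 2 * (k / 2) = k := by obtain ⟨r, hr⟩ := M.hke; omega
  have hclo := GP.clo_S (G := G) h.bl
  have hxm : ¬ Coh S (x ^ m) 0 := fun h0 => hJ (T.J_exact hclo hoS h0)
  obtain ⟨q, hq0, hq⟩ := exists_p (G := G) hS (l := k / 2) (by omega) hkk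
    (S_classes_le M hx hD hxm hc0)
  refine ⟨q, hq0, hq, ?_⟩
  obtain ⟨oC, hoC, -, -⟩ := T.exists_ori_Cut h hk M.hkn M.hp
  obtain ⟨m', -, hm', hJ'⟩ := T.X1a h hk M.hkn M.hp M.hι (T.OR_Cut h M.hp M.hW) hoC
  have hmm : m' = m - 1 := by
    have : k * (m' + 1) = k * m := by rw [← hm', ← hn]
    have := Nat.eq_of_mul_eq_mul_left (by omega) this
    omega
  subst hmm
  have hsm : SMap (GP.Cut S p) S (fun q => q) := smap_cut p
  have hEC : EC (GP.Cut S p) (F.pull (fun q => q) x) := hx.pull hsm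
  have hpid : F.pull (fun q => q) x = x := funext fun y => F.pull_id x y
  have hxf : EC (GT.FF S) (F.pull Prod.fst x) := hx.pull smap_fst
  have hxs : EC (GT.FF S) (F.pull Prod.snd x) := hx.pull smap_snd
  have hc := closed h hk M.hkn (FV.vfield_PVB h) hS hF hkk hn (x := ((nE ι : ℝ) : ℂ)⁻¹ • rcl hx)
    (Submodule.smul_mem _ _ (T.rcl_mem_HD hx M.dx)) (L := (μ : ℂ)) (e := 1) one_ne_zero
    (by rw [h3, one_smul]) ?_ hq0 hq hoS hdS M.hp hoC ?_ ?_
  · intro i hi
    have := hc i hi
    rwa [map_one, one_mul] at this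
  · have e1 : ∀ i, xp (((nE ι : ℝ) : ℂ)⁻¹ • rcl hx) ^ i * xq (((nE ι : ℝ) : ℂ)⁻¹ • rcl hx) ^ (m - i)
        = (((nE ι : ℝ) : ℂ)⁻¹ ^ i * ((nE ι : ℝ) : ℂ)⁻¹ ^ (m - i)) •
          rcl ((hxf.pow i).mul (hxs.pow (m - i))) := by
      intro i
      rw [T.rcl_mul (hxf.pow i) (hxs.pow (m - i)), T.rcl_pow hxf, T.rcl_pow hxs, xp, xq, map_smul,
        map_smul, smul_pow, smul_pow, ← T.rcl_pull smap_fst hx, ← T.rcl_pull smap_snd hx,
        smul_mul_smul_comm]
    have e2 : ∀ i ∈ Finset.range (m + 1),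
        xp (((nE ι : ℝ) : ℂ)⁻¹ • rcl hx) ^ i * xq (((nE ι : ℝ) : ℂ)⁻¹ • rcl hx) ^ (m - i)
        = ((nE ι : ℝ) : ℂ)⁻¹ ^ m • rcl ((hxf.pow i).mul (hxs.pow (m - i))) := by
      intro i hi
      rw [e1, ← pow_add, Nat.add_sub_cancel' (by have := Finset.mem_range.1 hi; omega)]
    rw [Finset.sum_congr rfl e2, ← Finset.smul_sum,
      ← T.rcl_sum (Finset.range (m + 1)) (fun i => (hxf.pow i).mul (hxs.pow (m - i))),
      (T.rcl_eq_zero_iff _).2 hrel, smul_zero]
  · rw [smul_pow, map_smul, ← T.rcl_pow hx, integ_rcl]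
    exact smul_ne_zero (pow_ne_zero _ hc0) (by exact_mod_cast hJ)
  · rw [map_pow, map_smul, ← T.rcl_pull hsm hx, smul_pow, map_smul, ← T.rcl_pow hEC, integ_rcl]
    refine smul_ne_zero (pow_ne_zero _ hc0) ?_
    have hCC := FV.clo_Cut h M.hp
    have hOR := T.OR_Cut h M.hp M.hW
    rw [hpid, T.J_coh hCC hoC (Sm.pow (fun y hy => hx.sm y hy.1) _) (hOR.ec_eR.sm.pow _)
      (Coh.of_eqv (M.ex.pow (m - 1)))]
    exact_mod_cast hJ'

end Crest.Agent.R208.FG
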