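import Crest.Agent.R208.FH9a
import Crest.Agent.R208.FH6
import Crest.Agent.R208.FI1e
import Crest.Agent.R208.FH10

-- ▼ part R208/FH11a
section

/-! Row 208, block F2 (helper198), part FH11a: multiplicity functions of countable families of
sets; integrable functions with vanishing weak derivatives. -/

set_option autoImplicit false
set_option linter.unusedSectionVars false

open MeasureTheory MeasureTheory.Measure Set Filter Topology Module
open Crest.Agent.R208.F
open scoped ENNReal

noncomputable section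

namespace Crest.Agent.R208.FI

/-- **multiplicity function** of a countable family of sets with summable measures. -/
theorem mult_spec {α : Type*} [MeasurableSpace α] {μ : Measure α} {ι : Type*} [Countable ι]
    {B : ι → Set α} (hB : ∀ i, MeasurableSet (B i)) (hs : ∑' i, μ (B i) ≠ ∞) :
    ∃ N : α → ℝ, Integrable N μ ∧ (∀ᵐ y ∂μ, ∃ m : ℕ, N y = m) ∧
      ∀ D : α → ℝ, (∀ i, IntegrableOn D (B i) μ) → (Summable fun i => ∫ y in B i, ‖D y‖ ∂μ) →
        HasSum (fun i => ∫ y in B i, D y ∂μ) (∫ y, N y * D y ∂μ) := by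
  classical
  set M : α → ℝ≥0∞ := fun y => ∑' i, (B i).indicator (fun _ => (1 : ℝ≥0∞)) y with hM
  have hMm : Measurable M := Measurable.tsum fun i => measurable_const.indicator (hB i)
  have hMi : ∫⁻ y, M y ∂μ = ∑' i, μ (B i) := by
    rw [hM, lintegral_tsum fun i => (measurable_const.indicator (hB i)).aemeasurable]
    refine tsum_congr fun i => ?_
    rw [lintegral_indicator (hB i)]; simp
  have hfin := ae_finite_setOfPred_mem (μ := μ) hs
  have key : ∀ y, {i | y ∈ B i}.Finite → ∃ m : ℕ, M y = m ∧
      ∀ D : α → ℝ, ∑' i, (B i).indicator D y = m * D y := by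
    intro y hy
    refine ⟨hy.toFinset.card, ?_, fun D => ?_⟩
    · show ∑' i, (B i).indicator (fun _ => (1 : ℝ≥0∞)) y = _
      rw [tsum_eq_sum (s := hy.toFinset) (fun i hi => by
        rw [indicator_of_notMem]; simpa using hi)]
      rw [Finset.sum_congr rfl (g := fun _ => (1 : ℝ≥0∞)) (fun i hi => by
        rw [indicator_of_mem]; simpa using hi)]
      simp
    · rw [tsum_eq_sum (s := hy.toFinset) (fun i hi => by
        rw [indicator_of_notMem]; simpa using hi)]
      rw [Finset.sum_congr rfl (g := fun _ => D y) (fun i hi => by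
        rw [indicator_of_mem]; simpa using hi)]
      simp
  refine ⟨fun y => (M y).toReal, integrable_toReal_of_lintegral_ne_top hMm.aemeasurable
    (by rw [hMi]; exact hs), ?_, ?_⟩
  · filter_upwards [hfin] with y hy
    obtain ⟨m, hm, -⟩ := key y hy
    exact ⟨m, by rw [hm]; simp⟩
  · intro D hD hsum
    have h1 := hasSum_integral_of_summable_integral_norm (μ := μ)
      (F := fun i => (B i).indicator D) (fun i => (integrable_indicator_iff (hB i)).2 (hD i)) (by
        refine hsum.congr fun i => ?_
        rw [← integral_indicator (hB i)]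
        refine integral_congr_ae (Eventually.of_forall fun y => ?_)
        by_cases hy : y ∈ B i
        · simp [indicator_of_mem hy]
        · simp [indicator_of_notMem hy])
    have h2 : (fun i => ∫ y in B i, D y ∂μ) = fun i => ∫ y, (B i).indicator D y ∂μ := by
      funext i; rw [integral_indicator (hB i)]
    rw [h2]
    have h3 : ∫ y, (M y).toReal * D y ∂μ = ∫ y, ∑' i, (B i).indicator D y ∂μ := by
      refine integral_congr_ae ?_
      filter_upwards [hfin] with y hy
      obtain ⟨m, hm, hD'⟩ := key y hy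
      simp only [hm, hD', ENNReal.toReal_natCast]
    rw [h3]
    exact h1

open scoped Convolution ContDiff in
/-- an integrable function on a ball with vanishing weak derivatives is a.e. constant. -/
theorem ae_const_of_weak {d : ℕ} {g : Eu d → ℝ} {u₀ : Eu d} {ρ : ℝ} (hρ : 0 < ρ)
    (hg : IntegrableOn g (Metric.closedBall u₀ ρ))
    (hw : ∀ (φ : Eu d → ℝ) (w : Eu d), ContDiff ℝ ∞ φ → HasCompactSupport φ →
      tsupport φ ⊆ Metric.ball u₀ ρ → ∫ u in Metric.ball u₀ ρ, g u * fderiv ℝ φ u w = 0) :
    ∃ κ : ℝ, ∀ᵐ u ∂((volume : Measure (Eu d)).restrict (Metric.ball u₀ (ρ / 2))), g u = κ := by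
  set C := Metric.closedBall u₀ ρ with hC
  set gt : Eu d → ℝ := C.indicator g with hgt
  have hgtC : ∀ x ∈ C, gt x = g x := fun x hx => indicator_of_mem hx g
  have hCm : MeasurableSet C := Metric.isClosed_closedBall.measurableSet
  have hgtI : Integrable gt := (integrable_indicator_iff hCm).2 hg
  set S := Metric.ball u₀ (ρ / 2) with hS
  -- convolutions with small bumps are constant on `S`
  have hconst : ∀ φ : ContDiffBump (0 : Eu d), φ.rOut ≤ ρ / 4 → ∀ x ∈ S, ∀ y ∈ S,
      (φ.normed volume ⋆[ContinuousLinearMap.lsmul ℝ ℝ, volume] gt : Eu d → ℝ) x =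
      (φ.normed volume ⋆[ContinuousLinearMap.lsmul ℝ ℝ, volume] gt : Eu d → ℝ) y := by
    intro φ hφ
    set ψ : Eu d → ℝ := φ.normed volume with hψ
    have hψC : ContDiff ℝ ∞ ψ := φ.contDiff_normed
    have hψs : HasCompactSupport ψ := φ.hasCompactSupport_normed
    have hψt : tsupport ψ = Metric.closedBall 0 φ.rOut := φ.tsupport_normed_eq
    set G : Eu d → ℝ := ψ ⋆[ContinuousLinearMap.lsmul ℝ ℝ, volume] gt with hG
    have hG2 : G = gt ⋆[(ContinuousLinearMap.lsmul ℝ ℝ : ℝ →L[ℝ] ℝ →L[ℝ] ℝ).flip, volume] ψ := by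
      rw [hG, ← convolution_flip]
    have hderiv : ∀ x ∈ S, HasFDerivAt G (0 : Eu d →L[ℝ] ℝ) x := by
      intro x hx
      have h1 := hψs.hasFDerivAt_convolution_right
        (ContinuousLinearMap.lsmul ℝ ℝ : ℝ →L[ℝ] ℝ →L[ℝ] ℝ).flip (μ := volume)
        hgtI.locallyIntegrable (hψC.of_le (by simp)) x
      rw [← hG2] at h1
      have h2 : ((gt ⋆[((ContinuousLinearMap.lsmul ℝ ℝ : ℝ →L[ℝ] ℝ →L[ℝ] ℝ).flip).precompR
          (Eu d), volume] fderiv ℝ ψ) x : Eu d →L[ℝ] ℝ) = 0 := by
        ext w
        rw [convolution_precompR_apply _ hgtI.locallyIntegrable (hψs.fderiv ℝ)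
          (hψC.continuous_fderiv (by simp))]
        rw [convolution_def]
        set φx : Eu d → ℝ := fun t => ψ (x - t) with hφx
        have hφxC : ContDiff ℝ ∞ φx := hψC.comp (contDiff_const.sub contDiff_id)
        have hsub : tsupport φx ⊆ Metric.closedBall x φ.rOut := by
          refine closure_minimal ?_ Metric.isClosed_closedBall
          intro t ht
          have : x - t ∈ tsupport ψ := subset_tsupport _ ht
          rw [hψt, Metric.mem_closedBall, dist_zero_right] at this
          rw [Metric.mem_closedBall, dist_comm, dist_eq_norm]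
          exact this
        have hsubB : Metric.closedBall x φ.rOut ⊆ Metric.ball u₀ ρ := by
          refine Metric.closedBall_subset_ball' ?_
          have : dist x u₀ < ρ / 2 := hx
          linarith
        have hφxs : HasCompactSupport φx :=
          HasCompactSupport.of_support_subset_isCompact (isCompact_closedBall x φ.rOut)
            ((subset_tsupport _).trans hsub)
        have h3 := hw φx w hφxC hφxs (hsub.trans hsubB)
        have h4 : ∀ t, fderiv ℝ φx t w = - fderiv ℝ ψ (x - t) w := by
          intro t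
          have h5 : HasFDerivAt φx ((fderiv ℝ ψ (x - t)).comp
              (-(ContinuousLinearMap.id ℝ (Eu d)))) t := by
            have h6 : HasFDerivAt (fun t : Eu d => x - t) (-(ContinuousLinearMap.id ℝ (Eu d))) t :=
              (hasFDerivAt_id t).const_sub x
            exact ((hψC.differentiable (by simp)) (x - t)).hasFDerivAt.comp t h6
          rw [h5.fderiv]
          simp
        rw [← integral_indicator Metric.isOpen_ball.measurableSet] at h3
        have h7 : ∀ t, ((ContinuousLinearMap.lsmul ℝ ℝ : ℝ →L[ℝ] ℝ →L[ℝ] ℝ).flip (gt t))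
            (fderiv ℝ ψ (x - t) w) =
            - (Metric.ball u₀ ρ).indicator (fun u => g u * fderiv ℝ φx u w) t := by
          intro t
          have h8 : ((ContinuousLinearMap.lsmul ℝ ℝ : ℝ →L[ℝ] ℝ →L[ℝ] ℝ).flip (gt t))
            (fderiv ℝ ψ (x - t) w) = fderiv ℝ ψ (x - t) w * gt t := rfl
          rw [h8]
          by_cases ht2 : t ∈ Metric.ball u₀ ρ
          · rw [hgtC t (Metric.ball_subset_closedBall ht2), indicator_of_mem ht2, h4]; ring
          · have h9 : fderiv ℝ φx t = 0 := by
              have : t ∉ tsupport φx := fun h => ht2 (hsubB (hsub h))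
              rw [(notMem_tsupport_iff_eventuallyEq.1 this).fderiv_eq]
              exact fderiv_const_apply _
            have h10 : fderiv ℝ ψ (x - t) w = 0 := by
              have := h4 t
              rw [h9] at this
              simpa using this.symm
            rw [indicator_of_notMem ht2, h10]; simp
        simp only [h7]
        rw [integral_neg, h3, neg_zero]
        rfl
      rw [h2] at h1
      exact h1
    intro x hx y hy
    exact Metric.isOpen_ball.is_const_of_fderiv_eq_zero (s := S) (𝕜 := ℝ)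
      (convex_ball _ _).isPreconnected
      (fun x hx => (hderiv x hx).differentiableAt.differentiableWithinAt)
      (fun x hx => (hderiv x hx).fderiv) hx hy
  -- a sequence of bumps
  let φ : ℕ → ContDiffBump (0 : Eu d) := fun i =>
    ⟨ρ / (8 * (i + 1)), ρ / (4 * (i + 1)), by positivity, by
      apply div_lt_div_of_pos_left hρ (by positivity)
      have : (0 : ℝ) ≤ i := Nat.cast_nonneg i
      linarith⟩
  have hφr : ∀ i, (φ i).rOut = ρ / (4 * (i + 1)) := fun i => rfl
  have hφ0 : Tendsto (fun i => (φ i).rOut) atTop (𝓝 0) := by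
    have h1 : Tendsto (fun i : ℕ => (ρ / 4) * (1 / ((i : ℝ) + 1))) atTop (𝓝 ((ρ / 4) * 0)) :=
      tendsto_one_div_add_atTop_nhds_zero_nat.const_mul _
    rw [mul_zero] at h1
    refine h1.congr fun i => ?_
    rw [hφr]; field_simp
  have hφle : ∀ i, (φ i).rOut ≤ ρ / 4 := fun i => by
    rw [hφr]
    apply div_le_div_of_nonneg_left hρ.le (by norm_num)
    have : (0 : ℝ) ≤ i := Nat.cast_nonneg i
    linarith
  have hae := ContDiffBump.ae_convolution_tendsto_right_of_locallyIntegrable (μ := volume)
    (φ := φ) (K := 2) hφ0 (Eventually.of_forall fun i => by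
      show ρ / (4 * (i + 1)) ≤ 2 * (ρ / (8 * (i + 1)))
      apply le_of_eq; field_simp; ring) hgtI.locallyIntegrable
  have hSpos : (volume : Measure (Eu d)) S ≠ 0 := (Metric.measure_ball_pos _ _ (by positivity)).ne'
  have haeS := ae_restrict_of_ae (s := S) hae
  have : NeBot (ae ((volume : Measure (Eu d)).restrict S)) := by
    rw [ae_neBot]
    intro h
    apply hSpos
    rw [← Measure.restrict_apply_self, h]; rfl
  obtain ⟨x₀, hx₀, hx₀S⟩ := (haeS.and (ae_restrict_mem Metric.isOpen_ball.measurableSet)).exists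
  refine ⟨gt x₀, ?_⟩
  filter_upwards [haeS, ae_restrict_mem Metric.isOpen_ball.measurableSet] with x hx hxS
  have h1 : x ∈ C := Metric.ball_subset_closedBall (Metric.ball_subset_ball (by linarith) hxS)
  rw [← hgtC x h1]
  refine tendsto_nhds_unique hx (hx₀.congr fun i => ?_)
  exact hconst (φ i) (hφle i) x₀ hx₀S x hxS

end Crest.Agent.R208.FI
end
end

-- ▼ part R208/FH7
section

/-! Row 208, block F2 (helper198), part FH7: **invariance of the integral under bijections**
`h : X → Y` (differentiable at the points of `X`): `∫_X h^* om = ∫_Y om`. -/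

set_option autoImplicit false
set_option linter.unusedSectionVars false

open MeasureTheory MeasureTheory.Measure Set Filter Topology Module
open scoped ContDiff
open Crest.Agent.R208.F

noncomputable section

namespace Crest.Agent.R208.FI

variable {E E' : Type*} [NormedAddCommGroup E] [NormedSpace ℝ E] [FiniteDimensional ℝ E]
  [NormedAddCommGroup E'] [NormedSpace ℝ E'] [FiniteDimensional ℝ E']

variable {n : ℕ} {X : Set E} {Y : Set E'} {h : E → E'} {o om : E' → Ext E'}

/-- one piece of `X` -/
theorem piece_pull (hY : Clo n Y) (hh : ∀ x ∈ X, DifferentiableAt ℝ h x)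
    (hm : MapsTo h X Y) (hinj : InjOn h X) {f : Eu n → E} {V P : Set (Eu n)} (hf : Chart n X f V)
    (hP : MeasurableSet P) (hPV : P ⊆ V) :
    (IntegrableOn (fun y => dens n X (pull h o) (pull h om) ((TE E).symm y))
      (TE E '' (f '' P)) μHE[n] ↔
      IntegrableOn (fun y => dens n Y o om ((TE E').symm y))
        (TE E' '' (h '' (f '' P))) μHE[n]) ∧
    JS n X (pull h o) (pull h om) (f '' P) = JS n Y o om (h '' (f '' P)) := by
  have hd : ∀ u ∈ P, DifferentiableAt ℝ (h ∘ f) u := fun u hu =>
    (hh _ (hf.mem (hPV hu))).comp u (hf.differentiableAt (hPV hu))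
  have hi : InjOn (h ∘ f) P := fun u hu v hv huv =>
    hf.injOn (hPV hu) (hPV hv) (hinj (hf.mem (hPV hu)) (hf.mem (hPV hv)) huv)
  have hT : ∀ u ∈ P, finrank ℝ (Tan Y ((h ∘ f) u)) = n := fun u hu =>
    hY.finrank_Tan (hm (hf.mem (hPV hu)))
  have hmem : ∀ u ∈ P, ∀ w, fderiv ℝ (h ∘ f) u w ∈ Tan Y ((h ∘ f) u) := fun u hu w =>
    fderiv_mem_Tan (hd u hu)
      (by filter_upwards [hf.isOpen.mem_nhds (hPV hu)] with z hz using hm (hf.mem hz)) w
  have hc : ∀ (c : E' → Ext E'), ∀ u ∈ P, pull f (pull h c) u = pull (h ∘ f) c u :=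
    fun c u hu => pull_comp (hf.differentiableAt (hPV hu)) (hh _ (hf.mem (hPV hu)))
  have himg : h '' (f '' P) = (h ∘ f) '' P := (image_comp h f P).symm
  have hcongr : EqOn (fun u => top n (pull f (pull h om) u) *
      Real.sign (top n (pull f (pull h o) u))) (fun u => top n (pull (h ∘ f) om u) *
      Real.sign (top n (pull (h ∘ f) o u))) P := fun u hu => by
    simp only [hc _ u hu]
  constructor
  · rw [himg]
    exact (integrableOn_chart hf hP hPV).trans
      ((integrableOn_congr_fun hcongr hP).trans (integrableOn_param hP hd hi hT hmem).symm)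
  · rw [himg]
    refine (integral_chart hf hP hPV).trans ?_
    rw [setIntegral_congr_fun hP hcongr]
    exact (integral_param hP hd hi hT hmem).symm

/-- **change of variables** for a bijection `h : X → Y` of closed manifolds, integrable version. -/
theorem J_pull' (hX : Clo n X) (hY : Clo n Y) (hh : ∀ x ∈ X, DifferentiableAt ℝ h x)
    (hb : BijOn h X Y)
    (hint : IntegrableOn (fun y => dens n Y o om ((TE E').symm y)) (TE E' '' Y) μHE[n]) :
    J n X (pull h o) (pull h om) = J n Y o om ∧
      IntegrableOn (fun y => dens n X (pull h o) (pull h om) ((TE E).symm y)) (TE E '' X)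
        μHE[n] := by
  classical
  obtain ⟨N, f, V, P, -, hC, hPV, hPm, hdisj, hU⟩ := exists_decomp hX.compact (fun _ _ => True)
    (fun z hz => by
      obtain ⟨f, V, hf, hz'⟩ := hX.chart z hz
      exact ⟨f, V, trivial, hf, hz'⟩)
  have hsubX : ∀ i, f i '' P i ⊆ X := fun i => by
    rw [← hU]; exact subset_iUnion (fun i => f i '' P i) i
  have hUY : ⋃ i, h '' (f i '' P i) = Y := by
    rw [← image_iUnion, hU, hb.image_eq]
  have hp := fun i => piece_pull (o := o) (om := om) hY hh hb.mapsTo hb.injOn (hC i) (hPm i)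
    (hPV i)
  have hintY : ∀ i, IntegrableOn (fun y => dens n Y o om ((TE E').symm y))
      (TE E' '' (h '' (f i '' P i))) μHE[n] := fun i =>
    hint.mono_set (image_mono (by rw [← hUY]; exact subset_iUnion (fun i => h '' (f i '' P i)) i))
  have hintX : IntegrableOn (fun y => dens n X (pull h o) (pull h om) ((TE E).symm y))
      (TE E '' X) μHE[n] := by
    have h0 : TE E '' X = ⋃ i, TE E '' (f i '' P i) := by rw [← image_iUnion, hU]
    rw [h0, integrableOn_finite_iUnion]
    exact fun i => (hp i).1.2 (hintY i)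
  refine ⟨?_, hintX⟩
  have h1 : J n X (pull h o) (pull h om) = ∑ i, JS n X (pull h o) (pull h om) (f i '' P i) := by
    rw [← JS_iUnion _ (fun i => (hC i).measurableSet_image (hPm i) (hPV i)) hdisj
      (by rw [hU]; exact hintX), hU]; rfl
  have h2 : J n Y o om = ∑ i, JS n Y o om (h '' (f i '' P i)) := by
    rw [← JS_iUnion _ (fun i => ?_) (fun i j hij => ?_) (by rw [hUY]; exact hint), hUY]; rfl
    · rw [image_image, image_image]
      refine (hPm i).image_of_continuousOn_injOn ?_ ?_
      · intro u hu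
        have hu' : f i u ∈ X := (hC i).mem (hPV i hu)
        exact ((TE E').continuous.continuousAt.comp (((hh _ hu').continuousAt).comp
          ((hC i).contDiffAt (hPV i hu)).continuousAt)).continuousWithinAt
      · intro u hu v hv huv
        exact (hC i).injOn (hPV i hu) (hPV i hv) (hb.injOn ((hC i).mem (hPV i hu))
          ((hC i).mem (hPV i hv)) ((TE E').injective huv))
    · refine Set.disjoint_left.2 ?_
      rintro y ⟨x, hx, rfl⟩ ⟨x', hx', hxx⟩
      have := hb.injOn (hsubX j hx') (hsubX i hx) hxx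
      subst this
      exact Set.disjoint_left.1 (hdisj hij) hx hx'
  rw [h1, h2]
  exact Finset.sum_congr rfl fun i _ => (hp i).2

/-- **change of variables** `∫_X h^* om = ∫_Y om` for a bijection `h : X → Y` of closed
manifolds, `X` oriented by the pull-back of the orientation of `Y`. -/
theorem J_pull (hX : Clo n X) (hY : Clo n Y) (hh : ∀ x ∈ X, DifferentiableAt ℝ h x)
    (hb : BijOn h X Y) (ho : Ori n Y o) (hom : ContinuousOn om Y) :
    J n X (pull h o) (pull h om) = J n Y o om :=
  (J_pull' hX hY hh hb (integrableOn_dens hY ho hom)).1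

/-- `pull h o` is an orientation, if `h` is an immersion -/
theorem Ori.pull (hX : Clo n X) (hY : Clo n Y) (hh : ∀ x ∈ X, ContDiffAt ℝ 1 h x)
    (hm : MapsTo h X Y) (hi : ∀ x ∈ X, ∀ v ∈ Tan X x, fderiv ℝ h x v = 0 → v = 0)
    (ho : Ori n Y o) : Ori n X (pull h o) where
  cont := FI.continuousOn_pull (fun x hx => (hh x hx).continuousAt.continuousWithinAt)
    (fun x hx => ((hh x hx).fderiv_right (m := 0) (by norm_num)).continuousAt.continuousWithinAt)
    hm ho.cont
  ne := by
    intro x hx
    obtain ⟨f, V, hf, u, hu, rfl⟩ := hX.chart x hx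
    have hd : DifferentiableAt ℝ h (f u) := (hh _ hx).differentiableAt (by norm_num)
    refine (top_ne_zero (finrank_Tan_chart hf hu) (fun w => hf.fderiv_mem hu w) (hf.inj _ hu)).1 ?_
    have h1 : top n (F.pull f (F.pull h o) u) ≠ 0 := by
      rw [pull_comp (hf.differentiableAt hu) hd]
      have h2 : fderiv ℝ (h ∘ f) u = (fderiv ℝ h (f u)).comp (fderiv ℝ f u) :=
        fderiv_comp u hd (hf.differentiableAt hu)
      refine (top_ne_zero (x := h (f u)) (hY.finrank_Tan (hm hx)) (fun w => ?_) ?_).2
        (ho.ne _ (hm hx))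
      · exact fderiv_mem_Tan (hd.comp u (hf.differentiableAt hu))
          (by filter_upwards [hf.isOpen.mem_nhds hu] with z hz using hm (hf.mem hz)) w
      · rw [h2]
        intro v w hvw
        have h3 : fderiv ℝ h (f u) (fderiv ℝ f u (v - w)) = 0 := by
          rw [map_sub, map_sub]
          exact sub_eq_zero.2 hvw
        have h4 := hi _ hx _ (hf.fderiv_mem hu (v - w)) h3
        have h5 := hf.inj u hu (a₁ := v - w) (a₂ := 0) (by rw [h4, map_zero])
        exact sub_eq_zero.1 h5
    exact h1

end Crest.Agent.R208.FI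
end
end

-- ▼ part R208/FH11b
section

/-! Row 208, block F2 (helper198), part FH11b: **area formula with multiplicity** for maps
`f : X → Y` between closed oriented manifolds of the same dimension:
`∫_X f^* om = ∫_Y N om` with an integer valued integrable function `N`. -/

set_option autoImplicit false
set_option linter.unusedSectionVars false

open MeasureTheory MeasureTheory.Measure Set Filter Topology Module
open scoped ContDiff
open Crest.Agent.R208.F

noncomputable section

namespace Crest.Agent.R208.FI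

variable {E E' : Type*} [NormedAddCommGroup E] [NormedSpace ℝ E] [FiniteDimensional ℝ E]
  [NormedAddCommGroup E'] [NormedSpace ℝ E'] [FiniteDimensional ℝ E']

theorem injOn_of_approx {F G : Type*} [NormedAddCommGroup F] [NormedSpace ℝ F]
    [NormedAddCommGroup G] [NormedSpace ℝ G] {h : F → G} {A : F →L[ℝ] G} {Q : Set F} {c K : NNReal}
    (hA : AntilipschitzWith K A) (hK : c * K < 1) (hh : ApproximatesLinearOn h A Q c) :
    InjOn h Q := by
  intro x hx y hy hxy
  by_contra hne
  have h1 := hh x hx y hy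
  rw [hxy, sub_self, zero_sub, norm_neg] at h1
  have h2 := hA.le_mul_dist x y
  rw [dist_eq_norm, dist_eq_norm, ← map_sub] at h2
  have h3 : 0 < ‖x - y‖ := norm_pos_iff.2 (sub_ne_zero.2 hne)
  have h4 : ‖x - y‖ ≤ (c * K : NNReal) * ‖x - y‖ := by
    calc ‖x - y‖ ≤ K * ‖A (x - y)‖ := h2
      _ ≤ K * (c * ‖x - y‖) := mul_le_mul_of_nonneg_left h1 K.2
      _ = _ := by push_cast; ring
  have h5 : ((c * K : NNReal) : ℝ) < 1 := by exact_mod_cast hK
  nlinarith

/-- countable partition of the regular part into pieces of injectivity -/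
theorem exists_inj_partition {n : ℕ} {h : Eu n → E'} {R : Set (Eu n)}
    (hd : ∀ u ∈ R, DifferentiableAt ℝ h u) (hi : ∀ u ∈ R, Function.Injective (fderiv ℝ h u)) :
    ∃ t : ℕ → Set (Eu n), Pairwise (fun i j => Disjoint (t i) (t j)) ∧
      (∀ j, MeasurableSet (t j)) ∧ R ⊆ ⋃ j, t j ∧ ∀ j, InjOn h (R ∩ t j) := by
  classical
  rcases R.eq_empty_or_nonempty with rfl | hne
  · exact ⟨fun _ => ∅, fun i j _ => disjoint_bot_left, fun _ => MeasurableSet.empty, by simp,
      fun j => by simp⟩
  have hex : ∀ A : Eu n →L[ℝ] E', ∃ K : NNReal, 0 < K ∧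
      (Function.Injective A → AntilipschitzWith K A) := by
    intro A
    by_cases hA : Function.Injective A
    · obtain ⟨K, hK, h1⟩ := (A : Eu n →ₗ[ℝ] E').exists_antilipschitzWith
        (LinearMap.ker_eq_bot.2 hA)
      exact ⟨K, hK, fun _ => h1⟩
    · exact ⟨1, one_pos, fun h => absurd h hA⟩
  choose K hK hKA using hex
  obtain ⟨t, A, htd, htm, htR, hta, htA⟩ :=
    exists_partition_approximatesLinearOn_of_hasFDerivWithinAt h R (fderiv ℝ h)
      (fun u hu => (hd u hu).hasFDerivAt.hasFDerivWithinAt) (fun A => (K A)⁻¹ / 2)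
      (fun A => by
        have := hK A
        positivity)
  refine ⟨t, fun i j hij => htd hij, htm, htR, fun j => ?_⟩
  obtain ⟨y, hy, hAy⟩ := htA hne j
  have hinj : Function.Injective (A j) := by rw [hAy]; exact hi y hy
  refine injOn_of_approx (hKA _ hinj) ?_ (hta j)
  have h1 : (K (A j))⁻¹ / 2 * K (A j) = 1 / 2 := by
    have := (hK (A j)).ne'
    field_simp
  rw [h1]
  exact NNReal.half_lt_self one_ne_zero |>.trans_le le_rfl |> fun h => by simpa using h

section sheet
variable {n : ℕ} {X : Set E} {Y : Set E'} {f : E → E'} {oX : E → Ext E} {oY : E' → Ext E'}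

/-- the measure on `Y` -/
abbrev mY (n : ℕ) (Y : Set E') : Measure (EuclideanSpace ℝ (Fin (finrank ℝ E'))) :=
  μHE[n].restrict (TE E' '' Y)

/-- **one sheet**: `R` a measurable subset of a chart domain of `X` on which `h = f ∘ φ` is
immersive with constant orientation character `s = ±1`. -/
theorem sheet (hY : Clo n Y) (hoY : Ori n Y oY) (hX : Clo n X) (hoX : Ori n X oX)
    (hf : ∀ x ∈ X, ContDiffAt ℝ 1 f x) (hm : MapsTo f X Y) {φ : Eu n → E} {V R : Set (Eu n)}
    (hφ : Chart n X φ V) (hR : MeasurableSet R) (hRV : R ⊆ V) (s : ℝ) (hs : s ^ 2 = 1)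
    (hreg : ∀ u ∈ R, top n (pull (f ∘ φ) oY u) ≠ 0)
    (hsgn : ∀ u ∈ R, Real.sign (top n (pull φ oX u)) =
      s * Real.sign (top n (pull (f ∘ φ) oY u))) :
    ∃ N : EuclideanSpace ℝ (Fin (finrank ℝ E')) → ℝ, Integrable N (mY n Y) ∧
      (∀ᵐ y ∂(mY n Y), ∃ m : ℕ, N y = m) ∧
      ∀ om : E' → Ext E', ContinuousOn om Y →
        ∫ u in R, top n (pull φ (pull f om) u) * Real.sign (top n (pull φ oX u)) =
          s * ∫ y, N y * dens n Y oY om ((TE E').symm y) ∂(mY n Y) := by
  classical
  set h := f ∘ φ with hh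
  have hd : ∀ u ∈ V, DifferentiableAt ℝ h u := fun u hu =>
    ((hf _ (hφ.mem hu)).differentiableAt (by norm_num)).comp u (hφ.differentiableAt hu)
  have hT : ∀ u ∈ V, finrank ℝ (Tan Y (h u)) = n := fun u hu => hY.finrank_Tan (hm (hφ.mem hu))
  have hmem : ∀ u ∈ V, ∀ w, fderiv ℝ h u w ∈ Tan Y (h u) := fun u hu w =>
    fderiv_mem_Tan (hd u hu)
      (by filter_upwards [hφ.isOpen.mem_nhds hu] with z hz using hm (hφ.mem hz)) w
  have hpull : ∀ (c : E' → Ext E'), ∀ u ∈ V, pull φ (pull f c) u = pull h c u :=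
    fun c u hu => pull_comp (hφ.differentiableAt hu)
      ((hf _ (hφ.mem hu)).differentiableAt (by norm_num))
  have hinj : ∀ u ∈ R, Function.Injective (fderiv ℝ h u) := by
    intro u hu
    by_contra hni
    apply hreg u hu
    -- the determinant vanishes
    obtain ⟨M, h1, h2, -⟩ := exists_matrix (frame_isFrame (hT u (hRV hu))) (hT u (hRV hu))
      (hmem u (hRV hu))
    have h3 : Crest.Agent.R241.AF.jac (LE E' ∘L fderiv ℝ h u) = 0 := by
      by_contra h4
      apply hni
      have h6 := ((LE E' ∘L fderiv ℝ h u).toLinearMap.normDet_eq_zero_tfae.out 0 5)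
      by_contra h7
      apply h4
      refine h6.2 ?_
      intro h8
      apply h7
      intro a b hab
      apply h8
      show LE E' (fderiv ℝ h u a) = LE E' (fderiv ℝ h u b)
      rw [hab]
    rw [h3] at h1
    have h9 : M.det = 0 := abs_eq_zero.1 h1.symm
    show top n (pb _ (oY (h u))) = 0
    rw [h2, h9, zero_mul]
  obtain ⟨t, htd, htm, htR, hti⟩ := exists_inj_partition (fun u hu => hd u (hRV hu)) hinj
  set Q : ℕ → Set (Eu n) := fun j => R ∩ t j with hQ
  have hQm : ∀ j, MeasurableSet (Q j) := fun j => hR.inter (htm j)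
  have hQd : Pairwise (Function.onFun Disjoint Q) := fun i j hij =>
    (htd hij).mono inter_subset_right inter_subset_right
  have hQU : ⋃ j, Q j = R := by
    rw [← inter_iUnion]; exact inter_eq_left.2 htR
  have hQR : ∀ j, Q j ⊆ R := fun j => inter_subset_left
  set B : ℕ → Set (EuclideanSpace ℝ (Fin (finrank ℝ E'))) := fun j => TE E' '' (h '' Q j) with hB
  have hBm : ∀ j, MeasurableSet (B j) := by
    intro j
    show MeasurableSet (TE E' '' (h '' Q j))
    rw [image_image]
    refine (hQm j).image_of_continuousOn_injOn ?_ ?_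
    · intro u hu
      exact ((TE E').continuous.continuousAt.comp
        (hd u (hRV (hQR j hu))).continuousAt).continuousWithinAt
    · intro u hu v hv huv
      exact hti j hu hv ((TE E').injective huv)
  have hBY : ∀ j, B j ⊆ TE E' '' Y := by
    rintro j _ ⟨_, ⟨u, hu, rfl⟩, rfl⟩
    exact ⟨_, hm (hφ.mem (hRV (hQR j hu))), rfl⟩
  have hrestr : ∀ j, (mY n Y).restrict (B j) = μHE[n].restrict (B j) := fun j => by
    rw [mY, Measure.restrict_restrict (hBm j), inter_eq_left.2 (hBY j)]
  -- integrals over the pieces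
  have hpc : ∀ (om : E' → Ext E') (j : ℕ),
      ∫ u in Q j, top n (pull φ (pull f om) u) * Real.sign (top n (pull φ oX u)) =
      s * ∫ y in B j, dens n Y oY om ((TE E').symm y) ∂(mY n Y) := by
    intro om j
    rw [hrestr j]
    have h1 := integral_param (o := oY) (om := om) (hQm j) (fun u hu => hd u (hRV (hQR j hu)))
      (hti j) (fun u hu => hT u (hRV (hQR j hu))) (fun u hu => hmem u (hRV (hQR j hu)))
    rw [h1, ← integral_const_mul]
    refine setIntegral_congr_fun (hQm j) fun u hu => ?_
    rw [hpull om u (hRV (hQR j hu)), hsgn u (hQR j hu)]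
    ring
  have hcY := hY.compact.image (TE E').continuous
  have hfinY : IsFiniteMeasure (mY n Y) :=
    ⟨by rw [Measure.restrict_apply_univ]; exact hY.measure_lt_top⟩
  have hcont : ∀ {om : E' → Ext E'}, ContinuousOn om Y →
      ContinuousOn (fun y => dens n Y oY om ((TE E').symm y)) (TE E' '' Y) := by
    intro om hom
    refine (continuousOn_dens hY hoY hom).comp (TE E').symm.continuous.continuousOn ?_
    rintro _ ⟨x, hx, rfl⟩
    rw [ContinuousLinearEquiv.symm_apply_apply]; exact hx
  have hintR : ∀ {om : E' → Ext E'}, ContinuousOn om Y →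
      IntegrableOn (fun u => top n (pull φ (pull f om) u) *
        Real.sign (top n (pull φ oX u))) R := by
    intro om hom
    have hc : ContinuousOn (pull f om) X := FI.continuousOn_pull
      (fun x hx => (hf x hx).continuousAt.continuousWithinAt)
      (fun x hx => ((hf x hx).fderiv_right (m := 0) (by norm_num)).continuousAt.continuousWithinAt)
      hm hom
    have h1 : IntegrableOn (fun y => dens n X oX (pull f om) ((TE E).symm y))
        (TE E '' (φ '' R)) μHE[n] :=
      (integrableOn_dens hX hoX hc).mono_set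
        (image_mono ((image_mono hRV).trans hφ.image_subset))
    exact (integrableOn_chart hφ hR hRV).1 h1
  -- the measures of the pieces are summable
  have hsumB : Summable fun j => ((mY n Y) (B j)).toReal := by
    rcases Y.eq_empty_or_nonempty with hYe | hYne
    · have : ∀ j, ((mY n Y) (B j)).toReal = 0 := fun j => by
        have h1 : B j = ∅ := by
          have := hBY j
          rw [hYe, image_empty] at this
          exact subset_empty_iff.1 this
        rw [h1]; simp
      simp only [this]; exact summable_zero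
    obtain ⟨y₁, hy₁, hmin⟩ := hcY.exists_isMinOn (hYne.image _) (hcont hoY.cont)
    set c := dens n Y oY oY ((TE E').symm y₁) with hc
    have hc0 : 0 < c := by
      obtain ⟨x, hx, rfl⟩ := hy₁
      rw [hc, ContinuousLinearEquiv.symm_apply_apply]
      exact dens_self hoY hx
    have h1 := hasSum_integral_iUnion hQm hQd (by rw [hQU]; exact hintR hoY.cont)
    have h2 : Summable fun j => ∫ y in B j, dens n Y oY oY ((TE E').symm y) ∂(mY n Y) := by
      have h3 := h1.summable.mul_left s
      refine h3.congr fun j => ?_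
      rw [hpc oY j, ← mul_assoc]
      have : s * s = 1 := by rw [← sq, hs]
      rw [this, one_mul]
    refine (h2.mul_left c⁻¹).of_nonneg_of_le (fun j => ENNReal.toReal_nonneg) fun j => ?_
    rw [le_inv_mul_iff₀ hc0]
    have h4 : ∫ _y in B j, c ∂(mY n Y) ≤ ∫ y in B j, dens n Y oY oY ((TE E').symm y) ∂(mY n Y) := by
      refine setIntegral_mono_on (integrableOn_const (measure_ne_top _ _)) ?_ (hBm j) ?_
      · exact (integrableOn_dens hY hoY hoY.cont).integrable.integrableOn
      · intro y hy
        exact hmin (hBY j hy)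
    rw [setIntegral_const, smul_eq_mul, mul_comm] at h4
    exact h4
  have hsB : ∑' j, (mY n Y) (B j) ≠ ⊤ := by
    have := hsumB.tsum_ofReal_ne_top
    refine ne_of_eq_of_ne (tsum_congr fun j => ?_) this
    rw [ENNReal.ofReal_toReal (measure_ne_top _ _)]
  obtain ⟨N, hN1, hN2, hN3⟩ := mult_spec hBm hsB
  refine ⟨N, hN1, hN2, fun om hom => ?_⟩
  have h1 := hasSum_integral_iUnion hQm hQd (by rw [hQU]; exact hintR hom)
  rw [hQU] at h1
  obtain ⟨C, hC⟩ := hcY.exists_bound_of_continuousOn (hcont hom)
  have hDint : Integrable (fun y => dens n Y oY om ((TE E').symm y)) (mY n Y) :=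
    integrableOn_dens hY hoY hom
  have h2 := hN3 (fun y => dens n Y oY om ((TE E').symm y)) (fun j => hDint.integrableOn) (by
    refine (hsumB.mul_left C).of_nonneg_of_le (fun j => integral_nonneg fun y => norm_nonneg _)
      fun j => ?_
    have h4 : ∫ y in B j, ‖dens n Y oY om ((TE E').symm y)‖ ∂(mY n Y) ≤
        ∫ _y in B j, C ∂(mY n Y) := by
      refine setIntegral_mono_on hDint.norm.integrableOn
        (integrableOn_const (measure_ne_top _ _)) (hBm j) ?_
      intro y hy
      exact hC y (hBY j hy)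
    rw [setIntegral_const, smul_eq_mul, mul_comm] at h4
    exact h4)
  have h3 := h2.mul_left s
  have h4 : (fun j => s * ∫ y in B j, dens n Y oY om ((TE E').symm y) ∂(mY n Y)) =
      fun j => ∫ u in Q j, top n (pull φ (pull f om) u) * Real.sign (top n (pull φ oX u)) :=
    funext fun j => (hpc om j).symm
  rw [h4] at h3
  exact h1.unique h3

theorem sign_eq_of_pos {a b : ℝ} (h : 0 < a * b) : Real.sign a = 1 * Real.sign b := by
  rcases lt_trichotomy b 0 with hb | rfl | hb
  · have ha : a < 0 := by by_contra ha; nlinarith [mul_nonneg_of_nonpos_of_nonpos hb.le hb.le]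
    rw [Real.sign_of_neg ha, Real.sign_of_neg hb]; norm_num
  · simp at h
  · have ha : 0 < a := by by_contra ha; nlinarith
    rw [Real.sign_of_pos ha, Real.sign_of_pos hb]; norm_num

theorem sign_eq_of_neg {a b : ℝ} (h : a * b < 0) : Real.sign a = -1 * Real.sign b := by
  rcases lt_trichotomy b 0 with hb | rfl | hb
  · have ha : 0 < a := by by_contra ha; nlinarith [mul_nonneg_of_nonpos_of_nonpos (not_lt.1 ha) hb.le]
    rw [Real.sign_of_pos ha, Real.sign_of_neg hb]; norm_num
  · simp at h
  · have ha : a < 0 := by by_contra ha; nlinarith [mul_nonneg (not_lt.1 ha) hb.le]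
    rw [Real.sign_of_neg ha, Real.sign_of_pos hb]; norm_num

/-- at a critical point all forms of top degree are pulled back to `0`. -/
theorem top_pull_eq_zero {x : E'} {A : Eu n →L[ℝ] E'} (hT : finrank ℝ (Tan Y x) = n)
    (hA : ∀ w, A w ∈ Tan Y x) {o c : Ext E'} (ho : evA E' n o (frame n Y x) ≠ 0)
    (h0 : top n (pb (A : Eu n →ₗ[ℝ] E') o) = 0) : top n (pb (A : Eu n →ₗ[ℝ] E') c) = 0 := by
  obtain ⟨M, h1, h2, -⟩ := exists_matrix (frame_isFrame hT) hT hA
  rw [h2] at h0
  rw [h2, (mul_eq_zero.1 h0).resolve_right ho, zero_mul]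

/-- the multiplicity of one piece -/
theorem sheet_piece (hY : Clo n Y) (hoY : Ori n Y oY) (hX : Clo n X) (hoX : Ori n X oX)
    (hf : ∀ x ∈ X, ContDiffAt ℝ 1 f x) (hm : MapsTo f X Y) {φ : Eu n → E} {V P : Set (Eu n)}
    (hφ : Chart n X φ V) (hP : MeasurableSet P) (hPV : P ⊆ V) :
    ∃ N : EuclideanSpace ℝ (Fin (finrank ℝ E')) → ℝ, Integrable N (mY n Y) ∧
      (∀ᵐ y ∂(mY n Y), ∃ m : ℤ, N y = m) ∧
      ∀ om : E' → Ext E', ContinuousOn om Y →
        ∫ u in P, top n (pull φ (pull f om) u) * Real.sign (top n (pull φ oX u)) =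
          ∫ y, N y * dens n Y oY om ((TE E').symm y) ∂(mY n Y) := by
  classical
  have hd : ∀ u ∈ V, DifferentiableAt ℝ (f ∘ φ) u := fun u hu =>
    ((hf _ (hφ.mem hu)).differentiableAt (by norm_num)).comp u (hφ.differentiableAt hu)
  have hmem : ∀ u ∈ V, ∀ w, fderiv ℝ (f ∘ φ) u w ∈ Tan Y ((f ∘ φ) u) := fun u hu w =>
    fderiv_mem_Tan (hd u hu)
      (by filter_upwards [hφ.isOpen.mem_nhds hu] with z hz using hm (hφ.mem hz)) w
  have hpull : ∀ (c : E' → Ext E'), ∀ u ∈ V, pull φ (pull f c) u = pull (f ∘ φ) c u :=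
    fun c u hu => pull_comp (hφ.differentiableAt hu)
      ((hf _ (hφ.mem hu)).differentiableAt (by norm_num))
  set g : Eu n → ℝ := fun u => top n (pull φ oX u) * top n (pull (f ∘ φ) oY u) with hg
  have hgc : ContinuousOn g V := by
    refine ContinuousOn.mul (continuous_top.comp_continuousOn (hφ.continuousOn_pull hoX.cont)) ?_
    have h1 : ContinuousOn (pull f oY) X := FI.continuousOn_pull
      (fun x hx => (hf x hx).continuousAt.continuousWithinAt)
      (fun x hx => ((hf x hx).fderiv_right (m := 0) (by norm_num)).continuousAt.continuousWithinAt)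
      hm hoY.cont
    exact (continuous_top.comp_continuousOn (hφ.continuousOn_pull h1)).congr fun u hu => by
      rw [Function.comp_apply, hpull oY u hu]
  set Rp := P ∩ (V ∩ g ⁻¹' Ioi 0) with hRp
  set Rm := P ∩ (V ∩ g ⁻¹' Iio 0) with hRm
  have hRpm : MeasurableSet Rp :=
    hP.inter (hgc.isOpen_inter_preimage hφ.isOpen isOpen_Ioi).measurableSet
  have hRmm : MeasurableSet Rm :=
    hP.inter (hgc.isOpen_inter_preimage hφ.isOpen isOpen_Iio).measurableSet
  obtain ⟨N₁, h11, h12, h13⟩ := sheet hY hoY hX hoX hf hm hφ hRpm (fun u hu => hPV hu.1) 1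
    (by norm_num) (fun u hu => right_ne_zero_of_mul (ne_of_gt hu.2.2))
    (fun u hu => sign_eq_of_pos hu.2.2)
  obtain ⟨N₂, h21, h22, h23⟩ := sheet hY hoY hX hoX hf hm hφ hRmm (fun u hu => hPV hu.1) (-1)
    (by norm_num) (fun u hu => right_ne_zero_of_mul (ne_of_lt hu.2.2))
    (fun u hu => sign_eq_of_neg hu.2.2)
  refine ⟨fun y => N₁ y - N₂ y, h11.sub h21, ?_, ?_⟩
  · filter_upwards [h12, h22] with y hy1 hy2
    obtain ⟨a, ha⟩ := hy1
    obtain ⟨b, hb⟩ := hy2
    exact ⟨(a : ℤ) - b, by rw [ha, hb]; push_cast; ring⟩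
  · intro om hom
    have hc : ContinuousOn (pull f om) X := FI.continuousOn_pull
      (fun x hx => (hf x hx).continuousAt.continuousWithinAt)
      (fun x hx => ((hf x hx).fderiv_right (m := 0) (by norm_num)).continuousAt.continuousWithinAt)
      hm hom
    have hint : IntegrableOn (fun u => top n (pull φ (pull f om) u) *
        Real.sign (top n (pull φ oX u))) P := by
      have h1 : IntegrableOn (fun y => dens n X oX (pull f om) ((TE E).symm y))
          (TE E '' (φ '' P)) μHE[n] :=
        (integrableOn_dens hX hoX hc).mono_set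
          (image_mono ((image_mono hPV).trans hφ.image_subset))
      exact (integrableOn_chart hφ hP hPV).1 h1
    have hsub : Rp ∪ Rm ⊆ P := union_subset inter_subset_left inter_subset_left
    have hzero : ∀ u ∈ P \ (Rp ∪ Rm), top n (pull φ (pull f om) u) *
        Real.sign (top n (pull φ oX u)) = 0 := by
      rintro u ⟨hu, hu2⟩
      have hgu : g u = 0 := by
        by_contra hne
        rcases lt_or_gt_of_ne hne with h | h
        · exact hu2 (Or.inr ⟨hu, hPV hu, h⟩)
        · exact hu2 (Or.inl ⟨hu, hPV hu, h⟩)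
      have h1 := (mul_eq_zero.1 hgu).resolve_left (hφ.top_ne_zero hoX (hPV hu))
      have h2 : top n (pull φ (pull f om) u) = 0 := by
        rw [hpull om u (hPV hu)]
        exact top_pull_eq_zero (hY.finrank_Tan (hm (hφ.mem (hPV hu)))) (hmem u (hPV hu))
          (hoY.ne _ (hm (hφ.mem (hPV hu)))) h1
      rw [h2, zero_mul]
    have hdisj : Disjoint Rp Rm := by
      rw [Set.disjoint_left]
      rintro u ⟨-, -, h1⟩ ⟨-, -, h2⟩
      exact absurd (lt_trans (show 0 < g u from h1) (show g u < 0 from h2)) (lt_irrefl _)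
    rw [setIntegral_eq_of_subset_of_forall_sdiff_eq_zero hP hsub hzero,
      setIntegral_union hdisj hRmm (hint.mono_set inter_subset_left)
        (hint.mono_set inter_subset_left), h13 om hom, h23 om hom]
    have hcY := hY.compact.image (TE E').continuous
    have hcont : ContinuousOn (fun y => dens n Y oY om ((TE E').symm y)) (TE E' '' Y) := by
      refine (continuousOn_dens hY hoY hom).comp (TE E').symm.continuous.continuousOn ?_
      rintro _ ⟨x, hx, rfl⟩
      rw [ContinuousLinearEquiv.symm_apply_apply]; exact hx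
    obtain ⟨C, hC⟩ := hcY.exists_bound_of_continuousOn hcont
    have hDm : AEStronglyMeasurable (fun y => dens n Y oY om ((TE E').symm y)) (mY n Y) :=
      hcont.aestronglyMeasurable hY.measurableSet
    have hmul : ∀ {M : EuclideanSpace ℝ (Fin (finrank ℝ E')) → ℝ}, Integrable M (mY n Y) →
        Integrable (fun y => M y * dens n Y oY om ((TE E').symm y)) (mY n Y) := by
      intro M hM
      refine hM.mul_bdd (c := C) hDm ?_
      filter_upwards [ae_restrict_mem hY.measurableSet] with y hy using hC y hy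
    rw [one_mul, neg_one_mul, ← sub_eq_add_neg, ← integral_sub (hmul h11) (hmul h21)]
    refine integral_congr_ae (Eventually.of_forall fun y => ?_)
    simp only
    ring

/-- **AREA FORMULA WITH MULTIPLICITY** `∫_X f^* om = ∫_Y N om`, `N` integer valued. -/
theorem exists_mult (hX : Clo n X) (hoX : Ori n X oX) (hY : Clo n Y) (hoY : Ori n Y oY)
    (hf : ∀ x ∈ X, ContDiffAt ℝ 1 f x) (hm : MapsTo f X Y) :
    ∃ N : EuclideanSpace ℝ (Fin (finrank ℝ E')) → ℝ, Integrable N (mY n Y) ∧
      (∀ᵐ y ∂(mY n Y), ∃ m : ℤ, N y = m) ∧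
      ∀ om : E' → Ext E', ContinuousOn om Y →
        J n X oX (pull f om) = ∫ y, N y * dens n Y oY om ((TE E').symm y) ∂(mY n Y) := by
  classical
  obtain ⟨K, φ, V, P, -, hC, hPV, hPm, hdisj, hU⟩ := exists_decomp hX.compact (fun _ _ => True)
    (fun z hz => by
      obtain ⟨f, V, hf, hz'⟩ := hX.chart z hz
      exact ⟨f, V, trivial, hf, hz'⟩)
  have hex := fun i => sheet_piece hY hoY hX hoX hf hm (hC i) (hPm i) (hPV i)
  choose N hN1 hN2 hN3 using hex
  refine ⟨fun y => ∑ i, N i y, integrable_finsetSum _ fun i _ => hN1 i, ?_, ?_⟩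
  · have : ∀ᵐ y ∂(mY n Y), ∀ i, ∃ m : ℤ, N i y = m := ae_all_iff.2 hN2
    filter_upwards [this] with y hy
    choose m hm using hy
    exact ⟨∑ i, m i, by push_cast; exact Finset.sum_congr rfl fun i _ => hm i⟩
  · intro om hom
    have hc : ContinuousOn (pull f om) X := FI.continuousOn_pull
      (fun x hx => (hf x hx).continuousAt.continuousWithinAt)
      (fun x hx => ((hf x hx).fderiv_right (m := 0) (by norm_num)).continuousAt.continuousWithinAt)
      hm hom
    have h1 : J n X oX (pull f om) = ∑ i, JS n X oX (pull f om) (φ i '' P i) := by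
      rw [← JS_iUnion _ (fun i => (hC i).measurableSet_image (hPm i) (hPV i)) hdisj
        (by rw [hU]; exact integrableOn_dens hX hoX hc), hU]; rfl
    have h2 : ∀ i, JS n X oX (pull f om) (φ i '' P i) =
        ∫ y, N i y * dens n Y oY om ((TE E').symm y) ∂(mY n Y) := fun i => by
      rw [← hN3 i om hom]
      exact integral_chart (hC i) (hPm i) (hPV i)
    have hcY := hY.compact.image (TE E').continuous
    have hcont : ContinuousOn (fun y => dens n Y oY om ((TE E').symm y)) (TE E' '' Y) := by
      refine (continuousOn_dens hY hoY hom).comp (TE E').symm.continuous.continuousOn ?_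
      rintro _ ⟨x, hx, rfl⟩
      rw [ContinuousLinearEquiv.symm_apply_apply]; exact hx
    obtain ⟨C, hC'⟩ := hcY.exists_bound_of_continuousOn hcont
    have hDm : AEStronglyMeasurable (fun y => dens n Y oY om ((TE E').symm y)) (mY n Y) :=
      hcont.aestronglyMeasurable hY.measurableSet
    have hmul : ∀ i, Integrable (fun y => N i y * dens n Y oY om ((TE E').symm y)) (mY n Y) := by
      intro i
      refine (hN1 i).mul_bdd (c := C) hDm ?_
      filter_upwards [ae_restrict_mem hY.measurableSet] with y hy using hC' y hy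
    rw [h1, Finset.sum_congr rfl fun i _ => h2 i, ← integral_finsetSum _ fun i _ => hmul i]
    refine integral_congr_ae (Eventually.of_forall fun y => ?_)
    simp only [Finset.sum_mul]

end sheet

end Crest.Agent.R208.FI
end
end

-- ▼ part R208/FH11

/-! Row 208, block F2 (helper198), part FH11: the **mapping degree**. -/

set_option autoImplicit false
set_option linter.unusedSectionVars false

open MeasureTheory MeasureTheory.Measure Set Filter Topology Module
open scoped ContDiff
open Crest.Agent.R208.F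

noncomputable section

namespace Crest.Agent.R208.FI

variable {E E' : Type*} [NormedAddCommGroup E] [NormedSpace ℝ E] [FiniteDimensional ℝ E]
  [NormedAddCommGroup E'] [NormedSpace ℝ E'] [FiniteDimensional ℝ E']

/-- images of null sets in charts are null. -/
theorem Chart.null_image {n : ℕ} {X : Set E} {g : Eu n → E} {V A : Set (Eu n)}
    (hg : Chart n X g V) (hA : (volume : Measure (Eu n)) A = 0) (hAV : A ⊆ V) :
    μHE[n] (TE E '' (g '' A)) = 0 := by
  set A' := toMeasurable volume A ∩ V with hA'
  have h1 : MeasurableSet A' := (measurableSet_toMeasurable _ _).inter hg.isOpen.measurableSet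
  have h2 : A ⊆ A' := subset_inter (subset_toMeasurable _ _) hAV
  have h3 : (volume : Measure (Eu n)) A' = 0 :=
    measure_mono_null inter_subset_left (by rw [measure_toMeasurable, hA])
  have h4 : μHE[n] (TE E '' (g '' A')) = 0 := by
    rw [measure_image_chart hg h1 inter_subset_right]
    rw [Measure.restrict_eq_zero.2 h3, lintegral_zero_measure]
  exact measure_mono_null (image_mono (image_mono h2)) h4

section degree
variable {n : ℕ} {X : Set E} {Y : Set E'} {f : E → E'} {oX : E → Ext E} {oY : E' → Ext E'}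

theorem integrable_mul_dens (hY : Clo n Y) (hoY : Ori n Y oY) {om : E' → Ext E'}
    (hom : ContinuousOn om Y) {M : EuclideanSpace ℝ (Fin (finrank ℝ E')) → ℝ}
    (hM : Integrable M (mY n Y)) :
    Integrable (fun y => M y * dens n Y oY om ((TE E').symm y)) (mY n Y) := by
  have hcY := hY.compact.image (TE E').continuous
  have hcont : ContinuousOn (fun y => dens n Y oY om ((TE E').symm y)) (TE E' '' Y) := by
    refine (continuousOn_dens hY hoY hom).comp (TE E').symm.continuous.continuousOn ?_
    rintro _ ⟨x, hx, rfl⟩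
    rw [ContinuousLinearEquiv.symm_apply_apply]; exact hx
  obtain ⟨C, hC'⟩ := hcY.exists_bound_of_continuousOn hcont
  refine hM.mul_bdd (c := C) (hcont.aestronglyMeasurable hY.measurableSet) ?_
  filter_upwards [ae_restrict_mem hY.measurableSet] with y hy using hC' y hy

theorem J_fun_smul {om : E' → Ext E'} (N : EuclideanSpace ℝ (Fin (finrank ℝ E')) → ℝ) :
    J n Y oY (fun x => N (TE E' x) • om x) =
      ∫ y, N y * dens n Y oY om ((TE E').symm y) ∂(mY n Y) := by
  rw [J]
  refine integral_congr_ae (Eventually.of_forall fun y => ?_)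
  show dens n Y oY (fun x => N (TE E' x) • om x) ((TE E').symm y) = _
  rw [dens_fun_smul, ContinuousLinearEquiv.apply_symm_apply]

/-- an integrable function on `Y` whose weak derivatives vanish is locally a.e. constant. -/
theorem local_ae_const (hY : Clo n Y) (hoY : Ori n Y oY)
    {N : EuclideanSpace ℝ (Fin (finrank ℝ E')) → ℝ} (hN : Integrable N (mY n Y))
    (hw : ∀ β : E' → Ext E', (∀ x ∈ Y, ContDiffAt ℝ 1 β x) →
      J n Y oY (fun x => N (TE E' x) • F.d β x) = 0) {x₀ : E'} (hx₀ : x₀ ∈ Y) :
    ∃ U : Set E', IsOpen U ∧ x₀ ∈ U ∧ ∃ κ : ℝ,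
      ∀ᵐ y ∂(μHE[n].restrict (TE E' '' (Y ∩ U))), N y = κ := by
  obtain ⟨g, u₀, ρ, ε, hρ, hε, hg, rfl, htest⟩ := exists_test hY hoY hx₀
  set ρ' := ρ / 2 with hρ'
  have hρ'0 : 0 < ρ' := by positivity
  have hsub : Metric.closedBall u₀ ρ' ⊆ Metric.ball u₀ ρ :=
    Metric.closedBall_subset_ball (by rw [hρ']; linarith)
  -- integrability
  have hint : IntegrableOn (fun u => N (TE E' (g u))) (Metric.closedBall u₀ ρ') := by
    have h1 : IntegrableOn (fun y => dens n Y oY (fun x => N (TE E' x) • oY x) ((TE E').symm y))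
        (TE E' '' Y) μHE[n] := by
      refine (integrable_mul_dens hY hoY hoY.cont hN).congr (Eventually.of_forall fun y => ?_)
      show _ = dens n Y oY (fun x => N (TE E' x) • oY x) ((TE E').symm y)
      rw [dens_fun_smul, ContinuousLinearEquiv.apply_symm_apply]
    have h2 := (integrableOn_chart hg Metric.isClosed_closedBall.measurableSet hsub).1
      (h1.mono_set (image_mono ((image_mono hsub).trans hg.image_subset)))
    have h3 : ContinuousOn (fun u => |top n (pull g oY u)|⁻¹) (Metric.closedBall u₀ ρ') := by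
      refine ContinuousOn.inv₀ ?_ ?_
      · exact (continuous_abs.comp_continuousOn
          (continuous_top.comp_continuousOn (hg.continuousOn_pull hoY.cont))).mono hsub
      · intro u hu
        exact abs_ne_zero.2 (hg.top_ne_zero hoY (hsub hu))
    have h4 := h2.mul_continuousOn h3 (isCompact_closedBall _ _)
    refine h4.congr_fun ?_ Metric.isClosed_closedBall.measurableSet
    intro u hu
    have h5 : pull g (fun x => N (TE E' x) • oY x) u = N (TE E' (g u)) • pull g oY u :=
      pull_smul _ _ _ _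
    have h6 := abs_ne_zero.2 (hg.top_ne_zero hoY (hsub hu))
    show top n (pull g (fun x => N (TE E' x) • oY x) u) * Real.sign (top n (pull g oY u)) *
      |top n (pull g oY u)|⁻¹ = N (TE E' (g u))
    rw [h5, map_smul, smul_eq_mul, mul_assoc (N (TE E' (g u))), mul_sign, mul_assoc,
      mul_inv_cancel₀ h6, mul_one]
  obtain ⟨κ, hκ⟩ := ae_const_of_weak hρ'0 hint (fun φ w hφ hφc hφt => by
    obtain ⟨β, h1, -, h3⟩ := htest φ w hφ hφc
      (hφt.trans (Metric.ball_subset_ball (by rw [hρ']; linarith)))
    have h4 := hw β h1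
    rw [h3] at h4
    have h5 := (mul_eq_zero.1 h4).resolve_left hε
    rw [← h5]
    symm
    refine setIntegral_eq_of_subset_of_forall_sdiff_eq_zero Metric.isOpen_ball.measurableSet
      (Metric.ball_subset_ball (by rw [hρ']; linarith)) ?_
    rintro u ⟨-, hu⟩
    have h6 : u ∉ tsupport φ := fun h => hu (hφt h)
    have h7 : fderiv ℝ φ u = 0 := by
      rw [(notMem_tsupport_iff_eventuallyEq.1 h6).fderiv_eq]
      exact fderiv_const_apply _
    rw [h7]; simp)
  set W := Metric.ball u₀ (ρ' / 2) with hW
  have hWV : W ⊆ Metric.ball u₀ ρ := Metric.ball_subset_ball (by rw [hρ']; linarith)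
  obtain ⟨U, hU, hUe⟩ := hg.image_open W hWV Metric.isOpen_ball
  refine ⟨U, hU, ?_, κ, ?_⟩
  · have : g u₀ ∈ g '' W := ⟨u₀, Metric.mem_ball_self (by positivity), rfl⟩
    rw [hUe] at this; exact this.2
  · rw [← hUe, ae_restrict_iff' (hg.measurableSet_image Metric.isOpen_ball.measurableSet hWV)]
    rw [ae_restrict_iff' Metric.isOpen_ball.measurableSet] at hκ
    set A : Set (Eu n) := {u | u ∈ W ∧ N (TE E' (g u)) ≠ κ} with hA
    have hA0 : (volume : Measure (Eu n)) A = 0 := by
      rw [ae_iff] at hκ
      refine measure_mono_null (fun u hu => ?_) hκ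
      exact fun h => hu.2 (h hu.1)
    have h1 := hg.null_image hA0 (fun u hu => hWV hu.1)
    rw [ae_iff]
    refine measure_mono_null ?_ h1
    intro y hy
    have hy' : ¬ (y ∈ TE E' '' (g '' W) → N y = κ) := hy
    rw [Classical.not_imp] at hy'
    obtain ⟨⟨_, ⟨u, hu, rfl⟩, rfl⟩, hy2⟩ := hy'
    exact ⟨g u, ⟨u, ⟨hu, hy2⟩, rfl⟩, rfl⟩

theorem Clo.neBot (hY : Clo n Y) {U : Set E'} (hU : IsOpen U) {x : E'} (hx : x ∈ Y)
    (hxU : x ∈ U) : NeBot (ae (μHE[n].restrict (TE E' '' (Y ∩ U)))) := by
  rw [ae_neBot]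
  intro h
  have h1 := hY.measure_pos hU ⟨x, hx, hxU⟩
  rw [← Measure.restrict_apply_self, h] at h1
  simp at h1

/-- **constancy of integer valued functions with vanishing weak derivative** -/
theorem ae_const_int (hY : Clo n Y) (hoY : Ori n Y oY) (hYc : IsPreconnected Y)
    {N : EuclideanSpace ℝ (Fin (finrank ℝ E')) → ℝ} (hN : Integrable N (mY n Y))
    (hNi : ∀ᵐ y ∂(mY n Y), ∃ m : ℤ, N y = m)
    (hw : ∀ β : E' → Ext E', (∀ x ∈ Y, ContDiffAt ℝ 1 β x) →
      J n Y oY (fun x => N (TE E' x) • F.d β x) = 0) :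
    ∃ d : ℤ, ∀ᵐ y ∂(mY n Y), N y = d := by
  classical
  rcases Y.eq_empty_or_nonempty with hYe | ⟨x₁, hx₁⟩
  · refine ⟨0, ?_⟩
    have : mY n Y = 0 := by rw [mY, hYe, image_empty, Measure.restrict_empty]
    rw [this]; simp
  have hex : ∀ x : Y, ∃ U : Set E', IsOpen U ∧ (x : E') ∈ U ∧ ∃ κ : ℝ,
      ∀ᵐ y ∂(μHE[n].restrict (TE E' '' (Y ∩ U))), N y = κ := fun x =>
    local_ae_const hY hoY hN hw x.2
  choose U hU hxU κ hκ using hex
  have hlc : IsLocallyConstant κ := by
    rw [IsLocallyConstant.iff_eventually_eq]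
    intro x
    have h1 : ∀ᶠ y in 𝓝[Y] (x : E'), y ∈ U x := by
      filter_upwards [mem_nhdsWithin_of_mem_nhds ((hU x).mem_nhds (hxU x))] with y hy using hy
    have h2 : ∀ᶠ y : Y in 𝓝 x, (y : E') ∈ U x := (eventually_nhds_subtype_iff Y x _).2 h1
    filter_upwards [h2] with y hy
    have hne := hY.neBot ((hU x).inter (hU y)) y.2 ⟨hy, hxU y⟩
    have h3 : ∀ᵐ z ∂(μHE[n].restrict (TE E' '' (Y ∩ (U x ∩ U y)))), N z = κ x :=
      ae_mono (Measure.restrict_mono (image_mono (inter_subset_inter_right _ inter_subset_left))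
        le_rfl) (hκ x)
    have h4 : ∀ᵐ z ∂(μHE[n].restrict (TE E' '' (Y ∩ (U x ∩ U y)))), N z = κ y :=
      ae_mono (Measure.restrict_mono (image_mono (inter_subset_inter_right _ inter_subset_right))
        le_rfl) (hκ y)
    obtain ⟨z, hz1, hz2⟩ := (h3.and h4).exists
    rw [← hz1, ← hz2]
  have hpc : PreconnectedSpace Y := isPreconnected_iff_preconnectedSpace.1 hYc
  have hconst : ∀ x : Y, κ x = κ ⟨x₁, hx₁⟩ := fun x => hlc.apply_eq_of_preconnectedSpace _ _
  have hall : ∀ᵐ y ∂(mY n Y), N y = κ ⟨x₁, hx₁⟩ := by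
    have : ∀ᵐ y ∂(μHE[n].restrict (TE E' '' Y)), N y = κ ⟨x₁, hx₁⟩ := by
      refine hY.compact.induction_on
        (p := fun s => ∀ᵐ y ∂(μHE[n].restrict (TE E' '' s)), N y = κ ⟨x₁, hx₁⟩) ?_ ?_ ?_ ?_
      · simp
      · intro s t hst ht
        exact ae_mono (Measure.restrict_mono (image_mono hst) le_rfl) ht
      · intro s t hs ht
        rw [image_union, ae_restrict_union_iff]
        exact ⟨hs, ht⟩
      · intro x hx
        refine ⟨Y ∩ U ⟨x, hx⟩, inter_mem_nhdsWithin Y ((hU ⟨x, hx⟩).mem_nhds (hxU ⟨x, hx⟩)), ?_⟩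
        rw [← hconst ⟨x, hx⟩]
        exact hκ ⟨x, hx⟩
    exact this
  have hne := hY.neBot isOpen_univ hx₁ (mem_univ _)
  rw [inter_univ] at hne
  obtain ⟨z, hz1, m, hz2⟩ := (hall.and hNi).exists
  exact ⟨m, by rw [hz1] at hz2; rw [← hz2]; exact hall⟩

/-- **MAPPING DEGREE** of `f : X → Y`, `Y` connected. -/
theorem exists_degree (hX : Clo n X) (hoX : Ori n X oX) (hY : Clo n Y) (hoY : Ori n Y oY)
    (hYc : IsPreconnected Y) (hf : ∀ x ∈ X, ContDiffAt ℝ 2 f x) (hm : MapsTo f X Y) :
    ∃ d : ℤ, ∀ om : E' → Ext E', ContinuousOn om Y →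
      J n X oX (pull f om) = d * J n Y oY om := by
  obtain ⟨N, hN1, hN2, hN3⟩ := exists_mult hX hoX hY hoY
    (fun x hx => (hf x hx).of_le (by norm_num)) hm
  obtain ⟨d, hd⟩ := ae_const_int hY hoY hYc hN1 hN2 (fun β hβ => by
    rw [J_fun_smul, ← hN3 _ (continuousOn_d hβ)]
    have h1 : J n X oX (pull f (F.d β)) = J n X oX (F.d (pull f β)) :=
      J_congr' hX fun x hx => (d_pull (hf x hx) ((hβ _ (hm hx)).differentiableAt (by norm_num))).symm
    rw [h1]
    exact J_d hX hoX fun x hx => contDiffAt_pull (hf x hx) (by norm_num [one_add_one_eq_two])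
      (hβ _ (hm hx)))
  refine ⟨d, fun om hom => ?_⟩
  rw [hN3 om hom]
  have h2 : ∫ y, N y * dens n Y oY om ((TE E').symm y) ∂(mY n Y) =
      ∫ y, (d : ℝ) * dens n Y oY om ((TE E').symm y) ∂(mY n Y) := by
    refine integral_congr_ae ?_
    filter_upwards [hd] with y hy
    rw [hy]
  rw [h2, integral_const_mul]
  rfl

end degree

end Crest.Agent.R208.FI
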