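import Crest.Agent.R208.FT1
import Crest.Agent.R208.FL5
import Crest.Agent.R208.TP2
import Crest.Agent.R208.HW2

-- ▼ part R208/FT3
section

/-!
R208, (8,2), block F2 (helper336), part FT3: the level two family `f2` over the total space of
`P₂ ⊕ N` over `US G`.
-/

set_option autoImplicit false
set_option linter.unusedSectionVars false

open Set Filter Topology MeasureTheory
open scoped ContDiff RealInnerProductSpace Real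
open Crest.GeometryTopology.Submanifold
open Crest.Agent.R241.DDefs Crest.Agent.R241.D Crest.Agent.R241.D2

noncomputable section

namespace Crest.Agent.R208.FT

open Crest.Agent.R208.SV Crest.Agent.R208.MS Crest.Agent.R208.NN Crest.Agent.R208.FL

/-! ### doubling -/

section double
variable {N : ℕ}

theorem En_double (c : ℝ → Euc N) :
    En (fun t => c (2 * t)) = ∫ t in (0:ℝ)..(4 * π), ‖deriv c t‖ ^ 2 := by
  unfold En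
  have h1 : ∀ t, ‖deriv (fun t => c (2 * t)) t‖ ^ 2 = 4 * ‖deriv c (2 * t)‖ ^ 2 := by
    intro t
    rw [deriv_comp_mul_left (c := (2:ℝ)) (f := c) (x := t), norm_smul, mul_pow]
    norm_num
  rw [intervalIntegral.integral_congr (g := fun t => 4 * ‖deriv c (2 * t)‖ ^ 2)
    (fun t _ => h1 t), intervalIntegral.integral_const_mul,
    intervalIntegral.integral_comp_mul_left (fun t => ‖deriv c t‖ ^ 2) (by norm_num : (2:ℝ) ≠ 0),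
    smul_eq_mul, mul_zero, show 2 * (2 * π) = 4 * π by ring]
  ring

theorem En_double_per {c : ℝ → Euc N} (hc : ContDiff ℝ ∞ c) (hp : ∀ t, c (t + 2 * π) = c t) :
    En (fun t => c (2 * t)) = 4 * En c := by
  rw [En_double]
  unfold En
  have hcont : Continuous (fun t => ‖deriv c t‖ ^ 2) :=
    ((hc.continuous_deriv (by simp)).norm).pow 2
  have hper : ∀ t, ‖deriv c (t + 2 * π)‖ ^ 2 = ‖deriv c t‖ ^ 2 := by
    intro t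
    rw [← deriv_comp_add_const]
    simp only [hp]
  have h1 : ∫ t in (2 * π)..(4 * π), ‖deriv c t‖ ^ 2 = ∫ t in (0:ℝ)..(2 * π), ‖deriv c t‖ ^ 2 := by
    have h2 := intervalIntegral.integral_comp_add_right (a := 0) (b := 2 * π)
      (fun t => ‖deriv c t‖ ^ 2) (2 * π)
    rw [zero_add, show 2 * π + 2 * π = 4 * π by ring] at h2
    rw [← h2]
    exact intervalIntegral.integral_congr fun t _ => hper t
  rw [← intervalIntegral.integral_add_adjacent_intervals (b := 2 * π)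
    (hcont.intervalIntegrable _ _) (hcont.intervalIntegrable _ _), h1]
  ring

end double

variable {n N K k : ℕ} {κ : ℝ} {S : Set (Euc N)} {G : Geo n N κ S} {lg : Euc N → Euc N → Euc N}
  {ρ : Euc N → Euc N} {r C r' Kr B w δ : ℝ} {PN : Euc N × Euc N → Wt N K →L[ℝ] Wt N K}
  {H₂ : Type} [NormedAddCommGroup H₂] [InnerProductSpace ℝ H₂] [FiniteDimensional ℝ H₂]
  {P₂ : Euc N × Euc N → H₂ →L[ℝ] H₂} {Rr : ℝ → H₂ →L[ℝ] H₂}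
  {xi0 : Euc N × Euc N → H₂ →L[ℝ] Euc N} {δ₂ : ℝ} {ε ε₂ E₀ η : ℝ} {J : ℕ}

/-- cut-off of the second field: `1` for `q ≤ 1/4`, `0` for `q ≥ 1/2` -/
def cu (q : ℝ) : ℝ := 1 - ct (1 / 4) q

theorem cu_one {q : ℝ} (h : q ≤ 1 / 4) : cu q = 1 := by rw [cu, ct_zero h, sub_zero]
theorem cu_zero {q : ℝ} (h : 1 / 2 ≤ q) : cu q = 0 := by
  rw [cu, ct_one (by linarith), sub_self]
theorem cu_nonneg (q : ℝ) : 0 ≤ cu q := sub_nonneg.2 (ct_le_one _ _)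
theorem cu_le_one (q : ℝ) : cu q ≤ 1 := by
  have := ct_nonneg (1 / 4) q
  unfold cu; linarith
theorem contDiff_cu : ContDiff ℝ ∞ cu := contDiff_const.sub (contDiff_ct _)

/-- the coefficient of the second field -/
def bb (ε₂ : ℝ) (p : ((Euc N × Euc N) × H₂) × Wt N K) : ℝ :=
  ε₂ * cu (‖p.2‖ ^ 2) * th (‖p.1.2‖ ^ 2)

/-- the family near the zero section -/
def sg2 (G : Geo n N κ S) (ρ : Euc N → Euc N) (xi0 : Euc N × Euc N → H₂ →L[ℝ] Euc N) (ε ε₂ : ℝ)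
    (p : ((Euc N × Euc N) × H₂) × Wt N K) : Euc N :=
  ρ (p.1.1.1 + (ε • G.P p.1.1.1 (ev (nuP K) 0 p.2) + bb ε₂ p • xi0 p.1.1 p.1.2))

/-- **the level two family** -/
def f2 (G : Geo n N κ S) (lg : Euc N → Euc N → Euc N) (ρ : Euc N → Euc N) (w : ℝ) (J : ℕ)
    (xi0 : Euc N × Euc N → H₂ →L[ℝ] Euc N) (ε ε₂ : ℝ) (p : ((Euc N × Euc N) × H₂) × Wt N K) :
    Euc N :=
  ρ ((1 - ct (3 / 4) (‖p.2‖ ^ 2)) • sg2 G ρ xi0 ε ε₂ p +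
    ct (3 / 4) (‖p.2‖ ^ 2) • f1 G lg ρ w J ε (p.1.1, p.2))

/-- the action, in phase time (the flow at double speed) -/
def Ph2 (G : Geo n N κ S) (K : ℕ) (Rr : ℝ → H₂ →L[ℝ] H₂) (t : ℝ)
    (p : ((Euc N × Euc N) × H₂) × Wt N K) : ((Euc N × Euc N) × H₂) × Wt N K :=
  ((fl G (p.1.1, 2 * t), Rr (2 * t) p.1.2), Rt (nuP K) (2 * t) p.2)


/-- data of the level two family -/
structure D2 (G : Geo n N κ S) (k K : ℕ) (lg : Euc N → Euc N → Euc N) (ρ : Euc N → Euc N)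
    (r C r' Kr B w δ : ℝ) (PN : Euc N × Euc N → Wt N K →L[ℝ] Wt N K) (ε : ℝ) (J : ℕ)
    (E₀ η : ℝ) (P₂ : Euc N × Euc N → H₂ →L[ℝ] H₂) (Rr : ℝ → H₂ →L[ℝ] H₂)
    (xi0 : Euc N × Euc N → H₂ →L[ℝ] Euc N) (δ₂ ε₂ : ℝ) : Prop
    extends D1 G k K lg ρ r C r' Kr B w δ PN ε J E₀ η where
  xi : XI G P₂ Rr xi0 δ₂
  e2_pos : 0 < ε₂
  small2 : ∀ z ∈ L.US G, ∀ w, PN z w = w → ‖w‖ ≤ 1 → ∀ ν, P₂ z ν = ν → ∀ b, 0 ≤ b →
    b * ‖ν‖ ≤ 3 * ε₂ → ∀ t, ‖ε • fd G z (nuP K) w t + b • xf G Rr xi0 z ν t‖ < r' / 2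
  en2 : ∀ z ∈ L.US G, ∀ w, PN z w = w → ‖w‖ ≤ 1 → ∀ ν, P₂ z ν = ν → ∀ b, 0 ≤ b →
    b * ‖ν‖ ≤ 3 * ε₂ →
    ∫ t in (0:ℝ)..(4 * π), ‖deriv (fun t => ρ ((fl G (z, t)).1 +
      (ε • fd G z (nuP K) w t + b • xf G Rr xi0 z ν t))) t‖ ^ 2 ≤
        4 * π - min δ δ₂ * (ε ^ 2 * ‖w‖ ^ 2 + b ^ 2 * ‖ν‖ ^ 2)

theorem mem_TT {p : ((Euc N × Euc N) × H₂) × Wt N K} : p ∈ TP.TT (L.US G) P₂ PN ↔
    (p.1.1 ∈ L.US G ∧ P₂ p.1.1 p.1.2 = p.1.2) ∧ PN p.1.1 p.2 = p.2 := Iff.rfl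

theorem mem_Tot {p : ((Euc N × Euc N) × H₂) × Wt N K} (hp : p ∈ TP.TT (L.US G) P₂ PN) :
    ((p.1.1, p.2) : (Euc N × Euc N) × Wt N K) ∈ FI.Tot (L.US G) PN := ⟨hp.1.1, hp.2⟩

theorem bb_nonneg (hε₂ : 0 ≤ ε₂) (p : ((Euc N × Euc N) × H₂) × Wt N K) : 0 ≤ bb ε₂ p :=
  mul_nonneg (mul_nonneg hε₂ (cu_nonneg _)) (th_nonneg _)

theorem th_norm_le (ν : H₂) : th (‖ν‖ ^ 2) * ‖ν‖ ≤ 3 := by
  have h1 := th_sq_le (q := ‖ν‖ ^ 2) (by positivity)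
  have h2 : (th (‖ν‖ ^ 2) * ‖ν‖) ^ 2 ≤ 3 ^ 2 := by rw [mul_pow]; linarith
  exact (abs_le_of_sq_le_sq' h2 (by norm_num)).2

theorem bb_le (hε₂ : 0 ≤ ε₂) (p : ((Euc N × Euc N) × H₂) × Wt N K) :
    bb ε₂ p * ‖p.1.2‖ ≤ 3 * ε₂ := by
  unfold bb
  have h1 := th_norm_le p.1.2
  have h2 := cu_le_one (‖p.2‖ ^ 2)
  have h3 := cu_nonneg (‖p.2‖ ^ 2)
  have h4 := th_nonneg (‖p.1.2‖ ^ 2)
  have h5 : 0 ≤ th (‖p.1.2‖ ^ 2) * ‖p.1.2‖ := mul_nonneg h4 (norm_nonneg _)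
  calc ε₂ * cu (‖p.2‖ ^ 2) * th (‖p.1.2‖ ^ 2) * ‖p.1.2‖ =
      ε₂ * (cu (‖p.2‖ ^ 2) * (th (‖p.1.2‖ ^ 2) * ‖p.1.2‖)) := by ring
    _ ≤ ε₂ * (1 * 3) := by gcongr
    _ = 3 * ε₂ := by ring

theorem contDiff_bb : ContDiff ℝ ∞ (bb ε₂ : ((Euc N × Euc N) × H₂) × Wt N K → ℝ) := by
  have h1 : ContDiff ℝ ∞ (fun p : ((Euc N × Euc N) × H₂) × Wt N K => cu (‖p.2‖ ^ 2)) :=
    contDiff_cu.comp ((contDiff_norm_sq ℝ).comp contDiff_snd)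
  have h2 : ContDiff ℝ ∞ (fun p : ((Euc N × Euc N) × H₂) × Wt N K => th (‖p.1.2‖ ^ 2)) :=
    contDiff_th.comp ((contDiff_norm_sq ℝ).comp (contDiff_snd.comp contDiff_fst))
  exact (contDiff_const.mul h1).mul h2

namespace D2

variable (h : D2 G k K lg ρ r C r' Kr B w δ PN ε J E₀ η P₂ Rr xi0 δ₂ ε₂)

include h

theorem Ph2_mem {p : ((Euc N × Euc N) × H₂) × Wt N K} (hp : p ∈ TP.TT (L.US G) P₂ PN) (t : ℝ) :
    Ph2 G K Rr t p ∈ TP.TT (L.US G) P₂ PN := by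
  refine ⟨⟨NB.fl_mem_US hp.1.1 _, ?_⟩, ?_⟩
  · change P₂ (fl G (p.1.1, 2 * t)) (Rr (2 * t) p.1.2) = Rr (2 * t) p.1.2
    exact h.xi.P_Rr hp.1.1 hp.1.2 _
  · change PN (fl G (p.1.1, 2 * t)) (Rt (nuP K) (2 * t) p.2) = Rt (nuP K) (2 * t) p.2
    rw [h.neg.equi _ hp.1.1]
    rw [show PN p.1.1 p.2 = p.2 from hp.2]

theorem norm_Ph2 (t : ℝ) (p : ((Euc N × Euc N) × H₂) × Wt N K) :
    ‖(Ph2 G K Rr t p).2‖ = ‖p.2‖ ∧ ‖(Ph2 G K Rr t p).1.2‖ = ‖p.1.2‖ :=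
  ⟨norm_Rt _ _ _, h.xi.iso _ _⟩

theorem bb_Ph2 (t : ℝ) (p : ((Euc N × Euc N) × H₂) × Wt N K) :
    bb ε₂ (Ph2 G K Rr t p) = bb ε₂ p := by
  unfold bb
  rw [(h.norm_Ph2 t p).1, (h.norm_Ph2 t p).2]

/-- the orbit loops near the zero section -/
theorem sg2_Ph2 (p : ((Euc N × Euc N) × H₂) × Wt N K) (t : ℝ) :
    sg2 G ρ xi0 ε ε₂ (Ph2 G K Rr t p) = ρ ((fl G (p.1.1, 2 * t)).1 +
      (ε • fd G p.1.1 (nuP K) p.2 (2 * t) + bb ε₂ p • xf G Rr xi0 p.1.1 p.1.2 (2 * t))) := by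
  unfold sg2
  rw [h.bb_Ph2]
  change ρ ((fl G (p.1.1, 2 * t)).1 + (ε • G.P (fl G (p.1.1, 2 * t)).1
    (ev (nuP K) 0 (Rt (nuP K) (2 * t) p.2)) + _)) = _
  rw [ev_Rt, zero_add]
  rfl

/-- smallness of the inner part -/
theorem inner_lt {p : ((Euc N × Euc N) × H₂) × Wt N K} (hp : p ∈ TP.TT (L.US G) P₂ PN)
    (h1 : ‖p.2‖ ^ 2 ≤ 1) (t : ℝ) :
    ‖ε • fd G p.1.1 (nuP K) p.2 t + bb ε₂ p • xf G Rr xi0 p.1.1 p.1.2 t‖ < r' / 2 :=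
  h.small2 _ hp.1.1 _ hp.2 (by nlinarith [norm_nonneg p.2]) _ hp.1.2 _
    (bb_nonneg h.e2_pos.le p) (bb_le h.e2_pos.le p) t

theorem inner_lt' {p : ((Euc N × Euc N) × H₂) × Wt N K} (hp : p ∈ TP.TT (L.US G) P₂ PN)
    (h1 : ‖p.2‖ ^ 2 ≤ 1) :
    ‖(p.1.1.1 + (ε • G.P p.1.1.1 (ev (nuP K) 0 p.2) + bb ε₂ p • xi0 p.1.1 p.1.2)) -
      p.1.1.1‖ < r' := by
  have h2 := h.inner_lt hp h1 0
  unfold NN.fd xf at h2
  rw [fl_zero, h.xi.zero] at h2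
  have h3 := h.rt.r_pos
  rw [add_sub_cancel_left]
  exact h2.trans (by linarith)

theorem contDiffAt_sg2 {p : ((Euc N × Euc N) × H₂) × Wt N K} (hp : p ∈ TP.TT (L.US G) P₂ PN)
    (h1 : ‖p.2‖ ^ 2 ≤ 1) : ContDiffAt ℝ ∞ (sg2 G ρ xi0 ε ε₂) p := by
  have h2 := h.rt.smooth _ hp.1.1.1.1 _ (h.inner_lt' hp h1)
  have h3 : ContDiffAt ℝ ∞ (fun p : ((Euc N × Euc N) × H₂) × Wt N K => p.1.1.1) p := by fun_prop
  have h4 : ContDiff ℝ ∞ (fun p : ((Euc N × Euc N) × H₂) × Wt N K => G.P p.1.1.1) :=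
    G.contDiff_P.comp (by fun_prop)
  have h5 : ContDiff ℝ ∞ (fun p : ((Euc N × Euc N) × H₂) × Wt N K =>
      (ev (nuP K) 0 p.2 : Euc N)) :=
    (ev (nuP K) 0 : Wt N K →L[ℝ] Euc N).contDiff.comp contDiff_snd
  have h6 : ContDiffAt ℝ ∞ (fun p : ((Euc N × Euc N) × H₂) × Wt N K => xi0 p.1.1) p :=
    ContDiffAt.comp (g := xi0) p (h.xi.smooth _ hp.1.1) (by fun_prop)
  have h7 : ContDiffAt ℝ ∞ (fun p : ((Euc N × Euc N) × H₂) × Wt N K => xi0 p.1.1 p.1.2) p :=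
    h6.clm_apply (by fun_prop)
  have h8 : ContDiffAt ℝ ∞ (fun p : ((Euc N × Euc N) × H₂) × Wt N K =>
      p.1.1.1 + (ε • G.P p.1.1.1 (ev (nuP K) 0 p.2) + bb ε₂ p • xi0 p.1.1 p.1.2)) p :=
    h3.add (((contDiffAt_const (c := ε)).smul (h4.clm_apply h5).contDiffAt).add
      ((contDiff_bb (ε₂ := ε₂)).contDiffAt.smul h7))
  exact ContDiffAt.comp (g := ρ) p h2 h8

theorem sg2_mem {p : ((Euc N × Euc N) × H₂) × Wt N K} (hp : p ∈ TP.TT (L.US G) P₂ PN)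
    (h1 : ‖p.2‖ ^ 2 ≤ 1) : sg2 G ρ xi0 ε ε₂ p ∈ S :=
  h.rt.mem _ hp.1.1.1.1 _ (h.inner_lt' hp h1)

theorem sg2_eq_f1 {p : ((Euc N × Euc N) × H₂) × Wt N K} (hp : p ∈ TP.TT (L.US G) P₂ PN)
    (h0 : 1 / 2 ≤ ‖p.2‖ ^ 2) (h1 : ‖p.2‖ ^ 2 ≤ 1) :
    sg2 G ρ xi0 ε ε₂ p = f1 G lg ρ w J ε (p.1.1, p.2) := by
  rw [h.toD1.f1_near (mem_Tot hp) h1]
  unfold sg2 bb
  rw [cu_zero h0, mul_zero, zero_mul, zero_smul, add_zero]

/-- `f2 = sg2` for `‖w‖ ≤ 1` -/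
theorem f2_near {p : ((Euc N × Euc N) × H₂) × Wt N K} (hp : p ∈ TP.TT (L.US G) P₂ PN)
    (h1 : ‖p.2‖ ^ 2 ≤ 1) : f2 G lg ρ w J xi0 ε ε₂ p = sg2 G ρ xi0 ε ε₂ p := by
  unfold f2
  have hS := h.sg2_mem hp h1
  rcases le_total (‖p.2‖ ^ 2) (3 / 4) with h2 | h2
  · rw [ct_zero h2, sub_zero, one_smul, zero_smul, add_zero, h.rt.eq _ hS]
  · rw [← h.sg2_eq_f1 hp (by linarith) h1, ← add_smul, sub_add_cancel, one_smul, h.rt.eq _ hS]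

/-- `f2 = f1` for `‖w‖² ≥ 1/2` -/
theorem f2_far {p : ((Euc N × Euc N) × H₂) × Wt N K} (hp : p ∈ TP.TT (L.US G) P₂ PN)
    (h1 : 1 / 2 ≤ ‖p.2‖ ^ 2) : f2 G lg ρ w J xi0 ε ε₂ p = f1 G lg ρ w J ε (p.1.1, p.2) := by
  rcases le_total (‖p.2‖ ^ 2) 1 with h2 | h2
  · rw [h.f2_near hp h2, h.sg2_eq_f1 hp h1 h2]
  · unfold f2
    rw [ct_one (by linarith), sub_self, zero_smul, one_smul, zero_add,
      h.rt.eq _ (h.toD1.fam.maps _ (mem_Tot hp))]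

theorem f2_mem {p : ((Euc N × Euc N) × H₂) × Wt N K} (hp : p ∈ TP.TT (L.US G) P₂ PN) :
    f2 G lg ρ w J xi0 ε ε₂ p ∈ S := by
  rcases le_total (‖p.2‖ ^ 2) 1 with h2 | h2
  · rw [h.f2_near hp h2]; exact h.sg2_mem hp h2
  · rw [h.f2_far hp (by linarith)]; exact h.toD1.fam.maps _ (mem_Tot hp)

theorem contDiffAt_f1' {p : ((Euc N × Euc N) × H₂) × Wt N K} (hp : p ∈ TP.TT (L.US G) P₂ PN) :
    ContDiffAt ℝ ∞ (fun p : ((Euc N × Euc N) × H₂) × Wt N K => f1 G lg ρ w J ε (p.1.1, p.2)) p :=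
  ContDiffAt.comp (g := f1 G lg ρ w J ε) p (h.toD1.fam.smooth _ (mem_Tot hp)) (by fun_prop)

/-- **smoothness of the level two family** -/
theorem contDiffAt_f2 {p : ((Euc N × Euc N) × H₂) × Wt N K} (hp : p ∈ TP.TT (L.US G) P₂ PN) :
    ContDiffAt ℝ ∞ (f2 G lg ρ w J xi0 ε ε₂) p := by
  have hf1 := h.contDiffAt_f1' hp
  have hc : ContDiff ℝ ∞ (fun p : ((Euc N × Euc N) × H₂) × Wt N K => ct (3 / 4) (‖p.2‖ ^ 2)) :=
    (contDiff_ct _).comp ((contDiff_norm_sq ℝ).comp contDiff_snd)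
  rcases le_or_gt (‖p.2‖ ^ 2) 1 with h2 | h2
  · have hS := h.sg2_mem hp h2
    have hin : (1 - ct (3 / 4) (‖p.2‖ ^ 2)) • sg2 G ρ xi0 ε ε₂ p +
        ct (3 / 4) (‖p.2‖ ^ 2) • f1 G lg ρ w J ε (p.1.1, p.2) = sg2 G ρ xi0 ε ε₂ p := by
      rcases le_total (‖p.2‖ ^ 2) (3 / 4) with h3 | h3
      · rw [ct_zero h3, sub_zero, one_smul, zero_smul, add_zero]
      · rw [← h.sg2_eq_f1 hp (by linarith) h2, ← add_smul, sub_add_cancel, one_smul]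
    have h4 : ContDiffAt ℝ ∞ (fun p : ((Euc N × Euc N) × H₂) × Wt N K =>
        (1 - ct (3 / 4) (‖p.2‖ ^ 2)) • sg2 G ρ xi0 ε ε₂ p +
        ct (3 / 4) (‖p.2‖ ^ 2) • f1 G lg ρ w J ε (p.1.1, p.2)) p :=
      ((contDiffAt_const.sub hc.contDiffAt).smul (h.contDiffAt_sg2 hp h2)).add
        (hc.contDiffAt.smul hf1)
    refine ContDiffAt.comp (g := ρ) p ?_ h4
    rw [hin]
    exact h.rt.smooth _ hS _ (by rw [sub_self, norm_zero]; exact h.rt.r_pos)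
  · have hy := h.toD1.fam.maps _ (mem_Tot hp)
    have h4 : ContDiffAt ℝ ∞ (fun p : ((Euc N × Euc N) × H₂) × Wt N K =>
        ρ (f1 G lg ρ w J ε (p.1.1, p.2))) p :=
      ContDiffAt.comp (g := ρ) p
        (h.rt.smooth _ hy _ (by rw [sub_self, norm_zero]; exact h.rt.r_pos)) hf1
    refine h4.congr_of_eventuallyEq ?_
    have ho : ∀ᶠ q : ((Euc N × Euc N) × H₂) × Wt N K in 𝓝 p, 1 < ‖q.2‖ ^ 2 :=
      (isOpen_lt continuous_const (continuous_snd.norm.pow 2)).mem_nhds h2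
    filter_upwards [ho] with q hq
    unfold f2
    rw [ct_one (by linarith), sub_self, zero_smul, one_smul, zero_add]

/-- `f2` over the zero section of `P₂` is `f1` -/
theorem f2_zero {z : Euc N × Euc N} {v : Wt N K} (hz : z ∈ L.US G) (hv : PN z v = v) :
    f2 G lg ρ w J xi0 ε ε₂ ((z, (0 : H₂)), v) = f1 G lg ρ w J ε (z, v) := by
  have hp : (((z, (0 : H₂)), v) : ((Euc N × Euc N) × H₂) × Wt N K) ∈ TP.TT (L.US G) P₂ PN :=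
    ⟨⟨hz, map_zero _⟩, hv⟩
  rcases le_total (‖v‖ ^ 2) 1 with h2 | h2
  · rw [h.f2_near hp h2, h.toD1.f1_near (mem_Tot hp) h2]
    unfold sg2
    simp only [map_zero, smul_zero, add_zero]
  · exact h.f2_far hp (by change 1 / 2 ≤ ‖v‖ ^ 2; linarith)


/-- orbit loops, near -/
theorem orb_near {p : ((Euc N × Euc N) × H₂) × Wt N K} (hp : p ∈ TP.TT (L.US G) P₂ PN)
    (h1 : ‖p.2‖ ^ 2 ≤ 1) (t : ℝ) : f2 G lg ρ w J xi0 ε ε₂ (Ph2 G K Rr t p) =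
      ρ ((fl G (p.1.1, 2 * t)).1 + (ε • fd G p.1.1 (nuP K) p.2 (2 * t) +
        bb ε₂ p • xf G Rr xi0 p.1.1 p.1.2 (2 * t))) := by
  rw [h.f2_near (h.Ph2_mem hp t) (by rw [(h.norm_Ph2 t p).1]; exact h1), h.sg2_Ph2]

/-- orbit loops, far -/
theorem orb_far {p : ((Euc N × Euc N) × H₂) × Wt N K} (hp : p ∈ TP.TT (L.US G) P₂ PN)
    (h1 : 1 / 2 ≤ ‖p.2‖ ^ 2) (t : ℝ) : f2 G lg ρ w J xi0 ε ε₂ (Ph2 G K Rr t p) =
      oc (Ph G K) (f1 G lg ρ w J ε) (p.1.1, p.2) (2 * t) := by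
  rw [h.f2_far (h.Ph2_mem hp t) (by rw [(h.norm_Ph2 t p).1]; exact h1)]
  rfl

/-- constant loops far away -/
theorem f2_const {p : ((Euc N × Euc N) × H₂) × Wt N K} (hp : p ∈ TP.TT (L.US G) P₂ PN)
    (h1 : 5 / 4 ≤ ‖p.2‖ ^ 2) (t : ℝ) :
    f2 G lg ρ w J xi0 ε ε₂ (Ph2 G K Rr t p) = f2 G lg ρ w J xi0 ε ε₂ p := by
  rw [h.orb_far hp (by linarith), h.f2_far hp (by linarith)]
  unfold oc
  exact h.toD1.f1_const (mem_Tot hp) h1 _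

/-- energies, near -/
theorem En_near {p : ((Euc N × Euc N) × H₂) × Wt N K} (hp : p ∈ TP.TT (L.US G) P₂ PN)
    (h1 : ‖p.2‖ ^ 2 ≤ 1) : En (fun t => f2 G lg ρ w J xi0 ε ε₂ (Ph2 G K Rr t p)) ≤
      4 * π - min δ δ₂ * (ε ^ 2 * ‖p.2‖ ^ 2 + bb ε₂ p ^ 2 * ‖p.1.2‖ ^ 2) := by
  set c : ℝ → Euc N := fun t => ρ ((fl G (p.1.1, t)).1 + (ε • fd G p.1.1 (nuP K) p.2 t +
        bb ε₂ p • xf G Rr xi0 p.1.1 p.1.2 t)) with hc
  have h2 : (fun t => f2 G lg ρ w J xi0 ε ε₂ (Ph2 G K Rr t p)) = fun t => c (2 * t) :=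
    funext fun t => h.orb_near hp h1 t
  rw [h2, En_double]
  exact h.en2 _ hp.1.1 _ hp.2 (by nlinarith [norm_nonneg p.2]) _ hp.1.2 _
    (bb_nonneg h.e2_pos.le p) (bb_le h.e2_pos.le p)

/-- energies, far -/
theorem En_far {p : ((Euc N × Euc N) × H₂) × Wt N K} (hp : p ∈ TP.TT (L.US G) P₂ PN)
    (h1 : 1 / 2 ≤ ‖p.2‖ ^ 2) : En (fun t => f2 G lg ρ w J xi0 ε ε₂ (Ph2 G K Rr t p)) =
      4 * En (oc (Ph G K) (f1 G lg ρ w J ε) (p.1.1, p.2)) := by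
  have h2 : (fun t => f2 G lg ρ w J xi0 ε ε₂ (Ph2 G K Rr t p)) = fun t =>
      oc (Ph G K) (f1 G lg ρ w J ε) (p.1.1, p.2) (2 * t) :=
    funext fun t => h.orb_far hp h1 t
  have hL := loop_oc h.toD1.toD0.cir h.toD1.fam (mem_Tot hp)
  rw [h2, En_double_per hL.smooth hL.per]

/-- **energies of the level two family** -/
theorem exists_En_le : ∃ δ' > 0, ∀ p ∈ TP.TT (L.US G) P₂ PN,
    En (fun t => f2 G lg ρ w J xi0 ε ε₂ (Ph2 G K Rr t p)) ≤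
      4 * π - δ' * min 1 (‖p.2‖ ^ 2 + ‖p.1.2‖ ^ 2) := by
  have hδ := h.neg.pos_δ
  have hδ₂ := h.xi.pos
  have he := h.eps_pos
  have he2 := h.e2_pos
  have hE := h.E_lt
  set μ : ℝ := min δ δ₂ with hμ
  have hμ0 : 0 < μ := lt_min hδ hδ₂
  set δ' : ℝ := min (μ * ε ^ 2 / 4) (min (μ * ε₂ ^ 2) (4 * (π - E₀))) with hδ'
  have hδ'0 : 0 < δ' := by
    refine lt_min (by positivity) (lt_min (by positivity) (by linarith))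
  have hd1 : δ' ≤ μ * ε ^ 2 / 4 := min_le_left _ _
  have hd2 : δ' ≤ μ * ε₂ ^ 2 := (min_le_right _ _).trans (min_le_left _ _)
  have hd3 : δ' ≤ 4 * (π - E₀) := (min_le_right _ _).trans (min_le_right _ _)
  refine ⟨δ', hδ'0, fun p hp => ?_⟩
  have hm1 : min 1 (‖p.2‖ ^ 2 + ‖p.1.2‖ ^ 2) ≤ 1 := min_le_left _ _
  have hm2 : min 1 (‖p.2‖ ^ 2 + ‖p.1.2‖ ^ 2) ≤ ‖p.2‖ ^ 2 + ‖p.1.2‖ ^ 2 := min_le_right _ _
  have hm0 : 0 ≤ min 1 (‖p.2‖ ^ 2 + ‖p.1.2‖ ^ 2) := le_min zero_le_one (by positivity)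
  have hb0 : 0 ≤ bb ε₂ p ^ 2 * ‖p.1.2‖ ^ 2 := by positivity
  rcases le_or_gt (‖p.2‖ ^ 2) (1 / 4) with h1 | h1
  · refine (h.En_near hp (by linarith)).trans ?_
    have h3 := le_th_sq (q := ‖p.1.2‖ ^ 2) (by positivity)
    have h4 : bb ε₂ p ^ 2 * ‖p.1.2‖ ^ 2 = ε₂ ^ 2 * (th (‖p.1.2‖ ^ 2) ^ 2 * ‖p.1.2‖ ^ 2) := by
      unfold bb; rw [cu_one h1]; ring
    rw [h4]
    have h5 : μ * (ε₂ ^ 2 * min 1 (‖p.1.2‖ ^ 2)) ≤
        μ * (ε₂ ^ 2 * (th (‖p.1.2‖ ^ 2) ^ 2 * ‖p.1.2‖ ^ 2)) := by gcongr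
    have h6 : min 1 (‖p.2‖ ^ 2 + ‖p.1.2‖ ^ 2) ≤ ‖p.2‖ ^ 2 + min 1 (‖p.1.2‖ ^ 2) := by
      rcases le_total 1 (‖p.1.2‖ ^ 2) with h7 | h7
      · rw [min_eq_left h7]; exact hm1.trans (by nlinarith [sq_nonneg ‖p.2‖])
      · rw [min_eq_right h7]; exact hm2
    have h7 : 0 ≤ min 1 (‖p.1.2‖ ^ 2) := le_min zero_le_one (by positivity)
    have h8 : δ' * min 1 (‖p.2‖ ^ 2 + ‖p.1.2‖ ^ 2) ≤
        δ' * ‖p.2‖ ^ 2 + δ' * min 1 (‖p.1.2‖ ^ 2) := by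
      rw [← mul_add]; gcongr
    have h9 : δ' * ‖p.2‖ ^ 2 ≤ μ * (ε ^ 2 * ‖p.2‖ ^ 2) := by
      have h10 : δ' ≤ μ * ε ^ 2 := by
        have : 0 ≤ μ * ε ^ 2 := by positivity
        linarith
      calc δ' * ‖p.2‖ ^ 2 ≤ μ * ε ^ 2 * ‖p.2‖ ^ 2 := by gcongr
        _ = _ := by ring
    have h10 : δ' * min 1 (‖p.1.2‖ ^ 2) ≤ μ * (ε₂ ^ 2 * min 1 (‖p.1.2‖ ^ 2)) := by
      calc δ' * min 1 (‖p.1.2‖ ^ 2) ≤ μ * ε₂ ^ 2 * min 1 (‖p.1.2‖ ^ 2) := by gcongr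
        _ = _ := by ring
    linarith
  · have hlow : δ' * min 1 (‖p.2‖ ^ 2 + ‖p.1.2‖ ^ 2) ≤ δ' := by nlinarith
    rcases le_or_gt (‖p.2‖ ^ 2) 1 with h2 | h2
    · refine (h.En_near hp h2).trans ?_
      have h3 : μ * ε ^ 2 / 4 ≤ μ * (ε ^ 2 * ‖p.2‖ ^ 2) := by
        have : μ * ε ^ 2 * (1 / 4) ≤ μ * ε ^ 2 * ‖p.2‖ ^ 2 := by gcongr
        linarith
      have h4 : 0 ≤ μ * (bb ε₂ p ^ 2 * ‖p.1.2‖ ^ 2) := by positivity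
      rw [mul_add]
      linarith
    · rw [h.En_far hp (by linarith)]
      have h3 := (h.toD1.En_f1_le (mem_Tot hp)).2.2 h2.le
      linarith

end D2

end Crest.Agent.R208.FT
end
end

-- ▼ part R208/FT4

/-!
R208, (8,2), block F2 (helper336), part FT4: the level two family over any `X` with an equivariant
map to `US G` (doubled flow), for example `X' = US G × S^31`.
-/

set_option autoImplicit false
set_option linter.unusedSectionVars false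
set_option linter.unusedVariables false

open Set Filter Topology MeasureTheory
open scoped ContDiff RealInnerProductSpace Real
open Crest.GeometryTopology.Submanifold
open Crest.Agent.R241.DDefs Crest.Agent.R241.D Crest.Agent.R241.D2

noncomputable section

namespace Crest.Agent.R208.FT

open Crest.Agent.R208.SV Crest.Agent.R208.MS Crest.Agent.R208.NN Crest.Agent.R208.FL
open Crest.Agent.R208.CM (Cir Rep phR gf)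

variable {n N K k : ℕ} {κ : ℝ} {S : Set (Euc N)} {G : Geo n N κ S} {lg : Euc N → Euc N → Euc N}
  {ρ : Euc N → Euc N} {r C r' Kr B w δ : ℝ} {PN : Euc N × Euc N → Wt N K →L[ℝ] Wt N K}
  {H₂ : Type} [NormedAddCommGroup H₂] [InnerProductSpace ℝ H₂] [FiniteDimensional ℝ H₂]
  {P₂ : Euc N × Euc N → H₂ →L[ℝ] H₂} {Rr : ℝ → H₂ →L[ℝ] H₂}
  {xi0 : Euc N × Euc N → H₂ →L[ℝ] Euc N} {δ₂ : ℝ} {ε ε₂ E₀ η : ℝ} {J : ℕ}
  {E : Type} [NormedAddCommGroup E] [NormedSpace ℝ E] [FiniteDimensional ℝ E]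
  {X : Set E} {φ : ℝ → E → E} {pi0 : E → Euc N × Euc N}

/-- `4π`-periodicity of the rotation -/
theorem XI.four (h : XI G P₂ Rr xi0 δ₂) (ν : H₂) : Rr (2 * (2 * π)) ν = ν := by
  rw [show 2 * (2 * π) = 2 * π + 2 * π by ring, h.add, h.anti, h.anti, neg_neg]

/-- the rotation in phase time -/
theorem XI.rep (h : XI G P₂ Rr xi0 δ₂) : Rep (fun t => Rr (2 * t)) where
  smooth := h.smR.comp (contDiff_const.mul contDiff_id)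
  zero ν := by rw [mul_zero]; exact h.zero ν
  add s t ν := by rw [mul_add]; exact h.add _ _ ν
  per ν := h.four ν
  iso t ν := h.iso _ ν


/-- an equivariant map to `US G` with the doubled flow -/
structure Eqm (G : Geo n N κ S) (X : Set E) (φ : ℝ → E → E) (pi0 : E → Euc N × Euc N) : Prop where
  smooth : ∀ x ∈ X, ContDiffAt ℝ ∞ pi0 x
  maps : ∀ x ∈ X, pi0 x ∈ L.US G
  eq : ∀ x ∈ X, ∀ t, pi0 (φ t x) = fl G (pi0 x, 2 * t)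

/-- forget down to `US G` -/
def Fg (pi0 : E → Euc N × Euc N) (p : (E × H₂) × Wt N K) : ((Euc N × Euc N) × H₂) × Wt N K :=
  ((pi0 p.1.1, p.1.2), p.2)

/-- the level two family over `X` -/
def f2x (G : Geo n N κ S) (lg : Euc N → Euc N → Euc N) (ρ : Euc N → Euc N) (w : ℝ) (J : ℕ)
    (xi0 : Euc N × Euc N → H₂ →L[ℝ] Euc N) (ε ε₂ : ℝ) (pi0 : E → Euc N × Euc N)
    (p : (E × H₂) × Wt N K) : Euc N := f2 G lg ρ w J xi0 ε ε₂ (Fg pi0 p)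

/-- the action on the total space -/
abbrev P2x (φ : ℝ → E → E) (N K : ℕ) (Rr : ℝ → H₂ →L[ℝ] H₂) : ℝ → (E × H₂) × Wt N K →
    (E × H₂) × Wt N K := phR (phR φ fun t => Rr (2 * t)) fun t => Rt (nuP K) (2 * t)

/-- the total space -/
abbrev TX (X : Set E) (pi0 : E → Euc N × Euc N)
    (P₂ : Euc N × Euc N → H₂ →L[ℝ] H₂) (PN : Euc N × Euc N → Wt N K →L[ℝ] Wt N K) :
    Set ((E × H₂) × Wt N K) := TP.TT X (fun x => P₂ (pi0 x)) (fun x => PN (pi0 x))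

theorem Eqm.Fg_mem (hm : Eqm G X φ pi0) {p : (E × H₂) × Wt N K} (hp : p ∈ TX X pi0 P₂ PN) :
    Fg pi0 p ∈ TP.TT (L.US G) P₂ PN := ⟨⟨hm.maps _ hp.1.1, hp.1.2⟩, hp.2⟩

theorem Eqm.Fg_P2x (hm : Eqm G X φ pi0) {p : (E × H₂) × Wt N K} (hp : p.1.1 ∈ X) (t : ℝ) :
    Fg pi0 (P2x φ N K Rr t p) = Ph2 G K Rr t (Fg pi0 p) := by
  unfold Fg Ph2
  exact Prod.ext (Prod.ext (hm.eq _ hp t) rfl) rfl

/-- cut-off for the natural primitive: `0` for `‖a‖² + ‖b‖² ≤ 1/4`, `1` for `≥ 1/2` -/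
def c2 (p : (E × H₂) × Wt N K) : ℝ := ct (1 / 4) (‖p.2‖ ^ 2 + ‖p.1.2‖ ^ 2)

theorem contDiff_c2 : ContDiff ℝ ∞ (c2 : (E × H₂) × Wt N K → ℝ) :=
  (contDiff_ct _).comp (((contDiff_norm_sq ℝ).comp contDiff_snd).add
    ((contDiff_norm_sq ℝ).comp (contDiff_snd.comp contDiff_fst)))

namespace D2

variable (h : D2 G k K lg ρ r C r' Kr B w δ PN ε J E₀ η P₂ Rr xi0 δ₂ ε₂)

include h


theorem fam_f2x (hm : Eqm G X φ pi0) :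
    Fam S (TX X pi0 P₂ PN) (f2x G lg ρ w J xi0 ε ε₂ pi0) := by
  refine ⟨fun p hp => ?_, fun p hp => h.f2_mem (hm.Fg_mem hp)⟩
  have h1 : ContDiffAt ℝ ∞ (Fg (H₂ := H₂) (K := K) pi0) p := by
    have h2 : ContDiffAt ℝ ∞ (fun p : (E × H₂) × Wt N K => pi0 p.1.1) p :=
      ContDiffAt.comp (g := pi0) p (hm.smooth _ hp.1.1) (by fun_prop)
    unfold Fg
    exact (h2.prodMk (by fun_prop)).prodMk contDiffAt_snd
  exact ContDiffAt.comp (g := f2 G lg ρ w J xi0 ε ε₂) p (h.contDiffAt_f2 (hm.Fg_mem hp)) h1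

theorem oc_f2x (hm : Eqm G X φ pi0) {p : (E × H₂) × Wt N K} (hp : p ∈ TX X pi0 P₂ PN) :
    oc (P2x φ N K Rr) (f2x G lg ρ w J xi0 ε ε₂ pi0) p =
      fun t => f2 G lg ρ w J xi0 ε ε₂ (Ph2 G K Rr t (Fg pi0 p)) := by
  funext t
  unfold oc f2x
  rw [hm.Fg_P2x hp.1.1]

theorem c2_inv (t : ℝ) (p : (E × H₂) × Wt N K) : c2 (P2x φ N K Rr t p) = c2 p := by
  unfold c2
  change ct (1 / 4) (‖Rt (nuP K) (2 * t) p.2‖ ^ 2 + ‖Rr (2 * t) p.1.2‖ ^ 2) = _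
  rw [norm_Rt, h.xi.iso]

/-- constant loops for `‖a‖² ≥ 5/4` -/
theorem f2x_const (hm : Eqm G X φ pi0) {p : (E × H₂) × Wt N K} (hp : p ∈ TX X pi0 P₂ PN)
    (h1 : 5 / 4 ≤ ‖p.2‖ ^ 2) (t : ℝ) : f2x G lg ρ w J xi0 ε ε₂ pi0 (P2x φ N K Rr t p) =
      f2x G lg ρ w J xi0 ε ε₂ pi0 p := by
  unfold f2x
  rw [hm.Fg_P2x hp.1.1]
  exact h.f2_const (hm.Fg_mem hp) h1 t


end D2

theorem c2_one {p : (E × H₂) × Wt N K} (h : 1 < ‖p.2‖ ∨ 1 < ‖p.1.2‖) : c2 p = 1 := by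
  unfold c2
  refine ct_one ?_
  rcases h with h | h
  · nlinarith [sq_nonneg ‖p.1.2‖]
  · nlinarith [sq_nonneg ‖p.2‖]

/-- the instance `X' = US G × S^{2l+1}` -/
theorem eqm_XX (l : ℕ) : Eqm G (HW.XX (L.US G) l) (HW.ph l (gf G)) Prod.fst where
  smooth x _ := contDiffAt_fst
  maps x hx := (HW.mem_XX.1 hx).1
  eq x _ t := rfl

end Crest.Agent.R208.FT
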