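import Crest.Agent.R208.KR8
import Crest.Agent.R208.NB8

/-!
R208, block KF (helper286 for helper844): equivariance, linearity and joint smoothness of the
tangent fields `xi G z (C1 h P z θ θ' a b)`.
-/

set_option autoImplicit false

open Set Filter Topology MeasureTheory Real Module
open scoped RealInnerProductSpace Interval ContDiff
open Crest.GeometryTopology.Submanifold
open Crest.Agent.R241.DDefs
open Crest.Agent.R241.D2
open Crest.Agent.R208.L (om TanTS dfl om_dfl)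
open Crest.Agent.R208.FI (Tan Sub)
open Crest.Agent.R208.NN (Wt nuP qq V0 fd fd' qf Rt ev ev')

noncomputable section

namespace Crest.Agent.R208.KR

variable {n N k K : ℕ} {κ : ℝ} {S : Set (Euc N)} {G : Geo n N κ S} {z ξ η : Euc N × Euc N}
  {h : GT.Bla G k} {P : Euc N × Euc N → Wt N K →L[ℝ] Wt N K} {θ θ' ρ c : ℝ → ℝ} {a b : Wt N K}

/-! ### equivariance for `θ = id` -/

/-- rotation by the half angle: new `a` -/
def na (s : ℝ) (a b : Wt N K) : Wt N K := cos (s / 2) • a + sin (s / 2) • b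

/-- rotation by the half angle: new `b` -/
def nb (s : ℝ) (a b : Wt N K) : Wt N K := -(sin (s / 2) • a) + cos (s / 2) • b

theorem Nt_add (a b : Wt N K) (r s : ℝ) : Nt a b (r + s) = Nt (na s a b) (nb s a b) r := by
  unfold Nt na nb
  have : (r + s) / 2 = r / 2 + s / 2 := by ring
  rw [this, cos_add, sin_add]
  module

theorem Nt_Rt (s : ℝ) (a b : Wt N K) (r : ℝ) :
    Nt (Rt (nuP K) s a) (Rt (nuP K) s b) r = Rt (nuP K) s (Nt a b r) := by
  unfold Nt; rw [map_add, map_smul, map_smul]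

/-- shift of the Jacobi field `J_r` along the flow -/
theorem dfl_Jr_shift (hz : z ∈ TS G) (r s : ℝ) (w : Wt N K) :
    dfl G z s (Jr h P z (r + s) w) = Jr h P (fl G (z, s)) r (Rt (nuP K) s w) := by
  rw [dfl_Jr hz, Jr_apply, ← fl_add' G hz, ← NN.Rt_add, add_comm s r]
  congr 2
  ring

theorem C1_shift (hz : z ∈ TS G) (a b : Wt N K) (r s : ℝ) :
    C1 h P (fl G (z, s)) (fun r => r) (fun _ => 1) (Rt (nuP K) s (na s a b))
      (Rt (nuP K) s (nb s a b)) r = dfl G z s (C1 h P z (fun r => r) (fun _ => 1) a b (r + s)) := by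
  unfold C1
  rw [one_smul, one_smul, dfl_Jr_shift hz, Nt_Rt, Nt_add]

theorem continuous_C1 (hP : NegB h K P) (hz : z ∈ L.US G) (hθ : Continuous θ)
    (hθ' : Continuous θ') (a b : Wt N K) : Continuous (C1 h P z θ θ' a b) :=
  hθ'.smul ((hP.continuous_Jr hz).clm_apply ((contDiff_Nt a b).continuous.comp hθ))

theorem int_C1_shift (hP : NegB h K P) (hz : z ∈ L.US G) (a b : Wt N K) (s t : ℝ) :
    ∫ r in (t - π)..t, C1 h P (fl G (z, s)) (fun r => r) (fun _ => 1) (Rt (nuP K) s (na s a b))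
      (Rt (nuP K) s (nb s a b)) r =
      dfl G z s (∫ r in (t + s - π)..(t + s), C1 h P z (fun r => r) (fun _ => 1) a b r) := by
  simp_rw [C1_shift hz.1]
  have hc : Continuous (C1 h P z (fun r => r) (fun _ => 1) a b) :=
    continuous_C1 hP hz continuous_id continuous_const a b
  rw [intervalIntegral.integral_comp_add_right
    (fun r => dfl G z s (C1 h P z (fun r => r) (fun _ => 1) a b r)),
    ContinuousLinearMap.intervalIntegral_comp_comm _ (hc.intervalIntegrable _ _)]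
  congr 2
  ring

/-- **equivariance** -/
theorem NegB.xi_shift (hP : NegB h K P) (hz : z ∈ L.US G) (a b : Wt N K) (s t : ℝ) :
    xi G (fl G (z, s)) (C1 h P (fl G (z, s)) (fun r => r) (fun _ => 1)
      (Rt (nuP K) s (na s a b)) (Rt (nuP K) s (nb s a b))) t =
      xi G z (C1 h P z (fun r => r) (fun _ => 1) a b) (t + s) := by
  unfold xi SV.jf
  rw [int_C1_shift hP hz, add_comm t s, dfl_add hz.1]


/-! ### linearity -/

/-- the operator valued integrals -/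
def Ic (h : GT.Bla G k) (P : Euc N × Euc N → Wt N K →L[ℝ] Wt N K) (θ θ' : ℝ → ℝ)
    (z : Euc N × Euc N) (t : ℝ) : Wt N K →L[ℝ] Euc N × Euc N :=
  ∫ r in (t - π)..t, (θ' r * cos (θ r / 2)) • Jr h P z r

def Is (h : GT.Bla G k) (P : Euc N × Euc N → Wt N K →L[ℝ] Wt N K) (θ θ' : ℝ → ℝ)
    (z : Euc N × Euc N) (t : ℝ) : Wt N K →L[ℝ] Euc N × Euc N :=
  ∫ r in (t - π)..t, (θ' r * sin (θ r / 2)) • Jr h P z r

theorem NegB.int_C1 (hP : NegB h K P) (hz : z ∈ L.US G) (hθ : Continuous θ)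
    (hθ' : Continuous θ') (a b : Wt N K) (t : ℝ) :
    ∫ r in (t - π)..t, C1 h P z θ θ' a b r = Ic h P θ θ' z t a + Is h P θ θ' z t b := by
  have hJ := hP.continuous_Jr hz
  have h1 : Continuous fun r => (θ' r * cos (θ r / 2)) • Jr h P z r :=
    (hθ'.mul (continuous_cos.comp (hθ.div_const 2))).smul hJ
  have h2 : Continuous fun r => (θ' r * sin (θ r / 2)) • Jr h P z r :=
    (hθ'.mul (continuous_sin.comp (hθ.div_const 2))).smul hJ
  have e1 : Ic h P θ θ' z t a = ∫ r in (t - π)..t, ((θ' r * cos (θ r / 2)) • Jr h P z r) a :=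
    (ContinuousLinearMap.intervalIntegral_apply (h1.intervalIntegrable _ _) a)
  have e2 : Is h P θ θ' z t b = ∫ r in (t - π)..t, ((θ' r * sin (θ r / 2)) • Jr h P z r) b :=
    (ContinuousLinearMap.intervalIntegral_apply (h2.intervalIntegrable _ _) b)
  rw [e1, e2, ← intervalIntegral.integral_add
    ((h1.clm_apply continuous_const).intervalIntegrable _ _)
    ((h2.clm_apply continuous_const).intervalIntegrable _ _)]
  refine intervalIntegral.integral_congr fun r _ => ?_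
  simp only [C1, Nt, map_add, map_smul, smul_add, smul_smul,
    smul_apply]

/-- **the fields `xi` as a continuous linear map of `(a,b)`** -/
def Xi (h : GT.Bla G k) (P : Euc N × Euc N → Wt N K →L[ℝ] Wt N K) (θ θ' : ℝ → ℝ)
    (z : Euc N × Euc N) (t : ℝ) : Wt N K × Wt N K →L[ℝ] Euc N :=
  (ContinuousLinearMap.fst ℝ (Euc N) (Euc N)).comp ((dfl G z t).comp
    ((Ic h P θ θ' z t).coprod (Is h P θ θ' z t)))

def Xi' (h : GT.Bla G k) (P : Euc N × Euc N → Wt N K →L[ℝ] Wt N K) (θ θ' : ℝ → ℝ)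
    (z : Euc N × Euc N) (t : ℝ) : Wt N K × Wt N K →L[ℝ] Euc N :=
  (ContinuousLinearMap.snd ℝ (Euc N) (Euc N)).comp ((dfl G z t).comp
    ((Ic h P θ θ' z t).coprod (Is h P θ θ' z t)))

theorem NegB.xi_eq (hP : NegB h K P) (hz : z ∈ L.US G) (hθ : Continuous θ)
    (hθ' : Continuous θ') (a b : Wt N K) (t : ℝ) :
    xi G z (C1 h P z θ θ' a b) t = Xi h P θ θ' z t (a, b) := by
  unfold xi SV.jf Xi
  rw [hP.int_C1 hz hθ hθ']
  rfl

theorem NegB.xi'_eq (hP : NegB h K P) (hz : z ∈ L.US G) (hθ : Continuous θ)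
    (hθ' : Continuous θ') (a b : Wt N K) (t : ℝ) :
    xi' G z (C1 h P z θ θ' a b) t = Xi' h P θ θ' z t (a, b) := by
  unfold xi' SV.jf' Xi'
  rw [hP.int_C1 hz hθ hθ']
  rfl

/-! ### joint smoothness -/

section smooth

variable {E : Type} [NormedAddCommGroup E] [NormedSpace ℝ E] [FiniteDimensional ℝ E]
  {Th Th' : E → ℝ → ℝ} {s₀ : E}

theorem contDiffAt_win {H : Type} [NormedAddCommGroup H] [NormedSpace ℝ H] {g : E × ℝ → H}
    {τ : E → ℝ} {x : E} (hτ : ContDiffAt ℝ ∞ τ x)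
    (hg : ∀ r ∈ Icc (τ x - π) (τ x), ContDiffAt ℝ ∞ g (x, r)) :
    ContDiffAt ℝ ∞ (fun x => ∫ r in (τ x - π)..(τ x), g (x, r)) x := by
  have h1 : ContDiffAt ℝ ∞ (fun x => ∫ r in (0:ℝ)..π, g (x, τ x - π + r)) x := by
    refine NB.contDiffAt_int (g := fun p : E × ℝ => g (p.1, τ p.1 - π + p.2)) pi_pos.le
      fun t ht => ?_
    have h2 : ContDiffAt ℝ ∞ (fun p : E × ℝ => (p.1, τ p.1 - π + p.2)) (x, t) := by
      have h3 : ContDiffAt ℝ ∞ (fun p : E × ℝ => τ p.1) (x, t) :=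
        ContDiffAt.comp (x, t) (g := τ) hτ contDiffAt_fst
      exact contDiffAt_fst.prodMk ((h3.sub contDiffAt_const).add contDiffAt_snd)
    exact ContDiffAt.comp (x, t) (g := g) (hg _ ⟨by linarith [ht.1], by linarith [ht.2]⟩) h2
  have e1 : (fun x => ∫ r in (τ x - π)..(τ x), g (x, r)) =
      fun x => ∫ r in (0:ℝ)..π, g (x, τ x - π + r) := by
    funext y
    rw [intervalIntegral.integral_comp_add_left (fun r => g (y, r)) (τ y - π)]
    congr 1 <;> ring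
  rw [e1]
  exact h1

/-- the parameter space: `((z, s), t)` -/
theorem NegB.contDiffAt_Ic (hP : NegB h K P) (hz : z ∈ L.US G)
    (hTh : ∀ r, ContDiffAt ℝ ∞ (fun p : E × ℝ => Th p.1 p.2) (s₀, r))
    (hTh' : ∀ r, ContDiffAt ℝ ∞ (fun p : E × ℝ => Th' p.1 p.2) (s₀, r)) (t : ℝ) :
    ContDiffAt ℝ ∞ (fun q : ((Euc N × Euc N) × E) × ℝ => Ic h P (Th q.1.2) (Th' q.1.2) q.1.1 q.2)
      ((z, s₀), t) := by
  unfold Ic
  refine contDiffAt_win (E := ((Euc N × Euc N) × E) × ℝ) (τ := fun q => q.2)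
    (g := fun q : (((Euc N × Euc N) × E) × ℝ) × ℝ =>
      (Th' q.1.1.2 q.2 * cos (Th q.1.1.2 q.2 / 2)) • Jr h P q.1.1.1 q.2)
    (x := ((z, s₀), t)) contDiffAt_snd fun r _ => ?_
  have a1 : ContDiffAt ℝ ∞ (fun q : (((Euc N × Euc N) × E) × ℝ) × ℝ => (q.1.1.2, q.2))
      (((z, s₀), t), r) := by fun_prop
  have a2 : ContDiffAt ℝ ∞ (fun q : (((Euc N × Euc N) × E) × ℝ) × ℝ => (q.1.1.1, q.2))
      (((z, s₀), t), r) := by fun_prop
  have a3 := ContDiffAt.comp (((z, s₀), t), r) (g := fun p : E × ℝ => Th p.1 p.2) (hTh r) a1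
  have a4 := ContDiffAt.comp (((z, s₀), t), r) (g := fun p : E × ℝ => Th' p.1 p.2) (hTh' r) a1
  have a5 := ContDiffAt.comp (((z, s₀), t), r)
    (g := fun p : (Euc N × Euc N) × ℝ => Jr h P p.1 p.2) (hP.contDiffAt_Jr hz r) a2
  exact (a4.mul (contDiff_cos.contDiffAt.comp _ (a3.div_const 2))).smul a5

theorem NegB.contDiffAt_Is (hP : NegB h K P) (hz : z ∈ L.US G)
    (hTh : ∀ r, ContDiffAt ℝ ∞ (fun p : E × ℝ => Th p.1 p.2) (s₀, r))
    (hTh' : ∀ r, ContDiffAt ℝ ∞ (fun p : E × ℝ => Th' p.1 p.2) (s₀, r)) (t : ℝ) :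
    ContDiffAt ℝ ∞ (fun q : ((Euc N × Euc N) × E) × ℝ => Is h P (Th q.1.2) (Th' q.1.2) q.1.1 q.2)
      ((z, s₀), t) := by
  unfold Is
  refine contDiffAt_win (E := ((Euc N × Euc N) × E) × ℝ) (τ := fun q => q.2)
    (g := fun q : (((Euc N × Euc N) × E) × ℝ) × ℝ =>
      (Th' q.1.1.2 q.2 * sin (Th q.1.1.2 q.2 / 2)) • Jr h P q.1.1.1 q.2)
    (x := ((z, s₀), t)) contDiffAt_snd fun r _ => ?_
  have a1 : ContDiffAt ℝ ∞ (fun q : (((Euc N × Euc N) × E) × ℝ) × ℝ => (q.1.1.2, q.2))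
      (((z, s₀), t), r) := by fun_prop
  have a2 : ContDiffAt ℝ ∞ (fun q : (((Euc N × Euc N) × E) × ℝ) × ℝ => (q.1.1.1, q.2))
      (((z, s₀), t), r) := by fun_prop
  have a3 := ContDiffAt.comp (((z, s₀), t), r) (g := fun p : E × ℝ => Th p.1 p.2) (hTh r) a1
  have a4 := ContDiffAt.comp (((z, s₀), t), r) (g := fun p : E × ℝ => Th' p.1 p.2) (hTh' r) a1
  have a5 := ContDiffAt.comp (((z, s₀), t), r)
    (g := fun p : (Euc N × Euc N) × ℝ => Jr h P p.1 p.2) (hP.contDiffAt_Jr hz r) a2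
  exact (a4.mul (contDiff_sin.contDiffAt.comp _ (a3.div_const 2))).smul a5

/-- **joint smoothness of `Xi`** -/
theorem NegB.contDiffAt_Xi (hP : NegB h K P) (hz : z ∈ L.US G)
    (hTh : ∀ r, ContDiffAt ℝ ∞ (fun p : E × ℝ => Th p.1 p.2) (s₀, r))
    (hTh' : ∀ r, ContDiffAt ℝ ∞ (fun p : E × ℝ => Th' p.1 p.2) (s₀, r)) (t : ℝ) :
    ContDiffAt ℝ ∞ (fun q : ((Euc N × Euc N) × E) × ℝ => Xi h P (Th q.1.2) (Th' q.1.2) q.1.1 q.2)
      ((z, s₀), t) := by
  unfold Xi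
  have h1 := hP.contDiffAt_Ic hz hTh hTh' t
  have h2 := hP.contDiffAt_Is hz hTh hTh' t
  have h3 : ContDiffAt ℝ ∞ (fun q : ((Euc N × Euc N) × E) × ℝ => dfl G q.1.1 q.2)
      ((z, s₀), t) := by
    have a1 : ContDiffAt ℝ ∞ (fun q : ((Euc N × Euc N) × E) × ℝ => (q.1.1, q.2))
      ((z, s₀), t) := by fun_prop
    exact ContDiffAt.comp ((z, s₀), t) (g := fun p : (Euc N × Euc N) × ℝ => dfl G p.1 p.2)
      (contDiffAt_dfl hz.1 t) a1
  have h4 : ContDiffAt ℝ ∞ (fun q : ((Euc N × Euc N) × E) × ℝ =>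
      (Ic h P (Th q.1.2) (Th' q.1.2) q.1.1 q.2).coprod
        (Is h P (Th q.1.2) (Th' q.1.2) q.1.1 q.2)) ((z, s₀), t) := by
    have e : (fun q : ((Euc N × Euc N) × E) × ℝ =>
      (Ic h P (Th q.1.2) (Th' q.1.2) q.1.1 q.2).coprod
        (Is h P (Th q.1.2) (Th' q.1.2) q.1.1 q.2)) = fun q =>
        (Ic h P (Th q.1.2) (Th' q.1.2) q.1.1 q.2).comp
          (ContinuousLinearMap.fst ℝ (Wt N K) (Wt N K)) +
        (Is h P (Th q.1.2) (Th' q.1.2) q.1.1 q.2).comp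
          (ContinuousLinearMap.snd ℝ (Wt N K) (Wt N K)) := by
      funext q; rfl
    rw [e]
    exact (h1.clm_comp contDiffAt_const).add (h2.clm_comp contDiffAt_const)
  exact contDiffAt_const.clm_comp (h3.clm_comp h4)

theorem NegB.contDiffAt_Xi' (hP : NegB h K P) (hz : z ∈ L.US G)
    (hTh : ∀ r, ContDiffAt ℝ ∞ (fun p : E × ℝ => Th p.1 p.2) (s₀, r))
    (hTh' : ∀ r, ContDiffAt ℝ ∞ (fun p : E × ℝ => Th' p.1 p.2) (s₀, r)) (t : ℝ) :
    ContDiffAt ℝ ∞ (fun q : ((Euc N × Euc N) × E) × ℝ => Xi' h P (Th q.1.2) (Th' q.1.2) q.1.1 q.2)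
      ((z, s₀), t) := by
  unfold Xi'
  have h1 := hP.contDiffAt_Ic hz hTh hTh' t
  have h2 := hP.contDiffAt_Is hz hTh hTh' t
  have h3 : ContDiffAt ℝ ∞ (fun q : ((Euc N × Euc N) × E) × ℝ => dfl G q.1.1 q.2)
      ((z, s₀), t) := by
    have a1 : ContDiffAt ℝ ∞ (fun q : ((Euc N × Euc N) × E) × ℝ => (q.1.1, q.2))
      ((z, s₀), t) := by fun_prop
    exact ContDiffAt.comp ((z, s₀), t) (g := fun p : (Euc N × Euc N) × ℝ => dfl G p.1 p.2)
      (contDiffAt_dfl hz.1 t) a1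
  have h4 : ContDiffAt ℝ ∞ (fun q : ((Euc N × Euc N) × E) × ℝ =>
      (Ic h P (Th q.1.2) (Th' q.1.2) q.1.1 q.2).coprod
        (Is h P (Th q.1.2) (Th' q.1.2) q.1.1 q.2)) ((z, s₀), t) := by
    have e : (fun q : ((Euc N × Euc N) × E) × ℝ =>
      (Ic h P (Th q.1.2) (Th' q.1.2) q.1.1 q.2).coprod
        (Is h P (Th q.1.2) (Th' q.1.2) q.1.1 q.2)) = fun q =>
        (Ic h P (Th q.1.2) (Th' q.1.2) q.1.1 q.2).comp
          (ContinuousLinearMap.fst ℝ (Wt N K) (Wt N K)) +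
        (Is h P (Th q.1.2) (Th' q.1.2) q.1.1 q.2).comp
          (ContinuousLinearMap.snd ℝ (Wt N K) (Wt N K)) := by
      funext q; rfl
    rw [e]
    exact (h1.clm_comp contDiffAt_const).add (h2.clm_comp contDiffAt_const)
  exact contDiffAt_const.clm_comp (h3.clm_comp h4)

end smooth

end Crest.Agent.R208.KR
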