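import Crest.Agent.R208.FT1
import Crest.Agent.R208.KR8
import Crest.Agent.R208.KRa286
import Crest.Agent.R208.DD3
import Crest.Agent.R208.FT4

-- ▼ part R208/FT2
section

/-!
R208, (8,2), block F2 (helper286 for helper336), part FT2: the uniform energy bound of the level two
loops `ρ(γ + ε fd w + b ξ_ν)` on `[0, 4π]`.
-/

set_option autoImplicit false
set_option linter.unusedSectionVars false

open Set Filter Topology MeasureTheory
open scoped ContDiff RealInnerProductSpace Real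
open Crest.GeometryTopology.Submanifold
open Crest.Agent.R241.DDefs Crest.Agent.R241.D Crest.Agent.R241.D2

noncomputable section

namespace Crest.Agent.R208.FT

open Crest.Agent.R208.SV Crest.Agent.R208.MS Crest.Agent.R208.NN Crest.Agent.R208.FL

variable {n N K k : ℕ} {κ : ℝ} {S : Set (Euc N)} {G : Geo n N κ S} {ρ : Euc N → Euc N}
  {r' Kr δ δ₂ : ℝ} {PN : Euc N × Euc N → Wt N K →L[ℝ] Wt N K}
  {H₂ : Type*} [NormedAddCommGroup H₂] [InnerProductSpace ℝ H₂]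
  {P₂ : Euc N × Euc N → H₂ →L[ℝ] H₂} {Rr : ℝ → H₂ →L[ℝ] H₂}
  {xi0 : Euc N × Euc N → H₂ →L[ℝ] Euc N} {z : Euc N × Euc N}

theorem contDiff_fd_t (hz : z ∈ TS G) (ν : Fin K → ℝ) (w : Wt N K) :
    ContDiff ℝ ∞ (NN.fd G z ν w) := by
  rw [contDiff_iff_contDiffAt]
  intro t
  have h1 := (NB.contDiffAt_fd (ν := ν) hz w t).1
  exact ContDiffAt.comp t (g := fun p : ((Euc N × Euc N) × Wt N K) × ℝ => NN.fd G p.1.1 ν p.1.2 p.2)
    (f := fun t : ℝ => ((z, w), t)) h1 (contDiffAt_const.prodMk contDiffAt_id)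

theorem fd_per (h : GT.Bla G k) (hz : z ∈ L.US G) (w : Wt N K) (t : ℝ) :
    NN.fd G z (nuP K) w (t + 2 * π) = NN.fd G z (nuP K) w t := by
  unfold NN.fd
  rw [AK.fl_add_two_pi hz.1 (NN.fl_two_pi h hz), NN.ev_two_pi]

theorem int_geod (hz : z ∈ L.US G) (hR : Retr S ρ r' Kr) (L : ℝ) :
    ∫ t in (0:ℝ)..L, ‖deriv (fun t => ρ ((fl G (z, t)).1 + (0 : Euc N))) t‖ ^ 2 = L := by
  have h1 : (fun t => ρ ((fl G (z, t)).1 + (0 : Euc N))) = fun t => (fl G (z, t)).1 := by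
    funext t
    rw [add_zero, hR.eq _ (fl_mem G hz.1 t).1]
  have h2 : ∀ t, deriv (fun t => (fl G (z, t)).1) t = (fl G (z, t)).2 := fun t =>
    (hda_fst (hasDerivAt_fl G (complete G hz.1 t))).deriv
  rw [h1]
  simp only [h2, norm_fl G hz.1, hz.2]
  simp

set_option maxHeartbeats 1600000 in
/-- **uniform energy bound at level two** -/
theorem exists_energy (h : GT.Bla G k) (hR : Retr S ρ r' Kr) (hP : ∀ x ∈ S, fderiv ℝ ρ x = G.P x)
    (hN : NB.NegB G (k - 1) (nuP K) δ PN) (hX : XI G P₂ Rr xi0 δ₂) :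
    ∃ ε₀ > 0, ∀ ε b : ℝ, 0 < ε → ε ≤ ε₀ → ∀ z ∈ L.US G, ∀ w, PN z w = w → ‖w‖ ≤ 1 →
      ∀ ν, P₂ z ν = ν → 0 ≤ b → b * ‖ν‖ ≤ ε₀ →
      (∀ t, ‖ε • NN.fd G z (nuP K) w t + b • xf G Rr xi0 z ν t‖ < r' / 2) ∧
      ∫ t in (0:ℝ)..(4 * π), ‖deriv (fun t => ρ ((fl G (z, t)).1 +
        (ε • NN.fd G z (nuP K) w t + b • xf G Rr xi0 z ν t))) t‖ ^ 2 ≤
        4 * π - min δ δ₂ * (ε ^ 2 * ‖w‖ ^ 2 + b ^ 2 * ‖ν‖ ^ 2) := by
  have hpi := Real.pi_pos
  have hc := h.bl.cpt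
  obtain ⟨Cf, hCf0, hCf⟩ := NB.exists_bound_fd hc G (nuP K)
  obtain ⟨Cx, hCx0, hCx⟩ := hX.exists_bound hc
  have hr' := hR.r_pos
  set m : ℝ := r' / 4 with hm
  have hm0 : 0 < m := by positivity
  obtain ⟨C₀, hC₀0, hC₀⟩ := exists_rho_core hR hP hc (m := m) hm0.le (by linarith)
  have hδ := hN.pos_δ
  have hδ₂ := hX.pos
  set μ := min δ δ₂ with hμ
  have hμ0 : 0 < μ := lt_min hδ hδ₂
  set M : ℝ := Cf + Cx + 1 with hM
  have hM0 : 0 < M := by positivity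
  set Q₀ : ℝ := C₀ * (4 * π) * M ^ 3 / m ^ 3 with hQ₀
  have hQ₀0 : 0 ≤ Q₀ := by positivity
  set ε₀ : ℝ := min (m / (2 * M)) (μ / (4 * Q₀ + 1)) with hε₀
  have hε₀0 : 0 < ε₀ := lt_min (by positivity) (by positivity)
  refine ⟨ε₀, hε₀0, fun ε b hε hεε₀ z hz w hw hw1 ν hν hb hbε₀ => ?_⟩
  set a : ℝ := ε * ‖w‖ + b * ‖ν‖ with ha
  have ha0 : 0 ≤ a := by positivity
  have ha2 : a ≤ 2 * ε₀ := by
    have : ε * ‖w‖ ≤ ε₀ := by
      calc ε * ‖w‖ ≤ ε * 1 := mul_le_mul_of_nonneg_left hw1 hε.le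
        _ ≤ ε₀ := by linarith
    linarith
  have h2M : 2 * ε₀ * M ≤ m := by
    have := min_le_left (m / (2 * M)) (μ / (4 * Q₀ + 1))
    rw [← hε₀, le_div_iff₀ (by positivity)] at this
    linarith
  have haM : a * M ≤ m := (mul_le_mul_of_nonneg_right ha2 hM0.le).trans h2M
  -- the two fields
  set A : ℝ → Euc N := fun t => ε • NN.fd G z (nuP K) w t with hA
  set B : ℝ → Euc N := fun t => b • xf G Rr xi0 z ν t with hB
  have hAs : ContDiff ℝ ∞ A := (contDiff_fd_t hz.1 (nuP K) w).const_smul ε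
  have hBs : ContDiff ℝ ∞ B := (hX.contDiff_xf hz ν).const_smul b
  have hAm : ∀ t, A t ∈ G.T (fl G (z, t)).1 := fun t =>
    Submodule.smul_mem _ _ (NN.fd_mem hz.1 _ _ _)
  have hBm : ∀ t, B t ∈ G.T (fl G (z, t)).1 := fun t =>
    Submodule.smul_mem _ _ (hX.xf_mem hz hν t)
  have hAp : ∀ t, A (t + 2 * π) = (1:ℝ) • A t := fun t => by
    simp only [hA, fd_per h hz, one_smul]
  have hfl2 : fl G (z, 2 * π) = z := NN.fl_two_pi h hz
  have hBp : ∀ t, B (t + 2 * π) = (-1:ℝ) • B t := fun t => by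
    simp only [hB, hX.xf_anti hfl2 hz, smul_neg, neg_smul, one_smul]
  have dA : ∀ t, HasDerivAt A (ε • NN.fd' G z (nuP K) w t) t := fun t =>
    (NN.hasDerivAt_fd hz.1 _ _ _).const_smul ε
  have dB : ∀ t, HasDerivAt B (b • deriv (xf G Rr xi0 z ν) t) t := fun t =>
    (((hX.contDiff_xf hz ν).differentiable (by simp)) t).hasDerivAt.const_smul b
  set F : ℝ → Euc N := fun t => B t + A t with hF
  set F' : ℝ → Euc N := fun t => b • deriv (xf G Rr xi0 z ν) t + ε • NN.fd' G z (nuP K) w t with hF'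
  have dF : ∀ t, HasDerivAt F (F' t) t := fun t => (dB t).add (dA t)
  have hFm : ∀ t, F t ∈ G.T (fl G (z, t)).1 := fun t => Submodule.add_mem _ (hBm t) (hAm t)
  have hF'c : Continuous F' :=
    (((hX.contDiff_xf hz ν).continuous_deriv (by simp)).const_smul b).add
      ((NN.continuous_fd' hz.1 (nuP K) w).const_smul ε)
  have hFb : ∀ t, ‖F t‖ ≤ a * M ∧ ‖F' t‖ ≤ a * M := by
    intro t
    have h1 := hCf z hz w t
    have h2 := hCx z hz ν t
    have nw := norm_nonneg w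
    have nν := norm_nonneg ν
    have e0 : ε * (Cf * ‖w‖) + b * (Cx * ‖ν‖) ≤ a * M := by
      have e1 : ε * (Cf * ‖w‖) ≤ (ε * ‖w‖) * M := by
        have : (ε * ‖w‖) * Cf ≤ (ε * ‖w‖) * M :=
          mul_le_mul_of_nonneg_left (by linarith) (by positivity)
        linarith
      have e2 : b * (Cx * ‖ν‖) ≤ (b * ‖ν‖) * M := by
        have : (b * ‖ν‖) * Cx ≤ (b * ‖ν‖) * M :=
          mul_le_mul_of_nonneg_left (by linarith) (by positivity)
        linarith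
      have e3 : a * M = (ε * ‖w‖) * M + (b * ‖ν‖) * M := by rw [ha]; ring
      linarith
    constructor
    · refine (norm_add_le _ _).trans ?_
      simp only [hA, hB, norm_smul, Real.norm_of_nonneg hε.le, Real.norm_of_nonneg hb]
      have e1 := mul_le_mul_of_nonneg_left h1.1 hε.le
      have e2 := mul_le_mul_of_nonneg_left h2.1 hb
      linarith
    · refine (norm_add_le _ _).trans ?_
      simp only [norm_smul, Real.norm_of_nonneg hε.le, Real.norm_of_nonneg hb]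
      have e1 := mul_le_mul_of_nonneg_left h1.2.1 hε.le
      have e2 := mul_le_mul_of_nonneg_left h2.2 hb
      linarith
  have hfun : (fun t => ρ ((fl G (z, t)).1 + (ε • NN.fd G z (nuP K) w t +
      b • xf G Rr xi0 z ν t))) = fun t => ρ ((fl G (z, t)).1 + F t) := by
    funext t
    simp only [hF, hA, hB]
    rw [add_comm (b • xf G Rr xi0 z ν t)]
  constructor
  · intro t
    have e1 := (hFb t).1
    have e2 : ε • NN.fd G z (nuP K) w t + b • xf G Rr xi0 z ν t = F t := by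
      simp only [hF, hA, hB]; rw [add_comm]
    rw [e2]
    have : m < r' / 2 := by rw [hm]; linarith
    linarith
  rw [hfun]
  set Q := ε ^ 2 * ‖w‖ ^ 2 + b ^ 2 * ‖ν‖ ^ 2 with hQ
  have hQ0 : 0 ≤ Q := by positivity
  have haQ : a ^ 2 ≤ 2 * Q := by
    rw [ha, hQ]; nlinarith [sq_nonneg (ε * ‖w‖ - b * ‖ν‖)]
  rcases ha0.eq_or_lt with h0 | h0
  · -- the geodesic
    have hF0 : ∀ t, F t = 0 := fun t => by
      have := (hFb t).1
      rw [← h0, zero_mul] at this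
      exact norm_le_zero_iff.1 this
    have hQz : Q = 0 := by
      have e1 : ε * ‖w‖ = 0 := by
        have : 0 ≤ b * ‖ν‖ := by positivity
        have : 0 ≤ ε * ‖w‖ := by positivity
        linarith
      have e2 : b * ‖ν‖ = 0 := by linarith
      have e3 : Q = (ε * ‖w‖) ^ 2 + (b * ‖ν‖) ^ 2 := by rw [hQ]; ring
      rw [e3, e1, e2]; ring
    simp only [hF0]
    rw [int_geod hz hR, hQz]
    linarith
  -- the general case
  set s : ℝ := a * M / m with hs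
  have hs0 : 0 < s := by positivity
  have hs1 : s ≤ 1 := by rw [hs, div_le_one hm0]; exact haM
  have hsinv : s * s⁻¹ = 1 := mul_inv_cancel₀ hs0.ne'
  have hsm : s⁻¹ * (a * M) = m := by
    rw [hs]; field_simp
  have hfl4 : fl G (z, 4 * π) = z := by
    have : (4:ℝ) * π = 2 * π + 2 * π := by ring
    rw [this, AK.fl_add_two_pi hz.1 hfl2, hfl2]
  have hF4 : F (4 * π) = F 0 := by
    have e1 : (4:ℝ) * π = (0 + 2 * π) + 2 * π := by ring
    have e2 : B (4 * π) = B 0 := by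
      rw [e1, hBp, hBp, smul_smul, neg_one_mul, neg_neg, one_smul]
    have e3 : A (4 * π) = A 0 := by rw [e1, hAp, hAp, one_smul, one_smul]
    change B (4 * π) + A (4 * π) = B 0 + A 0
    rw [e2, e3]
  have hfld : Fld G z (-1) (4 * π + 1) (s⁻¹ • F) (s⁻¹ • F') :=
    ⟨fun t _ => ((dF t).const_smul s⁻¹).hasDerivWithinAt,
      (hF'c.const_smul s⁻¹).continuousOn, fun t _ => Submodule.smul_mem _ _ (hFm t)⟩
  have hbm : ∀ t, ‖(s⁻¹ • F) t‖ ≤ m ∧ ‖(s⁻¹ • F') t‖ ≤ m := by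
    intro t
    have hsi : 0 ≤ s⁻¹ := by positivity
    rw [Pi.smul_apply, Pi.smul_apply, norm_smul, norm_smul, Real.norm_of_nonneg hsi, ← hsm]
    exact ⟨mul_le_mul_of_nonneg_left (hFb t).1 hsi, mul_le_mul_of_nonneg_left (hFb t).2 hsi⟩
  have key := hC₀ z hz.1 hz.2 (4 * π) (s⁻¹ • F) (s⁻¹ • F') hfld (by positivity) hfl4
    (by rw [Pi.smul_apply, Pi.smul_apply, hF4]) (fun t _ => (hbm t).1) (fun t _ => (hbm t).2)
    s ⟨hs0.le, hs1⟩
  have hfun2 : (fun t => ρ ((fl G (z, t)).1 + s • (s⁻¹ • F) t)) =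
      fun t => ρ ((fl G (z, t)).1 + F t) := by
    funext t
    rw [Pi.smul_apply, smul_smul, hsinv, one_smul]
  rw [hfun2, ix_smul_left, ix_smul_right] at key
  have hF'eq : F' = deriv fun t => B t + A t := by
    funext t; exact (dF t).deriv.symm
  have hix : ix G z 0 (4 * π) F F' F F' ≤ -(2 * μ * Q) := by
    rw [hF'eq, hF]
    rw [AK.ix_double hz.1 hfl2 hAs hBs hAm hBm hAp hBp]
    have e1 : A = ε • NN.fd G z (nuP K) w := rfl
    have e2 : B = b • xf G Rr xi0 z ν := rfl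
    have e3 : deriv A = ε • NN.fd' G z (nuP K) w := funext fun t => (dA t).deriv
    have e4 : deriv B = b • deriv (xf G Rr xi0 z ν) := funext fun t => (dB t).deriv
    rw [e3, e4, e1, e2, ix_smul_left, ix_smul_right, ix_smul_left, ix_smul_right]
    have n1 := hX.neg z hz ν hν
    have n2 := (NN.qf_ge G z (nuP K) w).trans (hN.neg z hz w hw)
    have n3 : b * (b * ix G z 0 (2 * π) (xf G Rr xi0 z ν) (deriv (xf G Rr xi0 z ν))
        (xf G Rr xi0 z ν) (deriv (xf G Rr xi0 z ν))) ≤ -(μ * (b ^ 2 * ‖ν‖ ^ 2)) := by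
      have k1 : b ^ 2 * ix G z 0 (2 * π) (xf G Rr xi0 z ν) (deriv (xf G Rr xi0 z ν))
        (xf G Rr xi0 z ν) (deriv (xf G Rr xi0 z ν)) ≤ b ^ 2 * -(δ₂ * ‖ν‖ ^ 2) :=
        mul_le_mul_of_nonneg_left n1 (by positivity)
      have k2 : μ * (b ^ 2 * ‖ν‖ ^ 2) ≤ δ₂ * (b ^ 2 * ‖ν‖ ^ 2) :=
        mul_le_mul_of_nonneg_right (min_le_right _ _) (by positivity)
      linarith
    have n4 : ε * (ε * ix G z 0 (2 * π) (NN.fd G z (nuP K) w) (NN.fd' G z (nuP K) w)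
        (NN.fd G z (nuP K) w) (NN.fd' G z (nuP K) w)) ≤ -(μ * (ε ^ 2 * ‖w‖ ^ 2)) := by
      have k1 : ε ^ 2 * ix G z 0 (2 * π) (NN.fd G z (nuP K) w) (NN.fd' G z (nuP K) w)
        (NN.fd G z (nuP K) w) (NN.fd' G z (nuP K) w) ≤ ε ^ 2 * -(δ * ‖w‖ ^ 2) :=
        mul_le_mul_of_nonneg_left n2 (by positivity)
      have k2 : μ * (ε ^ 2 * ‖w‖ ^ 2) ≤ δ * (ε ^ 2 * ‖w‖ ^ 2) :=
        mul_le_mul_of_nonneg_right (min_le_left _ _) (by positivity)
      linarith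
    have n5 : -(2 * μ * Q) = 2 * -(μ * (b ^ 2 * ‖ν‖ ^ 2)) + 2 * -(μ * (ε ^ 2 * ‖w‖ ^ 2)) := by
      rw [hQ]; ring
    rw [n5]
    exact add_le_add (mul_le_mul_of_nonneg_left n3 zero_le_two)
      (mul_le_mul_of_nonneg_left n4 zero_le_two)
  have hs2 : s ^ 2 * (s⁻¹ * (s⁻¹ * ix G z 0 (4 * π) F F' F F')) =
      ix G z 0 (4 * π) F F' F F' := by
    have : s ^ 2 * (s⁻¹ * (s⁻¹ * ix G z 0 (4 * π) F F' F F')) =
      (s * s⁻¹) ^ 2 * ix G z 0 (4 * π) F F' F F' := by ring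
    rw [this, hsinv]; ring
  rw [hs2] at key
  have hcub : C₀ * s ^ 3 * (4 * π) ≤ μ * Q := by
    have h5 : C₀ * s ^ 3 * (4 * π) = Q₀ * a * a ^ 2 := by
      rw [hs, hQ₀]; field_simp
    have h6 : Q₀ * a ≤ μ / 2 := by
      have h7 := min_le_right (m / (2 * M)) (μ / (4 * Q₀ + 1))
      rw [← hε₀, le_div_iff₀ (by positivity)] at h7
      have h8 : Q₀ * a ≤ Q₀ * (2 * ε₀) := mul_le_mul_of_nonneg_left ha2 hQ₀0
      nlinarith
    rw [h5]
    calc Q₀ * a * a ^ 2 ≤ μ / 2 * (2 * Q) := mul_le_mul h6 haQ (by positivity) (by positivity)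
      _ = μ * Q := by ring
  linarith

end Crest.Agent.R208.FT
end
end

-- ▼ part R208/KR9
section

/-!
R208, block KF (helper844), file KR9: the hypotheses from the negative bundle of helper537,
linearity, antiperiodicity, `J_{r+π} = -J_r`, equivariance.
-/

set_option autoImplicit false

open Set Filter Topology MeasureTheory Real Module
open scoped RealInnerProductSpace Interval ContDiff
open Crest.GeometryTopology.Submanifold
open Crest.Agent.R241.DDefs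
open Crest.Agent.R241.D2
open Crest.Agent.R208.L (om TanTS dfl om_dfl)
open Crest.Agent.R208.FI (Tan Sub)
open Crest.Agent.R208.NN (Wt nuP qq V0 fd fd' qf Rt ev ev')

noncomputable section

namespace Crest.Agent.R208.KR

variable {n N k K : ℕ} {κ : ℝ} {S : Set (Euc N)} {G : Geo n N κ S} {z ξ η : Euc N × Euc N}
  {h : GT.Bla G k} {P : Euc N × Euc N → Wt N K →L[ℝ] Wt N K} {θ θ' ρ c : ℝ → ℝ}
  {a b a' b' : Wt N K}

/-- the hypotheses from the negative bundle of the block [N] -/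
theorem NegB.of_NB (h : GT.Bla G k) {δ : ℝ} (H : NB.NegB G (k - 1) (nuP K) δ P) :
    NegB h K P where
  smooth := H.smooth
  idem := fun z _ w => H.idem z w
  symm := fun z _ w w' => H.sy z w w'
  equi := H.equi
  rank := fun z hz => by
    have h1 := NN.finrank_V0 h hz
    rw [H.rank z hz]; omega
  neg := fun z hz w hw hw0 => by
    refine (H.neg z hz w hw).trans_lt ?_
    have h1 : 0 < ‖w‖ := norm_pos_iff.2 hw0
    have h2 := H.pos_δ
    have : 0 < δ * ‖w‖ ^ 2 := by positivity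
    linarith

/-! ### linearity -/


theorem Nt_smul (r : ℝ) (a b : Wt N K) (t : ℝ) : Nt (r • a) (r • b) t = r • Nt a b t := by
  unfold Nt; module


theorem C1_smul (z : Euc N × Euc N) (s : ℝ) (a b : Wt N K) (r : ℝ) :
    C1 h P z θ θ' (s • a) (s • b) r = s • C1 h P z θ θ' a b r := by
  unfold C1; rw [Nt_smul, map_smul, smul_comm]

theorem NegB.crv9 (hP : NegB h K P) (hz : z ∈ L.US G) (hθ : Ang θ θ') (a b : Wt N K) :
    Crv G z (C1 h P z θ θ' a b) := by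
  rw [C1_eq]; exact hP.crv hz hθ continuous_const

theorem NegB.C1_per9 (hP : NegB h K P) (hz : z ∈ L.US G) (hθ : Ang θ θ') (a b : Wt N K) (r : ℝ) :
    C1 h P z θ θ' a b (r + 2 * π) = (-1 : ℝ) • C1 h P z θ θ' a b r := by
  rw [C1_eq]
  have := hP.Cc_per (a := a) (b := b) (c := fun _ => 1) hz hθ (σ := 1) (fun _ => by ring) r
  exact this

/-- the field is a global antiperiodic `C¹` tangent field -/
theorem NegB.gf_xi (hP : NegB h K P) (hz : z ∈ L.US G) (hθ : Ang θ θ') (a b : Wt N K) :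
    GF G z (-1) (xi G z (C1 h P z θ θ' a b)) (xi' G z (C1 h P z θ θ' a b)) :=
  (hP.crv9 hz hθ a b).gf h hz (hP.C1_per9 hz hθ a b)


theorem xi_smul (z : Euc N × Euc N) (s : ℝ) (a b : Wt N K) (t : ℝ) :
    xi G z (C1 h P z θ θ' (s • a) (s • b)) t = s • xi G z (C1 h P z θ θ' a b) t := by
  unfold xi SV.jf
  simp only [C1_smul]
  rw [intervalIntegral.integral_smul, map_smul]
  rfl


theorem xi'_smul (z : Euc N × Euc N) (s : ℝ) (a b : Wt N K) (t : ℝ) :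
    xi' G z (C1 h P z θ θ' (s • a) (s • b)) t = s • xi' G z (C1 h P z θ θ' a b) t := by
  unfold xi' SV.jf'
  simp only [C1_smul]
  rw [intervalIntegral.integral_smul, map_smul]
  rfl


/-! ### `J_{r+π} = -J_r` -/




/-! ### equivariance for the trivial angle -/




end Crest.Agent.R208.KR
end
end

-- ▼ part R208/KR10
section

/-!
R208, block KF (helper844), file KR10: joint smoothness of the fields `xi` and uniform negativity.
-/

set_option autoImplicit false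

open Set Filter Topology MeasureTheory Real Module
open scoped RealInnerProductSpace Interval ContDiff
open Crest.GeometryTopology.Submanifold
open Crest.Agent.R241.DDefs
open Crest.Agent.R241.D2
open Crest.Agent.R208.L (om TanTS dfl om_dfl)
open Crest.Agent.R208.FI (Tan Sub)
open Crest.Agent.R208.NN (Wt nuP qq V0 fd fd' qf Rt ev ev')

noncomputable section

namespace Crest.Agent.R208.KR

variable {n N k K : ℕ} {κ : ℝ} {S : Set (Euc N)} {G : Geo n N κ S} {z ξ η : Euc N × Euc N}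
  {h : GT.Bla G k} {P : Euc N × Euc N → Wt N K →L[ℝ] Wt N K} {a b : Wt N K}

/-- the parameter space: `((z, (a, b)), (s, t))` -/
abbrev Par (N K : ℕ) : Type := ((Euc N × Euc N) × (Wt N K × Wt N K)) × (ℝ × ℝ)

/-- the family of fields: `s` is the parameter of the angle `Θ (s, ·)`, `t` is the time -/
def xF (h : GT.Bla G k) (P : Euc N × Euc N → Wt N K →L[ℝ] Wt N K) (Θ Θ' : ℝ × ℝ → ℝ)
    (p : Par N K) : Euc N :=
  xi G p.1.1 (C1 h P p.1.1 (fun r => Θ (p.2.1, r)) (fun r => Θ' (p.2.1, r)) p.1.2.1 p.1.2.2) p.2.2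

/-- time derivative of the family -/
def xF' (h : GT.Bla G k) (P : Euc N × Euc N → Wt N K →L[ℝ] Wt N K) (Θ Θ' : ℝ × ℝ → ℝ)
    (p : Par N K) : Euc N :=
  xi' G p.1.1 (C1 h P p.1.1 (fun r => Θ (p.2.1, r)) (fun r => Θ' (p.2.1, r)) p.1.2.1 p.1.2.2) p.2.2

/-- the integrand after normalising the interval -/
def ig (h : GT.Bla G k) (P : Euc N × Euc N → Wt N K →L[ℝ] Wt N K) (Θ Θ' : ℝ × ℝ → ℝ)
    (q : Par N K × ℝ) : Euc N × Euc N :=
  π • (Θ' (q.1.2.1, q.1.2.2 - π + π * q.2) • Jr h P q.1.1.1 (q.1.2.2 - π + π * q.2)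
    (Nt q.1.1.2.1 q.1.1.2.2 (Θ (q.1.2.1, q.1.2.2 - π + π * q.2))))

theorem int_eq_I1 (Θ Θ' : ℝ × ℝ → ℝ) (p : Par N K) :
    ∫ r in (p.2.2 - π)..p.2.2, C1 h P p.1.1 (fun r => Θ (p.2.1, r)) (fun r => Θ' (p.2.1, r))
      p.1.2.1 p.1.2.2 r = FI.I1 (ig h P Θ Θ') p := by
  unfold FI.I1 ig
  rw [intervalIntegral.integral_smul]
  have h1 := intervalIntegral.smul_integral_comp_add_mul (a := 0) (b := 1)
    (fun r => C1 h P p.1.1 (fun r => Θ (p.2.1, r)) (fun r => Θ' (p.2.1, r)) p.1.2.1 p.1.2.2 r)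
    π (p.2.2 - π)
  rw [mul_zero, mul_one, add_zero, sub_add_cancel] at h1
  rw [← h1]
  rfl


theorem contDiff_Nt3 {F : Type*} [NormedAddCommGroup F] [NormedSpace ℝ F] {u : F → Wt N K × Wt N K}
    {v : F → ℝ} {x : F} (hu : ContDiffAt ℝ ∞ u x) (hv : ContDiffAt ℝ ∞ v x) :
    ContDiffAt ℝ ∞ (fun y => Nt (u y).1 (u y).2 (v y)) x := by
  unfold Nt
  have h1 : ContDiffAt ℝ ∞ (fun y => cos (v y / 2)) x := (hv.div_const 2).cos
  have h2 : ContDiffAt ℝ ∞ (fun y => sin (v y / 2)) x := (hv.div_const 2).sin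
  exact (h1.smul hu.fst).add (h2.smul hu.snd)

theorem NegB.contDiffAt_Jr3 (hP : NegB h K P) {F : Type*} [NormedAddCommGroup F] [NormedSpace ℝ F]
    {u : F → Euc N × Euc N} {v : F → ℝ} {x : F} (hu : ContDiffAt ℝ ∞ u x)
    (hv : ContDiffAt ℝ ∞ v x) (hz : u x ∈ L.US G) :
    ContDiffAt ℝ ∞ (fun y => Jr h P (u y) (v y)) x := by
  have h1 := hP.contDiffAt_Jr hz (v x)
  exact ContDiffAt.comp (f := fun y => (u y, v y)) x h1 (hu.prodMk hv)

theorem NegB.contDiffAt_ig (hP : NegB h K P) {Θ Θ' : ℝ × ℝ → ℝ} (hΘ : ContDiff ℝ ∞ Θ)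
    (hΘ' : ContDiff ℝ ∞ Θ') (hz : z ∈ L.US G) (ν : Wt N K × Wt N K) (st : ℝ × ℝ) (x : ℝ) :
    ContDiffAt ℝ ∞ (ig h P Θ Θ') ((((z, ν), st), x) : Par N K × ℝ) := by
  have h0 : ContDiffAt ℝ ∞ (fun q : Par N K × ℝ => q.1.2.2 - π + π * q.2)
      ((((z, ν), st), x) : Par N K × ℝ) := by fun_prop
  have h1 : ContDiffAt ℝ ∞ (fun q : Par N K × ℝ => (q.1.2.1, q.1.2.2 - π + π * q.2))
      ((((z, ν), st), x) : Par N K × ℝ) := by fun_prop
  have h2 : ContDiffAt ℝ ∞ (fun q : Par N K × ℝ => Θ' (q.1.2.1, q.1.2.2 - π + π * q.2))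
      ((((z, ν), st), x) : Par N K × ℝ) := hΘ'.contDiffAt.comp _ h1
  have h3 : ContDiffAt ℝ ∞ (fun q : Par N K × ℝ => Θ (q.1.2.1, q.1.2.2 - π + π * q.2))
      ((((z, ν), st), x) : Par N K × ℝ) := hΘ.contDiffAt.comp _ h1
  have h4 : ContDiffAt ℝ ∞ (fun q : Par N K × ℝ => q.1.1.2)
      ((((z, ν), st), x) : Par N K × ℝ) := by fun_prop
  have h5 : ContDiffAt ℝ ∞ (fun q : Par N K × ℝ => q.1.1.1)
      ((((z, ν), st), x) : Par N K × ℝ) := by fun_prop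
  have h6 := hP.contDiffAt_Jr3 h5 h0 hz
  have h7 := contDiff_Nt3 h4 h3
  have h8 := h2.smul (h6.clm_apply h7)
  exact h8.const_smul π

theorem NegB.contDiffAt_I (hP : NegB h K P) {Θ Θ' : ℝ × ℝ → ℝ} (hΘ : ContDiff ℝ ∞ Θ)
    (hΘ' : ContDiff ℝ ∞ Θ') (hz : z ∈ L.US G) (ν : Wt N K × Wt N K) (st : ℝ × ℝ) :
    ContDiffAt ℝ ∞ (FI.I1 (ig h P Θ Θ')) ((z, ν), st) :=
  FI.contDiffAt_I1 fun x _ => hP.contDiffAt_ig hΘ hΘ' hz ν st x

theorem NegB.contDiffAt_pair (hP : NegB h K P) {Θ Θ' : ℝ × ℝ → ℝ} (hΘ : ContDiff ℝ ∞ Θ)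
    (hΘ' : ContDiff ℝ ∞ Θ') (hz : z ∈ L.US G) (ν : Wt N K × Wt N K) (st : ℝ × ℝ) :
    ContDiffAt ℝ ∞ (fun p : Par N K => dfl G p.1.1 p.2.2 (FI.I1 (ig h P Θ Θ') p))
      ((z, ν), st) := by
  have h1 : ContDiffAt ℝ ∞ (fun p : Par N K => (p.1.1, p.2.2)) ((z, ν), st) := by fun_prop
  have h2 : ContDiffAt ℝ ∞ (fun p : Par N K => dfl G p.1.1 p.2.2) ((z, ν), st) :=
    ContDiffAt.comp ((z, ν), st) (g := fun p : (Euc N × Euc N) × ℝ => dfl G p.1 p.2)
      (contDiffAt_dfl hz.1 _) h1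
  exact h2.clm_apply (hP.contDiffAt_I hΘ hΘ' hz ν st)

/-- **joint smoothness of the family** -/
theorem NegB.contDiffAt_xF (hP : NegB h K P) {Θ Θ' : ℝ × ℝ → ℝ} (hΘ : ContDiff ℝ ∞ Θ)
    (hΘ' : ContDiff ℝ ∞ Θ') (hz : z ∈ L.US G) (ν : Wt N K × Wt N K) (st : ℝ × ℝ) :
    ContDiffAt ℝ ∞ (xF h P Θ Θ' : Par N K → Euc N) ((z, ν), st) := by
  have h1 := (hP.contDiffAt_pair hΘ hΘ' hz ν st).fst
  refine h1.congr_of_eventuallyEq (Eventually.of_forall fun p => ?_)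
  unfold xF xi SV.jf
  rw [int_eq_I1]

theorem NegB.contDiffAt_xF' (hP : NegB h K P) {Θ Θ' : ℝ × ℝ → ℝ} (hΘ : ContDiff ℝ ∞ Θ)
    (hΘ' : ContDiff ℝ ∞ Θ') (hz : z ∈ L.US G) (ν : Wt N K × Wt N K) (st : ℝ × ℝ) :
    ContDiffAt ℝ ∞ (xF' h P Θ Θ' : Par N K → Euc N) ((z, ν), st) := by
  have h1 := (hP.contDiffAt_pair hΘ hΘ' hz ν st).snd
  refine h1.congr_of_eventuallyEq (Eventually.of_forall fun p => ?_)
  unfold xF' xi' SV.jf'
  rw [int_eq_I1]

/-! ### the index form as a continuous function of the parameters -/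

/-- the index form of the family -/
def IX (h : GT.Bla G k) (P : Euc N × Euc N → Wt N K →L[ℝ] Wt N K) (Θ Θ' : ℝ × ℝ → ℝ)
    (p : ((Euc N × Euc N) × (Wt N K × Wt N K)) × ℝ) : ℝ :=
  SV.ix G p.1.1 0 (2 * π) (fun t => xF h P Θ Θ' (p.1, (p.2, t)))
    (fun t => xF' h P Θ Θ' (p.1, (p.2, t))) (fun t => xF h P Θ Θ' (p.1, (p.2, t)))
    (fun t => xF' h P Θ Θ' (p.1, (p.2, t)))

theorem NegB.contDiffAt_IX (hP : NegB h K P) {Θ Θ' : ℝ × ℝ → ℝ} (hΘ : ContDiff ℝ ∞ Θ)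
    (hΘ' : ContDiff ℝ ∞ Θ') (hz : z ∈ L.US G) (ν : Wt N K × Wt N K) (s : ℝ) :
    ContDiffAt ℝ ∞ (IX h P Θ Θ' : ((Euc N × Euc N) × (Wt N K × Wt N K)) × ℝ → ℝ)
      ((z, ν), s) := by
  unfold IX SV.ix
  refine NB.contDiffAt_int (x := (((z, ν), s) : ((Euc N × Euc N) × (Wt N K × Wt N K)) × ℝ))
    (g := fun q : (((Euc N × Euc N) × (Wt N K × Wt N K)) × ℝ) × ℝ =>
      SV.ixd G q.1.1.1 (fun t => xF h P Θ Θ' (q.1.1, (q.1.2, t)))
    (fun t => xF' h P Θ Θ' (q.1.1, (q.1.2, t))) (fun t => xF h P Θ Θ' (q.1.1, (q.1.2, t)))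
    (fun t => xF' h P Θ Θ' (q.1.1, (q.1.2, t))) q.2) (by positivity) (fun t _ => ?_)
  unfold SV.ixd
  have e0 : ContDiffAt ℝ ∞ (fun q : (((Euc N × Euc N) × (Wt N K × Wt N K)) × ℝ) × ℝ =>
      ((q.1.1, (q.1.2, q.2)) : Par N K)) (((z, ν), s), t) := by fun_prop
  have e1 : ContDiffAt ℝ ∞ (fun q : (((Euc N × Euc N) × (Wt N K × Wt N K)) × ℝ) × ℝ =>
      xF h P Θ Θ' (q.1.1, (q.1.2, q.2))) (((z, ν), s), t) :=
    ContDiffAt.comp (((z, ν), s), t) (g := (xF h P Θ Θ' : Par N K → Euc N))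
      (hP.contDiffAt_xF hΘ hΘ' hz ν (s, t)) e0
  have e2 : ContDiffAt ℝ ∞ (fun q : (((Euc N × Euc N) × (Wt N K × Wt N K)) × ℝ) × ℝ =>
      xF' h P Θ Θ' (q.1.1, (q.1.2, q.2))) (((z, ν), s), t) :=
    ContDiffAt.comp (((z, ν), s), t) (g := (xF' h P Θ Θ' : Par N K → Euc N))
      (hP.contDiffAt_xF' hΘ hΘ' hz ν (s, t)) e0
  have e3 : ContDiffAt ℝ ∞ (fun q : (((Euc N × Euc N) × (Wt N K × Wt N K)) × ℝ) × ℝ =>
      fl G (q.1.1.1, q.2)) (((z, ν), s), t) := by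
    have e4 : ContDiffAt ℝ ∞ (fun q : (((Euc N × Euc N) × (Wt N K × Wt N K)) × ℝ) × ℝ =>
      (q.1.1.1, q.2)) (((z, ν), s), t) := by fun_prop
    exact ContDiffAt.comp (((z, ν), s), t) (g := fl G) (contDiffAt_fl' G hz.1 t) e4
  have e5 : ContDiffAt ℝ ∞ (fun q : (((Euc N × Euc N) × (Wt N K × Wt N K)) × ℝ) × ℝ =>
      (X G (fl G (q.1.1.1, q.2))).2) (((z, ν), s), t) :=
    ((contDiff_X G).contDiffAt.comp (((z, ν), s), t) e3).snd
  have e6 : ContDiffAt ℝ ∞ (fun q : (((Euc N × Euc N) × (Wt N K × Wt N K)) × ℝ) × ℝ =>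
      fderiv ℝ G.P (fl G (q.1.1.1, q.2)).1) (((z, ν), s), t) := by
    have e7 : ContDiff ℝ ∞ (fderiv ℝ G.P) := G.contDiff_P.fderiv_right (m := ∞) (by simp)
    exact e7.contDiffAt.comp (((z, ν), s), t) e3.fst
  exact (e2.inner ℝ e2).sub (e5.inner ℝ ((e6.clm_apply e1).clm_apply e1))

/-- a smooth family of angles -/
structure SAng (Θ Θ' : ℝ × ℝ → ℝ) : Prop where
  sm : ContDiff ℝ ∞ Θ
  sm' : ContDiff ℝ ∞ Θ'
  ang : ∀ s ∈ Icc (0:ℝ) 1, Ang (fun r => Θ (s, r)) (fun r => Θ' (s, r))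

theorem IX_eq (Θ Θ' : ℝ × ℝ → ℝ) (z : Euc N × Euc N) (a b : Wt N K) (s : ℝ) :
    IX h P Θ Θ' ((z, (a, b)), s) = SV.ix G z 0 (2 * π)
      (xi G z (C1 h P z (fun r => Θ (s, r)) (fun r => Θ' (s, r)) a b))
      (xi' G z (C1 h P z (fun r => Θ (s, r)) (fun r => Θ' (s, r)) a b))
      (xi G z (C1 h P z (fun r => Θ (s, r)) (fun r => Θ' (s, r)) a b))
      (xi' G z (C1 h P z (fun r => Θ (s, r)) (fun r => Θ' (s, r)) a b)) := rfl

theorem IX_smul (Θ Θ' : ℝ × ℝ → ℝ) (z : Euc N × Euc N) (a b : Wt N K) (s r : ℝ) :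
    IX h P Θ Θ' ((z, (r • a, r • b)), s) = r ^ 2 * IX h P Θ Θ' ((z, (a, b)), s) := by
  rw [IX_eq, IX_eq]
  have e1 : ∀ θ θ' : ℝ → ℝ, xi G z (C1 h P z θ θ' (r • a) (r • b)) =
      r • xi G z (C1 h P z θ θ' a b) := fun θ θ' => funext fun t => xi_smul z r a b t
  have e2 : ∀ θ θ' : ℝ → ℝ, xi' G z (C1 h P z θ θ' (r • a) (r • b)) =
      r • xi' G z (C1 h P z θ θ' a b) := fun θ θ' => funext fun t => xi'_smul z r a b t
  rw [e1, e2, SV.ix_smul_left, SV.ix_smul_right]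
  ring

theorem isCompact_US (h : GT.Bla G k) : IsCompact (L.US G) := LB.isCompact_US h.bl.cpt

/-- **UNIFORM NEGATIVITY** -/
theorem NegB.ix_unif (hP : NegB h K P) {Θ Θ' : ℝ × ℝ → ℝ} (hΘ : SAng Θ Θ') :
    ∃ δ > 0, ∀ z ∈ L.US G, ∀ a b : Wt N K, P z a = a → P z b = b → ∀ s ∈ Icc (0:ℝ) 1,
      IX h P Θ Θ' ((z, (a, b)), s) ≤ -(δ * (‖a‖ ^ 2 + ‖b‖ ^ 2)) := by
  classical
  -- the compact parameter set
  set T : Set (((Euc N × Euc N) × (Wt N K × Wt N K)) × ℝ) :=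
    {p | (p.1.1 ∈ L.US G ∧ P p.1.1 p.1.2.1 = p.1.2.1 ∧ P p.1.1 p.1.2.2 = p.1.2.2) ∧
      ‖p.1.2.1‖ ^ 2 + ‖p.1.2.2‖ ^ 2 = 1 ∧ p.2 ∈ Icc (0:ℝ) 1} with hT
  have hPc : ContinuousOn P (L.US G) := fun z hz => (hP.smooth z hz).continuousAt.continuousWithinAt
  have hTc : IsCompact T := by
    have hB : IsCompact ((L.US G ×ˢ (Metric.closedBall (0 : Wt N K) 1 ×ˢ
        Metric.closedBall (0 : Wt N K) 1)) ×ˢ Icc (0:ℝ) 1) :=
      ((isCompact_US h).prod ((isCompact_closedBall _ _).prod (isCompact_closedBall _ _))).prod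
        isCompact_Icc
    refine hB.of_isClosed_subset ?_ ?_
    · have hU : IsClosed {p : ((Euc N × Euc N) × (Wt N K × Wt N K)) × ℝ | p.1.1 ∈ L.US G} :=
        (isCompact_US h).isClosed.preimage (by fun_prop)
      have hf1 : ContinuousOn (fun p : ((Euc N × Euc N) × (Wt N K × Wt N K)) × ℝ =>
          P p.1.1 p.1.2.1 - p.1.2.1) {p | p.1.1 ∈ L.US G} := by
        have h1 : ContinuousOn (fun p : ((Euc N × Euc N) × (Wt N K × Wt N K)) × ℝ => P p.1.1)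
            {p | p.1.1 ∈ L.US G} := hPc.comp (by fun_prop) (fun p hp => hp)
        exact (h1.clm_apply (by fun_prop)).sub (by fun_prop)
      have hf2 : ContinuousOn (fun p : ((Euc N × Euc N) × (Wt N K × Wt N K)) × ℝ =>
          P p.1.1 p.1.2.2 - p.1.2.2) {p | p.1.1 ∈ L.US G} := by
        have h1 : ContinuousOn (fun p : ((Euc N × Euc N) × (Wt N K × Wt N K)) × ℝ => P p.1.1)
            {p | p.1.1 ∈ L.US G} := hPc.comp (by fun_prop) (fun p hp => hp)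
        exact (h1.clm_apply (by fun_prop)).sub (by fun_prop)
      have c1 := hf1.preimage_isClosed_of_isClosed hU (isClosed_singleton (x := (0 : Wt N K)))
      have c2 := hf2.preimage_isClosed_of_isClosed hU (isClosed_singleton (x := (0 : Wt N K)))
      have c3 : IsClosed {p : ((Euc N × Euc N) × (Wt N K × Wt N K)) × ℝ |
          ‖p.1.2.1‖ ^ 2 + ‖p.1.2.2‖ ^ 2 = 1} := isClosed_eq (by fun_prop) continuous_const
      have c4 : IsClosed {p : ((Euc N × Euc N) × (Wt N K × Wt N K)) × ℝ | p.2 ∈ Icc (0:ℝ) 1} :=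
        isClosed_Icc.preimage continuous_snd
      have hEq : T = ((({p | p.1.1 ∈ L.US G} ∩ (fun p : ((Euc N × Euc N) ×
          (Wt N K × Wt N K)) × ℝ => P p.1.1 p.1.2.1 - p.1.2.1) ⁻¹' {0}) ∩
          ({p | p.1.1 ∈ L.US G} ∩ (fun p : ((Euc N × Euc N) × (Wt N K × Wt N K)) × ℝ =>
            P p.1.1 p.1.2.2 - p.1.2.2) ⁻¹' {0})) ∩ ({p | ‖p.1.2.1‖ ^ 2 + ‖p.1.2.2‖ ^ 2 = 1} ∩
          {p | p.2 ∈ Icc (0:ℝ) 1})) := by
        ext p
        simp only [hT, mem_ofPred_eq, mem_inter_iff, mem_preimage, mem_singleton_iff, sub_eq_zero]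
        tauto
      rw [hEq]
      exact (c1.inter c2).inter (c3.inter c4)
    · rintro p ⟨⟨h1, -, -⟩, h2, h3⟩
      have b1 : ‖p.1.2.1‖ ≤ 1 := by
        have := sq_nonneg ‖p.1.2.2‖
        have h4 := norm_nonneg p.1.2.1
        nlinarith
      have b2 : ‖p.1.2.2‖ ≤ 1 := by
        have := sq_nonneg ‖p.1.2.1‖
        have h4 := norm_nonneg p.1.2.2
        nlinarith
      exact ⟨⟨h1, mem_closedBall_zero_iff.2 b1, mem_closedBall_zero_iff.2 b2⟩, h3⟩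
  have hcont : ContinuousOn (IX h P Θ Θ') T := fun p hp =>
    (hP.contDiffAt_IX hΘ.sm hΘ.sm' hp.1.1 p.1.2 p.2).continuousAt.continuousWithinAt
  have hneg : ∀ p ∈ T, IX h P Θ Θ' p < 0 := by
    rintro ⟨⟨z, a, b⟩, s⟩ ⟨⟨h1, h2, h3⟩, h4, h5⟩
    rw [IX_eq]
    refine hP.ix_neg h1 (hΘ.ang s h5) h2 h3 ?_
    intro h0
    rw [Prod.mk_eq_zero] at h0
    simp only at h4
    rw [h0.1, h0.2, norm_zero] at h4
    norm_num at h4
  obtain ⟨δ, hδ, hle⟩ : ∃ δ > 0, ∀ p ∈ T, IX h P Θ Θ' p ≤ -δ := by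
    rcases T.eq_empty_or_nonempty with he | hne
    · exact ⟨1, one_pos, fun p hp => by rw [he] at hp; exact absurd hp (notMem_empty _)⟩
    · obtain ⟨p₀, hp₀, hmax⟩ := hTc.exists_isMaxOn hne hcont
      exact ⟨-IX h P Θ Θ' p₀, by have := hneg p₀ hp₀; linarith, fun p hp => by
        rw [neg_neg]; exact hmax hp⟩
  refine ⟨δ, hδ, fun z hz a b ha hb s hs => ?_⟩
  by_cases h0 : ‖a‖ ^ 2 + ‖b‖ ^ 2 = 0
  · have ha0 : a = 0 := by
      have : ‖a‖ ^ 2 = 0 := by nlinarith [sq_nonneg ‖a‖, sq_nonneg ‖b‖]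
      exact norm_eq_zero.1 (pow_eq_zero_iff two_ne_zero |>.1 this)
    have hb0 : b = 0 := by
      have : ‖b‖ ^ 2 = 0 := by nlinarith [sq_nonneg ‖a‖, sq_nonneg ‖b‖]
      exact norm_eq_zero.1 (pow_eq_zero_iff two_ne_zero |>.1 this)
    have h2 := IX_smul (h := h) (P := P) Θ Θ' z (0 : Wt N K) 0 s 0
    rw [smul_zero] at h2
    rw [ha0, hb0, h2, norm_zero]; simp
  · have hpos : 0 < ‖a‖ ^ 2 + ‖b‖ ^ 2 := lt_of_le_of_ne (by positivity) (Ne.symm h0)
    set r := √(‖a‖ ^ 2 + ‖b‖ ^ 2) with hr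
    have hr0 : 0 < r := Real.sqrt_pos.2 hpos
    have hr2 : r ^ 2 = ‖a‖ ^ 2 + ‖b‖ ^ 2 := Real.sq_sqrt hpos.le
    have h1 := hle ((z, (r⁻¹ • a, r⁻¹ • b)), s) ⟨⟨hz, by simp only [map_smul, ha],
      by simp only [map_smul, hb]⟩, by
        simp only [norm_smul, norm_inv, Real.norm_eq_abs, abs_of_pos hr0, mul_pow]
        rw [← mul_add, ← hr2, ← mul_pow, inv_mul_cancel₀ hr0.ne', one_pow], hs⟩
    have h2 := IX_smul (h := h) (P := P) Θ Θ' z (r⁻¹ • a) (r⁻¹ • b) s r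
    rw [smul_smul, smul_smul, mul_inv_cancel₀ hr0.ne', one_smul, one_smul] at h2
    rw [h2, ← hr2]
    nlinarith [sq_nonneg r, mul_le_mul_of_nonneg_left h1 (sq_nonneg r)]

end Crest.Agent.R208.KR
end
end

-- ▼ part R208/FT5
section

/-!
R208, (8,2), block F2 (helper336), part FT5: the instance of `XI` for the doubled negative bundle
`N ⊕ N` (683's `DD`), the half speed rotation and the Krein–Fourier fields of helper844 with
`θ = id`.
-/

set_option autoImplicit false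
set_option linter.unusedSectionVars false
set_option linter.unusedVariables false

open Set Filter Topology MeasureTheory
open scoped ContDiff RealInnerProductSpace Real
open Crest.GeometryTopology.Submanifold
open Crest.Agent.R241.DDefs Crest.Agent.R241.D Crest.Agent.R241.D2

noncomputable section

namespace Crest.Agent.R208.FT

open Crest.Agent.R208.SV Crest.Agent.R208.NN
open Crest.Agent.R208.CM (Rep)
open Crest.Agent.R208.DD (pl pr R2 pl_R2 pr_R2 ext_d norm_sq_eq)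

variable {n N K k : ℕ} {κ : ℝ} {S : Set (Euc N)} {G : Geo n N κ S} {δ : ℝ}
  {PN : Euc N × Euc N → Wt N K →L[ℝ] Wt N K} {z : Euc N × Euc N}

/-- `Wt ⊕ Wt` as a Euclidean space -/
abbrev W2 (N K : ℕ) : Type :=
  EuclideanSpace ℝ (((Fin K × Fin 2) × Fin N) ⊕ ((Fin K × Fin 2) × Fin N))

/-- the half speed rotation, in geodesic time -/
def RN (N K : ℕ) (t : ℝ) : W2 N K →L[ℝ] W2 N K :=
  R2 (fun s => (Rt (nuP K) s : Wt N K →L[ℝ] Wt N K)) (-1 / 2) t

/-- in phase time it is 683's rotation of weight `-1` -/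
theorem RN_two (t : ℝ) : RN N K (2 * t) =
    R2 (fun s => (Rt (nuP K) (2 * s) : Wt N K →L[ℝ] Wt N K)) (-1) t := by
  unfold RN R2
  rw [show (-1 / 2 : ℝ) * (2 * t) = -1 * t by ring]

/-- the Krein–Fourier fields at time `0` -/
def xiN (h : GT.Bla G k) (PN : Euc N × Euc N → Wt N K →L[ℝ] Wt N K) (z : Euc N × Euc N) :
    W2 N K →L[ℝ] Euc N :=
  (KR.Xi h PN (fun r => r) (fun _ => 1) z 0).comp ((pl : W2 N K →L[ℝ] Wt N K).prod pr)

theorem xiN_apply (h : GT.Bla G k) (ν : W2 N K) :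
    xiN h PN z ν = KR.Xi h PN (fun r => r) (fun _ => 1) z 0 (pl ν, pr ν) := rfl

theorem ang_id : KR.Ang (fun r => r) (fun _ => 1) where
  der r := hasDerivAt_id r
  cont := continuous_const
  pos _ := one_pos
  per _ := rfl

theorem pl_RN (t : ℝ) (ν : W2 N K) : pl (RN N K t ν) = Rt (nuP K) t (KR.na t (pl ν) (pr ν)) := by
  unfold RN KR.na
  rw [pl_R2, show (-1 / 2 : ℝ) * t = -(t / 2) by ring, Real.cos_neg, Real.sin_neg, map_add,
    map_smul, map_smul, neg_smul, sub_neg_eq_add]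

theorem pr_RN (t : ℝ) (ν : W2 N K) : pr (RN N K t ν) = Rt (nuP K) t (KR.nb t (pl ν) (pr ν)) := by
  unfold RN KR.nb
  rw [pr_R2, show (-1 / 2 : ℝ) * t = -(t / 2) by ring, Real.cos_neg, Real.sin_neg, map_add,
    map_neg, map_smul, map_smul, neg_smul]

/-- the fields of the instance are 844's fields -/
theorem xf_xiN (h : GT.Bla G k) (H : NB.NegB G (k - 1) (nuP K) δ PN) (hz : z ∈ L.US G)
    (ν : W2 N K) (t : ℝ) : xf G (RN N K) (xiN h PN) z ν t =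
      KR.xi G z (KR.C1 h PN z (fun r => r) (fun _ => 1) (pl ν) (pr ν)) t := by
  have hP := KR.NegB.of_NB h H
  have hzt := NB.fl_mem_US hz t
  unfold xf
  rw [xiN_apply, pl_RN, pr_RN, ← hP.xi_eq (θ := fun r => r) (θ' := fun _ => 1) hzt
    continuous_id continuous_const, hP.xi_shift hz, zero_add]

theorem deriv_xf (h : GT.Bla G k) (H : NB.NegB G (k - 1) (nuP K) δ PN) (hz : z ∈ L.US G)
    (ν : W2 N K) : deriv (xf G (RN N K) (xiN h PN) z ν) =
      KR.xi' G z (KR.C1 h PN z (fun r => r) (fun _ => 1) (pl ν) (pr ν)) := by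
  have hP := KR.NegB.of_NB h H
  have e : xf G (RN N K) (xiN h PN) z ν =
      KR.xi G z (KR.C1 h PN z (fun r => r) (fun _ => 1) (pl ν) (pr ν)) :=
    funext fun t => xf_xiN h H hz ν t
  funext t
  rw [e]
  exact ((hP.gf_xi hz ang_id (pl ν) (pr ν)).der t).deriv

theorem norm_RN (t : ℝ) (ν : W2 N K) : ‖RN N K t ν‖ = ‖ν‖ := by
  have hR := NB.rep_per N K
  have h1 : ‖RN N K t ν‖ ^ 2 = ‖ν‖ ^ 2 := by
    unfold RN
    rw [norm_sq_eq, norm_sq_eq ν, pl_R2, pr_R2, norm_sub_sq_real, norm_add_sq_real]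
    simp only [norm_smul, norm_Rt, real_inner_smul_left, real_inner_smul_right, mul_pow,
      Real.norm_eq_abs, sq_abs]
    linear_combination (‖pl ν‖ ^ 2 + ‖pr ν‖ ^ 2) * (Real.sin_sq_add_cos_sq (-1 / 2 * t))
  exact (sq_eq_sq₀ (norm_nonneg _) (norm_nonneg _)).1 h1

theorem RN_zero (ν : W2 N K) : RN N K 0 ν = ν := by
  refine ext_d ?_ ?_
  · unfold RN
    rw [pl_R2, mul_zero, Real.cos_zero, Real.sin_zero, one_smul, zero_smul, sub_zero]
    exact Rt_zero _ _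
  · unfold RN
    rw [pr_R2, mul_zero, Real.cos_zero, Real.sin_zero, one_smul, zero_smul, zero_add]
    exact Rt_zero _ _

theorem RN_add (s t : ℝ) (ν : W2 N K) : RN N K (s + t) ν = RN N K s (RN N K t ν) := by
  refine ext_d ?_ ?_
  · unfold RN
    rw [pl_R2, pl_R2, pl_R2, pr_R2, mul_add, Real.cos_add, Real.sin_add, Rt_add, Rt_add]
    simp only [map_sub, map_add, map_smul]
    module
  · unfold RN
    rw [pr_R2, pr_R2, pl_R2, pr_R2, mul_add, Real.cos_add, Real.sin_add, Rt_add, Rt_add]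
    simp only [map_sub, map_add, map_smul]
    module

theorem RN_anti (ν : W2 N K) : RN N K (2 * π) ν = -ν := by
  have h1 : (-1 / 2 : ℝ) * (2 * π) = -π := by ring
  refine ext_d ?_ ?_
  · unfold RN
    rw [pl_R2, h1, Real.cos_neg, Real.sin_neg, Real.cos_pi, Real.sin_pi, Rt_per, map_neg]
    simp
  · unfold RN
    rw [pr_R2, h1, Real.cos_neg, Real.sin_neg, Real.cos_pi, Real.sin_pi, map_neg]
    simp [Rt_per]

theorem contDiff_RN : ContDiff ℝ ∞ (RN N K) := by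
  rw [contDiff_iff_contDiffAt]
  intro t
  have hR := (NB.rep_per N K).smooth.contDiffAt (x := t)
  have h1 : ContDiffAt ℝ ∞ (fun s : ℝ => (-1 / 2 : ℝ) * s) t := contDiffAt_const.mul contDiffAt_id
  exact ((Real.contDiff_cos.contDiffAt.comp t h1).smul (DD.contDiffAt_dd hR)).add
    ((Real.contDiff_sin.contDiffAt.comp t h1).smul (DD.contDiffAt_dj hR))

theorem contDiffAt_xiN (h : GT.Bla G k) (H : NB.NegB G (k - 1) (nuP K) δ PN) (hz : z ∈ L.US G) :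
    ContDiffAt ℝ ∞ (xiN h PN) z := by
  have hP := KR.NegB.of_NB h H
  have h1 := hP.contDiffAt_Xi (E := ℝ) (Th := fun _ r => r) (Th' := fun _ _ => 1) (s₀ := 0) hz
    (fun r => contDiffAt_snd) (fun r => contDiffAt_const) 0
  have h2 : ContDiffAt ℝ ∞ (fun y : Euc N × Euc N => ((y, (0:ℝ)), (0:ℝ))) z := by fun_prop
  have h3 := ContDiffAt.comp z (g := fun q : ((Euc N × Euc N) × ℝ) × ℝ =>
    KR.Xi h PN (fun r => r) (fun _ => 1) q.1.1 q.2) h1 h2
  exact h3.clm_comp contDiffAt_const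

theorem sang_id : KR.SAng (fun p : ℝ × ℝ => p.2) (fun _ => 1) where
  sm := contDiff_snd
  sm' := contDiff_const
  ang _ _ := ang_id

/-- **the instance**: the doubled negative bundle with the Krein–Fourier fields -/
theorem exists_XI (h : GT.Bla G k) (H : NB.NegB G (k - 1) (nuP K) δ PN) :
    ∃ δ₂, XI G (DD.NN PN) (RN N K) (xiN h PN) δ₂ := by
  have hP := KR.NegB.of_NB h H
  obtain ⟨δ₂, hδ₂, hle⟩ := hP.ix_unif sang_id
  refine ⟨δ₂, hδ₂, contDiff_RN, RN_zero, RN_add, norm_RN, RN_anti,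
    fun z hz => contDiffAt_xiN h H hz, ?_, ?_, ?_⟩
  · intro z hz ν hν
    have h1 := (hP.gf_xi hz ang_id (pl ν) (pr ν)).mem 0
    rw [← xf_xiN h H hz, fl_zero] at h1
    unfold xf at h1
    rwa [fl_zero, RN_zero] at h1
  · intro z hz s ν
    have h1 := DD.NN_equi (φ := CM.gf G) (R := fun s => (Rt (nuP K) s : Wt N K →L[ℝ] Wt N K))
      (N := PN) (x := z) (-1 / 2) (fun t v => H.equi z hz t v) s ν
    exact h1
  · intro z hz ν hν
    obtain ⟨ha, hb⟩ := DD.NN_eq_self_iff.1 hν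
    have h1 := hle z hz (pl ν) (pr ν) ha hb 0 ⟨le_rfl, zero_le_one⟩
    rw [KR.IX_eq, ← norm_sq_eq] at h1
    rw [deriv_xf h H hz]
    rw [show xf G (RN N K) (xiN h PN) z ν =
      KR.xi G z (KR.C1 h PN z (fun r => r) (fun _ => 1) (pl ν) (pr ν)) from
      funext fun t => xf_xiN h H hz ν t]
    exact h1

end Crest.Agent.R208.FT
end
end

-- ▼ part R208/FT6

/-!
R208, (8,2), block F2 (helper336), part FT6: existence of the data `D2` of the level two family.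
-/

set_option autoImplicit false
set_option linter.unusedSectionVars false
set_option linter.unusedVariables false

open Set Filter Topology MeasureTheory
open scoped ContDiff RealInnerProductSpace Real
open Crest.GeometryTopology.Submanifold
open Crest.Agent.R241.DDefs Crest.Agent.R241.D Crest.Agent.R241.D2

noncomputable section

namespace Crest.Agent.R208.FT

open Crest.Agent.R208.SV Crest.Agent.R208.MS Crest.Agent.R208.NN Crest.Agent.R208.FL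

variable {n N K k : ℕ} {κ : ℝ} {S : Set (Euc N)} {G : Geo n N κ S} {lg : Euc N → Euc N → Euc N}
  {ρ : Euc N → Euc N} {r C r' Kr B w δ : ℝ} {PN : Euc N × Euc N → Wt N K →L[ℝ] Wt N K}
  {H₂ : Type} [NormedAddCommGroup H₂] [InnerProductSpace ℝ H₂] [FiniteDimensional ℝ H₂]
  {P₂ : Euc N × Euc N → H₂ →L[ℝ] H₂} {Rr : ℝ → H₂ →L[ℝ] H₂}
  {xi0 : Euc N × Euc N → H₂ →L[ℝ] Euc N} {δ₂ : ℝ}

/-- **existence of the level two data**, from `D0` and any `XI` -/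
theorem exists_D2 (h : D0 G k K lg ρ r C r' Kr B w δ PN) (hX : XI G P₂ Rr xi0 δ₂) :
    ∃ ε₀ > 0, ∀ ε, 0 < ε → ε ≤ ε₀ → ∀ ε₂, 0 < ε₂ → 3 * ε₂ ≤ ε₀ →
      ∀ E₁ < π, ∀ η₁ > 0, ∃ E₀ η : ℝ, E₁ ≤ E₀ ∧ η ≤ η₁ ∧ ∃ J₀ : ℕ, ∀ J, J₀ ≤ J →
        D2 G k K lg ρ r C r' Kr B w δ PN ε J E₀ η P₂ Rr xi0 δ₂ ε₂ := by
  obtain ⟨a, ha, hA⟩ := h.exists_D1
  obtain ⟨b, hb, hB⟩ := exists_energy h.bla h.rt h.der h.neg hX
  refine ⟨min a b, lt_min ha hb, fun ε hε hε' ε₂ hε₂ hε₂' E₁ hE₁ η₁ hη₁ => ?_⟩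
  obtain ⟨E₀, η, h1, h2, J₀, h3⟩ := hA ε hε (hε'.trans (min_le_left _ _)) E₁ hE₁ η₁ hη₁
  refine ⟨E₀, η, h1, h2, J₀, fun J hJ => ?_⟩
  have hb1 := hε'.trans (min_le_right a b)
  have hb2 := hε₂'.trans (min_le_right a b)
  exact
    { toD1 := h3 J hJ
      xi := hX
      e2_pos := hε₂
      small2 := fun z hz v hv hv1 ν hν c hc hc' =>
        (hB ε c hε hb1 z hz v hv hv1 ν hν hc (hc'.trans hb2)).1
      en2 := fun z hz v hv hv1 ν hν c hc hc' =>
        (hB ε c hε hb1 z hz v hv hv1 ν hν hc (hc'.trans hb2)).2 }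


end Crest.Agent.R208.FT
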