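import Mathlib

/-!
# Power sums to Chern classes in a graded ring with generators `x`, `w` (`w ^ 2 = 0`)

Pure algebra (block [GA] of R208).  `A` is a commutative ring over a field `𝕜` of characteristic
zero.  The Chern classes `c j` are computed from the power sums `s j` by Newton's identities;
if `s` has the shape given by a power series `Q` in `x` (degree `l`) and by `w` times a power
series in `x` (`w` of degree `l - 1`, `w ^ 2 = 0`), so have the `c j`.
-/

open PowerSeries Finset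

namespace Crest.Agent.R208.GA

section theta

variable {R : Type*} [CommRing R]

/-- `θ = X d/dX`. -/
noncomputable def th (f : R⟦X⟧) : R⟦X⟧ := X * derivative R f

theorem coeff_th (f : R⟦X⟧) (n : ℕ) : coeff n (th f) = n * coeff n f := by
  unfold th
  cases n with
  | zero => simp
  | succ n =>
    rw [coeff_succ_X_mul, coeff_derivative]
    push_cast
    ring

theorem th_mul (f g : R⟦X⟧) : th (f * g) = th f * g + f * th g := by
  unfold th
  rw [Derivation.leibniz]
  simp only [smul_eq_mul]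
  ring

theorem th_add (f g : R⟦X⟧) : th (f + g) = th f + th g := by
  unfold th
  rw [map_add]
  ring

theorem th_one : th (1 : R⟦X⟧) = 0 := by
  unfold th
  simp

theorem th_C (a : R) : th (C a) = 0 := by
  unfold th
  simp

theorem th_X : th (X : R⟦X⟧) = X := by
  unfold th
  simp

theorem th_pow (f : R⟦X⟧) (n : ℕ) : th (f ^ (n + 1)) = (n + 1) * f ^ n * th f := by
  induction n with
  | zero => simp
  | succ n ih =>
    rw [pow_succ f (n + 1), th_mul, ih]
    push_cast
    ring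

theorem th_C_mul (a : R) (f : R⟦X⟧) : th (C a * f) = C a * th f := by
  rw [th_mul, th_C]
  ring

theorem constantCoeff_th (f : R⟦X⟧) : constantCoeff (th f) = 0 := by
  rw [← coeff_zero_eq_constantCoeff_apply, coeff_th]
  simp

/-- The coefficients of `θ G = S G` in Newton's form. -/
theorem newton_of_th {G S : R⟦X⟧} (h : th G = S * G) (h0 : constantCoeff S = 0) (j : ℕ) :
    ((j : R) + 1) * coeff (j + 1) G = ∑ i ∈ range (j + 1), coeff (i + 1) S * coeff (j - i) G := by
  have h1 := congrArg (coeff (j + 1)) h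
  rw [coeff_th, coeff_mul, Finset.Nat.sum_antidiagonal_eq_sum_range_succ
    (fun a b => coeff a S * coeff b G), Finset.sum_range_succ'] at h1
  rw [coeff_zero_eq_constantCoeff_apply, h0, zero_mul, add_zero] at h1
  push_cast at h1
  rw [h1]

/-- Converse of `newton_of_th`. -/
theorem th_of_newton {G S : R⟦X⟧} (h0 : constantCoeff S = 0)
    (h : ∀ j : ℕ, ((j : R) + 1) * coeff (j + 1) G =
      ∑ i ∈ range (j + 1), coeff (i + 1) S * coeff (j - i) G) : th G = S * G := by
  ext n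
  cases n with
  | zero => rw [coeff_th, coeff_zero_eq_constantCoeff_apply, coeff_zero_eq_constantCoeff_apply,
      map_mul, h0]; simp
  | succ j =>
    rw [coeff_th, coeff_mul, Finset.Nat.sum_antidiagonal_eq_sum_range_succ
      (fun a b => coeff a S * coeff b G), Finset.sum_range_succ',
      coeff_zero_eq_constantCoeff_apply, h0, zero_mul, add_zero]
    push_cast
    rw [h j]

end theta

section ode

variable {𝕜 : Type*} [Field 𝕜] [CharZero 𝕜]

/-- Uniqueness for `θ F = H F`. -/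
theorem ode_unique {F G H : 𝕜⟦X⟧} (hF : th F = H * F) (hG : th G = H * G)
    (h0 : constantCoeff H = 0) (hFG : constantCoeff F = constantCoeff G) : F = G := by
  ext n
  induction n using Nat.strong_induction_on with
  | _ n ih =>
    cases n with
    | zero => simpa using hFG
    | succ n =>
      have h1 := newton_of_th hF h0 n
      have h2 := newton_of_th hG h0 n
      have h3 : ((n : 𝕜) + 1) * coeff (n + 1) F = ((n : 𝕜) + 1) * coeff (n + 1) G := by
        rw [h1, h2]
        refine Finset.sum_congr rfl fun i hi => ?_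
        rw [ih (n - i) (by omega)]
      exact mul_left_cancel₀ (by exact_mod_cast Nat.succ_ne_zero n) h3

/-- The coefficients of the solution of `θ F = H F`, `F 0 = 1`. -/
noncomputable def oc (H : 𝕜⟦X⟧) : ℕ → 𝕜
  | 0 => 1
  | n + 1 => ((n : 𝕜) + 1)⁻¹ * ∑ i : Fin (n + 1), coeff (i + 1) H * oc H (n - i)
  decreasing_by omega

theorem ode_exists (H : 𝕜⟦X⟧) (h0 : constantCoeff H = 0) :
    ∃ F : 𝕜⟦X⟧, constantCoeff F = 1 ∧ th F = H * F := by
  refine ⟨mk (oc H), ?_, ?_⟩
  · rw [← coeff_zero_eq_constantCoeff_apply, coeff_mk, oc]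
  · refine th_of_newton h0 fun j => ?_
    rw [coeff_mk, oc, Finset.sum_range]
    rw [mul_inv_cancel_left₀ (by exact_mod_cast Nat.succ_ne_zero j)]
    simp only [coeff_mk]

end ode

section sub

variable {𝕜 A : Type*} [Field 𝕜] [CommRing A]

/-- `f ↦ f (x t ^ l)`. -/
noncomputable def sb (φ : 𝕜 →+* A) (l : ℕ) (hl : l ≠ 0) (x : A) : 𝕜⟦X⟧ →+* A⟦X⟧ :=
  ((PowerSeries.expand l hl (R := A)) : A⟦X⟧ →+* A⟦X⟧).comp ((rescale x).comp (PowerSeries.map φ))

variable (φ : 𝕜 →+* A) (l : ℕ) (hl : l ≠ 0) (x : A)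

theorem coeff_sb (f : 𝕜⟦X⟧) (n : ℕ) :
    coeff n (sb φ l hl x f) = if l ∣ n then x ^ (n / l) * φ (coeff (n / l) f) else 0 := by
  simp only [sb, RingHom.comp_apply, RingHom.coe_coe]
  rw [coeff_expand]
  simp only [coeff_rescale, coeff_map]

theorem coeff_sb_mul (f : 𝕜⟦X⟧) (n : ℕ) :
    coeff (l * n) (sb φ l hl x f) = x ^ n * φ (coeff n f) := by
  rw [coeff_sb, if_pos (Dvd.intro _ rfl), Nat.mul_div_cancel_left _ (Nat.pos_of_ne_zero hl)]

theorem coeff_sb_not {f : 𝕜⟦X⟧} {n : ℕ} (h : ¬ l ∣ n) : coeff n (sb φ l hl x f) = 0 := by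
  rw [coeff_sb, if_neg h]

theorem th_sb (f : 𝕜⟦X⟧) : th (sb φ l hl x f) = l * sb φ l hl x (th f) := by
  ext n
  rw [coeff_th, show ((l : ℕ) : A⟦X⟧) = C (l : A) by simp, coeff_C_mul, coeff_sb, coeff_sb]
  split_ifs with h
  · obtain ⟨q, rfl⟩ := h
    rw [Nat.mul_div_cancel_left _ (Nat.pos_of_ne_zero hl), coeff_th]
    push_cast
    rw [map_mul, map_natCast]
    ring
  · simp

theorem constantCoeff_sb (f : 𝕜⟦X⟧) : constantCoeff (sb φ l hl x f) = φ (constantCoeff f) := by
  rw [← coeff_zero_eq_constantCoeff_apply, coeff_sb, if_pos (dvd_zero _)]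
  simp

end sub

section main

variable {A : Type*} [CommRing A]

/-- Newton's identities determine the sequence. -/
theorem newton_unique {r : ℕ} (hA : ∀ j : ℕ, j < r → IsUnit ((j : A) + 1)) {s c c' : ℕ → A}
    (h0 : c 0 = c' 0)
    (hc : ∀ j, j < r → ((j : A) + 1) * c (j + 1) = ∑ i ∈ range (j + 1), s (i + 1) * c (j - i))
    (hc' : ∀ j, j < r → ((j : A) + 1) * c' (j + 1) = ∑ i ∈ range (j + 1), s (i + 1) * c' (j - i)) :
    ∀ j, j ≤ r → c j = c' j := by
  intro j
  induction j using Nat.strong_induction_on with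
  | _ j ih =>
    intro hj
    cases j with
    | zero => exact h0
    | succ j =>
      refine (hA j (by omega)).mul_left_cancel ?_
      rw [hc j (by omega), hc' j (by omega)]
      refine Finset.sum_congr rfl fun i hi => ?_
      rw [ih (j - i) (by omega) (by omega)]

/-- Newton's identities (with signs) and a formal solution of `θ G = S G`. -/
theorem eq_coeff {r : ℕ} (hA : ∀ j : ℕ, j < r → IsUnit ((j : A) + 1)) {s c : ℕ → A}
    {G S : A⟦X⟧} (hc0 : c 0 = 1)
    (hN : ∀ j, j < r → ((j : A) + 1) * c (j + 1) =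
      ∑ i ∈ range (j + 1), (-1) ^ i * s (i + 1) * c (j - i))
    (hG0 : constantCoeff G = 1) (hG : th G = S * G) (hS0 : constantCoeff S = 0)
    (hS : ∀ i, i < r → coeff (i + 1) S = (-1) ^ i * s (i + 1)) :
    ∀ j, j ≤ r → c j = coeff j G := by
  refine newton_unique hA (s := fun i => (-1) ^ (i - 1) * s i) (by simpa using hc0.trans hG0.symm)
    (fun j hj => ?_) (fun j hj => ?_)
  · simpa using hN j hj
  · rw [newton_of_th hG hS0 j]
    refine Finset.sum_congr rfl fun i hi => ?_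
    rw [hS i (by have := Finset.mem_range.1 hi; omega)]
    simp

end main

section inv

variable {A : Type*} [CommRing A]

/-- Newton's identities determine the power sums. -/
theorem newton_inv {r : ℕ} {s s' c : ℕ → A} (h0 : c 0 = 1)
    (hc : ∀ j, j < r → ((j : A) + 1) * c (j + 1) =
      ∑ i ∈ range (j + 1), (-1) ^ i * s (i + 1) * c (j - i))
    (hc' : ∀ j, j < r → ((j : A) + 1) * c (j + 1) =
      ∑ i ∈ range (j + 1), (-1) ^ i * s' (i + 1) * c (j - i)) :
    ∀ j, 1 ≤ j → j ≤ r → s j = s' j := by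
  intro j
  induction j using Nat.strong_induction_on with
  | _ j ih =>
    intro hj1 hj
    obtain ⟨j, rfl⟩ : ∃ j', j = j' + 1 := ⟨j - 1, by omega⟩
    have h1 := hc j (by omega)
    rw [hc' j (by omega), Finset.sum_range_succ, Finset.sum_range_succ, Nat.sub_self, h0] at h1
    have h2 : ∑ i ∈ range j, (-1) ^ i * s (i + 1) * c (j - i) =
        ∑ i ∈ range j, (-1) ^ i * s' (i + 1) * c (j - i) := by
      refine Finset.sum_congr rfl fun i hi => ?_
      have := Finset.mem_range.1 hi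
      rw [ih (i + 1) (by omega) (by omega) (by omega)]
    rw [h2, add_right_inj, mul_one, mul_one] at h1
    rcases neg_one_pow_eq_or A j with h | h
    · rw [h, one_mul, one_mul] at h1
      exact h1.symm
    · rw [h] at h1
      linear_combination h1

variable {𝕜 : Type*} [Field 𝕜]

/-- From the Chern classes `c (l i) = P_i x ^ i` to the power sums. -/
theorem sums_of_classes (φ : 𝕜 →+* A) {l r : ℕ} (hl : l ≠ 0) {x : A} {s c : ℕ → A}
    (h0 : c 0 = 1)
    (hN : ∀ j, j < r → ((j : A) + 1) * c (j + 1) =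
      ∑ i ∈ range (j + 1), (-1) ^ i * s (i + 1) * c (j - i))
    {P Q : 𝕜⟦X⟧} (hP0 : constantCoeff P = 1) (hQ : th P = Q * P)
    (h1 : ∀ i, 1 ≤ i → l * i ≤ r → c (l * i) = φ (coeff i P) * x ^ i)
    (h2 : ∀ j, j ≤ r → ¬ l ∣ j → c j = 0) :
    (∀ i, 1 ≤ i → l * i ≤ r → s (l * i) = (-1) ^ (l * i + 1) * (φ (l * coeff i Q) * x ^ i)) ∧
    ∀ j, j ≤ r → ¬ l ∣ j → s j = 0 := by
  set G := sb φ l hl x P with hG
  set S := (l : A⟦X⟧) * sb φ l hl x Q with hS
  have hQ0 : constantCoeff Q = 0 := by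
    have := congrArg constantCoeff hQ
    rw [constantCoeff_th, map_mul, hP0, mul_one] at this
    exact this.symm
  have hGS : th G = S * G := by
    rw [hG, th_sb, hQ, map_mul, hS, mul_assoc]
  have hS0 : constantCoeff S = 0 := by
    rw [hS, map_mul, constantCoeff_sb, hQ0]
    simp
  have hcG : ∀ j, j ≤ r → c j = coeff j G := by
    intro j hj
    by_cases hd : l ∣ j
    · obtain ⟨i, rfl⟩ := hd
      rcases Nat.eq_zero_or_pos i with h | h
      · subst h
        rw [mul_zero, h0, hG, coeff_zero_eq_constantCoeff_apply, constantCoeff_sb, hP0, map_one]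
      · rw [h1 i h hj, hG, coeff_sb_mul]
        ring
    · rw [h2 j hj hd, hG, coeff_sb_not _ _ _ _ hd]
  have h3 := newton_inv (s' := fun j => (-1) ^ (j + 1) * coeff j S) h0 hN fun j hj => by
    rw [hcG (j + 1) (by omega), newton_of_th hGS hS0 j]
    refine Finset.sum_congr rfl fun i hi => ?_
    rw [hcG (j - i) (by omega)]
    have : ((-1 : A) ^ i * (-1) ^ (i + 1 + 1)) = 1 := by
      rw [← pow_add, show i + (i + 1 + 1) = 2 * (i + 1) by ring, pow_mul]
      simp
    linear_combination (-coeff (i + 1) S * coeff (j - i) G) * this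
  refine ⟨fun i hi hir => ?_, fun j hj hd => ?_⟩
  · rw [h3 (l * i) (Nat.mul_pos (Nat.pos_of_ne_zero hl) hi) hir, hS,
      show ((l : ℕ) : A⟦X⟧) = C (l : A) by simp, coeff_C_mul, coeff_sb_mul, map_mul, map_natCast]
    ring
  · have hj1 : 1 ≤ j := by
      rcases Nat.eq_zero_or_pos j with h | h
      · subst h; exact absurd (dvd_zero l) hd
      · exact h
    rw [h3 j hj1 hj, hS, show ((l : ℕ) : A⟦X⟧) = C (l : A) by simp, coeff_C_mul,
      coeff_sb_not _ _ _ _ hd]
    simp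

end inv

section core

variable {𝕜 A : Type*} [Field 𝕜] [CommRing A]

/-- `w t ^ (l - 1) f (x t ^ l)`. -/
noncomputable def od (φ : 𝕜 →+* A) (l : ℕ) (hl : l ≠ 0) (x w : A) (f : 𝕜⟦X⟧) : A⟦X⟧ :=
  C w * X ^ (l - 1) * sb φ l hl x f

theorem coeff_od_mul (φ : 𝕜 →+* A) (l : ℕ) (hl : l ≠ 0) (x w : A) (f : 𝕜⟦X⟧) (i : ℕ) :
    coeff (l * (i + 1) - 1) (od φ l hl x w f) = w * x ^ i * φ (coeff i f) := by
  have h1 : 1 ≤ l := Nat.one_le_iff_ne_zero.2 hl
  have h2 : l * (i + 1) - 1 = (l - 1) + l * i := by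
    have : l * (i + 1) = l * i + l := by ring
    omega
  rw [od, mul_assoc, coeff_C_mul, h2, add_comm (l - 1), coeff_X_pow_mul, coeff_sb_mul, mul_assoc]

theorem coeff_od_not (φ : 𝕜 →+* A) (l : ℕ) (hl : l ≠ 0) (x w : A) (f : 𝕜⟦X⟧) {n : ℕ}
    (hn : ¬ l ∣ n + 1) : coeff n (od φ l hl x w f) = 0 := by
  have h1 : 1 ≤ l := Nat.one_le_iff_ne_zero.2 hl
  rw [od, mul_assoc, coeff_C_mul, coeff_X_pow_mul']
  split_ifs with h
  · rw [coeff_sb_not _ _ _ _ ?_, mul_zero]
    intro hd
    refine hn ?_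
    have : n + 1 = (n - (l - 1)) + l := by omega
    rw [this]
    exact Nat.dvd_add hd (dvd_refl l)
  · simp

theorem od_mul (φ : 𝕜 →+* A) (l : ℕ) (hl : l ≠ 0) (x w : A) (f g : 𝕜⟦X⟧) :
    sb φ l hl x f * od φ l hl x w g = od φ l hl x w (f * g) := by
  unfold od
  rw [map_mul]
  ring

theorem constantCoeff_od (φ : 𝕜 →+* A) (l : ℕ) (hl : 2 ≤ l) (x w : A) (f : 𝕜⟦X⟧) :
    constantCoeff (od φ l (by omega) x w f) = 0 := by
  unfold od
  rw [map_mul, map_mul, map_pow, constantCoeff_X, zero_pow (by omega)]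
  ring

/-- `θ (w t ^ (l - 1) f (x t ^ l)) = w * (…)`. -/
theorem th_od (φ : 𝕜 →+* A) (l : ℕ) (hl : 2 ≤ l) (x w : A) (f : 𝕜⟦X⟧) :
    ∃ g : A⟦X⟧, th (od φ l (by omega) x w f) = C w * g := by
  unfold od
  rw [mul_assoc, th_C_mul]
  exact ⟨_, rfl⟩

/-- The formal solution: `G = c0(x t^l) (1 + w t^(l-1) D(x t^l))`. -/
theorem th_sol (φ : 𝕜 →+* A) (l : ℕ) (hl : 2 ≤ l) {x w : A} (hw : w ^ 2 = 0)
    {c0 D H : 𝕜⟦X⟧} (hc0 : th c0 = H * c0) :
    th (sb φ l (by omega) x c0 * (1 + od φ l (by omega) x w D)) =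
      ((l : A⟦X⟧) * sb φ l (by omega) x H + th (od φ l (by omega) x w D)) *
        (sb φ l (by omega) x c0 * (1 + od φ l (by omega) x w D)) := by
  have h1 : od φ l (by omega) x w D * th (od φ l (by omega) x w D) = 0 := by
    obtain ⟨g, hg⟩ := th_od φ l hl x w D
    rw [hg, od]
    have : C w * X ^ (l - 1) * (sb φ l (by omega) x D) * (C w * g) =
        C (w ^ 2) * (X ^ (l - 1) * (sb φ l (by omega) x D) * g) := by
      rw [map_pow]; ring
    rw [this, hw, map_zero, zero_mul]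
  rw [th_mul, th_add, th_one, th_sb, hc0, map_mul]
  linear_combination (-1 : A⟦X⟧) * sb φ l (by omega) x c0 * h1

/-- **Core theorem** (ring homomorphism form).  `2 θ c0 = (Q - B) c0`,
`(2 l (i + 1) - 2) D_i = - Q_(i+1)`. -/
theorem core [CharZero 𝕜] (φ : 𝕜 →+* A) (l : ℕ) (hl : 2 ≤ l) {m r : ℕ} (hm : 2 ≤ m)
    (hr : r = l * (m - 1)) {x w : A} (hw : w ^ 2 = 0) {s c : ℕ → A} (hc0 : c 0 = 1)
    (hN : ∀ j, j < r → ((j : A) + 1) * c (j + 1) =
      ∑ i ∈ range (j + 1), (-1) ^ i * s (i + 1) * c (j - i))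
    {Q B D c₀ : 𝕜⟦X⟧} (h1 : constantCoeff c₀ = 1) (hQ0 : constantCoeff Q = 0)
    (hB0 : constantCoeff B = 0) (hc₀ : 2 * th c₀ = (Q - B) * c₀)
    (hD : ∀ i : ℕ, (2 * (l : 𝕜) * ((i : 𝕜) + 1) - 2) * coeff i D = - coeff (i + 1) Q)
    (he1 : ∀ i, 1 ≤ i → l * i ≤ r → Even (l * i) →
      s (l * i) = φ (-((l : 𝕜) / 2) * (coeff i Q - coeff i B)) * x ^ i)
    (he2 : ∀ j, 1 ≤ j → j ≤ r → Even j → ¬ l ∣ j → s j = 0)
    (ho1 : ∀ i, 1 ≤ i → l * i - 1 ≤ r → Odd (l * i - 1) →
      s (l * i - 1) = φ (-(1 / 2) * coeff i Q) * (w * x ^ (i - 1)))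
    (ho2 : ∀ j, 1 ≤ j → j ≤ r → Odd j → ¬ l ∣ j + 1 → s j = 0)
    (hodd : Odd l → ∀ i, Odd i → coeff i Q = 0 ∧ coeff i B = 0) :
    (∀ j, j ≤ r → c j = coeff j (sb φ l (by omega) x c₀ * (1 + od φ l (by omega) x w D))) ∧
    c r = φ (coeff (m - 1) c₀) * x ^ (m - 1) ∧
    c (r - 1) = φ (coeff (m - 2) (c₀ * D)) * (x ^ (m - 2) * w) := by
  have hl0 : l ≠ 0 := by omega
  have h2 : (2 : 𝕜) ≠ 0 := two_ne_zero
  have hc₀' : th c₀ = (C (1 / 2 : 𝕜) * (Q - B)) * c₀ := by
    have h3 : th c₀ = C (1 / 2 : 𝕜) * (2 * th c₀) := by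
      rw [← map_ofNat (C : 𝕜 →+* 𝕜⟦X⟧) 2, ← mul_assoc, ← map_mul]
      simp
    rw [h3, hc₀, mul_assoc]
  have hA : ∀ j : ℕ, j < r → IsUnit ((j : A) + 1) := fun j _ => by
    have : ((j : A) + 1) = φ ((j : 𝕜) + 1) := by simp
    rw [this]
    exact (IsUnit.mk0 _ (by exact_mod_cast Nat.succ_ne_zero j)).map φ
  have hnd : ∀ n : ℕ, l ∣ n → ¬ l ∣ n + 1 := fun n h h' => by
    have : l ∣ 1 := (Nat.dvd_add_right h).1 h'
    have := Nat.le_of_dvd one_pos this
    omega
  have hall : ∀ j, j ≤ r →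
      c j = coeff j (sb φ l (by omega) x c₀ * (1 + od φ l (by omega) x w D)) := by
    refine eq_coeff hA hc0 hN ?_ (th_sol φ l hl hw hc₀') ?_ fun j hj => ?_
    · rw [map_mul, constantCoeff_sb, h1, map_one, map_add, map_one,
        constantCoeff_od φ l hl]
      ring
    · rw [map_add, map_mul, constantCoeff_sb, constantCoeff_th, map_mul, map_sub, hQ0, hB0]
      simp
    · -- the coefficients of the logarithmic derivative
      rw [map_add, show ((l : ℕ) : A⟦X⟧) = C (l : A) by simp, coeff_C_mul, coeff_th]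
      by_cases hd : l ∣ j + 1
      · rw [coeff_od_not _ _ _ _ _ _ (hnd _ hd), mul_zero, add_zero]
        obtain ⟨i, hi⟩ := hd
        have hi1 : 1 ≤ i := by
          rcases Nat.eq_zero_or_pos i with h | h
          · rw [h] at hi; omega
          · exact h
        rw [hi, coeff_sb_mul, coeff_C_mul, map_sub]
        rcases Nat.even_or_odd (l * i) with he | ho
        · have hj' : Odd j := by
            rw [← hi] at he
            exact (Nat.even_add_one.1 he) |> fun h => Nat.not_even_iff_odd.1 h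
          have h8 : (l : A) = φ (l : 𝕜) := (map_natCast φ l).symm
          have h9 : φ (-((l : 𝕜) / 2) * (coeff i Q - coeff i B)) =
              -(φ (l : 𝕜) * φ (1 / 2 * (coeff i Q - coeff i B))) := by
            rw [← map_mul, ← map_neg]
            congr 1
            ring
          rw [hj'.neg_one_pow, he1 i hi1 (by omega) he, h9, h8]
          ring
        · have hlo : Odd l := (Nat.odd_mul.1 ho).1
          have hio : Odd i := (Nat.odd_mul.1 ho).2
          rw [(hodd hlo i hio).1, (hodd hlo i hio).2, ho2 (l * i) (by omega) (by omega) ho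
            (hnd _ (Dvd.intro _ rfl))]
          simp
      · rw [coeff_sb_not _ _ _ _ hd, mul_zero, zero_add]
        by_cases hd' : l ∣ j + 1 + 1
        · obtain ⟨i, hi⟩ := hd'
          have hi1 : 1 ≤ i := by
            rcases Nat.eq_zero_or_pos i with h | h
            · rw [h] at hi; omega
            · exact h
          obtain ⟨i, rfl⟩ : ∃ i', i = i' + 1 := ⟨i - 1, by omega⟩
          have hji : j + 1 = l * (i + 1) - 1 := by omega
          have hDi := hD i
          rcases Nat.even_or_odd (l * (i + 1)) with he | ho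
          · have hjo : Odd (l * (i + 1) - 1) := by
              rw [← hji]
              rw [← hi] at he
              exact Nat.not_even_iff_odd.1 (Nat.even_add_one.1 he)
            have hj' : Even j := by
              rw [← hji] at hjo
              exact Nat.not_odd_iff_even.1 (Nat.odd_add_one.1 hjo)
            rw [hji, coeff_od_mul, hj'.neg_one_pow, ho1 (i + 1) hi1 (by omega) hjo,
              Nat.add_sub_cancel]
            have h4 : (((l * (i + 1) - 1 : ℕ)) : A) = φ ((l : 𝕜) * ((i : 𝕜) + 1) - 1) := by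
              rw [Nat.cast_sub (by omega)]
              simp
            have h5 : ((l : 𝕜) * ((i : 𝕜) + 1) - 1) * coeff i D = -(1 / 2) * coeff (i + 1) Q := by
              linear_combination (1 / 2) * hDi
            rw [h4, ← h5, map_mul]
            ring
          · have hlo : Odd l := (Nat.odd_mul.1 ho).1
            have hio : Odd (i + 1) := (Nat.odd_mul.1 ho).2
            have hje : Even (j + 1) := by
              rw [← hi] at ho
              exact Nat.not_odd_iff_even.1 (Nat.odd_add_one.1 ho)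
            have hDz : coeff i D = 0 := by
              rw [(hodd hlo _ hio).1, neg_zero] at hDi
              refine (mul_eq_zero.1 hDi).resolve_left ?_
              have : (2 * (l : 𝕜) * ((i : 𝕜) + 1) - 2) = ((2 * l * (i + 1) - 2 : ℕ) : 𝕜) := by
                rw [Nat.cast_sub (by nlinarith)]
                push_cast
                ring
              rw [this]
              refine Nat.cast_ne_zero.2 ?_
              have : 2 * l * (i + 1) = 2 * (j + 1 + 1) := by rw [hi]; ring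
              omega
            rw [he2 (j + 1) (by omega) (by omega) hje hd, hji, coeff_od_mul, hDz]
            simp
        · rw [coeff_od_not _ _ _ _ _ _ hd', mul_zero]
          rcases Nat.even_or_odd (j + 1) with he | ho
          · rw [he2 (j + 1) (by omega) (by omega) he hd, mul_zero]
          · rw [ho2 (j + 1) (by omega) (by omega) ho hd', mul_zero]
  refine ⟨hall, ?_, ?_⟩
  · rw [hall r le_rfl, mul_add, mul_one, od_mul, map_add, hr, coeff_sb_mul,
      coeff_od_not _ _ _ _ _ _ (hnd _ (Dvd.intro _ rfl))]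
    ring
  · have h6 : r - 1 = l * ((m - 2) + 1) - 1 := by rw [hr, show m - 2 + 1 = m - 1 by omega]
    have h7 : ¬ l ∣ r - 1 := fun h => by
      refine hnd _ h ?_
      have : 1 ≤ l * (m - 1) := Nat.mul_pos (by omega) (by omega)
      rw [hr, Nat.sub_add_cancel this]
      exact Dvd.intro _ rfl
    rw [hall (r - 1) (Nat.sub_le _ _), mul_add, mul_one, od_mul, map_add,
      coeff_sb_not _ _ _ _ h7, h6, coeff_od_mul]
    ring

end core

section closed

variable {𝕜 : Type*} [Field 𝕜] [CharZero 𝕜]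

/-- `B = θ log (1 + 2 μ X)`. -/
noncomputable def Bs (μ : 𝕜) : 𝕜⟦X⟧ := mk fun i => if i = 0 then 0 else -(-(2 * μ)) ^ i

omit [CharZero 𝕜] in
theorem Bs_mul (μ : 𝕜) : Bs μ * (1 + C (2 * μ) * X) = C (2 * μ) * X := by
  ext n
  rw [mul_add, mul_one, map_add, show Bs μ * (C (2 * μ) * X) = C (2 * μ) * (Bs μ * X) by ring,
    coeff_C_mul, coeff_C_mul]
  cases n with
  | zero => simp [Bs]
  | succ n =>
    rw [coeff_succ_mul_X, Bs, coeff_mk, coeff_mk, coeff_X, if_neg (Nat.succ_ne_zero n)]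
    cases n with
    | zero => simp
    | succ n =>
      rw [if_neg (Nat.succ_ne_zero n), if_neg (by omega)]
      ring

omit [CharZero 𝕜] in
theorem coeff_Bs (μ : 𝕜) {i : ℕ} (hi : 1 ≤ i) : coeff i (Bs μ) = -(-(2 * μ)) ^ i := by
  rw [Bs, coeff_mk, if_neg (by omega)]

omit [CharZero 𝕜] in
theorem constantCoeff_Bs (μ : 𝕜) : constantCoeff (Bs μ) = 0 := by
  rw [← coeff_zero_eq_constantCoeff_apply, Bs, coeff_mk, if_pos rfl]

/-- `P = q ^ (m + 1) / (1 + 2 μ X)`, `Q = θ log P`: then `c₀ = (P / (1 + 2 μ X)) ^ (1/2)` exists. -/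
theorem exists_c₀ (m : ℕ) (μ : 𝕜) {Q : 𝕜⟦X⟧}
    (hQ : Q * ((1 + C μ * X + X ^ 2) * (1 + C (2 * μ) * X)) =
      C ((m : 𝕜) + 1) * (C μ * X + 2 * X ^ 2) * (1 + C (2 * μ) * X)
        - C (2 * μ) * X * (1 + C μ * X + X ^ 2)) :
    constantCoeff Q = 0 ∧ ∃ c₀ : 𝕜⟦X⟧, constantCoeff c₀ = 1 ∧ 2 * th c₀ = (Q - Bs μ) * c₀ ∧
      c₀ ^ 2 * (1 + C (2 * μ) * X) ^ 2 = (1 + C μ * X + X ^ 2) ^ (m + 1) := by
  have hQ0 : constantCoeff Q = 0 := by
    have := congrArg constantCoeff hQ
    simpa using this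
  refine ⟨hQ0, ?_⟩
  have hH0 : constantCoeff (C (1 / 2 : 𝕜) * (Q - Bs μ)) = 0 := by
    rw [map_mul, map_sub, hQ0, constantCoeff_Bs]
    simp
  obtain ⟨c₀, h1, h2⟩ := ode_exists (C (1 / 2 : 𝕜) * (Q - Bs μ)) hH0
  have h2' : 2 * th c₀ = (Q - Bs μ) * c₀ := by
    rw [h2, ← map_ofNat (C : 𝕜 →+* 𝕜⟦X⟧) 2, ← mul_assoc, ← mul_assoc, ← map_mul]
    simp
  refine ⟨c₀, h1, h2', ?_⟩
  set q : 𝕜⟦X⟧ := 1 + C μ * X + X ^ 2 with hq
  set u : 𝕜⟦X⟧ := 1 + C (2 * μ) * X with hu
  have hthu : th u = C (2 * μ) * X := by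
    rw [hu, th_add, th_one, th_C_mul, th_X]
    ring
  have hthq : th q = C μ * X + 2 * X ^ 2 := by
    rw [hq, th_add, th_add, th_one, th_C_mul, th_X, sq, th_mul, th_X]
    ring
  have hB := Bs_mul μ
  rw [← hu] at hB
  have hcc : ∀ f : 𝕜⟦X⟧, constantCoeff f = 1 → f ≠ 0 := fun f hf h => by
    rw [h] at hf
    simp at hf
  have hqu : q * u ≠ 0 := hcc _ (by simp [hq, hu])
  have hu0 : u ≠ 0 := hcc _ (by simp [hu])
  have hC : C ((m : 𝕜) + 1) = ((m : 𝕜⟦X⟧) + 1) := by simp
  rw [hC] at hQ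
  -- both sides solve `θ F = (Q + B) F`
  refine ode_unique (H := Q + Bs μ) ?_ ?_ ?_ ?_
  · have e1 : th (c₀ ^ 2 * u ^ 2) = 2 * th c₀ * (c₀ * u ^ 2) + 2 * (c₀ ^ 2 * u) * th u := by
      rw [th_mul, show c₀ ^ 2 = c₀ ^ (1 + 1) from rfl, th_pow, show u ^ 2 = u ^ (1 + 1) from rfl,
        th_pow]
      push_cast
      ring
    rw [e1, h2', hthu]
    linear_combination (-2 * c₀ ^ 2 * u) * hB
  · rw [th_pow]
    refine mul_left_cancel₀ hqu ?_
    rw [hthq]
    linear_combination (-q ^ (m + 1)) * hQ - (q * q ^ (m + 1)) * hB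
  · rw [map_add, hQ0, constantCoeff_Bs, add_zero]
  · simp [h1, hq, hu]

/-- The existence of `D`. -/
theorem exists_D {l : ℕ} (hl : 2 ≤ l) (Q : 𝕜⟦X⟧) :
    ∃ D : 𝕜⟦X⟧, ∀ i : ℕ, (2 * (l : 𝕜) * ((i : 𝕜) + 1) - 2) * coeff i D = - coeff (i + 1) Q := by
  refine ⟨mk fun i => - coeff (i + 1) Q / (2 * (l : 𝕜) * ((i : 𝕜) + 1) - 2), fun i => ?_⟩
  rw [coeff_mk]
  refine mul_div_cancel₀ _ ?_
  have h1 : 2 * 1 < 2 * l * (i + 1) := by nlinarith
  have : (2 * (l : 𝕜) * ((i : 𝕜) + 1) - 2) = ((2 * l * (i + 1) - 2 : ℕ) : 𝕜) := by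
    rw [Nat.cast_sub (by omega)]
    push_cast
    ring
  rw [this]
  exact Nat.cast_ne_zero.2 (by omega)

end closed

end Crest.Agent.R208.GA
private theorem rz_38a90255cd : type_of% @_root_.Crest.Agent.R208.GA.oc.eq_1 := @_root_.Crest.Agent.R208.GA.oc.eq_1 -- L120
private theorem rz_84e2745718 : type_of% @_root_.Crest.Agent.R208.GA.oc.eq_def := @_root_.Crest.Agent.R208.GA.oc.eq_def -- L120
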