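import Crest.Agent.R208.GT7
import Crest.Agent.R208.CM0

/-!
Row 208, block GR (helper566), part GR1: the rotation circle action on the manifold of orthonormal
pairs, and the invariance of `T_J`, `F_J`, `ℓ`, `V₀` under it.
-/

set_option autoImplicit false
set_option linter.unusedSectionVars false

open Set Filter Topology Module Metric
open scoped ContDiff RealInnerProductSpace
open Crest.GeometryTopology.Submanifold
open Crest.Agent.R241.DDefs
open Crest.Agent.R241.D2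
open Crest.Agent.R208.CM (Cir)

noncomputable section

namespace Crest.Agent.R208.GT

/-! ### the rotation of pairs -/

section Gen

variable {E H : Type*} [NormedAddCommGroup E] [NormedSpace ℝ E] [NormedAddCommGroup H]
  [InnerProductSpace ℝ H]

/-- rotation of the pair `(v₀, v₁)` by the angle `t` -/
def rt (t : ℝ) (ζ : E × (Fin 2 → H)) : E × (Fin 2 → H) :=
  (ζ.1, ![Real.cos t • ζ.2 0 + Real.sin t • ζ.2 1,
    (-Real.sin t) • ζ.2 0 + Real.cos t • ζ.2 1])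

lemma rt_fst (t : ℝ) (ζ : E × (Fin 2 → H)) : (rt t ζ).1 = ζ.1 := rfl

lemma rt_zero' (t : ℝ) (ζ : E × (Fin 2 → H)) :
    (rt t ζ).2 0 = Real.cos t • ζ.2 0 + Real.sin t • ζ.2 1 := rfl

lemma rt_one' (t : ℝ) (ζ : E × (Fin 2 → H)) :
    (rt t ζ).2 1 = (-Real.sin t) • ζ.2 0 + Real.cos t • ζ.2 1 := rfl

lemma rt_ext {ζ ξ : E × (Fin 2 → H)} (h : ζ.1 = ξ.1) (h0 : ζ.2 0 = ξ.2 0) (h1 : ζ.2 1 = ξ.2 1) :
    ζ = ξ := by
  refine Prod.ext h (funext fun i => ?_)
  fin_cases i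
  · exact h0
  · exact h1

lemma rt_at_zero (ζ : E × (Fin 2 → H)) : rt 0 ζ = ζ := by
  refine rt_ext rfl ?_ ?_
  · rw [rt_zero', Real.cos_zero, Real.sin_zero, one_smul, zero_smul, add_zero]
  · rw [rt_one', Real.cos_zero, Real.sin_zero, one_smul, neg_zero, zero_smul, zero_add]

lemma rt_add (s t : ℝ) (ζ : E × (Fin 2 → H)) : rt (s + t) ζ = rt s (rt t ζ) := by
  refine rt_ext rfl ?_ ?_
  · simp only [rt_zero', rt_one', Real.cos_add, Real.sin_add]
    module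
  · simp only [rt_zero', rt_one', Real.cos_add, Real.sin_add]
    module

lemma rt_per (ζ : E × (Fin 2 → H)) : rt (2 * Real.pi) ζ = ζ := by
  refine rt_ext rfl ?_ ?_
  · rw [rt_zero', Real.cos_two_pi, Real.sin_two_pi, one_smul, zero_smul, add_zero]
  · rw [rt_one', Real.cos_two_pi, Real.sin_two_pi, one_smul, neg_zero, zero_smul, zero_add]

lemma contDiff_rt : ContDiff ℝ ∞ (fun q : ℝ × (E × (Fin 2 → H)) => rt q.1 q.2) := by
  have hv : ∀ i : Fin 2, ContDiff ℝ ∞ (fun q : ℝ × (E × (Fin 2 → H)) => q.2.2 i) := fun i =>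
    (contDiff_apply ℝ H i).comp (contDiff_snd.comp contDiff_snd)
  have hc : ContDiff ℝ ∞ (fun q : ℝ × (E × (Fin 2 → H)) => Real.cos q.1) :=
    Real.contDiff_cos.comp contDiff_fst
  have hs : ContDiff ℝ ∞ (fun q : ℝ × (E × (Fin 2 → H)) => Real.sin q.1) :=
    Real.contDiff_sin.comp contDiff_fst
  refine (contDiff_fst.comp contDiff_snd).prodMk (contDiff_pi.2 fun i => ?_)
  fin_cases i
  · exact (hc.smul (hv 0)).add (hs.smul (hv 1))
  · exact (hs.neg.smul (hv 0)).add (hc.smul (hv 1))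

lemma inner_rt {u v : H} (hu : ‖u‖ = 1) (hv : ‖v‖ = 1) (huv : ⟪u, v⟫ = 0) (a b c d : ℝ) :
    ⟪a • u + b • v, c • u + d • v⟫ = a * c + b * d := by
  have huv' : ⟪v, u⟫ = 0 := by rw [real_inner_comm]; exact huv
  rw [inner_add_left, inner_add_right, inner_add_right]
  simp only [real_inner_smul_left, real_inner_smul_right, real_inner_self_eq_norm_sq, hu, hv, huv,
    huv']
  ring

lemma orthonormal_pair {v : Fin 2 → H} :
    Orthonormal ℝ v ↔ ‖v 0‖ = 1 ∧ ‖v 1‖ = 1 ∧ ⟪v 0, v 1⟫ = 0 := by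
  constructor
  · intro h
    exact ⟨h.1 0, h.1 1, h.2 (by decide)⟩
  · rintro ⟨h0, h1, h2⟩
    refine ⟨fun i => ?_, fun i j hij => ?_⟩
    · fin_cases i
      · exact h0
      · exact h1
    · fin_cases i <;> fin_cases j
      · exact absurd rfl hij
      · exact h2
      · rw [real_inner_comm]; exact h2
      · exact absurd rfl hij

lemma orthonormal_rt {ζ : E × (Fin 2 → H)} (h : Orthonormal ℝ ζ.2) (t : ℝ) :
    Orthonormal ℝ (rt t ζ).2 := by
  obtain ⟨h0, h1, h2⟩ := orthonormal_pair.1 h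
  refine orthonormal_pair.2 ⟨?_, ?_, ?_⟩
  · rw [rt_zero', ← sq_eq_sq₀ (norm_nonneg _) zero_le_one, ← real_inner_self_eq_norm_sq,
      inner_rt h0 h1 h2]
    nlinarith [Real.sin_sq_add_cos_sq t]
  · rw [rt_one', ← sq_eq_sq₀ (norm_nonneg _) zero_le_one, ← real_inner_self_eq_norm_sq,
      inner_rt h0 h1 h2]
    nlinarith [Real.sin_sq_add_cos_sq t]
  · rw [rt_zero', rt_one', inner_rt h0 h1 h2]
    ring

variable {X : Set E} {P : E → H →L[ℝ] H}

lemma rt_mem {ζ : E × (Fin 2 → H)} (hζ : ζ ∈ FI.Fr X P 2) (t : ℝ) : rt t ζ ∈ FI.Fr X P 2 := by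
  refine ⟨hζ.1, fun i => ?_, orthonormal_rt hζ.2.2 t⟩
  have h0 := hζ.2.1 0
  have h1 := hζ.2.1 1
  fin_cases i
  · change P ζ.1 ((rt t ζ).2 0) = (rt t ζ).2 0
    rw [rt_zero', map_add, map_smul, map_smul, h0, h1]
  · change P ζ.1 ((rt t ζ).2 1) = (rt t ζ).2 1
    rw [rt_one', map_add, map_smul, map_smul, h0, h1]

/-- **the free circle action** of the rotations on the orthonormal pairs -/
theorem cir_Fr : Cir (FI.Fr X P 2) (rt (E := E) (H := H)) where
  smooth := fun t ζ _ => contDiff_rt.contDiffAt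
  maps := fun t ζ hζ => rt_mem hζ t
  zero := fun ζ _ => rt_at_zero ζ
  add := fun s t ζ _ => rt_add s t ζ
  per := fun ζ _ => rt_per ζ
  free := fun t ζ hζ h => by
    obtain ⟨h0, h1, h2⟩ := orthonormal_pair.1 hζ.2.2
    have e := congrArg (fun ξ : E × (Fin 2 → H) => ⟪ξ.2 0, ζ.2 0⟫) h
    simp only [rt_zero'] at e
    have e1 : ⟪Real.cos t • ζ.2 0 + Real.sin t • ζ.2 1, ζ.2 0⟫ = Real.cos t := by
      have := inner_rt h0 h1 h2 (Real.cos t) (Real.sin t) 1 0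
      rw [one_smul, zero_smul, add_zero] at this
      rw [this]; ring
    rw [e1, real_inner_self_eq_norm_sq, h0, one_pow] at e
    obtain ⟨k, hk⟩ := (Real.cos_eq_one_iff t).1 e
    exact ⟨k, by rw [← hk]; ring⟩

end Gen

/-! ### invariance of the pencil fields -/

variable {n N k : ℕ} {κ : ℝ} {S : Set (Euc N)} {G : Geo n N κ S}
  {PV : Euc N × Euc N → Euc N →L[ℝ] Euc N} {ζ : (Euc N × Euc N) × (Fin 2 → Euc N)}

theorem cir_ZZ : Cir (ZZ S PV) (rt (E := Euc N × Euc N) (H := Euc N)) := cir_Fr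

lemma mS_add_smul (z : Euc N × Euc N) (v w : Euc N) (a b : ℝ) :
    mS G PV z (a • v + b • w) = a • mS G PV z v + b • mS G PV z w := by
  have h1 : Sf G PV z (a • v + b • w) = a • Sf G PV z v + b • Sf G PV z w := by
    ext y
    simp only [Sf_apply, map_add, map_smul, add_apply, FunLike.coe_smul, Pi.smul_apply]
  rw [mS, h1, SP.mt_add, SP.mt_smul, SP.mt_smul]
  rfl

variable (hV : VField G PV) (h : Bla G k)

include hV h

theorem TJ_rt (hζ : ζ ∈ ZZ S PV) (t : ℝ) : TJ G PV (rt t ζ) = TJ G PV ζ := by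
  have h1 := (pencil_ZZ hV h hζ).tj_rot (c := Real.cos t) (s := Real.sin t)
    (by rw [Real.cos_sq_add_sin_sq])
  have e0 : mS G PV ζ.1 ((rt t ζ).2 0) =
      Real.cos t • mS G PV ζ.1 (ζ.2 0) + Real.sin t • mS G PV ζ.1 (ζ.2 1) := by
    rw [rt_zero', mS_add_smul]
  have e1 : mS G PV ζ.1 ((rt t ζ).2 1) =
      -(Real.sin t • mS G PV ζ.1 (ζ.2 0)) + Real.cos t • mS G PV ζ.1 (ζ.2 1) := by
    rw [rt_one', mS_add_smul, neg_smul]
  rw [TJ, rt_fst, e0, e1, h1]
  rfl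

theorem FJ_rt (hζ : ζ ∈ ZZ S PV) (t : ℝ) : FJ G PV (rt t ζ) = FJ G PV ζ := by
  have h1 := (pencil_ZZ hV h hζ).fj_rot (c := Real.cos t) (s := Real.sin t)
    (by rw [Real.cos_sq_add_sin_sq])
  have e0 : mS G PV ζ.1 ((rt t ζ).2 0) =
      Real.cos t • mS G PV ζ.1 (ζ.2 0) + Real.sin t • mS G PV ζ.1 (ζ.2 1) := by
    rw [rt_zero', mS_add_smul]
  have e1 : mS G PV ζ.1 ((rt t ζ).2 1) =
      -(Real.sin t • mS G PV ζ.1 (ζ.2 0)) + Real.cos t • mS G PV ζ.1 (ζ.2 1) := by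
    rw [rt_one', mS_add_smul, neg_smul]
  rw [FJ, rt_fst, e0, e1, h1]
  rfl

omit hV h in
theorem LL_rt (ζ : (Euc N × Euc N) × (Fin 2 → Euc N)) (t : ℝ) : LL (rt t ζ) = LL ζ := by
  have h1 := SP.qL_rotate (fun c => ζ.2 0 c) (fun c => ζ.2 1 c) (c := Real.cos t)
    (s := Real.sin t) (by rw [Real.cos_sq_add_sin_sq])
  rw [LL, LL, ← h1]
  congr 1
  funext c
  rw [rt_one']
  simp


end Crest.Agent.R208.GT
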