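import Crest.Agent.R208.GT7
import Crest.Agent.R208.CM3e
import Crest.Agent.R208.CW7b
import Crest.Agent.R208.GR1

-- ▼ part R208/GD1
section

/-!
Row 208, block GD (helper107), part GD1: fields on an arbitrary manifold `Y` which are pointwise
the fields `T_J, F_J, ℓ` of a point of `Z = V_2(V)`: idempotency and the relations of GT5/GT7.
-/

set_option autoImplicit false

open Set Filter Topology Module Metric
open scoped ContDiff RealInnerProductSpace Kronecker Matrix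
open Crest.GeometryTopology.Submanifold
open Crest.Agent.R241.DDefs
open Crest.Agent.R241.D2
open Crest.Agent.R208.CW (IdF SM)
open Crest.Agent.R208.FI (Sub Clo)

noncomputable section

namespace Crest.Agent.R208.GT

variable {n N k d : ℕ} {κ : ℝ} {S : Set (Euc N)} {G : Geo n N κ S}
  {PV : Euc N × Euc N → Euc N →L[ℝ] Euc N}
  {E' : Type*} [NormedAddCommGroup E'] [NormedSpace ℝ E'] [FiniteDimensional ℝ E'] {Y : Set E'}
  {z : E' → Euc N × Euc N} {T F L : E' → Matrix (Fin N) (Fin N) ℂ}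

/-- fields on `Y` which are pointwise `(p,q), T_J, F_J, ℓ` at a point of `ZZ` -/
structure Des (G : Geo n N κ S) (PV : Euc N × Euc N → Euc N →L[ℝ] Euc N) (Y : Set E')
    (z : E' → Euc N × Euc N) (T F L : E' → Matrix (Fin N) (Fin N) ℂ) : Prop where
  sz : ∀ y ∈ Y, ContDiffAt ℝ ∞ z y
  sT : ∀ y ∈ Y, SM ∞ T y
  sF : ∀ y ∈ Y, SM ∞ F y
  sL : ∀ y ∈ Y, SM ∞ L y
  ex : ∀ y ∈ Y, ∃ ζ ∈ ZZ S PV, z y = ζ.1 ∧ T y = TJ G PV ζ ∧ F y = FJ G PV ζ ∧ L y = LL ζ


/-- the isomorphism `T_J ⊗ ℓ ≅ F_J`, pointwise -/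
theorem pIso_ZZ (hV : VField G PV) (h : Bla G k) {ζ : (Euc N × Euc N) × (Fin 2 → Euc N)}
    (hζ : ζ ∈ ZZ S PV) : ∃ W, SP.PIso (TJ G PV ζ ⊗ₖ LL ζ) (FJ G PV ζ)
      (SP.sT (fun c => mS G PV ζ.1 (bas N c)) (TJ G PV ζ) (LL ζ)) W := by
  have h1 := pencil_ZZ hV h hζ
  have e0 := mS_sum (G := G) (PV := PV) ζ.1 (ζ.2 0)
  have e1 := mS_sum (G := G) (PV := PV) ζ.1 (ζ.2 1)
  rw [e0, e1] at h1
  have h2 := SP.Pencil.tensor (dot_self (hζ.2.2.1 0)) (dot_self (hζ.2.2.1 1)) h1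
  rw [← e0, ← e1] at h2
  exact ⟨_, h2⟩

namespace Des

theorem smap (hD : Des G PV Y z T F L) : CW.SMap Y (FF S) z :=
  ⟨hD.sz, fun y hy => by obtain ⟨ζ, hζ, e, -⟩ := hD.ex y hy; rw [e]; exact hζ.1⟩

theorem mem (hD : Des G PV Y z T F L) {y : E'} (hy : y ∈ Y) : z y ∈ FF S := hD.smap.maps hy

variable (hV : VField G PV) (h : Bla G k)

include hV h

theorem idf_T (hD : Des G PV Y z T F L) : IdF Y T := ⟨hD.sT, fun y hy => by
  obtain ⟨ζ, hζ, -, e, -, -⟩ := hD.ex y hy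
  rw [e]; exact (idf_TJ hV h).idem ζ hζ⟩

theorem idf_F (hD : Des G PV Y z T F L) : IdF Y F := ⟨hD.sF, fun y hy => by
  obtain ⟨ζ, hζ, -, -, e, -⟩ := hD.ex y hy
  rw [e]; exact (idf_FJ hV h).idem ζ hζ⟩

omit hV h in
theorem idf_L (hD : Des G PV Y z T F L) : IdF Y L := ⟨hD.sL, fun y hy => by
  obtain ⟨ζ, hζ, -, -, -, e⟩ := hD.ex y hy
  rw [e]; exact (idf_LL (PV := PV)).idem ζ hζ⟩

/-- `T_q C_p ⊗ ℂ` -/
theorem idf_TC (hD : Des G PV Y z T F L) : IdF Y (fun y => SP.cr (mP G PV (z y))) :=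
  (idf_TCF hV h).comp hD.smap

/-- `T_p C_q ⊗ ℂ` -/
theorem idf_TC' (hD : Des G PV Y z T F L) : IdF Y (fun y => SP.cr (mP G PV (z y).swap)) :=
  (idf_TCF hV h).comp (smap_swap.comp hD.smap)

/-- **`F = T ⊗ L`** on classes -/
theorem sc_F (hD : Des G PV Y z T F L) (hY : Sub d Y) (j : ℕ) :
    CW.sc hY (hD.idf_F hV h) j = ∑ i ∈ Finset.range (j + 1), (j.choose i : CW.H Y) *
      CW.sc hY (hD.idf_T hV h) i * CW.sc hY hD.idf_L (j - i) := by
  rw [← CW.sc_kron hY (hD.idf_T hV h) hD.idf_L]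
  symm
  refine CW.sc_iso hY ((hD.idf_T hV h).kron hD.idf_L) (hD.idf_F hV h)
    (S := fun y => SP.sT (fun c => mS G PV (z y) (bas N c)) (T y) (L y)) ?_ ?_ j
  · intro y hy
    exact SP.MSm.sT (fun c => smooth_mS hV (hD.sz y hy) (hD.mem hy) contDiffAt_const)
      (hD.sT y hy) (hD.sL y hy)
  · intro y hy
    obtain ⟨ζ, hζ, e1, e2, e3, e4⟩ := hD.ex y hy
    simp only [e1, e2, e3, e4]
    exact pIso_ZZ hV h hζ

/-- `T_q C_p ⊗ ℂ = T + conj T` -/
theorem sc_TC (hD : Des G PV Y z T F L) (hY : Sub d Y) (j : ℕ) :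
    CW.sc hY (hD.idf_TC hV h) j = (1 + (-1) ^ j) * CW.sc hY (hD.idf_T hV h) j := by
  refine CW.sc_add_conj hY (hD.idf_TC hV h) (hD.idf_T hV h) ?_ ?_ ?_ j
  · intro y hy
    obtain ⟨ζ, hζ, e1, e2, -, -⟩ := hD.ex y hy
    rw [e1, e2]
    exact ((pencil_ZZ hV h hζ).tj_add_cj).symm
  · intro y hy
    obtain ⟨ζ, hζ, -, e2, -, -⟩ := hD.ex y hy
    rw [e2]
    exact (pencil_ZZ hV h hζ).tj_mul_cj
  · intro y hy
    obtain ⟨ζ, hζ, -, e2, -, -⟩ := hD.ex y hy
    rw [e2]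
    exact (pencil_ZZ hV h hζ).cj_mul_tj

/-- `T_p C_q ⊗ ℂ = F + conj F` -/
theorem sc_TC' (hD : Des G PV Y z T F L) (hY : Sub d Y) (j : ℕ) :
    CW.sc hY (hD.idf_TC' hV h) j = (1 + (-1) ^ j) * CW.sc hY (hD.idf_F hV h) j := by
  refine CW.sc_add_conj hY (hD.idf_TC' hV h) (hD.idf_F hV h) ?_ ?_ ?_ j
  · intro y hy
    obtain ⟨ζ, hζ, e1, -, e2, -⟩ := hD.ex y hy
    rw [e1, e2]
    exact ((pencil_ZZ hV h hζ).fj_add_cj).symm
  · intro y hy
    obtain ⟨ζ, hζ, -, -, e2, -⟩ := hD.ex y hy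
    rw [e2]
    exact (pencil_ZZ hV h hζ).fj_mul_cj
  · intro y hy
    obtain ⟨ζ, hζ, -, -, e2, -⟩ := hD.ex y hy
    rw [e2]
    exact (pencil_ZZ hV h hζ).cj_mul_fj

end Des

end Crest.Agent.R208.GT
end
end

-- ▼ part R208/GD2
section

/-!
Row 208, block GD (helper107), part GD2: complex lines over the quotient of a free circle action
which come from a field of vectors of weight one: their first class is a multiple of the Euler class
of the tautological plane field of CM3.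
-/

set_option autoImplicit false
set_option linter.unusedSectionVars false
set_option linter.unusedVariables false

open Set Filter Topology Module MeasureTheory
open scoped ContDiff RealInnerProductSpace ComplexConjugate
open Crest.Agent.R208.F Crest.Agent.R208.FI
open Crest.Agent.R208.CW (IdF SM)

noncomputable section

namespace Crest.Agent.R208.CM

variable {m : ℕ} {E : Type} [NormedAddCommGroup E] [NormedSpace ℝ E] [FiniteDimensional ℝ E]
  {X : Set E} {φ : ℝ → E → E} {g : E → Fin m → ℂ} {n d : ℕ}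

/-- half the complex matrix: the `+i` eigenprojection of the realification -/
def Hm (Q : MM m) : Matrix (RI m) (RI m) ℂ := Matrix.of fun p q => (1 / 2) * ce Q p q

/-- its conjugate -/
def Hc (Q : MM m) : Matrix (RI m) (RI m) ℂ := Matrix.of fun p q => (1 / 2) * conj (ce Q p q)

/-- the complex structure -/
def Jc (Q : MM m) : Matrix (RI m) (RI m) ℂ := Matrix.of fun p q => ((-(ce Q p q).im : ℝ) : ℂ)

theorem mtx_PL (Q : MM m) : T.mtx (PL Q) = Hm Q + Hc Q := by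
  rw [PL, Emb.mtx_mE']
  ext p q
  rw [Matrix.map_apply, Pm, Matrix.of_apply, Matrix.add_apply, Hm, Hc, Matrix.of_apply,
    Matrix.of_apply]
  refine Complex.ext ?_ ?_ <;> simp <;> ring

theorem Jc_eq (Q : MM m) : Jc Q = Complex.I • (Hm Q - Hc Q) := by
  ext p q
  rw [Matrix.smul_apply, Matrix.sub_apply, Hm, Hc, Jc, Matrix.of_apply, Matrix.of_apply,
    Matrix.of_apply]
  refine Complex.ext ?_ ?_ <;> simp <;> ring

theorem Hm_eq (Q : MM m) :
    ((1 : ℂ) / 2) • T.mtx (PL Q) + Complex.I • ((1 : ℂ) / 2) • (- Jc Q) = Hm Q := by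
  rw [mtx_PL, Jc_eq]
  have h1 : Complex.I • ((1 : ℂ) / 2) • (-(Complex.I • (Hm Q - Hc Q))) =
      (-(Complex.I * Complex.I) * (1 / 2)) • (Hm Q - Hc Q) := by
    rw [← smul_neg, smul_smul, smul_smul]
    rw [smul_neg, ← neg_smul]
    congr 1; ring
  rw [h1, Complex.I_mul_I]
  module

/-- the entries of `g` in real coordinates -/
def av (z : Fin m → ℂ) (p : RI m) : ℂ := z p.1 * wz p.2

theorem av_sum {z : Fin m → ℂ} (hz : ∑ a, ‖z a‖ ^ 2 = 1) : ∑ p, conj (av z p) * av z p = 2 := by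
  have h1 : ∀ a, conj (z a) * z a = ((‖z a‖ ^ 2 : ℝ) : ℂ) := fun a => by
    rw [mul_comm, Complex.mul_conj, Complex.normSq_eq_norm_sq]
  rw [Fintype.sum_prod_type]
  simp only [Fin.sum_univ_two, av, wz_zero, wz_one, mul_one, map_mul, map_neg, map_one,
    Complex.conj_I]
  have h2 : ∀ a, conj (z a) * z a + conj (z a) * - -Complex.I * (z a * -Complex.I) =
      2 * ((‖z a‖ ^ 2 : ℝ) : ℂ) := by
    intro a
    rw [← h1]
    linear_combination (-(conj (z a) * z a)) * Complex.I_mul_I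
  rw [Finset.sum_congr rfl fun a _ => h2 a, ← Finset.mul_sum, ← Complex.ofReal_sum, hz]
  simp

theorem av_sq (z : Fin m → ℂ) : ∑ p, av z p * av z p = 0 := by
  rw [Fintype.sum_prod_type]
  simp only [Fin.sum_univ_two, av, wz_zero, wz_one, mul_one]
  refine Finset.sum_eq_zero fun a _ => ?_
  linear_combination (z a * z a) * Complex.I_mul_I

theorem av_sq' (z : Fin m → ℂ) : ∑ p, conj (av z p) * conj (av z p) = 0 := by
  have h1 := congrArg conj (av_sq z)
  rw [map_sum, map_zero] at h1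
  rw [← h1]
  exact Finset.sum_congr rfl fun p _ => by rw [map_mul]

theorem Hm_jj (x : E) (p q : RI m) : Hm (jj g x) p q = (1 / 2) * (av (g x) p * conj (av (g x) q)) := by
  rw [Hm, Matrix.of_apply, ce_jj]; rfl

theorem Hc_jj (x : E) (p q : RI m) : Hc (jj g x) p q = (1 / 2) * (conj (av (g x) p) * av (g x) q) := by
  rw [Hc, Matrix.of_apply, ce_jj, map_mul, Complex.conj_conj]; rfl

theorem Hm_mul_Hm {x : E} (hx : ∑ a, ‖g x a‖ ^ 2 = 1) :
    Hm (jj g x) * Hm (jj g x) = Hm (jj g x) := by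
  ext p r
  rw [Matrix.mul_apply]
  simp only [Hm_jj]
  have h1 : ∀ q, 1 / 2 * (av (g x) p * conj (av (g x) q)) * (1 / 2 * (av (g x) q * conj (av (g x) r)))
      = (1 / 4 * (av (g x) p * conj (av (g x) r))) * (conj (av (g x) q) * av (g x) q) := by
    intro q; ring
  rw [Finset.sum_congr rfl fun q _ => h1 q, ← Finset.mul_sum, av_sum hx]
  ring

theorem Hc_mul_Hc {x : E} (hx : ∑ a, ‖g x a‖ ^ 2 = 1) :
    Hc (jj g x) * Hc (jj g x) = Hc (jj g x) := by
  ext p r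
  rw [Matrix.mul_apply]
  simp only [Hc_jj]
  have h1 : ∀ q, 1 / 2 * (conj (av (g x) p) * av (g x) q) * (1 / 2 * (conj (av (g x) q) * av (g x) r))
      = (1 / 4 * (conj (av (g x) p) * av (g x) r)) * (conj (av (g x) q) * av (g x) q) := by
    intro q; ring
  rw [Finset.sum_congr rfl fun q _ => h1 q, ← Finset.mul_sum, av_sum hx]
  ring

theorem Hm_mul_Hc (x : E) : Hm (jj g x) * Hc (jj g x) = 0 := by
  ext p r
  rw [Matrix.mul_apply]
  simp only [Hm_jj, Hc_jj]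
  have h1 : ∀ q, 1 / 2 * (av (g x) p * conj (av (g x) q)) * (1 / 2 * (conj (av (g x) q) * av (g x) r))
      = (1 / 4 * (av (g x) p * av (g x) r)) * (conj (av (g x) q) * conj (av (g x) q)) := by
    intro q; ring
  rw [Finset.sum_congr rfl fun q _ => h1 q, ← Finset.mul_sum, av_sq', mul_zero]
  rfl

theorem Hc_mul_Hm (x : E) : Hc (jj g x) * Hm (jj g x) = 0 := by
  ext p r
  rw [Matrix.mul_apply]
  simp only [Hm_jj, Hc_jj]
  have h1 : ∀ q, 1 / 2 * (conj (av (g x) p) * av (g x) q) * (1 / 2 * (av (g x) q * conj (av (g x) r)))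
      = (1 / 4 * (conj (av (g x) p) * conj (av (g x) r))) * (av (g x) q * av (g x) q) := by
    intro q; ring
  rw [Finset.sum_congr rfl fun q _ => h1 q, ← Finset.mul_sum, av_sq, mul_zero]
  rfl

theorem Hm_transpose (x : E) : (Hm (jj g x)).transpose = Hc (jj g x) := by
  ext p q
  rw [Matrix.transpose_apply, Hm_jj, Hc_jj]; ring

theorem Hc_transpose (x : E) : (Hc (jj g x)).transpose = Hm (jj g x) := by
  rw [← Hm_transpose, Matrix.transpose_transpose]

/-- `ce` is linear, hence smooth -/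
theorem contDiff_ce {k : WithTop ℕ∞} (p q : RI m) : ContDiff ℝ k (fun Q : MM m => ce Q p q) := by
  have h1 : ContDiff ℝ k (fun Q : MM m => Q p.1 q.1) :=
    contDiff_pi.1 (contDiff_pi.1 contDiff_id p.1) q.1
  exact h1.mul contDiff_const

theorem smooth_Hm (Q : MM m) : SM ∞ (Hm (m := m)) Q := fun p q =>
  (contDiff_const.mul (contDiff_ce p q)).contDiffAt

theorem smooth_Jc (Q : MM m) : SM ∞ (Jc (m := m)) Q := fun p q => by
  have h1 : ContDiff ℝ ∞ (fun Q : MM m => ((-(ce Q p q).im : ℝ) : ℂ)) :=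
    Complex.ofRealCLM.contDiff.comp ((Complex.imCLM.contDiff.comp (contDiff_ce p q)).neg)
  exact h1.contDiffAt

/-- the isomorphism onto a line of weight one -/
def iS {N : ℕ} (S : MM m → Fin N → Fin m → ℂ) (y : MM m) : Matrix (Fin N) (RI m) ℂ :=
  Matrix.of fun a p => S y a p.1 * conj (wz p.2)

theorem iS_apply {N : ℕ} (S : MM m → Fin N → Fin m → ℂ) (y : MM m) (a : Fin N) (p : RI m) :
    iS S y a p = S y a p.1 * conj (wz p.2) := rfl

/-- the inverse of the isomorphism -/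
def iW {N : ℕ} (A : RI m → ℂ) (u : Fin N → ℂ) : Matrix (RI m) (Fin N) ℂ :=
  Matrix.of fun p a => (1 / 4) * (A p * conj (u a))

theorem iW_apply {N : ℕ} (A : RI m → ℂ) (u : Fin N → ℂ) (p : RI m) (a : Fin N) :
    iW A u p a = (1 / 4) * (A p * conj (u a)) := rfl

/-- the frame, complexified, first column -/
def uR (z : Fin m → ℂ) : Matrix (RI m) Unit ℂ := Matrix.of fun p _ => (((av z p).re : ℝ) : ℂ)

theorem uR_apply (z : Fin m → ℂ) (p : RI m) (j : Unit) : uR z p j = (((av z p).re : ℝ) : ℂ) := rfl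

namespace Emb

theorem idf_Hm (hg : Emb X φ g) : IdF (Quo X g) (Hm (m := m)) := ⟨fun Q _ => smooth_Hm Q, by
  rintro _ ⟨x, hx, rfl⟩
  exact Hm_mul_Hm (hg.unit x hx)⟩

/-- the tautological line is a complex line -/
theorem cs_L (hg : Emb X φ g) : CW.CS (ι := Unit) (Quo X g) (fun Q => T.mtx (PL (m := m) Q))
    Jc (T.wC WL) := by
  refine ⟨T.OR.of hg.or_L, fun Q _ => smooth_Jc Q, ?_, ?_, ?_, ?_⟩
  · rintro _ ⟨x, hx, rfl⟩
    rw [Jc_eq, Matrix.transpose_smul, Matrix.transpose_sub, Hm_transpose, Hc_transpose, ← smul_neg,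
      neg_sub]
  · rintro _ ⟨x, hx, rfl⟩
    have h1 := hg.unit x hx
    change Jc (jj g x) * Jc (jj g x) = - T.mtx (PL (jj g x))
    rw [Jc_eq, mtx_PL, Matrix.smul_mul, Matrix.mul_smul, smul_smul, Complex.I_mul_I, sub_mul,
      mul_sub, mul_sub, Hm_mul_Hm h1, Hc_mul_Hc h1, Hm_mul_Hc, Hc_mul_Hm, neg_one_smul]
    abel
  · rintro _ ⟨x, hx, rfl⟩
    have h1 := hg.unit x hx
    change Jc (jj g x) * T.mtx (PL (jj g x)) = Jc (jj g x)
    rw [Jc_eq, mtx_PL, Matrix.smul_mul, sub_mul, mul_add, mul_add, Hm_mul_Hm h1, Hc_mul_Hc h1,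
      Hm_mul_Hc, Hc_mul_Hm, add_zero, zero_add]
  · rintro _ ⟨x, hx, rfl⟩
    have h1 := hg.unit x hx
    have hA : ∀ p, (((av (g x) p).re : ℝ) : ℂ) = (1 / 2) * (av (g x) p + conj (av (g x) p)) := by
      intro p; rw [Complex.add_conj]; push_cast; ring
    have hB : ∀ p, (((av (g x) p).im : ℝ) : ℂ) =
        -(Complex.I / 2) * (av (g x) p - conj (av (g x) p)) := by
      intro p; rw [Complex.sub_conj]
      push_cast
      linear_combination ((av (g x) p).im : ℂ) * Complex.I_mul_I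
    refine ⟨uR (g x), (fm (g x)).map (algebraMap ℝ ℂ), fun p j => rfl, fun p j => ?_, ?_, ?_,
      fun I => ?_⟩
    · rw [Matrix.mul_apply]
      have e1 : ∀ q, Jc (jj g x) p q * uR (g x) q j = (Complex.I / 4 * av (g x) p) * (conj (av (g x) q) * av (g x) q) +
            (Complex.I / 4 * av (g x) p) * (conj (av (g x) q) * conj (av (g x) q)) -
            (Complex.I / 4 * conj (av (g x) p)) * (av (g x) q * av (g x) q) -
            (Complex.I / 4 * conj (av (g x) p)) * (conj (av (g x) q) * av (g x) q) := by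
        intro q
        rw [uR_apply, Jc_eq, Matrix.smul_apply, Matrix.sub_apply, Hm_jj, Hc_jj, hA, smul_eq_mul]
        ring
      rw [Finset.sum_congr rfl fun q _ => e1 q, Finset.sum_sub_distrib, Finset.sum_sub_distrib,
        Finset.sum_add_distrib, ← Finset.mul_sum, ← Finset.mul_sum, ← Finset.mul_sum,
        ← Finset.mul_sum, av_sum h1, av_sq, av_sq']
      have e2 : (fm (g x)).map (algebraMap ℝ ℂ) p (j, 1) = -(((av (g x) p).im : ℝ) : ℂ) := by
        rw [Matrix.map_apply, fm_one]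
        change ((-(g x p.1 * wz p.2).im : ℝ) : ℂ) = _
        rw [Complex.ofReal_neg]; rfl
      rw [e2, hB]
      ring
    · rw [← Matrix.transpose_map, ← Matrix.map_mul, fm_tr_mul h1, Matrix.map_one _ (map_zero _)
        (map_one _)]
    · change _ = T.mtx (PL (jj g x))
      rw [PL, mtx_mE', Pm_jj, ← Matrix.transpose_map, ← Matrix.map_mul]
    · have e1 := RingHom.map_det (algebraMap ℝ ℂ) ((fm (g x)).submatrix I id)
      rw [← WL_jj] at e1
      exact e1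

theorem cc_one {hX : Sub d (Quo X g)} {Q : MM m → Matrix (RI m) (RI m) ℂ} (hQ : IdF (Quo X g) Q) :
    CW.cc hX hQ 1 = CW.sc hX hQ 1 := by
  rw [CW.cc_eq_el]
  have h1 := CW.el_succ (CW.sc hX hQ) 0
  simpa [CW.el_zero] using h1

/-- **the Euler class of the tautological line is its first Chern class** -/
theorem ec_L (hg : Emb X φ g) (hX : Sub d (Quo X g)) :
    CW.ec (T.OR.of hg.or_L) = (2 * Complex.I) • CW.sc hX hg.idf_Hm 1 := by
  have h1 := hg.cs_L.ec_eq hX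
  have h2 : CW.cc hX hg.cs_L.idF 1 = CW.sc hX hg.idf_Hm 1 := by
    rw [cc_one]
    exact CW.sc_congr hX _ _ (fun Q _ => Hm_eq Q) 1
  simp only [Fintype.card_unit, pow_one, Nat.factorial_one, Nat.cast_one, mul_one] at h1
  rw [h2] at h1
  exact h1

variable {N : ℕ} {u : E → Fin N → ℂ} {L : MM m → Matrix (Fin N) (Fin N) ℂ}

/-- **lines of weight one** -/
theorem sc_line_eq (hg : Emb X φ g) (h : Cir X φ) (hX : Clo (n + 1) X)
    (hu : ∀ x ∈ X, ContDiffAt ℝ ∞ u x)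
    (hequi : ∀ x ∈ X, ∀ t : ℝ, u (φ t x) = Complex.exp (t * Complex.I) • u x)
    (hL : IdF (Quo X g) L)
    (hLu : ∀ x ∈ X, ∀ a b, L (jj g x) a b = (1 / 2) * (u x a * conj (u x b)))
    (hn : ∀ x ∈ X, ∑ a, conj (u x a) * u x a = 2) (hQ : Sub d (Quo X g)) (j : ℕ) :
    CW.sc hQ hg.idf_Hm j = CW.sc hQ hL j := by
  obtain ⟨S, hS, hSx⟩ := hg.exists_desc h hX (f := fun x => fun (a : Fin N) (b : Fin m) =>
      u x a * conj (g x b)) (fun x hx => contDiffAt_pi.2 fun a => contDiffAt_pi.2 fun b =>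
        (contDiffAt_pi.1 (hu x hx) a).mul
          (Complex.conjCLE.contDiff.contDiffAt.comp x (contDiffAt_pi.1 (hg.smooth x hx) b)))
      (fun x hx t => by
        funext a b
        rw [hequi x hx, hg.equi x hx]
        simp only [Pi.smul_apply, smul_eq_mul, map_mul]
        have h1 : Complex.exp (t * Complex.I) * conj (Complex.exp (t * Complex.I)) = 1 := by
          rw [Complex.mul_conj, Complex.normSq_eq_norm_sq, Complex.norm_exp_ofReal_mul_I]
          simp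
        linear_combination (u x a * conj (g x b)) * h1)
  refine CW.sc_iso hQ hg.idf_Hm hL (S := iS S) (fun y _ a p => ?_) ?_ j
  · exact ((contDiff_pi.1 (contDiff_pi.1 hS a) p.1).mul contDiff_const).contDiffAt
  · rintro _ ⟨x, hx, rfl⟩
    have hsx : ∀ a (p : RI m), iS S (jj g x) a p = u x a * conj (av (g x) p) := by
      intro a p
      rw [iS_apply, hSx x hx, av, map_mul]; ring
    have h1 := hg.unit x hx
    have h2 := hn x hx
    refine ⟨iW (av (g x)) (u x), ?_, ?_, ?_, ?_, ?_, ?_⟩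
    · ext a q
      rw [Matrix.mul_apply, hsx]
      have e1 : ∀ p, iS S (jj g x) a p * Hm (jj g x) p q =
          (1 / 2 * (u x a * conj (av (g x) q))) * (conj (av (g x) p) * av (g x) p) := by
        intro p; rw [hsx, Hm_jj]; ring
      rw [Finset.sum_congr rfl fun p _ => e1 p, ← Finset.mul_sum, av_sum h1]
      ring
    · ext a q
      rw [Matrix.mul_apply, hsx]
      have e1 : ∀ b, L (jj g x) a b * iS S (jj g x) b q =
          (1 / 2 * (u x a * conj (av (g x) q))) * (conj (u x b) * u x b) := by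
        intro b; rw [hsx, hLu x hx]; ring
      rw [Finset.sum_congr rfl fun p _ => e1 p, ← Finset.mul_sum, h2]
      ring
    · ext p a
      rw [Matrix.mul_apply, iW_apply]
      have e1 : ∀ b, iW (av (g x)) (u x) p b * L (jj g x) b a =
          (1 / 8 * (av (g x) p * conj (u x a))) * (conj (u x b) * u x b) := by
        intro b; rw [iW_apply, hLu x hx]; ring
      rw [Finset.sum_congr rfl fun p _ => e1 p, ← Finset.mul_sum, h2]
      ring
    · ext p a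
      rw [Matrix.mul_apply, iW_apply]
      have e1 : ∀ q, Hm (jj g x) p q * iW (av (g x)) (u x) q a =
          (1 / 8 * (av (g x) p * conj (u x a))) * (conj (av (g x) q) * av (g x) q) := by
        intro q; rw [iW_apply, Hm_jj]; ring
      rw [Finset.sum_congr rfl fun p _ => e1 p, ← Finset.mul_sum, av_sum h1]
      ring
    · ext p q
      rw [Matrix.mul_apply, Hm_jj]
      have e1 : ∀ a, iW (av (g x)) (u x) p a * iS S (jj g x) a q =
          (1 / 4 * (av (g x) p * conj (av (g x) q))) * (conj (u x a) * u x a) := by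
        intro a; rw [iW_apply, hsx]; ring
      rw [Finset.sum_congr rfl fun p _ => e1 p, ← Finset.mul_sum, h2]
      ring
    · ext a b
      rw [Matrix.mul_apply, hLu x hx]
      have e1 : ∀ p, iS S (jj g x) a p * iW (av (g x)) (u x) p b =
          (1 / 4 * (u x a * conj (u x b))) * (conj (av (g x) p) * av (g x) p) := by
        intro p; rw [iW_apply, hsx]; ring
      rw [Finset.sum_congr rfl fun p _ => e1 p, ← Finset.mul_sum, av_sum h1]
      ring

end Emb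

end Crest.Agent.R208.CM
end
end

-- ▼ part R208/GD3

/-!
Row 208, block GD (helper107), part GD3: the descended fields `z, T_J, F_J, ℓ, V₀` on
`D = Z / S¹ = CM.Quo (ZZ S PV) g`.
-/

set_option autoImplicit false

open Set Filter Topology Module Metric
open scoped ContDiff RealInnerProductSpace Kronecker Matrix ComplexConjugate
open Crest.GeometryTopology.Submanifold
open Crest.Agent.R241.DDefs
open Crest.Agent.R241.D2
open Crest.Agent.R208.CW (IdF SM)
open Crest.Agent.R208.FI (Sub Clo)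

noncomputable section

namespace Crest.Agent.R208.GT

variable {n N k d dZ : ℕ} {κ : ℝ} {S : Set (Euc N)} {G : Geo n N κ S}
  {PV : Euc N × Euc N → Euc N →L[ℝ] Euc N}
  {E' : Type*} [NormedAddCommGroup E'] [NormedSpace ℝ E'] [FiniteDimensional ℝ E'] {Y : Set E'}
  {z : E' → Euc N × Euc N} {T F L : E' → Matrix (Fin N) (Fin N) ℂ}

/-! ### the line has rank one -/

lemma LL_trace {ζ : (Euc N × Euc N) × (Fin 2 → Euc N)} (hζ : ζ ∈ ZZ S PV) : (LL ζ).trace = 1 := by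
  have h0 := dot_self (hζ.2.2.1 0)
  have h1 := dot_self (hζ.2.2.1 1)
  rw [dotProduct] at h0 h1
  have h2 : ∀ a, LL ζ a a = (1 / 2) * (((ζ.2 0 a * ζ.2 0 a : ℝ) : ℂ) +
      ((ζ.2 1 a * ζ.2 1 a : ℝ) : ℂ)) := by
    intro a
    rw [LL_apply]
    push_cast
    linear_combination (-(1 / 2) * (ζ.2 1 a : ℂ) * (ζ.2 1 a : ℂ)) * Complex.I_mul_I
  rw [Matrix.trace]
  simp only [Matrix.diag_apply, h2]
  rw [← Finset.mul_sum, Finset.sum_add_distrib, ← Complex.ofReal_sum, ← Complex.ofReal_sum, h0, h1]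
  norm_num

lemma LL_rank {ζ : (Euc N × Euc N) × (Fin 2 → Euc N)} (hζ : ζ ∈ ZZ S PV) : (LL ζ).rank = 1 := by
  have h1 := CW.rank_eq_trace ((idf_LL (PV := PV)).idem ζ hζ)
  rw [LL_trace hζ] at h1
  exact_mod_cast h1

/-- `V₀ = V ⊖ ⟨v₀, v₁⟩` on `Y` -/
def VD0 (PV : Euc N × Euc N → Euc N →L[ℝ] Euc N) (z : E' → Euc N × Euc N)
    (L : E' → Matrix (Fin N) (Fin N) ℂ) (y : E') : Matrix (Fin N) (Fin N) ℂ :=
  mV PV (z y) - (L y + (L y).map (starRingEnd ℂ))

namespace Des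

/-- `ℓ` is a line: `s_j(ℓ) = s_1(ℓ)^j` -/
theorem sc_L (hD : Des G PV Y z T F L) (hY : Sub d Y) (j : ℕ) :
    CW.sc hY hD.idf_L j = CW.sc hY hD.idf_L 1 ^ j :=
  CW.sc_line hY hD.idf_L (fun y hy => by
    obtain ⟨ζ, hζ, -, -, -, e⟩ := hD.ex y hy
    rw [e]; exact LL_rank hζ) j

theorem idf_LLc (hD : Des G PV Y z T F L) :
    IdF Y (fun y => L y + (L y).map (starRingEnd ℂ)) :=
  ⟨fun y hy => (hD.idf_L.smooth y hy).add (hD.idf_L.conj.smooth y hy), fun y hy => by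
    obtain ⟨ζ, hζ, -, -, -, e⟩ := hD.ex y hy
    change (L y + (L y).map (starRingEnd ℂ)) * (L y + (L y).map (starRingEnd ℂ)) =
      L y + (L y).map (starRingEnd ℂ)
    rw [e]; exact (GT.idf_LLc (PV := PV) (S := S)).idem ζ hζ⟩

variable (hV : VField G PV)

include hV

theorem idf_mV (hD : Des G PV Y z T F L) : IdF Y (fun y => mV PV (z y)) :=
  (GT.idf_mV hV).comp hD.smap

theorem idf_V0 (hD : Des G PV Y z T F L) : IdF Y (VD0 PV z L) :=
  ⟨fun y hy => ((hD.idf_mV hV).smooth y hy).sub (hD.idf_LLc.smooth y hy), fun y hy => by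
    obtain ⟨ζ, hζ, e1, -, -, e⟩ := hD.ex y hy
    rw [VD0, e1, e]; exact (GT.idf_V0 hV).idem ζ hζ⟩

/-- **`V ⊗ ℂ = ℓ + conj ℓ + V₀`** on classes -/
theorem sc_V (hD : Des G PV Y z T F L) (hY : Sub d Y) (j : ℕ) :
    CW.sc hY (hD.idf_mV hV) j =
      (1 + (-1) ^ j) * CW.sc hY hD.idf_L j + CW.sc hY (hD.idf_V0 hV) j := by
  have h1 := CW.sc_add_conj hY hD.idf_LLc hD.idf_L (fun y _ => rfl)
    (fun y hy => by
      obtain ⟨ζ, hζ, -, -, -, e⟩ := hD.ex y hy
      rw [e]; exact LL_mul_conj hζ)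
    (fun y hy => by
      obtain ⟨ζ, hζ, -, -, -, e⟩ := hD.ex y hy
      rw [e]; exact conj_mul_LL hζ) j
  rw [← h1]
  refine CW.sc_orth hY _ hD.idf_LLc (hD.idf_V0 hV) ?_ ?_ ?_ j
  · intro y _
    rw [VD0, add_sub_cancel]
  · intro y hy
    obtain ⟨ζ, hζ, e1, -, -, e⟩ := hD.ex y hy
    rw [VD0, e1, e]
    have h2 : (LL ζ + (LL ζ).map (starRingEnd ℂ)) * (LL ζ + (LL ζ).map (starRingEnd ℂ)) =
      LL ζ + (LL ζ).map (starRingEnd ℂ) := (GT.idf_LLc (PV := PV)).idem ζ hζ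
    rw [mul_sub, add_mul, LL_mV hV hζ, conjLL_mV hV hζ, h2, sub_self]
  · intro y hy
    obtain ⟨ζ, hζ, e1, -, -, e⟩ := hD.ex y hy
    rw [VD0, e1, e]
    have h2 : (LL ζ + (LL ζ).map (starRingEnd ℂ)) * (LL ζ + (LL ζ).map (starRingEnd ℂ)) =
      LL ζ + (LL ζ).map (starRingEnd ℂ) := (GT.idf_LLc (PV := PV)).idem ζ hζ
    rw [sub_mul, mul_add, mV_LL hζ, mV_conjLL hζ, h2, sub_self]

end Des

/-! ### the descended fields -/

variable {m : ℕ} {g : (Euc N × Euc N) × (Fin 2 → Euc N) → Fin m → ℂ}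

/-- the descended package on `D = Z / S¹` -/
structure DPk (G : Geo n N κ S) (PV : Euc N × Euc N → Euc N →L[ℝ] Euc N)
    (g : (Euc N × Euc N) × (Fin 2 → Euc N) → Fin m → ℂ) (z : CM.MM m → Euc N × Euc N)
    (T F L : CM.MM m → Matrix (Fin N) (Fin N) ℂ) : Prop
    extends Des G PV (CM.Quo (ZZ S PV) g) z T F L where
  ez : ∀ ζ ∈ ZZ S PV, z (CM.jj g ζ) = ζ.1
  eT : ∀ ζ ∈ ZZ S PV, T (CM.jj g ζ) = TJ G PV ζ
  eF : ∀ ζ ∈ ZZ S PV, F (CM.jj g ζ) = FJ G PV ζ
  eL : ∀ ζ ∈ ZZ S PV, L (CM.jj g ζ) = LL ζ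

/-- descent of matrix fields -/
theorem exists_descM (hg : CM.Emb (ZZ S PV) rt g) (hX : Clo (dZ + 1) (ZZ S PV))
    {M : (Euc N × Euc N) × (Fin 2 → Euc N) → Matrix (Fin N) (Fin N) ℂ}
    (hM : ∀ ζ ∈ ZZ S PV, SM ∞ M ζ) (hi : ∀ ζ ∈ ZZ S PV, ∀ t, M (rt t ζ) = M ζ) :
    ∃ M' : CM.MM m → Matrix (Fin N) (Fin N) ℂ, (∀ y, SM ∞ M' y) ∧
      ∀ ζ ∈ ZZ S PV, M' (CM.jj g ζ) = M ζ := by
  obtain ⟨f, h1, h2⟩ := hg.exists_desc cir_ZZ hX (f := fun ζ => fun (a b : Fin N) => M ζ a b)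
    (fun ζ hζ => contDiffAt_pi.2 fun a => contDiffAt_pi.2 fun b => hM ζ hζ a b)
    (fun ζ hζ t => by funext a b; rw [hi ζ hζ t])
  exact ⟨fun y => Matrix.of (f y), fun y a b =>
    (contDiff_pi.1 (contDiff_pi.1 h1 a) b).contDiffAt, fun ζ hζ => by
      ext a b; exact congrFun (congrFun (h2 ζ hζ) a) b⟩

theorem exists_dpk (hV : VField G PV) (h : Bla G k) (hg : CM.Emb (ZZ S PV) rt g)
    (hX : Clo (dZ + 1) (ZZ S PV)) :
    ∃ (z : CM.MM m → Euc N × Euc N) (T F L : CM.MM m → Matrix (Fin N) (Fin N) ℂ),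
      DPk G PV g z T F L := by
  obtain ⟨z, z1, z2⟩ := hg.exists_desc cir_ZZ hX (f := fun ζ => ζ.1)
    (fun ζ _ => contDiffAt_fst) (fun ζ _ t => rt_fst t ζ)
  obtain ⟨T, T1, T2⟩ := exists_descM hg hX (M := TJ G PV) (fun ζ hζ => smooth_TJ hV h hζ)
    (fun ζ hζ t => TJ_rt hV h hζ t)
  obtain ⟨F, F1, F2⟩ := exists_descM hg hX (M := FJ G PV) (fun ζ hζ => smooth_FJ hV h hζ)
    (fun ζ hζ t => FJ_rt hV h hζ t)
  obtain ⟨L, L1, L2⟩ := exists_descM hg hX (M := LL) (fun ζ _ => smooth_LL ζ)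
    (fun ζ _ t => LL_rt ζ t)
  refine ⟨z, T, F, L, ⟨⟨fun y _ => z1.contDiffAt, fun y _ => T1 y, fun y _ => F1 y,
    fun y _ => L1 y, ?_⟩, z2, T2, F2, L2⟩⟩
  rintro _ ⟨ζ, hζ, rfl⟩
  exact ⟨ζ, hζ, z2 ζ hζ, T2 ζ hζ, F2 ζ hζ, L2 ζ hζ⟩

namespace DPk

variable {z : CM.MM m → Euc N × Euc N} {TD FD LD : CM.MM m → Matrix (Fin N) (Fin N) ℂ}
  (hD : DPk G PV g z TD FD LD)

include hD





/-- classes pulled back from `FF` -/
theorem map_z (hg : CM.Emb (ZZ S PV) rt g) (hZ : Sub dZ (ZZ S PV)) (a : CW.H (FF S)) :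
    CW.H.map hg.smap_jj (CW.H.map hD.smap a) = CW.H.map (smap_fst (S := S) (PV := PV)) a := by
  rw [CW.H.map_map]
  exact CW.H.map_congr' hZ _ _ (fun ζ hζ => hD.ez ζ hζ) a

end DPk

/-! ### the Euler class -/

/-- `v₀ - i v₁` -/
def uv (ζ : (Euc N × Euc N) × (Fin 2 → Euc N)) (a : Fin N) : ℂ := ζ.2 0 a - Complex.I * ζ.2 1 a

lemma smooth_uv (ζ : (Euc N × Euc N) × (Fin 2 → Euc N)) : ContDiffAt ℝ ∞ uv ζ := by
  have h1 : ∀ i c, ContDiffAt ℝ ∞
      (fun y : (Euc N × Euc N) × (Fin 2 → Euc N) => y.2 i c) ζ := fun i c =>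
    ContDiffAt.comp (g := fun u : Euc N => u c) ζ
      (EuclideanSpace.proj c : Euc N →L[ℝ] ℝ).contDiff.contDiffAt (smooth_v ζ i)
  refine contDiffAt_pi.2 fun a => ?_
  exact (Complex.ofRealCLM.contDiff.contDiffAt.comp ζ (h1 0 a)).sub
    (contDiffAt_const.mul (Complex.ofRealCLM.contDiff.contDiffAt.comp ζ (h1 1 a)))

lemma uv_rt (ζ : (Euc N × Euc N) × (Fin 2 → Euc N)) (t : ℝ) :
    uv (rt t ζ) = Complex.exp (t * Complex.I) • uv ζ := by
  funext a
  have h0 : (rt t ζ).2 0 a = Real.cos t * ζ.2 0 a + Real.sin t * ζ.2 1 a := by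
    rw [rt_zero']; rfl
  have h1 : (rt t ζ).2 1 a = (-Real.sin t) * ζ.2 0 a + Real.cos t * ζ.2 1 a := by
    rw [rt_one']; rfl
  rw [Pi.smul_apply, smul_eq_mul, uv, uv, h0, h1, Complex.exp_mul_I]
  push_cast
  linear_combination (Complex.sin t * (ζ.2 1 a : ℂ)) * Complex.I_mul_I

lemma LL_uv (ζ : (Euc N × Euc N) × (Fin 2 → Euc N)) (a b : Fin N) :
    LL ζ a b = (1 / 2) * (uv ζ a * conj (uv ζ b)) := by
  rw [LL_apply, uv, uv]
  simp only [map_sub, map_mul, Complex.conj_ofReal, Complex.conj_I]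
  ring

lemma uv_norm {ζ : (Euc N × Euc N) × (Fin 2 → Euc N)} (hζ : ζ ∈ ZZ S PV) :
    ∑ a, conj (uv ζ a) * uv ζ a = 2 := by
  have h1 := LL_trace hζ
  rw [Matrix.trace] at h1
  simp only [Matrix.diag_apply, LL_uv] at h1
  rw [← Finset.mul_sum] at h1
  have h2 : ∑ a, conj (uv ζ a) * uv ζ a = ∑ a, uv ζ a * conj (uv ζ a) :=
    Finset.sum_congr rfl fun a _ => mul_comm _ _
  rw [h2]
  linear_combination 2 * h1

namespace DPk

variable {z : CM.MM m → Euc N × Euc N} {TD FD LD : CM.MM m → Matrix (Fin N) (Fin N) ℂ}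
  (hD : DPk G PV g z TD FD LD)

include hD

/-- **`s_j(ℓ) = s_j` of 971's line** -/
theorem sc_L_eq (hg : CM.Emb (ZZ S PV) rt g) (hX : Clo (dZ + 1) (ZZ S PV))
    (hQ : Sub d (CM.Quo (ZZ S PV) g)) (j : ℕ) :
    CW.sc hQ hD.idf_L j = CW.sc hQ hg.idf_Hm j :=
  (hg.sc_line_eq cir_ZZ hX (u := uv) (fun ζ _ => smooth_uv ζ) (fun ζ _ t => uv_rt ζ t) hD.idf_L
    (fun ζ hζ a b => by rw [hD.eL ζ hζ, LL_uv]) (fun ζ hζ => uv_norm hζ) hQ j).symm

/-- **the Euler class of 971's line is `2 i s_1(ℓ)`** -/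
theorem ec_L (hg : CM.Emb (ZZ S PV) rt g) (hX : Clo (dZ + 1) (ZZ S PV))
    (hQ : Sub d (CM.Quo (ZZ S PV) g)) :
    CW.ec (R208.T.OR.of hg.or_L) = (2 * Complex.I) • CW.sc hQ hD.idf_L 1 := by
  rw [hg.ec_L hQ, hD.sc_L_eq hg hX hQ]

theorem xi_eq (hg : CM.Emb (ZZ S PV) rt g) (hX : Clo (dZ + 1) (ZZ S PV))
    (hQ : Sub d (CM.Quo (ZZ S PV) g)) :
    CW.sc hQ hD.idf_L 1 = (-(Complex.I / 2)) • CW.ec (R208.T.OR.of hg.or_L) := by
  rw [hD.ec_L hg hX hQ, smul_smul]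
  have h1 : -(Complex.I / 2) * (2 * Complex.I) = 1 := by
    linear_combination (-1 : ℂ) * Complex.I_mul_I
  rw [h1, one_smul]

end DPk

end Crest.Agent.R208.GT
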