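import Crest.Agent.R208.T2

/-! Row 208, block GP (helper198), part GP4a: gluing of forms and a Mayer-Vietoris lemma. -/

set_option autoImplicit false
set_option linter.unusedSectionVars false

open MeasureTheory Set Filter Topology Module
open scoped ContDiff
open Crest.Agent.R208.F Crest.Agent.R208.FI Crest.Agent.R208.CW
open Crest.Agent.R208.T

noncomputable section

namespace Crest.Agent.R208.GP

variable {E : Type*} [NormedAddCommGroup E] [NormedSpace ℝ E] [FiniteDimensional ℝ E]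
  {X U U₁ U₂ : Set E} {d : ℕ} {w η₁ η₂ γ₁ γ₂ ζ : E → Ext E} {χ : E → ℝ}

open scoped Manifold in
theorem exists_cut {K₁ K₂ : Set E} (h1 : IsClosed K₁) (h2 : IsClosed K₂) (hd : Disjoint K₁ K₂) :
    ∃ χ : E → ℝ, ContDiff ℝ ∞ χ ∧ (∀ x ∈ K₁, ∀ᶠ y in 𝓝 x, χ y = 0) ∧
      (∀ x ∈ K₂, ∀ᶠ y in 𝓝 x, χ y = 1) ∧ ∀ x, χ x ∈ Icc (0 : ℝ) 1 := by
  obtain ⟨f, hf0, hf1, hf⟩ := exists_contMDiffMap_zero_one_nhds_of_isClosed (n := (⊤ : ℕ∞))
    𝓘(ℝ, E) h1 h2 hd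
  refine ⟨f, f.contMDiff.contDiff, fun x hx => ?_, fun x hx => ?_, hf⟩
  · exact hf0.filter_mono (nhds_le_nhdsSet hx)
  · exact hf1.filter_mono (nhds_le_nhdsSet hx)

/-- extension by zero -/
theorem sm_cut (hχ : ContDiff ℝ ∞ χ) (h0 : ∀ x ∈ X, x ∉ U → ∀ᶠ y in 𝓝 x, χ y = 0)
    (hζ : Sm (X ∩ U) ζ) : Sm X (fun x => χ x • ζ x) := by
  intro x hx
  by_cases hxU : x ∈ U
  · exact hχ.contDiffAt.smul (hζ x ⟨hx, hxU⟩)
  · refine (contDiffAt_const (c := (0 : Ext E))).congr_of_eventuallyEq ?_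
    filter_upwards [h0 x hx hxU] with y hy
    rw [hy, zero_smul]




end Crest.Agent.R208.GP
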