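import Crest.Agent.R208.TX2

/-! Row 208, block T (helper316).  TX2b: degree one and top degree on `S` (tube + ball). -/

set_option autoImplicit false
set_option linter.unusedSectionVars false

open MeasureTheory Set Filter Topology Module
open scoped ContDiff
open Crest.Agent.R208.F Crest.Agent.R208.FI Crest.Agent.R208.CW

noncomputable section

namespace Crest.Agent.R208.T

universe u w

section tube
variable {E : Type u} {H : Type w} [NormedAddCommGroup E] [NormedSpace ℝ E] [FiniteDimensional ℝ E]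
  [NormedAddCommGroup H] [InnerProductSpace ℝ H] [FiniteDimensional ℝ H]
  {S C U : Set E} {p : E} {P₀ : H →L[ℝ] H} {r ρ : ℝ} {Φ Ψ : E × H → E} {Λ Gt : E → E × H}
  {i j n dC : ℕ} {P : E → H →L[ℝ] H} {k : ℕ} {m : ℕ} {e : E → Ext E} {τ : E × H → Ext (E × H)}
  {b b₁ b₂ : E → Ext E}

theorem Polar.mapsΛ (h : Polar S p U P₀ r Φ Λ) : SMap ((S ∩ U) \ {p}) (Ann p P₀ r) Λ := by
  refine ⟨fun y hy => h.sΛ.smooth y hy.1, fun y hy => ?_⟩
  have h2 := h.sΛ.maps hy.1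
  refine ⟨h2.1, norm_pos_iff.2 fun h3 => hy.2 ?_, h2.2⟩
  have h4 := (h.Φ0 _ h2.1 h2.2).2 h3
  rwa [h.ΦΛ y hy.1] at h4

theorem Polar.mapsΦ (h : Polar S p U P₀ r Φ Λ) : SMap (Ann p P₀ r) ((S ∩ U) \ {p}) Φ := by
  refine ⟨fun z hz => h.sΦ.smooth z ⟨hz.1, hz.2.2⟩, fun z hz => ⟨h.sΦ.maps ⟨hz.1, hz.2.2⟩,
    fun h3 => ?_⟩⟩
  have h4 := (h.Φ0 z hz.1 hz.2.2).1 h3
  have := hz.2.1
  rw [h4, norm_zero] at this
  exact lt_irrefl _ this

/-- the punctured ball retracts to the sphere -/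
theorem Polar.hret (h : Polar S p U P₀ r Φ Λ) :
    HRet ((S ∩ U) \ {p}) (Sph ({p} : Set E) (fun _ => P₀)) (fun y => rh (Λ y))
      (fun z => Φ (sR r z)) := by
  have h1 := h.mapsΛ
  have h2 := h.mapsΦ
  have hs := smap_sR (E := E) (p := p) (P₀ := P₀) h.r_pos
  have hr := smap_rh_ann (E := E) (p := p) (P₀ := P₀) (r := r)
  refine ⟨hr.comp h1, h2.comp hs, fun b hb hc => ?_⟩
  have k1 := coh_ann h.r_pos (hb.pull h2) (hc.pull h2 hb)
  have k2 := k1.pull h1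
  have e0 : Eqv ((S ∩ U) \ {p}) (F.pull Λ (F.pull Φ b)) b :=
    (eqv_pull_pull h1 h2 (SMap.id _) (fun y hy => h.ΦΛ y hy.1) b).trans
      (Eqv.of_eq fun x _ => F.pull_id b x)
  have e1 : Eqv ((S ∩ U) \ {p}) (F.pull Λ (F.pull rh (F.pull (sR r) (F.pull Φ b))))
      (F.pull (fun y => rh (Λ y)) (F.pull (fun z => Φ (sR r z)) b)) := by
    refine (eqv_pull_pull h1 hr (hr.comp h1) (fun _ _ => rfl) _).trans ?_
    exact (eqv_pull_pull hs h2 (h2.comp hs) (fun _ _ => rfl) b).pull (hr.comp h1)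
  exact (Coh.of_eqv e0.symm).trans (k2.trans (Coh.of_eqv e1))

/-- forms on `S \ {p}` are cohomologous to their pull back under the projection to `C` -/
theorem Tube.coh_base (h : Tube S C p P ρ Ψ Gt) (hb : Sm (S \ {p}) b) (hc : Cl (S \ {p}) b) :
    Coh (S \ {p}) b (F.pull (fun y => (Gt y).1) b) := by
  have hm : ∀ q ∈ S \ {p}, ∀ t ∈ Icc (0 : ℝ) 1, (((Gt q).1, t • (Gt q).2) : E × H) ∈
      Tot C P ∩ {z | ‖z.2‖ < ρ} := by
    intro q hq t ht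
    obtain ⟨⟨h1, h2⟩, h3⟩ := h.sG.maps hq
    refine ⟨⟨h1, ?_⟩, ?_⟩
    · change P (Gt q).1 (t • (Gt q).2) = t • (Gt q).2
      rw [map_smul, h2]
    · change ‖t • (Gt q).2‖ < ρ
      rw [norm_smul, Real.norm_of_nonneg ht.1]
      have h4 : ‖(Gt q).2‖ < ρ := h3
      have := mul_le_mul_of_nonneg_right ht.2 (norm_nonneg (Gt q).2)
      linarith
  have hsm : ∀ q ∈ S \ {p}, ∀ t ∈ Icc (0 : ℝ) 1, ContDiffAt ℝ ∞
      (fun z : E × ℝ => Ψ ((Gt z.1).1, z.2 • (Gt z.1).2)) (q, t) := by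
    intro y hy t ht
    have a1 : ContDiffAt ℝ ∞ (fun q : E × ℝ => Gt q.1) (y, t) :=
      ContDiffAt.comp (g := Gt) (f := fun q : E × ℝ => q.1) (y, t) (h.sG.smooth y hy) (by fun_prop)
    have a2 : ContDiffAt ℝ ∞ (fun q : E × ℝ => (((Gt q.1).1, q.2 • (Gt q.1).2) : E × H)) (y, t) :=
      (contDiffAt_fst.comp _ a1).prodMk (contDiffAt_snd.smul (contDiffAt_snd.comp _ a1))
    exact ContDiffAt.comp (g := Ψ) (y, t) (h.sΨ.smooth _ (hm y hy t ht)) a2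
  have h1 := coh_homotopy (X := S \ {p}) (Y := S \ {p})
    (Fh := fun z : E × ℝ => Ψ ((Gt z.1).1, z.2 • (Gt z.1).2)) (w := b) hsm
    (fun y hy t ht => h.sΨ.maps (hm y hy t ht)) hb hc
  have k1 : ∀ t ∈ Icc (0 : ℝ) 1, SMap (S \ {p}) (S \ {p}) (fun y : E => Ψ ((Gt y).1, t • (Gt y).2)) :=
    fun t ht => ⟨fun y hy => ContDiffAt.comp
      (g := fun z : E × ℝ => Ψ ((Gt z.1).1, z.2 • (Gt z.1).2)) (f := fun y : E => (y, t)) y
      (hsm y hy t ht) (contDiffAt_id.prodMk contDiffAt_const),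
      fun y hy => h.sΨ.maps (hm y hy t ht)⟩
  have kC : SMap (S \ {p}) C (fun y : E => (Gt y).1) :=
    ⟨fun y hy => contDiffAt_fst.comp _ (h.sG.smooth y hy), fun y hy => (h.sG.maps hy).1.1⟩
  have e1 : Eqv (S \ {p}) (F.pull (fun y : E => Ψ ((Gt y).1, (1 : ℝ) • (Gt y).2)) b) b := by
    refine (eqv_pull_of_eq b (fun y hy => (k1 1 (by simp)).diff hy) (fun y _ => differentiableAt_id)
      (fun y hy => ?_)).trans (Eqv.of_eq fun z _ => F.pull_id b z)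
    change Ψ ((Gt y).1, (1 : ℝ) • (Gt y).2) = y
    rw [one_smul]; exact h.ΨG y hy
  have e2 : Eqv (S \ {p}) (F.pull (fun y : E => Ψ ((Gt y).1, (0 : ℝ) • (Gt y).2)) b)
      (F.pull (fun y : E => (Gt y).1) b) := by
    refine eqv_pull_of_eq b (fun y hy => (k1 0 (by simp)).diff hy) (fun y hy => kC.diff hy)
      (fun y hy => ?_)
    change Ψ ((Gt y).1, (0 : ℝ) • (Gt y).2) = (Gt y).1
    rw [zero_smul]; exact h.Ψ0 _ (kC.maps hy)
  exact (Coh.of_eqv e1.symm).trans (h1.trans (Coh.of_eqv e2))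

theorem Tube.smapC (h : Tube S C p P ρ Ψ Gt) : SMap (S \ {p}) C (fun y : E => (Gt y).1) :=
  ⟨fun y hy => contDiffAt_fst.comp _ (h.sG.smooth y hy), fun y hy => (h.sG.maps hy).1.1⟩


/-- homogeneous primitives -/
theorem Coh.prim {X : Set E} (h : Coh X b 0) (hd : Hom (i + 1) b) :
    ∃ ζ : E → Ext E, Sm X ζ ∧ Hom i ζ ∧ Eqv X b (F.d ζ) := by
  obtain ⟨ζ, sζ, eζ⟩ := h
  rw [sub_zero] at eζ
  refine ⟨T.dp i ζ, sζ.dp i, hom_dp i ζ, ?_⟩
  have := eζ.dp (i + 1)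
  rw [hd.dp_eq] at this
  exact this.trans (Eqv.of_eq fun y hy => dp_d i (sζ.diff hy))

/-- primitives on the tube and on the ball -/
theorem Tube.prims (h : Tube S C p P ρ Ψ Gt) (hpol : Polar S p U P₀ r Φ Λ)
    (hb : Sm S b) (hc : Cl S b) (hd : Hom (i + 1) b) (hC : Coh C b 0) :
    ∃ ζ η : E → Ext E, Sm (S \ {p}) ζ ∧ Hom i ζ ∧ Eqv (S \ {p}) b (F.d ζ) ∧
      Sm (S ∩ U) η ∧ Hom i η ∧ Eqv (S ∩ U) b (F.d η) ∧
      Sm ((S ∩ U) \ {p}) (ζ - η) ∧ Cl ((S ∩ U) \ {p}) (ζ - η) ∧ Hom i (ζ - η) := by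
  obtain ⟨ζ, sζ, dζ, eζ⟩ := (h.coh_zero hb hc hC).prim hd
  obtain ⟨η, sη, dη, eη⟩ := (hpol.exactIn_ball (by omega) hb hc hd).prim hd
  have hA1 : (S ∩ U) \ {p} ⊆ S \ {p} := fun y hy => ⟨hy.1.1, hy.2⟩
  have hA2 : (S ∩ U) \ {p} ⊆ S ∩ U := sdiff_subset
  refine ⟨ζ, η, sζ, dζ, eζ, sη, dη, eη, (sζ.mono hA1).sub (sη.mono hA2), ?_, dζ.sub dη⟩
  rw [Cl, resZero_iff]
  refine (d_sub_eqv (sζ.mono hA1) (sη.mono hA2)).trans ?_
  have := (eζ.mono_tan hA1).symm.sub (eη.mono_tan hA2).symm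
  rwa [sub_self] at this

/-- **closed `1`-forms on `S` are exact** -/
theorem Tube.exactIn_one (h : Tube S C p P ρ Ψ Gt) (hpol : Polar S p U P₀ r Φ Λ)
    (h0 : Conn0 (Sph ({p} : Set E) (fun _ => P₀))) (hC : ExactIn C 1) : ExactIn S 1 := by
  intro b hb hc hd
  have hCS : C ⊆ S := fun y hy => (h.CS hy).1
  obtain ⟨ζ, η, sζ, dζ, eζ, sη, dη, eη, sθ, cθ, dθ⟩ := h.prims (i := 0) hpol hb hc hd
    (hC b (hb.mono hCS) (hc.mono hCS) hd)
  obtain ⟨c, hc'⟩ := hpol.hret.conn0 h0 _ sθ cθ dθ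
  have sc : Sm (S ∩ U) (fun _ : E => algebraMap ℝ (Ext E) c) := fun _ _ => contDiffAt_const
  refine glue_prim hpol.oU hpol.pU (κ := 0) sζ eζ (sη.add sc) ?_ Sm.zero ?_
  · refine eη.trans (Eqv.symm ((d_add_eqv sη sc).trans ?_))
    have h1 : F.d (fun _ : E => algebraMap ℝ (Ext E) c) = 0 := funext fun x => F.d_const _ x
    rw [h1, add_zero]
    exact Eqv.refl _
  · rw [d_zero', ← sub_sub]
    have := hc'.sub (Eqv.refl (fun _ : E => algebraMap ℝ (Ext E) c))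
    rwa [sub_self] at this

/-- **top degree of `S`** -/
theorem Tube.dim1 (h : Tube S C p P ρ Ψ Gt) (hpol : Polar S p U P₀ r Φ Λ)
    (h0 : Dim1 (Sph ({p} : Set E) (fun _ => P₀)) i) (hC : ExactIn C (i + 1)) : Dim1 S (i + 1) := by
  intro b₁ b₂ s1 c1 d1 s2 c2 d2
  have hCS : C ⊆ S := fun y hy => (h.CS hy).1
  obtain ⟨ζ, η, sζ, dζ, eζ, sη, dη, eη, sθ, cθ, dθ⟩ := h.prims hpol s1 c1 d1
    (hC b₁ (s1.mono hCS) (c1.mono hCS) d1)
  obtain ⟨ζ', η', sζ', dζ', eζ', sη', dη', eη', sθ', cθ', dθ'⟩ := h.prims hpol s2 c2 d2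
    (hC b₂ (s2.mono hCS) (c2.mono hCS) d2)
  obtain ⟨s, t, hst, κ, sκ, eκ⟩ := hpol.hret.dim1 h0 _ _ sθ cθ dθ sθ' cθ' dθ'
  refine ⟨s, t, hst, glue_prim hpol.oU hpol.pU ((sζ.smul s).sub (sζ'.smul t)) ?_
    ((sη.smul s).sub (sη'.smul t)) ?_ sκ ?_⟩
  · exact ((eζ.smul s).sub (eζ'.smul t)).trans (Eqv.symm ((d_sub_eqv (sζ.smul s)
      (sζ'.smul t)).trans ((d_smul_eqv s sζ).sub (d_smul_eqv t sζ'))))
  · exact ((eη.smul s).sub (eη'.smul t)).trans (Eqv.symm ((d_sub_eqv (sη.smul s)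
      (sη'.smul t)).trans ((d_smul_eqv s sη).sub (d_smul_eqv t sη'))))
  · rw [sub_zero] at eκ
    refine Eqv.trans (Eqv.of_eq fun x _ => ?_) eκ
    simp only [Pi.sub_apply, Pi.smul_apply, smul_sub]
    abel

/-- **the dual form of `C`**, with its properties near `p` and on the tube -/
theorem Tube.exists_dual' (h : Tube S C p P ρ Ψ Gt) (hS : Sub m S)
    (hτ : CSF C P 3 τ) (hd : Hom k τ) (h0 : Eqv C (F.pull zs τ) e) :
    ∃ x : E → Ext E, Sm S x ∧ Cl S x ∧ Hom k x ∧ Eqv C x e ∧ Eqv (S \ {p}) x (F.pull Gt τ) ∧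
      x =ᶠ[𝓝 p] fun _ => 0 := by
  obtain ⟨V, hV, hpV, hfar⟩ := h.far
  obtain ⟨ε, hε, hB⟩ := Metric.isOpen_iff.1 hV p hpV
  obtain ⟨ψ, hψ, hψ0, hψ1⟩ := exists_bump p hε
  have hGt : SMap (S \ {p}) (Tot C P) Gt := ⟨h.sG.smooth, fun y hy => (h.sG.maps hy).1⟩
  set x : E → Ext E := fun y => ψ y • F.pull Gt τ y with hx
  have s1 : Sm (S \ {p}) (F.pull Gt τ) := hτ.smooth.pull hGt
  have c1 : Cl (S \ {p}) (F.pull Gt τ) := hτ.closed.pull hGt hτ.smooth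
  have n0 : x =ᶠ[𝓝 p] fun _ => 0 := by
    filter_upwards [hψ0] with y hy
    simp [hx, hy]
  have sx : Sm S x := by
    intro y hy
    by_cases h1 : y = p
    · subst h1; exact contDiffAt_const.congr_of_eventuallyEq n0
    · exact hψ.contDiffAt.smul (s1 y ⟨hy, h1⟩)
  have e1 : Eqv (S \ {p}) x (F.pull Gt τ) := by
    refine Eqv.of_eq fun y hy => ?_
    rcases lt_or_ge (dist y p) ε with h2 | h2
    · have h3 : F.pull Gt τ y = 0 := pull_of_zero (hτ.supp _ (hfar y ⟨hy.1, hB h2⟩ hy.2))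
      rw [hx]
      change ψ y • F.pull Gt τ y = F.pull Gt τ y
      rw [h3, smul_zero]
    · have h3 := (hψ1 y h2).self_of_nhds
      change ψ y • F.pull Gt τ y = F.pull Gt τ y
      rw [h3, one_smul]
  have hpc : IsOpen ({p}ᶜ : Set E) := isOpen_compl_singleton
  have hSp : S \ {p} = S ∩ {p}ᶜ := rfl
  refine ⟨x, sx, ?_, fun y => ((hd _).pb _).smul _, ?_, e1, n0⟩
  · have c2 : Cl (S \ {p}) x :=
      Cl.of_eqv (hSp ▸ hS.inter_open hpc) (sx.mono sdiff_subset) s1 e1 c1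
    intro y hy
    by_cases h1 : y = p
    · subst h1; rw [F.d_congr n0, F.d_const, map_zero]
    · have h2 := eqv_of_open (b := 0) hpc (hSp ▸ resZero_iff.1 c2) hy h1
      rw [h2]; simp
  · have e2 : Eqv C x (F.pull Gt τ) := e1.mono_tan h.CS
    refine e2.trans ((eqv_pull_of_eq τ (fun y hy => hGt.diff (h.CS hy))
      (fun y hy => (smap_zs (P := P)).diff hy) (fun y hy => ?_)).trans h0)
    exact h.G0 y hy

end tube

end Crest.Agent.R208.T
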