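import Crest.Agent.R208.TI5
import Crest.Agent.R208.TX2b
import Crest.Agent.R208.SB1
import Crest.Agent.R208.GQ2d
import Crest.Agent.R208.GT5
import Crest.Agent.R208.GO2

-- ▼ part R208/GQ3a
section

/-! Row 208, block GQ (helper989), part GQ3a: classes on the unit sphere bundle
`UV = S(V) → F` (`≅ US`), in degrees `< n - 1`. -/

set_option autoImplicit false
set_option linter.unusedSectionVars false
set_option linter.unusedVariables false

open MeasureTheory Set Filter Topology Module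
open scoped ContDiff RealInnerProductSpace
open Crest.GeometryTopology.Submanifold
open Crest.Agent.R241.DDefs
open Crest.Agent.R241.D2
open Crest.Agent.R208.F Crest.Agent.R208.FI Crest.Agent.R208.CW Crest.Agent.R208.T
open Crest.Agent.R208.L (US)

noncomputable section

namespace Crest.Agent.R208.GQ

variable {n N k : ℕ} {κ : ℝ} {S : Set (Euc N)} {G : Geo n N κ S} {p : Euc N}
  {ι : Type} [Fintype ι] [DecidableEq ι] {W : Euc N × Euc N → (ι × Fin 2 → Fin N) → ℝ}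
  {x : Euc N → Ext (Euc N)}

/-- closed functions on the unit sphere of `T_p S` are constant -/
theorem conn0_pt (h : GT.Bla G k) (hk : 2 ≤ k) (hn : 2 ≤ n) (hne : Even n) (hp : p ∈ S) :
    Conn0 (Sph ({p} : Set (Euc N)) (fun _ => G.P p)) := by
  obtain ⟨m, hm⟩ := hne
  have hι : 2 * Fintype.card (Fin m) = n := by rw [Fintype.card_fin]; omega
  obtain ⟨Wt, hW⟩ := GP.exists_OR_S (G := G) h.bl h.ty hk hι
  have : Nonempty (Fin m) := ⟨⟨0, by omega⟩⟩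
  have hW' : OR ({p} : Set (Euc N)) (fun _ => G.P p) (fun _ => Wt p) :=
    ⟨fun _ _ => contDiffAt_const, fun _ _ _ => contDiffAt_const, fun _ _ => hW.fr p hp⟩
  intro b hb hc hd
  obtain ⟨c, sc, cc, dc, ec⟩ := sph_low_all (sub_point p) isPreconnected_singleton hW'
    (j := 0) (by omega) hb hc hd
  obtain ⟨t, ht⟩ := const_of_closed (sub_point p) isPreconnected_singleton sc cc dc
  refine ⟨t, (ec.eqv_zero hd dc.pull).trans ?_⟩
  have h1 : Eqv ({p} : Set (Euc N)) c (fun _ => algebraMap ℝ (Ext (Euc N)) t) := Eqv.of_eq ht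
  have h2 := h1.pull (smap_fstS (X := ({p} : Set (Euc N))) (P := fun _ => G.P p))
  rwa [pull_const'] at h2

/-- `H¹(S) = 0` -/
theorem exactIn_S_one (h : GT.Bla G k) (hk : 2 ≤ k) (hkn : k < n) (hne : Even n) (hp : p ∈ S)
    (hι : 2 * Fintype.card ι = k) (hW : OR (GT.FF S) (FV.PVB h) W) : ExactIn S 1 := by
  obtain ⟨Gt, hG, -⟩ := exists_Tube' h hp
  obtain ⟨U, Λ, hpol, -, -⟩ := GP.exists_polar (G := G) h.bl hp one_pos
    (by linarith [Real.pi_gt_three])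
  refine hG.exactIn_one hpol (conn0_pt h hk (by omega) hne hp) fun b sb cb db => ?_
  obtain ⟨c, hc, ec⟩ := Cut_classes h hk hkn hp hι (OR_Cut h hp hW) 1 sb cb db
  have h1 : ¬ k ∣ 1 := fun h2 => by
    have := Nat.le_of_dvd one_pos h2
    omega
  rwa [hc h1, zero_smul] at ec

/-- the unit sphere bundle of `V` -/
abbrev UV (h : GT.Bla G k) : Set ((Euc N × Euc N) × Euc N) := Sph (GT.FF S) (FV.PVB h)

/-- first projection -/
def pS (ζ : (Euc N × Euc N) × Euc N) : Euc N := ζ.1.1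

theorem smap_pS (h : GT.Bla G k) : SMap (UV h) S pS :=
  ⟨fun _ _ => contDiffAt_fst.comp _ contDiffAt_fst, fun _ hζ => hζ.1.1.1⟩

theorem sub_UV (h : GT.Bla G k) (hk : 1 ≤ k) (hkn : k < n) : Sub (2 * n - 1) (UV h) := by
  obtain ⟨k', rfl⟩ : ∃ k', k = k' + 1 := ⟨k - 1, by omega⟩
  have h1 := SB.sub_Sph (FV.sub_FF' h (d := 2 * n - (k' + 1)) (by omega)) (FV.pfield_PVB h)
  rwa [show k' + (2 * n - (k' + 1)) = 2 * n - 1 by omega] at h1

theorem preconn_UV (h : GT.Bla G k) (hn : 2 ≤ n) : IsPreconnected (UV h) := by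
  have h1 : UV h = FV.up G '' US G := by
    ext ζ
    constructor
    · intro hζ
      refine ⟨FV.dn ζ, ?_, FV.up_dn h hζ⟩
      rw [← FV.Sph_S]
      exact (FV.smap_dn h).maps hζ
    · rintro ⟨z, hz, rfl⟩
      rw [← FV.Sph_S] at hz
      exact (FV.smap_up h).maps hz
  rw [h1]
  refine (FV.preconn_US h.bl hn).image _ fun z hz => ?_
  rw [← FV.Sph_S] at hz
  exact ((FV.smap_up h).smooth z hz).continuousAt.continuousWithinAt

theorem UV_base (h : GT.Bla G k) (hk : 2 ≤ k) (hne : Even n) {j : ℕ} (hj : j + 1 < n)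
    {b : (Euc N × Euc N) × Euc N → Ext ((Euc N × Euc N) × Euc N)} (hb : Sm (UV h) b)
    (hc : Cl (UV h) b) (hd : Hom j b) :
    ∃ a : Euc N → Ext (Euc N), Sm S a ∧ Cl S a ∧ Hom j a ∧ Coh (UV h) b (F.pull pS a) := by
  have su := FV.smap_up h
  have sd := FV.smap_dn h
  obtain ⟨a, sa, ca, da, ea⟩ := pb1_S h hk hne j (F.pull (FV.up G) b) hj (hb.pull su)
    (hc.pull su hb) hd.pull
  refine ⟨a, sa, ca, da, ?_⟩
  have e1 := ea.pull sd
  have e2 : Eqv (UV h) (F.pull FV.dn (F.pull (FV.up G) b)) b :=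
    (eqv_pull_pull sd su (SMap.id _) (fun z hz => FV.up_dn h hz) b).trans
      (Eqv.of_eq fun z _ => F.pull_id b z)
  have e3 : Eqv (UV h) (F.pull FV.dn (F.pull Prod.fst a)) (F.pull pS a) :=
    eqv_pull_pull sd smap_fstS (smap_pS h) (fun _ _ => rfl) a
  exact (Coh.of_eqv e2.symm).trans (e1.trans (Coh.of_eqv e3))

/-- `H^j(US) = 0` for odd `j < n - 1` -/
theorem exactIn_UV (h : GT.Bla G k) (hk : 2 ≤ k) (hkn : k < n) (hke : Even k) (hne : Even n)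
    (hp : p ∈ S) (hι : 2 * Fintype.card ι = k) (hW : OR (GT.FF S) (FV.PVB h) W) {j : ℕ}
    (hj : Odd j) (hjn : j + 1 < n) : ExactIn (UV h) j := by
  intro b hb hc hd
  obtain ⟨a, sa, ca, da, ea⟩ := UV_base h hk hne hjn hb hc hd
  have h0 : Coh S a 0 := by
    rcases Nat.lt_or_ge j 2 with h1 | h1
    · have h2 : j = 1 := by
        rcases hj with ⟨i, hi⟩
        omega
      subst h2
      exact exactIn_S_one h hk hkn hne hp hι hW a sa ca da
    · obtain ⟨x, sx, cx, dx, ex⟩ := exists_xM h hk hp hι (OR_Cut h hp hW)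
      obtain ⟨c, hc0, ec⟩ := S_classes h hk hkn hp hι (OR_Cut h hp hW) sx cx dx ex j a h1 (by omega)
        sa ca da
      have h2 : ¬ k ∣ j := fun h2 => (Nat.not_even_iff_odd.2 hj) (hke.trans_dvd h2)
      rwa [hc0 h2, zero_smul] at ec
  have h1 := h0.pull (smap_pS h)
  rw [pull_zero'] at h1
  exact ea.trans h1

/-- closed forms of even degree `< n - 1` on `US` -/
theorem UV_even (h : GT.Bla G k) (hk : 2 ≤ k) (hkn : k < n) (hne : Even n)
    (hp : p ∈ S) (hι : 2 * Fintype.card ι = k) (hW : OR (GT.FF S) (FV.PVB h) W)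
    (sx : Sm S x) (cx : Cl S x) (dx : Hom k x)
    (ex : Eqv (GP.Cut S p) x (eR (FV.PC h p) (fun q => W (q, p)))) {j : ℕ} (hj : Even j)
    (hjn : j + 1 < n) {b : (Euc N × Euc N) × Euc N → Ext ((Euc N × Euc N) × Euc N)}
    (hb : Sm (UV h) b) (hc : Cl (UV h) b) (hd : Hom j b) :
    ∃ t : ℝ, (¬ k ∣ j → t = 0) ∧ Coh (UV h) b (t • F.pull pS x ^ (j / k)) := by
  obtain ⟨a, sa, ca, da, ea⟩ := UV_base h hk hne hjn hb hc hd
  rcases Nat.eq_zero_or_pos j with rfl | h1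
  · obtain ⟨t, ht⟩ := const_of_closed (FV.sub_S h.bl) h.bl.conn.isPreconnected sa ca da
    refine ⟨t, fun h2 => (h2 (dvd_zero k)).elim, ea.trans ?_⟩
    rw [Nat.zero_div, pow_zero]
    have h3 : Eqv S a (fun _ => algebraMap ℝ (Ext (Euc N)) t) := Eqv.of_eq ht
    have h4 := h3.pull (smap_pS h)
    rw [pull_const'] at h4
    refine Coh.of_eqv (h4.trans (Eqv.of_eq fun z _ => ?_))
    rw [Pi.smul_apply, Pi.one_apply, Algebra.algebraMap_eq_smul_one]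
  · have h2 : 2 ≤ j := by
      rcases hj with ⟨i, hi⟩
      omega
    obtain ⟨c, hc0, ec⟩ := S_classes h hk hkn hp hι (OR_Cut h hp hW) sx cx dx ex j a h2 (by omega)
      sa ca da
    refine ⟨c, hc0, ea.trans ?_⟩
    have h3 := ec.pull (smap_pS h)
    rwa [pull_smul', pull_pow'] at h3

end Crest.Agent.R208.GQ
end
end

-- ▼ part R208/GQ3b
section

/-! Row 208, block GQ (helper989), part GQ3b: classes on `ZZ = V₂(V)` in degrees `< n - 1`, from
Leray–Hirsch over `UV`. -/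

set_option autoImplicit false
set_option linter.unusedSectionVars false
set_option linter.unusedVariables false

open MeasureTheory Set Filter Topology Module
open scoped ContDiff RealInnerProductSpace
open Crest.GeometryTopology.Submanifold
open Crest.Agent.R241.DDefs
open Crest.Agent.R241.D2
open Crest.Agent.R208.F Crest.Agent.R208.FI Crest.Agent.R208.CW Crest.Agent.R208.T
open Crest.Agent.R208.L (US)

noncomputable section

namespace Crest.Agent.R208.GQ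

variable {n N k q : ℕ} {κ : ℝ} {S : Set (Euc N)} {G : Geo n N κ S} {p : Euc N}
  {ι : Type} [Fintype ι] [DecidableEq ι] {W : Euc N × Euc N → (ι × Fin 2 → Fin N) → ℝ}
  {x : Euc N → Ext (Euc N)}

/-- `V` over `UV` -/
abbrev Q1 (h : GT.Bla G k) (ζ : (Euc N × Euc N) × Euc N) : Euc N →L[ℝ] Euc N := FV.PVB h ζ.1

/-- the tautological section -/
abbrev v1 (ζ : (Euc N × Euc N) × Euc N) : Euc N := ζ.2

/-- `S(v^⊥) → UV`, a copy of `ZZ` -/
abbrev Z1 (h : GT.Bla G k) : Set (((Euc N × Euc N) × Euc N) × Euc N) :=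
  Sph (UV h) (Pm (Q1 h) v1)

theorem sym_PVB (h : GT.Bla G k) {z : Euc N × Euc N} (hz : z ∈ GT.FF S) (a b : Euc N) :
    ⟪FV.PVB h z a, b⟫ = ⟪a, FV.PVB h z b⟫ :=
  (FV.vfield_PVB h).inner_PV (p := z.1) (q := z.2) hz a b

theorem oddS_UV (h : GT.Bla G k) : OddS (UV h) (Q1 h) k v1 where
  pf := ⟨fun ζ hζ => (FV.contDiff_PVB h).contDiffAt.comp ζ contDiffAt_fst,
    fun ζ hζ a => (FV.pfield_PVB h).idem ζ.1 hζ.1.1 a, fun ζ hζ => (FV.pfield_PVB h).rank ζ.1 hζ.1.1⟩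
  sym := fun ζ hζ a b => sym_PVB h hζ.1.1 a b
  sv := fun _ _ => contDiffAt_snd
  nv := fun _ hζ => hζ.2
  fix := fun _ hζ => hζ.1.2

theorem or_UV (h : GT.Bla G k) (hW : OR (GT.FF S) (FV.PVB h) W) :
    OR (UV h) (Q1 h) (fun ζ => W ζ.1) :=
  GP.OR.comp hW (f := fun ζ : (Euc N × Euc N) × Euc N => ζ.1) (fun _ _ => contDiffAt_fst)
    fun _ hζ => hζ.1.1

/-- the two copies of `V₂(V)` -/
def toZ (ζ : (Euc N × Euc N) × (Fin 2 → Euc N)) : ((Euc N × Euc N) × Euc N) × Euc N :=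
  ((ζ.1, ζ.2 0), ζ.2 1)

def ofZ (z : ((Euc N × Euc N) × Euc N) × Euc N) : (Euc N × Euc N) × (Fin 2 → Euc N) :=
  (z.1.1, ![z.1.2, z.2])

theorem ofZ_toZ (ζ : (Euc N × Euc N) × (Fin 2 → Euc N)) : ofZ (toZ ζ) = ζ := by
  refine Prod.ext rfl ?_
  funext i
  fin_cases i <;> rfl

theorem toZ_ofZ (z : ((Euc N × Euc N) × Euc N) × Euc N) : toZ (ofZ z) = z := rfl

theorem smap_toZ (h : GT.Bla G k) : SMap (GT.ZZ S (FV.PVB h)) (Z1 h) toZ := by
  refine ⟨fun ζ _ => ?_, fun ζ hζ => ?_⟩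
  · have h0 : ∀ i : Fin 2, ContDiffAt ℝ ∞ (fun ζ : (Euc N × Euc N) × (Fin 2 → Euc N) => ζ.2 i) ζ :=
      fun i => ((contDiff_apply ℝ (Euc N) i).contDiffAt).comp ζ contDiffAt_snd
    exact (contDiffAt_fst.prodMk (h0 0)).prodMk (h0 1)
  · obtain ⟨h1, h2, h3⟩ := hζ
    have h4 : ⟪ζ.2 0, ζ.2 1⟫ = 0 := h3.2 (by decide)
    refine ⟨⟨⟨⟨h1, h2 0⟩, h3.1 0⟩, ?_⟩, h3.1 1⟩
    change FV.PVB h ζ.1 (ζ.2 1) - ⟪ζ.2 0, ζ.2 1⟫ • ζ.2 0 = ζ.2 1
    rw [h4, zero_smul, sub_zero, h2 1]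

theorem smap_ofZ (h : GT.Bla G k) : SMap (Z1 h) (GT.ZZ S (FV.PVB h)) ofZ := by
  refine ⟨fun z _ => ?_, fun z hz => ?_⟩
  · refine (contDiffAt_fst.comp z contDiffAt_fst).prodMk (contDiffAt_pi.2 fun i => ?_)
    fin_cases i
    · exact contDiffAt_snd.comp z contDiffAt_fst
    · exact contDiffAt_snd
  · obtain ⟨⟨⟨⟨h1, h2⟩, h3⟩, h4⟩, h5⟩ := hz
    have h6 : ⟪z.1.2, z.2⟫ = 0 := by
      rw [← h4]
      exact (oddS_UV h).inner_Pm (x := z.1) ⟨⟨h1, h2⟩, h3⟩ z.2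
    have h7 : FV.PVB h z.1.1 z.2 = z.2 := by
      have := (oddS_UV h).Q_Pm (x := z.1) ⟨⟨h1, h2⟩, h3⟩ z.2
      rwa [h4] at this
    refine ⟨h1, fun i => ?_, ?_⟩
    · fin_cases i
      · exact h2
      · exact h7
    · refine ⟨fun i => ?_, fun i j hij => ?_⟩
      · fin_cases i
        · exact h3
        · exact h5
      · fin_cases i <;> fin_cases j
        · exact absurd rfl hij
        · exact h6
        · change ⟪z.2, z.1.2⟫ = 0
          rw [real_inner_comm, h6]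
        · exact absurd rfl hij

/-! ### Leray–Hirsch -/
section lh
variable {ε : ((Euc N × Euc N) × Euc N) × Euc N → Ext (((Euc N × Euc N) × Euc N) × Euc N)}

/-- `x` on `Z1` -/
def pZ (z : ((Euc N × Euc N) × Euc N) × Euc N) : Euc N := z.1.1.1

theorem smap_pZ (h : GT.Bla G k) : SMap (Z1 h) S pZ :=
  ⟨fun _ _ => contDiffAt_fst.comp _ (contDiffAt_fst.comp _ contDiffAt_fst),
    fun _ hζ => hζ.1.1.1.1.1⟩

/-- `H^j(ZZ) = 0` for odd `j < n - 1` -/
theorem exactIn_Z1 (h : GT.Bla G k) (hk : 2 ≤ k) (hkn : k < n) (hke : Even k) (hne : Even n)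
    (hp : p ∈ S) (hι : 2 * Fintype.card ι = k) (hW : OR (GT.FF S) (FV.PVB h) W) (hq : q + 2 = k)
    (hL : LH (UV h) (Pm (Q1 h) v1) q ε) {j : ℕ} (hj : Odd j) (hjn : j + 1 < n) :
    ExactIn (Z1 h) j := by
  intro b hb hc hd
  have key : ∀ {i : ℕ} {a : (Euc N × Euc N) × Euc N → Ext ((Euc N × Euc N) × Euc N)}, Odd i →
      i + 1 < n → Sm (UV h) a → Cl (UV h) a → Hom i a → Coh (Z1 h) (F.pull Prod.fst a) 0 := by
    intro i a hi hin sa ca da
    have h1 := (exactIn_UV h hk hkn hke hne hp hι hW hi hin a sa ca da).pull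
      (smap_fstS (X := UV h) (P := Pm (Q1 h) v1))
    rwa [pull_zero'] at h1
  rcases Nat.lt_or_ge j q with h1 | h1
  · obtain ⟨a, sa, ca, da, ea⟩ := hL.low h1 hb hc hd
    exact ea.trans (key hj hjn sa ca da)
  · obtain ⟨i, rfl⟩ : ∃ i, j = i + q := ⟨j - q, by omega⟩
    obtain ⟨a, c, sa, ca, da, sc, cc, dc, ea⟩ := hL.split hb hc hd
    have hi : Odd i := by
      rcases hj with ⟨u, hu⟩
      rcases hke with ⟨t, ht⟩
      exact ⟨u - (t - 1), by omega⟩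
    have h2 := (key hj hjn sa ca da).add ((key hi (by omega) sc cc dc).mul_left hL.sm hL.cl)
    rw [mul_zero, add_zero] at h2
    exact ea.trans h2

/-- closed forms of even degree `< n - 1` on `ZZ` -/
theorem Z1_even (h : GT.Bla G k) (hk : 2 ≤ k) (hkn : k < n) (hke : Even k) (hne : Even n)
    (hp : p ∈ S) (hι : 2 * Fintype.card ι = k) (hW : OR (GT.FF S) (FV.PVB h) W) (hq : q + 2 = k)
    (hL : LH (UV h) (Pm (Q1 h) v1) q ε) (sx : Sm S x) (cx : Cl S x) (dx : Hom k x)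
    (ex : Eqv (GP.Cut S p) x (eR (FV.PC h p) (fun q => W (q, p)))) {j : ℕ} (hj : Even j)
    (hjn : j + 1 < n)
    {b : ((Euc N × Euc N) × Euc N) × Euc N → Ext (((Euc N × Euc N) × Euc N) × Euc N)}
    (hb : Sm (Z1 h) b) (hc : Cl (Z1 h) b) (hd : Hom j b) :
    ∃ s t : ℝ, (¬ k ∣ j → s = 0) ∧ (¬ (q ≤ j ∧ k ∣ j - q) → t = 0) ∧
      Coh (Z1 h) b (s • F.pull pZ x ^ (j / k) + t • (ε * F.pull pZ x ^ ((j - q) / k))) := by
  have key : ∀ {i : ℕ} {a : (Euc N × Euc N) × Euc N → Ext ((Euc N × Euc N) × Euc N)}, Even i →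
      i + 1 < n → Sm (UV h) a → Cl (UV h) a → Hom i a → ∃ t : ℝ, (¬ k ∣ i → t = 0) ∧
        Coh (Z1 h) (F.pull Prod.fst a) (t • F.pull pZ x ^ (i / k)) := by
    intro i a hi hin sa ca da
    obtain ⟨t, ht, et⟩ := UV_even h hk hkn hne hp hι hW sx cx dx ex hi hin sa ca da
    refine ⟨t, ht, ?_⟩
    have h1 := et.pull (smap_fstS (X := UV h) (P := Pm (Q1 h) v1))
    rw [pull_smul', pull_pow'] at h1
    have h2 : Eqv (Z1 h) (F.pull Prod.fst (F.pull pS x)) (F.pull pZ x) :=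
      eqv_pull_pull smap_fstS (smap_pS h) (smap_pZ h) (fun _ _ => rfl) x
    exact h1.trans (Coh.of_eqv ((h2.pow _).smul t))
  rcases Nat.lt_or_ge j q with h1 | h1
  · obtain ⟨a, sa, ca, da, ea⟩ := hL.low h1 hb hc hd
    obtain ⟨t, ht, et⟩ := key hj hjn sa ca da
    refine ⟨t, 0, ht, fun _ => rfl, ea.trans ?_⟩
    rw [zero_smul, add_zero]
    exact et
  · obtain ⟨i, rfl⟩ : ∃ i, j = i + q := ⟨j - q, by omega⟩
    obtain ⟨a, c, sa, ca, da, sc, cc, dc, ea⟩ := hL.split hb hc hd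
    have hi : Even i := by
      rcases hj with ⟨u, hu⟩
      rcases hke with ⟨t, ht⟩
      exact ⟨u - (t - 1), by omega⟩
    obtain ⟨s, hs, es⟩ := key hj hjn sa ca da
    obtain ⟨t, ht, et⟩ := key hi (by omega) sc cc dc
    refine ⟨s, t, hs, fun h2 => ht fun h3 => h2 ⟨h1, by rwa [Nat.add_sub_cancel]⟩, ea.trans ?_⟩
    have h2 := es.add (et.mul_left hL.sm hL.cl)
    rw [mul_smul_comm] at h2
    rw [Nat.add_sub_cancel]
    exact h2

/-- non-degeneracy on `ZZ` -/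
theorem Z1_inj (h : GT.Bla G k) (hL : LH (UV h) (Pm (Q1 h) v1) q ε) (sx : Sm S x) (cx : Cl S x)
    (dx : Hom k x) {i : ℕ}
    (h0 : Coh (Z1 h) (ε * F.pull pZ x ^ i) 0 ∨ Coh (Z1 h) (F.pull pZ x ^ i) 0) :
    Coh (UV h) (F.pull pS x ^ i) 0 := by
  have h2 : Eqv (Z1 h) (F.pull Prod.fst (F.pull pS x)) (F.pull pZ x) :=
    eqv_pull_pull smap_fstS (smap_pS h) (smap_pZ h) (fun _ _ => rfl) x
  have s1 : Sm (UV h) (F.pull pS x) := sx.pull (smap_pS h)
  have c1 : Cl (UV h) (F.pull pS x) := cx.pull (smap_pS h) sx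
  have d1 : Hom (k * i) (F.pull pS x ^ i) := Hom.pow (Hom.pull dx) i
  have h3 : Eqv (Z1 h) (F.pull Prod.fst (F.pull pS x ^ i)) (F.pull pZ x ^ i) := by
    rw [pull_pow']
    exact h2.pow i
  rcases h0 with h0 | h0
  · exact hL.inj (s1.pow i) (Cl.pow s1 c1 i) d1 ((Coh.of_eqv ((Eqv.refl ε).mul h3)).trans h0)
  · exact hL.inj' (s1.pow i) (Cl.pow s1 c1 i) d1 ((Coh.of_eqv h3).trans h0)

end lh

end Crest.Agent.R208.GQ
end
end

-- ▼ part R208/GQ3c
section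

/-! Row 208, block GQ (helper989), part GQ3c: the ring `H(ZZ)` in low degrees. -/

set_option autoImplicit false
set_option linter.unusedSectionVars false
set_option linter.unusedVariables false

open MeasureTheory Set Filter Topology Module
open scoped ContDiff RealInnerProductSpace
open Crest.GeometryTopology.Submanifold
open Crest.Agent.R241.DDefs
open Crest.Agent.R241.D2
open Crest.Agent.R208.F Crest.Agent.R208.FI Crest.Agent.R208.CW Crest.Agent.R208.T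
open Crest.Agent.R208.L (US)

noncomputable section

namespace Crest.Agent.R208.GQ

variable {n N k q m : ℕ} {κ : ℝ} {S : Set (Euc N)} {G : Geo n N κ S} {p : Euc N}
  {ι : Type} [Fintype ι] [DecidableEq ι] {W : Euc N × Euc N → (ι × Fin 2 → Fin N) → ℝ}
  {x : Euc N → Ext (Euc N)}
  {ε : ((Euc N × Euc N) × Euc N) × Euc N → Ext (((Euc N × Euc N) × Euc N) × Euc N)}

/-- `H^j(S) → H^j(US)` is injective for `j < n` -/
theorem UV_inj (h : GT.Bla G k) (hk : 2 ≤ k) (hne : Even n) {j : ℕ} {b : Euc N → Ext (Euc N)}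
    (hb : Sm S b) (hc : Cl S b) (hd : Hom j b) (hj : j < n) (h0 : Coh (UV h) (F.pull pS b) 0) :
    Coh S b 0 := by
  obtain ⟨m, hm⟩ := hne
  have hι : 2 * Fintype.card (Fin m) = n := by rw [Fintype.card_fin]; omega
  obtain ⟨Wt, hW⟩ := GP.exists_OR_S (G := G) h.bl h.ty hk hι
  have : Nonempty (Fin m) := ⟨⟨0, by omega⟩⟩
  have h1 := h0.pull (FV.smap_up h)
  rw [pull_zero'] at h1
  have e1 : Eqv (Sph S G.P) (F.pull (FV.up G) (F.pull pS b)) (F.pull Prod.fst b) :=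
    eqv_pull_pull (FV.smap_up h) (smap_pS h) smap_fstS (fun _ _ => rfl) b
  exact gysin_low_all (FV.sub_S h.bl) h.bl.conn.isPreconnected hW hb hc hd (by omega)
    ((Coh.of_eqv e1.symm).trans h1)

/-- powers of `x` on `US` -/
theorem UV_pow_ne (h : GT.Bla G k) (hk : 2 ≤ k) (hne : Even n) (sx : Sm S x) (cx : Cl S x)
    (dx : Hom k x) (hxm : ¬ Coh S (x ^ m) 0) {i : ℕ} (hi : i ≤ m) (hin : k * i < n) :
    ¬ Coh (UV h) (F.pull pS x ^ i) 0 := by
  intro h0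
  rw [← pull_pow'] at h0
  have h1 := UV_inj h hk hne (sx.pow i) (Cl.pow sx cx i) (dx.pow i) hin h0
  have h2 := h1.mul_right (sx.pow (m - i)) (Cl.pow sx cx (m - i))
  rw [zero_mul, ← pow_add, Nat.add_sub_cancel' hi] at h2
  exact hxm h2

/-- `ε` on `ZZ` -/
abbrev eZ (ε : ((Euc N × Euc N) × Euc N) × Euc N → Ext (((Euc N × Euc N) × Euc N) × Euc N)) :
    (Euc N × Euc N) × (Fin 2 → Euc N) → Ext ((Euc N × Euc N) × (Fin 2 → Euc N)) := F.pull toZ ε

/-- the first point -/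
def pz (ζ : (Euc N × Euc N) × (Fin 2 → Euc N)) : Euc N := ζ.1.1

theorem smap_pz (h : GT.Bla G k) : SMap (GT.ZZ S (FV.PVB h)) S pz :=
  ⟨fun _ _ => contDiffAt_fst.comp _ contDiffAt_fst, fun _ hζ => hζ.1.1⟩

/-- `x` on `ZZ` -/
abbrev xZ (x : Euc N → Ext (Euc N)) :
    (Euc N × Euc N) × (Fin 2 → Euc N) → Ext ((Euc N × Euc N) × (Fin 2 → Euc N)) := F.pull pz x

theorem eqv_xZ (h : GT.Bla G k) (x : Euc N → Ext (Euc N)) :
    Eqv (GT.ZZ S (FV.PVB h)) (F.pull toZ (F.pull pZ x)) (xZ x) :=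
  eqv_pull_pull (smap_toZ h) (smap_pZ h) (smap_pz h) (fun _ _ => rfl) x

theorem eqv_xZ' (h : GT.Bla G k) (x : Euc N → Ext (Euc N)) :
    Eqv (Z1 h) (F.pull ofZ (xZ x)) (F.pull pZ x) :=
  eqv_pull_pull (smap_ofZ h) (smap_pz h) (smap_pZ h) (fun _ _ => rfl) x

theorem eqv_toZ (h : GT.Bla G k)
    (b : (Euc N × Euc N) × (Fin 2 → Euc N) → Ext ((Euc N × Euc N) × (Fin 2 → Euc N))) :
    Eqv (GT.ZZ S (FV.PVB h)) (F.pull toZ (F.pull ofZ b)) b :=
  (eqv_pull_pull (smap_toZ h) (smap_ofZ h) (SMap.id _) (fun ζ _ => ofZ_toZ ζ) b).trans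
    (Eqv.of_eq fun z _ => F.pull_id b z)

theorem eqv_ofZ (h : GT.Bla G k)
    (b : ((Euc N × Euc N) × Euc N) × Euc N → Ext (((Euc N × Euc N) × Euc N) × Euc N)) :
    Eqv (Z1 h) (F.pull ofZ (F.pull toZ b)) b :=
  (eqv_pull_pull (smap_ofZ h) (smap_toZ h) (SMap.id _) (fun z _ => toZ_ofZ z) b).trans
    (Eqv.of_eq fun z _ => F.pull_id b z)

/-- `H^j(ZZ) = 0` for odd `j < n - 1` -/
theorem exactIn_ZZ (h : GT.Bla G k) (hk : 2 ≤ k) (hkn : k < n) (hke : Even k) (hne : Even n)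
    (hp : p ∈ S) (hι : 2 * Fintype.card ι = k) (hW : OR (GT.FF S) (FV.PVB h) W) (hq : q + 2 = k)
    (hL : LH (UV h) (Pm (Q1 h) v1) q ε) {j : ℕ} (hj : Odd j) (hjn : j + 1 < n) :
    ExactIn (GT.ZZ S (FV.PVB h)) j :=
  (exactIn_Z1 h hk hkn hke hne hp hι hW hq hL hj hjn).transport (smap_toZ h) (smap_ofZ h)
    fun ζ _ => ofZ_toZ ζ

/-- closed forms of even degree `< n - 1` on `ZZ` -/
theorem ZZ_even (h : GT.Bla G k) (hk : 2 ≤ k) (hkn : k < n) (hke : Even k) (hne : Even n)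
    (hp : p ∈ S) (hι : 2 * Fintype.card ι = k) (hW : OR (GT.FF S) (FV.PVB h) W) (hq : q + 2 = k)
    (hL : LH (UV h) (Pm (Q1 h) v1) q ε) (sx : Sm S x) (cx : Cl S x) (dx : Hom k x)
    (ex : Eqv (GP.Cut S p) x (eR (FV.PC h p) (fun q => W (q, p)))) {j : ℕ} (hj : Even j)
    (hjn : j + 1 < n)
    {b : (Euc N × Euc N) × (Fin 2 → Euc N) → Ext ((Euc N × Euc N) × (Fin 2 → Euc N))}
    (hb : Sm (GT.ZZ S (FV.PVB h)) b) (hc : Cl (GT.ZZ S (FV.PVB h)) b) (hd : Hom j b) :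
    ∃ s t : ℝ, (¬ k ∣ j → s = 0) ∧ (¬ (q ≤ j ∧ k ∣ j - q) → t = 0) ∧
      Coh (GT.ZZ S (FV.PVB h)) b (s • xZ x ^ (j / k) + t • (eZ ε * xZ x ^ ((j - q) / k))) := by
  obtain ⟨s, t, hs, ht, e1⟩ := Z1_even h hk hkn hke hne hp hι hW hq hL sx cx dx ex hj hjn
    (hb.pull (smap_ofZ h)) (hc.pull (smap_ofZ h) hb) hd.pull
  refine ⟨s, t, hs, ht, (Coh.of_eqv (eqv_toZ h b).symm).trans ((e1.pull (smap_toZ h)).trans ?_)⟩
  rw [pull_add', pull_smul', pull_smul', pull_mul', pull_pow', pull_pow']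
  have h1 := eqv_xZ h x
  exact Coh.of_eqv (((h1.pow _).smul s).add (((Eqv.refl (eZ ε)).mul (h1.pow _)).smul t))

/-- `e'^2 = 0` on `ZZ`, `k ≥ 6` -/
theorem eZ_sq (h : GT.Bla G k) (hk : 6 ≤ k) (hkn : 2 * k ≤ n) (hke : Even k) (hne : Even n)
    (hp : p ∈ S) (hι : 2 * Fintype.card ι = k) (hW : OR (GT.FF S) (FV.PVB h) W) (hq : q + 2 = k)
    (hL : LH (UV h) (Pm (Q1 h) v1) q ε) (sx : Sm S x) (cx : Cl S x) (dx : Hom k x)
    (ex : Eqv (GP.Cut S p) x (eR (FV.PC h p) (fun q => W (q, p)))) :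
    Coh (GT.ZZ S (FV.PVB h)) (eZ ε * eZ ε) 0 := by
  have s1 : Sm (GT.ZZ S (FV.PVB h)) (eZ ε) := hL.sm.pull (smap_toZ h)
  have c1 : Cl (GT.ZZ S (FV.PVB h)) (eZ ε) := hL.cl.pull (smap_toZ h) hL.sm
  have d1 : Hom q (eZ ε) := Hom.pull hL.deg
  obtain ⟨s, t, hs, ht, e1⟩ := ZZ_even h (by omega) (by omega) hke hne hp hι hW hq hL sx cx dx ex
    (j := q + q) ⟨q, rfl⟩ (by omega) (s1.mul s1) (Cl.mul s1 s1 c1 c1) (d1.mul d1)
  have h1 : ¬ k ∣ q + q := by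
    rintro ⟨c, hc⟩
    rcases Nat.lt_or_ge c 2 with h2 | h2
    · interval_cases c <;> omega
    · have := Nat.mul_le_mul_left k h2
      omega
  have h2 : ¬ (q ≤ q + q ∧ k ∣ q + q - q) := by
    rintro ⟨-, h3⟩
    rw [Nat.add_sub_cancel] at h3
    have := Nat.le_of_dvd (by omega) h3
    omega
  rwa [hs h1, ht h2, zero_smul, zero_smul, add_zero] at e1

/-- `x^i ≠ 0`, `e' x^i ≠ 0` on `ZZ` -/
theorem ZZ_ne (h : GT.Bla G k) (hk : 2 ≤ k) (hne : Even n)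
    (hL : LH (UV h) (Pm (Q1 h) v1) q ε) (sx : Sm S x) (cx : Cl S x) (dx : Hom k x)
    (hxm : ¬ Coh S (x ^ m) 0) {i : ℕ} (hi : i ≤ m) (hin : k * i < n) :
    ¬ Coh (GT.ZZ S (FV.PVB h)) (xZ x ^ i) 0 ∧ ¬ Coh (GT.ZZ S (FV.PVB h)) (eZ ε * xZ x ^ i) 0 := by
  have h1 := eqv_xZ' h x
  constructor
  · intro h0
    refine UV_pow_ne h hk hne sx cx dx hxm hi hin (Z1_inj h hL sx cx dx (Or.inr ?_))
    have h2 := h0.pull (smap_ofZ h)
    rw [pull_zero', pull_pow'] at h2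
    exact (Coh.of_eqv (h1.pow i).symm).trans h2
  · intro h0
    refine UV_pow_ne h hk hne sx cx dx hxm hi hin (Z1_inj h hL sx cx dx (Or.inl ?_))
    have h2 := h0.pull (smap_ofZ h)
    rw [pull_zero', pull_mul', pull_pow'] at h2
    exact (Coh.of_eqv ((eqv_ofZ h ε).symm.mul (h1.pow i).symm)).trans h2

/-! ### classes -/

/-- a closed real form of even degree -/
theorem ec_even {E : Type*} [NormedAddCommGroup E] [NormedSpace ℝ E] [FiniteDimensional ℝ E]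
    {X : Set E} {a : E → Ext E} {j : ℕ} (sa : Sm X a) (ca : Cl X a) (da : Hom j a) (hj : Even j) :
    EC X a := by
  obtain ⟨i, hi⟩ := hj
  rw [← two_mul] at hi
  subst hi
  exact EC.of_hom sa ca da


end Crest.Agent.R208.GQ
end
end

-- ▼ part R208/GQ4b

/-! Row 208, block GQ (helper989), part GQ4b: Leray–Hirsch for `ZZ → US` with the Euler form of
`V ⊖ ⟨v₀, v₁⟩` (tensor `GO.WS`), and the resulting statements on `ZZ`. -/

set_option autoImplicit false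
set_option linter.unusedSectionVars false
set_option linter.unusedVariables false

open MeasureTheory Set Filter Topology Module
open scoped ContDiff RealInnerProductSpace
open Crest.GeometryTopology.Submanifold
open Crest.Agent.R241.DDefs
open Crest.Agent.R241.D2
open Crest.Agent.R208.F Crest.Agent.R208.FI Crest.Agent.R208.CW Crest.Agent.R208.T
open Crest.Agent.R208.L (US)

noncomputable section

namespace Crest.Agent.R208.GQ

variable {n N k m : ℕ} {κ : ℝ} {S : Set (Euc N)} {G : Geo n N κ S} {p : Euc N}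
  {ι ι' : Type} [Fintype ι] [DecidableEq ι] [Fintype ι'] [DecidableEq ι'] [Nonempty ι']
  {W : Euc N × Euc N → (ι × Fin 2 → Fin N) → ℝ} {x : Euc N → Ext (Euc N)}
  (eq : (Unit × Fin 2) ⊕ (ι' × Fin 2) ≃ (ι × Fin 2))

/-- the Euler form of `V ⊖ ⟨v₀, v₁⟩` on `Z1` -/
def eps (eq : (Unit × Fin 2) ⊕ (ι' × Fin 2) ≃ (ι × Fin 2)) (h : GT.Bla G k)
    (W : Euc N × Euc N → (ι × Fin 2 → Fin N) → ℝ) :
    ((Euc N × Euc N) × Euc N) × Euc N → Ext (((Euc N × Euc N) × Euc N) × Euc N) :=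
  eR (GO.RR (Pm (Q1 h) v1)) (GO.WS eq (fun ζ => W ζ.1) v1)

theorem card_eq (eq : (Unit × Fin 2) ⊕ (ι' × Fin 2) ≃ (ι × Fin 2)) :
    Fintype.card ι' + 1 = Fintype.card ι := by
  have h1 := Fintype.card_congr eq
  rw [Fintype.card_sum, Fintype.card_prod, Fintype.card_prod, Fintype.card_prod,
    Fintype.card_unit, Fintype.card_fin] at h1
  omega

theorem nonempty_UV (h : GT.Bla G k) (hn : 2 ≤ n) (hS : S.Nonempty) : (UV h).Nonempty := by
  obtain ⟨p, hp⟩ := hS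
  have hn1 : 0 < finrank ℝ (LinearMap.range (G.P p : Euc N →ₗ[ℝ] Euc N)) := by
    rw [finrank_range_P G hp]; omega
  obtain ⟨v, hv⟩ := finrank_pos_iff_exists_ne_zero.1 hn1
  have hv0 : (v : Euc N) ≠ 0 := fun h0 => hv (Subtype.ext h0)
  have hv1 : G.P p (v : Euc N) = v := by
    obtain ⟨w, hw⟩ := v.2
    rw [← hw]
    exact (LB.pfield G).idem p hp w
  refine ⟨FV.up G (p, ‖(v : Euc N)‖⁻¹ • (v : Euc N)), (FV.smap_up h).maps ⟨⟨hp, ?_⟩, ?_⟩⟩
  · change G.P p (‖(v : Euc N)‖⁻¹ • (v : Euc N)) = ‖(v : Euc N)‖⁻¹ • (v : Euc N)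
    rw [map_smul, hv1]
  · change ‖‖(v : Euc N)‖⁻¹ • (v : Euc N)‖ = 1
    rw [norm_smul, norm_inv, norm_norm, inv_mul_cancel₀ (norm_ne_zero_iff.2 hv0)]

theorem or_Z1 (h : GT.Bla G k) (hW : OR (GT.FF S) (FV.PVB h) W) :
    OR (Z1 h) (GO.RR (Pm (Q1 h) v1)) (GO.WS eq (fun ζ => W ζ.1) v1) :=
  GO.OR_sph eq (oddS_UV h) (or_UV h hW)

/-- **(X6)**: Leray–Hirsch for `ZZ → US` -/
theorem lh_UV (h : GT.Bla G k) (hn : 2 ≤ n) (hkn : k < n) (hS : S.Nonempty)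
    (hι : 2 * Fintype.card ι = k) (hW : OR (GT.FF S) (FV.PVB h) W) :
    LH (UV h) (Pm (Q1 h) v1) (2 * Fintype.card ι') (eps eq h W) := by
  have hc := card_eq eq
  have : Nonempty ι := Fintype.card_pos_iff.1 (by omega)
  obtain ⟨z0, hz0⟩ := nonempty_UV h hn hS
  have hO := or_Z1 eq h hW
  have hodd : OddS (UV h) (Q1 h) (2 * Fintype.card ι) v1 := by
    rw [hι]; exact oddS_UV h
  refine lh_OR (sub_UV h (by omega) hkn) (preconn_UV h hn) (or_UV h hW) hodd (by omega)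
    hO.ec_eR.sm hO.ec_eR.cl hom_eR ?_
  rintro ⟨a, sa, -, -, ea⟩
  exact GO.not_pull_sph eq hodd (or_UV h hW) hz0 ⟨a, sa, ea⟩






end Crest.Agent.R208.GQ
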