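import Mathlib

-- ▼ part R208/V2a
section

/-!
# The (V2) lemma of 591 (#10936), part a: the number sequences

`F b a i = [z^i] (1-z)^a / (1-2z)^b`, and the positivity of the bracket.
-/

namespace Crest.Agent.R208.V2

open Finset

noncomputable section

/-- generalised binomial coefficient. -/
def bn (a : ℝ) : ℕ → ℝ
  | 0 => 1
  | k + 1 => bn a k * (a - k) / (k + 1)

@[simp] theorem bn_zero (a : ℝ) : bn a 0 = 1 := rfl

theorem bn_succ (a : ℝ) (k : ℕ) : bn a (k + 1) = bn a k * (a - k) / (k + 1) := rfl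

theorem bn_succ_mul (a : ℝ) (k : ℕ) : (k + 1) * bn a (k + 1) = bn a k * (a - k) := by
  rw [bn_succ]
  field_simp

theorem bn_pascal (a : ℝ) (k : ℕ) : bn (a + 1) (k + 1) = bn a (k + 1) + bn a k := by
  induction k with
  | zero => simp [bn]
  | succ k ih =>
    rw [bn_succ (a + 1) (k + 1), ih]
    have h := bn_succ_mul a k
    have h2 := bn_succ_mul a (k + 1)
    have hk : ((k : ℝ) + 1 + 1) ≠ 0 := by positivity
    push_cast at *
    field_simp
    linear_combination -h - h2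

theorem bn_absorb (a : ℝ) (t : ℕ) : a * bn (a - 1) t = (a - t) * bn a t := by
  induction t with
  | zero => simp
  | succ t ih =>
    rw [bn_succ, bn_succ]
    have hk : ((t : ℝ) + 1) ≠ 0 := by positivity
    push_cast
    field_simp
    linear_combination (a - 1 - t) * ih

theorem bn_pos {a : ℝ} {t : ℕ} (h : (t : ℝ) < a + 1) : 0 < bn a t := by
  induction t with
  | zero => simp
  | succ t ih =>
    rw [bn_succ]
    push_cast at h
    have h1 : 0 < bn a t := ih (by linarith)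
    have h2 : 0 < a - t := by linarith
    positivity

/-- `F b a i = [z^i] (1-z)^a / (1-2z)^b`. -/
def F : ℕ → ℝ → ℕ → ℝ
  | 0, a, i => (-1) ^ i * bn a i
  | _ + 1, _, 0 => 1
  | b + 1, a, i + 1 => 2 * F (b + 1) a i + F b a (i + 1)

@[simp] theorem F_zero_right (b : ℕ) (a : ℝ) : F b a 0 = 1 := by
  cases b <;> simp [F]

theorem F_zero_left (a : ℝ) (i : ℕ) : F 0 a i = (-1) ^ i * bn a i := by
  cases i <;> simp [F]

theorem F_succ (b : ℕ) (a : ℝ) (i : ℕ) : F (b + 1) a (i + 1) = 2 * F (b + 1) a i + F b a (i + 1) := by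
  rw [F]

theorem F_pascal (b : ℕ) (a : ℝ) (i : ℕ) : F b (a + 1) (i + 1) = F b a (i + 1) - F b a i := by
  induction b generalizing i with
  | zero =>
    rw [F_zero_left, F_zero_left, F_zero_left, bn_pascal]
    ring
  | succ b ihb =>
    induction i with
    | zero =>
      rw [F_succ, F_succ, ihb]
      simp
      ring
    | succ i ihi =>
      rw [F_succ, ihi, ihb, F_succ b a (i + 1), F_succ b a i]
      ring

/-- the boundary numbers. -/
def om (i : ℕ) : ℝ := F 0 ((i : ℝ) / 2 - 1) i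

def ga (i : ℕ) : ℝ := F 1 ((i : ℝ) / 2) i

def be : ℕ → ℝ
  | 0 => 0
  | i + 1 => F 1 (((i + 1 : ℕ) : ℝ) / 2) i

def ee : ℕ → ℝ
  | 0 => 0
  | i + 1 => F 2 (((i + 1 : ℕ) : ℝ) / 2) i

def al : ℕ → ℝ
  | 0 => 0
  | i + 1 => F 3 (((i + 1 : ℕ) : ℝ) / 2 + 1) i

theorem om_F (i : ℕ) : F 0 ((i : ℝ) / 2) (i + 1) = 2 * F 0 ((i : ℝ) / 2) (i + 2) := by
  rw [F_zero_left, F_zero_left, bn_succ _ (i + 1)]
  have hk : ((i : ℝ) + 1 + 1) ≠ 0 := by positivity
  push_cast
  field_simp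
  ring

theorem om_add_two (i : ℕ) : om (i + 2) = F 0 ((i : ℝ) / 2) (i + 2) := by
  unfold om
  congr 1
  push_cast
  ring

theorem ga_add_two (i : ℕ) : ga (i + 2) = 2 * ga i + 3 * om (i + 2) := by
  unfold ga
  have e : ((i + 2 : ℕ) : ℝ) / 2 = (i : ℝ) / 2 + 1 := by push_cast; ring
  rw [e, F_pascal 1 _ (i + 1), F_succ 0 _ (i + 1), F_succ 0 _ i, om_add_two, om_F]
  ring

theorem be_add_two (i : ℕ) : be (i + 2) = ga i + 2 * om (i + 2) := by
  show F 1 (((i + 1 + 1 : ℕ) : ℝ) / 2) (i + 1) = _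
  unfold ga
  have e : ((i + 1 + 1 : ℕ) : ℝ) / 2 = (i : ℝ) / 2 + 1 := by push_cast; ring
  rw [e, F_pascal 1 _ i, F_succ 0 _ i, om_add_two, om_F]
  ring

theorem F_two_aux (i : ℕ) : F 2 ((i : ℝ) / 2) i = 2 * ee i + ga i := by
  cases i with
  | zero => simp [ee, ga]
  | succ i =>
    rw [F_succ 1]
    rfl

theorem ee_add_two (i : ℕ) : ee (i + 2) = 2 * ee i + 3 * ga i + 2 * om (i + 2) := by
  show F 2 (((i + 1 + 1 : ℕ) : ℝ) / 2) (i + 1) = _
  have e : ((i + 1 + 1 : ℕ) : ℝ) / 2 = (i : ℝ) / 2 + 1 := by push_cast; ring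
  rw [e, F_pascal 2 _ i, F_succ 1 _ i, F_succ 0 _ i, F_two_aux, om_add_two, om_F]
  unfold ga
  ring

theorem F_three_aux (i : ℕ) : F 3 ((i : ℝ) / 2 + 1) i = 2 * al i + F 2 ((i : ℝ) / 2 + 1) i := by
  cases i with
  | zero => simp [al]
  | succ i =>
    rw [F_succ 2]
    rfl

theorem al_add_two (i : ℕ) : al (i + 2) = 2 * al i + (3 * ee (i + 2) - be (i + 2)) / 2 := by
  have h1 : al (i + 2) = F 3 ((i : ℝ) / 2 + 1 + 1) (i + 1) := by
    show F 3 (((i + 1 + 1 : ℕ) : ℝ) / 2 + 1) (i + 1) = _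
    congr 1
    push_cast
    ring
  have h2 : ee (i + 2) = F 2 ((i : ℝ) / 2 + 1) (i + 1) := by
    show F 2 (((i + 1 + 1 : ℕ) : ℝ) / 2) (i + 1) = _
    congr 1
    push_cast
    ring
  have h3 : be (i + 2) = F 1 ((i : ℝ) / 2 + 1) (i + 1) := by
    show F 1 (((i + 1 + 1 : ℕ) : ℝ) / 2) (i + 1) = _
    congr 1
    push_cast
    ring
  rw [h1, F_pascal, F_succ 2, F_three_aux, h2, h3]
  have h4 := F_succ 1 ((i : ℝ) / 2 + 1) i
  linarith

theorem om_succ (i : ℕ) : om (i + 2) = -((i : ℝ) / (4 * (i + 1))) * om i := by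
  rw [om_add_two, om, F_zero_left, F_zero_left, bn_succ, bn_succ]
  have h := bn_absorb ((i : ℝ) / 2) i
  have h1 : ((i : ℝ) + 1) ≠ 0 := by positivity
  have h2 : ((i : ℝ) + 1 + 1) ≠ 0 := by positivity
  have h3 : bn ((i : ℝ) / 2) i * ((i : ℝ) / 2 - i) = (i : ℝ) / 2 * bn ((i : ℝ) / 2 - 1) i := by
    rw [h]; ring
  rw [h3]
  push_cast
  rw [pow_add]
  field_simp
  ring


theorem om_one : om 1 = 1 / 2 := by
  unfold om
  rw [F_zero_left, bn_succ]
  norm_num

theorem om_two : om 2 = 0 := by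
  rw [om_succ 0]
  simp

theorem om_bound : ∀ i : ℕ, (i : ℝ) * |om i| ≤ 1 / 2
  | 0 => by simp
  | 1 => by rw [om_one]; norm_num [abs_of_pos]
  | i + 2 => by
    have ih := om_bound i
    rw [om_succ, abs_mul, abs_neg, abs_of_nonneg (by positivity : (0 : ℝ) ≤ (i : ℝ) / (4 * (i + 1)))]
    have h1 : ((i + 2 : ℕ) : ℝ) * ((i : ℝ) / (4 * (i + 1)) * |om i|)
        = (((i : ℝ) + 2) / (4 * (i + 1))) * ((i : ℝ) * |om i|) := by
      push_cast
      ring
    rw [h1]
    have h2 : ((i : ℝ) + 2) / (4 * (i + 1)) ≤ 1 := by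
      rw [div_le_one (by positivity)]
      nlinarith [(Nat.cast_nonneg i : (0 : ℝ) ≤ i)]
    calc _ ≤ 1 * (1 / 2 : ℝ) := mul_le_mul h2 ih (by positivity) (by norm_num)
      _ = 1 / 2 := by norm_num

theorem om_bound2 (i : ℕ) : ((i : ℝ) + 2) * |om (i + 2)| ≤ 1 / 4 := by
  have ih := om_bound i
  rw [om_succ, abs_mul, abs_neg, abs_of_nonneg (by positivity : (0 : ℝ) ≤ (i : ℝ) / (4 * (i + 1)))]
  have h1 : ((i : ℝ) + 2) * ((i : ℝ) / (4 * (i + 1)) * |om i|)
      = (((i : ℝ) + 2) / (4 * (i + 1))) * ((i : ℝ) * |om i|) := by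
    ring
  rw [h1]
  have h2 : ((i : ℝ) + 2) / (4 * (i + 1)) ≤ 1 / 2 := by
    rw [div_le_iff₀ (by positivity)]
    nlinarith [(Nat.cast_nonneg i : (0 : ℝ) ≤ i)]
  calc _ ≤ (1 / 2) * (1 / 2 : ℝ) := mul_le_mul h2 ih (by positivity) (by norm_num)
    _ = 1 / 4 := by norm_num

theorem om_small (i : ℕ) : |om (i + 2)| ≤ 1 / 8 := by
  have h := om_bound2 i
  have h0 : (0 : ℝ) ≤ i := Nat.cast_nonneg i
  have h1 : (0 : ℝ) ≤ |om (i + 2)| := abs_nonneg _
  nlinarith

theorem ga_zero : ga 0 = 1 := by simp [ga]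

theorem ga_one : ga 1 = 3 / 2 := by
  unfold ga
  rw [F_succ, F_zero_left, bn_succ]
  norm_num

theorem ga_ge : ∀ i : ℕ, 1 ≤ ga i
  | 0 => by rw [ga_zero]
  | 1 => by rw [ga_one]; norm_num
  | i + 2 => by
    have ih := ga_ge i
    have h := abs_le.1 (om_small i)
    rw [ga_add_two]
    linarith [h.1]

theorem ga_ge' (i : ℕ) : 13 / 8 ≤ ga (i + 2) := by
  have ih := ga_ge i
  have h := abs_le.1 (om_small i)
  rw [ga_add_two]
  linarith [h.1]

theorem be_one : be 1 = 1 := by simp [be]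
theorem ee_one : ee 1 = 1 := by simp [ee]
theorem al_one : al 1 = 1 := by simp [al]

theorem ee_nonneg : ∀ i : ℕ, 0 ≤ ee i
  | 0 => le_refl _
  | 1 => by rw [ee_one]; norm_num
  | i + 2 => by
    have ih := ee_nonneg i
    have h := abs_le.1 (om_small i)
    have h1 := ga_ge i
    rw [ee_add_two]
    linarith [h.1]

/-- the key inequality. -/
theorem al_ge : ∀ i : ℕ, ((i : ℝ) / 2 + 2) * (ga i + om (i + 2)) + 1 ≤ al (i + 2)
  | 0 => by
    rw [al_add_two, ee_add_two, be_add_two, om_two, ga_zero]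
    simp only [ee, al]
    norm_num
  | 1 => by
    rw [al_add_two, ee_add_two, be_add_two, om_succ, om_one, ga_one, ee_one, al_one]
    norm_num
  | i + 2 => by
    have ih := al_ge i
    have hg := ga_ge' i
    have he := ee_nonneg (i + 2)
    have h2 := om_bound2 i
    have h4 := om_bound2 (i + 2)
    have a2 := abs_le.1 (le_refl |om (i + 2)|)
    have a4 := abs_le.1 (le_refl |om (i + 4)|)
    have n2 : (0 : ℝ) ≤ |om (i + 2)| := abs_nonneg _
    have n4 : (0 : ℝ) ≤ |om (i + 4)| := abs_nonneg _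
    have h0 : (0 : ℝ) ≤ i := Nat.cast_nonneg i
    have e1 := al_add_two (i + 2)
    have e2 := ee_add_two (i + 2)
    have e3 := be_add_two (i + 2)
    have e4 := ga_add_two i
    show (((i + 2 : ℕ) : ℝ) / 2 + 2) * (ga (i + 2) + om (i + 4)) + 1 ≤ al (i + 4)
    change al (i + 4) = _ at e1
    change ee (i + 4) = _ + 2 * om (i + 4) at e2
    change be (i + 4) = _ + 2 * om (i + 4) at e3
    push_cast at *
    have p1 : ((i : ℝ) / 2 + 2) * om (i + 2) ≤ 1 / 4 := by
      have : ((i : ℝ) / 2 + 2) * om (i + 2) ≤ ((i : ℝ) + 2) * |om (i + 2)| := by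
        have : ((i : ℝ) / 2 + 2) * om (i + 2) ≤ ((i : ℝ) / 2 + 2) * |om (i + 2)| :=
          mul_le_mul_of_nonneg_left (le_abs_self _) (by positivity)
        nlinarith
      linarith
    have p2 : ((i : ℝ) / 2 + 1) * om (i + 4) ≤ 1 / 4 := by
      have h5 : ((i : ℝ) / 2 + 1) * om (i + 4) ≤ ((i : ℝ) / 2 + 1) * |om (i + 4)| :=
        mul_le_mul_of_nonneg_left (le_abs_self _) (by positivity)
      have h6 : ((i : ℝ) / 2 + 1) * |om (i + 4)| ≤ ((i : ℝ) + 2 + 2) * |om (i + 2 + 2)| := by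
        show ((i : ℝ) / 2 + 1) * |om (i + 4)| ≤ ((i : ℝ) + 2 + 2) * |om (i + 4)|
        nlinarith
      linarith
    nlinarith

/-- the lower bound of the bracket is positive. -/
def gm : ℕ → ℝ
  | 0 => 0
  | 1 => 0
  | i + 2 => ga i

theorem br_pos : ∀ i : ℕ, 0 < 2 * al (i + 1) - (((i + 1 : ℕ) : ℝ) / 2 + 1) * (be (i + 1) + gm (i + 1))
  | 0 => by
    rw [al_one, be_one]
    simp only [gm]
    norm_num
  | i + 1 => by
    have h := al_ge i
    show 0 < 2 * al (i + 2) - (((i + 2 : ℕ) : ℝ) / 2 + 1) * (be (i + 2) + ga i)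
    rw [be_add_two]
    push_cast at *
    linarith


end

end Crest.Agent.R208.V2
private theorem rz_dd2cdd8cde : type_of% @_root_.Crest.Agent.R208.V2.F.eq_1 := @_root_.Crest.Agent.R208.V2.F.eq_1 -- L61
private theorem rz_825e9927c7 : type_of% @_root_.Crest.Agent.R208.V2.al.eq_1 := @_root_.Crest.Agent.R208.V2.al.eq_1 -- L103
private theorem rz_907dd78937 : type_of% @_root_.Crest.Agent.R208.V2.be.eq_1 := @_root_.Crest.Agent.R208.V2.be.eq_1 -- L95
private theorem rz_f9342bfb6c : type_of% @_root_.Crest.Agent.R208.V2.bn.eq_def := @_root_.Crest.Agent.R208.V2.bn.eq_def -- L16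
private theorem rz_57c08c7808 : type_of% @_root_.Crest.Agent.R208.V2.bn.eq_1 := @_root_.Crest.Agent.R208.V2.bn.eq_1 -- L16
private theorem rz_754f5adc08 : type_of% @_root_.Crest.Agent.R208.V2.ee.eq_1 := @_root_.Crest.Agent.R208.V2.ee.eq_1 -- L99
private theorem rz_667530782e : type_of% @_root_.Crest.Agent.R208.V2.gm.eq_1 := @_root_.Crest.Agent.R208.V2.gm.eq_1 -- L315
end

-- ▼ part R208/V2b

/-!
# The (V2) lemma, part b: the bigraded power series

`S T = ∑_{t,i} T t i X^(2t+i)`;  `W ν b a = (1 - νX + X²)^a / (1 - 2νX)^b`.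
-/

namespace Crest.Agent.R208.V2

open Finset PowerSeries

noncomputable section

/-- the power series with bigraded coefficients. -/
def S (T : ℕ → ℕ → ℝ) : PowerSeries ℝ :=
  PowerSeries.mk fun j => ∑ t ∈ range (j + 1), if 2 * t ≤ j then T t (j - 2 * t) else 0

theorem coeff_S (T : ℕ → ℕ → ℝ) (j : ℕ) :
    coeff j (S T) = ∑ t ∈ range (j + 1), if 2 * t ≤ j then T t (j - 2 * t) else 0 := by
  rw [S, coeff_mk]

theorem S_congr {T T' : ℕ → ℕ → ℝ} (h : ∀ t i, T t i = T' t i) : S T = S T' := by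
  have : T = T' := by
    funext t i
    exact h t i
  rw [this]

theorem S_add (T T' : ℕ → ℕ → ℝ) : S T + S T' = S fun t i => T t i + T' t i := by
  ext j
  rw [map_add, coeff_S, coeff_S, coeff_S, ← Finset.sum_add_distrib]
  refine Finset.sum_congr rfl fun t _ => ?_
  split_ifs <;> simp

theorem S_smul (r : ℝ) (T : ℕ → ℕ → ℝ) : C r * S T = S fun t i => r * T t i := by
  ext j
  rw [coeff_C_mul, coeff_S, coeff_S, Finset.mul_sum]
  refine Finset.sum_congr rfl fun t _ => ?_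
  split_ifs <;> simp

/-- shift in `i`. -/
def shi (T : ℕ → ℕ → ℝ) : ℕ → ℕ → ℝ := fun t i => match i with
  | 0 => 0
  | i + 1 => T t i

/-- shift in `t`. -/
def sht (T : ℕ → ℕ → ℝ) : ℕ → ℕ → ℝ := fun t i => match t with
  | 0 => 0
  | t + 1 => T t i

@[simp] theorem shi_zero (T : ℕ → ℕ → ℝ) (t : ℕ) : shi T t 0 = 0 := rfl
@[simp] theorem shi_succ (T : ℕ → ℕ → ℝ) (t i : ℕ) : shi T t (i + 1) = T t i := rfl
@[simp] theorem sht_zero (T : ℕ → ℕ → ℝ) (i : ℕ) : sht T 0 i = 0 := rfl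
@[simp] theorem sht_succ (T : ℕ → ℕ → ℝ) (t i : ℕ) : sht T (t + 1) i = T t i := rfl

theorem X_mul_S (T : ℕ → ℕ → ℝ) : X * S T = S (shi T) := by
  ext j
  cases j with
  | zero => simp [coeff_S]
  | succ j =>
    rw [coeff_succ_X_mul, coeff_S, coeff_S, Finset.sum_range_succ _ (j + 1)]
    have h : ¬ 2 * (j + 1) ≤ j + 1 := by omega
    rw [if_neg h, add_zero]
    refine Finset.sum_congr rfl fun t _ => ?_
    by_cases h1 : 2 * t ≤ j
    · rw [if_pos h1, if_pos (by omega)]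
      have : j + 1 - 2 * t = (j - 2 * t) + 1 := by omega
      rw [this, shi_succ]
    · rw [if_neg h1]
      by_cases h2 : 2 * t ≤ j + 1
      · rw [if_pos h2]
        have : j + 1 - 2 * t = 0 := by omega
        rw [this, shi_zero]
      · rw [if_neg h2]

theorem X_sq_mul_S (T : ℕ → ℕ → ℝ) : X ^ 2 * S T = S (sht T) := by
  ext j
  rcases j with _ | _ | j
  · simp [coeff_S, pow_two, mul_assoc]
  · rw [pow_two, mul_assoc, coeff_succ_X_mul, coeff_zero_X_mul, coeff_S, Finset.sum_range_succ,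
      Finset.sum_range_succ]
    simp
  · rw [pow_two, mul_assoc, coeff_succ_X_mul, coeff_succ_X_mul, coeff_S, coeff_S,
      Finset.sum_range_succ' _ (j + 1 + 1), Finset.sum_range_succ _ (j + 1)]
    have h : ¬ 2 * (j + 1 + 1) ≤ j + 1 + 1 := by omega
    rw [if_neg h, add_zero]
    simp only [sht_zero, ite_self, add_zero]
    refine Finset.sum_congr rfl fun t _ => ?_
    by_cases h1 : 2 * t ≤ j
    · rw [if_pos h1, if_pos (by omega)]
      have : j + 1 + 1 - 2 * (t + 1) = j - 2 * t := by omega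
      rw [this, sht_succ]
    · rw [if_neg h1, if_neg (by omega)]

/-- Euler operator. -/
theorem euler_S (T : ℕ → ℕ → ℝ) :
    X * (d⁄dX ℝ (S T)) = S fun t i => (2 * t + i) * T t i := by
  ext j
  cases j with
  | zero => simp [coeff_S]
  | succ j =>
    rw [coeff_succ_X_mul, coeff_derivative, coeff_S, coeff_S, Finset.sum_mul]
    refine Finset.sum_congr rfl fun t _ => ?_
    split_ifs with h
    · have : ((j + 1 - 2 * t : ℕ) : ℝ) = j + 1 - 2 * t := by
        rw [Nat.cast_sub h]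
        push_cast
        ring
      rw [this]
      ring
    · simp

/-- `(1 - νX + X²)^a / (1 - 2νX)^b`. -/
def W (ν : ℝ) (b : ℕ) (a : ℝ) : PowerSeries ℝ :=
  S fun t i => bn a t * ν ^ i * F b (a - t) i

theorem W_u (ν : ℝ) (b : ℕ) (a : ℝ) : (1 - C (2 * ν) * X) * W ν (b + 1) a = W ν b a := by
  have h : (1 - C (2 * ν) * X) * W ν (b + 1) a
      = W ν (b + 1) a + C (-(2 * ν)) * (X * W ν (b + 1) a) := by
    rw [map_neg]
    ring
  rw [h, W, X_mul_S, S_smul, S_add, W]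
  refine S_congr fun t i => ?_
  cases i with
  | zero => simp
  | succ i =>
    rw [shi_succ, F_succ]
    ring


theorem constantCoeff_W (ν : ℝ) (b : ℕ) (a : ℝ) : constantCoeff (W ν b a) = 1 := by
  rw [← coeff_zero_eq_constantCoeff_apply, W, coeff_S]
  simp

/-- the differential equation of `q^a`. -/
theorem W_ode (ν a : ℝ) :
    (1 - C ν * X + X ^ 2) * (X * d⁄dX ℝ (W ν 0 a))
      = C a * ((-(C ν * X) + 2 * X ^ 2) * W ν 0 a) := by
  have hl : (1 - C ν * X + X ^ 2) * (X * d⁄dX ℝ (W ν 0 a))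
      = X * d⁄dX ℝ (W ν 0 a) + C (-ν) * (X * (X * d⁄dX ℝ (W ν 0 a)))
        + X ^ 2 * (X * d⁄dX ℝ (W ν 0 a)) := by
    rw [map_neg]
    ring
  have hr : C a * ((-(C ν * X) + 2 * X ^ 2) * W ν 0 a)
      = C (-(a * ν)) * (X * W ν 0 a) + C (2 * a) * (X ^ 2 * W ν 0 a) := by
    rw [map_neg, map_mul, map_mul]
    have : (C (2 : ℝ) : PowerSeries ℝ) = 2 := by
      rw [map_ofNat]
    rw [this]
    ring
  rw [hl, hr, W, euler_S, X_mul_S, X_sq_mul_S, X_mul_S, X_sq_mul_S, S_smul, S_smul, S_smul,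
    S_add, S_add, S_add]
  refine S_congr fun t i => ?_
  -- `E t i = bn a t * bn (a - t) i`
  have hE1 : ∀ t i : ℕ, ((i : ℝ) + 1) * (bn a t * bn (a - t) (i + 1))
      = (a - t - i) * (bn a t * bn (a - t) i) := by
    intro t i
    have := bn_succ_mul (a - t) i
    linear_combination bn a t * this
  have hE2 : ∀ t i : ℕ, ((t : ℝ) + 1) * (bn a (t + 1) * bn (a - (t + 1 : ℕ)) i)
      = (a - t - i) * (bn a t * bn (a - t) i) := by
    intro t i
    have h1 := bn_succ_mul a t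
    have h2 := bn_absorb (a - t) i
    have e : a - ((t + 1 : ℕ) : ℝ) = a - t - 1 := by push_cast; ring
    rw [e]
    linear_combination bn (a - t - 1) i * h1 + bn a t * h2
  simp only [F_zero_left]
  rcases t with _ | t
  · rcases i with _ | i
    · simp
    · simp only [shi_succ, sht_zero]
      have h1 := hE1 0 i
      simp only [Nat.cast_zero, sub_zero, bn_zero, one_mul] at h1
      push_cast
      simp only [bn_zero, sub_zero, one_mul]
      rw [pow_succ ν, pow_succ (-1 : ℝ)]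
      linear_combination -(ν ^ i * ν * (-1) ^ i) * h1
  · rcases i with _ | i
    · simp only [shi_zero, sht_succ]
      have h1 := hE2 t 0
      simp only [bn_zero, mul_one] at h1
      simp only [bn_zero, pow_zero, mul_one]
      push_cast at *
      linear_combination 2 * h1
    · simp only [shi_succ, sht_succ]
      have h1 := hE1 (t + 1) i
      have h2 := hE2 t (i + 1)
      have h3 := hE2 t i
      have h4 := hE1 t i
      rw [pow_succ ν, pow_succ (-1 : ℝ)]
      push_cast at *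
      linear_combination (-(ν ^ i * ν * (-1) ^ i)) * (h1 + 2 * h2 + h3 - h4)

end

end Crest.Agent.R208.V2
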