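import Crest.Agent.R208.HHa
import Crest.Agent.R208.V2b
import Crest.Agent.R208.GA
import Crest.Agent.R208.CW3
import Crest.Agent.R208.GK1

-- ▼ part R208/HHb
section

/-!
# (H1), (H2) exclude all `k ≥ 8` except `(8,2)`, part b: coefficientwise positivity in `w`.
-/

namespace Crest.Agent.R208.HH

open Finset PowerSeries V2

noncomputable section

/-- all coefficients are non-negative. -/
def NN (f : PowerSeries ℝ) : Prop := ∀ t, 0 ≤ coeff t f

theorem NN.add {f g : PowerSeries ℝ} (hf : NN f) (hg : NN g) : NN (f + g) := fun t => by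
  rw [map_add]; exact add_nonneg (hf t) (hg t)

theorem NN.mul {f g : PowerSeries ℝ} (hf : NN f) (hg : NN g) : NN (f * g) := fun t => by
  rw [coeff_mul]; exact Finset.sum_nonneg fun p _ => mul_nonneg (hf _) (hg _)

theorem NN_C {c : ℝ} (h : 0 ≤ c) : NN (C c) := fun t => by
  rw [coeff_C]; split_ifs <;> simp [h]

theorem NN_X : NN (X : PowerSeries ℝ) := fun t => by
  rw [coeff_X]; split_ifs <;> simp

theorem NN_one : NN (1 : PowerSeries ℝ) := fun t => by
  rw [coeff_one]; split_ifs <;> simp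


theorem NN.smul {c : ℝ} (h : 0 ≤ c) {f : PowerSeries ℝ} (hf : NN f) : NN (C c * f) :=
  (NN_C h).mul hf

/-- the geometric series. -/
def geo (c : ℝ) : PowerSeries ℝ := PowerSeries.mk fun t => c ^ t

theorem NN_geo {c : ℝ} (h : 0 ≤ c) : NN (geo c) := fun t => by
  rw [geo, coeff_mk]; positivity

theorem geo_mul (c : ℝ) : (1 - C c * X) * geo c = 1 := by
  ext t
  cases t with
  | zero => simp [geo]
  | succ t =>
    have h : (1 - C c * X) * geo c = geo c - C c * (X * geo c) := by ring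
    rw [h, map_sub, coeff_C_mul, coeff_succ_X_mul, geo, coeff_mk, coeff_mk, coeff_one]
    simp [pow_succ]
    ring

/-- `(1-w)^(-σ)`. -/
def D (σ : ℝ) : PowerSeries ℝ := PowerSeries.mk fun t => bn (σ + t - 1) t

theorem coeff_D (σ : ℝ) (t : ℕ) : coeff t (D σ) = bn (σ + t - 1) t := by rw [D, coeff_mk]

theorem coeff_D_succ (σ : ℝ) (t : ℕ) : coeff t (D (σ + 1)) = bn (σ + t) t := by
  rw [coeff_D]
  congr 1
  ring

theorem D_succ (σ : ℝ) : (1 - X) * D (σ + 1) = D σ := by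
  ext t
  have h : (1 - X) * D (σ + 1) = D (σ + 1) - X * D (σ + 1) := by ring
  rw [h, map_sub]
  cases t with
  | zero => simp [coeff_D]
  | succ t =>
    rw [coeff_succ_X_mul, coeff_D, coeff_D, coeff_D]
    have e1 : σ + 1 + ((t + 1 : ℕ) : ℝ) - 1 = (σ + t) + 1 := by push_cast; ring
    have e2 : σ + 1 + (t : ℝ) - 1 = σ + t := by ring
    have e3 : σ + ((t + 1 : ℕ) : ℝ) - 1 = σ + t := by push_cast; ring
    rw [e1, e2, e3, bn_pascal]
    ring

theorem bn_nonneg {a : ℝ} {t : ℕ} (h : (t : ℝ) ≤ a + 1) : 0 ≤ bn a t := by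
  cases t with
  | zero => simp
  | succ t =>
    rw [bn_succ]
    push_cast at h
    have h1 : 0 < bn a t := bn_pos (by linarith)
    have h2 : 0 ≤ a - t := by linarith
    positivity

theorem NN_D {σ : ℝ} (h : 0 ≤ σ) : NN (D σ) := fun t => by
  rw [coeff_D]
  exact bn_nonneg (by linarith)

section
variable (l : ℝ)

/-- `1/p`, `p = 1 - (1-λ²)w`. -/
def ip : PowerSeries ℝ := geo (1 - l ^ 2)

/-- `1/d`, `d = (2-λ) - (2-λ-λ²)w`. -/
def idd : PowerSeries ℝ := C (1 / (2 - l)) * geo ((2 - l - l ^ 2) / (2 - l))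

/-- `κ = λ r / p`, `r = 1 - (1-λ)w`. -/
def ka : PowerSeries ℝ := C l * (1 - C (1 - l) * X) * ip l

/-- `u = 1 - κ = (1-λ)(1-w)/p`. -/
def uu : PowerSeries ℝ := C (1 - l) * (1 - X) * ip l

/-- `Γ = (1 - (1-λ)²w)/(p d)`. -/
def Ga : PowerSeries ℝ := (1 - C ((1 - l) ^ 2) * X) * ip l * idd l

theorem ip_eq : (1 - (1 - C l ^ 2) * X) * ip l = 1 := by
  have := geo_mul (1 - l ^ 2)
  rw [map_sub, map_one, map_pow] at this
  exact this

variable {l}

theorem inv_eq (h1 : l < 1) : (2 - C l) * C (1 / (2 - l)) = 1 := by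
  have : (2 : PowerSeries ℝ) - C l = C (2 - l) := by rw [map_sub, map_ofNat]
  rw [this, ← map_mul, mul_one_div_cancel (by linarith), map_one]

theorem idd_eq (h1 : l < 1) : ((2 - C l) - (2 - C l - C l ^ 2) * X) * idd l = 1 := by
  have h := geo_mul ((2 - l - l ^ 2) / (2 - l))
  have h2 := inv_eq h1
  have e : C ((2 - l - l ^ 2) / (2 - l)) = (2 - C l - C l ^ 2) * C (1 / (2 - l)) := by
    have : (2 : PowerSeries ℝ) - C l - C l ^ 2 = C (2 - l - l ^ 2) := by
      rw [map_sub, map_sub, map_ofNat, map_pow]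
    rw [this, ← map_mul]
    congr 1
    ring
  unfold idd
  rw [e] at h
  generalize C (1 / (2 - l)) = v at *
  generalize geo ((2 - l - l ^ 2) / (2 - l)) = g at *
  linear_combination h + g * h2

theorem uu_eq : uu l = 1 - ka l := by
  have h := ip_eq l
  unfold uu ka
  simp only [map_sub, map_one]
  linear_combination h

theorem NN_ip (h0 : 0 ≤ l) (h1 : l < 1) : NN (ip l) := NN_geo (by nlinarith)

theorem NN_idd (h0 : 0 ≤ l) (h1 : l < 1) : NN (idd l) :=
  NN.smul (by have : 0 < 2 - l := by linarith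
              positivity) (NN_geo (div_nonneg (by nlinarith) (by linarith)))

theorem ka_eq : ka l = C l * (1 + C l * (1 - C l) * X * ip l) := by
  have h := ip_eq l
  unfold ka
  simp only [map_sub, map_one]
  linear_combination C l * h

theorem NN_ka (h0 : 0 ≤ l) (h1 : l < 1) : NN (ka l) := by
  rw [ka_eq]
  have e : (1 : PowerSeries ℝ) - C l = C (1 - l) := by rw [map_sub, map_one]
  rw [e]
  exact NN.smul h0 (NN_one.add ((((NN_C h0).mul (NN_C (by linarith))).mul NN_X).mul (NN_ip h0 h1)))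

theorem Ga_eq : Ga l = idd l + 2 * C l * (1 - C l) * X * ip l * idd l := by
  have h := ip_eq l
  unfold Ga
  simp only [map_sub, map_one, map_pow]
  linear_combination idd l * h

theorem NN_two : NN (2 : PowerSeries ℝ) := by
  have : (2 : PowerSeries ℝ) = C 2 := by rw [map_ofNat]
  rw [this]
  exact NN_C (by norm_num)

theorem NN_Ga (h0 : 0 ≤ l) (h1 : l < 1) : NN (Ga l) := by
  rw [Ga_eq]
  have e : (1 : PowerSeries ℝ) - C l = C (1 - l) := by rw [map_sub, map_one]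
  rw [e]
  exact (NN_idd h0 h1).add (((((NN_two.mul (NN_C h0)).mul (NN_C (by linarith))).mul NN_X).mul
    (NN_ip h0 h1)).mul (NN_idd h0 h1))

/-- `Y ≽ ip * (1-X) Y`. -/
theorem step_ip (σ : ℝ) : D (σ + 1) - ip l * D σ = C l ^ 2 * X * ip l * D (σ + 1) := by
  have h := ip_eq l
  have h2 := D_succ σ
  rw [← h2]
  linear_combination -D (σ + 1) * h

theorem step_idd (h1 : l < 1) (σ : ℝ) : C (1 / (2 - l)) * D (σ + 1) - idd l * D σ
    = C (1 / (2 - l)) * C l ^ 2 * X * idd l * D (σ + 1) := by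
  have h := idd_eq h1
  have h2 := D_succ σ
  have h3 := inv_eq h1
  rw [← h2]
  linear_combination -C (1 / (2 - l)) * D (σ + 1) * h + idd l * D (σ + 1) * (1 - X) * h3

end


/-- coefficientwise absolute bound. -/
def Ab (f g : PowerSeries ℝ) : Prop := ∀ t, |coeff t f| ≤ coeff t g

theorem Ab.mul_left {f g h : PowerSeries ℝ} (hh : NN h) (hfg : Ab f g) : Ab (h * f) (h * g) := by
  intro t
  rw [coeff_mul, coeff_mul]
  refine (Finset.abs_sum_le_sum_abs _ _).trans (Finset.sum_le_sum fun p _ => ?_)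
  rw [abs_mul, abs_of_nonneg (hh _)]
  exact mul_le_mul_of_nonneg_left (hfg _) (hh _)

theorem alg (r : ℝ) : algebraMap ℝ (PowerSeries ℝ) r = C r := rfl

section
variable {l : ℝ}

/-- `Y σ = (1-w)^(-σ) Γ`. -/
def Y (l σ : ℝ) : PowerSeries ℝ := D σ * Ga l

theorem NN_Y (h0 : 0 ≤ l) (h1 : l < 1) {σ : ℝ} (hσ : 0 ≤ σ) : NN (Y l σ) :=
  (NN_D hσ).mul (NN_Ga h0 h1)

theorem uu_Y (σ : ℝ) : uu l * Y l (σ + 1) = C (1 - l) * (ip l * Y l σ) := by
  unfold Y uu
  rw [← D_succ σ]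
  ring

theorem NN_uuY (h0 : 0 ≤ l) (h1 : l < 1) {σ : ℝ} (hσ : 0 ≤ σ) : NN (uu l * Y l (σ + 1)) := by
  rw [uu_Y]
  exact NN.smul (by linarith) ((NN_ip h0 h1).mul (NN_Y h0 h1 hσ))

theorem ka_Y_le (h0 : 0 ≤ l) (h1 : l < 1) {σ : ℝ} (hσ : 0 ≤ σ) (t : ℕ) :
    coeff t (ka l * Y l (σ + 1)) ≤ coeff t (Y l (σ + 1)) := by
  have h := NN_uuY h0 h1 hσ t
  rw [uu_eq, sub_mul, one_mul, map_sub] at h
  linarith

theorem uu_Y_le (h0 : 0 ≤ l) (h1 : l < 1) {σ : ℝ} (hσ : 0 ≤ σ) (t : ℕ) :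
    coeff t (uu l * Y l (σ + 1)) ≤ (1 - l) * coeff t (Y l (σ + 1)) := by
  rw [uu_Y, coeff_C_mul]
  refine mul_le_mul_of_nonneg_left ?_ (by linarith)
  have h : Y l (σ + 1) - ip l * Y l σ = C l ^ 2 * X * ip l * D (σ + 1) * Ga l := by
    rw [← step_ip]
    unfold Y
    ring
  have h2 : NN (C l ^ 2 * X * ip l * D (σ + 1) * Ga l) := by
    rw [← map_pow]
    exact ((((NN_C (by positivity)).mul NN_X).mul (NN_ip h0 h1)).mul (NN_D (by linarith))).mul
      (NN_Ga h0 h1)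
  have h3 := h2 t
  rw [← h, map_sub] at h3
  linarith

/-- the refined step. -/
theorem chi_step (h0 : 0 ≤ l) (h1 : l < 1) (i : ℕ)
    (ih : Ab (chi (ka l) (i + 1) * Y l (((i + 1 : ℕ) : ℝ) / 2 + 1))
      (C (nb (i + 1)) * Y l (((i + 1 : ℕ) : ℝ) / 2 + 1))) :
    Ab (chi (ka l) (i + 3) * Y l (((i + 3 : ℕ) : ℝ) / 2 + 1))
      (C (|om (i + 3)| + (nb (i + 1) + 2 * |om (i + 3)| + |om (i + 1)|) * (1 - l))
        * Y l (((i + 3 : ℕ) : ℝ) / 2 + 1)) := by
  intro t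
  set σ : ℝ := ((i + 1 : ℕ) : ℝ) / 2 + 1 with hσ
  have e : ((i + 3 : ℕ) : ℝ) / 2 + 1 = σ + 1 := by rw [hσ]; push_cast; ring
  have hσ0 : 0 ≤ σ := by rw [hσ]; positivity
  rw [e]
  have h2 : chi (ka l) (i + 3) * Y l (σ + 1)
      = -((C (1 - l) * (ka l * ip l)) * (chi (ka l) (i + 1) * Y l σ))
        - C (om (i + 1)) * (uu l * Y l (σ + 1)) - C (om (i + 3)) * Y l (σ + 1)
        - C (2 * om (i + 3)) * (uu l * Y l (σ + 1)) := by
    rw [chi_rec, alg, alg, ← uu_eq]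
    have e2 : (C (1 - l) * (ka l * ip l)) * (chi (ka l) (i + 1) * Y l σ)
      = ka l * chi (ka l) (i + 1) * (C (1 - l) * (ip l * Y l σ)) := by ring
    rw [e2, ← uu_Y, map_mul, map_ofNat]
    ring
  have h3 := Ab.mul_left (h := C (1 - l) * (ka l * ip l))
    (NN.smul (by linarith) ((NN_ka h0 h1).mul (NN_ip h0 h1))) ih t
  have e3 : (C (1 - l) * (ka l * ip l)) * (C (nb (i + 1)) * Y l σ)
      = C (nb (i + 1)) * (ka l * (C (1 - l) * (ip l * Y l σ))) := by ring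
  rw [e3, ← uu_Y, coeff_C_mul] at h3
  have h4 : coeff t (ka l * (uu l * Y l (σ + 1))) ≤ (1 - l) * coeff t (Y l (σ + 1)) := by
    have a1 := ka_Y_le h0 h1 hσ0 t
    have h5 : NN (C (1 - l) * Y l (σ + 1) - uu l * Y l (σ + 1)) := fun t => by
      rw [map_sub, coeff_C_mul]
      linarith [uu_Y_le h0 h1 hσ0 t]
    have h6 := (NN_ka h0 h1).mul h5 t
    have e6 : ka l * (C (1 - l) * Y l (σ + 1) - uu l * Y l (σ + 1))
        = C (1 - l) * (ka l * Y l (σ + 1)) - ka l * (uu l * Y l (σ + 1)) := by ring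
    rw [e6, map_sub, coeff_C_mul] at h6
    have h7 := mul_le_mul_of_nonneg_left a1 (by linarith : (0 : ℝ) ≤ 1 - l)
    linarith
  have h5 := uu_Y_le h0 h1 hσ0 t
  have h6 := NN_uuY h0 h1 hσ0 t
  have h7 := NN_Y h0 h1 (by linarith : (0 : ℝ) ≤ σ + 1) t
  rw [h2, map_sub (coeff t), map_sub (coeff t), map_sub (coeff t), map_neg (coeff t), coeff_C_mul,
    coeff_C_mul, coeff_C_mul, coeff_C_mul]
  set z := coeff t ((C (1 - l) * (ka l * ip l)) * (chi (ka l) (i + 1) * Y l σ)) with hz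
  set v := coeff t (uu l * Y l (σ + 1)) with hv
  set y := coeff t (Y l (σ + 1)) with hy
  have hn := nb_nonneg (i + 1)
  have b1 : |z| ≤ nb (i + 1) * ((1 - l) * y) :=
    h3.trans (mul_le_mul_of_nonneg_left h4 hn)
  have b2 : |om (i + 1) * v| ≤ |om (i + 1)| * ((1 - l) * y) := by
    rw [abs_mul, abs_of_nonneg h6]
    exact mul_le_mul_of_nonneg_left h5 (abs_nonneg _)
  have b3 : |om (i + 3) * y| ≤ |om (i + 3)| * y := by
    rw [abs_mul, abs_of_nonneg h7]
  have b4 : |2 * om (i + 3) * v| ≤ 2 * |om (i + 3)| * ((1 - l) * y) := by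
    rw [abs_mul, abs_of_nonneg h6, abs_mul, abs_of_pos (by norm_num : (0 : ℝ) < 2)]
    exact mul_le_mul_of_nonneg_left h5 (by positivity)
  rw [abs_le] at *
  constructor <;> nlinarith [b1.1, b1.2, b2.1, b2.2, b3.1, b3.2, b4.1, b4.2]

theorem chi_abs (h0 : 0 ≤ l) (h1 : l < 1) : ∀ i : ℕ,
    Ab (chi (ka l) (i + 1) * Y l (((i + 1 : ℕ) : ℝ) / 2 + 1))
      (C (nb (i + 1)) * Y l (((i + 1 : ℕ) : ℝ) / 2 + 1))
  | 0 => by
    intro t
    have e : ((0 + 1 : ℕ) : ℝ) / 2 + 1 = 1 / 2 + 1 := by norm_num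
    rw [e]
    have h2 := ka_Y_le h0 h1 (σ := 1 / 2) (by norm_num) t
    have h3 := (NN_ka h0 h1).mul (NN_Y h0 h1 (σ := 1 / 2 + 1) (by norm_num)) t
    have h4 := NN_Y h0 h1 (σ := 1 / 2 + 1) (by norm_num) t
    rw [show chi (ka l) (0 + 1) = ka l - C (3 / 2) from chi_one _, sub_mul, map_sub, coeff_C_mul,
      coeff_C_mul, show nb (0 + 1) = 3 / 2 from rfl, abs_le]
    constructor <;> linarith
  | 1 => by
    intro t
    have e : ((1 + 1 : ℕ) : ℝ) / 2 + 1 = 1 + 1 := by norm_num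
    rw [e, show chi (ka l) (1 + 1) = (1 - ka l) ^ 2 from chi_two _, ← uu_eq,
      show nb (1 + 1) = 1 from rfl, map_one, one_mul]
    have e1 : uu l * Y l (1 + 1) = C (1 - l) * (ip l * Y l 1) := uu_Y 1
    have e0 : uu l * Y l (0 + 1) = C (1 - l) * (ip l * Y l 0) := uu_Y 0
    rw [zero_add] at e0
    have h2 : NN (uu l ^ 2 * Y l (1 + 1)) := by
      have : uu l ^ 2 * Y l (1 + 1)
          = C (1 - l) * (ip l * (C (1 - l) * (ip l * Y l 0))) := by
        rw [← e0, pow_two, mul_assoc, e1]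
        ring
      rw [this]
      exact NN.smul (by linarith) ((NN_ip h0 h1).mul (NN.smul (by linarith)
        ((NN_ip h0 h1).mul (NN_Y h0 h1 le_rfl))))
    have h3 : NN (Y l (1 + 1) - uu l ^ 2 * Y l (1 + 1)) := by
      have : Y l (1 + 1) - uu l ^ 2 * Y l (1 + 1)
          = ka l * (Y l (1 + 1) + uu l * Y l (1 + 1)) := by
        rw [uu_eq]; ring
      rw [this]
      exact (NN_ka h0 h1).mul ((NN_Y h0 h1 (by norm_num)).add (NN_uuY h0 h1 (by norm_num)))
    have h4 := h2 t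
    have h5 := h3 t
    rw [map_sub] at h5
    rw [abs_of_nonneg h4]
    linarith
  | i + 2 => by
    intro t
    have h := chi_step h0 h1 i (chi_abs h0 h1 i) t
    refine h.trans ?_
    rw [coeff_C_mul, coeff_C_mul]
    have h7 := NN_Y h0 h1 (by positivity : (0 : ℝ) ≤ ((i + 3 : ℕ) : ℝ) / 2 + 1) t
    refine mul_le_mul_of_nonneg_right ?_ h7
    show _ ≤ nb (i + 1) + 3 * |om (i + 3)| + |om (i + 1)|
    have h8 : 0 ≤ nb (i + 1) + 2 * |om (i + 3)| + |om (i + 1)| := by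
      have := nb_nonneg (i + 1)
      positivity
    nlinarith

end


section
variable {l : ℝ}

theorem NN_XI (h0 : 0 ≤ l) (h1 : l < 1) {σ : ℝ} (hσ : 0 ≤ σ) : NN (X * idd l * D (σ + 1)) :=
  (NN_X.mul (NN_idd h0 h1)).mul (NN_D (by linarith))

theorem Y_le (h0 : 0 ≤ l) (h1 : l < 1) {σ : ℝ} (hσ : 0 ≤ σ) (t : ℕ) :
    coeff t (Y l σ) ≤ 1 / (2 - l) * coeff t (D (σ + 1))
      + 2 * l * (1 - l) * coeff t (X * idd l * D (σ + 1)) := by
  have e : C (1 / (2 - l)) * D (σ + 1) + C (2 * l * (1 - l)) * (X * idd l * D (σ + 1)) - Y l σ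
      = C (1 / (2 - l)) * (C l ^ 2 * (X * idd l * D (σ + 1)))
        + C (2 * l * (1 - l)) * (X * idd l * (C l ^ 2 * X * ip l * D (σ + 1))) := by
    rw [← step_ip]
    have h := step_idd h1 σ
    unfold Y
    rw [Ga_eq]
    simp only [map_mul, map_sub, map_one, map_ofNat]
    linear_combination h
  have h2 : NN (C (1 / (2 - l)) * (C l ^ 2 * (X * idd l * D (σ + 1)))
        + C (2 * l * (1 - l)) * (X * idd l * (C l ^ 2 * X * ip l * D (σ + 1)))) := by
    rw [← map_pow]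
    refine (NN.smul ?_ (NN.smul (by positivity) (NN_XI h0 h1 hσ))).add (NN.smul ?_
      ((NN_X.mul (NN_idd h0 h1)).mul ((((NN_C (by positivity)).mul NN_X).mul (NN_ip h0 h1)).mul
        (NN_D (by linarith)))))
    · have : 0 < 2 - l := by linarith
      positivity
    · have : 0 ≤ 1 - l := by linarith
      positivity
  have h3 := h2 t
  rw [← e, map_sub, map_add, coeff_C_mul, coeff_C_mul] at h3
  linarith

/-- `-(B)`: the generating function in `w` of the `i`-th coefficient. -/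
def bm (l σ : ℝ) (i : ℕ) : PowerSeries ℝ :=
  C (F 1 σ i) * (2 * D (σ + 1) - (4 - C l) * idd l * D σ) + C l * (K (ka l) σ i * Y l σ)

theorem bm_main (h1 : l < 1) (σ : ℝ) : 2 * D (σ + 1) - (4 - C l) * idd l * D σ
    = -(C (l / (2 - l)) * D (σ + 1)) + C (l ^ 2 * (4 - l) / (2 - l)) * (X * idd l * D (σ + 1)) := by
  have h := idd_eq h1
  have h3 := inv_eq h1
  rw [← D_succ σ]
  have e1 : C (l / (2 - l)) = C l * C (1 / (2 - l)) := by rw [← map_mul]; congr 1; ring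
  have e2 : C (l ^ 2 * (4 - l) / (2 - l)) = C l ^ 2 * (4 - C l) * C (1 / (2 - l)) := by
    have : (4 : PowerSeries ℝ) = C 4 := by rw [map_ofNat]
    rw [this, ← map_sub, ← map_pow, ← map_mul, ← map_mul]
    congr 1
    ring
  rw [e1, e2]
  generalize C (1 / (2 - l)) = ci at *
  linear_combination -D (σ + 1) * (2 + C l * ci) * h
    + D (σ + 1) * idd l * (C l - X * (C l + 2 * C l ^ 2)) * h3

theorem bm_lower (h0 : 0 ≤ l) (h1 : l < 1) {σ : ℝ} (hσ : 0 ≤ σ) (i t : ℕ) (c : ℝ) (hc : 0 ≤ c)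
    (hg : (1 - l) * c ≤ F 1 σ i)
    (hχ : -(c * coeff t (Y l σ)) ≤ coeff t (K (ka l) σ i * Y l σ)) :
    -(l / (2 - l) * (F 1 σ i + c) * bn (σ + t) t) ≤ coeff t (bm l σ i) := by
  rw [← coeff_D_succ, bm, bm_main h1, map_add, coeff_C_mul, coeff_C_mul, map_add, map_neg,
    coeff_C_mul, coeff_C_mul]
  have hy := Y_le h0 h1 hσ t
  have hx := NN_XI h0 h1 hσ t
  have hd := NN_D (by linarith : 0 ≤ σ + 1) t
  set δ := coeff t (D (σ + 1))
  set ξ := coeff t (X * idd l * D (σ + 1))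
  set y := coeff t (Y l σ)
  set z := coeff t (K (ka l) σ i * Y l σ)
  set g := F 1 σ i
  have h2 : 0 < 2 - l := by linarith
  have e1 : l ^ 2 * (4 - l) / (2 - l) = 2 * l ^ 2 + l ^ 3 / (2 - l) := by
    field_simp
    ring
  have e2 : l / (2 - l) = l * (1 / (2 - l)) := by ring
  rw [e1, e2]
  set v := 1 / (2 - l) with hv
  have hv0 : 0 ≤ v := by positivity
  have e3 : l ^ 3 / (2 - l) = l ^ 3 * v := by rw [hv]; ring
  rw [e3]
  have b1 : c * y ≤ c * (v * δ + 2 * l * (1 - l) * ξ) := mul_le_mul_of_nonneg_left hy hc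
  have b2 : -(l * (c * (v * δ + 2 * l * (1 - l) * ξ))) ≤ l * z := by
    have : -(c * (v * δ + 2 * l * (1 - l) * ξ)) ≤ z := by linarith
    nlinarith
  have b3 : 0 ≤ (g - (1 - l) * c) * ξ := mul_nonneg (by linarith) hx
  have b4 : 0 ≤ l ^ 2 * ((g - (1 - l) * c) * ξ) := mul_nonneg (by positivity) b3
  have hg0 : 0 ≤ g := le_trans (mul_nonneg (by linarith) hc) hg
  have b5 : 0 ≤ l ^ 3 * v * ξ * g := by positivity
  nlinarith

/-- the bracket. -/
def br (l : ℝ) (t i : ℕ) : ℝ :=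
  2 * (i + 2 * t) * l * (bn ((i : ℝ) / 2 + 1 + t) t * gp i)
    + bn ((i : ℝ) / 2 + 1 + t) t * (l / (1 - l) * (gp i - chi (2 * l) i))
    + 2 * ((i : ℝ) / 2 + 1 + t) * coeff t (bm l ((i : ℝ) / 2 + 1) i)

theorem bn_pos' (i t : ℕ) : 0 < bn ((i : ℝ) / 2 + 1 + t) t := bn_pos (by
  have : (0 : ℝ) ≤ (i : ℝ) / 2 := by positivity
  linarith)

theorem br_pos_of (h0 : 0 < l) (h1 : l < 1) (i t : ℕ) (c : ℝ) (hc : 0 ≤ c)
    (hg : (1 - l) * c ≤ gp (i + 2))
    (hχ : -(c * coeff t (Y l (((i + 2 : ℕ) : ℝ) / 2 + 1)))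
      ≤ coeff t (chi (ka l) (i + 2) * Y l (((i + 2 : ℕ) : ℝ) / 2 + 1)))
    (hN : (((i + 2 : ℕ) : ℝ) / 2 + 1 + t) * (gp (i + 2) + c)
      < 2 * (((i + 2 : ℕ) : ℝ) / 2 + t) * gp (i + 2) * (2 - l)) : 0 < br l t (i + 2) := by
  have hb := bm_lower h0.le h1 (σ := ((i + 2 : ℕ) : ℝ) / 2 + 1) (by positivity) (i + 2) t c hc hg hχ
  have hbn := bn_pos' (i + 2) t
  have hchi := chi_le (κ := 2 * l) (by linarith) (by linarith) i
  change -(l / (2 - l) * (gp (i + 2) + c) * _) ≤ _ at hb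
  unfold br
  set B := bn (((i + 2 : ℕ) : ℝ) / 2 + 1 + t) t
  set M := coeff t (bm l (((i + 2 : ℕ) : ℝ) / 2 + 1) (i + 2))
  set g := gp (i + 2)
  set s : ℝ := ((i + 2 : ℕ) : ℝ) / 2 with hs
  have hs0 : 0 ≤ s := by rw [hs]; positivity
  have h2 : 0 < 2 - l := by linarith
  have a1 : 0 ≤ B * (l / (1 - l) * (g - chi (2 * l) (i + 2))) := by
    have : 0 ≤ 1 - l := by linarith
    have : 0 ≤ l / (1 - l) := by positivity
    exact mul_nonneg hbn.le (mul_nonneg this (by linarith))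
  have a2 : -(2 * (s + 1 + t) * (l / (2 - l) * (g + c) * B)) ≤ 2 * (s + 1 + t) * M := by
    have : (0 : ℝ) ≤ 2 * (s + 1 + t) := by positivity
    nlinarith
  have a3 : 2 * (s + 1 + t) * (l / (2 - l) * (g + c) * B)
      < 2 * (((i + 2 : ℕ) : ℝ) + 2 * t) * l * (B * g) := by
    have e : ((i + 2 : ℕ) : ℝ) = 2 * s := by rw [hs]; ring
    rw [e]
    have e2 : 2 * (s + 1 + t) * (l / (2 - l) * (g + c) * B)
        = (2 * l * B) * ((s + 1 + t) * (g + c) / (2 - l)) := by ring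
    have e3 : 2 * (2 * s + 2 * (t : ℝ)) * l * (B * g) = (2 * l * B) * (2 * (s + t) * g) := by ring
    rw [e2, e3]
    apply mul_lt_mul_of_pos_left _ (by positivity)
    rw [div_lt_iff₀ h2]
    exact hN
  linarith

theorem br_pos (h0 : 0 < l) (h1 : l < 1) (i t : ℕ) : 0 < br l t (i + 2) := by
  have ht : (0 : ℝ) ≤ t := Nat.cast_nonneg t
  rcases i with _ | _ | i
  · -- `i = 2`
    have e : ((0 + 2 : ℕ) : ℝ) / 2 + 1 = 1 + 1 := by norm_num
    refine br_pos_of h0 h1 0 t 0 le_rfl ?_ ?_ ?_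
    · rw [gp_two]; norm_num
    · rw [zero_mul, neg_zero, e, show chi (ka l) (0 + 2) = (1 - ka l) ^ 2 from chi_two _, ← uu_eq]
      have e1 : uu l * Y l (1 + 1) = C (1 - l) * (ip l * Y l 1) := uu_Y 1
      have e0 : uu l * Y l (0 + 1) = C (1 - l) * (ip l * Y l 0) := uu_Y 0
      rw [zero_add] at e0
      have : uu l ^ 2 * Y l (1 + 1)
          = C (1 - l) * (ip l * (C (1 - l) * (ip l * Y l 0))) := by
        rw [← e0, pow_two, mul_assoc, e1]
        ring
      rw [this]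
      exact NN.smul (by linarith) ((NN_ip h0.le h1).mul (NN.smul (by linarith)
        ((NN_ip h0.le h1).mul (NN_Y h0.le h1 le_rfl)))) t
    · rw [e, gp_two]
      push_cast
      nlinarith
  · -- `i = 3`
    have e : ((0 + 1 + 2 : ℕ) : ℝ) / 2 + 1 = 3 / 2 + 1 := by norm_num
    refine br_pos_of h0 h1 1 t (3 / 8 * (1 - l)) (by linarith) ?_ ?_ ?_
    · rw [gp_three]; nlinarith
    · show -(3 / 8 * (1 - l) * coeff t (Y l (((0 + 1 + 2 : ℕ) : ℝ) / 2 + 1))) ≤ coeff t (chi (ka l) 3 * Y l (((0 + 1 + 2 : ℕ) : ℝ) / 2 + 1))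
      rw [e]
      have h3 : chi (ka l) 3 * Y l (3 / 2 + 1) = C (1 / 16) * Y l (3 / 2 + 1)
          + C (1 / 2) * (ka l * (uu l * Y l (3 / 2 + 1)))
          + ka l * (uu l ^ 2 * Y l (3 / 2 + 1)) - C (3 / 8) * (uu l * Y l (3 / 2 + 1)) := by
        have hc := chi_rec (ka l) 0
        rw [show chi (ka l) (0 + 3) = chi (ka l) 3 from rfl,
          show chi (ka l) (0 + 1) = ka l - C (3 / 2) from chi_one _,
          show om (0 + 1) = 1 / 2 from om_one, show om (0 + 3) = -(1 / 16) from om_three, alg, alg,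
          map_neg] at hc
        have c1 : (C (3 / 2) : PowerSeries ℝ) = 1 + C (1 / 2) := by
          rw [← map_one C, ← map_add]; norm_num
        have c2 : (C (3 / 8) : PowerSeries ℝ) = C (1 / 2) - 2 * C (1 / 16) := by
          have : (2 : PowerSeries ℝ) = C 2 := by rw [map_ofNat]
          rw [this, ← map_mul, ← map_sub]; norm_num
        rw [hc, c1, c2, uu_eq]
        ring
      have n1 := NN_Y h0.le h1 (by norm_num : (0 : ℝ) ≤ 3 / 2 + 1) t
      have n2 := ((NN_ka h0.le h1).mul (NN_uuY h0.le h1 (by norm_num : (0 : ℝ) ≤ 3 / 2))) t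
      have n3 : NN (uu l ^ 2 * Y l (3 / 2 + 1)) := by
        have e1 : uu l * Y l (3 / 2 + 1) = C (1 - l) * (ip l * Y l (3 / 2)) := uu_Y _
        have e0 : uu l * Y l (1 / 2 + 1) = C (1 - l) * (ip l * Y l (1 / 2)) := uu_Y _
        have : uu l ^ 2 * Y l (3 / 2 + 1)
            = C (1 - l) * (ip l * (C (1 - l) * (ip l * Y l (1 / 2)))) := by
          rw [← e0, pow_two, mul_assoc, e1]
          have : (3 / 2 : ℝ) = 1 / 2 + 1 := by norm_num
          rw [this]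
          ring
        rw [this]
        exact NN.smul (by linarith) ((NN_ip h0.le h1).mul (NN.smul (by linarith)
          ((NN_ip h0.le h1).mul (NN_Y h0.le h1 (by norm_num)))))
      have n4 := ((NN_ka h0.le h1).mul n3) t
      have n5 := uu_Y_le h0.le h1 (by norm_num : (0 : ℝ) ≤ 3 / 2) t
      rw [h3, map_sub, map_add, map_add, coeff_C_mul, coeff_C_mul, coeff_C_mul]
      linarith
    · rw [e]
      show (3 / 2 + 1 + (t : ℝ)) * (gp 3 + 3 / 8 * (1 - l)) < 2 * (((0 + 1 + 2 : ℕ) : ℝ) / 2 + t) * gp 3 * (2 - l)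
      rw [gp_three]
      push_cast
      nlinarith
  · -- `i ≥ 4`
    have hch := chi_step h0.le h1 (i + 1) (chi_abs h0.le h1 (i + 1)) t
    set c : ℝ := |om (i + 1 + 3)| + (nb (i + 1 + 1) + 2 * |om (i + 1 + 3)| + |om (i + 1 + 1)|) * (1 - l)
      with hc
    have hnb : nb (i + 1 + 1) + 3 * |om (i + 1 + 3)| + |om (i + 1 + 1)| ≤ gp (i + 4) := nb_le_gp i
    have hn0 := nb_nonneg (i + 1 + 1)
    have hom := om_small (i + 2)
    change |om (i + 1 + 3)| ≤ 1 / 8 at hom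
    have p1 : 0 ≤ |om (i + 1 + 3)| := abs_nonneg _
    have p2 : 0 ≤ |om (i + 1 + 1)| := abs_nonneg _
    set q1 := |om (i + 1 + 3)|
    set q2 := |om (i + 1 + 1)|
    set q3 := nb (i + 1 + 1)
    have hc0 : 0 ≤ c := by
      rw [hc]
      have : 0 ≤ 1 - l := by linarith
      positivity
    have hgp : 7 / 8 ≤ gp (i + 4) := by
      rw [gp_add_two]
      have := ga_ge (i + 2)
      have h8 := (abs_le.1 (om_small (i + 2))).1
      linarith
    have hcle : c ≤ gp (i + 4) := by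
      have : c ≤ q3 + 3 * q1 + q2 := by rw [hc]; nlinarith
      linarith
    refine br_pos_of h0 h1 (i + 2) t c hc0 ?_ ?_ ?_
    · show (1 - l) * c ≤ gp (i + 4)
      nlinarith
    · rw [coeff_C_mul] at hch
      exact (abs_le.1 hch).1
    · show _ * (gp (i + 4) + c) < _ * gp (i + 4) * (2 - l)
      set g := gp (i + 4)
      have e : ((i + 2 + 2 : ℕ) : ℝ) / 2 = (i : ℝ) / 2 + 2 := by push_cast; ring
      rw [e]
      have hi : (0 : ℝ) ≤ (i : ℝ) / 2 := by positivity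
      set N : ℝ := (i : ℝ) / 2 + 2 + 1 + t with hN
      have hN3 : 3 ≤ N := by rw [hN]; linarith
      have e2 : (i : ℝ) / 2 + 2 + t = N - 1 := by rw [hN]; ring
      rw [e2]
      -- c ≤ q1 + (g - q1) (1-l)
      have hc2 : c ≤ q1 + (g - q1) * (1 - l) := by
        rw [hc]
        have : q3 + 2 * q1 + q2 ≤ g - q1 := by linarith
        nlinarith
      have h5 : N * (g + c) ≤ N * (g + (q1 + (g - q1) * (1 - l))) :=
        mul_le_mul_of_nonneg_left (by linarith) (by linarith)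
      have h6 : 0 < (N - 2) * g - N * q1 := by nlinarith
      have h7 : 0 ≤ ((N - 2) * g + N * q1) * (1 - l) :=
        mul_nonneg (by nlinarith) (by linarith)
      nlinarith

/-- `i = 0`. -/
theorem br_pos_zero (h0 : 0 < l) (h1 : l < 1) (t : ℕ) (ht : 1 ≤ t) : 0 < br l t 0 := by
  have ht' : (1 : ℝ) ≤ t := by exact_mod_cast ht
  have hb : coeff t (bm l 1 0) = 2 * (coeff t (D (1 + 1)) - coeff t (ip l * D 1)) := by
    have : bm l 1 0 = C 2 * (D (1 + 1) - ip l * D 1) := by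
      unfold bm Y Ga
      rw [F_zero_right, K_zero]
      have hp := ip_eq l
      have hd := idd_eq h1
      simp only [map_one, map_sub, map_pow, map_ofNat]
      linear_combination -2 * ip l * D 1 * hd + (4 - C l) * idd l * D 1 * hp
    rw [this, coeff_C_mul, map_sub]
  have h2 := NN.mul (f := C l ^ 2 * X * ip l) (g := D (1 + 1)) (by
    rw [← map_pow]
    exact ((NN_C (by positivity)).mul NN_X).mul (NN_ip h0.le h1)) (NN_D (by norm_num)) t
  rw [← step_ip, map_sub] at h2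
  have e : ((0 : ℕ) : ℝ) / 2 + 1 = 1 := by norm_num
  have hbn := bn_pos' 0 t
  unfold br
  rw [e] at hbn ⊢
  rw [gp_zero, chi_zero, hb]
  have a1 : 0 < 2 * (((0 : ℕ) : ℝ) + 2 * t) * l * (bn (1 + (t : ℝ)) t * 1) := by positivity
  have a2 : 0 ≤ 2 * (1 + (t : ℝ)) * (2 * (coeff t (D (1 + 1)) - coeff t (ip l * D 1))) := by
    have : (0 : ℝ) ≤ 2 * (1 + (t : ℝ)) := by positivity
    nlinarith
  have a3 : bn (1 + (t : ℝ)) t * (l / (1 - l) * (1 - 1)) = 0 := by ring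
  rw [a3]
  linarith

end

end

end Crest.Agent.R208.HH
end

-- ▼ part R208/HHc
section

/-!
# (H1), (H2) exclude all `k ≥ 8` except `(8,2)`, part c: the evaluation at `x`.
-/

namespace Crest.Agent.R208.HH

open Finset PowerSeries V2

noncomputable section

/-- a family `f σ` of power series in `z` over `ℝ[[w]]`, read off at `σ = N - t`. -/
def Ev (ν N : ℝ) (f : ℝ → PowerSeries (PowerSeries ℝ)) : PowerSeries ℝ :=
  S fun t i => ν ^ i * coeff t (coeff i (f (N - t)))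

section
variable (ν N : ℝ)

theorem Ev_congr {f g : ℝ → PowerSeries (PowerSeries ℝ)} (h : ∀ σ, f σ = g σ) :
    Ev ν N f = Ev ν N g := by
  have : f = g := funext h
  rw [this]

theorem Ev_add (f g : ℝ → PowerSeries (PowerSeries ℝ)) :
    Ev ν N f + Ev ν N g = Ev ν N fun σ => f σ + g σ := by
  unfold Ev
  rw [S_add]
  refine S_congr fun t i => ?_
  rw [map_add, map_add]
  ring

theorem Ev_smul (r : ℝ) (f : ℝ → PowerSeries (PowerSeries ℝ)) :
    C r * Ev ν N f = Ev ν N fun σ => C (C r) * f σ := by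
  unfold Ev
  rw [S_smul]
  refine S_congr fun t i => ?_
  rw [coeff_C_mul, coeff_C_mul]
  ring

theorem Ev_X (f : ℝ → PowerSeries (PowerSeries ℝ)) :
    C ν * X * Ev ν N f = Ev ν N fun σ => X * f σ := by
  unfold Ev
  rw [mul_assoc, X_mul_S, S_smul]
  refine S_congr fun t i => ?_
  cases i with
  | zero => simp
  | succ i =>
    rw [shi_succ, coeff_succ_X_mul, pow_succ]
    ring

theorem Ev_w (f : ℝ → PowerSeries (PowerSeries ℝ)) :
    X ^ 2 * Ev ν N f = Ev ν N fun σ => C X * f (σ + 1) := by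
  unfold Ev
  rw [X_sq_mul_S]
  refine S_congr fun t i => ?_
  cases t with
  | zero => simp
  | succ t =>
    rw [sht_succ, coeff_C_mul, coeff_succ_X_mul]
    congr 5
    push_cast
    ring

end

/-- `(1-z)^σ`. -/
def Q (σ : ℝ) : PowerSeries (PowerSeries ℝ) := PowerSeries.mk fun i => C (F 0 σ i)

/-- `(1-z)^σ / (1-κz)`. -/
def KK (κ : PowerSeries ℝ) (σ : ℝ) : PowerSeries (PowerSeries ℝ) := PowerSeries.mk fun i => K κ σ i

theorem KK_mul (κ : PowerSeries ℝ) (σ : ℝ) : (1 - C κ * X) * KK κ σ = Q σ := by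
  ext1 i
  have h : (1 - C κ * X) * KK κ σ = KK κ σ - C κ * (X * KK κ σ) := by ring
  rw [h, map_sub, coeff_C_mul]
  cases i with
  | zero => simp [KK, Q]
  | succ i =>
    rw [coeff_succ_X_mul, KK, Q, coeff_mk, coeff_mk, coeff_mk, K_succ]
    show κ * K κ σ i + C (F 0 σ (i + 1)) - κ * K κ σ i = _
    ring

theorem KK_pascal (κ : PowerSeries ℝ) (σ : ℝ) : KK κ (σ + 1) = (1 - X) * KK κ σ := by
  ext1 i
  have h : (1 - X) * KK κ σ = KK κ σ - X * KK κ σ := by ring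
  rw [h, map_sub]
  cases i with
  | zero => simp [KK]
  | succ i =>
    rw [coeff_succ_X_mul, KK, KK, coeff_mk, coeff_mk, coeff_mk, K_pascal]

theorem Q_pascal (σ : ℝ) : Q (σ + 1) = (1 - X) * Q σ := by
  rw [← KK_mul 0, ← KK_mul 0, KK_pascal]
  ring

/-- the family `b⁻`. -/
def bb (l : ℝ) (σ : ℝ) : PowerSeries (PowerSeries ℝ) :=
  C (2 * D (σ + 1) - (4 - C l) * idd l * D σ) * KK 2 σ + C (C l * Y l σ) * KK (ka l) σ

theorem K_two' (σ : ℝ) (i : ℕ) : K (2 : PowerSeries ℝ) σ i = C (F 1 σ i) := by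
  induction i with
  | zero => simp
  | succ i ih =>
    rw [K_succ, F_succ, ih, map_add, map_mul, map_ofNat]
    rfl

theorem coeff_bb (l σ : ℝ) (i : ℕ) : coeff i (bb l σ) = bm l σ i := by
  rw [bb, map_add, coeff_C_mul, coeff_C_mul, KK, KK, coeff_mk, coeff_mk, bm, K_two']
  ring

theorem bb_rec {l : ℝ} (h1 : l < 1) (σ : ℝ) :
    (1 - 2 * X) * (1 - C (C l) * X) * bb l σ + C (C l) ^ 2 * C X * (1 - 2 * X) * bb l (σ + 1)
      = -(C (C l) * X * (C (D (σ + 1)) * Q σ)) + 2 * C (C l) ^ 2 * C X * (C (D (σ + 2)) * Q (σ + 1)) := by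
  have hk2 := KK_mul 2 σ
  have hk := KK_mul (ka l) σ
  have e2 : (C 2 : PowerSeries (PowerSeries ℝ)) = 2 := by rw [map_ofNat]
  rw [e2] at hk2
  have hp : (1 - (1 - C (C l) ^ 2) * C X) * C (ip l) = (1 : PowerSeries (PowerSeries ℝ)) := by
    have := congrArg (C : PowerSeries ℝ →+* PowerSeries (PowerSeries ℝ)) (ip_eq l)
    simpa using this
  have hd : ((2 - C (C l)) - (2 - C (C l) - C (C l) ^ 2) * C X) * C (idd l)
      = (1 : PowerSeries (PowerSeries ℝ)) := by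
    have := congrArg (C : PowerSeries ℝ →+* PowerSeries (PowerSeries ℝ)) (idd_eq h1)
    simpa only [map_mul, map_sub, map_pow, map_one, e2] using this
  have hD1 : (1 - C X) * C (D (σ + 1)) = (C (D σ) : PowerSeries (PowerSeries ℝ)) := by
    have := congrArg (C : PowerSeries ℝ →+* PowerSeries (PowerSeries ℝ)) (D_succ σ)
    simpa using this
  have hD2 : (1 - C X) * C (D (σ + 2)) = (C (D (σ + 1)) : PowerSeries (PowerSeries ℝ)) := by
    have h := D_succ (σ + 1)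
    have e : σ + 1 + 1 = σ + 2 := by ring
    rw [e] at h
    have := congrArg (C : PowerSeries ℝ →+* PowerSeries (PowerSeries ℝ)) h
    simpa using this
  have e4 : (C 4 : PowerSeries (PowerSeries ℝ)) = 4 := by rw [map_ofNat]
  have hka : C (ka l) = C (C l) * (1 - (1 - C (C l)) * C X) * (C (ip l) : PowerSeries (PowerSeries ℝ)) := by
    rw [ka]
    simp only [map_mul, map_sub, map_one]
  have hY : ∀ τ, C (Y l τ) = C (D τ) * ((1 - (1 - C (C l)) ^ 2 * C X) * C (ip l) * C (idd l)) := by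
    intro τ
    rw [Y, Ga]
    simp only [map_mul, map_sub, map_one, map_pow]
  have h21 : σ + 1 + 1 = σ + 2 := by ring
  rw [bb, bb, KK_pascal, KK_pascal, Q_pascal, h21, map_mul, map_mul, hY, hY]
  rw [hka] at hk
  simp only [map_mul, map_sub, e2, e4]
  rw [← hD1]
  generalize (C (D (σ + 1)) : PowerSeries (PowerSeries ℝ)) = D1 at *
  generalize (C (D (σ + 2)) : PowerSeries (PowerSeries ℝ)) = D2 at *
  generalize (C (ip l) : PowerSeries (PowerSeries ℝ)) = P at *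
  generalize (C (idd l) : PowerSeries (PowerSeries ℝ)) = I at *
  generalize (C (C l) : PowerSeries (PowerSeries ℝ)) = L at *
  generalize (C X : PowerSeries (PowerSeries ℝ)) = w at *
  generalize KK 2 σ = Z2 at *
  generalize KK (ka l) σ = Zk at *
  generalize Q σ = Qs at *
  linear_combination ((1 - L * X) * (2 * D1 - (4 - L) * I * ((1 - w) * D1))
      + L ^ 2 * w * (1 - X) * (2 * D2 - (4 - L) * I * D1)) * hk2
    + (1 - 2 * X) * L * D1 * (1 - (1 - L) ^ 2 * w) * I * hk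
    + (1 - 2 * X) * L * D1 * (1 - (1 - L) ^ 2 * w) * I * Zk * hp
    - Qs * D1 * (2 - L * X) * hd


theorem Ev_lin (ν N r s : ℝ) (f : ℝ → PowerSeries (PowerSeries ℝ)) :
    Ev ν N (fun σ => (C (C r) + C (C s) * X) * f σ) = (C r + C s * (C ν * X)) * Ev ν N f := by
  rw [add_mul, mul_assoc (C s), Ev_X, Ev_smul, Ev_smul, Ev_add]
  refine Ev_congr ν N fun σ => ?_
  ring

theorem Ev_QD (ν N : ℝ) : Ev ν N (fun σ => C (D (σ + 1)) * Q σ) = W ν 0 N := by
  unfold Ev W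
  refine S_congr fun t i => ?_
  rw [coeff_C_mul, Q, coeff_mk, mul_comm (D _), coeff_C_mul, coeff_D_succ, sub_add_cancel]
  ring

/-- the equation of `Ev bb`. -/
theorem Ev_bb {l : ℝ} (h1 : l < 1) (ν N : ℝ) :
    (1 - C (2 * ν) * X) * (1 - C (l * ν) * X + C (l ^ 2) * X ^ 2) * Ev ν N (bb l)
      = (-(C (l * ν) * X) + C (2 * l ^ 2) * X ^ 2) * W ν 0 N := by
  have e2 : (C 2 : PowerSeries ℝ) = 2 := by rw [map_ofNat]
  have e2' : (C 2 : PowerSeries (PowerSeries ℝ)) = 2 := by rw [map_ofNat]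
  -- left hand side
  have hl1 : Ev ν N (fun σ => (1 - 2 * X) * (1 - C (C l) * X) * bb l σ)
      = (1 - C (2 * ν) * X) * (1 - C (l * ν) * X) * Ev ν N (bb l) := by
    have h := Ev_lin ν N 1 (-2) (fun σ => (C (C 1) + C (C (-l)) * X) * bb l σ)
    rw [Ev_lin ν N 1 (-l)] at h
    simp only [map_one, map_neg, e2, e2'] at h
    have e : (fun σ => (1 - 2 * X) * (1 - C (C l) * X) * bb l σ)
        = fun σ => (1 + -2 * X) * ((1 + -C (C l) * X) * bb l σ) := by
      funext σ; ring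
    rw [e, h, map_mul, map_mul, e2]
    ring
  have hl2 : Ev ν N (fun σ => C (C l) ^ 2 * C X * (1 - 2 * X) * bb l (σ + 1))
      = C (l ^ 2) * (X ^ 2 * ((1 - C (2 * ν) * X) * Ev ν N (bb l))) := by
    have h := Ev_lin ν N 1 (-2) (bb l)
    simp only [map_one, map_neg, e2, e2'] at h
    have e : (1 - C (2 * ν) * X) * Ev ν N (bb l) = (1 + -2 * (C ν * X)) * Ev ν N (bb l) := by
      rw [map_mul, e2]; ring
    rw [e, ← h, Ev_w, Ev_smul]
    refine Ev_congr ν N fun σ => ?_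
    rw [map_pow, map_pow]
    ring
  have hr1 : Ev ν N (fun σ => -(C (C l) * X * (C (D (σ + 1)) * Q σ)))
      = -(C (l * ν) * X) * W ν 0 N := by
    have e : -(C (l * ν) * X) * W ν 0 N = C (-l) * (C ν * X * W ν 0 N) := by
      rw [map_mul, map_neg]; ring
    rw [e, ← Ev_QD, Ev_X, Ev_smul]
    refine Ev_congr ν N fun σ => ?_
    rw [map_neg, map_neg]
    ring
  have hr2 : Ev ν N (fun σ => 2 * C (C l) ^ 2 * C X * (C (D (σ + 2)) * Q (σ + 1)))
      = C (2 * l ^ 2) * X ^ 2 * W ν 0 N := by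
    have e : C (2 * l ^ 2) * X ^ 2 * W ν 0 N = C (2 * l ^ 2) * (X ^ 2 * W ν 0 N) := by ring
    rw [e, ← Ev_QD, Ev_w, Ev_smul]
    refine Ev_congr ν N fun σ => ?_
    have h21 : σ + 1 + 1 = σ + 2 := by ring
    rw [h21]
    simp only [map_mul, map_pow, e2, e2']
    ring
  have h : Ev ν N (fun σ => (1 - 2 * X) * (1 - C (C l) * X) * bb l σ
        + C (C l) ^ 2 * C X * (1 - 2 * X) * bb l (σ + 1))
      = Ev ν N (fun σ => -(C (C l) * X * (C (D (σ + 1)) * Q σ))
        + 2 * C (C l) ^ 2 * C X * (C (D (σ + 2)) * Q (σ + 1))) :=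
    Ev_congr ν N fun σ => bb_rec h1 σ
  rw [← Ev_add, ← Ev_add, hl1, hl2, hr1, hr2] at h
  linear_combination h

/-- `q^N / (1 - κνX)`. -/
def WK (ν κ N : ℝ) : PowerSeries ℝ := S fun t i => bn N t * ν ^ i * K κ (N - t) i

theorem WK_mul (ν κ N : ℝ) : (1 - C (κ * ν) * X) * WK ν κ N = W ν 0 N := by
  have h : (1 - C (κ * ν) * X) * WK ν κ N = WK ν κ N + C (-(κ * ν)) * (X * WK ν κ N) := by
    rw [map_neg]
    ring
  rw [h, WK, X_mul_S, S_smul, S_add, W]
  refine S_congr fun t i => ?_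
  cases i with
  | zero => simp
  | succ i =>
    rw [shi_succ, K_succ]
    simp only [Algebra.algebraMap_self, RingHom.id_apply]
    ring

theorem ne_zero_of_cc {f : PowerSeries ℝ} (h : constantCoeff f = 1) : f ≠ 0 := by
  rintro rfl
  simp at h

/-- the main identity. -/
theorem main_id {l : ℝ} (h1 : l < 1) (ν N : ℝ) (G : PowerSeries ℝ)
    (hG : G * ((1 - C (l * ν) * X + C (l ^ 2) * X ^ 2) * (1 - C (2 * (l * ν)) * X))
      = C (2 * N) * (-(C (l * ν) * X) + C (2 * l ^ 2) * X ^ 2) * (1 - C (2 * (l * ν)) * X)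
        + C (2 * (l * ν)) * X * (1 - C (l * ν) * X + C (l ^ 2) * X ^ 2)) :
    W ν 1 N * G = C (l / (1 - l)) * (W ν 1 N - WK ν (2 * l) N) + C (2 * N) * Ev ν N (bb l) := by
  have hu := W_u ν 0 N
  rw [zero_add] at hu
  have hk := WK_mul ν (2 * l) N
  have hb := Ev_bb h1 ν N
  have e1 : C (2 * l * ν) = (C (2 * (l * ν)) : PowerSeries ℝ) := by rw [mul_assoc]
  rw [e1] at hk
  have n1 : (1 - C (2 * ν) * X : PowerSeries ℝ) ≠ 0 := ne_zero_of_cc (by simp)
  have n2 : (1 - C (2 * (l * ν)) * X : PowerSeries ℝ) ≠ 0 := ne_zero_of_cc (by simp)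
  have n3 : (1 - C (l * ν) * X + C (l ^ 2) * X ^ 2 : PowerSeries ℝ) ≠ 0 := ne_zero_of_cc (by simp)
  apply mul_left_cancel₀ (mul_ne_zero (mul_ne_zero n1 n2) n3)
  have e3 : C (l / (1 - l)) * (C (2 * ν) - C (2 * (l * ν))) = (C (2 * (l * ν)) : PowerSeries ℝ) := by
    rw [← map_sub, ← map_mul]
    congr 1
    have : 1 - l ≠ 0 := by linarith
    field_simp
  generalize (C (2 * ν) : PowerSeries ℝ) = a at *
  generalize (C (2 * (l * ν)) : PowerSeries ℝ) = b at *
  generalize (1 - C (l * ν) * X + C (l ^ 2) * X ^ 2 : PowerSeries ℝ) = q at *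
  generalize (-(C (l * ν) * X) + C (2 * l ^ 2) * X ^ 2 : PowerSeries ℝ) = p at *
  generalize (C (l / (1 - l)) : PowerSeries ℝ) = r at *
  generalize (C (2 * N) : PowerSeries ℝ) = M at *
  generalize W ν 1 N = c at *
  generalize W ν 0 N = c0 at *
  generalize WK ν (2 * l) N = k at *
  generalize Ev ν N (bb l) = E at *
  linear_combination (1 - a * X) * c * hG + (M * p * (1 - b * X) + b * X * q - r * q * (1 - b * X)) * hu
    + r * q * (1 - a * X) * hk - M * (1 - b * X) * hb - c0 * X * q * e3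

/-- coefficients of the main identity. -/
theorem coeff_main {l : ℝ} (h1 : l < 1) (ν : ℝ) (n : ℕ) (G : PowerSeries ℝ)
    (hG : G * ((1 - C (l * ν) * X + C (l ^ 2) * X ^ 2) * (1 - C (2 * (l * ν)) * X))
      = C (2 * (((n : ℝ) + 2) / 2)) * (-(C (l * ν) * X) + C (2 * l ^ 2) * X ^ 2)
          * (1 - C (2 * (l * ν)) * X)
        + C (2 * (l * ν)) * X * (1 - C (l * ν) * X + C (l ^ 2) * X ^ 2)) :
    2 * n * l * coeff n (W ν 1 (((n : ℝ) + 2) / 2)) + coeff n (W ν 1 (((n : ℝ) + 2) / 2) * G)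
      = ∑ t ∈ range (n + 1), if 2 * t ≤ n then ν ^ (n - 2 * t) * br l t (n - 2 * t) else 0 := by
  rw [main_id h1 ν _ G hG, map_add, coeff_C_mul, coeff_C_mul, map_sub, W, WK, Ev, coeff_S, coeff_S,
    coeff_S, mul_sum, ← sum_sub_distrib, mul_sum, mul_sum, ← sum_add_distrib, ← sum_add_distrib]
  refine Finset.sum_congr rfl fun t _ => ?_
  split_ifs with h
  · have hc : ((n - 2 * t : ℕ) : ℝ) = n - 2 * t := by
      rw [Nat.cast_sub h]; push_cast; ring
    have e1 : ((n : ℝ) + 2) / 2 - t = ((n - 2 * t : ℕ) : ℝ) / 2 + 1 := by rw [hc]; ring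
    have e2 : ((n : ℝ) + 2) / 2 = ((n - 2 * t : ℕ) : ℝ) / 2 + 1 + t := by rw [hc]; ring
    have e3 : (n : ℝ) = ((n - 2 * t : ℕ) : ℝ) + 2 * t := by rw [hc]; ring
    rw [e1, coeff_bb, br]
    rw [← e2]
    show 2 * (n : ℝ) * l * (bn _ t * ν ^ (n - 2 * t) * gp (n - 2 * t))
      + (l / (1 - l) * (bn _ t * ν ^ (n - 2 * t) * gp (n - 2 * t)
        - bn _ t * ν ^ (n - 2 * t) * chi (2 * l) (n - 2 * t)) + _) = _
    rw [← e3]
    ring
  · ring

end

end Crest.Agent.R208.HH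
end

-- ▼ part R208/HHd
section

/-!
# (H1), (H2) exclude all `k ≥ 8` except `(8,2)`, part d: the coefficient of `ν`, and the
positive functional `x^k ↦ 1/(k-δ)`.
-/

namespace Crest.Agent.R208.HH

open Finset PowerSeries V2

noncomputable section

/-! ### the sums `∑ bn (σ+t) (t-a) e_a` -/

/-- the sums. -/
def Sm (σ : ℝ) (t : ℕ) (e : ℕ → ℝ) : ℝ := ∑ a ∈ range (t + 1), bn (σ + t) (t - a) * e a

theorem Sm_succ (σ : ℝ) (t : ℕ) (e : ℕ → ℝ) :
    Sm σ (t + 1) e = bn (σ + t) (t + 1) * e 0 + Sm σ t (fun a => e (a + 1)) + Sm σ t e := by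
  have h1 : Sm σ (t + 1) e = (∑ a ∈ range (t + 1), (bn (σ + t) (t + 1 - a) * e a
      + bn (σ + t) (t - a) * e a)) + e (t + 1) := by
    unfold Sm
    rw [sum_range_succ _ (t + 1)]
    congr 1
    · refine sum_congr rfl fun a ha => ?_
      have ha' : a ≤ t := by
        have := mem_range.1 ha
        omega
      have e1 : t + 1 - a = (t - a) + 1 := by omega
      have e2 : σ + ((t + 1 : ℕ) : ℝ) = (σ + t) + 1 := by push_cast; ring
      rw [e1, e2, bn_pascal]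
      ring
    · simp
  have h2 : bn (σ + t) (t + 1) * e 0 + Sm σ t (fun a => e (a + 1))
      = (∑ a ∈ range (t + 1), bn (σ + t) (t + 1 - a) * e a) + e (t + 1) := by
    have h3 : ∑ a ∈ range (t + 1 + 1), bn (σ + t) (t + 1 - a) * e a
        = (∑ a ∈ range (t + 1), bn (σ + t) (t + 1 - a) * e a) + e (t + 1) := by
      rw [sum_range_succ _ (t + 1)]
      simp
    rw [← h3, sum_range_succ', add_comm]
    unfold Sm
    congr 1
    refine sum_congr rfl fun a _ => ?_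
    have e1 : t + 1 - (a + 1) = t - a := by omega
    rw [e1]
  rw [h1, h2, sum_add_distrib]
  unfold Sm
  ring

/-- the series of the sums. -/
def Ss (σ : ℝ) (e : ℕ → ℝ) : PowerSeries ℝ := PowerSeries.mk fun t => Sm σ t e

theorem Ss_mul (σ : ℝ) (e : ℕ → ℝ) :
    (1 - X) * Ss σ e = C (e 0) * D σ + X * Ss σ (fun a => e (a + 1)) := by
  ext t
  have h : (1 - X) * Ss σ e = Ss σ e - X * Ss σ e := by ring
  rw [h, map_sub, map_add, coeff_C_mul]
  cases t with
  | zero => simp [Ss, Sm, coeff_D]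
  | succ t =>
    rw [coeff_succ_X_mul, coeff_succ_X_mul, coeff_D, Ss, Ss, coeff_mk, coeff_mk, coeff_mk, Sm_succ]
    have e1 : σ + ((t + 1 : ℕ) : ℝ) - 1 = σ + t := by push_cast; ring
    rw [e1]
    ring

theorem Ss_smul (σ r : ℝ) (e : ℕ → ℝ) : Ss σ (fun a => r * e a) = C r * Ss σ e := by
  ext t
  rw [coeff_C_mul, Ss, Ss, coeff_mk, coeff_mk, Sm, Sm, mul_sum]
  exact sum_congr rfl fun a _ => by ring

theorem Ss_add (σ : ℝ) (e f : ℕ → ℝ) : Ss σ (fun a => e a + f a) = Ss σ e + Ss σ f := by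
  ext t
  rw [map_add, Ss, Ss, Ss, coeff_mk, coeff_mk, coeff_mk, Sm, Sm, Sm, ← sum_add_distrib]
  exact sum_congr rfl fun a _ => by ring

theorem Ss_g (l σ : ℝ) : Ss σ (fun a => (-l ^ 2) ^ a) = ip l * D σ := by
  have h := Ss_mul σ (fun a => (-l ^ 2) ^ a)
  have e1 : Ss σ (fun a => (-l ^ 2) ^ (a + 1)) = C (-l ^ 2) * Ss σ (fun a => (-l ^ 2) ^ a) := by
    rw [← Ss_smul]
    congr 1
    funext a
    ring
  rw [e1, pow_zero, map_one, one_mul, map_neg, map_pow] at h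
  have hp := ip_eq l
  linear_combination ip l * h - Ss σ (fun a => (-l ^ 2) ^ a) * hp

theorem Ss_e (l σ : ℝ) : Ss σ (fun a => (-l ^ 2) ^ a * ((1 + a) * l - a)) = ka l * (ip l * D σ) := by
  have h := Ss_mul σ (fun a => (-l ^ 2) ^ a * ((1 + a) * l - a))
  have e1 : Ss σ (fun a => (-l ^ 2) ^ (a + 1) * ((1 + (a + 1 : ℕ)) * l - (a + 1 : ℕ)))
      = C (-l ^ 2) * Ss σ (fun a => (-l ^ 2) ^ a * ((1 + a) * l - a))
        + C (-l ^ 2 * (l - 1)) * Ss σ (fun a => (-l ^ 2) ^ a) := by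
    rw [← Ss_smul, ← Ss_smul, ← Ss_add]
    congr 1
    funext a
    push_cast
    ring
  rw [e1, Ss_g] at h
  simp only [Nat.cast_zero, pow_zero, add_zero, sub_zero, one_mul, map_neg, map_pow, map_mul,
    map_sub, map_one] at h
  have hp := ip_eq l
  rw [ka]
  simp only [map_sub, map_one]
  generalize Ss σ (fun a => (-l ^ 2) ^ a * ((1 + a) * l - a)) = E at *
  linear_combination ip l * h - (E + C l * ip l * D σ) * hp

theorem coeff_ip_D (l σ : ℝ) (t : ℕ) : coeff t (ip l * D σ) = Sm σ t (fun a => (-l ^ 2) ^ a) := by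
  rw [← Ss_g, Ss, coeff_mk]

theorem coeff_ka_D (l σ : ℝ) (t : ℕ) : coeff t (ka l * (ip l * D σ))
    = Sm σ t (fun a => (-l ^ 2) ^ a * ((1 + a) * l - a)) := by
  rw [← Ss_e, Ss, coeff_mk]

theorem bm_one {l : ℝ} (h1 : l < 1) : bm l (3 / 2) 1 = D (3 / 2 + 1) - C (1 - l) * (ip l * D (3 / 2))
    - C 2 * (ka l * (ip l * D (3 / 2))) := by
  have hF : F 1 (3 / 2) 1 = 1 / 2 := by
    have := gp_one
    unfold gp at this
    rw [← this]
    norm_num
  have hK : K (ka l) (3 / 2) 1 = ka l - C (3 / 2) := by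
    have := chi_one (ka l)
    unfold chi at this
    rw [alg] at this
    rw [← this]
    norm_num
  rw [bm, hF, hK, Y, Ga, ← D_succ (3 / 2)]
  have hp := ip_eq l
  have hd := idd_eq h1
  have c1 : (C (3 / 2) : PowerSeries ℝ) = 3 * C (1 / 2) := by
    have : (3 : PowerSeries ℝ) = C 3 := by rw [map_ofNat]
    rw [this, ← map_mul]; norm_num
  have c2 : (2 : PowerSeries ℝ) * C (1 / 2) = 1 := by
    have : (2 : PowerSeries ℝ) = C 2 := by rw [map_ofNat]
    rw [this, ← map_mul, ← map_one C]; norm_num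
  rw [c1, ka]
  simp only [map_sub, map_one, map_pow, map_ofNat]
  generalize (C (1 / 2) : PowerSeries ℝ) = v at *
  generalize (C l : PowerSeries ℝ) = L at *
  generalize ip l = P at *
  generalize idd l = I at *
  generalize D (3 / 2 + 1) = D' at *
  linear_combination D' * c2
    - (1 - X) * D' * (1 - L + 2 * (L * (1 - (1 - L) * X) * P)) * P * hd
    + (1 - X) * D' * I * (v * (4 - L) * ((1 - (1 - L ^ 2) * X) * P + 1)
        + 3 * v * L * (1 - (1 - L) ^ 2 * X) * P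
        - (1 - L) * P * (2 - L - (2 - L - L ^ 2) * X)) * hp
    - (1 - X) * D' * I * P ^ 2 * (2 * (1 - L) * (1 - (1 - L ^ 2) * X) ^ 2
        + 3 * L * (1 - (1 - L) * X) * (1 - (1 - L ^ 2) * X)) * c2

/-- the bracket for `i = 1`. -/
theorem br_one {l : ℝ} (h1 : l < 1) (t : ℕ) : br l t 1 = (2 * t + 3) * ∑ a ∈ range t,
    bn (3 / 2 + t) (t - (a + 1)) * ((-l ^ 2) ^ (a + 1) * ((2 * a + 1) - (2 * a + 3) * l)) := by
  have e : ((1 : ℕ) : ℝ) / 2 + 1 = 3 / 2 := by norm_num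
  rw [br, e, bm_one h1, map_sub, map_sub, coeff_C_mul, coeff_C_mul, coeff_D_succ, coeff_ip_D,
    coeff_ka_D, gp_one, chi_one]
  simp only [Algebra.algebraMap_self, RingHom.id_apply]
  have hl : l / (1 - l) * (1 / 2 - (2 * l - 3 / 2)) = 2 * l := by
    have : 1 - l ≠ 0 := by linarith
    field_simp
    ring
  rw [hl]
  unfold Sm
  rw [sum_range_succ', sum_range_succ']
  simp only [Nat.cast_zero, pow_zero, add_zero, sub_zero, one_mul, Nat.sub_zero, mul_one]
  have key : ∑ a ∈ range t, bn (3 / 2 + t) (t - (a + 1)) * ((-l ^ 2) ^ (a + 1) * ((2 * a + 1) - (2 * a + 3) * l))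
      = -((1 - l) * ∑ a ∈ range t, bn (3 / 2 + t) (t - (a + 1)) * (-l ^ 2) ^ (a + 1))
        - 2 * ∑ a ∈ range t, bn (3 / 2 + t) (t - (a + 1))
            * ((-l ^ 2) ^ (a + 1) * ((1 + (a + 1 : ℕ)) * l - (a + 1 : ℕ))) := by
    rw [mul_sum, mul_sum, ← sum_neg_distrib, ← sum_sub_distrib]
    refine sum_congr rfl fun a _ => ?_
    push_cast
    ring
  rw [key]
  push_cast
  ring

/-! ### the alternating sums are positive -/

theorem alt_sum (x : ℝ) (t : ℕ) :
    ∑ a ∈ range (t + 1), (-1 : ℝ) ^ a * bn (x + 1) (t - a) = bn x t := by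
  induction t with
  | zero => simp
  | succ t ih =>
    rw [sum_range_succ']
    have : ∑ a ∈ range (t + 1), (-1 : ℝ) ^ (a + 1) * bn (x + 1) (t + 1 - (a + 1))
        = -∑ a ∈ range (t + 1), (-1 : ℝ) ^ a * bn (x + 1) (t - a) := by
      rw [← sum_neg_distrib]
      refine sum_congr rfl fun a _ => ?_
      have e1 : t + 1 - (a + 1) = t - a := by omega
      rw [e1, pow_succ]
      ring
    rw [this, ih, Nat.sub_zero, bn_pascal]
    ring

/-- the alternating sum with weight `1/(a+1+α)`. -/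
def U (σ α : ℝ) (t : ℕ) : ℝ :=
  ∑ a ∈ range t, (-1 : ℝ) ^ a * bn (σ + t) (t - (a + 1)) / (a + 1 + α)

theorem U_rec (σ α : ℝ) (hα : -1 < α) (t : ℕ) :
    (t + 1 + α) * U σ α (t + 1) = (σ + t + 1) * U σ α t + bn (σ + t) t := by
  have e2 : σ + ((t + 1 : ℕ) : ℝ) = (σ + t) + 1 := by push_cast; ring
  unfold U
  rw [← alt_sum (σ + t) t, e2]
  rw [mul_sum, mul_sum]
  have h3 : ∑ a ∈ range t, (σ + t + 1) * ((-1 : ℝ) ^ a * bn (σ + t) (t - (a + 1)) / (a + 1 + α))
      = ∑ a ∈ range (t + 1), (-1 : ℝ) ^ a * (bn (σ + t + 1) (t - a) * (t - a : ℕ)) / (a + 1 + α) := by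
    rw [sum_range_succ _ t]
    simp only [Nat.sub_self, Nat.cast_zero, mul_zero, zero_div, add_zero]
    refine sum_congr rfl fun a ha => ?_
    have ha' : a < t := mem_range.1 ha
    obtain ⟨k, hk⟩ : ∃ k, t - a = k + 1 := ⟨t - a - 1, by omega⟩
    have hk2 : t - (a + 1) = k := by omega
    rw [hk2, hk]
    have h4 : (σ + t + 1) * bn (σ + t) k = bn (σ + t + 1) (k + 1) * ((k + 1 : ℕ) : ℝ) := by
      have h5 := bn_absorb (σ + t + 1) k
      have h6 := bn_succ_mul (σ + t + 1) k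
      have e3 : σ + t + 1 - 1 = σ + t := by ring
      rw [e3] at h5
      push_cast
      linear_combination h5 - h6
    rw [← h4]
    ring
  rw [h3, ← sum_add_distrib]
  refine sum_congr rfl fun a ha => ?_
  have ha' : a < t + 1 := mem_range.1 ha
  have e1 : t + 1 - (a + 1) = t - a := by omega
  have e3 : ((t - a : ℕ) : ℝ) = t - a := by rw [Nat.cast_sub (by omega)]
  rw [e1, e3]
  have ha0 : (0 : ℝ) ≤ a := Nat.cast_nonneg a
  have : (a : ℝ) + 1 + α ≠ 0 := by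
    have : 0 < (a : ℝ) + 1 + α := by linarith
    exact this.ne'
  field_simp
  ring

theorem U_nonneg {σ α : ℝ} (hσ : 0 ≤ σ) (hα : -1 < α) : ∀ t : ℕ, 0 ≤ U σ α t
  | 0 => by simp [U]
  | t + 1 => by
    have ih := U_nonneg hσ hα t
    have h := U_rec σ α hα t
    have ht : (0 : ℝ) ≤ t := Nat.cast_nonneg t
    have h2 : 0 ≤ bn (σ + t) t := bn_nonneg (by linarith)
    have h3 : 0 < (t : ℝ) + 1 + α := by linarith
    have h4 : 0 ≤ (t + 1 + α) * U σ α (t + 1) := by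
      rw [h]
      have : 0 ≤ (σ + t + 1) * U σ α t := mul_nonneg (by linarith) ih
      linarith
    exact nonneg_of_mul_nonneg_right h4 h3

/-! ### the functional -/

/-- `f` has integral `v` against `x^(-1-δ)` on `[0,1]`. -/
def Good (δ : ℝ) (f : ℝ → ℝ) (v : ℝ) : Prop :=
  ∃ G : ℝ → ℝ, ContinuousOn G (Set.Icc 0 1) ∧ G 0 = 0 ∧ G 1 = v ∧
    ∀ x ∈ Set.Ioo (0 : ℝ) 1, HasDerivAt G (x ^ (-1 - δ) * f x) x

theorem Good.add {δ : ℝ} {f g : ℝ → ℝ} {v w : ℝ} (hf : Good δ f v) (hg : Good δ g w) :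
    Good δ (fun x => f x + g x) (v + w) := by
  obtain ⟨F, a1, a2, a3, a4⟩ := hf
  obtain ⟨G, b1, b2, b3, b4⟩ := hg
  refine ⟨fun x => F x + G x, a1.add b1, by simp [a2, b2], by simp [a3, b3], fun x hx => ?_⟩
  have := (a4 x hx).add (b4 x hx)
  rw [← mul_add] at this
  exact this

theorem Good.smul {δ : ℝ} {f : ℝ → ℝ} {v : ℝ} (hf : Good δ f v) (r : ℝ) :
    Good δ (fun x => r * f x) (r * v) := by
  obtain ⟨F, a1, a2, a3, a4⟩ := hf
  refine ⟨fun x => r * F x, continuousOn_const.mul a1, by simp [a2], by simp [a3], fun x hx => ?_⟩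
  exact ((a4 x hx).const_mul r).congr_deriv (by ring)

theorem Good_zero (δ : ℝ) : Good δ (fun _ => 0) 0 :=
  ⟨fun _ => 0, continuousOn_const, rfl, rfl, fun x _ => by simpa using hasDerivAt_const x (0 : ℝ)⟩

theorem Good.sum {δ : ℝ} {ι : Type*} (s : Finset ι) {f : ι → ℝ → ℝ} {v : ι → ℝ}
    (h : ∀ i ∈ s, Good δ (f i) (v i)) : Good δ (fun x => ∑ i ∈ s, f i x) (∑ i ∈ s, v i) := by
  classical
  induction s using Finset.induction_on with
  | empty => simpa using Good_zero δ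
  | insert a s ha ih =>
    have h1 := (h a (mem_insert_self _ _)).add (ih fun i hi => h i (mem_insert_of_mem hi))
    simp only [sum_insert ha]
    exact h1

theorem Good.congr {δ : ℝ} {f g : ℝ → ℝ} {v : ℝ} (hf : Good δ f v)
    (h : ∀ x ∈ Set.Ioo (0 : ℝ) 1, f x = g x) : Good δ g v := by
  obtain ⟨F, a1, a2, a3, a4⟩ := hf
  exact ⟨F, a1, a2, a3, fun x hx => by rw [← h x hx]; exact a4 x hx⟩

theorem Good_pow {δ : ℝ} (hδ : δ < 1) (k : ℕ) (hk : 1 ≤ k) :
    Good δ (fun x => x ^ k) (1 / (k - δ)) := by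
  have hk' : (1 : ℝ) ≤ k := by exact_mod_cast hk
  have hp : 0 < (k : ℝ) - δ := by linarith
  refine ⟨fun x => x ^ ((k : ℝ) - δ) / ((k : ℝ) - δ), ?_, ?_, ?_, fun x hx => ?_⟩
  · exact (continuousOn_id.rpow_const fun x _ => Or.inr hp.le).div_const _
  · simp [Real.zero_rpow hp.ne']
  · simp
  · have h := (Real.hasDerivAt_rpow_const (x := x) (p := (k : ℝ) - δ) (Or.inl hx.1.ne')).div_const
      ((k : ℝ) - δ)
    refine h.congr_deriv ?_
    rw [mul_div_assoc, mul_comm, div_mul_cancel₀ _ hp.ne']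
    have e : (k : ℝ) - δ - 1 = (-1 - δ) + k := by ring
    rw [e, Real.rpow_add hx.1, Real.rpow_natCast]

theorem Good.pos {δ : ℝ} {f : ℝ → ℝ} {v : ℝ} (hf : Good δ f v)
    (h : ∀ x ∈ Set.Ioo (0 : ℝ) 1, 0 < f x) : 0 < v := by
  obtain ⟨F, a1, a2, a3, a4⟩ := hf
  have hm : StrictMonoOn F (Set.Icc 0 1) := by
    refine strictMonoOn_of_deriv_pos (convex_Icc 0 1) a1 fun x hx => ?_
    rw [interior_Icc] at hx
    rw [(a4 x hx).deriv]
    exact mul_pos (Real.rpow_pos_of_pos hx.1 _) (h x hx)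
  have := hm (Set.left_mem_Icc.2 zero_le_one) (Set.right_mem_Icc.2 zero_le_one) zero_lt_one
  rw [a2, a3] at this
  exact this

end

end Crest.Agent.R208.HH
end

-- ▼ part R208/V2c
section

/-!
# The (V2) lemma, part c: conclusion.
-/

namespace Crest.Agent.R208.V2

open Finset PowerSeries

noncomputable section

/-- uniqueness for `q Y' = r q' Y`. -/
theorem ode_unique {q q' Y Z : PowerSeries ℝ} (r : PowerSeries ℝ)
    (hq : constantCoeff q = 1) (hZ : constantCoeff Z = 1) (hY : constantCoeff Y = 1)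
    (h1 : q * (X * d⁄dX ℝ Y) = r * (q' * Y)) (h2 : q * (X * d⁄dX ℝ Z) = r * (q' * Z)) : Y = Z := by
  have hZ0 : Z ≠ 0 := by
    rintro rfl
    simp at hZ
  have hq0 : q ≠ 0 := by
    rintro rfl
    simp at hq
  have hd : d⁄dX ℝ (Y * Z⁻¹) = d⁄dX ℝ (1 : PowerSeries ℝ) := by
    rw [Derivation.leibniz, derivative_inv', smul_eq_mul, smul_eq_mul]
    have hZi : Z * Z⁻¹ = 1 := PowerSeries.mul_inv_cancel Z (by rw [hZ]; norm_num)
    have key : (q * X) * (Y * (-Z⁻¹ ^ 2 * d⁄dX ℝ Z) + Z⁻¹ * d⁄dX ℝ Y) = (q * X) * 0 := by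
      have : (q * X) * (Y * (-Z⁻¹ ^ 2 * d⁄dX ℝ Z) + Z⁻¹ * d⁄dX ℝ Y)
          = Z⁻¹ * (q * (X * d⁄dX ℝ Y)) - Y * Z⁻¹ ^ 2 * (q * (X * d⁄dX ℝ Z)) := by ring
      rw [this, h1, h2]
      have : Y * Z⁻¹ ^ 2 * (r * (q' * Z)) = Y * Z⁻¹ * (Z * Z⁻¹) * (r * q') := by ring
      rw [this, hZi]
      ring
    have := mul_left_cancel₀ (mul_ne_zero hq0 X_ne_zero) key
    rw [this]
    simp
  have hc : constantCoeff (Y * Z⁻¹) = constantCoeff (1 : PowerSeries ℝ) := by
    rw [map_mul, hY, constantCoeff_inv, hZ]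
    simp
  have h := derivative.ext hd hc
  have hZi : Z⁻¹ * Z = 1 := PowerSeries.inv_mul_cancel Z (by rw [hZ]; norm_num)
  calc Y = Y * (Z⁻¹ * Z) := by rw [hZi, mul_one]
    _ = (Y * Z⁻¹) * Z := by ring
    _ = Z := by rw [h, one_mul]

theorem constantCoeff_q (ν : ℝ) : constantCoeff (1 - C ν * X + X ^ 2 : PowerSeries ℝ) = 1 := by
  simp

theorem deriv_q (ν : ℝ) : X * d⁄dX ℝ (1 - C ν * X + X ^ 2 : PowerSeries ℝ)
    = -(C ν * X) + 2 * X ^ 2 := by
  rw [map_add, map_sub, Derivation.leibniz, derivative_C, derivative_X, derivative_pow,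
    derivative_X, derivative_one]
  simp only [smul_eq_mul]
  push_cast
  ring

/-- `W 0 N ^ 2 = q ^ (2N)`. -/
theorem W_sq (ν : ℝ) (k : ℕ) : W ν 0 ((k : ℝ) / 2) ^ 2 = (1 - C ν * X + X ^ 2) ^ k := by
  refine ode_unique (q := 1 - C ν * X + X ^ 2) (q' := -(C ν * X) + 2 * X ^ 2) (C (k : ℝ))
    (constantCoeff_q ν) ?_ ?_ ?_ ?_
  · rw [map_pow, constantCoeff_q, one_pow]
  · rw [map_pow, constantCoeff_W, one_pow]
  · rw [derivative_pow]
    have h := W_ode ν ((k : ℝ) / 2)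
    have h2 : (C ((k : ℝ) / 2) : PowerSeries ℝ) * 2 = C (k : ℝ) := by
      have : (2 : PowerSeries ℝ) = C (2 : ℝ) := by rw [map_ofNat]
      rw [this, ← map_mul]
      congr 1
      ring
    have h3 : (1 - C ν * X + X ^ 2) * (X * (((2 : ℕ) : PowerSeries ℝ) * W ν 0 ((k : ℝ) / 2) ^ (2 - 1)
        * d⁄dX ℝ (W ν 0 ((k : ℝ) / 2))))
        = 2 * W ν 0 ((k : ℝ) / 2) * ((1 - C ν * X + X ^ 2) * (X * d⁄dX ℝ (W ν 0 ((k : ℝ) / 2)))) := by
      push_cast
      ring
    rw [h3, h, ← h2]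
    ring
  · rw [derivative_pow]
    rcases k with _ | k
    · simp
    · have h := deriv_q ν
      have h3 : (1 - C ν * X + X ^ 2) * (X * (((k + 1 : ℕ) : PowerSeries ℝ)
          * (1 - C ν * X + X ^ 2) ^ (k + 1 - 1) * d⁄dX ℝ (1 - C ν * X + X ^ 2 : PowerSeries ℝ)))
          = ((k + 1 : ℕ) : PowerSeries ℝ) * (1 - C ν * X + X ^ 2) ^ (k + 1)
            * (X * d⁄dX ℝ (1 - C ν * X + X ^ 2 : PowerSeries ℝ)) := by
        rw [Nat.add_sub_cancel, pow_succ]
        ring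
      rw [h3, h, map_natCast]
      ring

theorem eq_of_sq_eq {A B : PowerSeries ℝ} (hA : constantCoeff A = 1) (hB : constantCoeff B = 1)
    (h : A ^ 2 = B ^ 2) : A = B := by
  rcases sq_eq_sq_iff_eq_or_eq_neg.1 h with h | h
  · exact h
  · exfalso
    rw [h, map_neg, hB] at hA
    norm_num at hA

theorem constantCoeff_u (ν : ℝ) : constantCoeff (1 - C (2 * ν) * X : PowerSeries ℝ) = 1 := by
  simp

/-- identification of `c = e^g`. -/
theorem c_eq {ν : ℝ} {k : ℕ} {c : PowerSeries ℝ} (hc0 : constantCoeff c = 1)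
    (hc : c ^ 2 * (1 - C (2 * ν) * X) ^ 2 = (1 - C ν * X + X ^ 2) ^ k) :
    c = W ν 1 ((k : ℝ) / 2) := by
  have h1 : c * (1 - C (2 * ν) * X) = W ν 0 ((k : ℝ) / 2) := by
    refine eq_of_sq_eq ?_ (constantCoeff_W _ _ _) ?_
    · rw [map_mul, hc0, constantCoeff_u, one_mul]
    · rw [W_sq, ← hc]
      ring
  have h2 := W_u ν 0 ((k : ℝ) / 2)
  have hu : (1 - C (2 * ν) * X : PowerSeries ℝ) ≠ 0 := by
    intro h
    have := constantCoeff_u ν
    rw [h] at this
    simp at this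
  apply mul_left_cancel₀ hu
  rw [zero_add] at h2
  rw [h2, ← h1]
  ring






end

end Crest.Agent.R208.V2
end

-- ▼ part R208/HHe
section

/-!
# (H1), (H2) exclude all `k ≥ 8` except `(8,2)`, part e: the theorem.
-/

namespace Crest.Agent.R208.HH

open Finset PowerSeries V2

noncomputable section

/-- the integral of the bracket for `i = 1`. -/
def E1 (δ : ℝ) (t : ℕ) : ℝ := (2 * t + 3) * ∑ a ∈ range t,
    bn (3 / 2 + t) (t - (a + 1)) * (-1) ^ (a + 1)
      * ((2 * a + 1) * (1 / ((2 * a + 2 : ℕ) - δ)) + -(2 * a + 3) * (1 / ((2 * a + 3 : ℕ) - δ)))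

theorem br_one_good {δ : ℝ} (hδ : δ < 1) (t : ℕ) : Good δ (fun l => br l t 1) (E1 δ t) := by
  have h : Good δ (fun l => (2 * (t : ℝ) + 3) * ∑ a ∈ range t,
      bn (3 / 2 + t) (t - (a + 1)) * (-1) ^ (a + 1)
        * ((2 * (a : ℝ) + 1) * l ^ (2 * a + 2) + -(2 * (a : ℝ) + 3) * l ^ (2 * a + 3))) (E1 δ t) := by
    refine Good.smul (Good.sum _ fun a _ => Good.smul (Good.add (Good.smul (Good_pow hδ _ ?_) _)
      (Good.smul (Good_pow hδ _ ?_) _)) _) _ <;> omega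
  refine h.congr fun l hl => ?_
  rw [br_one hl.2]
  congr 1
  refine sum_congr rfl fun a _ => ?_
  have e : (-l ^ 2) ^ (a + 1) = (-1) ^ (a + 1) * l ^ (2 * a + 2) := by
    rw [← neg_one_mul, mul_pow, ← pow_mul]
    congr 2
  rw [e]
  ring

theorem E1_nonneg {δ : ℝ} (h0 : 0 ≤ δ) (h1 : δ < 1) (t : ℕ) : 0 ≤ E1 δ t := by
  have e : E1 δ t = (2 * t + 3) * ((1 - δ) / 2 * U (3 / 2) (-(δ / 2)) t
      + δ / 2 * U (3 / 2) ((1 - δ) / 2) t) := by
    unfold E1 U
    congr 1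
    rw [mul_sum, mul_sum, ← sum_add_distrib]
    refine sum_congr rfl fun a _ => ?_
    have ha : (0 : ℝ) ≤ a := Nat.cast_nonneg a
    have n1 : (2 * (a : ℝ) + 2 - δ) ≠ 0 := by
      have : 0 < (2 * (a : ℝ) + 2 - δ) := by linarith
      exact this.ne'
    have n2 : (2 * (a : ℝ) + 3 - δ) ≠ 0 := by
      have : 0 < (2 * (a : ℝ) + 3 - δ) := by linarith
      exact this.ne'
    have e1 : ((a : ℝ) + 1 + -(δ / 2)) = (2 * a + 2 - δ) / 2 := by ring
    have e2 : ((a : ℝ) + 1 + (1 - δ) / 2) = (2 * a + 3 - δ) / 2 := by ring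
    rw [e1, e2, pow_succ]
    push_cast
    have h1' : 2 * (a : ℝ) + 1 = (2 * a + 2 - δ) - (1 - δ) := by ring
    have h3' : (2 * (a : ℝ) + 1) * (1 / (2 * a + 2 - δ)) = 1 - (1 - δ) / (2 * a + 2 - δ) := by
      rw [h1', sub_mul, mul_one_div_cancel n1]
      ring
    have h4' : -(2 * (a : ℝ) + 3) * (1 / (2 * a + 3 - δ)) = -1 - δ / (2 * a + 3 - δ) := by
      linear_combination -(mul_one_div_cancel n2)
    rw [h3', h4', div_div_eq_mul_div, div_div_eq_mul_div]
    ring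
  rw [e]
  have u1 := U_nonneg (σ := 3 / 2) (α := -(δ / 2)) (by norm_num) (by linarith) t
  have u2 := U_nonneg (σ := 3 / 2) (α := (1 - δ) / 2) (by norm_num) (by linarith) t
  have : 0 ≤ 1 - δ := by linarith
  positivity

theorem coeff_W_nonneg {ν : ℝ} (hν : 0 ≤ ν) (n : ℕ) :
    0 ≤ coeff n (W ν 1 (((n : ℝ) + 2) / 2)) := by
  rw [W, coeff_S]
  refine sum_nonneg fun t _ => ?_
  split_ifs with h
  · have hc : ((n - 2 * t : ℕ) : ℝ) = n - 2 * t := by
      rw [Nat.cast_sub h]; push_cast; ring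
    have e1 : ((n : ℝ) + 2) / 2 - t = ((n - 2 * t : ℕ) : ℝ) / 2 + 1 := by rw [hc]; ring
    have e2 : ((n : ℝ) + 2) / 2 = ((n - 2 * t : ℕ) : ℝ) / 2 + 1 + t := by rw [hc]; ring
    have h2 : F 1 (((n : ℝ) + 2) / 2 - t) (n - 2 * t) = gp (n - 2 * t) := by rw [e1]; rfl
    have h3 := bn_pos' (n - 2 * t) t
    rw [← e2] at h3
    have h4 := gp_pos (n - 2 * t)
    rw [h2]
    positivity
  · exact le_rfl

/-- the sum with the series `G`. -/
theorem coeff_mul_rescale (c G : PowerSeries ℝ) (hG : constantCoeff G = 0) (l : ℝ) (n : ℕ) :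
    coeff n (c * rescale l G)
      = ∑ k ∈ range n, coeff (n - (k + 1)) c * coeff (k + 1) G * l ^ (k + 1) := by
  rw [coeff_mul, ← Finset.Nat.sum_antidiagonal_swap]
  rw [Finset.Nat.sum_antidiagonal_eq_sum_range_succ_mk, Finset.sum_range_succ']
  simp only [Prod.swap_prod_mk, coeff_rescale, pow_zero, one_mul]
  rw [show coeff 0 G = 0 from by rw [coeff_zero_eq_constantCoeff_apply]; exact hG]
  rw [mul_zero, add_zero]
  exact sum_congr rfl fun k _ => by ring

section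
variable {n : ℕ} {ν : ℝ} {G : PowerSeries ℝ}

theorem cc_G (hG : G * ((1 - C ν * X + X ^ 2) * (1 - C (2 * ν) * X))
      = C ((n : ℝ) + 2) * (-(C ν * X) + 2 * X ^ 2) * (1 - C (2 * ν) * X)
        + C (2 * ν) * X * (1 - C ν * X + X ^ 2)) : constantCoeff G = 0 := by
  have := congrArg constantCoeff hG
  simpa using this

theorem coeff_one_G (hG : G * ((1 - C ν * X + X ^ 2) * (1 - C (2 * ν) * X))
      = C ((n : ℝ) + 2) * (-(C ν * X) + 2 * X ^ 2) * (1 - C (2 * ν) * X)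
        + C (2 * ν) * X * (1 - C ν * X + X ^ 2)) : coeff 1 G = -((n : ℝ) * ν) := by
  have h0 := cc_G hG
  have h := congrArg (coeff 1) hG
  rw [PowerSeries.coeff_one_mul, h0, map_mul constantCoeff] at h
  have e : C ((n : ℝ) + 2) * (-(C ν * X) + 2 * X ^ 2) * (1 - C (2 * ν) * X)
        + C (2 * ν) * X * (1 - C ν * X + X ^ 2)
      = X * (C ((n : ℝ) + 2) * (-(C ν) + 2 * X) * (1 - C (2 * ν) * X)
        + C (2 * ν) * (1 - C ν * X + X ^ 2)) := by ring
  have e0 : ∀ f : PowerSeries ℝ, coeff 1 (X * f) = constantCoeff f := fun f => by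
    rw [← coeff_zero_eq_constantCoeff_apply]
    exact coeff_succ_X_mul 0 f
  rw [e, e0] at h
  simp at h
  linarith

theorem scaled_G (l : ℝ) (hG : G * ((1 - C ν * X + X ^ 2) * (1 - C (2 * ν) * X))
      = C ((n : ℝ) + 2) * (-(C ν * X) + 2 * X ^ 2) * (1 - C (2 * ν) * X)
        + C (2 * ν) * X * (1 - C ν * X + X ^ 2)) :
    rescale l G * ((1 - C (l * ν) * X + C (l ^ 2) * X ^ 2) * (1 - C (2 * (l * ν)) * X))
      = C (2 * (((n : ℝ) + 2) / 2)) * (-(C (l * ν) * X) + C (2 * l ^ 2) * X ^ 2)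
          * (1 - C (2 * (l * ν)) * X)
        + C (2 * (l * ν)) * X * (1 - C (l * ν) * X + C (l ^ 2) * X ^ 2) := by
  have h := congrArg (rescale l) hG
  have hC : ∀ a : ℝ, rescale l (C a : PowerSeries ℝ) = C a := by
    intro a
    ext t
    rw [coeff_rescale, coeff_C]
    split_ifs with h
    · rw [h]; simp
    · simp
  simp only [map_mul, map_add, map_sub, map_neg, map_pow, map_one, map_ofNat, rescale_X] at h
  have e2 : rescale l (C ν : PowerSeries ℝ) = C ν := hC _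
  have e3 : rescale l (C (n : ℝ) : PowerSeries ℝ) = C (n : ℝ) := hC _
  rw [e2] at h
  have e5 : 2 * (((n : ℝ) + 2) / 2) = n + 2 := by ring
  rw [e5]
  simp only [map_mul, map_add, map_pow, map_ofNat, e3] at h ⊢
  linear_combination h

/-- the two equations are contradictory. -/
theorem key (hn : 1 ≤ n) {κ : ℝ} (hκ : 8 ≤ κ) (h8 : ¬ (κ = 8 ∧ n = 1)) (hν : 0 ≤ ν)
    (hG : G * ((1 - C ν * X + X ^ 2) * (1 - C (2 * ν) * X))
      = C ((n : ℝ) + 2) * (-(C ν * X) + 2 * X ^ 2) * (1 - C (2 * ν) * X)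
        + C (2 * ν) * X * (1 - C ν * X + X ^ 2))
    (hc : coeff n (W ν 1 (((n : ℝ) + 2) / 2)) ≠ 0) :
    (n : ℝ) / 3 * coeff n (W ν 1 (((n : ℝ) + 2) / 2))
      + ∑ k ∈ range n, coeff (n - (k + 1)) (W ν 1 (((n : ℝ) + 2) / 2)) * coeff (k + 1) G
        / (κ * (k + 1) - 2) ≠ 0 := by
  intro heq
  have hcn := coeff_W_nonneg hν n
  have hn' : (1 : ℝ) ≤ n := by exact_mod_cast hn
  have hκ0 : 0 < κ := by linarith
  set δ : ℝ := 2 / κ with hδ
  have hδ0 : 0 ≤ δ := by positivity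
  have hδ1 : δ < 1 := by
    rw [hδ, div_lt_one hκ0]
    linarith
  have hδκ : δ * κ = 2 := by rw [hδ]; field_simp
  -- the equation times `κ`
  have heq2 : κ * ((n : ℝ) / 3) * coeff n (W ν 1 (((n : ℝ) + 2) / 2))
      + ∑ k ∈ range n, coeff (n - (k + 1)) (W ν 1 (((n : ℝ) + 2) / 2)) * coeff (k + 1) G
        * (1 / ((k + 1 : ℕ) - δ)) = 0 := by
    have h := congrArg (fun x => κ * x) heq
    beta_reduce at h
    rw [mul_zero, mul_add, mul_sum] at h
    rw [← h]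
    congr 1
    · ring
    · refine sum_congr rfl fun k _ => ?_
      have hk : (0 : ℝ) ≤ k := Nat.cast_nonneg k
      have n1 : (κ * ((k : ℝ) + 1) - 2) ≠ 0 := by
        have : 0 < κ * ((k : ℝ) + 1) - 2 := by nlinarith
        exact this.ne'
      have n2 : (((k + 1 : ℕ) : ℝ) - δ) ≠ 0 := by
        have : 0 < ((k + 1 : ℕ) : ℝ) - δ := by push_cast; linarith
        exact this.ne'
      have e : κ * (((k + 1 : ℕ) : ℝ) - δ) = κ * ((k : ℝ) + 1) - 2 := by
        push_cast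
        linear_combination -hδκ
      rw [← e]
      field_simp
  have hpre : (2 / (1 - δ) - κ / 3) ≤ 0 := by
    have : 0 < 1 - δ := by linarith
    rw [sub_nonpos, div_le_div_iff₀ this (by norm_num)]
    nlinarith
  rcases Nat.lt_or_ge n 2 with h2 | h2
  · -- `n = 1`
    have hn1 : n = 1 := by omega
    subst hn1
    have hκ8 : 8 < κ := lt_of_le_of_ne hκ fun h => h8 ⟨h.symm, rfl⟩
    have hG1 := coeff_one_G hG
    simp only [sum_range_one, zero_add, Nat.sub_self] at heq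
    rw [hG1, coeff_zero_eq_constantCoeff_apply, constantCoeff_W] at heq
    have hc1 : coeff 1 (W ν 1 ((((1 : ℕ) : ℝ) + 2) / 2)) = ν / 2 := by
      rw [W, coeff_S]
      simp only [sum_range_succ, sum_range_zero]
      have e : (((1 : ℕ) : ℝ) + 2) / 2 - (0 : ℕ) = ((1 : ℕ) : ℝ) / 2 + 1 := by norm_num
      have e2 : F 1 ((((1 : ℕ) : ℝ) + 2) / 2 - (0 : ℕ)) (1 - 2 * 0) = gp 1 := by rw [e]; rfl
      rw [e2, gp_one]
      simp
      ring
    rw [hc1] at heq hc
    have hν0 : ν ≠ 0 := fun h => hc (by rw [h]; norm_num)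
    have n1 : κ * ((0 : ℕ) + 1) - 2 ≠ 0 := by
      have : 0 < κ * (((0 : ℕ) : ℝ) + 1) - 2 := by push_cast; linarith
      exact this.ne'
    have n3 : κ - 2 ≠ 0 := by
      have : 0 < κ - 2 := by linarith
      exact this.ne'
    push_cast at heq
    have e9 : κ * (0 + 1) - 2 = κ - 2 := by ring
    rw [e9] at heq
    field_simp at heq
    have : ν * (κ - 8) = 0 := by linarith
    rcases mul_eq_zero.1 this with h | h
    · exact hν0 h
    · linarith
  · -- `n ≥ 2`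
    set c := W ν 1 (((n : ℝ) + 2) / 2) with hcdef
    have hG0 := cc_G hG
    -- the function `M`
    have hM : Good δ (fun l => 2 * n * coeff n c * l ^ 1
        + ∑ k ∈ range n, coeff (n - (k + 1)) c * coeff (k + 1) G * l ^ (k + 1))
        (2 * n * coeff n c * (1 / ((1 : ℕ) - δ))
        + ∑ k ∈ range n, coeff (n - (k + 1)) c * coeff (k + 1) G * (1 / ((k + 1 : ℕ) - δ))) :=
      (Good.smul (Good_pow hδ1 1 le_rfl) _).add
        (Good.sum _ fun k _ => Good.smul (Good_pow hδ1 (k + 1) (by omega)) _)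
    have hMval : (2 * n * coeff n c * (1 / ((1 : ℕ) - δ))
        + ∑ k ∈ range n, coeff (n - (k + 1)) c * coeff (k + 1) G * (1 / ((k + 1 : ℕ) - δ)))
        = (2 / (1 - δ) - κ / 3) * (n * coeff n c) := by
      have h1δ : 1 - δ ≠ 0 := by linarith
      push_cast at heq2 ⊢
      have e : 2 * n * coeff n c * (1 / (1 - δ)) = 2 / (1 - δ) * (n * coeff n c) := by ring
      rw [e]
      linear_combination heq2
    have hM0 : (2 / (1 - δ) - κ / 3) * (n * coeff n c) ≤ 0 :=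
      mul_nonpos_of_nonpos_of_nonneg hpre (by positivity)
    have hMeq : ∀ l ∈ Set.Ioo (0 : ℝ) 1, (2 * n * coeff n c * l ^ 1
        + ∑ k ∈ range n, coeff (n - (k + 1)) c * coeff (k + 1) G * l ^ (k + 1))
        = ∑ t ∈ range (n + 1), if 2 * t ≤ n then ν ^ (n - 2 * t) * br l t (n - 2 * t) else 0 := by
      intro l hl
      rw [← coeff_main hl.2 ν n (rescale l G) (scaled_G l hG), ← hcdef,
        coeff_mul_rescale c G hG0]
      ring
    have hbr : ∀ l ∈ Set.Ioo (0 : ℝ) 1, ∀ t i : ℕ, i + 2 * t = n → i ≠ 1 → 0 < br l t i := by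
      intro l hl t i hti hi
      rcases i with _ | _ | i
      · exact br_pos_zero hl.1 hl.2 t (by omega)
      · exact absurd rfl hi
      · exact br_pos hl.1 hl.2 i t
    rcases Nat.even_or_odd' n with ⟨r, hr | hr⟩
    · -- `n` even
      have hpos := hM.pos fun l hl => by
        rw [hMeq l hl]
        refine Finset.sum_pos' (fun t _ => ?_) ⟨r, mem_range.2 (by omega), ?_⟩
        · split_ifs with h
          · exact mul_nonneg (pow_nonneg hν _) (hbr l hl t _ (by omega) (by omega)).le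
          · exact le_rfl
        · rw [if_pos (by omega), show n - 2 * r = 0 by omega, pow_zero, one_mul]
          exact hbr l hl r 0 (by omega) (by omega)
      rw [hMval] at hpos
      linarith
    · -- `n` odd
      have hν0 : ν ≠ 0 := by
        rintro rfl
        apply hc
        rw [hcdef, W, coeff_S]
        refine sum_eq_zero fun t _ => ?_
        split_ifs with h
        · rw [zero_pow (by omega : n - 2 * t ≠ 0)]
          ring
        · rfl
      have hν1 : 0 < ν := lt_of_le_of_ne hν (Ne.symm hν0)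
      have hg := (hM.add ((br_one_good hδ1 r).smul (-ν))).pos fun l hl => by
        rw [hMeq l hl]
        have hr' : r ∈ range (n + 1) := mem_range.2 (by omega)
        rw [← Finset.add_sum_erase _ _ hr', if_pos (by omega), show n - 2 * r = 1 by omega, pow_one]
        have : 0 < ∑ t ∈ (range (n + 1)).erase r,
            if 2 * t ≤ n then ν ^ (n - 2 * t) * br l t (n - 2 * t) else 0 := by
          refine Finset.sum_pos' (fun t ht => ?_) ⟨0, mem_erase.2 ⟨by omega, mem_range.2 (by omega)⟩, ?_⟩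
          · have htr := (mem_erase.1 ht).1
            split_ifs with h
            · exact mul_nonneg (pow_nonneg hν _) (hbr l hl t _ (by omega) (by omega)).le
            · exact le_rfl
          · rw [if_pos (by omega)]
            exact mul_pos (pow_pos hν1 _) (hbr l hl 0 _ (by omega) (by omega))
        linarith
      rw [hMval] at hg
      have hE := E1_nonneg hδ0 hδ1 r
      nlinarith

end

end

end Crest.Agent.R208.HH
end

-- ▼ part R208/HHf
section

/-!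
# (H1), (H2) exclude all `k ≥ 8` except `(8,2)`, part f: the theorem in terms of `μ`.
-/

namespace Crest.Agent.R208.HH

open Finset PowerSeries V2

noncomputable section

theorem rescale_C' (l a : ℝ) : rescale l (C a : PowerSeries ℝ) = C a := by
  ext t
  rw [coeff_rescale, coeff_C]
  split_ifs with h
  · rw [h]; simp
  · simp

/-- the two relations combined: `(n/3) c_n + ∑ c_(n-k) π_k k/(κk-2) ≠ 0`. -/
theorem main_eq (n : ℕ) (hn : 1 ≤ n) (κ : ℝ) (hκ : 8 ≤ κ) (h8 : ¬ (κ = 8 ∧ n = 1)) (μ : ℝ)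
    (c P : PowerSeries ℝ) (hc0 : constantCoeff c = 1)
    (hc : c ^ 2 * (1 + C (2 * μ) * X) ^ 2 = (1 + C μ * X + X ^ 2) ^ (n + 2))
    (hP : P * ((1 + C μ * X + X ^ 2) * (1 + C (2 * μ) * X))
      = C ((n : ℝ) + 2) * (C μ * X + 2 * X ^ 2) * (1 + C (2 * μ) * X)
        - C (2 * μ) * X * (1 + C μ * X + X ^ 2))
    (hcn : coeff n c ≠ 0) :
    (n : ℝ) / 3 * coeff n c
      + ∑ k ∈ range n, coeff (n - (k + 1)) c * coeff (k + 1) P / (κ * (k + 1) - 2) ≠ 0 := by
  -- the sign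
  obtain ⟨e, he, hν⟩ : ∃ e : ℝ, e * e = 1 ∧ 0 ≤ -(e * μ) := by
    rcases le_total μ 0 with h | h
    · exact ⟨1, by norm_num, by linarith⟩
    · exact ⟨-1, by norm_num, by linarith⟩
  have he2 : (C e : PowerSeries ℝ) * C e = 1 := by rw [← map_mul, he, map_one]
  set ν : ℝ := -(e * μ) with hνdef
  have hcν : (C ν : PowerSeries ℝ) = -(C e * C μ) := by rw [hνdef, map_neg, map_mul]
  have hcν2 : (C (2 * ν) : PowerSeries ℝ) = -(2 * (C e * C μ)) := by
    rw [map_mul, hcν, map_ofNat]; ring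
  have hX2 : (C e * X : PowerSeries ℝ) ^ 2 = X ^ 2 := by
    rw [mul_pow, pow_two, he2, one_mul]
  -- the rescaled series
  have hc' : (rescale e c) ^ 2 * (1 - C (2 * ν) * X) ^ 2 = (1 - C ν * X + X ^ 2) ^ (n + 2) := by
    have h := congrArg (rescale e) hc
    simp only [map_mul, map_add, map_pow, map_one, rescale_X, rescale_C', hX2, map_ofNat] at h
    rw [hcν, hcν2]
    have e1 : (1 : PowerSeries ℝ) - -(2 * (C e * C μ)) * X = 1 + 2 * C μ * (C e * X) := by ring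
    have e2 : (1 : PowerSeries ℝ) - -(C e * C μ) * X + X ^ 2 = 1 + C μ * (C e * X) + X ^ 2 := by ring
    rw [e1, e2]
    exact h
  have hP' : rescale e P * ((1 - C ν * X + X ^ 2) * (1 - C (2 * ν) * X))
      = C ((n : ℝ) + 2) * (-(C ν * X) + 2 * X ^ 2) * (1 - C (2 * ν) * X)
        + C (2 * ν) * X * (1 - C ν * X + X ^ 2) := by
    have h := congrArg (rescale e) hP
    have h3 : rescale e (C (n : ℝ) : PowerSeries ℝ) = C (n : ℝ) := rescale_C' _ _
    have h4 : rescale e (C μ : PowerSeries ℝ) = C μ := rescale_C' _ _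
    simp only [map_mul, map_add, map_sub, map_pow, map_one, rescale_X, map_ofNat, hX2] at h
    rw [h3, h4] at h
    rw [hcν, hcν2]
    simp only [map_add, map_ofNat]
    linear_combination h
  have hc0' : constantCoeff (rescale e c) = 1 := by
    rw [← coeff_zero_eq_constantCoeff_apply, coeff_rescale, pow_zero, one_mul,
      coeff_zero_eq_constantCoeff_apply, hc0]
  have hW := c_eq hc0' hc'
  have e5 : (((n + 2 : ℕ) : ℝ)) / 2 = ((n : ℝ) + 2) / 2 := by push_cast; ring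
  rw [e5] at hW
  have he0 : e ≠ 0 := by
    rintro rfl
    simp at he
  have hcn' : coeff n (W ν 1 (((n : ℝ) + 2) / 2)) ≠ 0 := by
    rw [← hW, coeff_rescale]
    exact mul_ne_zero (pow_ne_zero _ he0) hcn
  have hk := key hn hκ h8 hν hP' hcn'
  intro heq
  apply hk
  rw [← hW]
  have : (n : ℝ) / 3 * coeff n (rescale e c)
      + ∑ k ∈ range n, coeff (n - (k + 1)) (rescale e c) * coeff (k + 1) (rescale e P)
        / (κ * (k + 1) - 2)
      = e ^ n * ((n : ℝ) / 3 * coeff n c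
      + ∑ k ∈ range n, coeff (n - (k + 1)) c * coeff (k + 1) P / (κ * (k + 1) - 2)) := by
    rw [mul_add, mul_sum, coeff_rescale]
    congr 1
    · ring
    · refine sum_congr rfl fun k hk => ?_
      have hk' : k < n := mem_range.1 hk
      have e1 : e ^ n = e ^ (n - (k + 1)) * e ^ (k + 1) := by
        rw [← pow_add]; congr 1; omega
      rw [coeff_rescale, coeff_rescale, e1]
      ring
  rw [this, heq, mul_zero]

/-- **(H1) and (H2) are contradictory for all `k ≥ 8` except `(k,m) = (8,2)`.** Here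
`c = c₀ = (1+μX+X²)^((m+1)/2)/(1+2μX)`, `P = θ log P_M`, `P_M = (1+μX+X²)^(m+1)/(1+2μX)`, and
`D = -∑ i π_i X^(i-1)/(κ i - 2)`. -/
theorem main (m : ℕ) (hm : 2 ≤ m) (κ : ℝ) (hκ : 8 ≤ κ) (h82 : ¬ (κ = 8 ∧ m = 2)) (μ ε : ℝ)
    (hε : ε ≠ 0) (c P D : PowerSeries ℝ) (hc0 : constantCoeff c = 1)
    (hc : c ^ 2 * (1 + C (2 * μ) * X) ^ 2 = (1 + C μ * X + X ^ 2) ^ (m + 1))
    (hP : P * ((1 + C μ * X + X ^ 2) * (1 + C (2 * μ) * X))
      = C ((m : ℝ) + 1) * (C μ * X + 2 * X ^ 2) * (1 + C (2 * μ) * X)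
        - C (2 * μ) * X * (1 + C μ * X + X ^ 2))
    (hD : ∀ i : ℕ, (κ * (i + 1) - 2) * coeff i D = -coeff (i + 1) P)
    (H1 : coeff (m - 1) c = ε * (m + 1).choose 2)
    (H2 : coeff (m - 2) (c * D) = ε * (m + 1).choose 3) : False := by
  obtain ⟨n, rfl⟩ : ∃ n, m = n + 2 := ⟨m - 2, by omega⟩
  have e1 : n + 2 - 1 = n + 1 := by omega
  have e2 : n + 2 - 2 = n := by omega
  rw [e1] at H1
  rw [e2] at H2
  have hch : 3 * (((n + 2 + 1).choose 3 : ℕ) : ℝ) = ((n + 1 : ℕ) : ℝ) * ((n + 2 + 1).choose 2 : ℕ) := by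
    have h := Nat.choose_succ_right_eq (n + 2 + 1) 2
    have e3 : n + 2 + 1 - 2 = n + 1 := by omega
    rw [e3] at h
    have h2 : ((n + 2 + 1).choose 3 : ℝ) * 3 = (n + 2 + 1).choose 2 * (n + 1 : ℕ) := by
      exact_mod_cast h
    linarith
  have hcn : coeff (n + 1) c ≠ 0 := by
    rw [H1]
    refine mul_ne_zero hε ?_
    have : 0 < (n + 2 + 1).choose 2 := Nat.choose_pos (by omega)
    positivity
  have hP' : P * ((1 + C μ * X + X ^ 2) * (1 + C (2 * μ) * X))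
      = C (((n + 1 : ℕ) : ℝ) + 2) * (C μ * X + 2 * X ^ 2) * (1 + C (2 * μ) * X)
        - C (2 * μ) * X * (1 + C μ * X + X ^ 2) := by
    rw [hP]
    have : (((n + 2 : ℕ) : ℝ)) + 1 = ((n + 1 : ℕ) : ℝ) + 2 := by push_cast; ring
    rw [this]
  refine main_eq (n + 1) (by omega) κ hκ (fun h => h82 ⟨h.1, by omega⟩) μ c P hc0 hc hP' hcn ?_
  have h3 : coeff n (c * D) = -∑ k ∈ range (n + 1), coeff (n + 1 - (k + 1)) c * coeff (k + 1) P
      / (κ * (k + 1) - 2) := by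
    rw [coeff_mul, ← Finset.Nat.sum_antidiagonal_swap,
      Finset.Nat.sum_antidiagonal_eq_sum_range_succ_mk, ← sum_neg_distrib]
    refine sum_congr rfl fun k _ => ?_
    simp only [Prod.swap_prod_mk]
    have hk : (0 : ℝ) ≤ k := Nat.cast_nonneg k
    have n1 : (κ * ((k : ℝ) + 1) - 2) ≠ 0 := by
      have : 0 < κ * ((k : ℝ) + 1) - 2 := by nlinarith
      exact this.ne'
    have h4 : coeff k D = -coeff (k + 1) P / (κ * (k + 1) - 2) := by
      rw [eq_div_iff n1, ← hD k]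
      ring
    have e4 : n + 1 - (k + 1) = n - k := by omega
    rw [h4, e4]
    ring
  rw [h3] at H2
  rw [H1]
  have : ∑ k ∈ range (n + 1), coeff (n + 1 - (k + 1)) c * coeff (k + 1) P / (κ * (k + 1) - 2)
      = -(ε * (n + 2 + 1).choose 3) := by linarith
  rw [this]
  linear_combination -(ε / 3) * hch

end

end Crest.Agent.R208.HH
end

-- ▼ part R208/HHg
section

/-!
# (H1), (H2) with `P_M = (1 + e X²)^(m+1)`: the case `k = 2 mod 4`, `k ≥ 6` (any real `κ > 2/…`).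
-/

namespace Crest.Agent.R208.HH

open Finset PowerSeries V2

noncomputable section

theorem sum_range_two (f : ℕ → ℝ) (s : ℕ) :
    ∑ k ∈ range (2 * s), f k = ∑ j ∈ range s, (f (2 * j) + f (2 * j + 1)) := by
  induction s with
  | zero => simp
  | succ s ih =>
    rw [show 2 * (s + 1) = 2 * s + 1 + 1 by ring, sum_range_succ, sum_range_succ, ih,
      sum_range_succ]
    ring

theorem coeff_X_sq_mul' (f : PowerSeries ℝ) (n : ℕ) : coeff (n + 2) (X ^ 2 * f) = coeff n f := by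
  rw [pow_two, mul_assoc, coeff_succ_X_mul, coeff_succ_X_mul]

theorem bn_natCast (k j : ℕ) : bn (k : ℝ) j = (k.choose j : ℝ) := by
  induction j with
  | zero => simp
  | succ j ih =>
    rw [bn_succ, ih]
    have h := Nat.choose_succ_right_eq k j
    have hj : ((j : ℝ) + 1) ≠ 0 := by positivity
    rcases le_or_gt j k with h1 | h1
    · have h2 : ((k.choose (j + 1) : ℕ) : ℝ) * ((j + 1 : ℕ) : ℝ)
          = (k.choose j : ℝ) * ((k - j : ℕ) : ℝ) := by exact_mod_cast h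
      rw [Nat.cast_sub h1] at h2
      rw [div_eq_iff hj]
      push_cast at h2
      linarith
    · rw [Nat.choose_eq_zero_of_lt h1, Nat.choose_eq_zero_of_lt (by omega)]
      simp

/-- coefficients of `(1 + e X²)^k`. -/
theorem coeff_pow_even (e : ℝ) (k : ℕ) : ∀ j : ℕ,
    coeff (2 * j) ((1 + C e * X ^ 2 : PowerSeries ℝ) ^ k) = bn (k : ℝ) j * e ^ j := by
  induction k with
  | zero =>
    intro j
    rw [pow_zero, coeff_one, bn_natCast]
    rcases j with _ | j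
    · simp
    · rw [if_neg (by omega)]
      simp
  | succ k ih =>
    intro j
    have h : (1 + C e * X ^ 2 : PowerSeries ℝ) ^ (k + 1)
        = (1 + C e * X ^ 2) ^ k + C e * (X ^ 2 * (1 + C e * X ^ 2) ^ k) := by ring
    rw [h, map_add, coeff_C_mul, ih]
    rcases j with _ | j
    · simp [pow_two, mul_assoc]
    · rw [show 2 * (j + 1) = 2 * j + 2 by ring, coeff_X_sq_mul', ih]
      have h2 := bn_pascal (k : ℝ) j
      push_cast
      rw [h2]
      ring

/-- **(H1) and (H2) are contradictory for `P_M = (1 + e X²)^(m+1)`, every `m ≥ 2`, `κ > 2`**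
(the case `k = 2 mod 4`, `k ≥ 6`, is `e = -1`, `κ = k`). -/
theorem main_two (m : ℕ) (hm : 2 ≤ m) (κ : ℝ) (hκ : 2 < κ) (e ε : ℝ) (he : e ≠ 0)
    (hε : ε ≠ 0) (c P D : PowerSeries ℝ) (hc0 : constantCoeff c = 1)
    (hc : c ^ 2 = (1 + C e * X ^ 2) ^ (m + 1))
    (hP : P * (1 + C e * X ^ 2) = C (2 * e * ((m : ℝ) + 1)) * X ^ 2)
    (hD : ∀ i : ℕ, (κ * (i + 1) - 2) * coeff i D = -coeff (i + 1) P)
    (H1 : coeff (m - 1) c = ε * (m + 1).choose 2)
    (H2 : coeff (m - 2) (c * D) = ε * (m + 1).choose 3) : False := by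
  have hch0 : ((m + 1).choose 2 : ℝ) ≠ 0 := by
    have : 0 < (m + 1).choose 2 := Nat.choose_pos (by omega)
    positivity
  rcases Nat.even_or_odd' m with ⟨r, hr | hr⟩
  · -- `m` even: `c` is even
    have h1 : rescale (-1) c = c := by
      refine eq_of_sq_eq ?_ ?_ ?_
      · rw [← coeff_zero_eq_constantCoeff_apply, coeff_rescale, pow_zero, one_mul,
          coeff_zero_eq_constantCoeff_apply, hc0]
      · exact hc0
      · have h := congrArg (rescale (-1)) hc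
        simp only [map_mul, map_add, map_pow, map_one, rescale_X, rescale_C'] at h
        rw [hc, h]
        congr 3
        rw [mul_pow, ← map_pow]
        norm_num
    have h2 := congrArg (coeff (m - 1)) h1
    rw [coeff_rescale, Odd.neg_one_pow (⟨r - 1, by omega⟩ : Odd (m - 1)), H1] at h2
    have h3 : ε * ((m + 1).choose 2 : ℝ) = 0 := by linarith
    rcases mul_eq_zero.1 h3 with h | h
    · exact hε h
    · exact hch0 h
  · -- `m = 2r+1`
    have hr1 : 1 ≤ r := by omega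
    have hcc : c = (1 + C e * X ^ 2) ^ (r + 1) := by
      refine eq_of_sq_eq hc0 ?_ ?_
      · simp
      · rw [hc, hr, ← pow_mul]
        congr 1
        ring
    have hPc : ∀ j : ℕ, coeff (2 * j + 1) P = 0 ∧ coeff (2 * j + 2) P
        = 2 * e * ((m : ℝ) + 1) * (-e) ^ j := by
      have hP' : P + C e * (X ^ 2 * P) = C (2 * e * ((m : ℝ) + 1)) * X ^ 2 := by
        rw [← hP]; ring
      intro j
      induction j with
      | zero =>
        have a0 : coeff 0 P = 0 := by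
          have h := congrArg (coeff 0) hP'
          rw [map_add, coeff_C_mul, coeff_C_mul] at h
          simpa [pow_two, mul_assoc] using h
        constructor
        · have h := congrArg (coeff 1) hP'
          rw [map_add, coeff_C_mul, coeff_C_mul, coeff_X_pow, if_neg (by norm_num)] at h
          have e1 : coeff 1 (X ^ 2 * P) = 0 := by
            rw [pow_two, mul_assoc]
            have := coeff_succ_X_mul 0 (X * P)
            rw [zero_add] at this
            rw [this, coeff_zero_X_mul]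
          rw [e1] at h
          simpa using h
        · have h := congrArg (coeff (0 + 2)) hP'
          rw [map_add, coeff_C_mul, coeff_C_mul, coeff_X_pow, if_pos rfl, coeff_X_sq_mul', a0] at h
          simpa using h
      | succ j ih =>
        constructor
        · have h := congrArg (coeff (2 * j + 1 + 2)) hP'
          rw [map_add, coeff_C_mul, coeff_C_mul, coeff_X_pow, if_neg (by omega), coeff_X_sq_mul',
            ih.1] at h
          have e1 : 2 * (j + 1) + 1 = 2 * j + 1 + 2 := by ring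
          rw [e1]
          simpa using h
        · have h := congrArg (coeff (2 * j + 2 + 2)) hP'
          rw [map_add, coeff_C_mul, coeff_C_mul, coeff_X_pow, if_neg (by omega), coeff_X_sq_mul',
            ih.2] at h
          have e1 : 2 * (j + 1) + 2 = 2 * j + 2 + 2 := by ring
          rw [e1, pow_succ]
          linarith
    -- `H2`
    have h3 : coeff (m - 2) (c * D) = -∑ k ∈ range (2 * r), coeff (2 * r - (k + 1)) c
        * coeff (k + 1) P / (κ * (k + 1) - 2) := by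
      rw [coeff_mul, ← Finset.Nat.sum_antidiagonal_swap,
        Finset.Nat.sum_antidiagonal_eq_sum_range_succ_mk, ← sum_neg_distrib]
      have e0 : (m - 2).succ = 2 * r := by omega
      rw [e0]
      refine sum_congr rfl fun k _ => ?_
      simp only [Prod.swap_prod_mk]
      have hk : (0 : ℝ) ≤ k := Nat.cast_nonneg k
      have n1 : (κ * ((k : ℝ) + 1) - 2) ≠ 0 := by
        have : 0 < κ * ((k : ℝ) + 1) - 2 := by nlinarith
        exact this.ne'
      have h4 : coeff k D = -coeff (k + 1) P / (κ * (k + 1) - 2) := by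
        rw [eq_div_iff n1, ← hD k]
        ring
      have e4 : 2 * r - (k + 1) = m - 2 - k := by omega
      rw [h4, e4]
      ring
    rw [sum_range_two] at h3
    have h5 : ∑ j ∈ range r, (coeff (2 * r - (2 * j + 1)) c * coeff (2 * j + 1) P
          / (κ * ((2 * j : ℕ) + 1) - 2)
        + coeff (2 * r - (2 * j + 1 + 1)) c * coeff (2 * j + 1 + 1) P
          / (κ * ((2 * j + 1 : ℕ) + 1) - 2))
        = e ^ r * ((m : ℝ) + 1) / κ * U 1 (-(1 / κ)) r := by
      unfold U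
      rw [mul_sum]
      refine sum_congr rfl fun j hj => ?_
      have hj' : j < r := mem_range.1 hj
      have e6 : 2 * r - (2 * j + 1 + 1) = 2 * (r - (j + 1)) := by omega
      have e7 : e ^ r = e ^ (r - (j + 1)) * e ^ (j + 1) := by
        rw [← pow_add]; congr 1; omega
      rw [(hPc j).1, show 2 * j + 1 + 1 = 2 * j + 2 from rfl, (hPc j).2,
        show 2 * r - (2 * j + 2) = 2 * (r - (j + 1)) by omega, hcc, coeff_pow_even, e7]
      have e8 : ((r + 1 : ℕ) : ℝ) = 1 + r := by push_cast; ring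
      rw [e8]
      have hj0 : (0 : ℝ) ≤ j := Nat.cast_nonneg j
      have hκ0 : κ ≠ 0 := by linarith
      have n2 : κ * ((j : ℝ) + 1) - 1 ≠ 0 := by
        have : 0 < κ * ((j : ℝ) + 1) - 1 := by nlinarith
        exact this.ne'
      have e9 : (j : ℝ) + 1 + -(1 / κ) = (κ * ((j : ℝ) + 1) - 1) / κ := by
        field_simp
        ring
      have e10 : κ * (((2 * j + 1 : ℕ) : ℝ) + 1) - 2 = 2 * (κ * ((j : ℝ) + 1) - 1) := by
        push_cast
        ring
      have e11 : (-e) ^ j = (-1) ^ j * e ^ j := by rw [neg_pow]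
      rw [e9, e10, e11, pow_succ]
      field_simp
      ring
    rw [h5] at h3
    have hch : 3 * (((m + 1).choose 3 : ℕ) : ℝ) = (2 * r : ℝ) * ((m + 1).choose 2 : ℕ) := by
      have h := Nat.choose_succ_right_eq (m + 1) 2
      have e3 : m + 1 - 2 = 2 * r := by omega
      rw [e3] at h
      have h2 : ((m + 1).choose 3 : ℝ) * 3 = (m + 1).choose 2 * (2 * r : ℕ) := by
        exact_mod_cast h
      push_cast at h2
      linarith
    have hcn : coeff (m - 1) c = (r + 1) * e ^ r := by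
      rw [show m - 1 = 2 * r by omega, hcc, coeff_pow_even, bn_natCast,
        Nat.choose_succ_self_right]
      push_cast
      ring
    have h6 : ε * ((m + 1).choose 3 : ℝ) = -(e ^ r * ((m : ℝ) + 1) / κ * U 1 (-(1 / κ)) r) := by
      rw [← H2, h3]
    have h7 : ε * ((m + 1).choose 2 : ℝ) = (r + 1) * e ^ r := by rw [← H1, hcn]
    have hU : 0 ≤ U 1 (-(1 / κ)) r := by
      refine U_nonneg (by norm_num) ?_ r
      have : 1 / κ < 1 := by
        rw [div_lt_one (by linarith)]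
        linarith
      linarith
    have h8 : e ^ r * ((2 * r : ℝ) * (r + 1) + 3 * (((m : ℝ) + 1) / κ * U 1 (-(1 / κ)) r)) = 0 := by
      have : e ^ r * (3 * (((m : ℝ) + 1) / κ * U 1 (-(1 / κ)) r))
          = -(3 * (ε * ((m + 1).choose 3 : ℝ))) := by
        rw [h6]; ring
      rw [mul_add, this]
      have h9 : 3 * (ε * ((m + 1).choose 3 : ℝ)) = ε * (3 * ((m + 1).choose 3 : ℝ)) := by ring
      rw [h9, hch]
      linear_combination -(2 * (r : ℝ)) * h7
    have h10 : (0 : ℝ) < (2 * r : ℝ) * (r + 1) + 3 * (((m : ℝ) + 1) / κ * U 1 (-(1 / κ)) r) := by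
      have hr' : (1 : ℝ) ≤ r := by exact_mod_cast hr1
      have : 0 < κ := by linarith
      positivity
    rcases mul_eq_zero.1 h8 with h | h
    · exact pow_ne_zero _ he h
    · exact h10.ne' h

end

end Crest.Agent.R208.HH
end

-- ▼ part R208/HHh
section

/-!
# (H1), (H2): the versions over `ℂ` (with real `μ`, complex `ε`).
-/

namespace Crest.Agent.R208.HH

open Finset PowerSeries V2

noncomputable section

theorem eq_of_sq_eq' {A B : PowerSeries ℂ} (hA : constantCoeff A = 1) (hB : constantCoeff B = 1)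
    (h : A ^ 2 = B ^ 2) : A = B := by
  rcases sq_eq_sq_iff_eq_or_eq_neg.1 h with h | h
  · exact h
  · exfalso
    rw [h, map_neg, hB] at hA
    norm_num at hA

theorem ne_zero_of_cc' {f : PowerSeries ℂ} (h : constantCoeff f = 1) : f ≠ 0 := by
  rintro rfl
  simp at h

/-- real series as complex series. -/
abbrev cx : PowerSeries ℝ →+* PowerSeries ℂ := PowerSeries.map Complex.ofRealHom

theorem coeff_cx (f : PowerSeries ℝ) (n : ℕ) : coeff n (cx f) = ((coeff n f : ℝ) : ℂ) := by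
  rw [cx, PowerSeries.coeff_map]
  rfl

theorem cx_C (a : ℝ) : cx (C a) = C (a : ℂ) := by
  rw [cx, PowerSeries.map_C]
  rfl

theorem cx_X : cx X = X := PowerSeries.map_X _

/-- the common part: everything is determined, hence real. -/
theorem real_data (m n : ℕ) (hm : m + 1 = n + 2) (κ : ℝ) (hκ : 2 < κ) (ε : ℂ) (c P D : PowerSeries ℂ)
    (c' P' : PowerSeries ℝ) (hc : c = cx c') (hP : P = cx P')
    (hD : ∀ i : ℕ, ((κ : ℂ) * (i + 1) - 2) * coeff i D = -coeff (i + 1) P)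
    (hε : ε ≠ 0)
    (H1 : coeff (m - 1) c = ε * (m + 1).choose 2)
    (H2 : coeff (m - 2) (c * D) = ε * (m + 1).choose 3) :
    ∃ (ε' : ℝ) (D' : PowerSeries ℝ), ε' ≠ 0 ∧
      (∀ i : ℕ, (κ * (i + 1) - 2) * coeff i D' = -coeff (i + 1) P') ∧
      coeff (m - 1) c' = ε' * (m + 1).choose 2 ∧
      coeff (m - 2) (c' * D') = ε' * (m + 1).choose 3 := by
  have hch : 0 < (m + 1).choose 2 := Nat.choose_pos (by omega)
  have hch' : (((m + 1).choose 2 : ℕ) : ℝ) ≠ 0 := by positivity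
  have hch'' : (((m + 1).choose 2 : ℕ) : ℂ) ≠ 0 := by exact_mod_cast hch.ne'
  have hk : ∀ i : ℕ, κ * ((i : ℝ) + 1) - 2 ≠ 0 := by
    intro i
    have hi : (0 : ℝ) ≤ i := Nat.cast_nonneg i
    have : 0 < κ * ((i : ℝ) + 1) - 2 := by nlinarith
    exact this.ne'
  set D' : PowerSeries ℝ := PowerSeries.mk fun i => -coeff (i + 1) P' / (κ * (i + 1) - 2) with hD'
  have hDD : D = cx D' := by
    ext i
    have h := hD i
    have hki : ((κ : ℂ) * (i + 1) - 2) ≠ 0 := by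
      have := hk i
      exact_mod_cast this
    rw [coeff_cx, hD', coeff_mk]
    apply mul_left_cancel₀ hki
    rw [h, hP, coeff_cx]
    push_cast
    rw [mul_div_cancel₀ _ hki]
  set ε' : ℝ := coeff (m - 1) c' / (m + 1).choose 2 with hε'
  have hεε : ε = (ε' : ℂ) := by
    rw [hc, coeff_cx] at H1
    rw [hε']
    push_cast
    rw [H1, mul_div_cancel_right₀ _ hch'']
  refine ⟨ε', D', ?_, ?_, ?_, ?_⟩
  · rintro h
    apply hε
    rw [hεε, h, Complex.ofReal_zero]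
  · intro i
    rw [hD', coeff_mk, mul_div_cancel₀ _ (hk i)]
  · rw [hε', div_mul_cancel₀ _ hch']
  · rw [hc, hDD, ← map_mul, coeff_cx, hεε] at H2
    exact_mod_cast H2

/-- **complex version of `main`.** -/
theorem main_complex (m : ℕ) (hm : 2 ≤ m) (κ : ℝ) (hκ : 8 ≤ κ) (h82 : ¬ (κ = 8 ∧ m = 2)) (μ : ℝ)
    (ε : ℂ) (hε : ε ≠ 0) (c P D : PowerSeries ℂ) (hc0 : constantCoeff c = 1)
    (hc : c ^ 2 * (1 + C (2 * (μ : ℂ)) * X) ^ 2 = (1 + C (μ : ℂ) * X + X ^ 2) ^ (m + 1))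
    (hP : P * ((1 + C (μ : ℂ) * X + X ^ 2) * (1 + C (2 * (μ : ℂ)) * X))
      = C ((m : ℂ) + 1) * (C (μ : ℂ) * X + 2 * X ^ 2) * (1 + C (2 * (μ : ℂ)) * X)
        - C (2 * (μ : ℂ)) * X * (1 + C (μ : ℂ) * X + X ^ 2))
    (hD : ∀ i : ℕ, ((κ : ℂ) * (i + 1) - 2) * coeff i D = -coeff (i + 1) P)
    (H1 : coeff (m - 1) c = ε * (m + 1).choose 2)
    (H2 : coeff (m - 2) (c * D) = ε * (m + 1).choose 3) : False := by
  -- the real `c`
  set c' : PowerSeries ℝ := W (-μ) 1 (((m + 1 : ℕ) : ℝ) / 2) with hc'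
  have e1 : (C (2 * -μ) : PowerSeries ℝ) = -C (2 * μ) := by
    rw [← map_neg]; congr 1; ring
  have hc'1 : c' ^ 2 * (1 + C (2 * μ) * X) ^ 2 = (1 + C μ * X + X ^ 2) ^ (m + 1) := by
    have h1 := W_u (-μ) 0 (((m + 1 : ℕ) : ℝ) / 2)
    have h2 := W_sq (-μ) (m + 1)
    rw [zero_add] at h1
    rw [← h1, e1] at h2
    rw [map_neg] at h2
    have e2 : (1 + C μ * X + X ^ 2 : PowerSeries ℝ) = 1 - -C μ * X + X ^ 2 := by ring
    rw [e2, ← h2]
    ring
  have hc'0 : constantCoeff c' = 1 := constantCoeff_W _ _ _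
  have hu : constantCoeff (1 + C (2 * (μ : ℂ)) * X : PowerSeries ℂ) = 1 := by simp
  have hcc : c = cx c' := by
    have h1 := congrArg cx hc'1
    simp only [map_mul, map_add, map_pow, map_one, cx_C, cx_X] at h1
    have e3 : (C (2 : ℂ) : PowerSeries ℂ) = 2 := by rw [map_ofNat]
    have h2 : (c * (1 + C (2 * (μ : ℂ)) * X)) = (cx c' * (1 + C (2 * (μ : ℂ)) * X)) := by
      refine eq_of_sq_eq' ?_ ?_ ?_
      · rw [map_mul, hc0, hu, one_mul]
      · rw [map_mul, hu, mul_one]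
        have : constantCoeff (cx c') = ((constantCoeff c' : ℝ) : ℂ) := by
          rw [← coeff_zero_eq_constantCoeff_apply, coeff_cx, coeff_zero_eq_constantCoeff_apply]
        rw [this, hc'0, Complex.ofReal_one]
      · rw [mul_pow, hc, mul_pow, map_mul]
        rw [← h1]
        simp
    exact mul_right_cancel₀ (ne_zero_of_cc' hu) h2
  -- the real `P`
  have hq0 : constantCoeff ((1 + C μ * X + X ^ 2) * (1 + C (2 * μ) * X) : PowerSeries ℝ) = 1 := by simp
  set P' : PowerSeries ℝ := (C ((m : ℝ) + 1) * (C μ * X + 2 * X ^ 2) * (1 + C (2 * μ) * X)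
        - C (2 * μ) * X * (1 + C μ * X + X ^ 2)) * ((1 + C μ * X + X ^ 2) * (1 + C (2 * μ) * X))⁻¹
    with hP'
  have hP'1 : P' * ((1 + C μ * X + X ^ 2) * (1 + C (2 * μ) * X))
      = C ((m : ℝ) + 1) * (C μ * X + 2 * X ^ 2) * (1 + C (2 * μ) * X)
        - C (2 * μ) * X * (1 + C μ * X + X ^ 2) := by
    rw [hP', mul_assoc, PowerSeries.inv_mul_cancel _ (by rw [hq0]; exact one_ne_zero), mul_one]
  have hPP : P = cx P' := by
    have h1 := congrArg cx hP'1
    have hq : constantCoeff ((1 + C (μ : ℂ) * X + X ^ 2) * (1 + C (2 * (μ : ℂ)) * X) : PowerSeries ℂ)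
        = 1 := by simp
    apply mul_right_cancel₀ (ne_zero_of_cc' hq)
    rw [hP]
    simp only [map_mul, map_add, map_sub, map_pow, map_one, cx_C, cx_X, map_ofNat,
      Complex.ofReal_natCast] at h1 ⊢
    rw [h1]
  obtain ⟨ε', D', h1, h2, h3, h4⟩ := real_data m (m - 1) (by omega) κ (by linarith) ε c P D c' P'
    hcc hPP hD hε H1 H2
  exact main m hm κ hκ h82 μ ε' h1 c' P' D' hc'0 hc'1 hP'1 h2 h3 h4

/-- **complex version of `main_two`** (real `e`, e.g. `e = -1`). -/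
theorem main_two_complex (m : ℕ) (hm : 2 ≤ m) (κ : ℝ) (hκ : 2 < κ) (e : ℝ) (he : e ≠ 0) (ε : ℂ)
    (hε : ε ≠ 0) (c P D : PowerSeries ℂ) (hc0 : constantCoeff c = 1)
    (hc : c ^ 2 = (1 + C (e : ℂ) * X ^ 2) ^ (m + 1))
    (hP : P * (1 + C (e : ℂ) * X ^ 2) = C (2 * (e : ℂ) * ((m : ℂ) + 1)) * X ^ 2)
    (hD : ∀ i : ℕ, ((κ : ℂ) * (i + 1) - 2) * coeff i D = -coeff (i + 1) P)
    (H1 : coeff (m - 1) c = ε * (m + 1).choose 2)
    (H2 : coeff (m - 2) (c * D) = ε * (m + 1).choose 3) : False := by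
  -- the real `P`
  have hq0 : constantCoeff (1 + C e * X ^ 2 : PowerSeries ℝ) = 1 := by simp
  set P' : PowerSeries ℝ := (C (2 * e * ((m : ℝ) + 1)) * X ^ 2) * (1 + C e * X ^ 2)⁻¹ with hP'
  have hP'1 : P' * (1 + C e * X ^ 2) = C (2 * e * ((m : ℝ) + 1)) * X ^ 2 := by
    rw [hP', mul_assoc, PowerSeries.inv_mul_cancel _ (by rw [hq0]; exact one_ne_zero), mul_one]
  have hPP : P = cx P' := by
    have h1 := congrArg cx hP'1
    have hq : constantCoeff (1 + C (e : ℂ) * X ^ 2 : PowerSeries ℂ) = 1 := by simp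
    apply mul_right_cancel₀ (ne_zero_of_cc' hq)
    rw [hP]
    simp only [map_mul, map_add, map_pow, map_one, cx_C, cx_X, map_ofNat,
      Complex.ofReal_natCast] at h1 ⊢
    rw [h1]
  -- the real `c`
  have hcc : ∃ c' : PowerSeries ℝ, constantCoeff c' = 1 ∧ c' ^ 2 = (1 + C e * X ^ 2) ^ (m + 1) ∧
      c = cx c' := by
    set st : PowerSeries ℂ →+* PowerSeries ℂ := PowerSeries.map (starRingEnd ℂ) with hst
    have hstc : st c = c := by
      refine eq_of_sq_eq' ?_ hc0 ?_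
      · rw [← coeff_zero_eq_constantCoeff_apply, hst, PowerSeries.coeff_map,
          coeff_zero_eq_constantCoeff_apply, hc0, map_one]
      · rw [← map_pow, hc]
        simp only [map_pow, map_add, map_mul, map_one, hst, PowerSeries.map_C, PowerSeries.map_X,
          Complex.conj_ofReal]
    have hre : c = cx (PowerSeries.mk fun n => (coeff n c).re) := by
      ext n
      rw [coeff_cx, coeff_mk]
      have h := congrArg (coeff n) hstc
      rw [hst, PowerSeries.coeff_map] at h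
      exact (Complex.conj_eq_iff_re.1 h).symm
    have hinj : Function.Injective cx := PowerSeries.map_injective _ Complex.ofReal_injective
    refine ⟨_, ?_, ?_, hre⟩
    · rw [← coeff_zero_eq_constantCoeff_apply, coeff_mk, coeff_zero_eq_constantCoeff_apply, hc0,
        Complex.one_re]
    · apply hinj
      rw [map_pow, ← hre, hc]
      simp only [map_pow, map_add, map_mul, map_one, cx_C, cx_X]
  obtain ⟨c', hc'0, hc'1, hcc⟩ := hcc
  obtain ⟨ε', D', h1, h2, h3, h4⟩ := real_data m (m - 1) (by omega) κ hκ ε c P D c' P'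
    hcc hPP hD hε H1 H2
  exact main_two m hm κ hκ e ε' he h1 c' P' D' hc'0 hc'1 hP'1 h2 h3 h4

end

end Crest.Agent.R208.HH
end

-- ▼ part R208/GA2
section

/-!
# From the power sums of `F_J` to the normal form of `HH.main_complex`

`A` is a commutative `ℂ`-algebra, `x` of degree `l`, `w` of degree `l - 1`, `w ^ 2 = 0`,
`k = 2 l`.  `CW.el s` are the Chern classes of the sequence of power sums `s`.
-/

open PowerSeries Finset

namespace Crest.Agent.R208.GA

variable {A : Type*} [CommRing A] [Algebra ℂ A]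

theorem el_newton (s : ℕ → A) (j : ℕ) : ((j : A) + 1) * CW.el s (j + 1) =
    ∑ i ∈ range (j + 1), (-1) ^ i * s (i + 1) * CW.el s (j - i) := by
  rw [CW.el_succ]
  exact Finset.sum_congr rfl fun i _ => by ring

/-- Power sums from Chern classes: `el s (l i) = P_i x ^ i` (`i ≥ 1`), `el s j = 0` for `l ∤ j`. -/
theorem sums_of_el {l r : ℕ} (hl : l ≠ 0) {x : A} {s : ℕ → A} {P Q : ℂ⟦X⟧}
    (hP0 : constantCoeff P = 1) (hQ : th P = Q * P)
    (h1 : ∀ i, 1 ≤ i → l * i ≤ r → CW.el s (l * i) = coeff i P • x ^ i)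
    (h2 : ∀ j, j ≤ r → ¬ l ∣ j → CW.el s j = 0) :
    (∀ i, 1 ≤ i → l * i ≤ r → s (l * i) = ((-1) ^ (l * i + 1) * (l * coeff i Q)) • x ^ i) ∧
    ∀ j, j ≤ r → ¬ l ∣ j → s j = 0 := by
  obtain ⟨h3, h4⟩ := sums_of_classes (algebraMap ℂ A) hl (x := x) (s := s) (c := CW.el s) (r := r)
    (CW.el_zero s) (fun j _ => el_newton s j) hP0 hQ
    (fun i hi hir => by rw [h1 i hi hir, Algebra.smul_def]) h2
  refine ⟨fun i hi hir => ?_, h4⟩
  rw [h3 i hi hir, Algebra.smul_def]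
  simp only [map_mul, map_pow, map_neg, map_one, map_natCast]
  ring

/-- **[GA], `k = 2 l`, `l` even.** -/
theorem main_even (l m r : ℕ) (hl : 2 ≤ l) (hle : Even l) (hm : 2 ≤ m) (hr : r = l * (m - 1))
    (μ : ℂ) {x w : A} (hw : w ^ 2 = 0) {s : ℕ → A} {Q : ℂ⟦X⟧}
    (hQ : Q * ((1 + C μ * X + X ^ 2) * (1 + C (2 * μ) * X)) =
      C ((m : ℂ) + 1) * (C μ * X + 2 * X ^ 2) * (1 + C (2 * μ) * X)
        - C (2 * μ) * X * (1 + C μ * X + X ^ 2))
    (he1 : ∀ i, 1 ≤ i → l * i ≤ r →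
      s (l * i) = (-((l : ℂ) / 2) * (coeff i Q + (-(2 * μ)) ^ i)) • x ^ i)
    (he2 : ∀ j, 1 ≤ j → j ≤ r → Even j → ¬ l ∣ j → s j = 0)
    (ho1 : ∀ i, 1 ≤ i → l * i - 1 ≤ r → s (l * i - 1) = (-(1 / 2) * coeff i Q) • (w * x ^ (i - 1)))
    (ho2 : ∀ j, 1 ≤ j → j ≤ r → Odd j → ¬ l ∣ j + 1 → s j = 0) :
    ∃ c₀ D : ℂ⟦X⟧, constantCoeff c₀ = 1 ∧
      c₀ ^ 2 * (1 + C (2 * μ) * X) ^ 2 = (1 + C μ * X + X ^ 2) ^ (m + 1) ∧
      (∀ i : ℕ, (2 * (l : ℂ) * ((i : ℂ) + 1) - 2) * coeff i D = - coeff (i + 1) Q) ∧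
      CW.el s r = coeff (m - 1) c₀ • x ^ (m - 1) ∧
      CW.el s (r - 1) = coeff (m - 2) (c₀ * D) • (x ^ (m - 2) * w) := by
  obtain ⟨hQ0, c₀, hc1, hc2, hc3⟩ := exists_c₀ m μ hQ
  obtain ⟨D, hD⟩ := exists_D hl Q
  obtain ⟨-, h1, h2⟩ := core (algebraMap ℂ A) l hl hm hr hw (s := s) (CW.el_zero s)
    (fun j _ => el_newton s j) hc1 hQ0 (constantCoeff_Bs μ) hc2 hD
    (fun i hi hir _ => by
      rw [he1 i hi hir, Algebra.smul_def, coeff_Bs μ hi, sub_neg_eq_add]) he2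
    (fun i hi hir _ => by rw [ho1 i hi hir, Algebra.smul_def]) ho2
    (fun hlo => absurd hle (Nat.not_even_iff_odd.2 hlo))
  exact ⟨c₀, D, hc1, hc3, hD, by rw [h1, Algebra.smul_def], by rw [h2, Algebra.smul_def]⟩

/-- the coefficients of `2 e (m + 1) X² / (1 + e X²)` -/
theorem coeff_odd_eq_zero {e a : ℂ} {Q : ℂ⟦X⟧}
    (hQ : Q * (1 + C e * X ^ 2) = C a * X ^ 2) {i : ℕ} (hi : Odd i) : coeff i Q = 0 := by
  obtain ⟨n, rfl⟩ := hi
  induction n with
  | zero =>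
    have h1 := congrArg (coeff 1) hQ
    rw [mul_add, mul_one, map_add, show Q * (C e * X ^ 2) = C e * (Q * X ^ 2) by ring,
      coeff_C_mul, coeff_C_mul, coeff_mul_X_pow', coeff_X_pow] at h1
    simpa using h1
  | succ n ih =>
    have h1 := congrArg (coeff (2 * n + 1 + 2)) hQ
    rw [show Q * (1 + C e * X ^ 2) = Q + C e * (Q * X ^ 2) by ring, map_add,
      coeff_C_mul, coeff_C_mul, coeff_mul_X_pow,
      ih, coeff_X_pow, if_neg (by omega), mul_zero, mul_zero, add_zero] at h1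
    exact h1

/-- **[GA], `k = 2 l`, `l` odd** (`μ = 0`, `P = (1 + e X²) ^ (m + 1)`). -/
theorem main_odd (l m r : ℕ) (hl : 2 ≤ l) (hlo : Odd l) (hm : 2 ≤ m) (hr : r = l * (m - 1))
    (e : ℂ) {x w : A} (hw : w ^ 2 = 0) {s : ℕ → A} {Q : ℂ⟦X⟧}
    (hQ : Q * (1 + C e * X ^ 2) = C (2 * e * ((m : ℂ) + 1)) * X ^ 2)
    (he1 : ∀ i, 1 ≤ i → l * i ≤ r → Even i → s (l * i) = (-((l : ℂ) / 2) * coeff i Q) • x ^ i)
    (he2 : ∀ j, 1 ≤ j → j ≤ r → Even j → ¬ l ∣ j → s j = 0)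
    (ho1 : ∀ i, 1 ≤ i → l * i - 1 ≤ r → Even i →
      s (l * i - 1) = (-(1 / 2) * coeff i Q) • (w * x ^ (i - 1)))
    (ho2 : ∀ j, 1 ≤ j → j ≤ r → Odd j → ¬ l ∣ j + 1 → s j = 0) :
    ∃ c₀ D : ℂ⟦X⟧, constantCoeff c₀ = 1 ∧ c₀ ^ 2 = (1 + C e * X ^ 2) ^ (m + 1) ∧
      (∀ i : ℕ, (2 * (l : ℂ) * ((i : ℂ) + 1) - 2) * coeff i D = - coeff (i + 1) Q) ∧
      CW.el s r = coeff (m - 1) c₀ • x ^ (m - 1) ∧
      CW.el s (r - 1) = coeff (m - 2) (c₀ * D) • (x ^ (m - 2) * w) := by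
  have hQ0 : constantCoeff Q = 0 := by
    have := congrArg constantCoeff hQ
    simpa using this
  have hH0 : constantCoeff (C (1 / 2 : ℂ) * Q) = 0 := by
    rw [map_mul, hQ0, mul_zero]
  obtain ⟨c₀, hc1, h2⟩ := ode_exists (C (1 / 2 : ℂ) * Q) hH0
  have hc2 : 2 * th c₀ = (Q - 0) * c₀ := by
    rw [h2, ← map_ofNat (C : ℂ →+* ℂ⟦X⟧) 2, ← mul_assoc, ← mul_assoc, ← map_mul]
    simp
  have hc3 : c₀ ^ 2 = (1 + C e * X ^ 2) ^ (m + 1) := by
    set q : ℂ⟦X⟧ := 1 + C e * X ^ 2 with hq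
    have hthq : th q = C (2 * e) * X ^ 2 := by
      rw [hq, th_add, th_one, th_C_mul, sq, th_mul, th_X, map_mul, map_ofNat]
      ring
    have hq0 : q ≠ 0 := fun h => by
      have := congrArg constantCoeff h
      simp [hq] at this
    refine ode_unique (H := Q) ?_ ?_ hQ0 ?_
    · rw [show c₀ ^ 2 = c₀ ^ (1 + 1) from rfl, th_pow]
      push_cast
      linear_combination c₀ * hc2
    · rw [th_pow]
      refine mul_left_cancel₀ hq0 ?_
      rw [hthq]
      have hC : C (2 * e * ((m : ℂ) + 1)) = C (2 * e) * ((m : ℂ⟦X⟧) + 1) := by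
        rw [map_mul]
        simp
      rw [hC] at hQ
      linear_combination (-q ^ (m + 1)) * hQ
    · simp [hc1, hq]
  obtain ⟨D, hD⟩ := exists_D hl Q
  have hodd : ∀ n, Odd (l * n) ↔ Odd n := fun n => by
    rw [Nat.odd_mul]
    exact ⟨fun h => h.2, fun h => ⟨hlo, h⟩⟩
  have heven : ∀ n, Even (l * n) ↔ Even n := fun n => by
    rw [← Nat.not_odd_iff_even, ← Nat.not_odd_iff_even, hodd]
  obtain ⟨-, h1, h2⟩ := core (algebraMap ℂ A) l hl hm hr hw (s := s) (CW.el_zero s)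
    (fun j _ => el_newton s j) hc1 hQ0 (map_zero _) hc2 hD
    (fun i hi hir hev => by
      rw [he1 i hi hir ((heven i).1 hev), Algebra.smul_def, map_zero, sub_zero]) he2
    (fun i hi hir hod => by
      have h3 : Even (l * i) := by
        have h4 : l * i = (l * i - 1) + 1 := by
          have : 1 ≤ l * i := Nat.mul_pos (by omega) hi
          omega
        rw [h4]
        exact hod.add_one
      rw [ho1 i hi hir ((heven i).1 h3), Algebra.smul_def]) ho2
    (fun _ i hi => ⟨coeff_odd_eq_zero hQ hi, map_zero _⟩)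
  exact ⟨c₀, D, hc1, hc3, hD, by rw [h1, Algebra.smul_def], by rw [h2, Algebra.smul_def]⟩

/-- **The `F`-level contradiction, `k = 2 l ≥ 8`, `l` even, `(k, m) ≠ (8, 2)`.** -/
theorem absurd_even (l m r : ℕ) (hl : 4 ≤ l) (hle : Even l) (hm : 2 ≤ m) (h82 : ¬ (l = 4 ∧ m = 2))
    (hr : r = l * (m - 1)) (μ : ℝ) (ε : ℂ) (hε : ε ≠ 0) {x w : A} (hw : w ^ 2 = 0) {s : ℕ → A}
    {Q : ℂ⟦X⟧}
    (hQ : Q * ((1 + C (μ : ℂ) * X + X ^ 2) * (1 + C (2 * (μ : ℂ)) * X)) =
      C ((m : ℂ) + 1) * (C (μ : ℂ) * X + 2 * X ^ 2) * (1 + C (2 * (μ : ℂ)) * X)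
        - C (2 * (μ : ℂ)) * X * (1 + C (μ : ℂ) * X + X ^ 2))
    (he1 : ∀ i, 1 ≤ i → l * i ≤ r →
      s (l * i) = (-((l : ℂ) / 2) * (coeff i Q + (-(2 * (μ : ℂ))) ^ i)) • x ^ i)
    (he2 : ∀ j, 1 ≤ j → j ≤ r → Even j → ¬ l ∣ j → s j = 0)
    (ho1 : ∀ i, 1 ≤ i → l * i - 1 ≤ r → s (l * i - 1) = (-(1 / 2) * coeff i Q) • (w * x ^ (i - 1)))
    (ho2 : ∀ j, 1 ≤ j → j ≤ r → Odd j → ¬ l ∣ j + 1 → s j = 0)
    (hx : x ^ (m - 1) ≠ 0) (hxw : x ^ (m - 2) * w ≠ 0)
    (H1 : CW.el s r = (ε * (m + 1).choose 2) • x ^ (m - 1))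
    (H2 : CW.el s (r - 1) = (ε * (m + 1).choose 3) • (x ^ (m - 2) * w)) : False := by
  obtain ⟨c₀, D, h1, h2, h3, h4, h5⟩ := main_even l m r (by omega) hle hm hr μ hw hQ he1 he2 ho1 ho2
  refine HH.main_complex m hm ((2 * l : ℕ) : ℝ) (by exact_mod_cast (by omega : 8 ≤ 2 * l))
    (fun h => h82 ⟨?_, h.2⟩) μ ε hε c₀ Q D h1 h2 hQ (fun i => ?_) ?_ ?_
  · have : 2 * l = 8 := by exact_mod_cast h.1
    omega
  · have := h3 i
    push_cast
    exact this
  · exact smul_left_injective ℂ hx (h4.symm.trans H1)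
  · exact smul_left_injective ℂ hxw (h5.symm.trans H2)

/-- **The `F`-level contradiction, `k = 2 l ≥ 6`, `l` odd.** -/
theorem absurd_odd (l m r : ℕ) (hl : 2 ≤ l) (hlo : Odd l) (hm : 2 ≤ m)
    (hr : r = l * (m - 1)) (e : ℝ) (he : e ≠ 0) (ε : ℂ) (hε : ε ≠ 0) {x w : A} (hw : w ^ 2 = 0)
    {s : ℕ → A} {Q : ℂ⟦X⟧}
    (hQ : Q * (1 + C (e : ℂ) * X ^ 2) = C (2 * (e : ℂ) * ((m : ℂ) + 1)) * X ^ 2)
    (he1 : ∀ i, 1 ≤ i → l * i ≤ r → Even i → s (l * i) = (-((l : ℂ) / 2) * coeff i Q) • x ^ i)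
    (he2 : ∀ j, 1 ≤ j → j ≤ r → Even j → ¬ l ∣ j → s j = 0)
    (ho1 : ∀ i, 1 ≤ i → l * i - 1 ≤ r → Even i →
      s (l * i - 1) = (-(1 / 2) * coeff i Q) • (w * x ^ (i - 1)))
    (ho2 : ∀ j, 1 ≤ j → j ≤ r → Odd j → ¬ l ∣ j + 1 → s j = 0)
    (hx : x ^ (m - 1) ≠ 0) (hxw : x ^ (m - 2) * w ≠ 0)
    (H1 : CW.el s r = (ε * (m + 1).choose 2) • x ^ (m - 1))
    (H2 : CW.el s (r - 1) = (ε * (m + 1).choose 3) • (x ^ (m - 2) * w)) : False := by
  obtain ⟨c₀, D, h1, h2, h3, h4, h5⟩ := main_odd l m r hl hlo hm hr e hw hQ he1 he2 ho1 ho2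
  refine HH.main_two_complex m hm ((2 * l : ℕ) : ℝ) (by exact_mod_cast (by omega : 2 < 2 * l))
    e he ε hε c₀ Q D h1 h2 hQ (fun i => ?_) ?_ ?_
  · have := h3 i
    push_cast
    exact this
  · exact smul_left_injective ℂ hx (h4.symm.trans H1)
  · exact smul_left_injective ℂ hxw (h5.symm.trans H2)

end Crest.Agent.R208.GA
end

-- ▼ part R208/GQ5a

/-!
Row 208, block GQ (helper989), part GQ5a: the algebra between the classes on `D` and the
contradiction of `GA.absurd_even`, `GA.absurd_odd`.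
-/

set_option autoImplicit false

open PowerSeries Finset

namespace Crest.Agent.R208.GQ

variable {A B : Type*} [CommRing A] [Algebra ℂ A] [CommRing B] [Algebra ℂ B]

/-! ### the logarithmic derivative of `(1 + μ X + X²)^(m+1) / (1 + 2 μ X)` -/

/-- `P_M` -/
noncomputable def PP (m : ℕ) (μ : ℂ) : ℂ⟦X⟧ :=
  (1 + C μ * X + X ^ 2) ^ (m + 1) * (1 + C (2 * μ) * X)⁻¹

theorem PP_mul (m : ℕ) (μ : ℂ) : PP m μ * (1 + C (2 * μ) * X) = (1 + C μ * X + X ^ 2) ^ (m + 1) := by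
  rw [PP, mul_assoc, PowerSeries.inv_mul_cancel _ (by simp), mul_one]

theorem PP_const (m : ℕ) (μ : ℂ) : constantCoeff (PP m μ) = 1 := by
  have h := congrArg constantCoeff (PP_mul m μ)
  simpa using h

/-- `θ P / P` -/
noncomputable def QQ (m : ℕ) (μ : ℂ) : ℂ⟦X⟧ :=
  C ((m : ℂ) + 1) * (C μ * X + 2 * X ^ 2) * (1 + C μ * X + X ^ 2)⁻¹ -
    C (2 * μ) * X * (1 + C (2 * μ) * X)⁻¹

theorem q1_ne (μ : ℂ) : constantCoeff (1 + C μ * X + X ^ 2 : ℂ⟦X⟧) ≠ 0 := by simp

theorem q2_ne (μ : ℂ) : constantCoeff (1 + C (2 * μ) * X : ℂ⟦X⟧) ≠ 0 := by simp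

theorem QQ_mul (m : ℕ) (μ : ℂ) : QQ m μ * ((1 + C μ * X + X ^ 2) * (1 + C (2 * μ) * X)) =
      C ((m : ℂ) + 1) * (C μ * X + 2 * X ^ 2) * (1 + C (2 * μ) * X)
        - C (2 * μ) * X * (1 + C μ * X + X ^ 2) := by
  have h1 := PowerSeries.mul_inv_cancel _ (q1_ne μ)
  have h2 := PowerSeries.mul_inv_cancel _ (q2_ne μ)
  rw [QQ]
  linear_combination (C ((m : ℂ) + 1) * (C μ * X + 2 * X ^ 2) * (1 + C (2 * μ) * X)) * h1 -
    (C (2 * μ) * X * (1 + C μ * X + X ^ 2)) * h2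

theorem th_PP (m : ℕ) (μ : ℂ) : GA.th (PP m μ) = QQ m μ * PP m μ := by
  have h1 := PP_mul m μ
  have h2 := QQ_mul m μ
  have h3 := congrArg GA.th h1
  have h4 : GA.th (1 + C (2 * μ) * X : ℂ⟦X⟧) = C (2 * μ) * X := by
    rw [GA.th_add, GA.th_one, GA.th_C_mul, GA.th_X, zero_add]
  have h5 : GA.th (1 + C μ * X + X ^ 2 : ℂ⟦X⟧) = C μ * X + 2 * X ^ 2 := by
    rw [GA.th_add, GA.th_add, GA.th_one, GA.th_C_mul, sq, GA.th_mul, GA.th_X]
    ring
  rw [GA.th_mul, GA.th_pow, h4, h5] at h3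
  have h6 : (1 + C (2 * μ) * X : ℂ⟦X⟧) ≠ 0 := fun h => q2_ne μ (by rw [h, map_zero])
  have h7 : (1 + C μ * X + X ^ 2 : ℂ⟦X⟧) ≠ 0 := fun h => q1_ne μ (by rw [h, map_zero])
  refine mul_right_cancel₀ (mul_ne_zero h6 h7) ?_
  have hC : C ((m : ℂ) + 1) = ((m : ℂ⟦X⟧) + 1) := by simp
  rw [hC] at h2
  linear_combination (1 + C μ * X + X ^ 2) * h3 - (PP m μ) * h2 -
    (((m : ℂ⟦X⟧) + 1) * (C μ * X + 2 * X ^ 2)) * h1

/-- the case `μ = 0` -/
theorem QQ_zero (m : ℕ) :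
    QQ m 0 * (1 + C ((1 : ℝ) : ℂ) * X ^ 2) = C (2 * ((1 : ℝ) : ℂ) * ((m : ℂ) + 1)) * X ^ 2 := by
  have h := QQ_mul m 0
  simp only [mul_zero, map_zero, zero_mul, add_zero, zero_add, mul_one, sub_zero] at h
  rw [Complex.ofReal_one, map_one, one_mul, h, mul_one, map_mul]
  have : (C (2 : ℂ) : ℂ⟦X⟧) = 2 := map_ofNat C 2
  rw [this]
  ring

variable (φ : A →ₐ[ℂ] B) {l m r : ℕ} {ξ x1 x2 e : A} {x w : B} {Gr : ℕ → Submodule ℂ A}

/-- the `F`-level contradiction from the classes on `D` -/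
theorem core_False (hl : 3 ≤ l) (hm : 2 ≤ m) (hr : r = l * (m - 1)) (h82 : ¬ (l = 4 ∧ m = 2))
    (hxe : x1 - x2 = ξ * e) (hφξ : φ ξ = 0) (hφ1 : φ x1 = x) (hφ2 : φ x2 = x) (hφe : φ e = w)
    (h1 : (1 : A) ∈ Gr 0)
    (hmul : ∀ i j : ℕ, ∀ a b : A, a ∈ Gr i → b ∈ Gr j → a * b ∈ Gr (i + j)) (hξ : ξ ∈ Gr 1)
    (hx1 : x1 ∈ Gr l) (hx2 : x2 ∈ Gr l) (he : e ∈ Gr (l - 1))
    (div : ∀ j < r + 1, ∀ b ∈ Gr j, b * ξ = 0 → b = 0) {t s v : ℕ → A} (ht : ∀ j, t j ∈ Gr j)
    (hs : ∀ j, s j = ∑ i ∈ range (j + 1), (j.choose i : A) * t i * ξ ^ (j - i))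
    (μ : ℝ) (hμ : Odd l → μ = 0)
    (hT : ∀ i, 1 ≤ i → 2 * i ≤ r + 1 → 2 * t (2 * i) =
      (if l ∣ 2 * i then (-(l : ℂ) * coeff (2 * i / l) (QQ m μ)) • x2 ^ (2 * i / l) else 0) -
        v (2 * i))
    (hF : ∀ i, 1 ≤ i → 2 * i ≤ r + 1 → 2 * s (2 * i) =
      (if l ∣ 2 * i then (-(l : ℂ) * coeff (2 * i / l) (QQ m μ)) • x1 ^ (2 * i / l) else 0) -
        v (2 * i))
    (hv : ∀ i, 1 ≤ i → 2 * i ≤ r → φ (v (2 * i)) =
      if l ∣ 2 * i then ((l : ℂ) * (-(2 * (μ : ℂ))) ^ (2 * i / l)) • x ^ (2 * i / l) else 0)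
    {c c' : ℕ → A} (hce : ∀ j, c j = CW.el t j) (hcm : ∀ j, c j ∈ Gr j)
    (hc : c' r = ∑ i ∈ range (r + 1), c (r - i) * ξ ^ i) {κ κ' : ℂ} (hκ : κ ≠ 0)
    (hF1 : c' r = κ • ∑ b ∈ range m, ((b + 1 : ℕ) : A) * (x1 ^ b * x2 ^ (m - 1 - b)))
    (hT1 : c r = κ' • ∑ b ∈ range m, ((b + 1 : ℕ) : A) * (x2 ^ b * x1 ^ (m - 1 - b)))
    (hw : w ^ 2 = 0) (hx : x ^ (m - 1) ≠ 0) (hxw : x ^ (m - 2) * w ≠ 0) : False := by
  have hodd := GK.odd_sum φ (M := r + 1) (by omega : 1 ≤ l) hxe hφξ hφ1 hφ2 hφe h1 hmul hξ hx1 hx2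
    he div ht hs (σ := fun i => -(l : ℂ) * coeff i (QQ m μ)) (v := v) hT hF
  obtain ⟨-, hB1, hB2⟩ := GK.h12 φ (M := r + 1) (by omega : 1 ≤ l) hm (by omega) hxe hφξ hφ1 hφ2
    hφe h1 hmul hξ hx1 hx2 he div hcm hr hc hF1 hT1 (fun z hz => by
      by_contra h
      exact hx ((smul_eq_zero.1 hz).resolve_left h))
  set t' : ℕ → B := fun j => φ (t j) with ht'
  have hcel : ∀ j, φ (c j) = CW.el t' j := fun j => by
    rw [hce]; exact CW.el_map φ.toRingHom t j
  rw [hcel] at hB1 hB2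
  have hlc : (l : ℂ) ≠ 0 := by exact_mod_cast (show l ≠ 0 by omega)
  -- even sums
  have heven : ∀ i, 1 ≤ i → 2 * i ≤ r → t' (2 * i) =
      if l ∣ 2 * i then (-((l : ℂ) / 2) * (coeff (2 * i / l) (QQ m μ) +
        (-(2 * (μ : ℂ))) ^ (2 * i / l))) • x ^ (2 * i / l) else 0 := by
    intro i hi hir
    have e1 := congrArg φ (hT i hi (by omega))
    rw [map_sub, hv i hi hir, map_mul, map_ofNat] at e1
    have e2 : t' (2 * i) = (1 / 2 : ℂ) • (2 * φ (t (2 * i))) := by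
      rw [show (2 : B) * φ (t (2 * i)) = (2 : ℂ) • φ (t (2 * i)) by
        rw [Algebra.smul_def, map_ofNat], smul_smul]
      norm_num [ht']
    rw [e2, e1]
    by_cases hd : l ∣ 2 * i
    · rw [if_pos hd, if_pos hd, if_pos hd, map_smul, map_pow, hφ2, ← sub_smul, smul_smul]
      congr 1
      ring
    · rw [if_neg hd, if_neg hd, if_neg hd, map_zero, sub_zero, smul_zero]
  -- odd sums
  have hodd' : ∀ j, j ≤ r → Odd j → t' j = if l ∣ j + 1 then
      (-(1 / 2) * coeff ((j + 1) / l) (QQ m μ)) • (w * x ^ ((j + 1) / l - 1)) else 0 := by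
    rintro j hj ⟨i, rfl⟩
    have e1 := hodd (i + 1) (by omega) (by omega)
    rw [show 2 * (i + 1) - 1 = 2 * i + 1 by omega, show 2 * (i + 1) = 2 * i + 1 + 1 by ring] at e1
    rw [ht']
    simp only
    rw [e1]
    by_cases hd : l ∣ 2 * i + 1 + 1
    · rw [if_pos hd, if_pos hd]
      congr 1
      field_simp
    · rw [if_neg hd, if_neg hd]
  have he2 : ∀ j, 1 ≤ j → j ≤ r → Even j → ¬ l ∣ j → t' j = 0 := by
    rintro j hj hjr hev hd
    obtain ⟨i, rfl⟩ := hev.exists_two_nsmul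
    rw [smul_eq_mul] at hj hjr hd ⊢
    rw [heven i (by omega) hjr, if_neg hd]
  have ho2 : ∀ j, 1 ≤ j → j ≤ r → Odd j → ¬ l ∣ j + 1 → t' j = 0 := by
    intro j _ hjr hod hd
    rw [hodd' j hjr hod, if_neg hd]
  have hli : ∀ i, (l * i) / l = i := fun i => Nat.mul_div_cancel_left i (by omega)
  have he1 : ∀ i, 1 ≤ i → l * i ≤ r → Even (l * i) →
      t' (l * i) = (-((l : ℂ) / 2) * (coeff i (QQ m μ) + (-(2 * (μ : ℂ))) ^ i)) • x ^ i := by
    intro i hi hir hev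
    obtain ⟨q, hq⟩ := hev.exists_two_nsmul
    rw [smul_eq_mul] at hq
    have h3 : 1 ≤ l * i := Nat.mul_pos (by omega) hi
    have e1 := heven q (by omega) (by omega)
    rw [← hq, if_pos (dvd_mul_right l i), hli] at e1
    exact e1
  have ho1 : ∀ i, 1 ≤ i → l * i - 1 ≤ r → Even (l * i) →
      t' (l * i - 1) = (-(1 / 2) * coeff i (QQ m μ)) • (w * x ^ (i - 1)) := by
    intro i hi hir hev
    have h3 : l ≤ l * i := Nat.le_mul_of_pos_right l hi
    have e1 := hodd' (l * i - 1) hir (by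
      obtain ⟨q, hq⟩ := hev
      exact ⟨q - 1, by omega⟩)
    rw [show l * i - 1 + 1 = l * i by omega, if_pos (dvd_mul_right l i), hli] at e1
    exact e1
  rcases Nat.even_or_odd l with hle | hlo
  · have hl4 : 4 ≤ l := by
      obtain ⟨q, rfl⟩ := hle; omega
    exact GA.absurd_even l m r hl4 hle hm h82 hr μ κ hκ hw (QQ_mul m μ)
      (fun i hi hir => he1 i hi hir (hle.mul_right i)) he2
      (fun i hi hir => ho1 i hi hir (hle.mul_right i)) ho2 hx hxw hB1 hB2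
  · have hμ0 := hμ hlo
    subst hμ0
    rw [Complex.ofReal_zero] at he1 ho1
    refine GA.absurd_odd l m r (by omega) hlo hm hr 1 one_ne_zero κ hκ hw (QQ_zero m)
      (fun i hi hir hev => ?_) he2 (fun i hi hir hev => ho1 i hi hir (hev.mul_left l)) ho2 hx hxw
      hB1 hB2
    rw [he1 i hi hir (hev.mul_left l), mul_zero, neg_zero, zero_pow (by omega), add_zero]

end Crest.Agent.R208.GQ
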