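import Crest.Agent.R208.GO1
import Crest.Agent.R208.CW8b

/-! Row 208, block GS (helper742), part GS1: the Euler class of a field split off by an orthonormal
pair; relabelling of the orientation tensor. -/

set_option autoImplicit false
set_option linter.unusedSectionVars false

open Module Set Matrix
open scoped ContDiff RealInnerProductSpace
open Crest.Agent.R208.F Crest.Agent.R208.FI Crest.Agent.R208.CW Crest.Agent.R208.T

noncomputable section

namespace Crest.Agent.R208.GS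

/-! ### relabelling -/

section relabel
variable {ι ι₁ n : Type*} [Fintype ι] [DecidableEq ι] [Fintype ι₁] [DecidableEq ι₁] [Fintype n]
  [DecidableEq n]

/-- relabelled tensor -/
def rel {R : Type*} (σ : ι₁ × Fin 2 ≃ ι × Fin 2) (W : (ι × Fin 2 → n) → R) (J : ι₁ × Fin 2 → n) : R :=
  W (J ∘ σ.symm)

theorem rel_frame {R : Type*} [CommRing R] (σ : ι₁ × Fin 2 ≃ ι × Fin 2)
    {f : Matrix n (ι × Fin 2) R} {W : (ι × Fin 2 → n) → R}
    (h : ∀ I, W I = (f.submatrix I id).det) (J : ι₁ × Fin 2 → n) :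
    rel σ W J = ((f.submatrix id σ).submatrix J id).det := by
  rw [rel, h, ← det_submatrix_equiv_self σ]
  congr 1
  ext a b
  simp

theorem frame_mul {R : Type*} [CommRing R] (σ : ι₁ × Fin 2 ≃ ι × Fin 2)
    (f : Matrix n (ι × Fin 2) R) : (f.submatrix id σ) * (f.submatrix id σ)ᵀ = f * fᵀ := by
  rw [transpose_submatrix, submatrix_mul_equiv, submatrix_id_id]

theorem frame_tr_mul {R : Type*} [CommRing R] (σ : ι₁ × Fin 2 ≃ ι × Fin 2)
    {f : Matrix n (ι × Fin 2) R} (h : fᵀ * f = 1) :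
    (f.submatrix id σ)ᵀ * (f.submatrix id σ) = 1 := by
  have h1 := congrArg (fun M : Matrix (ι × Fin 2) (ι × Fin 2) R => M.submatrix σ σ) h
  simp only [submatrix_one_equiv] at h1
  rw [← h1]
  ext a b
  simp [Matrix.mul_apply]

theorem card_eq (σ : ι₁ × Fin 2 ≃ ι × Fin 2) : Fintype.card ι₁ = Fintype.card ι := by
  have h := Fintype.card_congr σ
  simp only [Fintype.card_prod, Fintype.card_fin] at h
  omega

/-- the sign of a relabelling -/
def sg (σ : ι₁ × Fin 2 ≃ ι × Fin 2) : ℤˣ :=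
  Equiv.Perm.sign (σ.symm.trans ((Fintype.equivOfCardEq (card_eq σ)).prodCongr (Equiv.refl (Fin 2))))

theorem sg_ne {σ : ι₁ × Fin 2 ≃ ι × Fin 2} : ((sg σ : ℤ) : ℝ) ≠ 0 := by
  exact_mod_cast (sg σ).ne_zero

theorem eu_rel {V : Type*} [AddCommGroup V] [Module ℝ V] (σ : ι₁ × Fin 2 ≃ ι × Fin 2)
    {f : Matrix n (ι × Fin 2) ℂ} {W : (ι × Fin 2 → n) → ℂ}
    (h : ∀ I, W I = (f.submatrix I id).det) (w : Matrix n n (EvC V)) :
    eu (rel σ W) w = ((sg σ : ℤ) : ℂ) • eu W w := by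
  set e0 := Fintype.equivOfCardEq (card_eq σ) with he0
  set e2 : ι₁ × Fin 2 ≃ ι × Fin 2 := e0.prodCongr (Equiv.refl (Fin 2)) with he2
  rw [eu, eu, Finset.smul_sum]
  rw [← Equiv.sum_comp (Equiv.arrowCongr e2.symm (Equiv.refl n))]
  refine Finset.sum_congr rfl fun I _ => ?_
  have h1 : (Equiv.arrowCongr e2.symm (Equiv.refl n)) I = I ∘ e2 := by
    funext a
    simp [Equiv.arrowCongr]
  rw [h1]
  have h2 : rel σ W (I ∘ e2) = ((sg σ : ℤ) : ℂ) * W I := by
    have h3 : (I ∘ e2) ∘ σ.symm = I ∘ (σ.symm.trans e2) := rfl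
    rw [rel, h3, h, h, show f.submatrix (I ∘ (σ.symm.trans e2)) id
      = (f.submatrix I id).submatrix (σ.symm.trans e2) id from rfl, det_permute]
    rfl
  rw [h2, mul_smul]
  congr 2
  rw [← Equiv.prod_comp e0]
  rfl

end relabel

section relOR
variable {n : Type*} [Fintype n] [DecidableEq n] {E : Type*} [NormedAddCommGroup E]
  [NormedSpace ℝ E] [FiniteDimensional ℝ E] {ι ι₁ : Type*} [Fintype ι] [DecidableEq ι]
  [Fintype ι₁] [DecidableEq ι₁] {X : Set E}
  {P : E → EuclideanSpace ℝ n →L[ℝ] EuclideanSpace ℝ n} {W : E → (ι × Fin 2 → n) → ℝ}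

theorem OR_rel (σ : ι₁ × Fin 2 ≃ ι × Fin 2) (h : OR X P W) :
    OR X P (fun x => rel σ (W x)) where
  sP := h.sP
  sW x hx I := h.sW x hx _
  fr x hx := by
    obtain ⟨f, h1, h2, h3⟩ := h.fr x hx
    exact ⟨f.submatrix id σ, frame_tr_mul σ h1, by rw [frame_mul]; exact h2, rel_frame σ h3⟩

theorem ec_rel (σ : ι₁ × Fin 2 ≃ ι × Fin 2) (h : OR X P W) :
    ec (OR_rel σ h).of = ((sg σ : ℤ) : ℂ) • ec h.of := by
  rw [ec, ec, ← cls_smul]
  refine cls_congr fun x hx => ?_
  congr 1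
  obtain ⟨f, h1, h2, h3⟩ := h.fr x hx
  have h4 : ∀ I, wC W x I = ((f.map (algebraMap ℝ ℂ)).submatrix I id).det := fun I => by
    have := RingHom.map_det (algebraMap ℝ ℂ) (f.submatrix I id)
    rw [← h3] at this
    exact this
  have h5 := eu_rel σ h4 (Om (fun y => mtx (P y)) x)
  change ef (fun y => mtx (P y)) (wC fun x => rel σ (W x)) x = _
  rw [ef]
  have h6 : (wC fun x => rel σ (W x)) x = rel σ (wC W x) := rfl
  rw [h6, h5]
  rfl

/-- only the values on `X` matter -/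
theorem ec_congr_OR {P' : E → EuclideanSpace ℝ n →L[ℝ] EuclideanSpace ℝ n}
    {W' : E → (ι × Fin 2 → n) → ℝ} (h : OR X P W) (h' : OR X P' W') (hP : ∀ x ∈ X, P x = P' x)
    (hW : ∀ x ∈ X, W x = W' x) : ec h.of = ec h'.of :=
  ec_congr _ _ (fun x hx => by rw [hP x hx]) fun x hx => by
    funext I
    rw [wC, wC, hW x hx]

end relOR

/-! ### splitting off a pair -/

section split
variable {n : Type*} [Fintype n] [DecidableEq n] {ι ι' : Type*} [Fintype ι] [DecidableEq ι]
  [Fintype ι'] [DecidableEq ι']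

/-- the relabelling -/
def sr (eq : (Unit × Fin 2) ⊕ (ι' × Fin 2) ≃ (ι × Fin 2)) : (Unit ⊕ ι') × Fin 2 ≃ ι × Fin 2 :=
  (Equiv.sumProdDistrib Unit ι' (Fin 2)).trans eq

/-- pointwise: the relabelled tensor is the sum tensor -/
theorem rel_eq_sumT [Nonempty ι'] (eq : (Unit × Fin 2) ⊕ (ι' × Fin 2) ≃ (ι × Fin 2))
    {f : Matrix n (ι × Fin 2) ℝ} {U : Matrix n (Unit × Fin 2) ℝ}
    (hU : Uᵀ * U = 1) (hfU : f * fᵀ * U = U) {W : (ι × Fin 2 → n) → ℝ}
    (hW : ∀ I, W I = (f.submatrix I id).det) :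
    rel (sr eq) W = sumT (fun I => (U.submatrix I id).det) (GO.ctr eq U W) := by
  have hY : (fᵀ * U)ᵀ * (fᵀ * U) = 1 := by
    rw [transpose_mul, transpose_transpose, Matrix.mul_assoc, ← Matrix.mul_assoc f, hfU, hU]
  obtain ⟨Y', g1, g2, g3, g4⟩ := T.exists_compl eq hY
  have hfY : f * (fᵀ * U) = U := by rw [← Matrix.mul_assoc, hfU]
  have hW' : ∀ I, GO.ctr eq U W I = ((f * Y').submatrix I id).det := fun I => by
    rw [GO.ctr_frame eq U hW, GO.det_glue_frame' eq hY g2 g4, ← det_transpose, transpose_mul,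
      transpose_transpose, transpose_transpose]
    rfl
  funext J
  rw [sumT_frame (fun I => rfl) hW']
  have e1 : (sumF U (f * Y')).submatrix J id
      = ((f.submatrix (J ∘ (sr eq).symm) id) * glue eq (fᵀ * U) Y').submatrix (sr eq) (sr eq) := by
    have e2 : sumF U (f * Y') = (f * glue eq (fᵀ * U) Y').submatrix id (sr eq) := by
      have e3 : f * glue eq (fᵀ * U) Y' = (Matrix.fromCols U (f * Y')).submatrix id eq.symm := by
        conv_rhs => rw [← hfY]
        rw [glue]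
        ext a b
        obtain ⟨s, rfl⟩ := eq.surjective b
        rcases s with p | q <;> simp [Matrix.mul_apply]
      rw [e3]
      ext a b
      simp [sumF, sr]
    rw [e2]
    ext a b
    simp only [submatrix_apply, Matrix.mul_apply, Function.comp_apply, id,
      Equiv.symm_apply_apply]
  rw [e1, det_submatrix_equiv_self, det_mul, g4, mul_one, rel, hW]

end split

section main
variable {n : Type*} [Fintype n] [DecidableEq n] {E : Type*} [NormedAddCommGroup E]
  [NormedSpace ℝ E] [FiniteDimensional ℝ E] {ι ι' : Type*} [Fintype ι] [DecidableEq ι]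
  [Fintype ι'] [DecidableEq ι'] {X : Set E}
  {P Pl P' : E → EuclideanSpace ℝ n →L[ℝ] EuclideanSpace ℝ n} {W : E → (ι × Fin 2 → n) → ℝ}
  {Wl : E → (Unit × Fin 2 → n) → ℝ} {W' : E → (ι' × Fin 2 → n) → ℝ}

/-- the data of a splitting, pointwise -/
def Spl (eq : (Unit × Fin 2) ⊕ (ι' × Fin 2) ≃ (ι × Fin 2)) (X : Set E)
    (P Pl P' : E → EuclideanSpace ℝ n →L[ℝ] EuclideanSpace ℝ n) (W : E → (ι × Fin 2 → n) → ℝ)
    (Wl : E → (Unit × Fin 2 → n) → ℝ) (W' : E → (ι' × Fin 2 → n) → ℝ) : Prop :=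
  ∀ x ∈ X, ∃ v w : EuclideanSpace ℝ n, ‖v‖ = 1 ∧ ‖w‖ = 1 ∧ ⟪v, w⟫ = 0 ∧ P x v = v ∧ P x w = w ∧
    (Wl x = fun I => ((GO.col2 v w).submatrix I id).det) ∧
    (W' x = GO.ctr eq (GO.col2 v w) (W x)) ∧ (∀ u, Pl x u = ⟪v, u⟫ • v + ⟪w, u⟫ • w) ∧
    (∀ u, P' x u = P x u - Pl x u)

theorem Spl.orth {eq : (Unit × Fin 2) ⊕ (ι' × Fin 2) ≃ (ι × Fin 2)} (h : OR X P W)
    (hx : Spl eq X P Pl P' W Wl W') : ∀ x ∈ X, ∀ u, Pl x (P' x u) = 0 := by
  intro x hxX u
  obtain ⟨v, w, v1, w1, vw, Pv, Pw, -, -, hPl, hP'⟩ := hx x hxX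
  have hsym : ∀ a b, ⟪a, P x b⟫ = ⟪P x a, b⟫ := by
    obtain ⟨f, f1, f2, f3⟩ := h.fr x hxX
    intro a b
    simp only [PiLp.inner_apply, RCLike.inner_apply, conj_trivial, f2, Finset.sum_mul]
    rw [Finset.sum_comm]
    refine Finset.sum_congr rfl fun i _ => ?_
    rw [Finset.mul_sum]
    refine Finset.sum_congr rfl fun j _ => ?_
    have : (f * fᵀ) j i = (f * fᵀ) i j := by
      rw [Matrix.mul_apply, Matrix.mul_apply]
      exact Finset.sum_congr rfl fun _ _ => by simp [mul_comm]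
    rw [this]
    ring
  have h1 : ⟪v, P' x u⟫ = 0 := by
    rw [hP', hPl, inner_sub_right, inner_add_right, inner_smul_right, inner_smul_right, hsym, Pv,
      vw, real_inner_self_eq_norm_sq, v1]
    ring
  have wv : ⟪w, v⟫ = 0 := by rw [real_inner_comm]; exact vw
  have h2 : ⟪w, P' x u⟫ = 0 := by
    rw [hP', hPl, inner_sub_right, inner_add_right, inner_smul_right, inner_smul_right, hsym, Pw,
      wv, real_inner_self_eq_norm_sq, w1]
    ring
  rw [hPl, h1, h2, zero_smul, zero_smul, add_zero]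

/-- **the Euler class of the split field**, in `H X` -/
theorem ec_split [Nonempty ι'] (eq : (Unit × Fin 2) ⊕ (ι' × Fin 2) ≃ (ι × Fin 2)) (h : OR X P W)
    (hl : OR X Pl Wl) (h' : OR X P' W') (hx : Spl eq X P Pl P' W Wl W') :
    ec h.of = ((((sg (sr eq) : ℤ) : ℝ) * (Fintype.card ι : ℝ) : ℝ) : ℂ) • (ec hl.of * ec h'.of) := by
  have h0 := hx.orth h
  have hs := hl.add h' h0
  have h1 := hl.ec_add h' h0 hs
  have h2 := ec_rel (sr eq) h
  have h3 : ec (OR_rel (sr eq) h).of = ec hs.of := by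
    refine ec_congr_OR (OR_rel (sr eq) h) hs (fun x hxX => ?_) fun x hxX => ?_
    · obtain ⟨v, w, -, -, -, -, -, -, -, -, hP'⟩ := hx x hxX
      ext u : 1
      change P x u = Pl x u + P' x u
      rw [hP']
      abel
    · obtain ⟨v, w, v1, w1, vw, Pv, Pw, hWl, hW', hPl, hP'⟩ := hx x hxX
      obtain ⟨f, f1, f2, f3⟩ := h.fr x hxX
      have hcol : ∀ p, P x (WithLp.toLp 2 fun a => GO.col2 v w a p) =
          WithLp.toLp 2 fun a => GO.col2 v w a p := by
        rintro ⟨⟨⟩, p⟩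
        by_cases hp : p = 0
        · have : (WithLp.toLp 2 fun a => GO.col2 v w a ((), p) : EuclideanSpace ℝ n) = v := by
            ext a; simp [GO.col2, hp]
          rw [this, Pv]
        · have : (WithLp.toLp 2 fun a => GO.col2 v w a ((), p) : EuclideanSpace ℝ n) = w := by
            ext a; simp [GO.col2, hp]
          rw [this, Pw]
      have hfU : f * fᵀ * GO.col2 v w = GO.col2 v w := by
        ext i p
        rw [Matrix.mul_apply]
        have h3 := congrArg (fun v : EuclideanSpace ℝ n => v i) (hcol p)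
        simp only at h3
        rw [f2] at h3
        exact h3
      have := rel_eq_sumT eq (GO.col2_orth v1 w1 vw) hfU f3
      change rel (sr eq) (W x) = sumT (Wl x) (W' x)
      rw [this, hWl, hW']
  have hc : (Fintype.card Unit + Fintype.card ι').choose (Fintype.card Unit) = Fintype.card ι := by
    have := card_eq (sr eq)
    rw [Fintype.card_sum] at this
    rw [this, Fintype.card_unit, Nat.choose_one_right]
  rw [hc] at h1
  have hsq : ((sg (sr eq) : ℤ) : ℂ) * ((sg (sr eq) : ℤ) : ℂ) = 1 := by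
    have : (sg (sr eq) : ℤ) * (sg (sr eq) : ℤ) = 1 := Int.units_coe_mul_self _
    exact_mod_cast this
  have h4 : ec h.of = ((sg (sr eq) : ℤ) : ℂ) • ec (OR_rel (sr eq) h).of := by
    rw [h2, smul_smul, hsq, one_smul]
  rw [h4, h3, h1]
  push_cast
  rw [mul_smul]
  congr 1
  rw [Algebra.smul_def]
  simp



end main

end Crest.Agent.R208.GS
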