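import Crest.Agent.R208.GQ1b
import Crest.Agent.R208.TI3
import Crest.Agent.R208.CW8b
import Crest.Agent.R208.CW7b
import Crest.Agent.R208.TX6b
import Crest.Agent.R208.TG3

-- ▼ part R208/XE1
section

/-! Row 208, block XE (helper126), (X4').  XE1: the abstract form of the computation of the Euler
class of `T_p C_q`: division of the Whitney formula by the Euler class of `V`. -/

set_option autoImplicit false
set_option linter.unusedSectionVars false

open MeasureTheory Set Filter Topology Module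
open scoped ContDiff RealInnerProductSpace
open Crest.Agent.R208.F Crest.Agent.R208.FI Crest.Agent.R208.CW Crest.Agent.R208.T

noncomputable section

namespace Crest.Agent.R208.XE

/-! ### algebra -/
section alg
variable {R : Type*} [CommRing R]

/-- `(a - b) ∑ (i + 1) a^i b^(m-1-i) = (m + 1) a^m - ∑ a^i b^(m-i)` -/
theorem alg_id (a b : R) (m : ℕ) :
    (a - b) * ∑ i ∈ Finset.range m, ((i + 1 : ℕ) : R) * (a ^ i * b ^ (m - 1 - i))
      = ((m + 1 : ℕ) : R) * a ^ m - ∑ i ∈ Finset.range (m + 1), a ^ i * b ^ (m - i) := by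
  induction m with
  | zero => simp
  | succ m ih =>
    have e1 : ∑ i ∈ Finset.range (m + 1), ((i + 1 : ℕ) : R) * (a ^ i * b ^ (m + 1 - 1 - i))
        = b * (∑ i ∈ Finset.range m, ((i + 1 : ℕ) : R) * (a ^ i * b ^ (m - 1 - i)))
          + ((m + 1 : ℕ) : R) * a ^ m := by
      rw [Finset.sum_range_succ, Finset.mul_sum]
      congr 1
      · refine Finset.sum_congr rfl fun i hi => ?_
        have hi' := Finset.mem_range.1 hi
        have : m + 1 - 1 - i = (m - 1 - i) + 1 := by omega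
        rw [this, pow_succ]; ring
      · have : m + 1 - 1 - m = 0 := by omega
        rw [this, pow_zero, mul_one]
    have e2 : ∑ i ∈ Finset.range (m + 1 + 1), a ^ i * b ^ (m + 1 - i)
        = b * (∑ i ∈ Finset.range (m + 1), a ^ i * b ^ (m - i)) + a ^ (m + 1) := by
      rw [Finset.sum_range_succ, Finset.mul_sum]
      congr 1
      · refine Finset.sum_congr rfl fun i hi => ?_
        have hi' := Finset.mem_range.1 hi
        have : m + 1 - i = (m - i) + 1 := by omega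
        rw [this, pow_succ]; ring
      · rw [Nat.sub_self, pow_zero, mul_one]
    rw [e1, e2, mul_add, mul_left_comm, ih]
    push_cast
    ring

end alg

section gen
universe u
variable {E : Type u} [NormedAddCommGroup E] [NormedSpace ℝ E] [FiniteDimensional ℝ E]
  {X : Set E} {x₁ x₂ : E → Ext E}

/-- the form `∑ (i + 1) x₁^i x₂^(m-1-i)` -/
def pS (x₁ x₂ : E → Ext E) (m : ℕ) : E → Ext E :=
  ∑ i ∈ Finset.range m, ((i : ℝ) + 1) • (x₁ ^ i * x₂ ^ (m - 1 - i))

/-- the form `∑ x₁^i x₂^(m-i)` -/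
def hS (x₁ x₂ : E → Ext E) (m : ℕ) : E → Ext E :=
  ∑ i ∈ Finset.range (m + 1), x₁ ^ i * x₂ ^ (m - i)

theorem ec_pS (h₁ : EC X x₁) (h₂ : EC X x₂) (m : ℕ) : EC X (pS x₁ x₂ m) :=
  EC.sum fun i _ => ((h₁.pow i).mul (h₂.pow (m - 1 - i))).smul _

theorem ec_hS (h₁ : EC X x₁) (h₂ : EC X x₂) (m : ℕ) : EC X (hS x₁ x₂ m) :=
  EC.sum fun i _ => (h₁.pow i).mul (h₂.pow (m - i))

theorem rcl_pS (h₁ : EC X x₁) (h₂ : EC X x₂) (m : ℕ) : rcl (ec_pS h₁ h₂ m)
    = ∑ i ∈ Finset.range m, ((i + 1 : ℕ) : CW.H X) * (rcl h₁ ^ i * rcl h₂ ^ (m - 1 - i)) := by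
  refine (rcl_sum _ fun i => ((h₁.pow i).mul (h₂.pow (m - 1 - i))).smul ((i : ℝ) + 1)).trans ?_
  refine Finset.sum_congr rfl fun i _ => ?_
  rw [rcl_smul _ ((h₁.pow i).mul (h₂.pow (m - 1 - i))), rcl_mul (h₁.pow i) (h₂.pow (m - 1 - i)),
    rcl_pow h₁, rcl_pow h₂, Algebra.smul_def]
  congr 1
  push_cast
  simp

theorem rcl_hS (h₁ : EC X x₁) (h₂ : EC X x₂) (m : ℕ) : rcl (ec_hS h₁ h₂ m)
    = ∑ i ∈ Finset.range (m + 1), rcl h₁ ^ i * rcl h₂ ^ (m - i) := by
  refine (rcl_sum _ fun i => (h₁.pow i).mul (h₂.pow (m - i))).trans ?_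
  refine Finset.sum_congr rfl fun i _ => ?_
  rw [rcl_mul (h₁.pow i) (h₂.pow (m - i)), rcl_pow h₁, rcl_pow h₂]

theorem Hom.sum {j : ℕ} {κ : Type*} {s : Finset κ} {w : κ → E → Ext E}
    (h : ∀ i ∈ s, Hom j (w i)) : Hom j (∑ i ∈ s, w i) := by
  classical
  induction s using Finset.induction_on with
  | empty => rw [Finset.sum_empty]; exact Hom.zero
  | insert i s hi ih =>
    rw [Finset.sum_insert hi]
    exact (h i (Finset.mem_insert_self _ _)).add (ih fun i hi => h i (Finset.mem_insert_of_mem hi))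

theorem hom_pS {k : ℕ} (h₁ : Hom k x₁) (h₂ : Hom k x₂) (m : ℕ) :
    Hom (k * (m - 1)) (pS x₁ x₂ m) := by
  refine Hom.sum fun i hi => Hom.smul _ ?_
  have hi' := Finset.mem_range.1 hi
  have := (h₁.pow i).mul (h₂.pow (m - 1 - i))
  rw [← Nat.mul_add] at this
  have e : i + (m - 1 - i) = m - 1 := by omega
  rwa [e] at this



end gen

section div
variable {n : Type} [Fintype n] [DecidableEq n]
  {E : Type} [NormedAddCommGroup E] [NormedSpace ℝ E] [FiniteDimensional ℝ E]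
  {ι ι₁ ι' : Type} [Fintype ι] [DecidableEq ι] [Fintype ι₁] [DecidableEq ι₁] [Fintype ι']
  [DecidableEq ι']
  {X : Set E} {P P₁ : E → EuclideanSpace ℝ n →L[ℝ] EuclideanSpace ℝ n}
  {W : E → (ι × Fin 2 → n) → ℝ} {W₁ : E → (ι₁ × Fin 2 → n) → ℝ} {d k m : ℕ}
  {x₁ x₂ : E → Ext E}


/-- Whitney with a given orientation of the sum, up to sign -/
theorem whitney_sign (hXc : IsPreconnected X) (h : OR X P W) (h' : OR X P₁ W₁)
    (h0 : ∀ x ∈ X, ∀ v, P x (P₁ x v) = 0) {Q : E → EuclideanSpace ℝ n →L[ℝ] EuclideanSpace ℝ n}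
    {V : E → ((ι ⊕ ι₁) × Fin 2 → n) → ℝ} (hQ : OR X Q V) (hs : ∀ x ∈ X, Q x = P x + P₁ x) :
    ∃ s : ℝ, (s = 1 ∨ s = -1) ∧ Coh X (eR P W * eR P₁ W₁)
      ((s * ((Fintype.card ι + Fintype.card ι₁).choose (Fintype.card ι) : ℝ)⁻¹) • eR Q V) := by
  have h1 := T.OR.coh_add h h' h0
  have hs1 := h.add h' h0
  set C : ℝ := ((Fintype.card ι + Fintype.card ι₁).choose (Fintype.card ι) : ℝ) with hC
  have hC0 : C ≠ 0 := by
    rw [hC]
    exact_mod_cast (Nat.choose_pos (Nat.le_add_right _ _)).ne'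
  have hQ' : OF X (fun x => mtx (P x + P₁ x)) (wC V) := by
    refine ⟨fun x hx => hs1.of.sP x hx, hQ.of.sW, fun x hx => ?_⟩
    have := hQ.of.fr x hx
    rwa [hs x hx] at this
  have e1 : rcl h.ec_eR * rcl h'.ec_eR = (C⁻¹ : ℂ) • rcl hs1.ec_eR := by
    have h2 := rcl_congr hs1.ec_eR ((h.ec_eR.mul h'.ec_eR).smul C) h1
    rw [rcl_smul _ (h.ec_eR.mul h'.ec_eR), rcl_mul h.ec_eR h'.ec_eR] at h2
    rw [h2, smul_smul, inv_mul_cancel₀ (by exact_mod_cast hC0), one_smul]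
  have e2 : rcl hQ.ec_eR = ec hQ' := by
    rw [hQ.rcl_eR]
    exact ec_congr _ _ (fun x hx => by rw [hs x hx]) fun _ _ => rfl
  rcases ec_sign hXc hs1.of hQ' with e | e
  · refine ⟨1, Or.inl rfl, (rcl_eq_iff (h.ec_eR.mul h'.ec_eR) (hQ.ec_eR.smul _)).1 ?_⟩
    rw [rcl_mul h.ec_eR h'.ec_eR, rcl_smul _ hQ.ec_eR, e1, e2, e, hs1.rcl_eR, one_mul]
    push_cast
    rfl
  · refine ⟨-1, Or.inr rfl, (rcl_eq_iff (h.ec_eR.mul h'.ec_eR) (hQ.ec_eR.smul _)).1 ?_⟩
    rw [rcl_mul h.ec_eR h'.ec_eR, rcl_smul _ hQ.ec_eR, e1, e2, e, hs1.rcl_eR]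
    push_cast
    simp

end div

end Crest.Agent.R208.XE
end
end

-- ▼ part R208/XE2

/-! Row 208, block XE (helper126), (X4').  XE2: the difference of two oriented projection fields is
oriented; the field `T_p C_q` over `F`; the Whitney formula on `F`. -/

set_option autoImplicit false
set_option linter.unusedSectionVars false

open MeasureTheory Set Filter Topology Module
open scoped ContDiff RealInnerProductSpace Matrix
open Crest.GeometryTopology.Submanifold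
open Crest.Agent.R241.DDefs
open Crest.Agent.R241.D2
open Crest.Agent.R208.F Crest.Agent.R208.FI Crest.Agent.R208.CW Crest.Agent.R208.T

noncomputable section

namespace Crest.Agent.R208.XE

section gen
variable {n : Type} [Fintype n] [DecidableEq n]
  {E : Type} [NormedAddCommGroup E] [NormedSpace ℝ E] [FiniteDimensional ℝ E]
  {ι ι₁ ι' κ : Type} [Fintype ι] [DecidableEq ι] [Fintype ι₁] [DecidableEq ι₁] [Fintype ι']
  [DecidableEq ι'] [Fintype κ] [DecidableEq κ]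
  {X : Set E} {P Q : E → EuclideanSpace ℝ n →L[ℝ] EuclideanSpace ℝ n}
  {W : E → (ι × Fin 2 → n) → ℝ} {V : E → (ι' × Fin 2 → n) → ℝ}

/-- descent of an orientation from a stabilised field -/
theorem OR.unpush (W' : E → (ι × Fin 2 → n ⊕ κ) → ℝ) (sP : ∀ x ∈ X, ContDiffAt ℝ ∞ P x)
    (h : OR X (pushE (iM n κ) P) W') :
    OR X P (fun x I => W' x (fun i => Sum.inl (I i))) := by
  refine ⟨sP, fun x hx I => h.sW x hx _, fun x hx => ?_⟩
  obtain ⟨f, h1, h2, h3⟩ := h.fr x hx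
  have hS : (iM n κ)ᵀ * iM n κ = 1 := iM_iso κ
  -- `S Sᵀ f = f`
  have hf : ∀ i j, f i j = ∑ a, (f * fᵀ) i a * f a j := fun i j => by
    have : f = f * fᵀ * f := by rw [Matrix.mul_assoc, h1, Matrix.mul_one]
    conv_lhs => rw [this, Matrix.mul_apply]
  have hcol : ∀ j, (WithLp.toLp 2 (fun i => f i j) : EuclideanSpace ℝ (n ⊕ κ))
      = pushE (iM n κ) P x (WithLp.toLp 2 (fun i => f i j)) := fun j => by
    ext i
    rw [h2]
    exact hf i j
  have hSS : iM n κ * ((iM n κ)ᵀ * f) = f := by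
    ext i j
    have e2 : mE (iM n κ) (mE (iM n κ)ᵀ (pushE (iM n κ) P x (WithLp.toLp 2 (fun i => f i j))))
        = pushE (iM n κ) P x (WithLp.toLp 2 (fun i => f i j)) := by
      change mE (iM n κ) (mE (iM n κ)ᵀ (mE (iM n κ) (P x (mE (iM n κ)ᵀ _))))
        = mE (iM n κ) (P x (mE (iM n κ)ᵀ _))
      rw [mE_mE (iM n κ) (iM n κ)ᵀ, hS, mE_one]
    have e3 : mE (iM n κ) (mE (iM n κ)ᵀ (WithLp.toLp 2 (fun i => f i j)))
        = (WithLp.toLp 2 (fun i => f i j) : EuclideanSpace ℝ (n ⊕ κ)) := by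
      conv_lhs => rw [hcol j]
      rw [e2, ← hcol j]
    have e4 := congrArg (fun v : EuclideanSpace ℝ (n ⊕ κ) => v i) e3
    have e5 : (iM n κ * ((iM n κ)ᵀ * f)) i j
        = mE (iM n κ) (mE (iM n κ)ᵀ (WithLp.toLp 2 (fun i => f i j))) i := by
      rw [mE_mE, ← Matrix.mul_assoc]
      rfl
    exact e5.trans e4
  refine ⟨(iM n κ)ᵀ * f, ?_, fun v i => ?_, fun I => ?_⟩
  · rw [Matrix.transpose_mul, Matrix.transpose_transpose, Matrix.mul_assoc, hSS, h1]
  · have e1 : P x v = mE (iM n κ)ᵀ (pushE (iM n κ) P x (mE (iM n κ) v)) := by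
      change P x v = mE (iM n κ)ᵀ (mE (iM n κ) (P x (mE (iM n κ)ᵀ (mE (iM n κ) v))))
      rw [mE_mE, mE_mE, hS, mE_one, mE_one]
    have e2 : pushE (iM n κ) P x (mE (iM n κ) v) = mE (f * fᵀ) (mE (iM n κ) v) := by
      ext k
      rw [h2, mE_apply]
    rw [e1, e2, mE_mE, mE_mE, mE_apply, Matrix.transpose_mul, Matrix.transpose_transpose]
    simp only [Matrix.mul_assoc]
  · rw [h3]
    congr 1
    ext a b
    simp only [Matrix.submatrix_apply, id, Matrix.mul_apply, Matrix.transpose_apply, iM]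
    rw [Fintype.sum_sum_type]
    simp [Matrix.one_apply]

/-- **the difference of two oriented projection fields is oriented** (any codimension) -/
theorem exists_OR_sub [Nonempty ι] (hP : OR X P W) (hQ : OR X Q V)
    (h1 : ∀ x ∈ X, ∀ v, P x (Q x v) = P x v) (hc : Fintype.card ι + Fintype.card ι₁ = Fintype.card ι') :
    ∃ W₁ : E → (ι₁ × Fin 2 → n) → ℝ, OR X (fun x => Q x - P x) W₁ := by
  rcases X.eq_empty_or_nonempty with rfl | hne
  · exact ⟨fun _ _ => 0, fun _ hx => hx.elim, fun _ hx => hx.elim, fun _ hx => hx.elim⟩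
  obtain ⟨q, r, eq, -⟩ := exists_par hQ hne
  have hS := iM_iso (n := n) (Fin q)
  have hP' := hP.push hS
  have hQ' := hQ.push hS
  obtain ⟨V', hV'⟩ := OR.compl eq hQ'
  have h0 : ∀ x ∈ X, ∀ v, pushE (iM n (Fin q)) P x ((1 - pushE (iM n (Fin q)) Q x :
      EuclideanSpace ℝ (n ⊕ Fin q) →L[ℝ] EuclideanSpace ℝ (n ⊕ Fin q)) v) = 0 := by
    intro x hx v
    change pushE (iM n (Fin q)) P x (v - pushE (iM n (Fin q)) Q x v) = 0
    rw [map_sub, sub_eq_zero]
    change mE _ (P x (mE _ v)) = mE _ (P x (mE (iM n (Fin q))ᵀ (mE (iM n (Fin q)) (Q x (mE _ v)))))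
    rw [mE_mE, hS, mE_one, h1 x hx]
  have h2 := hP'.add hV' h0
  have hcard : Fintype.card (((ι ⊕ Fin (r + 1)) × Fin 2) ⊕ (ι₁ × Fin 2))
      = Fintype.card (n ⊕ Fin q) := by
    rw [← Fintype.card_congr eq]
    simp only [Fintype.card_sum, Fintype.card_prod, Fintype.card_fin]
    omega
  obtain ⟨W', hW'⟩ := OR.compl (Fintype.equivOfCardEq hcard) h2
  have h3 : OR X (pushE (iM n (Fin q)) (fun x => Q x - P x)) W' := by
    have e : (fun x => 1 - (pushE (iM n (Fin q)) P x + (1 - pushE (iM n (Fin q)) Q x)))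
        = pushE (iM n (Fin q)) (fun x => Q x - P x) := by
      funext x
      refine ContinuousLinearMap.ext fun v => ?_
      change v - (mE _ (P x (mE _ v)) + (v - mE _ (Q x (mE _ v))))
        = mE _ (Q x (mE _ v) - P x (mE _ v))
      rw [map_sub]
      abel
    rw [← e]
    exact hW'
  exact ⟨_, OR.unpush W' (fun x hx => (hQ.sP x hx).sub (hP.sP x hx)) h3⟩

end gen

variable {n N k m : ℕ} {κ : ℝ} {S : Set (Euc N)} {G : Geo n N κ S} {p : Euc N}
  {ι : Type} [Fintype ι] [DecidableEq ι] {W : Euc N × Euc N → (ι × Fin 2 → Fin N) → ℝ}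
  {x : Euc N → Ext (Euc N)}

/-- the field of projections onto `T_p C_q`, the complement of `V_pq` in `T_p M` -/
def F1 (h : GT.Bla G k) (z : Euc N × Euc N) : Euc N →L[ℝ] Euc N := G.P z.1 - FV.PVB h z


theorem PV_P (h : GT.Bla G k) {z : Euc N × Euc N} (hz : z ∈ GT.FF S) (v : Euc N) :
    FV.PVB h z (G.P z.1 v) = FV.PVB h z v := by
  have hV := FV.vfield_PVB h
  have h1 : ∀ w, ⟪FV.PVB h (z.1, z.2) (G.P z.1 v), w⟫ = ⟪FV.PVB h (z.1, z.2) v, w⟫ := fun w => by
    rw [hV.inner_PV hz, hV.inner_PV hz, inner_P_left G hz.1,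
      (P_eq_self G hz.1).1 (h.Vs_le hz (hV.PV_mem hz w))]
  exact ext_inner_right ℝ h1

theorem PV_F1 (h : GT.Bla G k) {z : Euc N × Euc N} (hz : z ∈ GT.FF S) (v : Euc N) :
    FV.PVB h z (F1 h z v) = 0 := by
  change FV.PVB h z (G.P z.1 v - FV.PVB h z v) = 0
  rw [map_sub, PV_P h hz, (FV.vfield_PVB h).PV_idem (p := z.1) (q := z.2) hz, sub_self]

/-- **`T_p C_q` is oriented over `F`** -/
theorem exists_OR_F1 {ι₁ : Type} [Fintype ι₁] [DecidableEq ι₁] (h : GT.Bla G k) (hk : 2 ≤ k)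
    (hn : Even n) (hι : 2 * Fintype.card ι = k) (hι₁ : 2 * Fintype.card ι₁ + k = n)
    (hW : OR (GT.FF S) (FV.PVB h) W) :
    ∃ W₁ : Euc N × Euc N → (ι₁ × Fin 2 → Fin N) → ℝ, OR (GT.FF S) (F1 h) W₁ := by
  have : Nonempty ι := Fintype.card_pos_iff.1 (by omega)
  obtain ⟨a, ha⟩ := hn
  obtain ⟨W', hS⟩ := GP.exists_OR_S (G := G) h.bl h.ty hk (ι := Fin a)
    (by rw [Fintype.card_fin]; omega)
  have hS' : OR (GT.FF S) (fun z : Euc N × Euc N => G.P z.1) (fun z => W' z.1) :=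
    GP.OR.comp hS (f := fun z : Euc N × Euc N => z.1) (fun _ _ => contDiffAt_fst)
      fun z hz => hz.1
  exact exists_OR_sub hW hS' (fun z hz v => PV_P h hz v) (by rw [Fintype.card_fin]; omega)

/-- `H^(n-1)` of the sphere bundle of `V` over `F` -/
theorem exactIn_Sph_F {ι' : Type} [Fintype ι'] [DecidableEq ι']
    {W' : Euc N → (ι' × Fin 2 → Fin N) → ℝ} {h : GT.Bla G k} (D : XM h m W p x)
    (hι' : 2 * Fintype.card ι' = n) (hS : OR S G.P W') (he : ¬ Coh S (eR G.P W') 0)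
    {j : ℕ} (hj : n ≤ j + 1) (hj' : j + 1 < n + k) :
    ExactIn (Sph (GT.FF S) (FV.PVB h)) j :=
  (US_exact h D.hk D.hkn ⟨m, D.hn⟩ D.hp D.hι (OR_Cut h D.hp D.hW) D.sx D.cx D.dx D.ex hι' hS he
    hj hj').transport (FV.smap_dn h) (FV.smap_up h) fun _ hζ => FV.up_dn h hζ

end Crest.Agent.R208.XE
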