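import Crest.Agent.R208.CW4
import Crest.Agent.R208.CW2
import Mathlib.RingTheory.PowerSeries.Derivative
import Mathlib.RingTheory.PowerSeries.WellKnown
import Crest.Agent.R208.CW7b
import Crest.Agent.R208.GD3
import Crest.Agent.R208.VX2
import Crest.Agent.R208.GQ5a
import Crest.Agent.R208.FG5
import Crest.Agent.R208.GS1
import Crest.Agent.R208.GR1
import Crest.Agent.R208.CM3e
import Crest.Agent.R208.GQ4a
import Crest.Agent.R208.GQ4b
import Crest.Agent.R208.TX7b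
import Crest.Agent.R208.XE2

-- ▼ part R208/CW9
section

/-! Row 208, block CW (helper586).  CW9: Chern classes of the tensor product with a line bundle. -/

set_option autoImplicit false
set_option linter.unusedSectionVars false
set_option linter.unusedSimpArgs false
set_option linter.unusedVariables false

open scoped BigOperators ContDiff Topology
open Module Set Matrix

noncomputable section

namespace Crest.Agent.R208.CW

open Crest.Agent.R208.F Crest.Agent.R208.FI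

universe u

section twist
open PowerSeries
variable {A : Type*} [CommRing A]

/-- the power sums of the tensor product with a line of first Chern class `z` -/
def twS (z : A) (s : ℕ → A) (j : ℕ) : A :=
  ∑ i ∈ Finset.range (j + 1), (j.choose i : A) * s i * z ^ (j - i)

/-- `1 + z X` -/
def gQ (z : A) : PowerSeries A := 1 + PowerSeries.C z * PowerSeries.X

/-- `(1 + z X)⁻¹` -/
def gI (z : A) : PowerSeries A := PowerSeries.mk fun n => (-z) ^ n

theorem gQ_mul_gI (z : A) : gQ z * gI z = 1 := by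
  refine PowerSeries.ext fun n => ?_
  rw [gQ, add_mul, one_mul, map_add, mul_assoc, PowerSeries.coeff_C_mul]
  cases n with
  | zero => simp [gI]
  | succ n =>
    rw [PowerSeries.coeff_succ_X_mul, gI, PowerSeries.coeff_mk, PowerSeries.coeff_mk,
      PowerSeries.coeff_one, if_neg (Nat.succ_ne_zero n)]
    ring

theorem gI_eq (z : A) : gI z = PowerSeries.rescale (-z) (PowerSeries.mk 1) := by
  refine PowerSeries.ext fun n => ?_
  rw [PowerSeries.coeff_rescale, gI, PowerSeries.coeff_mk, PowerSeries.coeff_mk]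
  simp

theorem coeff_gI_pow (z : A) (d n : ℕ) :
    PowerSeries.coeff n (gI z ^ (d + 1)) = (-z) ^ n * ((d + n).choose d : A) := by
  rw [gI_eq, ← map_pow, PowerSeries.mk_one_pow_eq_mk_choose_add, PowerSeries.coeff_rescale,
    PowerSeries.coeff_mk]

theorem coeff_gQ_pow (z : A) (m n : ℕ) :
    PowerSeries.coeff n (gQ z ^ m) = (m.choose n : A) * z ^ n := by
  induction m generalizing n with
  | zero =>
    rw [pow_zero, PowerSeries.coeff_one]
    cases n with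
    | zero => simp
    | succ n => simp
  | succ m ih =>
    have e : gQ z ^ (m + 1) = gQ z ^ m + PowerSeries.C z * (PowerSeries.X * gQ z ^ m) := by
      rw [pow_succ]; nth_rewrite 2 [gQ]; ring
    rw [e, map_add, PowerSeries.coeff_C_mul]
    cases n with
    | zero => simp [ih]
    | succ n =>
      rw [PowerSeries.coeff_succ_X_mul, ih, ih, Nat.choose_succ_succ]
      push_cast
      ring

/-- `X / (1 + z X)` -/
def gu (z : A) : PowerSeries A := PowerSeries.X * gI z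

theorem gu_pow (z : A) (d : ℕ) : gu z ^ d = PowerSeries.X ^ d * gI z ^ d := mul_pow _ _ _

theorem hasSubst_gu (z : A) : PowerSeries.HasSubst (gu z) :=
  PowerSeries.HasSubst.of_constantCoeff_zero' (by simp [gu])

theorem coeff_gu_pow (z : A) {d m : ℕ} (h : m < d) : PowerSeries.coeff m (gu z ^ d) = 0 := by
  rw [gu_pow, PowerSeries.coeff_X_pow_mul', if_neg (by omega)]

theorem coeff_subst_gu (z : A) (f : PowerSeries A) {m N : ℕ} (h : m ≤ N) :
    PowerSeries.coeff m (f.subst (gu z))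
      = ∑ d ∈ Finset.range (N + 1), PowerSeries.coeff d f * PowerSeries.coeff m (gu z ^ d) := by
  rw [PowerSeries.coeff_subst' (hasSubst_gu z)]
  refine (finsum_eq_sum_of_support_subset _ (s := Finset.range (N + 1)) fun d hd => ?_).trans ?_
  · by_contra hn
    refine hd ?_
    have : N < d := by simpa using hn
    simp only [coeff_gu_pow z (lt_of_le_of_lt h this), smul_zero]
  · simp only [smul_eq_mul]

theorem coeff_mul_subst_gu (z : A) (g f : PowerSeries A) (j : ℕ) :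
    PowerSeries.coeff j (g * f.subst (gu z))
      = ∑ d ∈ Finset.range (j + 1), PowerSeries.coeff d f * PowerSeries.coeff j (g * gu z ^ d) := by
  rw [PowerSeries.coeff_mul]
  have h1 : ∀ p ∈ Finset.HasAntidiagonal.antidiagonal j, PowerSeries.coeff p.1 g
      * PowerSeries.coeff p.2 (f.subst (gu z))
      = ∑ d ∈ Finset.range (j + 1), PowerSeries.coeff d f
        * (PowerSeries.coeff p.1 g * PowerSeries.coeff p.2 (gu z ^ d)) := fun p hp => by
    have hle : p.2 ≤ j := by have := Finset.HasAntidiagonal.mem_antidiagonal.1 hp; omega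
    rw [coeff_subst_gu z f hle, Finset.mul_sum]
    exact Finset.sum_congr rfl fun d _ => by ring
  rw [Finset.sum_congr rfl h1, Finset.sum_comm]
  refine Finset.sum_congr rfl fun d _ => ?_
  rw [PowerSeries.coeff_mul, Finset.mul_sum]

theorem deriv_gQ (z : A) : PowerSeries.derivative A (gQ z) = PowerSeries.C z := by
  refine PowerSeries.ext fun n => ?_
  rw [PowerSeries.coeff_derivative, gQ, map_add, PowerSeries.coeff_C_mul, PowerSeries.coeff_one,
    PowerSeries.coeff_X, PowerSeries.coeff_C, if_neg (Nat.succ_ne_zero n)]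
  cases n with
  | zero => simp
  | succ n => simp

theorem deriv_gI (z : A) :
    PowerSeries.derivative A (gI z) = - (PowerSeries.C z * (gI z * gI z)) := by
  have h := congrArg (PowerSeries.derivative A) (gQ_mul_gI z)
  rw [Derivation.leibniz, deriv_gQ, Derivation.map_one_eq_zero, smul_eq_mul, smul_eq_mul] at h
  calc PowerSeries.derivative A (gI z)
      = (gQ z * gI z) * PowerSeries.derivative A (gI z) := by rw [gQ_mul_gI, one_mul]
    _ = gI z * (gQ z * PowerSeries.derivative A (gI z) + gI z * PowerSeries.C z)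
        - PowerSeries.C z * (gI z * gI z) := by ring
    _ = _ := by rw [h, mul_zero, zero_sub]

theorem deriv_gu (z : A) : PowerSeries.derivative A (gu z) = gI z * gI z := by
  rw [gu, Derivation.leibniz, deriv_gI, smul_eq_mul, smul_eq_mul, PowerSeries.derivative_X]
  have h := gQ_mul_gI z
  calc PowerSeries.X * -(PowerSeries.C z * (gI z * gI z)) + gI z * 1
      = gI z * (gQ z * gI z) - PowerSeries.X * (PowerSeries.C z * (gI z * gI z)) := by
        rw [h]; ring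
    _ = gI z * gI z := by rw [gQ]; ring

theorem deriv_gQ_pow (z : A) (r : ℕ) :
    PowerSeries.derivative A (gQ z ^ r) = gQ z ^ r * ((r : PowerSeries A) * PowerSeries.C z * gI z) := by
  induction r with
  | zero => rw [pow_zero, Derivation.map_one_eq_zero]; simp
  | succ r ih =>
    rw [pow_succ, Derivation.leibniz, ih, deriv_gQ, smul_eq_mul, smul_eq_mul]
    have h := gQ_mul_gI z
    calc gQ z ^ r * PowerSeries.C z
          + gQ z * (gQ z ^ r * ((r : PowerSeries A) * PowerSeries.C z * gI z))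
        = gQ z ^ r * PowerSeries.C z * (gQ z * gI z)
          + gQ z * (gQ z ^ r * ((r : PowerSeries A) * PowerSeries.C z * gI z)) := by
          rw [h, mul_one]
      _ = _ := by push_cast; ring

theorem alt_twS {s : ℕ → A} {r : ℕ} (h0 : s 0 = r) (z : A) :
    alt (twS z s) = (r : PowerSeries A) * PowerSeries.C z * gI z
      + gI z * gI z * (alt s).subst (gu z) := by
  refine PowerSeries.ext fun j => ?_
  rw [map_add, coeff_mul_subst_gu]
  have e1 : PowerSeries.coeff j ((r : PowerSeries A) * PowerSeries.C z * gI z)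
      = (r : A) * z * (-z) ^ j := by
    have : (r : PowerSeries A) * PowerSeries.C z = PowerSeries.C ((r : A) * z) := by
      rw [map_mul, map_natCast]
    rw [this, PowerSeries.coeff_C_mul, gI, PowerSeries.coeff_mk]
  have e2 : ∀ d ∈ Finset.range (j + 1), PowerSeries.coeff d (alt s)
      * PowerSeries.coeff j (gI z * gI z * gu z ^ d)
      = (-1) ^ j * (((j + 1).choose (d + 1) : A) * s (d + 1) * z ^ (j - d)) := fun d hd => by
    have hd' : d ≤ j := Nat.lt_succ_iff.1 (Finset.mem_range.1 hd)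
    have e3 : gI z * gI z * gu z ^ d = PowerSeries.X ^ d * gI z ^ (d + 1 + 1) := by
      rw [gu_pow]; ring
    rw [e3, PowerSeries.coeff_X_pow_mul', if_pos hd', coeff_gI_pow, alt, PowerSeries.coeff_mk]
    have e4 : d + 1 + (j - d) = j + 1 := by omega
    rw [e4, neg_pow z (j - d)]
    have e5 : (-1 : A) ^ j = (-1) ^ d * (-1) ^ (j - d) := by rw [← pow_add]; congr 1; omega
    rw [e5]; ring
  rw [Finset.sum_congr rfl e2, e1, ← Finset.mul_sum, alt, PowerSeries.coeff_mk, twS,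
    Finset.sum_range_succ']
  simp only [Nat.choose_zero_right, Nat.cast_one, one_mul, h0, Nat.sub_zero]
  have e6 : ∀ d, j + 1 - (d + 1) = j - d := fun d => by omega
  simp only [e6]
  rw [neg_pow z j, pow_succ]
  ring

variable [Algebra ℂ A]

/-- the twisted Chern series -/
theorem cser_twS {s : ℕ → A} {r : ℕ} (h0 : s 0 = r) (z : A) :
    cser (twS z s) = gQ z ^ r * (cser s).subst (gu z) := by
  symm
  refine cser_unique _ ?_ ?_
  · rw [coeff_mul_subst_gu, Finset.sum_range_one, pow_zero, mul_one, coeff_cser, el_zero, one_mul,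
      coeff_gQ_pow, Nat.choose_zero_right, Nat.cast_one, pow_zero, mul_one]
  · rw [Derivation.leibniz, PowerSeries.derivative_subst (hasSubst_gu z), cser_ode,
      PowerSeries.subst_mul (hasSubst_gu z), deriv_gu, deriv_gQ_pow, smul_eq_mul, smul_eq_mul,
      alt_twS h0]
    ring

/-- **Chern classes of `F ⊗ ℓ`** -/
theorem el_twS {s : ℕ → A} {r : ℕ} (h0 : s 0 = r) (hc : ∀ i, r < i → el s i = 0) (z : A) (j : ℕ) :
    el (twS z s) j = ∑ i ∈ Finset.range (j + 1),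
      ((r - i).choose (j - i) : A) * z ^ (j - i) * el s i := by
  rw [← coeff_cser, cser_twS h0, coeff_mul_subst_gu]
  refine Finset.sum_congr rfl fun i hi => ?_
  have hi' : i ≤ j := Nat.lt_succ_iff.1 (Finset.mem_range.1 hi)
  rw [coeff_cser]
  rcases lt_or_ge r i with h | h
  · rw [hc i h, zero_mul, mul_zero]
  · have e1 : gQ z ^ r * gu z ^ i = PowerSeries.X ^ i * gQ z ^ (r - i) := by
      obtain ⟨k, rfl⟩ := Nat.exists_eq_add_of_le h
      rw [gu_pow, Nat.add_sub_cancel_left]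
      calc gQ z ^ (i + k) * (PowerSeries.X ^ i * gI z ^ i)
          = PowerSeries.X ^ i * gQ z ^ k * (gQ z * gI z) ^ i := by rw [mul_pow]; ring
        _ = _ := by rw [gQ_mul_gI, one_pow, mul_one]
    rw [e1, PowerSeries.coeff_X_pow_mul', if_pos hi', coeff_gQ_pow]
    ring




end twist

section geo
variable {E : Type*} [NormedAddCommGroup E] [NormedSpace ℝ E] [FiniteDimensional ℝ E]
  {n m l : Type*} [Fintype n] [DecidableEq n] [Fintype m] [DecidableEq m] [Fintype l]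
  [DecidableEq l] {X : Set E} {dX : ℕ}


/-- **Chern classes of `Q ⊗ L`**, `L` of rank one; the tensor product enters only through its
power sums -/
theorem cc_twist (hX : Sub dX X) {Q : E → Matrix n n ℂ} (hQ : IdF X Q) {L : E → Matrix m m ℂ}
    (hL : IdF X L) {R : E → Matrix l l ℂ} (hR : IdF X R) {r : ℕ} (hr : ∀ x ∈ X, (Q x).rank = r)
    (hl : ∀ x ∈ X, (L x).rank = 1)
    (h : ∀ j, 1 ≤ j → sc hX hR j = ∑ i ∈ Finset.range (j + 1),
      (j.choose i : H X) * sc hX hQ i * sc hX hL (j - i)) (j : ℕ) :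
    cc hX hR j = ∑ i ∈ Finset.range (j + 1),
      ((r - i).choose (j - i) : H X) * sc hX hL 1 ^ (j - i) * cc hX hQ i := by
  have h0 := sc_zero_of_rank hX hQ hr
  have hc : ∀ i, r < i → el (sc hX hQ) i = 0 := fun i hi => by
    rw [← cc_eq_el]; exact cc_eq_zero hX hQ fun x hx => by rw [hr x hx]; exact hi
  rw [cc_eq_el]
  have e1 : el (sc hX hR) j = el (twS (sc hX hL 1) (sc hX hQ)) j :=
    el_congr fun i h1 _ => by
      rw [h i h1, twS]
      exact Finset.sum_congr rfl fun a _ => by rw [sc_line hX hL hl (i - a)]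
  rw [e1, el_twS h0 hc]
  simp only [cc_eq_el]

/-- top class of `Q ⊗ L` -/
theorem cc_twist_top (hX : Sub dX X) {Q : E → Matrix n n ℂ} (hQ : IdF X Q) {L : E → Matrix m m ℂ}
    (hL : IdF X L) {R : E → Matrix l l ℂ} (hR : IdF X R) {r : ℕ} (hr : ∀ x ∈ X, (Q x).rank = r)
    (hl : ∀ x ∈ X, (L x).rank = 1)
    (h : ∀ j, 1 ≤ j → sc hX hR j = ∑ i ∈ Finset.range (j + 1),
      (j.choose i : H X) * sc hX hQ i * sc hX hL (j - i)) :
    cc hX hR r = ∑ i ∈ Finset.range (r + 1), sc hX hL 1 ^ (r - i) * cc hX hQ i := by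
  rw [cc_twist hX hQ hL hR hr hl h]
  exact Finset.sum_congr rfl fun i _ => by rw [Nat.choose_self, Nat.cast_one, one_mul]




end geo

end Crest.Agent.R208.CW
end
end

-- ▼ part R208/GQ5b
section

/-! Row 208, block GQ (helper989), part GQ5b: the Euler class of `T + conj T` and the top Chern
class of `T`. -/

set_option autoImplicit false
set_option linter.unusedSectionVars false
set_option linter.unusedVariables false

open MeasureTheory Set Filter Topology Module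
open scoped ContDiff RealInnerProductSpace Matrix
open Crest.Agent.R208.F Crest.Agent.R208.FI Crest.Agent.R208.CW

noncomputable section

namespace Crest.Agent.R208.GQ

section abs
variable {E : Type*} [NormedAddCommGroup E] [NormedSpace ℝ E] [FiniteDimensional ℝ E]
  {ι n : Type*} [Fintype ι] [DecidableEq ι] [Fintype n] [DecidableEq n] {X : Set E} {dX : ℕ}
  {T P : E → Matrix n n ℂ} {W : E → (ι × Fin 2 → n) → ℂ}

/-- the complex structure of `T + conj T` with `+i` eigenspace `T` -/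
def jT (T : Matrix n n ℂ) : Matrix n n ℂ := Complex.I • (T - SP.cj T)

theorem rj_of {T P : Matrix n n ℂ} (hP : P.transpose = P) (hc : SP.cj P = P) (hs : P = T + SP.cj T)
    (h0 : T * T = T) (h1 : T * SP.cj T = 0) (h2 : SP.cj T * T = 0) : RJ P (jT T) := by
  have h3 : SP.cj T * SP.cj T = SP.cj T := by rw [← map_mul, h0]
  have h4 : SP.cj (SP.cj T) = T := by
    ext i j
    rw [SP.cj_apply, SP.cj_apply, Complex.conj_conj]
  refine ⟨hc, ?_, hP, ?_, ?_, ?_, ?_⟩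
  · rw [jT]
    ext i j
    have h5 : SP.cj (SP.cj T) i j = T i j := by rw [h4]
    rw [SP.cj_apply, SP.cj_apply] at h5
    simp only [SP.cj_apply, Matrix.smul_apply, Matrix.sub_apply, smul_eq_mul, map_mul, map_sub,
      Complex.conj_I, Complex.conj_conj]
    ring
  · rw [hs, add_mul, mul_add, mul_add, h0, h1, h2, h3]
    abel
  · rw [jT, Matrix.smul_mul, Matrix.mul_smul, smul_smul, Complex.I_mul_I, sub_mul, mul_sub, mul_sub,
      h0, h1, h2, h3, hs]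
    rw [neg_one_smul]
    abel
  · rw [jT, Matrix.smul_mul, hs, sub_mul, mul_add, mul_add, h0, h1, h2, h3]
    simp
  · rw [jT, Matrix.mul_smul, hs, mul_sub, add_mul, add_mul, h0, h1, h2, h3]
    simp

theorem qJ_jT {T P : Matrix n n ℂ} (hs : P = T + SP.cj T) : qJ P (jT T) = T := by
  rw [qJ, jT, hs]
  have e1 : Complex.I * (1 / 2) * Complex.I = -(1 / 2) := by
    linear_combination (1 / 2) * Complex.I_mul_I
  rw [← smul_neg, smul_smul, smul_smul, e1]
  module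

theorem transpose_of {P : Matrix n n ℂ} {W : (ι × Fin 2 → n) → ℂ} (h : Fr P W) :
    P.transpose = P := by
  obtain ⟨f, -, rfl, -⟩ := h
  rw [Matrix.transpose_mul, Matrix.transpose_transpose]

theorem rank_of (h : OF X P W) (hT : IdF X T) (hs : ∀ x ∈ X, P x = T x + SP.cj (T x))
    {x : E} (hx : x ∈ X) : (T x).rank = Fintype.card ι := by
  have h1 := (h.fr x hx).trace
  have h2 := rank_eq_trace (hT.idem x hx)
  have h3 : (SP.cj (T x)).trace = (starRingEnd ℂ) (T x).trace := by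
    rw [Matrix.trace, Matrix.trace, map_sum]
    exact Finset.sum_congr rfl fun i _ => rfl
  rw [hs x hx, Matrix.trace_add, h3, ← h2, Complex.conj_natCast, ← two_mul] at h1
  exact_mod_cast mul_left_cancel₀ two_ne_zero h1

/-- the Euler class of `T + conj T` -/
theorem ec_of (hX : Sub dX X) (hXc : IsPreconnected X) (h : OF X P W) (hT : IdF X T)
    (hc : ∀ x ∈ X, SP.cj (P x) = P x)
    (hs : ∀ x ∈ X, P x = T x + SP.cj (T x)) (h1 : ∀ x ∈ X, T x * SP.cj (T x) = 0)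
    (h2 : ∀ x ∈ X, SP.cj (T x) * T x = 0) :
    ∃ ε : ℂ, ε ≠ 0 ∧ ec h = ε • cc hX hT (Fintype.card ι) := by
  have hcjS : ∀ x ∈ X, SM ∞ (fun x => SP.cj (T x)) x := fun x hx => hT.conj.smooth x hx
  have hJ : ∀ x ∈ X, SM ∞ (fun x => jT (T x)) x := fun x hx =>
    ((hT.smooth x hx).sub (hcjS x hx)).csmul Complex.I
  have hr : ∀ x ∈ X, RJ (P x) (jT (T x)) := fun x hx =>
    rj_of (transpose_of (h.fr x hx)) (hc x hx) (hs x hx) (hT.idem x hx) (h1 x hx) (h2 x hx)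
  have hQ : IdF X (fun x => qJ (P x) (jT (T x))) := ⟨fun x hx => by
    have := SM.qJ (h.sP x hx) (hJ x hx)
    exact this, fun x hx => (hr x hx).qJ_idem⟩
  obtain ⟨ε, hε, e1⟩ := ec_complex hX hXc h hJ hr hQ
  refine ⟨ε * (2 ^ Fintype.card ι * ↑(Fintype.card ι).factorial * Complex.I ^ Fintype.card ι), ?_,
    e1.trans ?_⟩
  · refine mul_ne_zero ?_ (mul_ne_zero (mul_ne_zero (pow_ne_zero _ two_ne_zero) ?_)
      (pow_ne_zero _ Complex.I_ne_zero))
    · rcases hε with rfl | rfl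
      · exact one_ne_zero
      · exact neg_ne_zero.2 one_ne_zero
    · exact_mod_cast Nat.factorial_ne_zero _
  · have e2 : cc hX hQ (Fintype.card ι) = cc hX hT (Fintype.card ι) :=
      VX.cc_congr hX hQ hT (fun x hx => qJ_jT (hs x hx)) (Fintype.card ι)
    rw [e2]

end abs

section des
open Crest.GeometryTopology.Submanifold
open Crest.Agent.R241.DDefs
open Crest.Agent.R241.D2
open Crest.Agent.R208.GT

variable {n N k d : ℕ} {κ : ℝ} {S : Set (Euc N)} {G : Geo n N κ S}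
  {PV : Euc N × Euc N → Euc N →L[ℝ] Euc N} (hV : VField G PV) (h : Bla G k)
  {E' : Type} [NormedAddCommGroup E'] [NormedSpace ℝ E'] [FiniteDimensional ℝ E'] {Y : Set E'}
  {z : E' → Euc N × Euc N} {T F L : E' → Matrix (Fin N) (Fin N) ℂ}
  {ι : Type} [Fintype ι] [DecidableEq ι] {W : Euc N × Euc N → (ι × Fin 2 → Fin N) → ℝ}

theorem cr_mP (z : Euc N × Euc N) : SP.cr (mP G PV z) = R208.T.mtx (G.P z.2 - PV z.swap) :=
  VX.mV_eq (PTC G PV) z

theorem cj_mtx (A : Euc N →L[ℝ] Euc N) : SP.cj (R208.T.mtx A) = R208.T.mtx A := by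
  ext i j
  rw [SP.cj_apply, R208.T.mtx, Matrix.of_apply, Complex.conj_ofReal]

include hV h

/-- the Euler class of `T_p C_q` on `Y` -/
theorem ec_Fz (hD : Des G PV Y z T F L) (hY : Sub d Y) (hYc : IsPreconnected Y)
    (hW : R208.T.OR (FF S) (fun z => G.P z.1 - PV z) W) :
    ∃ ε : ℂ, ε ≠ 0 ∧ H.map hD.smap (ec hW.of) = ε • cc hY (hD.idf_F hV h) (Fintype.card ι) := by
  rw [ec_map]
  refine ec_of hY hYc _ _ (fun y _ => cj_mtx _) (fun y hy => ?_) (fun y hy => ?_) (fun y hy => ?_)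
  all_goals obtain ⟨ζ, hζ, e1, -, e2, -⟩ := hD.ex y hy
  · rw [e1, e2]
    exact ((cr_mP (G := G) (PV := PV) ζ.1.swap).symm.trans
      ((pencil_ZZ hV h hζ).fj_add_cj).symm)
  · rw [e2]; exact (pencil_ZZ hV h hζ).fj_mul_cj
  · rw [e2]; exact (pencil_ZZ hV h hζ).cj_mul_fj

/-- the Euler class of `T_q C_p` on `Y` -/
theorem ec_Tz (hD : Des G PV Y z T F L) (hY : Sub d Y) (hYc : IsPreconnected Y)
    (hW : R208.T.OR (FF S) (fun z => G.P z.1 - PV z) W) :
    ∃ ε : ℂ, ε ≠ 0 ∧ H.map (smap_swap.comp hD.smap) (ec hW.of) =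
      ε • cc hY (hD.idf_T hV h) (Fintype.card ι) := by
  rw [ec_map]
  refine ec_of hY hYc _ _ (fun y _ => cj_mtx _) (fun y hy => ?_) (fun y hy => ?_) (fun y hy => ?_)
  all_goals obtain ⟨ζ, hζ, e1, e2, -, -⟩ := hD.ex y hy
  · change R208.T.mtx (G.P (z y).swap.1 - PV (z y).swap) = _
    rw [e1, e2]
    exact ((cr_mP (G := G) (PV := PV) ζ.1).symm.trans
      ((pencil_ZZ hV h hζ).tj_add_cj).symm)
  · rw [e2]; exact (pencil_ZZ hV h hζ).tj_mul_cj
  · rw [e2]; exact (pencil_ZZ hV h hζ).cj_mul_tj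

/-- the rank of `T_J` -/
theorem rank_T (hD : Des G PV Y z T F L) (hW : R208.T.OR (FF S) (fun z => G.P z.1 - PV z) W)
    {y : E'} (hy : y ∈ Y) : (T y).rank = Fintype.card ι := by
  refine rank_of (hW.of.comp (smap_swap.comp hD.smap)) (hD.idf_T hV h) (fun y hy => ?_) hy
  obtain ⟨ζ, hζ, e1, e2, -, -⟩ := hD.ex y hy
  change R208.T.mtx (G.P (z y).swap.1 - PV (z y).swap) = _
  rw [e1, e2]
  exact ((cr_mP (G := G) (PV := PV) ζ.1).symm.trans
    ((pencil_ZZ hV h hζ).tj_add_cj).symm)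

/-- the top class of `F_J = T_J ⊗ ℓ` -/
theorem cc_F_top (hD : Des G PV Y z T F L) (hY : Sub d Y)
    (hW : R208.T.OR (FF S) (fun z => G.P z.1 - PV z) W) {r : ℕ} (hr : Fintype.card ι = r) :
    cc hY (hD.idf_F hV h) r =
      ∑ i ∈ Finset.range (r + 1), cc hY (hD.idf_T hV h) (r - i) * CW.sc hY hD.idf_L 1 ^ i := by
  rw [cc_twist_top hY (hD.idf_T hV h) hD.idf_L (hD.idf_F hV h)
    (fun y hy => (rank_T hV h hD hW hy).trans hr) (fun y hy => by
      obtain ⟨ζ, hζ, -, -, -, e⟩ := hD.ex y hy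
      rw [e]; exact LL_rank hζ) (fun j _ => hD.sc_F hV h hY j), ← Finset.sum_range_reflect]
  refine Finset.sum_congr rfl fun i hi => ?_
  rw [Finset.mem_range] at hi
  rw [mul_comm]
  congr 2
  omega

end des

end Crest.Agent.R208.GQ
end
end

-- ▼ part R208/GQ5c
section

/-! Row 208, block GQ (helper989), part GQ5c: power sums of `TM` and of `V`. -/

set_option autoImplicit false

open PowerSeries Finset

namespace Crest.Agent.R208.GQ

variable {A : Type*} [CommRing A] [Algebra ℂ A]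

/-- coefficients of the quotient by a unit -/
theorem coeff_eq_of_mul {F G : ℂ⟦X⟧} {u : ℂ⟦X⟧} (hu : constantCoeff u ≠ 0) {m : ℕ}
    (h : ∀ i ≤ m, coeff i (F * u) = coeff i (G * u)) : ∀ i ≤ m, coeff i F = coeff i G := by
  have h1 : X ^ (m + 1) ∣ (F - G) * u := by
    rw [X_pow_dvd_iff]
    intro i hi
    rw [sub_mul, map_sub, h i (by omega), sub_self]
  have h2 : X ^ (m + 1) ∣ F - G := by
    have h3 := h1.mul_right u⁻¹
    rwa [mul_assoc, PowerSeries.mul_inv_cancel _ hu, mul_one] at h3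
  intro i hi
  have h3 := (X_pow_dvd_iff.1 h2) i (by omega)
  rw [map_sub, sub_eq_zero] at h3
  exact h3

/-- power sums of `TM` -/
theorem tm_sums {l m : ℕ} (hl : 1 ≤ l) {x : A} {s : ℕ → A} {p : ℕ → ℂ} (μ : ℂ)
    (hp : ∀ j, j ≤ l * m → CW.el s j = if l ∣ j then p (j / l) • x ^ (j / l) else 0)
    (hrel : ∀ i ≤ m, coeff i (PowerSeries.mk p * (1 + C (2 * μ) * X)) =
      coeff i ((1 + C μ * X + X ^ 2) ^ (m + 1))) :
    ∀ i, 1 ≤ i → 2 * i ≤ l * m → s (2 * i) =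
      if l ∣ 2 * i then (-(l : ℂ) * coeff (2 * i / l) (QQ m μ)) • x ^ (2 * i / l) else 0 := by
  have hc : ∀ i ≤ m, coeff i (PowerSeries.mk p) = coeff i (PP m μ) :=
    coeff_eq_of_mul (q2_ne μ) (fun i hi => by rw [hrel i hi, PP_mul])
  have hli : ∀ i, (l * i) / l = i := fun i => Nat.mul_div_cancel_left i (by omega)
  obtain ⟨h1, h2⟩ := GA.sums_of_el (r := l * m) (by omega : l ≠ 0) (x := x) (s := s) (PP_const m μ)
    (th_PP m μ) (fun i _ hir => by
      have him : i ≤ m := Nat.le_of_mul_le_mul_left hir (by omega)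
      rw [hp _ hir, if_pos (dvd_mul_right l i), hli, ← hc i him, coeff_mk])
    (fun j hj hd => by rw [hp j hj, if_neg hd])
  intro i hi him
  by_cases hd : l ∣ 2 * i
  · rw [if_pos hd]
    obtain ⟨q, hq⟩ := hd
    have hq1 : 1 ≤ q := by
      rcases Nat.eq_zero_or_pos q with rfl | h
      · omega
      · exact h
    rw [hq, hli, h1 q hq1 (by omega), ← hq, pow_succ, (even_two_mul i).neg_one_pow]
    congr 1
    ring
  · rw [if_neg hd]
    exact h2 _ him hd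

theorem q2_coeff (a : ℂ) {i : ℕ} (hi : 1 ≤ i) :
    coeff i (C a * X * (1 + C a * X)⁻¹ : ℂ⟦X⟧) = -(-a) ^ i := by
  have h1 : (1 + C a * X : ℂ⟦X⟧)⁻¹ = PowerSeries.mk fun n => (-a) ^ n := by
    rw [PowerSeries.inv_eq_iff_mul_eq_one (by simp)]
    ext n
    rw [mul_add, mul_one, map_add, coeff_mk, show (PowerSeries.mk fun n => (-a) ^ n) * (C a * X) =
      C a * ((PowerSeries.mk fun n => (-a) ^ n) * X) by ring, coeff_C_mul]
    cases n with
    | zero => simp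
    | succ n =>
      rw [coeff_succ_mul_X, coeff_mk, coeff_one, if_neg (by omega), pow_succ]
      ring
  obtain ⟨j, rfl⟩ : ∃ j, i = j + 1 := ⟨i - 1, by omega⟩
  rw [h1, mul_assoc, coeff_C_mul, mul_comm X, coeff_succ_mul_X, coeff_mk, pow_succ]
  ring

/-- power sums of `V` on `Z` -/
theorem v_sums {l : ℕ} (hl : 1 ≤ l) {x : A} {s : ℕ → A} (μ : ℂ)
    (hcs : CW.cser s = 1 + C ((2 * μ) • x) * X ^ l) :
    ∀ i, 1 ≤ i → s (2 * i) =
      if l ∣ 2 * i then ((l : ℂ) * (-(2 * μ)) ^ (2 * i / l)) • x ^ (2 * i / l) else 0 := by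
  have hel : ∀ j, 1 ≤ j → CW.el s j = if j = l then (2 * μ) • x else 0 := by
    intro j hj
    rw [← CW.coeff_cser, hcs, map_add, coeff_one, if_neg (by omega), zero_add, coeff_C_mul,
      coeff_X_pow]
    split_ifs <;> simp
  have hli : ∀ i, (l * i) / l = i := fun i => Nat.mul_div_cancel_left i (by omega)
  have hth : GA.th (1 + C (2 * μ) * X : ℂ⟦X⟧) =
      (C (2 * μ) * X * (1 + C (2 * μ) * X)⁻¹) * (1 + C (2 * μ) * X) := by
    rw [mul_assoc, PowerSeries.inv_mul_cancel _ (q2_ne μ), mul_one, GA.th_add, GA.th_one,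
      GA.th_C_mul, GA.th_X, zero_add]
  intro i hi
  obtain ⟨h1, h2⟩ := GA.sums_of_el (r := 2 * i) (by omega : l ≠ 0) (x := x) (s := s)
    (P := 1 + C (2 * μ) * X) (by simp) hth (fun i hi1 hir => by
      rw [hel _ (Nat.mul_pos (by omega) hi1)]
      rcases Nat.lt_or_ge 1 i with h | h
      · rw [if_neg, map_add, coeff_one, if_neg (by omega), zero_add, coeff_C_mul, coeff_X,
          if_neg (by omega), mul_zero, zero_smul]
        intro h3
        have h4 : l * 1 < l * i := Nat.mul_lt_mul_of_pos_left h (by omega)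
        omega
      · have h5 : i = 1 := by omega
        subst h5
        rw [mul_one, if_pos rfl, pow_one, map_add, coeff_one, if_neg (by omega), zero_add,
          coeff_C_mul, coeff_one_X, mul_one])
    (fun j hj hd => by
      have hj1 : 1 ≤ j := by
        rcases Nat.eq_zero_or_pos j with rfl | h
        · exact absurd (dvd_zero l) hd
        · exact h
      rw [hel j hj1, if_neg (fun h => hd (by rw [h]))])
  by_cases hd : l ∣ 2 * i
  · rw [if_pos hd]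
    obtain ⟨q, hq⟩ := hd
    have hq1 : 1 ≤ q := by
      rcases Nat.eq_zero_or_pos q with rfl | h
      · omega
      · exact h
    rw [hq, hli, h1 q hq1 (by omega), ← hq, pow_succ, (even_two_mul i).neg_one_pow,
      q2_coeff _ hq1]
    congr 1
    ring
  · rw [if_neg hd]
    exact h2 _ le_rfl hd

end Crest.Agent.R208.GQ
end

-- ▼ part R208/GQ5d
section

/-! Row 208, block GQ (helper989), part GQ5d: power sums of `T_J`, `F_J` and the classes of `TM`, `V`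
on any `Des Y`. -/

set_option autoImplicit false
set_option linter.unusedSectionVars false
set_option linter.unusedVariables false

open MeasureTheory Set Filter Topology Module
open scoped ContDiff RealInnerProductSpace Matrix
open Crest.Agent.R208.F Crest.Agent.R208.FI Crest.Agent.R208.CW
open Crest.GeometryTopology.Submanifold
open Crest.Agent.R241.DDefs
open Crest.Agent.R241.D2
open Crest.Agent.R208.GT

noncomputable section

namespace Crest.Agent.R208.GQ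

section des

variable {n N k d dF : ℕ} {κ : ℝ} {S : Set (Euc N)} {G : Geo n N κ S}
  {PV : Euc N × Euc N → Euc N →L[ℝ] Euc N} (hV : VField G PV) (h : Bla G k)
  {E' : Type} [NormedAddCommGroup E'] [NormedSpace ℝ E'] [FiniteDimensional ℝ E'] {Y : Set E'}
  {z : E' → Euc N × Euc N} {T F L : E' → Matrix (Fin N) (Fin N) ℂ}

include hV h

/-- `T_q M = V + T_J + conj T_J` -/
theorem rel_T (hkn : k < n) (hD : Des G PV Y z T F L) (hY : Sub d Y) (hS : Sub n S)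
    (hF : Sub dF (FF S)) (j : ℕ) :
    (1 + (-1) ^ j) * CW.sc hY (hD.idf_T hV h) j =
      H.map hD.smap (FG.xq (CW.sc hS (idf_mM (G := G)) j)) -
        H.map hD.smap (CW.sc hF (idf_mV hV) j) := by
  rw [← hD.sc_TC hV h hY j, ← CW.map_sc hY hF hD.smap (idf_TCF hV h) j, ← map_sub]
  congr 1
  rw [FG.xq, CW.map_sc hF hS, eq_sub_iff_add_eq, add_comm]
  exact (sc_TC_sub hV h hkn hF j).symm

/-- `T_p M = V + F_J + conj F_J` -/
theorem rel_F (hkn : k < n) (hD : Des G PV Y z T F L) (hY : Sub d Y) (hS : Sub n S)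
    (hF : Sub dF (FF S)) (j : ℕ) :
    (1 + (-1) ^ j) * CW.sc hY (hD.idf_F hV h) j =
      H.map hD.smap (FG.xp (CW.sc hS (idf_mM (G := G)) j)) -
        H.map hD.smap (CW.sc hF (idf_mV hV) j) := by
  have e1 : CW.sc hF (idf_TCF hV h) j =
      FG.xq (CW.sc hS (idf_mM (G := G)) j) - CW.sc hF (idf_mV hV) j := by
    rw [FG.xq, CW.map_sc hF hS, eq_sub_iff_add_eq, add_comm]
    exact (sc_TC_sub hV h hkn hF j).symm
  rw [← hD.sc_TC' hV h hY j, ← CW.map_sc hY hF (smap_swap.comp hD.smap) (idf_TCF hV h) j, e1,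
    map_sub]
  congr 1
  · rw [FG.xq, FG.xp, H.map_map, H.map_map]
  · rw [← H.map_map smap_swap hD.smap, CW.map_sc hF hF, sc_V_swap hV h hkn hF]

end des

end Crest.Agent.R208.GQ
end
end

-- ▼ part R208/GS2
section

/-! Row 208, block GS (helper742), part GS2: the plane field of an orthonormal pair and its
complement descend to the quotient `D = Fr X P 2 / S¹`; the Euler class of `P` splits on `D`. -/

set_option autoImplicit false
set_option linter.unusedSectionVars false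

open Module Set Matrix
open scoped ContDiff RealInnerProductSpace
open Crest.Agent.R208.F Crest.Agent.R208.FI Crest.Agent.R208.CW Crest.Agent.R208.T

noncomputable section

namespace Crest.Agent.R208.GS

open Crest.Agent.R208.GT (rt rt_fst rt_zero' rt_one' cir_Fr)

section gen
variable {E : Type} [NormedAddCommGroup E] [NormedSpace ℝ E] [FiniteDimensional ℝ E]
  {ν : Type} [Fintype ν] [DecidableEq ν] {X : Set E} {ι ι' : Type*} [Fintype ι] [DecidableEq ι]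
  [Fintype ι'] [DecidableEq ι']
  {P : E → EuclideanSpace ℝ ν →L[ℝ] EuclideanSpace ℝ ν} {W : E → (ι × Fin 2 → ν) → ℝ}

/-- `v₀ v₀ᵀ + v₁ v₁ᵀ` -/
def PlZ (ζ : E × (Fin 2 → EuclideanSpace ℝ ν)) : EuclideanSpace ℝ ν →L[ℝ] EuclideanSpace ℝ ν :=
  (innerSL ℝ (ζ.2 0)).smulRight (ζ.2 0) + (innerSL ℝ (ζ.2 1)).smulRight (ζ.2 1)

theorem PlZ_apply (ζ : E × (Fin 2 → EuclideanSpace ℝ ν)) (u : EuclideanSpace ℝ ν) :
    PlZ ζ u = ⟪ζ.2 0, u⟫ • ζ.2 0 + ⟪ζ.2 1, u⟫ • ζ.2 1 := rfl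

/-- the orientation tensor of the plane `(v₀, v₁)` -/
def WlZ (ζ : E × (Fin 2 → EuclideanSpace ℝ ν)) (I : Unit × Fin 2 → ν) : ℝ :=
  ((GO.col2 (ζ.2 0) (ζ.2 1)).submatrix I id).det

/-- the complement of the plane -/
def P0Z (P : E → EuclideanSpace ℝ ν →L[ℝ] EuclideanSpace ℝ ν)
    (ζ : E × (Fin 2 → EuclideanSpace ℝ ν)) : EuclideanSpace ℝ ν →L[ℝ] EuclideanSpace ℝ ν :=
  GQ.Pm (GQ.Pm (fun ζ : E × (Fin 2 → EuclideanSpace ℝ ν) => P ζ.1) (fun ζ => ζ.2 0))
    (fun ζ => ζ.2 1) ζ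

/-- its orientation tensor -/
def W0Z (eq : (Unit × Fin 2) ⊕ (ι' × Fin 2) ≃ (ι × Fin 2)) (W : E → (ι × Fin 2 → ν) → ℝ)
    (ζ : E × (Fin 2 → EuclideanSpace ℝ ν)) : (ι' × Fin 2 → ν) → ℝ :=
  GO.ctr eq (GO.col2 (ζ.2 0) (ζ.2 1)) (W ζ.1)

theorem P0Z_apply (ζ : E × (Fin 2 → EuclideanSpace ℝ ν)) (u : EuclideanSpace ℝ ν) :
    P0Z P ζ u = P ζ.1 u - PlZ ζ u := by
  rw [P0Z, GQ.Pm_apply, GQ.Pm_apply, PlZ_apply]
  abel

theorem smooth_snd (ζ : E × (Fin 2 → EuclideanSpace ℝ ν)) (i : Fin 2) :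
    ContDiffAt ℝ ∞ (fun y : E × (Fin 2 → EuclideanSpace ℝ ν) => y.2 i) ζ :=
  (contDiff_pi.1 contDiff_snd i).contDiffAt

theorem smooth_PlZ (ζ : E × (Fin 2 → EuclideanSpace ℝ ν)) :
    ContDiffAt ℝ ∞ (PlZ (E := E) (ν := ν)) ζ := by
  have hb : ContDiff ℝ ∞ fun a : EuclideanSpace ℝ ν => (innerSL ℝ a).smulRight a :=
    (ContinuousLinearMap.smulRightL ℝ (EuclideanSpace ℝ ν)
      (EuclideanSpace ℝ ν)).isBoundedBilinearMap.contDiff.comp
      ((innerSL ℝ).contDiff.prodMk contDiff_id)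
  exact (hb.contDiffAt.comp ζ (smooth_snd ζ 0)).add (hb.contDiffAt.comp ζ (smooth_snd ζ 1))

theorem smooth_col2 (ζ : E × (Fin 2 → EuclideanSpace ℝ ν)) (a : ν) (p : Unit × Fin 2) :
    ContDiffAt ℝ ∞ (fun y : E × (Fin 2 → EuclideanSpace ℝ ν) => GO.col2 (y.2 0) (y.2 1) a p) ζ := by
  unfold GO.col2
  simp only [Matrix.of_apply]
  split_ifs
  · exact (EuclideanSpace.proj a : EuclideanSpace ℝ ν →L[ℝ] ℝ).contDiff.contDiffAt.comp ζ
      (smooth_snd ζ 0)
  · exact (EuclideanSpace.proj a : EuclideanSpace ℝ ν →L[ℝ] ℝ).contDiff.contDiffAt.comp ζ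
      (smooth_snd ζ 1)

theorem smooth_WlZ (ζ : E × (Fin 2 → EuclideanSpace ℝ ν)) :
    ContDiffAt ℝ ∞ (WlZ (E := E) (ν := ν)) ζ := by
  refine contDiffAt_pi.2 fun I => ?_
  unfold WlZ
  simp only [det_apply', submatrix_apply, id]
  exact ContDiffAt.sum fun σ _ => contDiffAt_const.mul (contDiffAt_prod fun p _ =>
    smooth_col2 ζ _ _)


/-- the plane field on `Z` -/
theorem or_lZ : OR (FI.Fr X P 2) (PlZ (E := E) (ν := ν)) WlZ where
  sP ζ _ := smooth_PlZ ζ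
  sW ζ _ I := contDiffAt_pi.1 (smooth_WlZ ζ) I
  fr ζ hζ := by
    refine ⟨GO.col2 (ζ.2 0) (ζ.2 1), GO.col2_orth (hζ.2.2.1 0) (hζ.2.2.1 1)
      (hζ.2.2.2 (by decide)), fun u i => ?_, fun I => rfl⟩
    have e2 : ∀ j, (GO.col2 (ζ.2 0) (ζ.2 1) * (GO.col2 (ζ.2 0) (ζ.2 1))ᵀ) i j =
        ζ.2 0 i * ζ.2 0 j + ζ.2 1 i * ζ.2 1 j := by
      intro j
      rw [Matrix.mul_apply, Fintype.sum_prod_type, Fintype.sum_unique, Fin.sum_univ_two]
      simp [GO.col2]
    rw [PlZ_apply]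
    simp only [e2, PiLp.add_apply, PiLp.smul_apply, smul_eq_mul, PiLp.inner_apply,
      RCLike.inner_apply, conj_trivial, Finset.sum_mul, add_mul, Finset.sum_add_distrib]
    congr 1 <;> exact Finset.sum_congr rfl fun j _ => by ring


/-- the complement on `Z` -/
theorem or_0Z [Nonempty ι'] (eq : (Unit × Fin 2) ⊕ (ι' × Fin 2) ≃ (ι × Fin 2)) (h : OR X P W) :
    OR (FI.Fr X P 2) (P0Z P) (W0Z eq W) := by
  have h1 : OR (FI.Fr X P 2) (fun ζ : E × (Fin 2 → EuclideanSpace ℝ ν) => P ζ.1)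
      (fun ζ => W ζ.1) :=
    ⟨fun ζ hζ => (h.sP _ hζ.1).comp ζ contDiffAt_fst,
      fun ζ hζ I => ContDiffAt.comp (g := fun x => W x I) ζ (h.sW _ hζ.1 I) contDiffAt_fst,
      fun ζ hζ => h.fr _ hζ.1⟩
  exact GO.OR_pair eq h1 (fun ζ _ => smooth_snd ζ 0) (fun ζ _ => smooth_snd ζ 1)
    (fun ζ hζ => hζ.2.2.1 0) (fun ζ hζ => hζ.2.2.1 1) (fun ζ hζ => hζ.2.2.2 (by decide))
    (fun ζ hζ => hζ.2.1 0) (fun ζ hζ => hζ.2.1 1)

theorem spl_Z (eq : (Unit × Fin 2) ⊕ (ι' × Fin 2) ≃ (ι × Fin 2)) :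
    Spl eq (FI.Fr X P 2) (fun ζ => P ζ.1) PlZ (P0Z P) (fun ζ => W ζ.1) WlZ (W0Z eq W) :=
  fun ζ hζ => ⟨ζ.2 0, ζ.2 1, hζ.2.2.1 0, hζ.2.2.1 1, hζ.2.2.2 (by decide), hζ.2.1 0, hζ.2.1 1,
    rfl, rfl, fun _ => rfl, fun u => P0Z_apply ζ u⟩

/-! ### invariance under the rotation -/

theorem PlZ_rt (ζ : E × (Fin 2 → EuclideanSpace ℝ ν)) (t : ℝ) : PlZ (rt t ζ) = PlZ ζ := by
  ext u : 1
  rw [PlZ_apply, PlZ_apply, rt_zero', rt_one']
  simp only [inner_add_left, inner_smul_left, conj_trivial]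
  have h := Real.sin_sq_add_cos_sq t
  set a := ⟪ζ.2 0, u⟫
  set b := ⟪ζ.2 1, u⟫
  set c := Real.cos t
  set s := Real.sin t
  have e : (c * a + s * b) • (c • ζ.2 0 + s • ζ.2 1) + (-s * a + c * b) • (-s • ζ.2 0 + c • ζ.2 1)
      = ((s ^ 2 + c ^ 2) * a) • ζ.2 0 + ((s ^ 2 + c ^ 2) * b) • ζ.2 1 := by module
  rw [e, h, one_mul, one_mul]

/-- the rotation matrix -/
def Rm (t : ℝ) : Matrix (Unit × Fin 2) (Unit × Fin 2) ℝ := Matrix.of fun p q =>
  if p.2 = 0 then (if q.2 = 0 then Real.cos t else -Real.sin t)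
    else (if q.2 = 0 then Real.sin t else Real.cos t)

theorem det_Rm (t : ℝ) : (Rm t).det = 1 := by
  have e3 : Rm t = (!![Real.cos t, -Real.sin t; Real.sin t, Real.cos t]).submatrix
      (Equiv.uniqueProd (Fin 2) Unit) (Equiv.uniqueProd (Fin 2) Unit) := by
    ext ⟨⟨⟩, p⟩ ⟨⟨⟩, q⟩
    fin_cases p <;> fin_cases q <;> simp [Rm]
  rw [e3, det_submatrix_equiv_self, det_fin_two_of]
  have := Real.sin_sq_add_cos_sq t
  nlinarith

theorem col2_rt (ζ : E × (Fin 2 → EuclideanSpace ℝ ν)) (t : ℝ) :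
    GO.col2 ((rt t ζ).2 0) ((rt t ζ).2 1) = GO.col2 (ζ.2 0) (ζ.2 1) * Rm t := by
  rw [rt_zero', rt_one']
  ext i ⟨⟨⟩, q⟩
  rw [Matrix.mul_apply, Fintype.sum_prod_type, Fintype.sum_unique, Fin.sum_univ_two]
  fin_cases q
  · simp [GO.col2, Rm, mul_comm]
  · simp [GO.col2, Rm, mul_comm]

theorem WlZ_rt (ζ : E × (Fin 2 → EuclideanSpace ℝ ν)) (t : ℝ) : WlZ (rt t ζ) = WlZ ζ := by
  funext I
  rw [WlZ, col2_rt]
  have e : (GO.col2 (ζ.2 0) (ζ.2 1) * Rm t).submatrix I id =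
      (GO.col2 (ζ.2 0) (ζ.2 1)).submatrix I id * Rm t := rfl
  rw [e, det_mul, det_Rm, mul_one, WlZ]

theorem W0Z_rt (eq : (Unit × Fin 2) ⊕ (ι' × Fin 2) ≃ (ι × Fin 2)) (h : OR X P W)
    {ζ : E × (Fin 2 → EuclideanSpace ℝ ν)} (hζ : ζ ∈ FI.Fr X P 2) (t : ℝ) :
    W0Z eq W (rt t ζ) = W0Z eq W ζ := by
  obtain ⟨f, f1, f2, f3⟩ := h.fr _ hζ.1
  funext I
  exact GO.ctr_rot eq f3 (ζ.2 0) (ζ.2 1) t I

/-! ### descent -/

variable {m dZ : ℕ} {g : E × (Fin 2 → EuclideanSpace ℝ ν) → Fin m → ℂ}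

/-- **the splitting on the quotient** -/
theorem exists_desc_split [Nonempty ι'] (eq : (Unit × Fin 2) ⊕ (ι' × Fin 2) ≃ (ι × Fin 2))
    (h : OR X P W) (hg : CM.Emb (FI.Fr X P 2) rt g) (hZ : Clo (dZ + 1) (FI.Fr X P 2))
    {z : CM.MM m → E} (hz : ∀ y ∈ CM.Quo (FI.Fr X P 2) g, ContDiffAt ℝ ∞ z y)
    (ez : ∀ ζ ∈ FI.Fr X P 2, z (CM.jj g ζ) = ζ.1) :
    ∃ (Pl P0 : CM.MM m → EuclideanSpace ℝ ν →L[ℝ] EuclideanSpace ℝ ν)
      (Wl : CM.MM m → (Unit × Fin 2 → ν) → ℝ) (W0 : CM.MM m → (ι' × Fin 2 → ν) → ℝ),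
      OR (CM.Quo (FI.Fr X P 2) g) Pl Wl ∧ OR (CM.Quo (FI.Fr X P 2) g) P0 W0 ∧
      Spl eq (CM.Quo (FI.Fr X P 2) g) (fun y => P (z y)) Pl P0 (fun y => W (z y)) Wl W0 ∧
      ∀ ζ ∈ FI.Fr X P 2, Pl (CM.jj g ζ) = PlZ ζ ∧ Wl (CM.jj g ζ) = WlZ ζ ∧
        P0 (CM.jj g ζ) = P0Z P ζ ∧ W0 (CM.jj g ζ) = W0Z eq W ζ := by
  have hc : CM.Cir (FI.Fr X P 2) rt := cir_Fr
  obtain ⟨Pl, l1, l2⟩ := hg.exists_desc hc hZ (f := PlZ) (fun ζ _ => smooth_PlZ ζ)
    (fun ζ _ t => PlZ_rt ζ t)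
  obtain ⟨Wl, w1, w2⟩ := hg.exists_desc hc hZ (f := WlZ) (fun ζ _ => smooth_WlZ ζ)
    (fun ζ _ t => WlZ_rt ζ t)
  obtain ⟨W0, v1, v2⟩ := hg.exists_desc hc hZ (f := W0Z eq W)
    (fun ζ hζ => contDiffAt_pi.2 fun I => (or_0Z eq h).sW ζ hζ I) (fun ζ hζ t => W0Z_rt eq h hζ t)
  have hP0 : ∀ ζ ∈ FI.Fr X P 2, P (z (CM.jj g ζ)) - Pl (CM.jj g ζ) = P0Z P ζ := fun ζ hζ => by
    ext u : 1
    rw [P0Z_apply, ez ζ hζ, l2 ζ hζ]
    rfl
  refine ⟨Pl, fun y => P (z y) - Pl y, Wl, W0, ⟨fun y _ => l1.contDiffAt, fun y _ I =>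
    (contDiff_pi.1 w1 I).contDiffAt, ?_⟩, ⟨fun y hy => ?_, fun y _ I =>
    (contDiff_pi.1 v1 I).contDiffAt, ?_⟩, ?_, fun ζ hζ => ⟨l2 ζ hζ, w2 ζ hζ, hP0 ζ hζ, v2 ζ hζ⟩⟩
  · rintro _ ⟨ζ, hζ, rfl⟩
    rw [l2 ζ hζ, w2 ζ hζ]
    exact or_lZ.fr ζ hζ
  · have hy' : z y ∈ X := by
      obtain ⟨ζ, hζ, rfl⟩ := hy
      rw [ez ζ hζ]; exact hζ.1
    exact ((h.sP _ hy').comp y (hz y hy)).sub l1.contDiffAt
  · rintro _ ⟨ζ, hζ, rfl⟩
    rw [hP0 ζ hζ, v2 ζ hζ]
    exact (or_0Z eq h).fr ζ hζ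
  · rintro _ ⟨ζ, hζ, rfl⟩
    obtain ⟨v, w, a1, a2, a3, a4, a5, a6, a7, a8, -⟩ := spl_Z (P := P) (W := W) eq ζ hζ
    simp only [v2 ζ hζ, l2 ζ hζ, w2 ζ hζ, ez ζ hζ]
    exact ⟨v, w, a1, a2, a3, a4, a5, a6, a7, a8, fun _ => rfl⟩

end gen

end Crest.Agent.R208.GS
end
end

-- ▼ part R208/GS3
section

/-! Row 208, block GS (helper742), part GS3: on `D = CM.Quo (ZZ S PV) g` the Euler class of `V`
is a nonzero multiple of `ξ e'`. -/

set_option autoImplicit false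
set_option linter.unusedSectionVars false

open Module Set Matrix
open scoped ContDiff RealInnerProductSpace ComplexConjugate
open Crest.GeometryTopology.Submanifold
open Crest.Agent.R241.DDefs
open Crest.Agent.R241.D2
open Crest.Agent.R208.F Crest.Agent.R208.FI Crest.Agent.R208.CW Crest.Agent.R208.T
open Crest.Agent.R208.GT

noncomputable section

namespace Crest.Agent.R208.GS

variable {n N k d dZ m : ℕ} {κ : ℝ} {S : Set (Euc N)} {G : Geo n N κ S}
  {PV : Euc N × Euc N → Euc N →L[ℝ] Euc N}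
  {g : (Euc N × Euc N) × (Fin 2 → Euc N) → Fin m → ℂ}
  {z : CM.MM m → Euc N × Euc N} {TD FD LD : CM.MM m → Matrix (Fin N) (Fin N) ℂ}

/-- the complex structure of the plane -/
def Jl (L : CM.MM m → Matrix (Fin N) (Fin N) ℂ) (y : CM.MM m) : Matrix (Fin N) (Fin N) ℂ :=
  Complex.I • (L y - (L y).map (starRingEnd ℂ))

theorem mtx_PlZ (ζ : (Euc N × Euc N) × (Fin 2 → Euc N)) :
    mtx (PlZ ζ) = LL ζ + (LL ζ).map (starRingEnd ℂ) := by
  ext a b
  have e1 : ∀ v : Euc N, ⟪v, EuclideanSpace.single b (1 : ℝ)⟫ = v b := fun v => by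
    rw [EuclideanSpace.inner_single_right]; simp
  have e2 : mtx (PlZ ζ) a b = ((ζ.2 0 b * ζ.2 0 a + ζ.2 1 b * ζ.2 1 a : ℝ) : ℂ) := by
    rw [mtx, Matrix.of_apply, PlZ_apply, e1, e1]
    rfl
  rw [e2, Matrix.add_apply, Matrix.map_apply, LL_apply]
  simp only [map_mul, map_sub, map_add, map_div₀, map_one, map_ofNat, Complex.conj_ofReal,
    Complex.conj_I]
  push_cast
  linear_combination ((ζ.2 1 a : ℂ) * (ζ.2 1 b : ℂ)) * Complex.I_mul_I

section pw
variable {ζ : (Euc N × Euc N) × (Fin 2 → Euc N)}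

theorem LLc_transpose : ((LL ζ).map (starRingEnd ℂ)).transpose = LL ζ := by
  rw [← LL_hermitian, Matrix.transpose_transpose]

theorem LLc_idem (hζ : ζ ∈ ZZ S PV) :
    (LL ζ).map (starRingEnd ℂ) * (LL ζ).map (starRingEnd ℂ) = (LL ζ).map (starRingEnd ℂ) := by
  have h1 := (idf_LL (PV := PV) (S := S)).idem ζ hζ
  have h2 := congrArg (fun M => M.map (starRingEnd ℂ)) h1
  simpa only [Matrix.map_mul] using h2

theorem J_entry (a b : Fin N) : (Complex.I • (LL ζ - (LL ζ).map (starRingEnd ℂ))) a b =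
    ((ζ.2 1 a * ζ.2 0 b - ζ.2 0 a * ζ.2 1 b : ℝ) : ℂ) := by
  rw [Matrix.smul_apply, Matrix.sub_apply, Matrix.map_apply, LL_apply, smul_eq_mul]
  simp only [map_mul, map_sub, map_add, map_div₀, map_one, map_ofNat, Complex.conj_ofReal,
    Complex.conj_I]
  push_cast
  linear_combination ((ζ.2 0 a : ℂ) * (ζ.2 1 b : ℂ) - (ζ.2 1 a : ℂ) * (ζ.2 0 b : ℂ)) *
    Complex.I_mul_I

end pw

/-- the plane is a complex line -/
theorem cs_Pl (hD : DPk G PV g z TD FD LD) {Pl : CM.MM m → Euc N →L[ℝ] Euc N}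
    {Wl : CM.MM m → (Unit × Fin 2 → Fin N) → ℝ} (hl : OR (CM.Quo (ZZ S PV) g) Pl Wl)
    (e1 : ∀ ζ ∈ ZZ S PV, Pl (CM.jj g ζ) = PlZ ζ) (e2 : ∀ ζ ∈ ZZ S PV, Wl (CM.jj g ζ) = WlZ ζ) :
    CW.CS (ι := Unit) (CM.Quo (ZZ S PV) g) (fun y => mtx (Pl y)) (Jl LD) (wC Wl) := by
  refine ⟨hl.of, fun y hy => ((hD.sL y hy).sub (hD.idf_L.conj.smooth y hy)).csmul _, ?_, ?_, ?_, ?_⟩
  · rintro _ ⟨ζ, hζ, rfl⟩
    rw [Jl, hD.eL ζ hζ, Matrix.transpose_smul, Matrix.transpose_sub, LLc_transpose, LL_hermitian,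
      ← smul_neg, neg_sub]
  · rintro _ ⟨ζ, hζ, rfl⟩
    have h1 := (idf_LL (PV := PV) (S := S)).idem ζ hζ
    change Jl LD (CM.jj g ζ) * Jl LD (CM.jj g ζ) = - mtx (Pl (CM.jj g ζ))
    rw [Jl, hD.eL ζ hζ, e1 ζ hζ, mtx_PlZ, Matrix.smul_mul, Matrix.mul_smul, smul_smul,
      Complex.I_mul_I, sub_mul, mul_sub, mul_sub, h1, LLc_idem hζ, LL_mul_conj hζ,
      conj_mul_LL hζ, neg_one_smul]
    abel
  · rintro _ ⟨ζ, hζ, rfl⟩
    have h1 := (idf_LL (PV := PV) (S := S)).idem ζ hζ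
    change Jl LD (CM.jj g ζ) * mtx (Pl (CM.jj g ζ)) = Jl LD (CM.jj g ζ)
    rw [Jl, hD.eL ζ hζ, e1 ζ hζ, mtx_PlZ, Matrix.smul_mul, sub_mul, mul_add, mul_add, h1,
      LLc_idem hζ, LL_mul_conj hζ, conj_mul_LL hζ, add_zero, zero_add]
  · rintro _ ⟨ζ, hζ, rfl⟩
    obtain ⟨f1, f2⟩ := (⟨hζ.2.2.1 0, hζ.2.2.1 1⟩ : ‖ζ.2 0‖ = 1 ∧ ‖ζ.2 1‖ = 1)
    have f3 : ⟪ζ.2 0, ζ.2 1⟫ = 0 := hζ.2.2.2 (by decide)
    have hor := GO.col2_orth f1 f2 f3
    refine ⟨Matrix.of fun a _ => ((ζ.2 0 a : ℝ) : ℂ),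
      (GO.col2 (ζ.2 0) (ζ.2 1)).map (algebraMap ℝ ℂ), fun a j => ?_, fun a j => ?_, ?_, ?_,
      fun I => ?_⟩
    · simp [GO.col2]
    · rw [Matrix.mul_apply]
      have g1 : ∀ b, Jl LD (CM.jj g ζ) a b = ((ζ.2 1 a * ζ.2 0 b - ζ.2 0 a * ζ.2 1 b : ℝ) : ℂ) :=
        fun b => by rw [Jl, hD.eL ζ hζ]; exact J_entry a b
      have g2 : ∑ b, ζ.2 0 b * ζ.2 0 b = 1 := by
        have := congrFun (congrFun hor ((), 0)) ((), 0)
        rw [Matrix.mul_apply] at this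
        simpa [GO.col2] using this
      have g3 : ∑ b, ζ.2 1 b * ζ.2 0 b = 0 := by
        have := congrFun (congrFun hor ((), 1)) ((), 0)
        rw [Matrix.mul_apply] at this
        simpa [GO.col2] using this
      have g4 : ∀ b, Jl LD (CM.jj g ζ) a b * (Matrix.of fun a (_ : Unit) => ((ζ.2 0 a : ℝ) : ℂ)) b j
          = ((ζ.2 1 a * (ζ.2 0 b * ζ.2 0 b) - ζ.2 0 a * (ζ.2 1 b * ζ.2 0 b) : ℝ) : ℂ) := fun b => by
        rw [g1, Matrix.of_apply]
        push_cast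
        ring
      rw [Finset.sum_congr rfl fun b _ => g4 b, ← Complex.ofReal_sum, Finset.sum_sub_distrib,
        ← Finset.mul_sum, ← Finset.mul_sum, g2, g3]
      simp [GO.col2]
    · rw [← Matrix.transpose_map, ← Matrix.map_mul, hor]
      exact Matrix.map_one _ (map_zero _) (map_one _)
    · rw [e1 ζ hζ, ← Matrix.transpose_map, ← Matrix.map_mul, mtx_of_frame]
      intro u i
      rw [PlZ_apply]
      have e3 : ∀ j, (GO.col2 (ζ.2 0) (ζ.2 1) * (GO.col2 (ζ.2 0) (ζ.2 1))ᵀ) i j =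
          ζ.2 0 i * ζ.2 0 j + ζ.2 1 i * ζ.2 1 j := by
        intro j
        rw [Matrix.mul_apply, Fintype.sum_prod_type, Fintype.sum_unique, Fin.sum_univ_two]
        simp [GO.col2]
      simp only [e3, PiLp.add_apply, PiLp.smul_apply, smul_eq_mul, PiLp.inner_apply,
        RCLike.inner_apply, conj_trivial, Finset.sum_mul, add_mul, Finset.sum_add_distrib]
      congr 1 <;> exact Finset.sum_congr rfl fun j _ => by ring
    · have e1' := RingHom.map_det (algebraMap ℝ ℂ)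
        ((GO.col2 (ζ.2 0) (ζ.2 1)).submatrix I id)
      change ((Wl (CM.jj g ζ) I : ℝ) : ℂ) = _
      rw [e2 ζ hζ]
      exact e1'

/-- **the Euler class of the plane is `2 i ξ`** -/
theorem ec_Pl (hD : DPk G PV g z TD FD LD) (hQ : Sub d (CM.Quo (ZZ S PV) g))
    {Pl : CM.MM m → Euc N →L[ℝ] Euc N} {Wl : CM.MM m → (Unit × Fin 2 → Fin N) → ℝ}
    (hl : OR (CM.Quo (ZZ S PV) g) Pl Wl)
    (e1 : ∀ ζ ∈ ZZ S PV, Pl (CM.jj g ζ) = PlZ ζ) (e2 : ∀ ζ ∈ ZZ S PV, Wl (CM.jj g ζ) = WlZ ζ) :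
    ec hl.of = (2 * Complex.I) • CW.sc hQ hD.idf_L 1 := by
  have hcs := cs_Pl hD hl e1 e2
  have h1 := hcs.ec_eq hQ
  have h3 : CW.cc hQ hcs.idF 1 = CW.sc hQ hcs.idF 1 := by
    rw [CW.cc_eq_el]
    have h1 := CW.el_succ (CW.sc hQ hcs.idF) 0
    simpa [CW.el_zero] using h1
  have h2 : CW.sc hQ hcs.idF 1 = CW.sc hQ hD.idf_L 1 := by
    refine CW.sc_congr hQ _ _ ?_ 1
    rintro _ ⟨ζ, hζ, rfl⟩
    rw [e1 ζ hζ, mtx_PlZ, Jl, hD.eL ζ hζ]
    set A := LL ζ
    set B := (LL ζ).map (starRingEnd ℂ)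
    have h4 : Complex.I • ((1 : ℂ) / 2) • (-(Complex.I • (A - B))) =
        (-(Complex.I * Complex.I) * (1 / 2)) • (A - B) := by
      rw [← smul_neg, smul_smul, smul_smul, smul_neg, ← neg_smul]
      congr 1; ring
    rw [h4, Complex.I_mul_I]
    module
  simp only [Fintype.card_unit, pow_one, Nat.factorial_one, Nat.cast_one, mul_one] at h1
  rw [h3, h2] at h1
  exact h1

variable {ι ι' : Type*} [Fintype ι] [DecidableEq ι] [Fintype ι'] [DecidableEq ι']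
  {W : Euc N × Euc N → (ι × Fin 2 → Fin N) → ℝ}

/-- **`e(V) = c ξ e'` on `D`**, `c ≠ 0` -/
theorem exists_e' [Nonempty ι'] (eq : (Unit × Fin 2) ⊕ (ι' × Fin 2) ≃ (ι × Fin 2))
    (hW : OR (FF S) PV W) (hg : CM.Emb (ZZ S PV) rt g) (hZ : Clo (dZ + 1) (ZZ S PV))
    (hD : DPk G PV g z TD FD LD) (hQ : Sub d (CM.Quo (ZZ S PV) g)) :
    ∃ (P0 : CM.MM m → Euc N →L[ℝ] Euc N) (W0 : CM.MM m → (ι' × Fin 2 → Fin N) → ℝ)
      (hw0 : OR (CM.Quo (ZZ S PV) g) P0 W0) (c : ℂ), c ≠ 0 ∧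
      H.map hD.smap (ec hW.of) = c • (CW.sc hQ hD.idf_L 1 * ec hw0.of) ∧
      (∀ ζ ∈ ZZ S PV, P0 (CM.jj g ζ) = P0Z PV ζ ∧ W0 (CM.jj g ζ) = W0Z eq W ζ) ∧
      H.map hg.smap_jj (ec hw0.of) = ec (or_0Z eq hW).of := by
  obtain ⟨Pl, P0, Wl, W0, hl, h0, hs, he⟩ := exists_desc_split eq hW hg hZ hD.sz hD.ez
  have hWz : OR (CM.Quo (ZZ S PV) g) (fun y => PV (z y)) (fun y => W (z y)) :=
    ⟨fun y hy => (hW.sP _ (hD.smap.maps hy)).comp y (hD.sz y hy),
      fun y hy I => ContDiffAt.comp (g := fun x => W x I) y (hW.sW _ (hD.smap.maps hy) I)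
        (hD.sz y hy), fun y hy => hW.fr _ (hD.smap.maps hy)⟩
  have h1 := ec_split eq hWz hl h0 hs
  have h2 := ec_Pl hD hQ hl (fun ζ hζ => (he ζ hζ).1) fun ζ hζ => (he ζ hζ).2.1
  have h3 : H.map hD.smap (ec hW.of) = ec hWz.of :=
    (ec_map hW.of hD.smap).trans (ec_congr _ _ (fun _ _ => rfl) fun _ _ => rfl)
  have h4 : H.map hg.smap_jj (ec h0.of) = ec (or_0Z eq hW).of := by
    rw [ec_map h0.of hg.smap_jj]
    refine ec_congr _ _ (fun ζ hζ => ?_) fun ζ hζ => ?_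
    · rw [(he ζ hζ).2.2.1]
    · funext I
      change ((W0 (CM.jj g ζ) I : ℝ) : ℂ) = _
      rw [(he ζ hζ).2.2.2]
      rfl
  refine ⟨P0, W0, h0, ((((sg (sr eq) : ℤ) : ℝ) * (Fintype.card ι : ℝ) : ℝ) : ℂ) *
    (2 * Complex.I), ?_, ?_, fun ζ hζ => ⟨(he ζ hζ).2.2.1, (he ζ hζ).2.2.2⟩, h4⟩
  rotate_left
  · rw [h3, h1, h2, smul_mul_assoc, smul_smul]
  · have h5 := card_eq (sr eq)
    rw [Fintype.card_sum, Fintype.card_unit] at h5
    refine mul_ne_zero (Complex.ofReal_ne_zero.2 (mul_ne_zero sg_ne ?_))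
      (mul_ne_zero two_ne_zero Complex.I_ne_zero)
    rw [← h5]
    positivity

end Crest.Agent.R208.GS
end
end

-- ▼ part R208/GQ5e
section

/-! Row 208, block GQ (helper989), part GQ5e: the classes `x`, `w = e(V ⊖ ⟨v₀, v₁⟩)` on `ZZ`. -/

set_option autoImplicit false
set_option linter.unusedSectionVars false
set_option linter.unusedVariables false

open MeasureTheory Set Filter Topology Module
open scoped ContDiff RealInnerProductSpace Matrix
open Crest.GeometryTopology.Submanifold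
open Crest.Agent.R241.DDefs
open Crest.Agent.R241.D2
open Crest.Agent.R208.F Crest.Agent.R208.FI Crest.Agent.R208.CW Crest.Agent.R208.T
open Crest.Agent.R208.L (US)

noncomputable section

namespace Crest.Agent.R208.GQ

variable {n N k m : ℕ} {κ : ℝ} {S : Set (Euc N)} {G : Geo n N κ S} {p : Euc N}
  {ι ι' : Type} [Fintype ι] [DecidableEq ι] [Fintype ι'] [DecidableEq ι'] [Nonempty ι']
  {W : Euc N × Euc N → (ι × Fin 2 → Fin N) → ℝ} {x : Euc N → Ext (Euc N)} {h : GT.Bla G k}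
  (eq : (Unit × Fin 2) ⊕ (ι' × Fin 2) ≃ (ι × Fin 2))

include eq

/-- the Leray–Hirsch package on `XM` -/
theorem lh_XM (M : T.XM h m W p x) : LH (UV h) (Pm (Q1 h) v1) (2 * Fintype.card ι') (eps eq h W) :=
  lh_UV eq h (by have := M.hkn; have := M.hk; omega) M.hkn ⟨p, M.hp⟩ M.hι M.hW

theorem two_card (M : T.XM h m W p x) : 2 * Fintype.card ι' + 2 = k := by
  have h1 := card_eq eq
  have h2 := M.hι
  omega

theorem ec_eZ (M : T.XM h m W p x) : EC (GT.ZZ S (FV.PVB h)) (eZ (eps eq h W)) :=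
  ec_even ((lh_XM eq M).sm.pull (smap_toZ h)) ((lh_XM eq M).cl.pull (smap_toZ h) (lh_XM eq M).sm)
    (Hom.pull (lh_XM eq M).deg) ⟨Fintype.card ι', by ring⟩

/-- the Euler class of `V ⊖ ⟨v₀, v₁⟩` as the class of `eZ` -/
theorem ec_0Z (M : T.XM h m W p x) : ec (GS.or_0Z eq M.hW).of = rcl (ec_eZ eq M) := by
  rw [← OR.rcl_eR (GS.or_0Z eq M.hW)]
  refine rcl_congr _ _ (Coh.of_eqv (Eqv.symm ?_))
  exact T.eqv_pull_eR (or_Z1 eq h M.hW) (smap_toZ h)

/-- `w² = 0` -/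
theorem w_sq (M : T.XM h m W p x) (hk : 6 ≤ k) : ec (GS.or_0Z eq M.hW).of ^ 2 = 0 := by
  rw [ec_0Z eq M, sq, ← rcl_mul, rcl_eq_zero_iff]
  exact eZ_sq h hk M.two_k M.hke M.hne M.hp M.hι M.hW (two_card eq M) (lh_XM eq M) M.sx M.cx M.dx
    M.ex

/-- `x^i ≠ 0`, `x^i w ≠ 0` -/
theorem xw_ne (M : T.XM h m W p x) (hx : EC S x) {i : ℕ} (hi : i ≤ m) (hin : k * i < n) :
    H.map (smap_pz h) (rcl hx) ^ i ≠ 0 ∧
      H.map (smap_pz h) (rcl hx) ^ i * ec (GS.or_0Z eq M.hW).of ≠ 0 := by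
  obtain ⟨h1, h2⟩ := ZZ_ne h M.hk M.hne (lh_XM eq M) M.sx M.cx M.dx M.xm_ne hi hin
  have hz : EC (GT.ZZ S (FV.PVB h)) (xZ x) := hx.pull (smap_pz h)
  have e1 : H.map (smap_pz h) (rcl hx) = rcl hz := (rcl_pull (smap_pz h) hx).symm
  constructor
  · intro h0
    rw [e1, ← rcl_pow, rcl_eq_zero_iff] at h0
    exact h1 h0
  · intro h0
    rw [e1, ec_0Z eq M, mul_comm, ← rcl_pow, ← rcl_mul, rcl_eq_zero_iff] at h0
    exact h2 h0

end Crest.Agent.R208.GQ
end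
end

-- ▼ part R208/GQ5f

/-! Row 208, block GQ (helper989), part GQ5f: the contradiction for `k ≥ 6`, `(k, m) ≠ (8, 2)`. -/

set_option autoImplicit false
set_option linter.unusedSectionVars false
set_option linter.unusedVariables false

open MeasureTheory Set Filter Topology Module
open scoped ContDiff RealInnerProductSpace Matrix
open Crest.GeometryTopology.Submanifold
open Crest.Agent.R241.DDefs
open Crest.Agent.R241.D2
open Crest.Agent.R208.F Crest.Agent.R208.FI Crest.Agent.R208.CW Crest.Agent.R208.T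
open Crest.Agent.R208.L (US)

noncomputable section

namespace Crest.Agent.R208.GQ

variable {n N k m : ℕ} {κ : ℝ} {S : Set (Euc N)} {G : Geo n N κ S} {p : Euc N}
  {ι : Type} [Fintype ι] [DecidableEq ι] {W : Euc N × Euc N → (ι × Fin 2 → Fin N) → ℝ}
  {x : Euc N → Ext (Euc N)} {h : GT.Bla G k}

/-- `x₁ - x₂ = e(V)` in `H F` -/
theorem xp_sub_xq (M : T.XM h m W p x) (hx : EC S x) :
    FG.xp (rcl hx) - FG.xq (rcl hx) = ec M.hW.of := by
  have hxf : EC (GT.FF S) (F.pull Prod.fst x) := hx.pull FG.smap_fst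
  have hxs : EC (GT.FF S) (F.pull Prod.snd x) := hx.pull FG.smap_snd
  have e1 : FG.xp (rcl hx) = rcl hxf := (T.rcl_pull FG.smap_fst hx).symm
  have e2 : FG.xq (rcl hx) = rcl hxs := (T.rcl_pull FG.smap_snd hx).symm
  have h1 : Coh (GT.FF S) (F.pull Prod.fst x) (F.pull Prod.snd x + eR (FV.PVB h) W) := by
    have h2 := M.snd_class.symm.add (Coh.refl (eR (FV.PVB h) W) (X := GT.FF S))
    rwa [sub_add_cancel] at h2
  rw [e1, e2, ← OR.rcl_eR M.hW, sub_eq_iff_eq_add, add_comm, ← T.rcl_add hxs (OR.ec_eR M.hW)]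
  exact T.rcl_congr _ _ h1

variable {ι₁ : Type} [Fintype ι₁] [DecidableEq ι₁] {W₁ : Euc N × Euc N → (ι₁ × Fin 2 → Fin N) → ℝ}

/-- (X4') in `H F` -/
theorem ec_F1 (hx : EC S x) (hW₁ : OR (GT.FF S) (XE.F1 h) W₁) {ρ : ℝ}
    (hX4 : Coh (GT.FF S) (eR (XE.F1 h) W₁)
      (ρ • XE.pS (F.pull Prod.fst x) (F.pull Prod.snd x) m)) {c₀ : ℂ} (hc₀ : c₀ ≠ 0) :
    ec hW₁.of = ((ρ : ℂ) * (c₀⁻¹) ^ (m - 1)) • ∑ b ∈ Finset.range m,
      ((b + 1 : ℕ) : CW.H (GT.FF S)) * (FG.xp (c₀ • rcl hx) ^ b * FG.xq (c₀ • rcl hx) ^ (m - 1 - b)) := by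
  have hxf : EC (GT.FF S) (F.pull Prod.fst x) := hx.pull FG.smap_fst
  have hxs : EC (GT.FF S) (F.pull Prod.snd x) := hx.pull FG.smap_snd
  have e1 : FG.xp (c₀ • rcl hx) = c₀ • rcl hxf := by
    rw [FG.xp, map_smul]; congr 1; exact (T.rcl_pull FG.smap_fst hx).symm
  have e2 : FG.xq (c₀ • rcl hx) = c₀ • rcl hxs := by
    rw [FG.xq, map_smul]; congr 1; exact (T.rcl_pull FG.smap_snd hx).symm
  rw [← OR.rcl_eR hW₁, T.rcl_congr _ ((XE.ec_pS hxf hxs m).smul ρ) hX4,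
    T.rcl_smul ρ (XE.ec_pS hxf hxs m), XE.rcl_pS, mul_smul, Finset.smul_sum (r := (c₀⁻¹) ^ (m - 1))]
  congr 1
  refine Finset.sum_congr rfl fun b hb => ?_
  rw [Finset.mem_range] at hb
  rw [e1, e2, smul_pow, smul_pow, smul_mul_smul_comm, mul_smul_comm, smul_smul, ← pow_add,
    Nat.add_sub_of_le (by omega), ← mul_pow, inv_mul_cancel₀ hc₀, one_pow, one_smul]

theorem map_series {A B : Type*} [CommRing A] [CommRing B] (f : A →+* B) (a b : A) (i j : ℕ) :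
    PowerSeries.map f (1 + PowerSeries.C a * PowerSeries.X ^ i + PowerSeries.C b * PowerSeries.X ^ j)
      = 1 + PowerSeries.C (f a) * PowerSeries.X ^ i + PowerSeries.C (f b) * PowerSeries.X ^ j := by
  simp

set_option maxHeartbeats 1600000 in
/-- **the contradiction for `k ≥ 6`, `(k, m) ≠ (8, 2)`** -/
theorem main (M : T.XM h m W p x) (hk6 : 6 ≤ k) (h82 : ¬ (k = 8 ∧ m = 2))
    (hrel : Coh (GT.FF S) (XE.hS (F.pull Prod.fst x) (F.pull Prod.snd x) m) 0)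
    (hι₁ : 2 * Fintype.card ι₁ + k = n) (hW₁ : OR (GT.FF S) (XE.F1 h) W₁) {ρ : ℝ} (hρ : ρ ≠ 0)
    (hX4 : Coh (GT.FF S) (eR (XE.F1 h) W₁)
      (ρ • XE.pS (F.pull Prod.fst x) (F.pull Prod.snd x) m)) : False := by
  classical
  have hm := M.hm
  have hn := M.hn
  have hkn := M.hkn
  have h2k := M.two_k
  obtain ⟨l, hl⟩ : ∃ l, k = 2 * l := by
    obtain ⟨l, hl⟩ := M.hke; exact ⟨l, by omega⟩
  have hkl : k / 2 = l := by omega
  have hnl : 2 * (l * m) = n := by rw [hn, hl]; ring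
  have hml : l * m = l * (m - 1) + l := by
    obtain ⟨m', rfl⟩ : ∃ m', m = m' + 1 := ⟨m - 1, by omega⟩
    rw [Nat.add_sub_cancel]; ring
  have hV := FV.vfield_PVB h
  have hx : EC S x := M.ec
  have hS : Sub n S := (GP.clo_S h.bl).sub
  have hF : Sub (2 * n - k) (GT.FF S) := FV.sub_FF' h (by omega)
  obtain ⟨oS, hoS, -, hdS⟩ := GP.exists_ori (G := G) h.bl h.ty M.hk
  obtain ⟨μ, hμ, -, hcsV, q, hq0, hq, hclosed⟩ :=
    FG.closed_XM M hS hF hx hoS hdS (M.J_ne hoS) hrel M.dim1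
  rw [hkl] at hμ hcsV hq
  set c₀ : ℂ := (((VX.nE ι : ℝ) : ℂ))⁻¹ with hc₀
  have hc₀0 : c₀ ≠ 0 := inv_ne_zero (by exact_mod_cast (VX.nE_pos ι).ne')
  set X₀ : CW.H S := c₀ • rcl hx with hX₀
  -- the quotient
  obtain ⟨dZ, hdZ⟩ : ∃ dZ, dZ + 4 = 2 * n + k := ⟨2 * n + k - 4, by omega⟩
  have hZ : Clo (dZ + 1) (GT.ZZ S (FV.PVB h)) := FV.clo_ZZ h M.hk (by omega)
  have hcir := GT.cir_ZZ (S := S) (PV := FV.PVB h)
  obtain ⟨mm, g, hg⟩ := CM.exists_emb hcir hZ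
  obtain ⟨z, TD, FD, LD, hD⟩ := GT.exists_dpk hV h hg hZ
  have hQ := (hg.clo_Quo hcir hZ).sub
  have hZc : IsPreconnected (GT.ZZ S (FV.PVB h)) := FV.preconn_ZZ h (by omega)
  have hQc := preconn_Quo hg hZc
  -- the splitting
  have hcι : 2 ≤ Fintype.card ι := by have := M.hι; omega
  have hne : Nonempty ι := Fintype.card_pos_iff.1 (by omega)
  obtain ⟨i0⟩ := hne
  have : Nonempty {i : ι // i ≠ i0} := GO.nonempty_ne i0 hcι
  obtain ⟨P0, W0, hw0, c, hc, hGS, -, hφe⟩ := GS.exists_e' (GO.eq0 i0) M.hW hg hZ hD hQ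
  set eq0 := GO.eq0 i0 with heq0
  have hcι' := two_card eq0 M
  set φ := H.map hg.smap_jj with hφ
  set ξ := CW.sc hQ hD.idf_L 1 with hξ
  set x1 := H.map hD.smap (FG.xp X₀) with hx1
  set x2 := H.map hD.smap (FG.xq X₀) with hx2
  set e : CW.H (CM.Quo (GT.ZZ S (FV.PVB h)) g) := (c₀ * c) • ec hw0.of with he
  have hxe : x1 - x2 = ξ * e := by
    rw [hx1, hx2, ← map_sub, hX₀, FG.xp, FG.xq, map_smul, map_smul, ← smul_sub, map_smul]
    have h1 := xp_sub_xq M hx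
    rw [FG.xp, FG.xq] at h1
    rw [h1, hGS, smul_smul, he, mul_smul_comm]
  have hφξ : φ ξ = 0 := by
    rw [hξ, hD.xi_eq hg hZ hQ, map_smul, hφ, map_ec_L hg hcir, smul_zero]
  have hφ2 : φ x2 = φ x1 := by
    have h1 := congrArg φ hxe
    rw [map_sub, map_mul, hφξ, zero_mul, sub_eq_zero] at h1
    exact h1.symm
  have hφ1 : φ x1 = c₀ • H.map (smap_pz h) (rcl hx) := by
    rw [hφ, hx1, hD.map_z hg hZ.sub, hX₀, FG.xp, map_smul, map_smul, H.map_map]
    rfl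
  -- degrees
  have hX₀d : X₀ ∈ HD S (2 * l) := by
    rw [hX₀, ← hl]; exact (HD S k).smul_mem _ (rcl_mem_HD hx M.dx)
  have hmul : ∀ i j : ℕ, ∀ a b : CW.H (CM.Quo (GT.ZZ S (FV.PVB h)) g),
      a ∈ HD (CM.Quo (GT.ZZ S (FV.PVB h)) g) (2 * i) →
      b ∈ HD (CM.Quo (GT.ZZ S (FV.PVB h)) g) (2 * j) →
      a * b ∈ HD (CM.Quo (GT.ZZ S (FV.PVB h)) g) (2 * (i + j)) := by
    intro i j a b ha hb
    rw [mul_add]; exact HD_mul ha hb
  have hed : e ∈ HD (CM.Quo (GT.ZZ S (FV.PVB h)) g) (2 * (l - 1)) := by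
    have h1 := ec_mem_HD hw0.of
    have h2 : Fintype.card {i : ι // i ≠ i0} = l - 1 := by omega
    rw [h2] at h1
    exact Submodule.smul_mem _ _ h1
  have hdiv : ∀ j < l * (m - 1) + 1, ∀ b ∈ HD (CM.Quo (GT.ZZ S (FV.PVB h)) g) (2 * j),
      b * ξ = 0 → b = 0 := by
    intro j hj b hb h0
    refine div_Quo hg hcir hZ hZc hb ?_ (exactIn_ZZ h M.hk hkn M.hke M.hne M.hp M.hι M.hW hcι'
      (lh_XM eq0 M) ⟨j, rfl⟩ (by omega))
    rw [hD.ec_L hg hZ hQ, mul_smul_comm, ← hξ, h0, smul_zero]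
  -- power sums
  have htm := tm_sums (m := m) (by omega : 1 ≤ l) (s := CW.sc hS (GT.idf_mM (G := G))) (x := X₀)
    (p := q) (μ : ℂ) (fun j _ => by rw [← CW.cc_eq_el]; exact hq j) hclosed
  have h2e : ∀ (i : ℕ) (a : CW.H (CM.Quo (GT.ZZ S (FV.PVB h)) g)),
      (1 + (-1) ^ (2 * i)) * a = 2 * a := by
    intro i a
    rw [(even_two_mul i).neg_one_pow]; norm_num
  have hT : ∀ i, 1 ≤ i → 2 * i ≤ l * (m - 1) + 1 → 2 * CW.sc hQ (hD.idf_T hV h) (2 * i) =
      (if l ∣ 2 * i then (-(l : ℂ) * PowerSeries.coeff (2 * i / l) (QQ m μ)) • x2 ^ (2 * i / l)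
        else 0) - H.map hD.smap (CW.sc hF (GT.idf_mV hV) (2 * i)) := by
    intro i hi hir
    rw [← h2e i, rel_T hV h hkn hD.toDes hQ hS hF, htm i hi (by omega)]
    congr 1
    split_ifs with hd
    · rw [hx2, FG.xq, map_smul, map_smul, map_pow, map_pow]
      rfl
    · rw [FG.xq, map_zero, map_zero]
  have hFs : ∀ i, 1 ≤ i → 2 * i ≤ l * (m - 1) + 1 → 2 * CW.sc hQ (hD.idf_F hV h) (2 * i) =
      (if l ∣ 2 * i then (-(l : ℂ) * PowerSeries.coeff (2 * i / l) (QQ m μ)) • x1 ^ (2 * i / l)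
        else 0) - H.map hD.smap (CW.sc hF (GT.idf_mV hV) (2 * i)) := by
    intro i hi hir
    rw [← h2e i, rel_F hV h hkn hD.toDes hQ hS hF, htm i hi (by omega)]
    congr 1
    split_ifs with hd
    · rw [hx1, FG.xp, map_smul, map_smul, map_pow, map_pow]
      rfl
    · rw [FG.xp, map_zero, map_zero]
  -- the power sums of `V` on `Z`
  have hcser : cser (fun j => φ (H.map hD.smap (CW.sc hF (GT.idf_mV hV) j))) =
      1 + PowerSeries.C ((2 * (μ : ℂ)) • φ x1) * PowerSeries.X ^ l := by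
    set f : CW.H (GT.FF S) →ₐ[ℂ] CW.H (GT.ZZ S (FV.PVB h)) := φ.comp (H.map hD.smap) with hf
    have h1 : cser (fun j => φ (H.map hD.smap (CW.sc hF (GT.idf_mV hV) j))) =
        PowerSeries.map f.toRingHom (cs hF (GT.idf_mV hV)) := by
      rw [cs, cser_map]
      rfl
    have hf1 : f (FG.xp X₀) = φ x1 := rfl
    have hf2 : f (FG.xq X₀) = φ x1 := hφ2
    rw [h1, hcsV, map_series]
    have h3 : f.toRingHom ((μ : ℂ) • (FG.xp X₀ + FG.xq X₀)) = (2 * (μ : ℂ)) • φ x1 := by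
      change f ((μ : ℂ) • (FG.xp X₀ + FG.xq X₀)) = _
      rw [map_smul, map_add, hf1, hf2]
      module
    have h4 : f.toRingHom ((FG.xp X₀ - FG.xq X₀) ^ 2) = 0 := by
      change f ((FG.xp X₀ - FG.xq X₀) ^ 2) = _
      rw [map_pow, map_sub, hf1, hf2, sub_self, sq, mul_zero]
    rw [h3, h4, map_zero, zero_mul, add_zero]
  have hv := v_sums (by omega : 1 ≤ l) (μ : ℂ) hcser
  -- the top classes
  have hcard : Fintype.card ι₁ = l * (m - 1) := by omega
  obtain ⟨ε, hε, hE⟩ : ∃ ε : ℂ, ε ≠ 0 ∧ H.map hD.smap (ec hW₁.of) =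
      ε • cc hQ (hD.idf_F hV h) (Fintype.card ι₁) := ec_Fz hV h hD.toDes hQ hQc hW₁
  obtain ⟨ε', hε', hE'⟩ : ∃ ε : ℂ, ε ≠ 0 ∧ H.map (GT.smap_swap.comp hD.smap) (ec hW₁.of) =
      ε • cc hQ (hD.idf_T hV h) (Fintype.card ι₁) := ec_Tz hV h hD.toDes hQ hQc hW₁
  rw [hcard] at hE hE'
  have hX := ec_F1 hx hW₁ hX4 hc₀0
  rw [← hX₀] at hX
  set κ₀ : ℂ := (ρ : ℂ) * (c₀⁻¹) ^ (m - 1) with hκ₀
  have hκ₀0 : κ₀ ≠ 0 := mul_ne_zero (by exact_mod_cast hρ) (pow_ne_zero _ (inv_ne_zero hc₀0))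
  have hF1 : cc hQ (hD.idf_F hV h) (l * (m - 1)) = (ε⁻¹ * κ₀) • ∑ b ∈ Finset.range m,
      ((b + 1 : ℕ) : CW.H (CM.Quo (GT.ZZ S (FV.PVB h)) g)) * (x1 ^ b * x2 ^ (m - 1 - b)) := by
    have h1 : cc hQ (hD.idf_F hV h) (l * (m - 1)) = ε⁻¹ • H.map hD.smap (ec hW₁.of) := by
      rw [hE, smul_smul, inv_mul_cancel₀ hε, one_smul]
    rw [h1, hX, map_smul, map_sum, smul_smul]
    congr 1
    refine Finset.sum_congr rfl fun b _ => ?_
    rw [map_mul, map_mul, map_pow, map_pow, map_natCast]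
  have hT1 : cc hQ (hD.idf_T hV h) (l * (m - 1)) = (ε'⁻¹ * κ₀) • ∑ b ∈ Finset.range m,
      ((b + 1 : ℕ) : CW.H (CM.Quo (GT.ZZ S (FV.PVB h)) g)) * (x2 ^ b * x1 ^ (m - 1 - b)) := by
    have h1 : cc hQ (hD.idf_T hV h) (l * (m - 1)) =
        ε'⁻¹ • H.map (GT.smap_swap.comp hD.smap) (ec hW₁.of) := by
      rw [hE', smul_smul, inv_mul_cancel₀ hε', one_smul]
    have h2 : H.map (GT.smap_swap.comp hD.smap) (FG.xp X₀) = x2 := by
      rw [hx2, ← H.map_map GT.smap_swap hD.smap, (VX.xq_xp_swap X₀).1]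
    have h3 : H.map (GT.smap_swap.comp hD.smap) (FG.xq X₀) = x1 := by
      rw [hx1, ← H.map_map GT.smap_swap hD.smap, (VX.xq_xp_swap X₀).2]
    rw [h1, hX, map_smul, map_sum, smul_smul]
    congr 1
    refine Finset.sum_congr rfl fun b _ => ?_
    rw [map_mul, map_mul, map_pow, map_pow, map_natCast, h2, h3]
  -- nonvanishing on `Z`
  have hw : φ e = (c₀ * c) • ec (GS.or_0Z eq0 M.hW).of := by
    rw [he, map_smul, hφe]
  have hw2 : (φ e) ^ 2 = 0 := by
    rw [hw, smul_pow, w_sq eq0 M hk6, smul_zero]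
  have hlt : ∀ i, i ≤ m - 1 → k * i < n := by
    intro i hi
    rw [hn]
    exact Nat.mul_lt_mul_of_pos_left (by omega) (by omega)
  have hxz : ∀ i, i ≤ m - 1 → (φ x1) ^ i ≠ 0 := by
    intro i hi h0
    rw [hφ1, smul_pow] at h0
    exact (xw_ne eq0 M hx (i := i) (by omega) (hlt i hi)).1
      ((smul_eq_zero.1 h0).resolve_left (pow_ne_zero _ hc₀0))
  have hxwz : (φ x1) ^ (m - 2) * φ e ≠ 0 := by
    intro h0
    rw [hφ1, hw, smul_pow, smul_mul_smul_comm] at h0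
    exact (xw_ne eq0 M hx (i := m - 2) (by omega) (hlt _ (by omega))).2
      ((smul_eq_zero.1 h0).resolve_left (mul_ne_zero (pow_ne_zero _ hc₀0) (mul_ne_zero hc₀0 hc)))
  refine core_False φ (Gr := fun j => HD (CM.Quo (GT.ZZ S (FV.PVB h)) g) (2 * j)) (l := l) (m := m)
    (r := l * (m - 1)) (by omega) hm rfl (fun h3 => h82 ⟨by omega, h3.2⟩) hxe hφξ rfl hφ2 rfl
    one_mem_HD hmul (sc_mem_HD hQ hD.idf_L 1) (HD_map hD.smap (HD_map FG.smap_fst hX₀d))
    (HD_map hD.smap (HD_map FG.smap_snd hX₀d)) hed hdiv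
    (t := fun j => CW.sc hQ (hD.idf_T hV h) j) (s := fun j => CW.sc hQ (hD.idf_F hV h) j)
    (v := fun j => H.map hD.smap (CW.sc hF (GT.idf_mV hV) j))
    (fun j => sc_mem_HD hQ _ j) (fun j => ?_) μ hμ hT hFs (fun i hi _ => hv i hi)
    (c := fun j => cc hQ (hD.idf_T hV h) j) (c' := fun j => cc hQ (hD.idf_F hV h) j)
    (fun j => CW.cc_eq_el hQ _ j) (fun j => cc_mem_HD hQ _ j) (cc_F_top hV h hD.toDes hQ hW₁ hcard)
    (mul_ne_zero (inv_ne_zero hε) hκ₀0) hF1 hT1 hw2 (hxz _ le_rfl) hxwz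
  rw [hD.sc_F hV h hQ j]
  exact Finset.sum_congr rfl fun i _ => by rw [hD.sc_L hQ (j - i)]

end Crest.Agent.R208.GQ
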