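import Crest.Agent.R208.HY3
import Crest.Agent.R208.TI5
import Crest.Agent.R208.TX6b
import Crest.Agent.R208.TY1

-- ▼ part R208/HY4
section

/-! Row 208, (8,2), block H2 (helper969).  HY4: the instance for Blaschke manifolds: degree one and
top degree of `S`, closed forms on the unit tangent bundle in degrees `< n + k - 1`. -/

set_option autoImplicit false
set_option linter.unusedSectionVars false

open MeasureTheory Set Filter Topology Module
open scoped ContDiff Matrix RealInnerProductSpace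
open Crest.GeometryTopology.Submanifold
open Crest.Agent.R241.DDefs
open Crest.Agent.R241.D2
open Crest.Agent.R208.F Crest.Agent.R208.FI Crest.Agent.R208.CW Crest.Agent.R208.T

noncomputable section

namespace Crest.Agent.R208.HY

section gen
variable {n : Type} [Fintype n] [DecidableEq n]
  {E : Type} [NormedAddCommGroup E] [NormedSpace ℝ E] [FiniteDimensional ℝ E]
  {ι : Type} [Fintype ι] [DecidableEq ι]
  {X : Set E} {P : E → EuclideanSpace ℝ n →L[ℝ] EuclideanSpace ℝ n}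
  {W : E → (ι × Fin 2 → n) → ℝ} {d : ℕ}

/-- closed `0`-forms on a sphere bundle are constant -/
theorem conn0_all [Nonempty ι] (hX : Sub d X) (hc : IsPreconnected X) (h : OR X P W) :
    Conn0 (Sph X P) := by
  intro b hb hcl hd
  have hr : 1 ≤ Fintype.card ι := Fintype.card_pos
  obtain ⟨c, sc, cc, dc, hc'⟩ := sph_low_all hX hc h (j := 0) (by omega) hb hcl hd
  obtain ⟨t, ht⟩ := const_of_closed hX hc sc cc dc
  refine ⟨t, (hc'.eqv_zero hd dc.pull).trans ?_⟩
  have h1 : Eqv X c (fun _ => algebraMap ℝ (Ext E) t) := Eqv.of_eq ht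
  have h2 := h1.pull (smap_fstS (X := X) (P := P))
  rwa [pull_const'] at h2

/-- top degree of the sphere bundle over a base without closed forms of that degree -/
theorem dim1_all [Nonempty ι] (hX : Sub d X) (hc : IsPreconnected X) (hne : X.Nonempty)
    (h : OR X P W) {q : ℕ} (hq : q + 1 = 2 * Fintype.card ι) (h0 : ExactIn X q) :
    Dim1 (Sph X P) q := by
  obtain ⟨q', r, eq, -⟩ := exists_par h hne
  have hS := iM_iso (n := n) (Fin q')
  obtain ⟨W', c₀, hT⟩ := exists_thomPair thd_holds eq hX hc hne (h.push hS)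
  have h1 := dim1_sph (volume : Measure (EuclideanSpace ℝ (n ⊕ Fin q'))) hX hc (h.push hS).pfield
    (card_le' eq) hT hq h0
  exact (HRet.of_inv (smap_in hS) (smap_out hS) (fun z _ => by
    change (z.1, mE (iM n (Fin q'))ᵀ (mE (iM n (Fin q')) z.2)) = z
    rw [mE_mE, hS, mE_one])).dim1 h1

end gen

variable {n N k : ℕ} {κ : ℝ} {S : Set (Euc N)} {G : Geo n N κ S} {p : Euc N}
  {ι : Type} [Fintype ι] [DecidableEq ι] {ι' : Type} [Fintype ι'] [DecidableEq ι']
  {W : Euc N → (ι × Fin 2 → Fin N) → ℝ} {W' : Euc N → (ι' × Fin 2 → Fin N) → ℝ}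
  {x : Euc N → Ext (Euc N)}

/-- orientation of the tangent space at a point -/
theorem or_pt (hp : p ∈ S) (hO : OR S G.P W') :
    OR ({p} : Set (Euc N)) (fun _ => G.P p) (fun _ => W' p) :=
  GP.OR.comp hO (f := fun _ => p) (fun _ _ => contDiffAt_const) fun _ _ => hp

/-- **closed `1`-forms on `S` are exact** -/
theorem exactIn_one_S (h : GT.Bla G k) (hk : 2 ≤ k) (hkn : k < n) (hp : p ∈ S)
    (hι : 2 * Fintype.card ι = k) (hW : OR (GP.Cut S p) (FV.PC h p) W)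
    (hι' : 2 * Fintype.card ι' = n) (hO : OR S G.P W') : ExactIn S 1 := by
  have : Nonempty ι' := Fintype.card_pos_iff.1 (by omega)
  obtain ⟨Gt, hG, -⟩ := exists_Tube' h hp
  obtain ⟨U, Λ, hpol, -, -⟩ := GP.exists_polar (G := G) h.bl hp one_pos
    (by linarith [Real.pi_gt_three])
  refine hG.exactIn_one hpol (conn0_all (sub_point p) isPreconnected_singleton (or_pt hp hO)) ?_
  intro b sb cb db
  obtain ⟨c, c0, hc⟩ := Cut_classes h hk hkn hp hι hW 1 sb cb db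
  have h1 : ¬ k ∣ 1 := fun hd => by
    have := Nat.le_of_dvd one_pos hd
    omega
  rwa [c0 h1, zero_smul] at hc

/-- **top degree of `S`** -/
theorem dim1_S (h : GT.Bla G k) (hk : 2 ≤ k) (hkn : k < n) (hp : p ∈ S)
    (hι' : 2 * Fintype.card ι' = n) (hO : OR S G.P W') : Dim1 S n := by
  have : Nonempty ι' := Fintype.card_pos_iff.1 (by omega)
  obtain ⟨Gt, hG, -⟩ := exists_Tube' h hp
  obtain ⟨U, Λ, hpol, -, -⟩ := GP.exists_polar (G := G) h.bl hp one_pos
    (by linarith [Real.pi_gt_three])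
  obtain ⟨i, rfl⟩ : ∃ i, n = i + 1 := ⟨n - 1, by omega⟩
  refine hG.dim1 hpol (dim1_all (sub_point p) isPreconnected_singleton ⟨p, rfl⟩ (or_pt hp hO)
    hι'.symm (exactIn_of_gt (sub_point p) (by omega))) ?_
  exact exactIn_of_gt (FV.sub_Cut h hp) (by omega)

/-- **closed forms on the unit tangent bundle in degrees `0 < j < n + k - 1`** are multiples of
`x ^ (j / k)`, if the Euler form of `S` is not exact. -/
theorem low_S (h : GT.Bla G k) (hk : 2 ≤ k) (hkn : k < n) (hp : p ∈ S)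
    (hι : 2 * Fintype.card ι = k) (hW : OR (GP.Cut S p) (FV.PC h p) W)
    (hι' : 2 * Fintype.card ι' = n) (hO : OR S G.P W')
    (sx : Sm S x) (cx : Cl S x) (dx : Hom k x) (ex : Eqv (GP.Cut S p) x (eR (FV.PC h p) W))
    (hne : ¬ Coh S (eR G.P W') 0) :
    Low (Sph S G.P) (F.pull Prod.fst x) k (n + k - 1) := by
  have : Nonempty ι' := Fintype.card_pos_iff.1 (by omega)
  have hd : Hom n (eR G.P W') := by
    have h1 : Hom (2 * Fintype.card ι') (eR G.P W') := hom_eR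
    intro z
    have h2 := h1 z
    rwa [hι'] at h2
  exact low_sph (FV.sub_S h.bl) h.bl.conn.isPreconnected hO hι' hk hkn
    (exactIn_one_S h hk hkn hp hι hW hι' hO) (dim1_S h hk hkn hp hι' hO)
    (fun j b h1 h2 => S_classes h hk hkn hp hι hW sx cx dx ex j b h1 h2)
    hO.ec_eR.sm hO.ec_eR.cl hd hne


end Crest.Agent.R208.HY
end
end

-- ▼ part R208/TX7
section

/-! Row 208, block T (helper316).  TX7: `x^m` is not exact on `S`. -/

set_option autoImplicit false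
set_option linter.unusedSectionVars false

open MeasureTheory Set Filter Topology Module
open scoped ContDiff RealInnerProductSpace Matrix
open Crest.GeometryTopology.Submanifold
open Crest.Agent.R241.DDefs
open Crest.Agent.R241.D2
open Crest.Agent.R208.F Crest.Agent.R208.FI Crest.Agent.R208.CW

noncomputable section

namespace Crest.Agent.R208.T

section push
variable {n m : Type} [Fintype n] [DecidableEq n] [Fintype m] [DecidableEq m]
  {E : Type} [NormedAddCommGroup E] [NormedSpace ℝ E] [FiniteDimensional ℝ E]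
  {S C : Set E} {p : E} {P : E → EuclideanSpace ℝ n →L[ℝ] EuclideanSpace ℝ n}
  {M : Matrix m n ℝ} {ρ : ℝ} {Ψ : E × EuclideanSpace ℝ n → E}
  {Gt : E → E × EuclideanSpace ℝ n}

/-- the tube over the pushed field -/
theorem Tube.push (h : Tube S C p P ρ Ψ Gt) (hM : Mᵀ * M = 1) :
    Tube S C p (pushE M P) ρ (fun z => Ψ (z.1, mE Mᵀ z.2)) (fun y => ((Gt y).1, mE M (Gt y).2)) where
  CS := h.CS
  sΨ := by
    have hm : ∀ z ∈ Tot C (pushE M P) ∩ {z : E × EuclideanSpace ℝ m | ‖z.2‖ < ρ},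
        ((z.1, mE Mᵀ z.2) : E × EuclideanSpace ℝ n) ∈ Tot C P ∩ {z | ‖z.2‖ < ρ} := by
      intro z hz
      obtain ⟨h1, h2⟩ := tot_out hM hz.1
      refine ⟨⟨hz.1.1, h1⟩, ?_⟩
      change ‖mE Mᵀ z.2‖ < ρ
      rw [← norm_mE hM, h2]
      exact hz.2
    refine ⟨fun z hz => ?_, fun z hz => h.sΨ.maps (hm z hz)⟩
    have h1 : ContDiffAt ℝ ∞ (fun z : E × EuclideanSpace ℝ m =>
        ((z.1, mE Mᵀ z.2) : E × EuclideanSpace ℝ n)) z :=
      contDiffAt_fst.prodMk ((mE Mᵀ).contDiff.contDiffAt.comp z contDiffAt_snd)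
    exact ContDiffAt.comp (g := Ψ) z (h.sΨ.smooth _ (hm z hz)) h1
  sG := by
    refine ⟨fun y hy => ?_, fun y hy => ?_⟩
    · have h1 := h.sG.smooth y hy
      exact h1.fst.prodMk ((mE M).contDiff.contDiffAt.comp y h1.snd)
    · obtain ⟨⟨h1, h2⟩, h3⟩ := h.sG.maps hy
      refine ⟨⟨h1, ?_⟩, ?_⟩
      · change mE M (P (Gt y).1 (mE Mᵀ (mE M (Gt y).2))) = mE M (Gt y).2
        rw [mE_mE, hM, mE_one, h2]
      · change ‖mE M (Gt y).2‖ < ρ
        rw [norm_mE hM]; exact h3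
  ΨG := fun q hq => by
    change Ψ ((Gt q).1, mE Mᵀ (mE M (Gt q).2)) = q
    rw [mE_mE, hM, mE_one]
    exact h.ΨG q hq
  Ψ0 := fun q hq => by
    change Ψ (q, mE Mᵀ 0) = q
    rw [map_zero]; exact h.Ψ0 q hq
  G0 := fun q hq => by
    change ((Gt q).1, mE M (Gt q).2) = (q, 0)
    rw [h.G0 q hq, map_zero]
  far := by
    obtain ⟨V, hV, hpV, hfar⟩ := h.far
    refine ⟨V, hV, hpV, fun q hq hqp => ?_⟩
    change 3 < ‖mE M (Gt q).2‖
    rw [norm_mE hM]; exact hfar q hq hqp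

end push

variable {n N k m : ℕ} {κ : ℝ} {S : Set (Euc N)} {G : Geo n N κ S} {p : Euc N}
  {ι : Type} [Fintype ι] [DecidableEq ι] {W : Euc N × Euc N → (ι × Fin 2 → Fin N) → ℝ}
  {x : Euc N → Ext (Euc N)}

/-- the tube, with both inverse properties -/
theorem exists_Tube'' (h : GT.Bla G k) (hp : p ∈ S) : ∃ Gt : Euc N → Euc N × Euc N,
    Tube S (GP.Cut S p) p (FV.PC h p) Real.pi (GP.Psi G) Gt ∧
      (∀ z ∈ Tot (GP.Cut S p) (FV.PC h p) ∩ {z | ‖z.2‖ < Real.pi}, Gt (GP.Psi G z) = z) := by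
  obtain ⟨Gt, h1, h2, h3, h4, h5, h6⟩ := GP.exists_Gt h.bl h.ty (FV.sub_S h.bl) hp
  have h3π : (0 : ℝ) < Real.pi - 3 := by linarith [Real.pi_gt_three]
  obtain ⟨U, Λ, h7, h8, -⟩ := GP.exists_polar (G := G) h.bl hp h3π (by linarith)
  refine ⟨Gt, ⟨fun q hq => ⟨hq.1, GP.ne_of_Cut h.bl hp hq⟩, h1, h2, h3, fun q hq => Exp_zero G hq.1,
    h5, U, h7.oU, h7.pU, fun q hq hqp => ?_⟩, h4⟩
  rw [h6 q ⟨hq.1, hqp⟩]
  have := (h8 q hq.1).1 hq.2
  linarith

/-- small balls -/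
theorem exists_ball (h : GT.Bla G k) (hp : p ∈ S) {V : Set (Euc N)} (hV : IsOpen V) (hpV : p ∈ V) :
    ∃ ε : ℝ, 0 < ε ∧ ε < 1 / 10 ∧ ∀ y ∈ S, intrinsicDist S p y < ε → y ∈ V := by
  obtain ⟨ε, hε, hB⟩ := Metric.isOpen_iff.1 hV p hpV
  refine ⟨min ε (1 / 11), lt_min hε (by norm_num), (min_le_right _ _).trans_lt (by norm_num),
    fun y hy hd => hB ?_⟩
  rw [Metric.mem_ball, dist_eq_norm]
  exact (chord_le_intrinsicDist (h.bl.joined hp hy)).trans_lt (hd.trans_le (min_le_left _ _))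

theorem hsmall_S (h : GT.Bla G k) (hp : p ∈ S) {i : ℕ} (hi : 1 ≤ i) (V : Set (Euc N))
    (hV : IsOpen V) (hpV : p ∈ V) : ∃ U ⊆ V, IsOpen U ∧ p ∈ U ∧ ExactIn (S ∩ U) i := by
  obtain ⟨ε, hε, hε1, hB⟩ := exists_ball h hp hV hpV
  obtain ⟨U, Λ, h7, h8, -⟩ := GP.exists_polar (G := G) h.bl hp hε
    (by linarith [Real.pi_gt_three])
  refine ⟨U ∩ V, inter_subset_right, h7.oU.inter hV, ⟨h7.pU, hpV⟩, ?_⟩
  have : S ∩ (U ∩ V) = S ∩ U := by
    ext y
    constructor
    · rintro ⟨h1, h2, -⟩; exact ⟨h1, h2⟩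
    · rintro ⟨h1, h2⟩; exact ⟨h1, h2, hB y h1 ((h8 y h1).1 h2)⟩
  rw [this]
  exact h7.exactIn_ball' hi

/-- a parity choice, for two ranks at once -/
theorem exists_par₂ {N a b : ℕ} (ha : 2 * a ≤ N) (hb : 2 * b ≤ N) (α β : Type) [Fintype α]
    [Fintype β] (hα : Fintype.card α = a) (hβ : Fintype.card β = b) :
    ∃ q r s : ℕ, Nonempty ((α × Fin 2) ⊕ (Fin (r + 1) × Fin 2) ≃ Fin N ⊕ Fin q) ∧
      Nonempty ((β × Fin 2) ⊕ (Fin (s + 1) × Fin 2) ≃ Fin N ⊕ Fin q) := by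
  rcases Nat.even_or_odd N with ⟨c, hc⟩ | ⟨c, hc⟩
  · refine ⟨2, c - a, c - b, ⟨Fintype.equivOfCardEq ?_⟩, ⟨Fintype.equivOfCardEq ?_⟩⟩ <;>
    · simp only [Fintype.card_sum, Fintype.card_prod, Fintype.card_fin]
      omega
  · refine ⟨1, c - a, c - b, ⟨Fintype.equivOfCardEq ?_⟩, ⟨Fintype.equivOfCardEq ?_⟩⟩ <;>
    · simp only [Fintype.card_sum, Fintype.card_prod, Fintype.card_fin]
      omega

set_option maxHeartbeats 1000000 in
/-- **(X1c)**, first part: `x^m` is not exact on `S` -/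
theorem XM.xm_ne {h : GT.Bla G k} (D : XM h m W p x) : ¬ Coh S (x ^ m) 0 := by
  intro hex
  have hk := D.hk
  have hkn := D.hkn
  have h2k := D.two_k
  have hp := D.hp
  have hι := D.hι
  have : Nonempty ι := Fintype.card_pos_iff.1 (by omega)
  have hWp := OR_Cut h hp D.hW
  obtain ⟨o, ho, -, -⟩ := exists_ori_Cut h hk hkn hp
  obtain ⟨l, hl1, hl2, hJ⟩ := X1a h hk hkn hp hι hWp ho
  have hml : m = l + 1 := by
    have h1 := D.hn
    rw [hl2] at h1
    exact (Nat.eq_of_mul_eq_mul_left (by omega) h1).symm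
  have hC := FV.clo_Cut h hp
  have hCc := FV.preconn_Cut h.bl h.ty (by omega) hp
  obtain ⟨Gt, hG, hGΨ⟩ := exists_Tube'' h hp
  obtain ⟨q, r, eq, -⟩ := exists_par hWp (FV.nonempty_Cut h.bl h.ty hp)
  set M := iM (Fin N) (Fin q) with hMdef
  have hM : Mᵀ * M = 1 := iM_iso (Fin q)
  have hO := hWp.push hM
  have hG' := hG.push hM
  obtain ⟨W', c₀, hT⟩ := exists_thomPair thd_holds eq hC.sub hCc (FV.nonempty_Cut h.bl h.ty hp) hO
  set P' := pushE M (FV.PC h p) with hP'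
  have hdτ : Hom k (thomF P' (fun x => pushR M (W (x, p)))) := by
    intro z
    have := thomF_deg (P := P') (W := fun x => pushR M (W (x, p))) z
    rwa [hι] at this
  obtain ⟨x', sx', cx', dx', ex', exG', nx'⟩ := hG'.exists_dual' (FV.sub_S h.bl)
    (csf_thomF hC.sub hO) hdτ (thomF_zero hO)
  have hkN : k ≤ finrank ℝ (EuclideanSpace ℝ (Fin N ⊕ Fin q)) := by
    rw [finrank_euclideanSpace, ← Fintype.card_congr eq, Fintype.card_sum, Fintype.card_prod,
      Fintype.card_prod, Fintype.card_fin, Fintype.card_fin]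
    omega
  set e' := (2 : ℝ) • eR P' (fun x => pushR M (W (x, p))) with he'
  have hee : Eqv (GP.Cut S p) e' ((2 : ℝ) • eR (FV.PC h p) (fun x => W (x, p))) :=
    (eqv_eR_push hM hWp).smul 2
  -- `x' ~ 2 x`
  obtain ⟨c, -, hc⟩ := S_classes h hk hkn hp hι hWp D.sx D.cx D.dx D.ex k x' (by omega) hkn sx' cx'
    dx'
  rw [Nat.div_self (by omega), pow_one] at hc
  have hCS : GP.Cut S p ⊆ S := fun _ hq => hq.1
  have hx' : Coh S (x' ^ m) 0 := by
    have h1 := Coh.powT sx' cx' (D.sx.smul c) (Cl.smul c D.sx D.cx) hc m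
    have h2 := h1.trans (by
      rw [smul_pow]
      exact hex.smul (c ^ m))
    rwa [smul_zero] at h2
  rw [hml] at hx'
  have key := Tube.top_exact (l := l) (i := n - 1) (dC := n - k) (q := k - 1) volume hG'
    (fun z hz => ?_) hp hC.sub hCc (by have := hO.pfield; rwa [hι] at this) hkN
    (by rw [hι] at hT; exact hT) (by omega) D.hke (csf_thomF hC.sub hO) hdτ (thomF_zero hO)
    (hO.ec_eR.sm.smul 2) (Cl.smul 2 hO.ec_eR.sm hO.ec_eR.cl)
    ((show Hom k (eR P' _) from by have := hom_eR (P := P') (W := fun x => pushR M (W (x, p))); rwa [hι] at this).smul 2) ?_ sx' cx'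
    dx' exG' nx' (fun V hV hpV => hsmall_S h hp (by omega) V hV hpV) ?_ (by omega) (by omega) hx'
  · -- the contradiction
    have h1 : Eqv (GP.Cut S p) (x' ^ l) (((2 : ℝ) ^ l) • eR (FV.PC h p) (fun x => W (x, p)) ^ l) := by
      have := (ex'.trans hee).pow l
      rwa [smul_pow] at this
    have h2 := ((Coh.of_eqv h1.symm).trans key).smul_zero_of_ne (by positivity)
    exact hJ (J_exact hC ho h2)
  · -- `Gt Ψ = id`
    obtain ⟨h1, h2⟩ := tot_out hM hz.1
    have h3 : ((z.1, mE Mᵀ z.2) : Euc N × Euc N) ∈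
        Tot (GP.Cut S p) (FV.PC h p) ∩ {z | ‖z.2‖ < Real.pi} := by
      refine ⟨⟨hz.1.1, h1⟩, ?_⟩
      change ‖mE Mᵀ z.2‖ < Real.pi
      rw [← norm_mE hM, h2]
      exact hz.2
    change ((Gt (GP.Psi G (z.1, mE Mᵀ z.2))).1, mE M (Gt (GP.Psi G (z.1, mE Mᵀ z.2))).2) = z
    rw [hGΨ _ h3, h2]
  · -- `e'` is not exact
    intro h0
    exact euler_ne h hk hkn hp hι hWp
      (((Coh.of_eqv hee.symm).trans h0).smul_zero_of_ne two_ne_zero)
  · -- near `p`
    intro V hV hpV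
    obtain ⟨ε, hε, hε1, hB⟩ := exists_ball h hp hV hpV
    have hπ := Real.pi_gt_d2
    refine ⟨Real.pi - ε / 2, by linarith, by linarith, fun z hz => ?_⟩
    obtain ⟨h1, h2⟩ := tot_out hM hz.1
    have hn1 : ‖mE Mᵀ ((Real.pi - ε / 2) • z.2)‖ = Real.pi - ε / 2 := by
      rw [map_smul, norm_smul, ← norm_mE hM (mE Mᵀ z.2), h2, hz.2, mul_one,
        Real.norm_of_nonneg (by linarith)]
    have h3 : ((z.1, mE Mᵀ ((Real.pi - ε / 2) • z.2)) : Euc N × Euc N) ∈
        Tot (GP.Cut S p) (FV.PC h p) := by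
      refine ⟨hz.1.1, ?_⟩
      change FV.PC h p z.1 (mE Mᵀ ((Real.pi - ε / 2) • z.2)) = mE Mᵀ ((Real.pi - ε / 2) • z.2)
      rw [map_smul, map_smul, h1]
    have h4 := GP.dist_Psi h.bl h.ty (FV.sub_S h.bl) hp h3 (by
      change ‖mE Mᵀ ((Real.pi - ε / 2) • z.2)‖ ≤ Real.pi
      rw [hn1]; linarith)
    refine hB _ ?_ ?_
    · refine (hG.sΨ.maps (x := (z.1, mE Mᵀ ((Real.pi - ε / 2) • z.2))) ⟨h3, ?_⟩).1
      change ‖mE Mᵀ ((Real.pi - ε / 2) • z.2)‖ < Real.pi
      rw [hn1]; linarith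
    · change intrinsicDist S p (GP.Psi G (z.1, mE Mᵀ ((Real.pi - ε / 2) • z.2))) < ε
      rw [h4]
      change Real.pi - ‖mE Mᵀ ((Real.pi - ε / 2) • z.2)‖ < ε
      rw [hn1]; linarith

end Crest.Agent.R208.T
end
end

-- ▼ part R208/TX7b

/-! Row 208, block T (helper316).  TX7b: `J S x^m ≠ 0`, `J C x^(m-1) ≠ 0`, and
`x₁^m x₂^(m-1)` is not exact on `F`. -/

set_option autoImplicit false
set_option linter.unusedSectionVars false

open MeasureTheory Set Filter Topology Module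
open scoped ContDiff RealInnerProductSpace Matrix
open Crest.GeometryTopology.Submanifold
open Crest.Agent.R241.DDefs
open Crest.Agent.R241.D2
open Crest.Agent.R208.F Crest.Agent.R208.FI Crest.Agent.R208.CW

noncomputable section

namespace Crest.Agent.R208.T

variable {n N k m : ℕ} {κ : ℝ} {S : Set (Euc N)} {G : Geo n N κ S} {p : Euc N}
  {ι : Type} [Fintype ι] [DecidableEq ι] {W : Euc N × Euc N → (ι × Fin 2 → Fin N) → ℝ}
  {x : Euc N → Ext (Euc N)} {oS oC : Euc N → Ext (Euc N)}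

/-- the orientation of `TM` as an oriented field -/
theorem XM.exists_OR_S {h : GT.Bla G k} (D : XM h m W p x) :
    ∃ (l : ℕ) (W' : Euc N → (Fin l × Fin 2 → Fin N) → ℝ), 2 * l = n ∧ 1 ≤ l ∧ OR S G.P W' := by
  obtain ⟨l, hl⟩ := D.hne
  have h1 := D.two_k
  have h2 := D.hk
  have hι : 2 * Fintype.card (Fin l) = n := by rw [Fintype.card_fin]; omega
  obtain ⟨Wt, hW⟩ := GP.exists_OR_S (G := G) h.bl h.ty D.hk hι
  exact ⟨l, Wt, by omega, by omega, hW⟩

theorem XM.dim1 {h : GT.Bla G k} (D : XM h m W p x) : Dim1 S n := by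
  obtain ⟨l, W', h1, h2, hO⟩ := D.exists_OR_S
  exact HY.dim1_S h D.hk D.hkn D.hp (by rw [Fintype.card_fin]; omega) hO

theorem XM.exactIn_one {h : GT.Bla G k} (D : XM h m W p x) : ExactIn S 1 := by
  obtain ⟨l, W', h1, h2, hO⟩ := D.exists_OR_S
  exact HY.exactIn_one_S h D.hk D.hkn D.hp D.hι (OR_Cut h D.hp D.hW)
    (by rw [Fintype.card_fin]; omega) hO

/-- **(X1c)** the integral of `x^m` over `S` -/
theorem XM.J_ne {h : GT.Bla G k} (D : XM h m W p x) (hoS : Ori n S oS) :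
    J n S oS (x ^ m) ≠ 0 := by
  obtain ⟨o₁, h1, h2, h3⟩ := GP.exists_ori (G := G) h.bl h.ty D.hk
  have hC := GP.clo_S h.bl
  have hpos : 0 < J n S o₁ o₁ := J_pos hC h1 ⟨p, D.hp⟩
  have hpos' : J n S oS o₁ ≠ 0 := by
    rcases J_ori_connected hC h1 hoS h.bl.conn.isPreconnected with h4 | h4
    · rw [h4]; exact hpos.ne'
    · rw [h4]; exact neg_ne_zero.2 hpos.ne'
  intro hJ
  refine D.xm_ne (exact_of_J hC hoS D.dim1 h2 h3 hpos' (D.sx.pow m) ?_ hJ)
  rw [D.hn]; exact D.dx.pow m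


/-- **(X1c)** `x₁^m x₂^(m-1)` is not exact on `F` -/
theorem XM.mix_ne {h : GT.Bla G k} (D : XM h m W p x) :
    ¬ Coh (GT.FF S) (F.pull Prod.fst x ^ m * F.pull Prod.snd x ^ (m - 1)) 0 := by
  obtain ⟨oS, hoS, -, -⟩ := GP.exists_ori (G := G) h.bl h.ty D.hk
  exact D.mul_ne hoS (D.J_ne hoS)

end Crest.Agent.R208.T
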