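import Mathlib
import Crest.Agent.R208.CW3
import Crest.Agent.R208.GK1
import Crest.Agent.R208.GD3
import Crest.Agent.R208.GQ4a
import Crest.Agent.R208.HG1
import Crest.Agent.R208.FG3b
import Crest.Agent.R208.TX6b
import Crest.Agent.R208.GQ4b
import Crest.Agent.R208.XE2
import Crest.Agent.R208.TX7b
import Crest.Agent.R208.FG5

-- ▼ part R208/S1
section

/-!
# R208, SER1: gap (a) for `k = 4` (helper137's recursion), all `m ≥ 2`, all real `|λ| ≥ 6`

`n = m - 1 ≥ 1`.  A sequence `e` with `e 0 = 1` and (`e_neg = 0`)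
`(j+1) e_{j+1} = q0 e_j + A e_{j-1} - M e_{j-2} + B e_{j-3} + q4 e_{j-4} - c2 (2n+7-j) e_{j-5}`
is positive up to the index `2n+1 = 2m-1`.
-/

namespace Crest.Agent.R208.Ser

/-- the three numerical facts. -/
lemma num1 (N J : ℝ) (hN : 1 ≤ N) :
    5 * ((2 * N + 7 - J) * (J - 4)) ≤ 72 * N * (2 * N + 3) := by
  nlinarith [sq_nonneg (2 * (J - 4) - (2 * N + 3)), sq_nonneg (N - 1)]

lemma num2 (n : ℕ) (x : ℕ) (hn : 1 ≤ n) (hx : x ≤ n + 2) (hx2 : x + 1 ≤ 2 * n) :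
    (0 : ℝ) ≤ 792 * n ^ 2 + 3600 * n + 775 * n * x - 4750 * x := by
  have hn' : (1 : ℝ) ≤ n := by exact_mod_cast hn
  have hx' : (x : ℝ) ≤ n + 2 := by exact_mod_cast hx
  have hx0 : (0 : ℝ) ≤ x := Nat.cast_nonneg x
  have hx2' : (x : ℝ) + 1 ≤ 2 * n := by exact_mod_cast hx2
  rcases Nat.lt_or_ge n 3 with h | h
  · interval_cases n
    · norm_num at hx2' ⊢; linarith
    · norm_num at hx2' ⊢; linarith
  · have h3 : (3 : ℝ) ≤ n := by exact_mod_cast h
    rcases Nat.lt_or_ge n 7 with h7 | h7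
    · have h6 : (n : ℝ) ≤ 6 := by exact_mod_cast (Nat.lt_succ_iff.mp h7)
      nlinarith [mul_nonneg (sub_nonneg.2 h6) (sub_nonneg.2 hx'), mul_nonneg (sub_nonneg.2 h3) (sub_nonneg.2 h3)]
    · have h7' : (7 : ℝ) ≤ n := by exact_mod_cast h7
      nlinarith [mul_nonneg (sub_nonneg.2 h7') hx0]

lemma num3 (n : ℕ) (x : ℝ) (hn : 4 ≤ n) (hx : x ≤ 2 * n - 1) (hx2 : (n : ℝ) + 2 ≤ x) :
    (0 : ℝ) ≤ 1584 * n ^ 3 + 7200 * n ^ 2 + 1550 * n ^ 2 * x - 9500 * n * x
      - 625 * (x * (x - 1) * (x - n - 2)) := by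
  have h4 : (4 : ℝ) ≤ n := by exact_mod_cast hn
  have hx0 : 0 ≤ x := by linarith
  have h1 : (x - 1) * (x - n - 2) ≤ (2 * n - 2) * (n - 3) := by
    nlinarith [mul_nonneg (sub_nonneg.2 hx) (by linarith : (0:ℝ) ≤ x - n - 2)]
  have h2 : x * ((x - 1) * (x - n - 2)) ≤ x * ((2 * n - 2) * (n - 3)) :=
    mul_le_mul_of_nonneg_left h1 hx0
  have h3 : (0 : ℝ) ≤ 1584 * n ^ 3 + 7200 * n ^ 2 + x * (300 * n ^ 2 - 4500 * n - 3750) := by
    rcases le_total (0 : ℝ) (300 * n ^ 2 - 4500 * n - 3750) with h | h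
    · have := mul_nonneg hx0 h
      positivity
    · have h5 : (2 * n : ℝ) * (300 * n ^ 2 - 4500 * n - 3750) ≤ x * (300 * n ^ 2 - 4500 * n - 3750) :=
        mul_le_mul_of_nonpos_right (by linarith) h
      have h6 : (0 : ℝ) ≤ n * (2184 * n ^ 2 - 1800 * n - 7500) := by
        apply mul_nonneg (by linarith); nlinarith
      nlinarith
  nlinarith

/-- the two last terms. -/
lemma step_tail (N L c2 J g h : ℝ) (hN : 1 ≤ N) (hL : 6 ≤ L) (hc2 : 0 ≤ c2)
    (hg : 0 ≤ g) (hJ0 : 0 ≤ 2 * N + 7 - J) (hi : 2 * L * N * h ≤ 5 * (J - 4) * g) :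
    0 ≤ L * c2 * (2 * N + 3) * g - c2 * (2 * N + 7 - J) * h := by
  have hLN : 0 < 2 * L * N := by positivity
  have h1 : c2 * (2 * N + 7 - J) * (2 * L * N * h) ≤ c2 * (2 * N + 7 - J) * (5 * (J - 4) * g) :=
    mul_le_mul_of_nonneg_left hi (mul_nonneg hc2 hJ0)
  have h2 : c2 * g * (5 * ((2 * N + 7 - J) * (J - 4))) ≤ c2 * g * (72 * N * (2 * N + 3)) :=
    mul_le_mul_of_nonneg_left (num1 N J hN) (mul_nonneg hc2 hg)
  have h3 : c2 * g * (72 * N * (2 * N + 3)) ≤ c2 * g * (2 * L ^ 2 * N * (2 * N + 3)) := by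
    apply mul_le_mul_of_nonneg_left _ (mul_nonneg hc2 hg)
    have : (36 : ℝ) ≤ L ^ 2 := by nlinarith
    have h4 : 0 ≤ N * (2 * N + 3) := by positivity
    nlinarith [mul_le_mul_of_nonneg_right this h4]
  by_contra hneg
  push Not at hneg
  have h5 : 2 * L * N * (L * c2 * (2 * N + 3) * g - c2 * (2 * N + 7 - J) * h) < 0 :=
    mul_neg_of_pos_of_neg hLN hneg
  nlinarith

/-- `D ≤ 0.72 n`, in cleared form. -/
lemma numD (n j : ℕ) (hn : 1 ≤ n) (hj1 : 1 ≤ j) (hj : j ≤ 2 * n) :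
    ((n : ℝ) - 2) / 2 + ((j : ℝ) - 1) * (190 - 31 * n) / (144 * n)
      + 25 * max ((j : ℝ) - n - 3) 0 * ((j : ℝ) - 1) * ((j : ℝ) - 2) / (288 * n ^ 2)
      ≤ 18 / 25 * n := by
  have hn' : (1 : ℝ) ≤ n := by exact_mod_cast hn
  have hn0 : (0 : ℝ) < n := by linarith
  obtain ⟨x, rfl⟩ : ∃ x, j = x + 1 := ⟨j - 1, by omega⟩
  have hx2 : (x : ℝ) + 1 ≤ 2 * n := by exact_mod_cast hj
  rcases Nat.lt_or_ge (n + 2) x with h | h
  · have h4 : 4 ≤ n := by omega
    have hx3 : (n : ℝ) + 2 ≤ x := by exact_mod_cast h.le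
    have hmax : max (((x + 1 : ℕ) : ℝ) - n - 3) 0 = (x : ℝ) - n - 2 := by
      rw [max_eq_left] <;> push_cast <;> linarith
    have key := num3 n x h4 (by linarith) hx3
    rw [hmax]
    push_cast
    rw [← sub_nonneg]
    have : 18 / 25 * (n : ℝ) - (((n : ℝ) - 2) / 2 + ((x : ℝ) + 1 - 1) * (190 - 31 * n) / (144 * n)
      + 25 * ((x : ℝ) - n - 2) * ((x : ℝ) + 1 - 1) * ((x : ℝ) + 1 - 2) / (288 * n ^ 2))
      = (1584 * n ^ 3 + 7200 * n ^ 2 + 1550 * n ^ 2 * x - 9500 * n * x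
      - 625 * (x * (x - 1) * (x - n - 2))) / (7200 * (n : ℝ) ^ 2) := by
      field_simp
      ring
    rw [this]
    positivity
  · have hmax : max (((x + 1 : ℕ) : ℝ) - n - 3) 0 = 0 := by
      rw [max_eq_right]
      have : (x : ℝ) ≤ n + 2 := by exact_mod_cast h
      push_cast; linarith
    have key := num2 n x hn h (by omega)
    rw [hmax]
    push_cast
    rw [← sub_nonneg]
    have : 18 / 25 * (n : ℝ) - (((n : ℝ) - 2) / 2 + ((x : ℝ) + 1 - 1) * (190 - 31 * n) / (144 * n)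
      + 25 * 0 * ((x : ℝ) + 1 - 1) * ((x : ℝ) + 1 - 2) / (288 * n ^ 2))
      = (792 * n ^ 2 + 3600 * n + 775 * n * x - 4750 * x) / (3600 * (n : ℝ)) := by
      field_simp
      ring
    rw [this]
    positivity

set_option maxHeartbeats 1600000 in
/-- one step of the recursion, `j ≥ 1`. -/
lemma step (n j : ℕ) (L : ℝ) (a b c d g h a' : ℝ) (hn : 1 ≤ n) (hj1 : 1 ≤ j) (hj : j ≤ 2 * n)
    (hL : 6 ≤ L) (ha : 0 < a) (hb : 0 ≤ b) (hc : 0 ≤ c) (hd : 0 ≤ d) (hg : 0 ≤ g)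
    (hab : 2 * L * n * b ≤ 5 * j * a) (hbc : 2 * L * n * c ≤ 5 * (j - 1) * b)
    (hcd : 2 * L * n * d ≤ 5 * (j - 2) * c) (hgh : 2 * L * n * h ≤ 5 * (j - 4) * g)
    (hd1 : j = 1 → c = 0)
    (hrec : ((j : ℝ) + 1) * a' = L * n / 2 * a + (3 * (j - 1) - (n - 2)) / 2 * b
      - L * ((n + 1) / 2 + 2 * (1 / (4 * L ^ 2)) * (n + 2)) * c
      + ((n + 3 - j) / 2 + 1 / (4 * L ^ 2) * (2 * n + 7 - j)) * d
      + L * (1 / (4 * L ^ 2)) * (2 * n + 3) * g - 1 / (4 * L ^ 2) * (2 * n + 7 - j) * h) :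
    2 * L * n * a ≤ 5 * ((j : ℝ) + 1) * a' := by
  have hn' : (1 : ℝ) ≤ n := by exact_mod_cast hn
  have hn0 : (0 : ℝ) < n := by linarith
  have hj1' : (1 : ℝ) ≤ j := by exact_mod_cast hj1
  have hj' : (j : ℝ) ≤ 2 * n := by exact_mod_cast hj
  have hL0 : (0 : ℝ) < L := by linarith
  set c2 : ℝ := 1 / (4 * L ^ 2) with hc2
  have hc20 : 0 ≤ c2 := by positivity
  have hL36 : (36 : ℝ) ≤ L ^ 2 := by nlinarith
  have hc2' : c2 ≤ 1 / 144 := by
    rw [hc2, div_le_div_iff₀ (by positivity) (by norm_num)]; linarith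
  -- tail
  have htail : 0 ≤ L * c2 * (2 * n + 3) * g - c2 * (2 * n + 7 - j) * h :=
    step_tail n L c2 j g h hn' hL hc20 hg (by linarith) hgh
  -- d term
  set mx : ℝ := max ((j : ℝ) - n - 3) 0 with hmx
  have hmx0 : 0 ≤ mx := le_max_right _ _
  have hmx1 : (j : ℝ) - n - 3 ≤ mx := le_max_left _ _
  have hB : -(mx / 2) ≤ ((n + 3 - j) / 2 + c2 * (2 * n + 7 - j) : ℝ) := by
    have : 0 ≤ c2 * (2 * n + 7 - j : ℝ) := mul_nonneg hc20 (by linarith)
    linarith
  have hBd : -(mx / 2) * d ≤ ((n + 3 - j) / 2 + c2 * (2 * n + 7 - j) : ℝ) * d :=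
    mul_le_mul_of_nonneg_right hB hd
  -- bound c
  have hLn : 0 < 2 * L * n := by positivity
  have hc1 : L * c ≤ 5 * (j - 1) / (2 * n) * b := by
    rw [div_mul_eq_mul_div, le_div_iff₀ (by positivity)]; linarith
  -- bound d
  have hd2 : d ≤ 25 * ((j : ℝ) - 1) * (j - 2) / (144 * n ^ 2) * b := by
    rcases Nat.lt_or_ge j 2 with h2 | h2
    · have hj11 : j = 1 := by omega
      have hc0 := hd1 hj11
      subst hj11
      rw [hc0] at hcd
      have : 2 * L * n * d ≤ 0 := by simpa using hcd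
      have hd0 : d ≤ 0 := by
        by_contra hcon
        push Not at hcon
        have := mul_pos hLn hcon
        linarith
      simpa using hd0
    · have h2' : (2 : ℝ) ≤ j := by exact_mod_cast h2
      have e1 : (2 * L * n) * (2 * L * n * d) ≤ (2 * L * n) * (5 * (j - 2) * c) :=
        mul_le_mul_of_nonneg_left hcd hLn.le
      have e2 : 5 * ((j : ℝ) - 2) * (2 * L * n * c) ≤ 5 * ((j : ℝ) - 2) * (5 * (j - 1) * b) :=
        mul_le_mul_of_nonneg_left hbc (by linarith)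
      have e3 : 4 * L ^ 2 * n ^ 2 * d ≤ 25 * ((j : ℝ) - 1) * (j - 2) * b := by
        have g1 : (2 * L * n) * (2 * L * n * d) = 4 * L ^ 2 * n ^ 2 * d := by ring
        have g2 : (2 * L * n) * (5 * ((j : ℝ) - 2) * c) = 5 * ((j : ℝ) - 2) * (2 * L * n * c) := by ring
        have g3 : 5 * ((j : ℝ) - 2) * (5 * (j - 1) * b) = 25 * ((j : ℝ) - 1) * (j - 2) * b := by ring
        rw [g1, g2] at e1
        rw [g3] at e2
        linarith
      have e4 : 144 * (n : ℝ) ^ 2 * d ≤ 4 * L ^ 2 * n ^ 2 * d := by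
        have : 0 ≤ (n : ℝ) ^ 2 * d := by positivity
        nlinarith
      rw [div_mul_eq_mul_div, le_div_iff₀ (by positivity)]
      linarith
  -- M c
  have hM : L * ((n + 1) / 2 + 2 * c2 * (n + 2)) * c ≤ 5 * (37 * n + 38) * (j - 1) / (144 * n) * b := by
    have h1 : ((n + 1) / 2 + 2 * c2 * (n + 2) : ℝ) ≤ (37 * n + 38) / 72 := by
      have : c2 * (n + 2 : ℝ) ≤ 1 / 144 * (n + 2) := mul_le_mul_of_nonneg_right hc2' (by linarith)
      linarith
    have h2 : 0 ≤ L * c := by positivity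
    calc L * ((n + 1) / 2 + 2 * c2 * (n + 2)) * c
        = ((n + 1) / 2 + 2 * c2 * (n + 2)) * (L * c) := by ring
      _ ≤ (37 * n + 38) / 72 * (L * c) := mul_le_mul_of_nonneg_right h1 h2
      _ ≤ (37 * n + 38) / 72 * (5 * (j - 1) / (2 * n) * b) :=
          mul_le_mul_of_nonneg_left hc1 (by positivity)
      _ = 5 * (37 * n + 38) * (j - 1) / (144 * n) * b := by field_simp; ring
  have hmd : mx / 2 * d ≤ 25 * mx * ((j : ℝ) - 1) * ((j : ℝ) - 2) / (288 * n ^ 2) * b := by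
    calc mx / 2 * d ≤ mx / 2 * (25 * ((j : ℝ) - 1) * (j - 2) / (144 * n ^ 2) * b) :=
          mul_le_mul_of_nonneg_left hd2 (by positivity)
      _ = 25 * mx * ((j : ℝ) - 1) * ((j : ℝ) - 2) / (288 * n ^ 2) * b := by field_simp; ring
  have hD := mul_le_mul_of_nonneg_right (numD n j hn hj1 hj) hb
  rw [← hmx] at hD
  have hDb : 18 / 25 * (n : ℝ) * b ≤ L * n / 10 * a := by
    -- 2 L n b ≤ 5 j a, 18 j ≤ L² n
    have h1 : 18 / 25 * (n : ℝ) * (2 * L * n * b) ≤ 18 / 25 * (n : ℝ) * (5 * j * a) :=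
      mul_le_mul_of_nonneg_left hab (by positivity)
    have h2 : (36 : ℝ) * n * (n * a) ≤ L ^ 2 * n * (n * a) := by
      have : 0 ≤ (n : ℝ) * (n * a) := by positivity
      nlinarith
    have h3 : (j : ℝ) * (n * a) ≤ 2 * n * (n * a) :=
      mul_le_mul_of_nonneg_right hj' (by positivity)
    have h4 : 2 * L * n * (18 / 25 * (n : ℝ) * b) ≤ 2 * L * n * (L * n / 10 * a) := by
      have g1 : 2 * L * n * (18 / 25 * (n : ℝ) * b) = 18 / 25 * (n : ℝ) * (2 * L * n * b) := by ring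
      have g2 : 2 * L * n * (L * n / 10 * a) = 1 / 5 * (L ^ 2 * n * (n * a)) := by ring
      have g3 : 18 / 25 * (n : ℝ) * (5 * j * a) = 18 / 5 * ((j : ℝ) * (n * a)) := by ring
      rw [g1, g2]
      rw [g3] at h1
      linarith
    exact le_of_mul_le_mul_left h4 hLn
  have hfin : L * n / 2 * a - L * n / 10 * a ≤ ((j : ℝ) + 1) * a' := by
    rw [hrec]
    have e : (((n : ℝ) - 2) / 2 + ((j : ℝ) - 1) * (190 - 31 * n) / (144 * n)
      + 25 * mx * ((j : ℝ) - 1) * ((j : ℝ) - 2) / (288 * n ^ 2)) * b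
      = -((3 * (j - 1) - (n - 2)) / 2 * b) + 5 * (37 * n + 38) * (j - 1) / (144 * n) * b
        + 25 * mx * ((j : ℝ) - 1) * ((j : ℝ) - 2) / (288 * n ^ 2) * b := by
      field_simp
      ring
    rw [e] at hD
    linarith
  linarith

/-- **Core**: the sequence is positive up to `2n+1`. -/
theorem core (n : ℕ) (hn : 1 ≤ n) (L : ℝ) (hL : 6 ≤ L) (f : ℕ → ℝ)
    (h0 : ∀ k < 5, f k = 0) (h5 : f 5 = 1)
    (hrec : ∀ j : ℕ, j ≤ 2 * n → ((j : ℝ) + 1) * f (j + 6) = L * n / 2 * f (j + 5)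
      + (3 * (j - 1) - (n - 2)) / 2 * f (j + 4)
      - L * ((n + 1) / 2 + 2 * (1 / (4 * L ^ 2)) * (n + 2)) * f (j + 3)
      + ((n + 3 - j) / 2 + 1 / (4 * L ^ 2) * (2 * n + 7 - j)) * f (j + 2)
      + L * (1 / (4 * L ^ 2)) * (2 * n + 3) * f (j + 1)
      - 1 / (4 * L ^ 2) * (2 * n + 7 - j) * f j) :
    ∀ j : ℕ, j ≤ 2 * n + 1 → 0 < f (j + 5) := by
  have hn' : (1 : ℝ) ≤ n := by exact_mod_cast hn
  have hL0 : (0 : ℝ) < L := by linarith
  -- strong invariant
  have inv : ∀ j : ℕ, j ≤ 2 * n + 1 →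
      (∀ k, k < j + 5 → 0 ≤ f k ∧ 2 * L * n * f k ≤ 5 * ((k : ℝ) - 4) * f (k + 1)) ∧ 0 < f (j + 5) := by
    intro j
    induction j with
    | zero =>
      intro _
      refine ⟨?_, by rw [h5]; norm_num⟩
      intro k hk
      have hk0 := h0 k hk
      refine ⟨hk0.ge, ?_⟩
      rw [hk0]
      rcases Nat.lt_or_ge k 4 with h | h
      · rw [h0 (k + 1) (by omega)]; simp
      · have : k = 4 := by omega
        subst this; norm_num
    | succ j ih =>
      intro hj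
      obtain ⟨ih1, ih2⟩ := ih (by omega)
      have hj2 : j ≤ 2 * n := by omega
      have hr := hrec j hj2
      have key : 2 * L * n * f (j + 5) ≤ 5 * ((j : ℝ) + 1) * f (j + 6) := by
        rcases Nat.eq_zero_or_pos j with hj0 | hjpos
        · subst hj0
          rw [h0 4 (by norm_num), h0 3 (by norm_num), h0 2 (by norm_num), h0 1 (by norm_num),
            h0 0 (by norm_num)] at hr
          simp only [Nat.zero_add] at hr ⊢
          rw [h5] at hr ⊢
          push_cast at hr ⊢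
          nlinarith [mul_pos hL0 (by linarith : (0 : ℝ) < n)]
        · have i4 := ih1 (j + 4) (by omega)
          have i3 := ih1 (j + 3) (by omega)
          have i2 := ih1 (j + 2) (by omega)
          have i1 := ih1 (j + 1) (by omega)
          have i0 := ih1 j (by omega)
          push_cast at i4 i3 i2 i1 i0
          refine step n j L (f (j + 5)) (f (j + 4)) (f (j + 3)) (f (j + 2)) (f (j + 1)) (f j)
            (f (j + 6)) hn hjpos hj2 hL ih2 i4.1 i3.1 i2.1 i1.1 ?_ ?_ ?_ ?_ ?_ hr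
          · have := i4.2; ring_nf at this ⊢; linarith
          · have := i3.2; ring_nf at this ⊢; linarith
          · have := i2.2; ring_nf at this ⊢; linarith
          · have := i0.2; ring_nf at this ⊢; linarith
          · intro hj1; subst hj1; exact h0 4 (by norm_num)
      have hpos : 0 < f (j + 6) := by
        by_contra hcon
        push Not at hcon
        have h1 : 0 < 2 * L * n * f (j + 5) := by positivity
        have h2 : 5 * ((j : ℝ) + 1) * f (j + 6) ≤ 0 := by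
          have : (0 : ℝ) ≤ 5 * ((j : ℝ) + 1) := by positivity
          nlinarith
        linarith
      refine ⟨?_, by simpa [add_assoc, add_comm, add_left_comm] using hpos⟩
      intro k hk
      rcases Nat.lt_or_ge k (j + 5) with h | h
      · exact ih1 k h
      · have hk5 : k = j + 5 := by omega
        subst hk5
        refine ⟨ih2.le, ?_⟩
        push_cast
        have e : ((j : ℝ) + 5 - 4) = (j : ℝ) + 1 := by ring
        rw [e]
        exact key
  intro j hj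
  exact (inv j hj).2


open PowerSeries

/-- the polynomial `P = (1-X²)(1-X²/2+c2 X⁴)`, `c2 = 1/(4L²)`. -/
noncomputable def serP (L : ℝ) : PowerSeries ℝ :=
  1 - C (3 / 2) * X ^ 2 + C (1 / 2 + 1 / (4 * L ^ 2)) * X ^ 4 - C (1 / (4 * L ^ 2)) * X ^ 6

/-- the polynomial `Q`, `n = m - 1`. -/
noncomputable def serQ (n : ℕ) (L : ℝ) : PowerSeries ℝ :=
  C (L * n / 2) + C (-((n : ℝ) - 2) / 2) * X
    + C (-(L * ((n + 1) / 2 + 2 * (1 / (4 * L ^ 2)) * (n + 2)))) * X ^ 2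
    + C ((n + 2) * (1 / 2 + 2 * (1 / (4 * L ^ 2))) - 1) * X ^ 3
    + C (L * (1 / (4 * L ^ 2)) * (2 * n + 3)) * X ^ 4
    + C (-(2 * (1 / (4 * L ^ 2)) * (n + 1))) * X ^ 5

/-- shifted coefficients. -/
noncomputable def shf (W : PowerSeries ℝ) (k : ℕ) : ℝ := if k < 5 then 0 else coeff (k - 5) W

lemma shf_lt (W : PowerSeries ℝ) {k : ℕ} (hk : k < 5) : shf W k = 0 := by simp [shf, hk]

lemma shf_add (W : PowerSeries ℝ) (k : ℕ) : shf W (k + 5) = coeff k W := by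
  have : ¬ (k + 5 < 5) := by omega
  simp [shf]

lemma coeff_shift (W : PowerSeries ℝ) (i s : ℕ) (_hs : s ≤ 5) :
    coeff i (X ^ s * W) = shf W (i + 5 - s) := by
  rw [coeff_X_pow_mul']
  split_ifs with h
  · have : i + 5 - s = (i - s) + 5 := by omega
    rw [this, shf_add]
  · rw [shf_lt]; omega

lemma coeff_shift_deriv (W : PowerSeries ℝ) (i s : ℕ) (_hs : s ≤ 6) :
    coeff i (X ^ s * d⁄dX ℝ W) = ((i : ℝ) - s + 1) * shf W (i + 6 - s) := by
  rw [coeff_X_pow_mul']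
  split_ifs with h
  · have h2 : i + 6 - s = (i - s + 1) + 5 := by omega
    rw [h2, shf_add, coeff_derivative]
    rw [Nat.cast_sub h]
    ring
  · rcases Nat.lt_or_ge (i + 6 - s) 5 with h3 | h3
    · rw [shf_lt W h3, mul_zero]
    · have h4 : s = i + 1 := by omega
      subst h4
      push_cast
      ring

theorem ser1_pos (n : ℕ) (hn : 1 ≤ n) (L : ℝ) (hL : 6 ≤ L) (W : PowerSeries ℝ)
    (h0 : constantCoeff W = 1)
    (hW : ∀ i, i ≤ 2 * n → coeff i (serP L * d⁄dX ℝ W) = coeff i (serQ n L * W)) :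
    ∀ j, j ≤ 2 * n + 1 → 0 < coeff j W := by
  have main := core n hn L hL (shf W) (fun k hk => shf_lt W hk)
    (by rw [show (5 : ℕ) = 0 + 5 from rfl, shf_add, coeff_zero_eq_constantCoeff_apply, h0]) ?_
  · intro j hj
    have := main j hj
    rwa [shf_add] at this
  · intro j hj
    have h := hW j hj
    have e1 : coeff j (serP L * d⁄dX ℝ W) = ((j : ℝ) + 1) * shf W (j + 6)
        - 3 / 2 * (((j : ℝ) - 1) * shf W (j + 4))
        + (1 / 2 + 1 / (4 * L ^ 2)) * (((j : ℝ) - 3) * shf W (j + 2))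
        - 1 / (4 * L ^ 2) * (((j : ℝ) - 5) * shf W j) := by
      have a0 := coeff_shift_deriv W j 0 (by norm_num)
      have a2 := coeff_shift_deriv W j 2 (by norm_num)
      have a4 := coeff_shift_deriv W j 4 (by norm_num)
      have a6 := coeff_shift_deriv W j 6 (by norm_num)
      have b2 : j + 6 - 2 = j + 4 := by omega
      have b4 : j + 6 - 4 = j + 2 := by omega
      have b6 : j + 6 - 6 = j := by omega
      rw [b2] at a2
      rw [b4] at a4
      rw [b6] at a6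
      simp only [serP, sub_mul, add_mul, mul_assoc, map_sub, map_add, coeff_C_mul, a2, a4, a6]
      rw [pow_zero, Nat.sub_zero] at a0
      rw [a0]
      push_cast
      ring
    have e2 : coeff j (serQ n L * W) = L * n / 2 * shf W (j + 5)
        + (-((n : ℝ) - 2) / 2) * shf W (j + 4)
        + (-(L * ((n + 1) / 2 + 2 * (1 / (4 * L ^ 2)) * (n + 2)))) * shf W (j + 3)
        + ((n + 2) * (1 / 2 + 2 * (1 / (4 * L ^ 2))) - 1) * shf W (j + 2)
        + (L * (1 / (4 * L ^ 2)) * (2 * n + 3)) * shf W (j + 1)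
        + (-(2 * (1 / (4 * L ^ 2)) * (n + 1))) * shf W j := by
      have a0 := shf_add W j
      have a1 := coeff_shift W j 1 (by norm_num)
      have a2 := coeff_shift W j 2 (by norm_num)
      have a3 := coeff_shift W j 3 (by norm_num)
      have a4 := coeff_shift W j 4 (by norm_num)
      have a5 := coeff_shift W j 5 (by norm_num)
      have b1 : j + 5 - 1 = j + 4 := by omega
      have b2 : j + 5 - 2 = j + 3 := by omega
      have b3 : j + 5 - 3 = j + 2 := by omega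
      have b4 : j + 5 - 4 = j + 1 := by omega
      have b5 : j + 5 - 5 = j := by omega
      rw [b1, pow_one] at a1
      rw [b2] at a2
      rw [b3] at a3
      rw [b4] at a4
      rw [b5] at a5
      simp only [serQ, add_mul, mul_assoc, map_add, coeff_C_mul, a1, a2, a3, a4, a5, ← a0]
    rw [e1, e2] at h
    linear_combination h

/-- `λ ≤ -6` by `X → -X`. -/
lemma coeff_evalNegHom' (W : PowerSeries ℝ) (i : ℕ) :
    coeff i (evalNegHom W) = (-1) ^ i * coeff i W := by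
  rw [evalNegHom, coeff_rescale]

lemma evalNegHom_C' (a : ℝ) : evalNegHom (C a : PowerSeries ℝ) = C a := by
  ext i
  rw [coeff_evalNegHom', coeff_C]
  split_ifs with h
  · subst h; simp
  · simp

lemma deriv_evalNegHom (W : PowerSeries ℝ) :
    d⁄dX ℝ (evalNegHom W) = -evalNegHom (d⁄dX ℝ W) := by
  ext i
  rw [coeff_derivative, coeff_evalNegHom', map_neg, coeff_evalNegHom', coeff_derivative]
  ring

lemma evalNegHom_serP (L : ℝ) : evalNegHom (serP L) = serP (-L) := by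
  simp only [serP, map_sub, map_add, map_mul, map_pow, map_one, evalNegHom_C', evalNegHom_X,
    neg_sq]
  ring

lemma evalNegHom_poly5 (a0 a1 a2 a3 a4 a5 : ℝ) :
    evalNegHom (C a0 + C a1 * X + C a2 * X ^ 2 + C a3 * X ^ 3 + C a4 * X ^ 4 + C a5 * X ^ 5
      : PowerSeries ℝ)
    = C a0 - C a1 * X + C a2 * X ^ 2 - C a3 * X ^ 3 + C a4 * X ^ 4 - C a5 * X ^ 5 := by
  have h : ∀ a : ℝ, evalNegHom (C a : PowerSeries ℝ) = C a := evalNegHom_C'
  rw [map_add, map_add, map_add, map_add, map_add, map_mul, map_mul, map_mul, map_mul, map_mul,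
    map_pow, map_pow, map_pow, map_pow, h, h, h, h, h, h, evalNegHom_X]
  ring

lemma evalNegHom_serQ (n : ℕ) (L : ℝ) : evalNegHom (serQ n L) = -serQ n (-L) := by
  have e0 : (C (-L * n / 2) : PowerSeries ℝ) = -C (L * n / 2) := by rw [← map_neg]; congr 1; ring
  have e2 : (C (-(-L * ((n + 1) / 2 + 2 * (1 / (4 * (-L) ^ 2)) * (n + 2)))) : PowerSeries ℝ)
      = -C (-(L * ((n + 1) / 2 + 2 * (1 / (4 * L ^ 2)) * (n + 2)))) := by
    rw [← map_neg, neg_sq]; congr 1; ring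
  have e4 : (C (-L * (1 / (4 * (-L) ^ 2)) * (2 * n + 3)) : PowerSeries ℝ)
      = -C (L * (1 / (4 * L ^ 2)) * (2 * n + 3)) := by
    rw [← map_neg, neg_sq]; congr 1; ring
  rw [serQ, evalNegHom_poly5, serQ, e0, e2, e4, neg_sq]
  ring

/-- **SER1**: for `|λ| ≥ 6` and `m = n + 1 ≥ 2` the coefficient of `X^(2m-1)` is not zero. -/
theorem ser1_ne (n : ℕ) (hn : 1 ≤ n) (L : ℝ) (hL : 6 ≤ |L|) (W : PowerSeries ℝ)
    (h0 : constantCoeff W = 1)
    (hW : ∀ i, i ≤ 2 * n → coeff i (serP L * d⁄dX ℝ W) = coeff i (serQ n L * W)) :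
    ∀ j, j ≤ 2 * n + 1 → coeff j W ≠ 0 := by
  intro j hj
  rcases le_total 0 L with h | h
  · rw [abs_of_nonneg h] at hL
    exact (ser1_pos n hn L hL W h0 hW j hj).ne'
  · rw [abs_of_nonpos h] at hL
    have key := ser1_pos n hn (-L) hL (evalNegHom W) ?_ ?_ j hj
    · rw [coeff_evalNegHom'] at key
      intro hc
      rw [hc, mul_zero] at key
      exact lt_irrefl _ key
    · rw [← coeff_zero_eq_constantCoeff_apply, coeff_evalNegHom', coeff_zero_eq_constantCoeff_apply,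
        h0]
      norm_num
    · intro i hi
      have h1 : serP (-L) * d⁄dX ℝ (evalNegHom W) = -evalNegHom (serP L * d⁄dX ℝ W) := by
        rw [map_mul, evalNegHom_serP, deriv_evalNegHom]; ring
      have h2 : serQ n (-L) * evalNegHom W = -evalNegHom (serQ n L * W) := by
        rw [map_mul, evalNegHom_serQ]; ring
      rw [h1, h2, map_neg, map_neg, coeff_evalNegHom', coeff_evalNegHom', hW i hi]


end Crest.Agent.R208.Ser
end

-- ▼ part R208/QV1
section

/-! Row 208, block QV (helper105), part QV1: the `k = 4` endgame on the `F`-level, power series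
part.  If `Π` is the closed form of `c(TM ⊗ ℂ)` and the power sums of `F_J` on `V_2(V)` are
`φ_j e^j`, then the vanishing of `c_(2m-1)(F_J)` contradicts `S1.ser1_ne` as soon as `|μ| ≥ 6`. -/

set_option autoImplicit false
set_option linter.unusedSectionVars false
set_option linter.unusedVariables false
set_option linter.unusedSimpArgs false

open PowerSeries Crest.Agent.R208.CW

noncomputable section

namespace Crest.Agent.R208.QV

local notation "dd" => PowerSeries.derivative ℂ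

/-! ### real parts of power series -/

/-- real part of a power series -/
def reP (G : PowerSeries ℂ) : PowerSeries ℝ := PowerSeries.mk fun j => (coeff j G).re

/-- a real power series as a complex one -/
def toC : PowerSeries ℝ →+* PowerSeries ℂ := PowerSeries.map Complex.ofRealHom

theorem coeff_mul_reP (F : PowerSeries ℝ) (G : PowerSeries ℂ) (i : ℕ) :
    coeff i (F * reP G) = (coeff i (toC F * G)).re := by
  rw [coeff_mul, coeff_mul, Complex.re_sum]
  refine Finset.sum_congr rfl fun p _ => ?_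
  rw [reP, coeff_mk, toC, coeff_map, Complex.ofRealHom_eq_coe, Complex.re_ofReal_mul]

theorem deriv_reP (G : PowerSeries ℂ) : PowerSeries.derivative ℝ (reP G) = reP (dd G) := by
  refine PowerSeries.ext fun i => ?_
  rw [coeff_derivative, reP, coeff_mk, reP, coeff_mk, coeff_derivative]
  have : ((i : ℂ) + 1) = ((i + 1 : ℝ) : ℂ) := by push_cast; ring
  rw [this, Complex.re_mul_ofReal]

/-! ### divisibility by powers of `X` -/

theorem dvd_deriv {F : PowerSeries ℂ} {m : ℕ} (h : X ^ (m + 1) ∣ F) : X ^ m ∣ dd F := by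
  rw [X_pow_dvd_iff] at h ⊢
  intro i hi
  rw [coeff_derivative, h (i + 1) (by omega), zero_mul]

/-- expansion `X ↦ c X²` -/
def ex (c : ℂ) : PowerSeries ℂ →+* PowerSeries ℂ :=
  ((PowerSeries.expand 2 two_ne_zero : PowerSeries ℂ →ₐ[ℂ] PowerSeries ℂ) :
    PowerSeries ℂ →+* PowerSeries ℂ).comp (PowerSeries.rescale c)

theorem ex_apply (c : ℂ) (F : PowerSeries ℂ) :
    ex c F = PowerSeries.expand 2 two_ne_zero (PowerSeries.rescale c F) := rfl

theorem coeff_ex_even (c : ℂ) (F : PowerSeries ℂ) (i : ℕ) :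
    coeff (2 * i) (ex c F) = c ^ i * coeff i F := by
  rw [ex_apply, coeff_expand_mul, coeff_rescale]

theorem coeff_ex_odd (c : ℂ) (F : PowerSeries ℂ) {i : ℕ} (h : Odd i) :
    coeff i (ex c F) = 0 := by
  rw [ex_apply, coeff_expand_of_not_dvd]
  intro h2
  exact (Nat.not_even_iff_odd.2 h) (even_iff_two_dvd.2 h2)

theorem ex_C (c a : ℂ) : ex c (C a) = C a := by
  have : PowerSeries.rescale c (C a) = C a := by
    refine PowerSeries.ext fun i => ?_
    rw [coeff_rescale, coeff_C]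
    split_ifs with h
    · subst h; simp
    · simp
  rw [ex_apply, this, expand_C]

theorem ex_X (c : ℂ) : ex c X = C c * X ^ 2 := by
  rw [ex_apply, rescale_X, map_mul, expand_X, expand_C]

theorem dvd_ex (c : ℂ) {F : PowerSeries ℂ} {m : ℕ} (h : X ^ m ∣ F) : X ^ (2 * m) ∣ ex c F := by
  obtain ⟨G, rfl⟩ := h
  rw [map_mul, map_pow, ex_X, mul_pow, ← pow_mul]
  exact ⟨C c ^ m * ex c G, by ring⟩

/-! ### the logarithmic derivative of the closed form -/

/-- `1 + μ X + X²` -/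
def qq (μ : ℂ) : PowerSeries ℂ := 1 + C μ * X + X ^ 2
/-- `1 + 2 μ X` -/
def uu (μ : ℂ) : PowerSeries ℂ := 1 + C (2 * μ) * X

theorem dd_qq (μ : ℂ) : dd (qq μ) = C μ + C 2 * X := by
  rw [qq, map_add, map_add, Derivation.map_one_eq_zero, Derivation.leibniz, derivative_C,
    derivative_X, derivative_pow, derivative_X, smul_eq_mul, smul_eq_mul, mul_zero, add_zero,
    mul_one, mul_one, zero_add]
  norm_num
  rfl

theorem dd_uu (μ : ℂ) : dd (uu μ) = C (2 * μ) := by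
  rw [uu, map_add, Derivation.map_one_eq_zero, Derivation.leibniz, derivative_C,
    derivative_X, smul_eq_mul, smul_eq_mul, mul_zero, add_zero, mul_one, zero_add]

/-- the right hand side -/
def rr (m : ℕ) (μ : ℂ) : PowerSeries ℂ :=
  C (-2 : ℂ) * (C ((m : ℂ) + 1) * (C μ + C 2 * X) * uu μ - C (2 * μ) * qq μ)

theorem isUnit_of_cc {F : PowerSeries ℂ} (h : constantCoeff F = 1) : IsUnit F := by
  rw [PowerSeries.isUnit_iff_constantCoeff, h]; exact isUnit_one

theorem T_dvd {m : ℕ} (μ : ℂ) {P T : PowerSeries ℂ} (h0 : constantCoeff P = 1)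
    (hP : X ^ (m + 1) ∣ P * uu μ - qq μ ^ (m + 1)) (hT : P * T = C (-2 : ℂ) * dd P) :
    X ^ m ∣ T * (qq μ * uu μ) - rr m μ := by
  have h1 := dvd_deriv hP
  have e1 : dd (P * uu μ - qq μ ^ (m + 1)) = P * C (2 * μ) + uu μ * dd P
      - C ((m : ℂ) + 1) * qq μ ^ m * (C μ + C 2 * X) := by
    rw [map_sub, Derivation.leibniz, dd_uu, derivative_pow, dd_qq, smul_eq_mul, smul_eq_mul]
    have : ((m + 1 : ℕ) : PowerSeries ℂ) = C ((m : ℂ) + 1) := by
      rw [← map_natCast (C (R := ℂ))]; push_cast; rfl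
    rw [this, Nat.add_sub_cancel]
  rw [e1] at h1
  have h2 : X ^ m ∣ P * uu μ - qq μ ^ (m + 1) := (pow_dvd_pow X (Nat.le_succ m)).trans hP
  have hU := isUnit_of_cc h0
  have h3 : X ^ m ∣ (T * (qq μ * uu μ) - rr m μ) * P := by
    have e2 : (T * (qq μ * uu μ) - rr m μ) * P
        = C (-2 : ℂ) * qq μ * (P * C (2 * μ) + uu μ * dd P
          - C ((m : ℂ) + 1) * qq μ ^ m * (C μ + C 2 * X))
          - C (-2 : ℂ) * (C ((m : ℂ) + 1) * (C μ + C 2 * X)) * (P * uu μ - qq μ ^ (m + 1)) := by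
      rw [rr]
      linear_combination (qq μ * uu μ) * hT
    rw [e2]
    exact dvd_sub (h1.mul_left _) (h2.mul_left _)
  obtain ⟨v, hv⟩ := hU
  have h4 : T * (qq μ * uu μ) - rr m μ = (T * (qq μ * uu μ) - rr m μ) * P * (v⁻¹ : Units _) := by
    rw [mul_assoc, ← hv, Units.mul_inv, mul_one]
  rw [h4]
  exact h3.mul_right _

/-! ### the series `S = φ_1 - φ_2 y + ..` -/

/-- `y / (1 - y²)` -/
def yy : PowerSeries ℂ := PowerSeries.mk fun j => if Odd j then 1 else 0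

theorem yy_mul : (1 - X ^ 2) * yy = (X : PowerSeries ℂ) := by
  refine PowerSeries.ext fun i => ?_
  rw [sub_mul, one_mul, map_sub, yy, coeff_mk, coeff_X_pow_mul', coeff_X]
  rcases i with _ | _ | i
  · simp
  · simp
  · have h1 : i + 1 + 1 - 2 = i := by omega
    have h2 : Odd (i + 1 + 1) ↔ Odd i := by
      rw [Nat.odd_iff, Nat.odd_iff]; omega
    rw [coeff_mk, if_pos (by omega : 2 ≤ i + 1 + 1), if_neg (by omega : ¬ i + 1 + 1 = 1), h1,
      if_congr h2 rfl rfl, sub_self]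

/-- `S = ¼ (1 + y/μ) T(-y²/2μ) + y/(1-y²)` -/
def SS (μ : ℂ) (T : PowerSeries ℂ) : PowerSeries ℂ :=
  C (1 / 4 : ℂ) * (1 + C (1 / μ) * X) * ex (-1 / (2 * μ)) T + yy

theorem ex_qq {μ : ℂ} (hμ : μ ≠ 0) :
    ex (-1 / (2 * μ)) (qq μ) = 1 - C (1 / 2) * X ^ 2 + C (1 / (4 * μ ^ 2)) * X ^ 4 := by
  rw [qq, map_add, map_add, map_one, map_mul, map_pow, ex_C, ex_X]
  have e1 : (C μ * (C (-1 / (2 * μ)) * X ^ 2) : PowerSeries ℂ) = - (C (1 / 2) * X ^ 2) := by
    rw [← mul_assoc, ← map_mul, ← neg_mul, ← map_neg]; congr 2; field_simp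
  have e2 : ((C (-1 / (2 * μ)) * X ^ 2) ^ 2 : PowerSeries ℂ) = C (1 / (4 * μ ^ 2)) * X ^ 4 := by
    rw [mul_pow, ← map_pow, ← pow_mul]; congr 2; field_simp; norm_num
  rw [e1, e2]; ring

theorem ex_uu {μ : ℂ} (hμ : μ ≠ 0) : ex (-1 / (2 * μ)) (uu μ) = 1 - X ^ 2 := by
  rw [uu, map_add, map_one, map_mul, ex_C, ex_X]
  have e1 : (C (2 * μ) * (C (-1 / (2 * μ)) * X ^ 2) : PowerSeries ℂ) = - X ^ 2 := by
    rw [← mul_assoc, ← map_mul]
    have : 2 * μ * (-1 / (2 * μ)) = -1 := by field_simp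
    rw [this, map_neg, map_one]; ring
  rw [e1]; ring

theorem toC_C (a : ℝ) : toC (C a) = C (a : ℂ) := by rw [toC, map_C]; rfl
theorem toC_X : toC X = X := by rw [toC, map_X]

theorem toC_serP (L : ℝ) : toC (Ser.serP L) = (1 - X ^ 2) * (1 - C (1 / 2 : ℂ) * X ^ 2
    + C (1 / (4 * (L : ℂ) ^ 2)) * X ^ 4) := by
  rw [Ser.serP]
  have e0 : (C (1 / 2 + 1 / (4 * L ^ 2)) : PowerSeries ℝ) = C (1 / 2) + C (1 / (4 * L ^ 2)) :=
    map_add _ _ _
  have e1 : (C (3 / 2) : PowerSeries ℝ) = 1 + C (1 / 2) := by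
    rw [← map_one (C (R := ℝ)), ← map_add]; norm_num
  rw [e0, e1]
  simp only [map_sub, map_add, map_mul, map_pow, map_one, toC_C, toC_X]
  push_cast
  ring

theorem serQ_eq (n : ℕ) (L : ℝ) (hL0 : L ≠ 0) : Ser.serQ n L
    = C ((n : ℝ) + 2) * (1 - X ^ 2) * (C (L / 2) * (1 - C (1 / L ^ 2) * X ^ 2)
      * (1 - C (1 / L) * X))
      + (1 - C (1 / 2) * X ^ 2 + C (1 / (4 * L ^ 2)) * X ^ 4) * (C 2 * X - C L) := by
  rw [Ser.serQ]
  have c1 : (C ((n : ℝ) + 2) : PowerSeries ℝ) * C (L / 2) * C (1 / L) = C (((n : ℝ) + 2) / 2) := by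
    rw [← map_mul, ← map_mul]; congr 1; field_simp
  have c2 : (C ((n : ℝ) + 2) : PowerSeries ℝ) * C (L / 2) = C (((n : ℝ) + 2) * L / 2) := by
    rw [← map_mul]; congr 1; ring
  have c3 : (C ((n : ℝ) + 2) : PowerSeries ℝ) * C (L / 2) * C (1 / L ^ 2)
      = C (((n : ℝ) + 2) / (2 * L)) := by
    rw [← map_mul, ← map_mul]; congr 1; field_simp
  have c4 : (C ((n : ℝ) + 2) : PowerSeries ℝ) * C (L / 2) * C (1 / L ^ 2) * C (1 / L)
      = C (((n : ℝ) + 2) / (2 * L ^ 2)) := by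
    rw [← map_mul, ← map_mul, ← map_mul]; congr 1; field_simp
  have expand : C ((n : ℝ) + 2) * (1 - X ^ 2) * (C (L / 2) * (1 - C (1 / L ^ 2) * X ^ 2)
      * (1 - C (1 / L) * X))
      = (1 - X ^ 2) * (C ((n : ℝ) + 2) * C (L / 2)
        - (C ((n : ℝ) + 2) * C (L / 2) * C (1 / L)) * X
        - (C ((n : ℝ) + 2) * C (L / 2) * C (1 / L ^ 2)) * X ^ 2
        + (C ((n : ℝ) + 2) * C (L / 2) * C (1 / L ^ 2) * C (1 / L)) * X ^ 3) := by ring
  rw [expand, c4, c3, c1, c2]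
  have d0 : (C (L * n / 2) : PowerSeries ℝ) = C (((n : ℝ) + 2) * L / 2) - C L := by
    rw [← map_sub]; congr 1; ring
  have d1 : (C (-((n : ℝ) - 2) / 2) : PowerSeries ℝ) = -C (((n : ℝ) + 2) / 2) + C 2 := by
    rw [← map_neg, ← map_add]; congr 1; ring
  have d2 : (C (-(L * ((n + 1) / 2 + 2 * (1 / (4 * L ^ 2)) * (n + 2)))) : PowerSeries ℝ)
      = -C (((n : ℝ) + 2) / (2 * L)) - C (((n : ℝ) + 2) * L / 2) + C (1 / 2) * C L := by
    rw [← map_neg, ← map_sub, ← map_mul, ← map_add]; congr 1; field_simp; ring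
  have d3 : (C ((n + 2) * (1 / 2 + 2 * (1 / (4 * L ^ 2))) - 1) : PowerSeries ℝ)
      = C (((n : ℝ) + 2) / (2 * L ^ 2)) + C (((n : ℝ) + 2) / 2) - C (1 / 2) * C 2 := by
    rw [← map_add, ← map_mul, ← map_sub]; congr 1; field_simp; ring
  have d4 : (C (L * (1 / (4 * L ^ 2)) * (2 * n + 3)) : PowerSeries ℝ)
      = C (((n : ℝ) + 2) / (2 * L)) - C (1 / (4 * L ^ 2)) * C L := by
    rw [← map_mul, ← map_sub]; congr 1; field_simp; ring
  have d5 : (C (-(2 * (1 / (4 * L ^ 2)) * (n + 1))) : PowerSeries ℝ)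
      = -C (((n : ℝ) + 2) / (2 * L ^ 2)) + C (1 / (4 * L ^ 2)) * C 2 := by
    rw [← map_neg, ← map_mul, ← map_add]; congr 1; field_simp; ring
  rw [d0, d1, d2, d3, d4, d5]
  ring

theorem toC_serQ (n : ℕ) (L : ℝ) (hL : L ≠ 0) : toC (Ser.serQ n L)
    = C ((n : ℂ) + 2) * (1 - X ^ 2) * (C ((L : ℂ) / 2) * (1 - C (1 / (L : ℂ) ^ 2) * X ^ 2)
      * (1 - C (1 / (L : ℂ)) * X))
      + (1 - C (1 / 2 : ℂ) * X ^ 2 + C (1 / (4 * (L : ℂ) ^ 2)) * X ^ 4)
        * (C 2 * X - C (L : ℂ)) := by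
  rw [serQ_eq n L hL]
  simp only [map_sub, map_add, map_mul, map_pow, map_one, toC_C, toC_X]
  push_cast
  ring

theorem ex_rr (m : ℕ) {μ : ℂ} (hμ : μ ≠ 0) : ex (-1 / (2 * μ)) (rr m μ)
    = C (-2 : ℂ) * (C ((m : ℂ) + 1) * (C μ + C 2 * (C (-1 / (2 * μ)) * X ^ 2)) * (1 - X ^ 2)
      - C (2 * μ) * (1 - C (1 / 2) * X ^ 2 + C (1 / (4 * μ ^ 2)) * X ^ 4)) := by
  rw [rr, (ex _).map_mul, (ex _).map_sub, (ex _).map_mul, (ex _).map_mul, (ex _).map_mul,
    (ex _).map_add, (ex _).map_mul, ex_qq hμ, ex_uu hμ, ex_C, ex_C, ex_C, ex_C, ex_C, ex_X]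

/-- **the differential equation of `c(F_J)`** -/
theorem SS_dvd {m : ℕ} (hm : 1 ≤ m) {μ : ℝ} (hμ : μ ≠ 0) {P T : PowerSeries ℂ}
    (h0 : constantCoeff P = 1)
    (hP : X ^ (m + 1) ∣ P * uu μ - qq μ ^ (m + 1)) (hT : P * T = C (-2 : ℂ) * dd P) :
    X ^ (2 * m) ∣ toC (Ser.serP (-μ)) * SS μ T - toC (Ser.serQ (m - 1) (-μ)) := by
  have hμ' : (μ : ℂ) ≠ 0 := by exact_mod_cast hμ
  have h1 := dvd_ex (-1 / (2 * μ)) (T_dvd (μ : ℂ) h0 hP hT)
  have h2 : toC (Ser.serP (-μ)) * SS μ T - toC (Ser.serQ (m - 1) (-μ))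
      = C (1 / 4 : ℂ) * (1 + C (1 / (μ : ℂ)) * X)
        * ex (-1 / (2 * μ)) (T * (qq μ * uu μ) - rr m μ) := by
    rw [toC_serP, toC_serQ _ _ (neg_ne_zero.2 hμ), SS, (ex _).map_sub, (ex _).map_mul T,
      (ex _).map_mul (qq _), ex_rr m hμ', ex_qq hμ', ex_uu hμ']
    have ey := yy_mul
    set E := ex (-1 / (2 * (μ : ℂ))) T
    have f1 : ((m - 1 : ℕ) : ℂ) + 2 = (m : ℂ) + 1 := by
      rw [Nat.cast_sub hm]; push_cast; ring
    have f2 : (((-μ : ℝ) : ℂ)) = -(μ : ℂ) := by push_cast; rfl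
    rw [f1, f2]
    have f3 : (4 * (-(μ : ℂ)) ^ 2) = 4 * (μ : ℂ) ^ 2 := by ring
    rw [f3]
    have g0 : (C (1 / 4 : ℂ) : PowerSeries ℂ) * C (-2) = - C (1 / 2) := by
      rw [← map_mul, ← map_neg]; congr 1; norm_num
    have g1 : (C (-(μ : ℂ) / 2) : PowerSeries ℂ) = - (C (1 / 2) * C (μ : ℂ)) := by
      rw [← map_mul, ← map_neg]; congr 1; ring
    have g2 : (C (1 / (-(μ : ℂ)) ^ 2) : PowerSeries ℂ) = C (1 / (μ : ℂ)) ^ 2 := by
      rw [← map_pow]; congr 1; field_simp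
    have g3 : (C (1 / (-(μ : ℂ))) : PowerSeries ℂ) = - C (1 / (μ : ℂ)) := by
      rw [← map_neg]; congr 1; field_simp
    have g4 : (C (-1 / (2 * (μ : ℂ))) : PowerSeries ℂ) = - (C (1 / 2) * C (1 / (μ : ℂ))) := by
      rw [← map_mul, ← map_neg]; congr 1; field_simp
    have g5 : (C (-(μ : ℂ)) : PowerSeries ℂ) = - C (μ : ℂ) := map_neg _ _
    have g6 : (C (2 * (μ : ℂ)) : PowerSeries ℂ) = 2 * C (μ : ℂ) := by
      rw [map_mul]; congr 1
    have g7 : (C (1 / 2 : ℂ) : PowerSeries ℂ) * 2 = 1 := by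
      have : (2 : PowerSeries ℂ) = C 2 := rfl
      rw [this, ← map_mul, ← map_one (C (R := ℂ))]; congr 1; norm_num
    have g9 : (C (2 : ℂ) : PowerSeries ℂ) = 2 := rfl
    have g8 : (C (μ : ℂ) : PowerSeries ℂ) * C (1 / (μ : ℂ)) = 1 := by
      rw [← map_mul, ← map_one (C (R := ℂ))]; congr 1; field_simp
    rw [g1, g2, g3, g4, g5, g6, g9]
    generalize (C (1 / (4 * (μ : ℂ) ^ 2)) : PowerSeries ℂ) = c2 at *
    generalize (C (1 / (μ : ℂ)) : PowerSeries ℂ) = ν at *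
    generalize (C (μ : ℂ) : PowerSeries ℂ) = u at *
    generalize (C ((m : ℂ) + 1) : PowerSeries ℂ) = N at *
    generalize (C (1 / 4 : ℂ) : PowerSeries ℂ) = q4 at *
    generalize (C (-2 : ℂ) : PowerSeries ℂ) = w2 at *
    generalize (C (1 / 2 : ℂ) : PowerSeries ℂ) = hf at *
    generalize yy = Y at *
    linear_combination (1 - hf * X ^ 2 + c2 * X ^ 4) * ey
      + (1 + ν * X) * (N * (u + 2 * (-(hf * ν) * X ^ 2)) * (1 - X ^ 2)
        - 2 * u * (1 - hf * X ^ 2 + c2 * X ^ 4)) * g0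
      + (u * (1 + ν * X) * (1 - hf * X ^ 2 + c2 * X ^ 4)
        + N * hf * X ^ 2 * (1 - X ^ 2) * (1 + ν * X) * ν) * g7
      + (X * (1 - hf * X ^ 2 + c2 * X ^ 4) - N * hf * X ^ 2 * (1 - X ^ 2) * (1 + ν * X) * ν) * g8
  rw [h2]
  exact h1.mul_left _

/-- the sequence with `alt φ = S` -/
def phi (S : PowerSeries ℂ) (j : ℕ) : ℂ := (-1) ^ (j - 1) * coeff (j - 1) S

theorem alt_phi (S : PowerSeries ℂ) : alt (phi S) = S := by
  refine PowerSeries.ext fun i => ?_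
  rw [alt, coeff_mk, phi, Nat.add_sub_cancel, ← mul_assoc, ← mul_pow, neg_one_mul, neg_neg,
    one_pow, one_mul]

/-- **the contradiction**: `el φ (2m-1)` is not zero for `|μ| ≥ 6`. -/
theorem el_phi_ne {m : ℕ} (hm : 2 ≤ m) {μ : ℝ} (hμ6 : 6 ≤ |μ|) {P T : PowerSeries ℂ}
    (h0 : constantCoeff P = 1)
    (hP : X ^ (m + 1) ∣ P * uu μ - qq μ ^ (m + 1)) (hT : P * T = C (-2 : ℂ) * dd P) :
    el (phi (SS μ T)) (2 * m - 1) ≠ 0 := by
  have hμ : μ ≠ 0 := by rintro rfl; rw [abs_zero] at hμ6; norm_num at hμ6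
  intro hz
  set W := cser (phi (SS μ T)) with hW
  have hd : dd W = W * SS μ T := by rw [hW, cser_ode, alt_phi]
  have hS := SS_dvd (by omega : 1 ≤ m) hμ h0 hP hT
  have key : ∀ i, i ≤ 2 * (m - 1) →
      coeff i (Ser.serP (-μ) * PowerSeries.derivative ℝ (reP W))
        = coeff i (Ser.serQ (m - 1) (-μ) * reP W) := by
    intro i hi
    rw [deriv_reP, coeff_mul_reP, coeff_mul_reP]
    have h1 : X ^ (2 * m) ∣ toC (Ser.serP (-μ)) * dd W - toC (Ser.serQ (m - 1) (-μ)) * W := by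
      rw [hd]
      have : toC (Ser.serP (-μ)) * (W * SS μ T) - toC (Ser.serQ (m - 1) (-μ)) * W
          = (toC (Ser.serP (-μ)) * SS μ T - toC (Ser.serQ (m - 1) (-μ))) * W := by ring
      rw [this]
      exact hS.mul_right _
    rw [X_pow_dvd_iff] at h1
    have h2 := h1 i (by omega)
    rw [map_sub, sub_eq_zero] at h2
    rw [h2]
  have hW0 : constantCoeff (reP W) = 1 := by
    rw [← coeff_zero_eq_constantCoeff_apply, reP, coeff_mk, hW, coeff_cser, el_zero, Complex.one_re]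
  have h3 := Ser.ser1_ne (m - 1) (by omega) (-μ) (by rwa [abs_neg]) (reP W) hW0 key (2 * m - 1)
    (by omega)
  apply h3
  rw [reP, coeff_mk, hW, coeff_cser, hz, Complex.zero_re]

/-! ### power sums of the closed form -/

/-- `T = - 2 Π' / Π` -/
def TT (p : ℕ → ℂ) : PowerSeries ℂ := C (-2 : ℂ) * dd (PowerSeries.mk p) * (PowerSeries.mk p)⁻¹

/-- the power sums `τ_i` : if `c(TM ⊗ ℂ) = ∑ π_i x^i` then `s_(2i)(TM ⊗ ℂ) = τ_i x^i` -/
def tau (p : ℕ → ℂ) : ℕ → ℂ
  | 0 => 0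
  | (i + 1) => coeff i (TT p)

theorem mk_mul_TT {p : ℕ → ℂ} (h0 : p 0 = 1) :
    PowerSeries.mk p * TT p = C (-2 : ℂ) * dd (PowerSeries.mk p) := by
  have h : PowerSeries.mk p * (PowerSeries.mk p)⁻¹ = 1 := by
    refine PowerSeries.mul_inv_cancel _ ?_
    rw [← coeff_zero_eq_constantCoeff_apply, coeff_mk, h0]; exact one_ne_zero
  rw [TT, mul_comm (C (-2 : ℂ) * dd (PowerSeries.mk p)), ← mul_assoc, h, one_mul]

theorem dd_ex_one (F : PowerSeries ℂ) : dd (ex 1 F) = C 2 * (X * ex 1 (dd F)) := by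
  refine PowerSeries.ext fun i => ?_
  rw [coeff_derivative, coeff_C_mul]
  rcases Nat.even_or_odd' i with ⟨a, ha | ha⟩
  · subst ha
    rw [coeff_ex_odd 1 F (Nat.odd_iff.2 (by omega))]
    rcases a with _ | a
    · simp
    · have : 2 * (a + 1) = (2 * a + 1) + 1 := by ring
      rw [this, coeff_succ_X_mul, coeff_ex_odd 1 _ (Nat.odd_iff.2 (by omega))]
      simp
  · subst ha
    have : 2 * a + 1 + 1 = 2 * (a + 1) := by ring
    rw [this, coeff_ex_even, coeff_succ_X_mul, coeff_ex_even, coeff_derivative]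
    push_cast
    simp only [one_pow]
    ring

/-- even extension of a sequence -/
def ev (t : ℕ → ℂ) (j : ℕ) : ℂ := if Even j then t (j / 2) else 0

theorem alt_ev_tau (p : ℕ → ℂ) : alt (ev (tau p)) = - (X * ex 1 (TT p)) := by
  refine PowerSeries.ext fun i => ?_
  rw [alt, coeff_mk, map_neg]
  rcases Nat.even_or_odd' i with ⟨a, ha | ha⟩
  · subst ha
    rw [ev, if_neg (by rw [Nat.not_even_iff_odd, Nat.odd_iff]; omega)]
    rcases a with _ | a
    · simp
    · have : 2 * (a + 1) = (2 * a + 1) + 1 := by ring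
      rw [this, coeff_succ_X_mul, coeff_ex_odd 1 _ (Nat.odd_iff.2 (by omega))]
      simp
  · subst ha
    have h1 : (2 * a + 1 + 1) / 2 = a + 1 := by omega
    rw [ev, if_pos (by rw [Nat.even_iff]; omega), h1, coeff_succ_X_mul, coeff_ex_even, tau,
      (by rw [Nat.odd_iff]; omega : Odd (2 * a + 1)).neg_one_pow, one_pow]
    ring

theorem el_ev_tau {p : ℕ → ℂ} (h0 : p 0 = 1) (j : ℕ) : el (ev (tau p)) j = ev p j := by
  have h : ex 1 (PowerSeries.mk p) = cser (ev (tau p)) := by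
    refine cser_unique _ ?_ ?_
    · have := coeff_ex_even 1 (PowerSeries.mk p) 0
      rw [mul_zero] at this
      rw [this, coeff_mk, h0]; simp
    · rw [dd_ex_one, alt_ev_tau]
      have h1 := congrArg (ex 1) (mk_mul_TT h0)
      rw [map_mul, map_mul, ex_C] at h1
      have h2 : (C (-2 : ℂ) : PowerSeries ℂ) = - C 2 := map_neg _ _
      rw [h2] at h1
      linear_combination (X : PowerSeries ℂ) * h1
  have h3 := congrArg (coeff j) h
  rw [coeff_cser] at h3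
  rw [← h3]
  rcases Nat.even_or_odd' j with ⟨a, ha | ha⟩
  · subst ha
    rw [coeff_ex_even, coeff_mk, ev, if_pos (by rw [Nat.even_iff]; omega), one_pow, one_mul]
    congr 1; omega
  · subst ha
    rw [coeff_ex_odd _ _ (by rw [Nat.odd_iff]; omega), ev,
      if_neg (by rw [Nat.not_even_iff_odd, Nat.odd_iff]; omega)]

section ring
variable {A : Type*} [CommRing A] [Algebra ℂ A]

theorem el_odd {s : ℕ → A} {J : ℕ} (h : ∀ j, Odd j → j ≤ J → s j = 0) :
    ∀ j, Odd j → j ≤ J → el s j = 0 := by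
  intro j
  induction j using Nat.strong_induction_on with
  | _ j ih =>
    cases j with
    | zero => intro h1; exact absurd h1 (by decide)
    | succ j =>
      intro hj hJ
      refine (isUnit_succ A j).mul_left_cancel ?_
      rw [el_succ, mul_zero]
      refine Finset.sum_eq_zero fun i hi => ?_
      have hi' : i ≤ j := Nat.lt_succ_iff.1 (Finset.mem_range.1 hi)
      rcases Nat.even_or_odd (i + 1) with h1 | h1
      · have h2 : Odd (j - i) := by
          rw [Nat.odd_iff] at hj ⊢; rw [Nat.even_iff] at h1; omega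
        rw [ih (j - i) (by omega) h2 (by omega)]; ring
      · rw [h (i + 1) h1 (by omega), mul_zero]

/-- lifting of an even sequence to the powers of `x` -/
theorem el_lift (t : ℕ → ℂ) (x : A) (j : ℕ) :
    el (fun j => ev t j • x ^ (j / 2)) j = el (ev t) j • x ^ (j / 2) := by
  induction j using Nat.strong_induction_on with
  | _ j ih =>
    cases j with
    | zero => rw [el_zero, el_zero]; simp
    | succ j =>
      refine (isUnit_succ A j).mul_left_cancel ?_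
      have e0 : ((j : A) + 1) * (el (ev t) (j + 1) • x ^ ((j + 1) / 2))
          = (((j : ℂ) + 1) * el (ev t) (j + 1)) • x ^ ((j + 1) / 2) := by
        rw [mul_smul, mul_smul_comm, Algebra.smul_def ((j : ℂ) + 1)]
        congr 1
        rw [map_add, map_natCast, map_one, mul_smul_comm]
      rw [e0, el_succ, el_succ, Finset.sum_smul]
      refine Finset.sum_congr rfl fun i hi => ?_
      have hi' : i ≤ j := Nat.lt_succ_iff.1 (Finset.mem_range.1 hi)
      rw [ih (j - i) (by omega)]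
      rcases Nat.even_or_odd (i + 1) with h1 | h1
      · rcases Nat.even_or_odd (j - i) with h2 | h2
        · have h3 : (j - i) / 2 + (i + 1) / 2 = (j + 1) / 2 := by
            rw [Nat.even_iff] at h1 h2; omega
          rw [← h3, pow_add]
          simp only [Algebra.smul_def, map_mul, map_pow, map_neg, map_one]
          ring
        · have h4 : el (ev t) (j - i) = 0 :=
            el_odd (J := j - i) (fun a ha _ => by rw [ev, if_neg (Nat.not_even_iff_odd.2 ha)]) _ h2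
              le_rfl
          rw [h4]; simp
      · have h4 : ev t (i + 1) = 0 := by rw [ev, if_neg (Nat.not_even_iff_odd.2 h1)]
        rw [h4]; simp

/-- `s_1, .., s_J` are determined by `e_1, .., e_J` -/
theorem el_inj {s s' : ℕ → A} {J : ℕ} (h : ∀ j ≤ J, el s j = el s' j) :
    ∀ j, 1 ≤ j → j ≤ J → s j = s' j := by
  intro j
  induction j using Nat.strong_induction_on with
  | _ j ih =>
    intro h1 hJ
    obtain ⟨j, rfl⟩ := Nat.exists_eq_add_of_le' h1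
    have a1 := el_succ s j
    have a2 := el_succ s' j
    rw [h _ hJ, a2, Finset.sum_range_succ, Finset.sum_range_succ, Nat.sub_self, el_zero, el_zero]
      at a1
    have a3 : ∑ i ∈ Finset.range j, (-1) ^ i * el s (j - i) * s (i + 1)
        = ∑ i ∈ Finset.range j, (-1) ^ i * el s' (j - i) * s' (i + 1) := by
      refine Finset.sum_congr rfl fun i hi => ?_
      have hi' : i < j := Finset.mem_range.1 hi
      rw [h (j - i) (by omega), ih (i + 1) (by omega) (by omega) (by omega)]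
    rw [a3] at a1
    have a4 : (-1 : A) ^ j * s' (j + 1) = (-1) ^ j * s (j + 1) := by linear_combination a1
    have a5 := congrArg (fun z => (-1 : A) ^ j * z) a4
    simp only [← mul_assoc, ← mul_pow, neg_one_mul, neg_neg, one_pow, one_mul] at a5
    exact a5.symm

/-- **power sums of the tangent bundle** -/
theorem sum_of_closed {m : ℕ} {p : ℕ → ℂ} (h0 : p 0 = 1) {x : A} {t : ℕ → A}
    (hodd : ∀ j, Odd j → j ≤ 2 * m → t j = 0) (h : ∀ i ≤ m, el t (2 * i) = p i • x ^ i) :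
    ∀ i, 1 ≤ i → i ≤ m → t (2 * i) = tau p i • x ^ i := by
  intro i h1 h2
  have key : ∀ j ≤ 2 * m, el t j = el (fun j => ev (tau p) j • x ^ (j / 2)) j := by
    intro j hj
    rw [el_lift, el_ev_tau h0]
    rcases Nat.even_or_odd' j with ⟨a, ha | ha⟩
    · subst ha
      have e2 : 2 * a / 2 = a := by omega
      rw [h a (by omega), ev, if_pos (by rw [Nat.even_iff]; omega), e2]
    · subst ha
      rw [el_odd hodd _ (by rw [Nat.odd_iff]; omega) hj, ev,
        if_neg (by rw [Nat.not_even_iff_odd, Nat.odd_iff]; omega), zero_smul]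
  have h3 := el_inj key (2 * i) (by omega) (by omega)
  rw [h3]
  have e2 : 2 * i / 2 = i := by omega
  simp only [ev]
  rw [if_pos (by rw [Nat.even_iff]; omega), e2]

/-- `el` of `φ_j e^j` -/
theorem el_smul_pow (φ : ℕ → ℂ) (e : A) (j : ℕ) :
    el (fun j => φ j • e ^ j) j = el φ j • e ^ j := by
  have h1 : (fun j => φ j • e ^ j) = fun j => e ^ j * algebraMap ℂ A (φ j) := by
    funext j; rw [Algebra.smul_def, mul_comm]
  rw [h1, el_scale, Algebra.smul_def, mul_comm]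
  congr 1
  exact (el_map (algebraMap ℂ A) φ j).symm

/-- **`k = 4`, the `F`-level**: `|μ| < 6`. -/
theorem lt_six {m : ℕ} (hm : 2 ≤ m) {μ : ℝ} {p : ℕ → ℂ} (h0 : p 0 = 1)
    (hp : ∀ i ≤ m, coeff i (PowerSeries.mk p * (1 + C (2 * (μ : ℂ)) * X))
      = coeff i ((1 + C (μ : ℂ) * X + X ^ 2) ^ (m + 1)))
    {x e : A} {f : ℕ → A} (he : e ^ 2 = (-(2 * (μ : ℂ))) • x)
    (hfe : ∀ i, 1 ≤ i → i < m → f (2 * i) = (tau p i / 2) • x ^ i - e ^ (2 * i))
    (hfo : ∀ i, 1 ≤ i → i ≤ m → f (2 * i - 1) = (tau p i / 4) • (e * x ^ (i - 1)))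
    (hz : el f (2 * m - 1) = 0) (hne : e * x ^ (m - 1) ≠ 0) : |μ| < 6 := by
  by_contra hcon
  rw [not_lt] at hcon
  have hμ : μ ≠ 0 := by rintro rfl; rw [abs_zero] at hcon; norm_num at hcon
  have hμ' : (μ : ℂ) ≠ 0 := by exact_mod_cast hμ
  have hP : X ^ (m + 1) ∣ PowerSeries.mk p * uu μ - qq μ ^ (m + 1) := by
    rw [X_pow_dvd_iff]
    intro i hi
    rw [map_sub, sub_eq_zero]
    exact hp i (by omega)
  have hne0 := el_phi_ne hm hcon
    (by rw [← coeff_zero_eq_constantCoeff_apply, coeff_mk, h0]) hP (mk_mul_TT h0)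
  have hx : x = (-1 / (2 * (μ : ℂ))) • e ^ 2 := by
    rw [he, smul_smul]
    have : -1 / (2 * (μ : ℂ)) * -(2 * (μ : ℂ)) = 1 := by field_simp
    rw [this, one_smul]
  have hf : ∀ j, 1 ≤ j → j ≤ 2 * m - 1 → f j = phi (SS μ (TT p)) j • e ^ j := by
    intro j h1 h2
    rcases Nat.even_or_odd' j with ⟨a, ha | ha⟩
    · subst ha
      obtain ⟨i, rfl⟩ : ∃ i, a = i + 1 := ⟨a - 1, by omega⟩
      have e1 : 2 * (i + 1) - 1 = 2 * i + 1 := by omega
      have e2 : phi (SS μ (TT p)) (2 * (i + 1))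
          = -(1 / (4 * μ) * ((-1 / (2 * (μ : ℂ))) ^ i * coeff i (TT p)) + 1) := by
        rw [phi, e1, (by rw [Nat.odd_iff]; omega : Odd (2 * i + 1)).neg_one_pow, SS, map_add,
          mul_assoc, coeff_C_mul, add_mul, one_mul, map_add,
          coeff_ex_odd _ _ (by rw [Nat.odd_iff]; omega), mul_assoc, coeff_C_mul, coeff_succ_X_mul,
          coeff_ex_even, yy, coeff_mk, if_pos (by rw [Nat.odd_iff]; omega)]
        field_simp
        ring
      have e3 : ∀ a : ℂ, ∀ z : A, a • z - z = (a - 1) • z := fun a z => by rw [sub_smul, one_smul]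
      rw [hfe (i + 1) (by omega) (by omega), e2, tau, hx, smul_pow, smul_smul, ← pow_mul, e3]
      congr 1
      rw [pow_succ]
      field_simp
      ring
    · subst ha
      have e1 : 2 * a + 1 - 1 = 2 * a := by omega
      have e2 : phi (SS μ (TT p)) (2 * a + 1)
          = 1 / 4 * ((-1 / (2 * (μ : ℂ))) ^ a * coeff a (TT p)) := by
        have e3 : coeff (2 * a) (C (1 / (μ : ℂ)) * X * ex (-1 / (2 * μ)) (TT p)) = 0 := by
          rw [mul_assoc, coeff_C_mul]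
          rcases a with _ | a
          · simp
          · have : 2 * (a + 1) = (2 * a + 1) + 1 := by ring
            rw [this, coeff_succ_X_mul, coeff_ex_odd _ _ (Nat.odd_iff.2 (by omega)), mul_zero]
        rw [phi, e1, (by rw [Nat.even_iff]; omega : Even (2 * a)).neg_one_pow, SS, map_add,
          mul_assoc, coeff_C_mul, add_mul, one_mul, one_mul, map_add, coeff_ex_even, e3, yy,
          coeff_mk, if_neg (by rw [Nat.not_odd_iff_even, Nat.even_iff]; omega), add_zero, add_zero]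
      have e4 := hfo (a + 1) (by omega) (by omega)
      have e5 : 2 * (a + 1) - 1 = 2 * a + 1 := by omega
      rw [e5, Nat.add_sub_cancel] at e4
      rw [e4, e2, tau, hx, smul_pow, mul_smul_comm, smul_smul, ← pow_mul, pow_succ' e (2 * a)]
      congr 1
      ring
  have h1 : el f (2 * m - 1) = el (phi (SS μ (TT p))) (2 * m - 1) • e ^ (2 * m - 1) := by
    rw [el_congr hf, el_smul_pow]
  rw [hz] at h1
  have h2 : e ^ (2 * m - 1) = ((-(2 * (μ : ℂ))) ^ (m - 1)) • (e * x ^ (m - 1)) := by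
    have e1 : 2 * m - 1 = 2 * (m - 1) + 1 := by omega
    rw [e1, pow_succ, pow_mul, he, smul_pow, smul_mul_assoc, mul_comm e]
  rw [h2, smul_smul] at h1
  have h3 : el (phi (SS μ (TT p))) (2 * m - 1) * (-(2 * (μ : ℂ))) ^ (m - 1) ≠ 0 :=
    mul_ne_zero hne0 (pow_ne_zero _ (neg_ne_zero.2 (mul_ne_zero two_ne_zero hμ')))
  have h4 := congrArg (fun z => (el (phi (SS μ (TT p))) (2 * m - 1)
    * (-(2 * (μ : ℂ))) ^ (m - 1))⁻¹ • z) h1
  simp only [smul_smul, inv_mul_cancel₀ h3, one_smul, smul_zero] at h4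
  exact hne h4.symm

end ring

end Crest.Agent.R208.QV
end
private theorem rz_dbf4d3228f : type_of% @_root_.Crest.Agent.R208.QV.tau.eq_1 := @_root_.Crest.Agent.R208.QV.tau.eq_1 -- L349
end

-- ▼ part R208/QV2
section

/-! Row 208, block QV (helper105), part QV2: `k = 4` on the `F`-level; the algebra on
`D = V_2(V) / S¹` and on `V_2(V)`. -/

set_option autoImplicit false
set_option linter.unusedSectionVars false
set_option linter.unusedVariables false
set_option linter.unusedSimpArgs false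

open Crest.Agent.R208.CW (el el_zero el_succ cser cser_unique alt el_congr)

noncomputable section

namespace Crest.Agent.R208.QV

/-! ### algebra -/

section ring
variable {A : Type*} [CommRing A] [Algebra ℂ A]

/-- `el` of the power sums `2 z^i` -/
theorem el_two_seq (z : A) : cser (fun j => if Even j then 2 * z ^ (j / 2) else 0)
    = (1 - PowerSeries.C z * PowerSeries.X ^ 2 : PowerSeries A) := by
  symm
  refine cser_unique _ ?_ ?_
  · rw [map_sub, PowerSeries.coeff_C_mul, PowerSeries.coeff_X_pow]; simp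
  · have h1 : PowerSeries.derivative A (1 - PowerSeries.C z * PowerSeries.X ^ 2 : PowerSeries A) = - (PowerSeries.C (2 * z) * PowerSeries.X) := by
      refine PowerSeries.ext fun i => ?_
      rw [PowerSeries.coeff_derivative, map_sub, PowerSeries.coeff_C_mul, PowerSeries.coeff_X_pow, map_neg, PowerSeries.coeff_C_mul, PowerSeries.coeff_X,
        PowerSeries.coeff_one]
      rcases i with _ | _ | i
      · simp
      · simp; ring
      · simp
    rw [h1]
    have h2 : alt (fun j => if Even j then 2 * z ^ (j / 2) else (0 : A))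
        = - (PowerSeries.C (2 * z) * PowerSeries.mk fun i => if Odd i then z ^ (i / 2) else 0) := by
      refine PowerSeries.ext fun i => ?_
      rw [alt, PowerSeries.coeff_mk, map_neg, PowerSeries.coeff_C_mul, PowerSeries.coeff_mk]
      rcases Nat.even_or_odd i with hi | hi
      · rw [if_neg (by rw [Nat.not_even_iff_odd]; exact hi.add_one),
          if_neg (by rw [Nat.not_odd_iff_even]; exact hi)]
        simp
      · have e1 : (i + 1) / 2 = i / 2 + 1 := by rw [Nat.odd_iff] at hi; omega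
        rw [if_pos hi.add_one, if_pos hi, hi.neg_one_pow, e1, pow_succ]
        ring
    rw [h2]
    have h3 : (1 - PowerSeries.C z * PowerSeries.X ^ 2 : PowerSeries A)
        * (PowerSeries.mk fun i => if Odd i then z ^ (i / 2) else 0) = PowerSeries.X := by
      refine PowerSeries.ext fun i => ?_
      rw [sub_mul, one_mul, map_sub, PowerSeries.coeff_mk, mul_assoc, PowerSeries.coeff_C_mul, PowerSeries.coeff_X_pow_mul', PowerSeries.coeff_X]
      rcases i with _ | _ | i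
      · simp
      · simp
      · have h1 : i + 1 + 1 - 2 = i := by omega
        have h2 : Odd (i + 1 + 1) ↔ Odd i := by
          rw [Nat.odd_iff, Nat.odd_iff]; omega
        rw [if_pos (by omega : 2 ≤ i + 1 + 1), if_neg (by omega : ¬ i + 1 + 1 = 1), h1, PowerSeries.coeff_mk]
        by_cases h3 : Odd i
        · rw [if_pos (h2.2 h3), if_pos h3]
          have : (i + 1 + 1) / 2 = i / 2 + 1 := by omega
          rw [this, pow_succ]; ring
        · rw [if_neg (fun h => h3 (h2.1 h)), if_neg h3]; simp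
    linear_combination (-(PowerSeries.C (2 * z) : PowerSeries A)) * (-1 : PowerSeries A) * h3

/-- power sums of a real bundle of rank `2` -/
theorem sum_rank_two {v : ℕ → A} {J : ℕ} (hodd : ∀ j, Odd j → j ≤ J → v j = 0)
    (h : ∀ j, 2 < j → j ≤ J → el v j = 0) :
    ∀ i, 1 ≤ i → 2 * i ≤ J → v (2 * i) = 2 * (-(el v 2)) ^ i := by
  intro i h1 h2
  set z := -(el v 2) with hz
  have key : ∀ j ≤ J, el v j = el (fun j => if Even j then 2 * z ^ (j / 2) else 0) j := by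
    intro j hj
    have e1 := congrArg (PowerSeries.coeff j) (el_two_seq z)
    rw [CW.coeff_cser] at e1
    rw [e1, map_sub, PowerSeries.coeff_C_mul, PowerSeries.coeff_X_pow, PowerSeries.coeff_one]
    rcases j with _ | _ | _ | j
    · rw [el_zero]; simp
    · rw [el_odd hodd 1 (by decide) hj]; simp
    · simp [hz]
    · rw [h _ (by omega) hj]; simp
  have h3 := el_inj key (2 * i) (by omega) h2
  rw [h3]
  have e2 : 2 * i / 2 = i := by omega
  change (if Even (2 * i) then 2 * z ^ (2 * i / 2) else 0) = _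
  rw [if_pos (by rw [Nat.even_iff]; omega), e2]

/-- the Chern classes of `V = ℓ + conj ℓ + V₀`, `V₀` of rank `2` -/
theorem cser_split {ξ : A} {v v0 : ℕ → A} (hv : ∀ j, v j = (1 + (-1) ^ j) * ξ ^ j + v0 j)
    (hv0 : ∀ j, Odd j → v0 j = 0) (hr0 : ∀ j, 2 < j → el v0 j = 0) :
    el v 2 = el v0 2 - ξ ^ 2 ∧ el v 4 = -(ξ ^ 2 * el v0 2) := by
  have e1 : cser v = (1 - PowerSeries.C (ξ ^ 2) * PowerSeries.X ^ 2) * cser v0 := by
    rw [← el_two_seq, ← CW.cser_add]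
    refine CW.cser_congr fun j _ => ?_
    rw [hv]
    congr 1
    rcases Nat.even_or_odd' j with ⟨a, ha | ha⟩
    · have e2 : 2 * a / 2 = a := by omega
      rw [ha, if_pos (by rw [Nat.even_iff]; omega), pow_mul, pow_mul, e2]; norm_num
    · rw [ha, if_neg (by rw [Nat.not_even_iff_odd, Nat.odd_iff]; omega), pow_succ, pow_mul]
      norm_num
  have h1 : el v0 1 = 0 := el_odd (J := 1) (fun j hj _ => hv0 j hj) 1 (by decide) le_rfl
  have key : ∀ j, el v (j + 2) = el v0 (j + 2) - ξ ^ 2 * el v0 j := by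
    intro j
    have e2 := congrArg (PowerSeries.coeff (j + 2)) e1
    rw [CW.coeff_cser, sub_mul, one_mul, map_sub, CW.coeff_cser, mul_assoc,
      PowerSeries.coeff_C_mul, PowerSeries.coeff_X_pow_mul', if_pos (by omega)] at e2
    rw [e2, Nat.add_sub_cancel, CW.coeff_cser]
  refine ⟨?_, ?_⟩
  · rw [key 0, el_zero, mul_one]
  · rw [key 2, hr0 4 (by norm_num)]; ring

/-- **the branch `k = 4`**, algebra on `D` and `ZZ` -/
theorem lt_six_D {B : Type*} [CommRing B] [Algebra ℂ B] (φ : A →ₐ[ℂ] B) {Gr : ℕ → Submodule ℂ A}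
    {m : ℕ} (hm : 2 ≤ m) {μ : ℝ} {p : ℕ → ℂ} (hp0 : p 0 = 1)
    (hp : ∀ i ≤ m, PowerSeries.coeff i (PowerSeries.mk p * (1 + PowerSeries.C (2 * (μ : ℂ)) *
      PowerSeries.X)) = PowerSeries.coeff i ((1 + PowerSeries.C (μ : ℂ) * PowerSeries.X +
        PowerSeries.X ^ 2) ^ (m + 1)))
    {ξ x1 x2 w : A} {x e : B} (hxe : x1 - x2 = ξ * w) (hφξ : φ ξ = 0) (hφ1 : φ x1 = x)
    (hφ2 : φ x2 = x) (hφe : φ w = e) (h1 : (1 : A) ∈ Gr 0)
    (hmul : ∀ i j : ℕ, ∀ a b : A, a ∈ Gr i → b ∈ Gr j → a * b ∈ Gr (i + j)) (hξ : ξ ∈ Gr 1)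
    (hx1 : x1 ∈ Gr 2) (hx2 : x2 ∈ Gr 2) (hw : w ∈ Gr 1)
    (div : ∀ j < 2 * m, ∀ b ∈ Gr j, b * ξ = 0 → b = 0) {t s : ℕ → A} (ht : ∀ j, t j ∈ Gr j)
    (hs : ∀ j, s j = ∑ i ∈ Finset.range (j + 1), (j.choose i : A) * t i * ξ ^ (j - i))
    {v v0 : ℕ → A} (hv : ∀ j, v j = (1 + (-1) ^ j) * ξ ^ j + v0 j)
    (hv0 : ∀ j, Odd j → v0 j = 0) (hr0 : ∀ j, 2 < j → el v0 j = 0) (hc : el v0 2 ∈ Gr 2)
    (hv2 : el v 2 = (μ : ℂ) • (x1 + x2)) (hv4 : el v 4 = (x1 - x2) ^ 2)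
    (hT : ∀ i, 1 ≤ i → i ≤ m → 2 * t (2 * i) = tau p i • x2 ^ i - v (2 * i))
    (hF : ∀ i, 1 ≤ i → i ≤ m → 2 * s (2 * i) = tau p i • x1 ^ i - v (2 * i))
    (hz : el (fun j => φ (t j)) (2 * m - 1) = 0)
    (hne : μ ≠ 0 → e ^ 2 = (-(2 * (μ : ℂ))) • x → e * x ^ (m - 1) ≠ 0) :
    |μ| < 6 := by
  rcases eq_or_ne μ 0 with hμ | hμ
  · rw [hμ, abs_zero]; norm_num
  obtain ⟨e1, e2⟩ := cser_split hv hv0 hr0
  set c := el v0 2 with hcd
  -- `w² = - c`
  have hw2 : w ^ 2 + c = 0 := by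
    have g2 : w ^ 2 + c ∈ Gr 2 := by
      refine Submodule.add_mem _ ?_ hc
      rw [pow_two]
      exact hmul 1 1 _ _ hw hw
    have g3 : (w ^ 2 + c) * ξ ∈ Gr 3 := hmul 2 1 _ _ g2 hξ
    have h2 : (w ^ 2 + c) * ξ * ξ = 0 := by
      have h3 : (x1 - x2) ^ 2 = -(ξ ^ 2 * c) := by rw [← hv4, e2]
      rw [hxe] at h3
      linear_combination h3
    exact div 2 (by omega) _ g2 (div 3 (by omega) _ g3 h2)
  have he : e ^ 2 = (-(2 * (μ : ℂ))) • x := by
    have h2 : φ c = (2 * (μ : ℂ)) • x := by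
      have h3 : c = (μ : ℂ) • (x1 + x2) + ξ ^ 2 := by rw [← hv2, e1]; ring
      rw [h3, map_add, map_smul, map_add, map_pow, hφξ, hφ1, hφ2, mul_comm 2 (μ : ℂ), mul_smul,
        two_smul]
      ring
    have h4 : φ (w ^ 2) = - φ c := by
      rw [eq_neg_iff_add_eq_zero, ← map_add, hw2, map_zero]
    rw [← hφe, ← map_pow, h4, h2, neg_smul]
  have hcz : -(φ c) = e ^ 2 := by
    rw [← hφe, ← map_pow, eq_comm, eq_neg_iff_add_eq_zero, ← map_add, hw2, map_zero]
  have hv0e : ∀ i, 1 ≤ i → φ (v (2 * i)) = 2 * e ^ (2 * i) := by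
    intro i hi
    have h2 := sum_rank_two (v := v0) (J := 2 * i) (fun j hj _ => hv0 j hj)
      (fun j hj _ => hr0 j hj) i hi le_rfl
    have h3 : φ (2 : A) = 2 := map_ofNat φ 2
    rw [hv, h2, map_add, map_mul, map_pow, hφξ, zero_pow (by omega), mul_zero, zero_add, map_mul,
      map_pow, map_neg, hcz, pow_mul, h3]
  refine lt_six hm hp0 hp (x := x) (e := e) (f := fun j => φ (t j)) he ?_ ?_ hz (hne hμ he)
  · intro i hi1 hi2
    have h2 := congrArg φ (hT i hi1 hi2.le)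
    have h3 : φ (2 : A) = 2 := map_ofNat φ 2
    rw [map_mul, map_sub, map_smul, map_pow, hφ2, hv0e i hi1, h3] at h2
    have h4 : (2 : ℂ) • φ (t (2 * i)) = tau p i • x ^ i - (2 : ℂ) • e ^ (2 * i) := by
      rw [Algebra.smul_def, Algebra.smul_def (2 : ℂ), map_ofNat]
      exact h2
    have h5 := congrArg (fun b => (2⁻¹ : ℂ) • b) h4
    simp only [smul_sub, smul_smul] at h5
    rw [show (2⁻¹ * 2 : ℂ) = 1 by norm_num, one_smul, one_smul] at h5
    rw [h5]
    congr 2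
    ring
  · intro i hi1 hi2
    have h2 := GK.odd_sum φ (l := 2) (M := 2 * m) (by norm_num) hxe hφξ hφ1 hφ2 hφe h1 hmul hξ
      hx1 hx2 hw div ht hs (σ := tau p) (v := v) ?_ ?_ i hi1 (by omega)
    · rw [h2, if_pos ⟨i, rfl⟩]
      have h3 : 2 * i / 2 = i := by omega
      rw [h3]
      norm_num
    · intro j hj1 hj2
      have h3 : 2 * j / 2 = j := by omega
      rw [if_pos ⟨j, rfl⟩, h3]
      exact hT j hj1 (by omega)
    · intro j hj1 hj2
      have h3 : 2 * j / 2 = j := by omega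
      rw [if_pos ⟨j, rfl⟩, h3]
      exact hF j hj1 (by omega)

end ring

end Crest.Agent.R208.QV
end
end

-- ▼ part R208/QV3
section

/-! Row 208, block QV (helper105), part QV3: the relations between the classes on
`D = V_2(V) / S¹`, for every `k`: division by the Euler class, the two relations with `c(TM)`,
ranks. -/

set_option autoImplicit false
set_option linter.unusedSectionVars false
set_option linter.unusedVariables false

open Set Filter Topology Module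
open scoped ContDiff RealInnerProductSpace ComplexConjugate
open Crest.GeometryTopology.Submanifold
open Crest.Agent.R241.DDefs
open Crest.Agent.R241.D2
open Crest.Agent.R208.F Crest.Agent.R208.FI
open Crest.Agent.R208.CW (IdF SM el)
open Crest.Agent.R208.GT (bas mM mV mP FF ZZ TJ FJ LL rt Des DPk)
open Crest.Agent.R208.T (HD EC rcl Coh Hom)

noncomputable section

namespace Crest.Agent.R208.QV

/-! ### division on the quotient, in `H` -/

section quo
open Crest.Agent.R208.CM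

variable {E : Type} [NormedAddCommGroup E] [NormedSpace ℝ E] [FiniteDimensional ℝ E]
  {X : Set E} {φ : ℝ → E → E} {m n : ℕ} {g : E → Fin m → ℂ}

theorem rcl_map_eq_zero {E E' : Type*} [NormedAddCommGroup E] [NormedSpace ℝ E]
    [FiniteDimensional ℝ E] [NormedAddCommGroup E'] [NormedSpace ℝ E'] [FiniteDimensional ℝ E']
    {X : Set E} {Y : Set E'} {f : E → E'} (hf : CW.SMap X Y f) {a b : E' → Ext E'} (ha : EC Y a)
    (hb : EC Y b) (h0 : CW.H.map hf (rcl ha + Complex.I • rcl hb) = 0) :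
    Coh X (F.pull f a) 0 ∧ Coh X (F.pull f b) 0 := by
  rw [map_add, map_smul, ← T.rcl_pull, ← T.rcl_pull, ← T.cls_eq_rcl, T.cls_eq_zero_iff_coh] at h0
  exact h0

/-- **kernel of the pull-back**, in `H` -/
theorem exists_div (hg : Emb X φ g) (h : Cir X φ) (hX : Clo (n + 1) X) {j : ℕ}
    {b : CW.H (Quo X g)} (hb : b ∈ HD (Quo X g) (2 * (j + 1)))
    (h0 : CW.H.map hg.smap_jj b = 0) :
    ∃ w ∈ HD (Quo X g) (2 * j), b = CW.ec (R208.T.OR.of hg.or_L) * w := by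
  obtain ⟨a, a', ha, ha', da, da', rfl⟩ := T.exists_rcl_HD hb
  obtain ⟨h1, h2⟩ := rcl_map_eq_zero hg.smap_jj ha ha' h0
  have key : ∀ {a : MM m → Ext (MM m)} (ha : EC (Quo X g) a), Hom (2 * (j + 1)) a →
      Coh X (F.pull (jj g) a) 0 → ∃ w ∈ HD (Quo X g) (2 * j),
        rcl ha = CW.ec (R208.T.OR.of hg.or_L) * w := by
    intro a ha da h1
    obtain ⟨c, sc, cc, dc, ec⟩ := HG.gysin_high hg h hX (hg.conn_th h) (hg.curv_th h)
      (i := 2 * j) ha.sm (by exact da) h1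
    have hc : EC (Quo X g) c := EC.of_hom sc cc dc
    refine ⟨((-(1 / 2) : ℝ) : ℂ) • rcl hc, Submodule.smul_mem _ _ (T.rcl_mem_HD hc dc), ?_⟩
    have hF := hg.or_L.ec_eR
    rw [T.rcl_congr ha (hc.mul (hF.smul _)) ec, T.rcl_mul hc (hF.smul _), T.rcl_smul _ hF,
      hg.or_L.rcl_eR, mul_smul_comm, mul_smul_comm, mul_comm]
  obtain ⟨w, hw, e1⟩ := key ha da h1
  obtain ⟨w', hw', e2⟩ := key ha' da' h2
  refine ⟨w + Complex.I • w', Submodule.add_mem _ hw (Submodule.smul_mem _ _ hw'), ?_⟩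
  rw [e1, e2, mul_add, mul_smul_comm]

end quo

/-! ### the relations on `Y` over `V_2(V)` -/

variable {n N k d dF : ℕ} {κ : ℝ} {S : Set (Euc N)} {G : Geo n N κ S}
  {PV : Euc N × Euc N → Euc N →L[ℝ] Euc N}

section rel
variable {E' : Type*} [NormedAddCommGroup E'] [NormedSpace ℝ E'] [FiniteDimensional ℝ E']
  {Y : Set E'} {z : E' → Euc N × Euc N} {T F L : E' → Matrix (Fin N) (Fin N) ℂ}
  (hV : GT.VField G PV) (h : GT.Bla G k)

include hV h

/-- `TM` at the first point -/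
theorem sc_TC_sub' (hkn : k < n) (hF : Sub dF (FF S)) (j : ℕ) :
    CW.sc hF ((GT.idf_mM (G := G)).comp GT.smap_p) j =
      CW.sc hF (GT.idf_mV hV) j + CW.sc hF ((GT.idf_TCF hV h).comp GT.smap_swap) j := by
  have h1 := congrArg (CW.H.map (GT.smap_swap (S := S))) (GT.sc_TC_sub hV h hkn hF j)
  rw [map_add, CW.map_sc hF hF, CW.map_sc hF hF, CW.map_sc hF hF, GT.sc_V_swap hV h hkn hF j] at h1
  rw [← h1]

/-- the relation of the second point, on `Y` -/
theorem rel_q (hD : Des G PV Y z T F L) (hkn : k < n) (hS : Sub n S) (hF : Sub dF (FF S))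
    (hY : Sub d Y) (j : ℕ) :
    CW.H.map hD.smap (FG.xq (CW.sc hS (GT.idf_mM (G := G)) j)) =
      CW.sc hY (hD.idf_mV hV) j + (1 + (-1) ^ j) * CW.sc hY (hD.idf_T hV h) j := by
  have h1 := congrArg (CW.H.map hD.smap) (GT.sc_TC_sub hV h hkn hF j)
  rw [map_add, CW.map_sc hY hF, CW.map_sc hY hF, CW.map_sc hY hF] at h1
  rw [← hD.sc_TC hV h hY j]
  rw [FG.xq, CW.map_sc hF hS, CW.map_sc hY hF]
  exact h1

/-- the relation of the first point, on `Y` -/
theorem rel_p (hD : Des G PV Y z T F L) (hkn : k < n) (hS : Sub n S) (hF : Sub dF (FF S))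
    (hY : Sub d Y) (j : ℕ) :
    CW.H.map hD.smap (FG.xp (CW.sc hS (GT.idf_mM (G := G)) j)) =
      CW.sc hY (hD.idf_mV hV) j + (1 + (-1) ^ j) * CW.sc hY (hD.idf_F hV h) j := by
  have h1 := congrArg (CW.H.map hD.smap) (sc_TC_sub' hV h hkn hF j)
  rw [map_add, CW.map_sc hY hF, CW.map_sc hY hF, CW.map_sc hY hF] at h1
  rw [← hD.sc_TC' hV h hY j]
  rw [FG.xp, CW.map_sc hF hS, CW.map_sc hY hF]
  exact h1

/-- `F_J = T_J ⊗ ℓ` on power sums -/
theorem sc_F' (hD : Des G PV Y z T F L) (hY : Sub d Y) (j : ℕ) :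
    CW.sc hY (hD.idf_F hV h) j = ∑ i ∈ Finset.range (j + 1), (j.choose i : CW.H Y) *
      CW.sc hY (hD.idf_T hV h) i * CW.sc hY hD.idf_L 1 ^ (j - i) := by
  rw [hD.sc_F hV h hY j]
  refine Finset.sum_congr rfl fun i _ => ?_
  rw [hD.sc_L hY (j - i)]

/-! ### ranks -/

omit h in
theorem trace_mV {z : Euc N × Euc N} (h : GT.Bla G k) (hz : z ∈ FF S) :
    (mV PV z).trace = (k : ℂ) := by
  have h1 := CW.rank_eq_trace ((GT.idf_mV hV).idem z hz)
  have h2 : (mV PV z).rank = k := by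
    refine (FG.rank_cr (T := PV z) fun v => hV.PV_idem (p := z.1) (q := z.2) hz v).trans ?_
    rw [FG.range_PV hV hz]
    exact h.finrank_Vs hz
  rw [← h1, h2]

/-- `V₀` has rank `k - 2` -/
theorem rank_V0 (hD : Des G PV Y z T F L) {y : E'} (hy : y ∈ Y) :
    (GT.VD0 PV z L y).rank + 2 = k := by
  obtain ⟨ζ, hζ, e1, -, -, e⟩ := hD.ex y hy
  have h1 := CW.rank_eq_trace ((hD.idf_V0 hV).idem y hy)
  have h2 : (GT.VD0 PV z L y).trace = (k : ℂ) - 2 := by
    rw [GT.VD0, Matrix.trace_sub, Matrix.trace_add, trace_mV hV h (hD.mem hy), e, GT.LL_trace hζ]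
    have h3 : ((LL ζ).map (starRingEnd ℂ)).trace = 1 := by
      have h4 : ((LL ζ).map (starRingEnd ℂ)).trace = starRingEnd ℂ (LL ζ).trace := by
        simp [Matrix.trace, Matrix.diag, map_sum]
      rw [h4, GT.LL_trace hζ, map_one]
    rw [h3]; norm_num
  rw [h2] at h1
  have h3 : (((GT.VD0 PV z L y).rank + 2 : ℕ) : ℂ) = (k : ℂ) := by
    push_cast; rw [h1]; ring
  exact_mod_cast h3

theorem sc_V0_odd (hD : Des G PV Y z T F L) (hY : Sub d Y) {j : ℕ} (hj : Odd j) :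
    CW.sc hY (hD.idf_V0 hV) j = 0 := by
  refine CW.sc_real_odd hY (hD.idf_V0 hV) (fun y hy => ?_) hj
  ext a b
  simp [GT.VD0, mV, Matrix.map_apply]
  ring

theorem el_V0_eq_zero (hD : Des G PV Y z T F L) (hY : Sub d Y) {j : ℕ} (hj : k < j + 2) :
    el (CW.sc hY (hD.idf_V0 hV)) j = 0 := by
  rw [← CW.cc_eq_el]
  refine CW.cc_eq_zero hY (hD.idf_V0 hV) fun y hy => ?_
  have := rank_V0 hV h hD hy
  omega

end rel

section ZZ
variable {m : ℕ} {g : (Euc N × Euc N) × (Fin 2 → Euc N) → Fin m → ℂ}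

theorem two_rank {Q M : Matrix (Fin N) (Fin N) ℂ} (hQ : Q * Q = Q) (hM : M * M = M)
    (h : Q + SP.cj Q = M) : 2 * Q.rank = M.rank := by
  have h1 := CW.rank_eq_trace hQ
  have h2 := CW.rank_eq_trace hM
  have h3 : (SP.cj Q).trace = starRingEnd ℂ Q.trace := by
    simp [Matrix.trace, Matrix.diag, map_sum]
  rw [← h, Matrix.trace_add, h3, ← h1, Complex.conj_natCast, h] at h2
  have h4 : ((2 * Q.rank : ℕ) : ℂ) = ((M.rank : ℕ) : ℂ) := by
    push_cast; rw [h2]; ring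
  exact_mod_cast h4

/-- `T_q C_p` has rank `n - k` -/
theorem rank_mP (hV : GT.VField G PV) (h : GT.Bla G k) {z : Euc N × Euc N} (hz : z ∈ FF S) :
    k + (SP.cr (mP G PV z)).rank = n := by
  have h1 : (SP.cr (mP G PV z)).rank = finrank ℝ (GT.TC G z.1 z.2) := by
    refine (FG.rank_cr (T := GT.PTC G PV z) fun v => hV.PTC_idem h (p := z.1) (q := z.2) hz v).trans
      ?_
    rw [hV.range_PTC h (p := z.1) (q := z.2) hz]
  rw [h1]
  exact h.finrank_TC hz

theorem rank_TJ (hV : GT.VField G PV) (h : GT.Bla G k)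
    {ζ : (Euc N × Euc N) × (Fin 2 → Euc N)} (hζ : ζ ∈ ZZ S PV) :
    2 * (TJ G PV ζ).rank + k = n := by
  have h1 := two_rank ((GT.idf_TJ hV h).idem ζ hζ) ((GT.idf_TCF hV h).idem ζ.1 hζ.1)
    (GT.pencil_ZZ hV h hζ).tj_add_cj
  have h2 := rank_mP hV h hζ.1
  have h3 : 2 * (TJ G PV ζ).rank = (SP.cr (mP G PV ζ.1)).rank := h1
  omega


/-- Chern classes of `T_J`, `F_J` above the rank -/
theorem cc_T_eq_zero (hV : GT.VField G PV) (h : GT.Bla G k)
    {E' : Type*} [NormedAddCommGroup E'] [NormedSpace ℝ E'] [FiniteDimensional ℝ E']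
    {Y : Set E'} {z : E' → Euc N × Euc N} {T F L : E' → Matrix (Fin N) (Fin N) ℂ}
    (hD : Des G PV Y z T F L) (hY : Sub d Y) {j : ℕ} (hj : n < 2 * j + k) :
    CW.cc hY (hD.idf_T hV h) j = 0 := by
  refine CW.cc_eq_zero hY (hD.idf_T hV h) fun y hy => ?_
  obtain ⟨ζ, hζ, -, e, -, -⟩ := hD.ex y hy
  rw [e]
  have := rank_TJ hV h hζ
  omega


/-! ### the two pull-backs from `S` agree on `V_2(V)` -/

/-- `V_2(V) → S(V)` -/
def frZ (ζ : (Euc N × Euc N) × (Fin 2 → Euc N)) : (Euc N × Euc N) × Euc N := (ζ.1, ζ.2 0)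

theorem smap_frZ (h : GT.Bla G k) :
    CW.SMap (ZZ S (FV.PVB h)) (T.Sph (FF S) (FV.PVB h)) frZ := by
  refine ⟨fun ζ _ => ?_, fun ζ hζ => ⟨⟨hζ.1, hζ.2.1 0⟩, hζ.2.2.1 0⟩⟩
  exact contDiffAt_fst.prodMk
    (((contDiff_apply ℝ (Euc N) (0 : Fin 2)).contDiffAt).comp ζ contDiffAt_snd)

theorem geod_H (h : GT.Bla G k) (c : CW.H S) :
    CW.H.map (GT.smap_fst (S := S) (PV := FV.PVB h)) (FG.xp c) =
      CW.H.map (GT.smap_fst (S := S) (PV := FV.PVB h)) (FG.xq c) := by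
  obtain ⟨a, b, ha, hb, rfl⟩ := T.exists_rcl c
  have key : ∀ {a : Euc N → Ext (Euc N)} (ha : EC S a),
      CW.H.map (GT.smap_fst (S := S) (PV := FV.PVB h)) (FG.xp (rcl ha)) =
        CW.H.map (GT.smap_fst (S := S) (PV := FV.PVB h)) (FG.xq (rcl ha)) := by
    intro a ha
    rw [FG.xp, FG.xq, ← T.rcl_pull, ← T.rcl_pull, ← T.rcl_pull, ← T.rcl_pull]
    refine T.rcl_congr _ _ ?_
    have h1 := (T.coh_geod h ha.sm ha.cl).pull (smap_frZ h)
    have e1 : ∀ c : Euc N × Euc N → Ext (Euc N × Euc N),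
        T.Eqv (ZZ S (FV.PVB h)) (F.pull frZ (F.pull Prod.fst c)) (F.pull Prod.fst c) := fun c =>
      T.eqv_pull_pull (smap_frZ h) T.smap_fstS (GT.smap_fst (S := S) (PV := FV.PVB h))
        (fun _ _ => rfl) c
    exact (Coh.of_eqv (e1 _).symm).trans (h1.trans (Coh.of_eqv (e1 _)))
  simp only [FG.xp, FG.xq, map_add, map_smul] at key ⊢
  rw [key ha, key hb]

/-- **`x₁ - x₂ = ξ w`** on `D` -/
theorem exists_w {h : GT.Bla G k} {dZ : ℕ} (hg : CM.Emb (ZZ S (FV.PVB h)) rt g)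
    (hX : Clo (dZ + 1) (ZZ S (FV.PVB h))) {z : CM.MM m → Euc N × Euc N}
    {TD FD LD : CM.MM m → Matrix (Fin N) (Fin N) ℂ} (hD : DPk G (FV.PVB h) g z TD FD LD)
    (hQ : Sub d (CM.Quo (ZZ S (FV.PVB h)) g)) {j : ℕ} {x : CW.H S} (hx : x ∈ HD S (2 * (j + 1))) :
    ∃ w ∈ HD (CM.Quo (ZZ S (FV.PVB h)) g) (2 * j),
      CW.H.map hD.smap (FG.xp x) - CW.H.map hD.smap (FG.xq x) = CW.sc hQ hD.idf_L 1 * w := by
  have h1 : CW.H.map hD.smap (FG.xp x) - CW.H.map hD.smap (FG.xq x) ∈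
      HD (CM.Quo (ZZ S (FV.PVB h)) g) (2 * (j + 1)) :=
    Submodule.sub_mem _ (T.HD_map _ (T.HD_map _ hx)) (T.HD_map _ (T.HD_map _ hx))
  obtain ⟨w, hw, e1⟩ := exists_div hg GT.cir_ZZ hX h1 (by
    rw [map_sub, hD.map_z hg hX.sub, hD.map_z hg hX.sub, geod_H, sub_self])
  refine ⟨(2 * Complex.I) • w, Submodule.smul_mem _ _ hw, ?_⟩
  rw [e1, hD.ec_L hg hX hQ, smul_mul_assoc, mul_smul_comm]

end ZZ

end Crest.Agent.R208.QV
end
end

-- ▼ part R208/QV4

/-! Row 208, block QV (helper105), part QV4: **(V4)**, `k = 4`: the coefficient `μ` of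
`c_2(V ⊗ ℂ) = μ (x_1 + x_2)` satisfies `|μ| < 6`. -/

set_option autoImplicit false
set_option linter.unusedSectionVars false
set_option linter.unusedVariables false

open Set Filter Topology Module
open scoped ContDiff RealInnerProductSpace ComplexConjugate
open Crest.GeometryTopology.Submanifold
open Crest.Agent.R241.DDefs
open Crest.Agent.R241.D2
open Crest.Agent.R208.F Crest.Agent.R208.FI
open Crest.Agent.R208.CW (IdF SM el)
open Crest.Agent.R208.GT (bas mM mV mP FF ZZ TJ FJ LL rt Des DPk)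
open Crest.Agent.R208.T (HD EC rcl Coh Hom Cl Eqv Sm OR ExactIn)
open Crest.Agent.R208.GQ (UV Z1 Q1 v1 Pm pS xZ eZ LH)
open Crest.Agent.R208.VX (nE nE_pos)

noncomputable section

namespace Crest.Agent.R208.QV

variable {n N k m dF : ℕ} {κ : ℝ} {S : Set (Euc N)} {G : Geo n N κ S}

/-! ### the theorem on `D` -/

/-- **(V4)** on the level of classes -/
theorem lt_six_H (h : GT.Bla G 4) (hm : 2 ≤ m) (hn : n = 4 * m) (hS : Sub n S)
    (hF : Sub dF (FF S)) {μ : ℝ} {q : ℕ → ℂ} (hq0 : q 0 = 1)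
    (hqc : ∀ i ≤ m, PowerSeries.coeff i (PowerSeries.mk q * (1 + PowerSeries.C (2 * (μ : ℂ)) *
      PowerSeries.X)) = PowerSeries.coeff i ((1 + PowerSeries.C (μ : ℂ) * PowerSeries.X +
        PowerSeries.X ^ 2) ^ (m + 1)))
    {x : CW.H S} (hx : x ∈ HD S 4)
    (hc2 : CW.cc hF (GT.idf_mV (FV.vfield_PVB h)) 2 = (μ : ℂ) • (FG.xp x + FG.xq x))
    (hc4 : CW.cc hF (GT.idf_mV (FV.vfield_PVB h)) 4 = (FG.xp x - FG.xq x) ^ 2)
    (hq : ∀ i ≤ m, CW.cc hS (GT.idf_mM (G := G)) (2 * i) = q i • x ^ i)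
    (hE : ∀ j < 2 * m, ExactIn (ZZ S (FV.PVB h)) (2 * j + 1))
    (hne : ∀ e ∈ HD (ZZ S (FV.PVB h)) 2, e ≠ 0 →
      e * CW.H.map (GT.smap_fst (S := S) (PV := FV.PVB h)) (FG.xp x) ^ (m - 1) ≠ 0)
    (hx0 : CW.H.map (GT.smap_fst (S := S) (PV := FV.PVB h)) (FG.xp x) ≠ 0) : |μ| < 6 := by
  have hV := FV.vfield_PVB h
  have hkn : 4 < n := by omega
  have hX : Clo (2 * n + 1) (ZZ S (FV.PVB h)) := FV.clo_ZZ h (by norm_num) (by omega)
  obtain ⟨M, g, hg⟩ := CM.exists_emb GT.cir_ZZ hX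
  obtain ⟨z, TD, FD, LD, hD⟩ := GT.exists_dpk hV h hg hX
  have hQ := (hg.clo_Quo GT.cir_ZZ hX).sub
  obtain ⟨w, hw, hxe⟩ := exists_w hg hX hD hQ (j := 1) hx
  have hsums := sum_of_closed (m := m) hq0 (x := x) (t := CW.sc hS (GT.idf_mM (G := G)))
    (fun j hj _ => CW.sc_real_odd hS _ (fun y _ => by ext a b; simp [mM]) hj)
    (fun i hi => by rw [← CW.cc_eq_el]; exact hq i hi)
  have hmapcc : ∀ j, CW.H.map hD.smap (CW.cc hF (GT.idf_mV hV) j) =
      el (CW.sc hQ (hD.idf_mV hV)) j := by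
    intro j
    rw [CW.cc_eq_el]
    refine (CW.el_map (CW.H.map hD.smap).toRingHom _ j).trans ?_
    refine CW.el_congr fun i _ _ => ?_
    exact CW.map_sc hQ hF hD.smap (GT.idf_mV hV) i
  refine lt_six_D (CW.H.map hg.smap_jj) (Gr := fun j => HD (CM.Quo (ZZ S (FV.PVB h)) g) (2 * j))
    hm hq0 hqc hxe ?_ rfl ?_ rfl ?_ ?_ ?_ ?_ ?_ hw ?_ (t := CW.sc hQ (hD.idf_T hV h)) ?_
    (s := CW.sc hQ (hD.idf_F hV h)) ?_ (v := CW.sc hQ (hD.idf_mV hV))
    (v0 := CW.sc hQ (hD.idf_V0 hV)) ?_ ?_ ?_ ?_ ?_ ?_ ?_ ?_ ?_ ?_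
  · rw [hD.xi_eq hg hX hQ, map_smul, GQ.map_ec_L hg GT.cir_ZZ, smul_zero]
  · rw [hD.map_z hg hX.sub, hD.map_z hg hX.sub, geod_H]
  · exact T.one_mem_HD
  · intro i j a b ha hb
    rw [mul_add]; exact T.HD_mul ha hb
  · exact T.sc_mem_HD hQ _ 1
  · exact T.HD_map _ (T.HD_map _ hx)
  · exact T.HD_map _ (T.HD_map _ hx)
  · intro j hj b hb h0
    refine GQ.div_Quo hg GT.cir_ZZ hX (FV.preconn_ZZ h (by norm_num)) hb ?_ (hE j hj)
    rw [hD.ec_L hg hX hQ, mul_smul_comm, h0, smul_zero]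
  · exact fun j => T.sc_mem_HD hQ _ j
  · exact fun j => sc_F' hV h hD.toDes hQ j
  · intro j
    rw [hD.sc_V hV hQ j, hD.sc_L hQ j]
  · exact fun j hj => sc_V0_odd hV h hD.toDes hQ hj
  · exact fun j hj => el_V0_eq_zero hV h hD.toDes hQ (by omega)
  · rw [← CW.cc_eq_el]; exact T.cc_mem_HD hQ _ 2
  · rw [← hmapcc, hc2, map_smul, map_add]
  · rw [← hmapcc, hc4, map_pow, map_sub]
  · intro i h1 h2
    have h3 := rel_q hV h hD.toDes hkn hS hF hQ (2 * i)
    rw [hsums i h1 h2, pow_mul, neg_one_sq, one_pow] at h3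
    have h4 : CW.H.map hD.smap (FG.xq (tau q i • x ^ i)) =
        tau q i • CW.H.map hD.smap (FG.xq x) ^ i := by
      rw [FG.xq, FG.xq, map_smul, map_smul, map_pow, map_pow]
    rw [h4] at h3
    rw [h3]; ring
  · intro i h1 h2
    have h3 := rel_p hV h hD.toDes hkn hS hF hQ (2 * i)
    rw [hsums i h1 h2, pow_mul, neg_one_sq, one_pow] at h3
    have h4 : CW.H.map hD.smap (FG.xp (tau q i • x ^ i)) =
        tau q i • CW.H.map hD.smap (FG.xp x) ^ i := by
      rw [FG.xp, FG.xp, map_smul, map_smul, map_pow, map_pow]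
    rw [h4] at h3
    rw [h3]; ring
  · have h1 := cc_T_eq_zero hV h hD.toDes hQ (j := 2 * m - 1) (by omega)
    have h2 := congrArg (CW.H.map hg.smap_jj) h1
    rw [map_zero, CW.cc_eq_el] at h2
    rw [← h2]
    exact (CW.el_map (CW.H.map hg.smap_jj).toRingHom _ _).symm
  · intro hμ he
    rw [hD.map_z hg hX.sub] at he ⊢
    refine hne _ (T.HD_map _ hw) ?_
    intro h0
    rw [h0, zero_pow (by norm_num)] at he
    have h1 : (-(2 * (μ : ℂ))) ≠ 0 := by
      rw [neg_ne_zero]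
      exact mul_ne_zero two_ne_zero (by exact_mod_cast hμ)
    exact hx0 ((smul_eq_zero.1 he.symm).resolve_left h1)

/-! ### odd classes on `S(V)` and on `V_2(V)` -/

section low
variable {p : Euc N} {ι ι' ι₁ : Type} [Fintype ι] [DecidableEq ι] [Fintype ι'] [DecidableEq ι']
  [Fintype ι₁] [DecidableEq ι₁]
  {W : Euc N × Euc N → (ι × Fin 2 → Fin N) → ℝ} {W' : Euc N → (ι' × Fin 2 → Fin N) → ℝ}
  {x : Euc N → Ext (Euc N)} {h : GT.Bla G k}
  {r : ℕ} {ε : ((Euc N × Euc N) × Euc N) × Euc N → Ext (((Euc N × Euc N) × Euc N) × Euc N)}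

/-- `H^j(US) = 0` for all odd `j < n + k - 1` -/
theorem exactIn_UV' (M : T.XM h m W p x) (hι' : 2 * Fintype.card ι' = n) (hO : OR S G.P W')
    (he : ¬ Coh S (T.eR G.P W') 0) {j : ℕ} (hj : Odd j) (hjn : j + 1 < n + k) :
    ExactIn (UV h) j := by
  rcases Nat.lt_or_ge (j + 1) n with h1 | h1
  · exact GQ.exactIn_UV h M.hk M.hkn M.hke M.hne M.hp M.hι M.hW hj h1
  · exact XE.exactIn_Sph_F M hι' hO he h1 hjn

/-- `H^j(V_2(V)) = 0` for all odd `j < n + k - 1` -/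
theorem exactIn_ZZ' (M : T.XM h m W p x) (hι' : 2 * Fintype.card ι' = n) (hO : OR S G.P W')
    (he : ¬ Coh S (T.eR G.P W') 0) (hr : Even r) (hL : LH (UV h) (Pm (Q1 h) v1) r ε) {j : ℕ}
    (hj : Odd j) (hjn : j + 1 < n + k) : ExactIn (ZZ S (FV.PVB h)) j := by
  refine ExactIn.transport (Y := Z1 h) (GQ.smap_toZ h) (GQ.smap_ofZ h)
    (fun ζ _ => GQ.ofZ_toZ ζ) ?_
  intro b hb hc hd
  have key : ∀ {i : ℕ} {a : (Euc N × Euc N) × Euc N → Ext ((Euc N × Euc N) × Euc N)}, Odd i →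
      i + 1 < n + k → Sm (UV h) a → Cl (UV h) a → Hom i a →
        Coh (Z1 h) (F.pull Prod.fst a) 0 := by
    intro i a hi hin sa ca da
    have h1 := (exactIn_UV' M hι' hO he hi hin a sa ca da).pull
      (T.smap_fstS (X := UV h) (P := Pm (Q1 h) v1))
    rwa [T.pull_zero'] at h1
  rcases Nat.lt_or_ge j r with h1 | h1
  · obtain ⟨a, sa, ca, da, ea⟩ := hL.low h1 hb hc hd
    exact ea.trans (key hj hjn sa ca da)
  · obtain ⟨i, rfl⟩ : ∃ i, j = i + r := ⟨j - r, by omega⟩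
    obtain ⟨a, c, sa, ca, da, sc, cc, dc, ea⟩ := hL.split hb hc hd
    have hi : Odd i := by
      rcases hj with ⟨u, hu⟩
      rcases hr with ⟨t, ht⟩
      exact ⟨u - t, by omega⟩
    have h2 := (key hj hjn sa ca da).add ((key hi (by omega) sc cc dc).mul_left hL.sm hL.cl)
    rw [mul_zero, add_zero] at h2
    exact ea.trans h2

end low

/-! ### the final theorem -/

section final
variable {p : Euc N} {ι ι' : Type} [Fintype ι] [DecidableEq ι] [Fintype ι'] [DecidableEq ι']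
  {W : Euc N × Euc N → (ι × Fin 2 → Fin N) → ℝ} {W' : Euc N → (ι' × Fin 2 → Fin N) → ℝ}
  {x : Euc N → Ext (Euc N)} {h : GT.Bla G 4}
  {ε : ((Euc N × Euc N) × Euc N) × Euc N → Ext (((Euc N × Euc N) × Euc N) × Euc N)}

/-- `x` on `V_2(V)`, class version -/
theorem map_xp_rcl (hx : EC S x) : CW.H.map (GT.smap_fst (S := S) (PV := FV.PVB h))
    (FG.xp (rcl hx)) = rcl (hx.pull (GQ.smap_pz h)) := by
  rw [FG.xp, ← T.rcl_pull, ← T.rcl_pull]
  refine T.rcl_congr _ _ (Coh.of_eqv ?_)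
  exact T.eqv_pull_pull (GT.smap_fst (S := S) (PV := FV.PVB h)) FG.smap_fst (GQ.smap_pz h)
    (fun _ _ => rfl) x

/-- the class `e` of degree `2`: `e x^(m-1) ≠ 0` -/
theorem e_mul_ne (M : T.XM h m W p x) (hx : EC S x) (hL : LH (UV h) (Pm (Q1 h) v1) 2 ε)
    {e : CW.H (ZZ S (FV.PVB h))} (he : e ∈ HD (ZZ S (FV.PVB h)) 2) (he0 : e ≠ 0) {c₀ : ℂ}
    (hc₀ : c₀ ≠ 0) : e * CW.H.map (GT.smap_fst (S := S) (PV := FV.PVB h))
      (FG.xp (c₀ • rcl hx)) ^ (m - 1) ≠ 0 := by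
  have hn := M.hn
  have hm := M.hm
  have hxm := M.xm_ne
  have s1 : Sm (ZZ S (FV.PVB h)) (eZ ε) := hL.sm.pull (GQ.smap_toZ h)
  have c1 : Cl (ZZ S (FV.PVB h)) (eZ ε) := hL.cl.pull (GQ.smap_toZ h) hL.sm
  have d1 : Hom 2 (eZ ε) := Hom.pull hL.deg
  have hE : EC (ZZ S (FV.PVB h)) (eZ ε) := EC.of_hom (j := 1) s1 c1 d1
  have hxZ : EC (ZZ S (FV.PVB h)) (xZ x) := hx.pull (GQ.smap_pz h)
  obtain ⟨a, b, ha, hb, da, db, rfl⟩ := T.exists_rcl_HD (j := 1) he
  have key : ∀ {a : (Euc N × Euc N) × (Fin 2 → Euc N) → Ext ((Euc N × Euc N) × (Fin 2 → Euc N))}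
      (ha : EC (ZZ S (FV.PVB h)) a), Hom 2 a → ∃ t : ℝ, rcl ha = (t : ℂ) • rcl hE := by
    intro a ha da
    obtain ⟨s, t, hs, -, e1⟩ := GQ.ZZ_even h (by norm_num) M.hkn M.hke M.hne M.hp M.hι M.hW
      (q := 2) (by norm_num) hL M.sx M.cx M.dx M.ex (j := 2) (by decide) (by omega) ha.sm ha.cl da
    refine ⟨t, ?_⟩
    rw [hs (by norm_num), zero_smul, zero_add, show (2 - 2) / 4 = 0 from rfl, pow_zero, mul_one]
      at e1
    rw [T.rcl_congr ha (hE.smul t) e1, T.rcl_smul]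
  obtain ⟨t, ht⟩ := key ha da
  obtain ⟨u, hu⟩ := key hb db
  rw [ht, hu, smul_smul, ← add_smul] at he0 ⊢
  have hz : (t : ℂ) + Complex.I * u ≠ 0 := fun h0 => he0 (by rw [h0, zero_smul])
  have hne := (GQ.ZZ_ne h (by norm_num) M.hne hL M.sx M.cx M.dx hxm (i := m - 1) (by omega)
    (by omega)).2
  rw [FG.xp, map_smul, map_smul, ← FG.xp, map_xp_rcl, smul_pow, ← T.rcl_pow hxZ,
    smul_mul_smul_comm, ← T.rcl_mul hE (hxZ.pow (m - 1))]
  refine fun h0 => hne ((T.rcl_eq_zero_iff (hE.mul (hxZ.pow (m - 1)))).1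
    ((smul_eq_zero.1 h0).resolve_left (mul_ne_zero hz (pow_ne_zero _ hc₀))))

theorem x_ne_zero (M : T.XM h m W p x) (hx : EC S x) (hL : LH (UV h) (Pm (Q1 h) v1) 2 ε)
    {c₀ : ℂ} (hc₀ : c₀ ≠ 0) : CW.H.map (GT.smap_fst (S := S) (PV := FV.PVB h))
      (FG.xp (c₀ • rcl hx)) ≠ 0 := by
  have hn := M.hn
  have hm := M.hm
  have hne := (GQ.ZZ_ne h (by norm_num) M.hne hL M.sx M.cx M.dx M.xm_ne (i := 1) (by omega)
    (by omega)).1
  rw [pow_one] at hne
  have hxZ : EC (ZZ S (FV.PVB h)) (xZ x) := hx.pull (GQ.smap_pz h)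
  rw [FG.xp, map_smul, map_smul, ← FG.xp, map_xp_rcl]
  exact fun h0 => hne ((T.rcl_eq_zero_iff hxZ).1 ((smul_eq_zero.1 h0).resolve_left hc₀))

/-- **(V4)** -/
theorem lt_six_XM (M : T.XM h m W p x) (hι' : 2 * Fintype.card ι' = n) (hO : OR S G.P W')
    (he : ¬ Coh S (T.eR G.P W') 0) (hS : Sub n S) (hF : Sub dF (FF S)) (hx : EC S x) {μ : ℝ}
    {q : ℕ → ℂ} {c₀ : ℂ} (hc₀ : c₀ ≠ 0) (hq0 : q 0 = 1)
    (hqc : ∀ i ≤ m, PowerSeries.coeff i (PowerSeries.mk q * (1 + PowerSeries.C (2 * (μ : ℂ)) *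
      PowerSeries.X)) = PowerSeries.coeff i ((1 + PowerSeries.C (μ : ℂ) * PowerSeries.X +
        PowerSeries.X ^ 2) ^ (m + 1)))
    (hc2 : CW.cc hF (GT.idf_mV (FV.vfield_PVB h)) 2 =
      (μ : ℂ) • (FG.xp (c₀ • rcl hx) + FG.xq (c₀ • rcl hx)))
    (hc4 : CW.cc hF (GT.idf_mV (FV.vfield_PVB h)) 4 =
      (FG.xp (c₀ • rcl hx) - FG.xq (c₀ • rcl hx)) ^ 2)
    (hq : ∀ i ≤ m, CW.cc hS (GT.idf_mM (G := G)) (2 * i) = q i • (c₀ • rcl hx) ^ i) : |μ| < 6 := by
  have hι2 : Fintype.card ι = 2 := by have := M.hι; omega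
  have hn := M.hn
  have hm := M.hm
  -- Leray-Hirsch
  have eq : (Unit × Fin 2) ⊕ (Fin 1 × Fin 2) ≃ (ι × Fin 2) := Fintype.equivOfCardEq (by
    simp [hι2])
  have hL := GQ.lh_UV eq h (by omega) M.hkn ⟨p, M.hp⟩ M.hι M.hW
  have hc1 : 2 * Fintype.card (Fin 1) = 2 := by simp
  rw [hc1] at hL
  refine lt_six_H h hm hn hS hF hq0 hqc
    (Submodule.smul_mem _ _ (T.rcl_mem_HD hx M.dx)) hc2 hc4 hq (fun j hj => ?_)
    (fun e h1 h2 => e_mul_ne M hx hL h1 h2 hc₀) (x_ne_zero M hx hL hc₀)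
  exact exactIn_ZZ' M hι' hO he (by decide) hL ⟨j, rfl⟩ (by omega)

/-- **(V4), final form**: the coefficient of `X3` and `|μ| < 6`; inputs `e(TM)` not exact and (X1d)
`h_m(x_1, x_2) = 0`. -/
theorem V4 (M : T.XM h m W p x) (hι' : 2 * Fintype.card ι' = n) (hO : OR S G.P W')
    (he : ¬ Coh S (T.eR G.P W') 0) (hS : Sub n S) (hF : Sub dF (FF S)) (hx : EC S x)
    (hrel : Coh (FF S)
      (∑ i ∈ Finset.range (m + 1), F.pull Prod.fst x ^ i * F.pull Prod.snd x ^ (m - i)) 0) :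
    ∃ μ : ℝ, |μ| < 6 ∧
      CW.cc hF (GT.idf_mV (FV.vfield_PVB h)) 2 =
        (μ : ℂ) • (FG.xp (((nE ι : ℝ) : ℂ)⁻¹ • rcl hx) + FG.xq (((nE ι : ℝ) : ℂ)⁻¹ • rcl hx)) ∧
      CW.cs hF (GT.idf_mV (FV.vfield_PVB h)) = 1 +
        PowerSeries.C ((μ : ℂ) •
          (FG.xp (((nE ι : ℝ) : ℂ)⁻¹ • rcl hx) + FG.xq (((nE ι : ℝ) : ℂ)⁻¹ • rcl hx))) *
            PowerSeries.X ^ 2 +
        PowerSeries.C ((FG.xp (((nE ι : ℝ) : ℂ)⁻¹ • rcl hx) -
          FG.xq (((nE ι : ℝ) : ℂ)⁻¹ • rcl hx)) ^ 2) * PowerSeries.X ^ 4 := by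
  obtain ⟨oS, hoS, -, hdS⟩ := GP.exists_ori (G := G) h.bl h.ty (by norm_num)
  obtain ⟨μ, -, h2, h3, q, hq0, hq, hqc⟩ := FG.closed_XM M hS hF hx hoS hdS (M.J_ne hoS) hrel M.dim1
  have e4 : 4 / 2 = 2 := rfl
  rw [e4] at h2 h3
  refine ⟨μ, ?_, h2, h3⟩
  have hc0 : ((nE ι : ℝ) : ℂ)⁻¹ ≠ 0 := inv_ne_zero (by exact_mod_cast (nE_pos ι).ne')
  refine lt_six_XM M hι' hO he hS hF hx hc0 hq0 hqc h2 ?_ fun i hi => ?_
  · rw [← CW.coeff_cs, h3]
    rw [_root_.map_add, _root_.map_add, PowerSeries.coeff_one, PowerSeries.coeff_C_mul,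
      PowerSeries.coeff_C_mul, PowerSeries.coeff_X_pow, PowerSeries.coeff_X_pow,
      if_neg (by norm_num), if_neg (by norm_num), if_pos rfl, mul_zero, mul_one, zero_add, zero_add]
  · have h4 := hq (2 * i)
    rw [e4, if_pos ⟨i, rfl⟩, show 2 * i / 2 = i by omega] at h4
    exact h4

end final

end Crest.Agent.R208.QV
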