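import Crest.Agent.R208.EZ2
import Crest.Agent.R208.GQ5a
import Crest.Agent.R208.GQ5f
import Crest.Agent.R208.TX9
import Crest.Agent.R208.QV4

-- ▼ part R208/EZ3
section

/-! Row 208, (8,2), block (EZ) (helper664).  EZ3: **the Euler numbers over `B = X / S^1`**:
`∫ e^15`, `∫ e^8 c_7(N_ℂ ⊗ L^a)` (`a = 1, 2`), `∫ e c_7(N_ℂ ⊗ L)^2` are integers. -/

set_option autoImplicit false
set_option linter.unusedSectionVars false

open MeasureTheory Set Filter Topology Module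
open scoped ContDiff RealInnerProductSpace
open Crest.Agent.R208.F Crest.Agent.R208.FI Crest.Agent.R208.CW Crest.Agent.R208.T
open Crest.Agent.R208.CM Crest.Agent.R208.EW Crest.Agent.R208.EP

noncomputable section

namespace Crest.Agent.R208.EZ

variable {E : Type} [NormedAddCommGroup E] [NormedSpace ℝ E] [FiniteDimensional ℝ E]
  {p : Type} [Fintype p] [DecidableEq p]
  {X : Set E} {φ : ℝ → E → E} {m d r s k : ℕ} {g : E → Fin m → ℂ} {al : E → Ext E}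
  {Fc oB : MM m → Ext (MM m)} {N N' : MM m → EuclideanSpace ℝ p →L[ℝ] EuclideanSpace ℝ p}

/-- the tautological line -/
theorem euC_line (hg : Emb X φ g) (hC : Cir X φ) (hX : Clo (d + 1) X) (ha : Conn X φ al)
    (hF : Curv X g al Fc) : EuC (Quo X g) 1 Fc := by
  refine EuC.of (curvEC hF) hg.or_L (by simp) ⟨-1, Or.inr rfl, ?_⟩
  have h1 := (hF.coh_eR hg hC hX ha).symm.smul (-2)
  rw [smul_smul] at h1
  norm_num at h1 ⊢
  exact h1

/-- `N_ℂ ⊗ L` -/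
theorem euC_top1 (hg : Emb X φ g) (hC : Cir X φ) (hX : Clo (d + 1) X) (hXc : IsPreconnected X)
    (ha : Conn X φ al) (hF : Curv X g al Fc) (hN : PField (Quo X g) r N)
    (hs : ∀ y ∈ Quo X g, ∀ u v, ⟪N y u, v⟫ = ⟪u, N y v⟫) :
    EuC (Quo X g) r (topr r 1 N Fc) :=
  EuC.of (ec_topr (hg.sub_Quo hC hX) hN (curvEC hF))
    (or_NL (ι := Fin r) hN hs (lineF_Lt hg) (Fintype.card_fin r)) (Fintype.card_fin r)
    (coh_NLt hg hC hX hXc hN hs (Fintype.card_fin r) ha hF)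

/-- `N_ℂ ⊗ L^2` -/
theorem euC_top2 (hg : Emb X φ g) (hC : Cir X φ) (hX : Clo (d + 1) X) (hXc : IsPreconnected X)
    (ha : Conn X φ al) (hF : Curv X g al Fc) (hN : PField (Quo X g) r N)
    (hs : ∀ y ∈ Quo X g, ∀ u v, ⟪N y u, v⟫ = ⟪u, N y v⟫) :
    EuC (Quo X g) r (topr r 2 N Fc) :=
  EuC.of (ec_topr (hg.sub_Quo hC hX) hN (curvEC hF))
    (or_NL (ι := Fin r) hN hs (lineF_Lt2 hg) (Fintype.card_fin r)) (Fintype.card_fin r)
    (coh_NLt2 hg hC hX hXc hN hs (Fintype.card_fin r) ha hF)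

/-- **(z0)**, any rank -/
theorem int_line (hg : Emb X φ g) (hC : Cir X φ) (hX : Clo (2 * (k + 1) + 1) X)
    (ha : Conn X φ al) (hF : Curv X g al Fc) (hoB : Ori (2 * (k + 1)) (Quo X g) oB) :
    ∃ z : ℤ, J (2 * (k + 1)) (Quo X g) oB (Fc ^ (k + 1)) = (2 * Real.pi) ^ (k + 1) * z :=
  ((euC_line hg hC hX ha hF).pow k).int (by omega) (hg.clo_Quo hC hX) hoB

/-- **(z0)**: `∫ e^15 ∈ ℤ` -/
theorem z0 (hg : Emb X φ g) (hC : Cir X φ) (hX : Clo (30 + 1) X)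
    (ha : Conn X φ al) (hF : Curv X g al Fc) (hoB : Ori 30 (Quo X g) oB) :
    ∃ z : ℤ, J 30 (Quo X g) oB (Fc ^ 15) = (2 * Real.pi) ^ 15 * z :=
  int_line (k := 14) hg hC hX ha hF hoB

/-- **(z1)**: `∫ e^8 c_7(N_ℂ ⊗ L) ∈ ℤ` -/
theorem z1 (hg : Emb X φ g) (hC : Cir X φ) (hX : Clo (30 + 1) X) (hXc : IsPreconnected X)
    (ha : Conn X φ al) (hF : Curv X g al Fc) (hoB : Ori 30 (Quo X g) oB)
    (hN : PField (Quo X g) 7 N) (hs : ∀ y ∈ Quo X g, ∀ u v, ⟪N y u, v⟫ = ⟪u, N y v⟫) :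
    ∃ z : ℤ, J 30 (Quo X g) oB (Fc ^ 8 * topr 7 1 N Fc) = (2 * Real.pi) ^ 15 * z :=
  (((euC_line hg hC hX ha hF).pow 7).mul (euC_top1 hg hC hX hXc ha hF hN hs)).int (by omega)
    (hg.clo_Quo hC hX) hoB

/-- **(z2)**: `∫ e^8 c_7(N_ℂ ⊗ L^2) ∈ ℤ` -/
theorem z2 (hg : Emb X φ g) (hC : Cir X φ) (hX : Clo (30 + 1) X) (hXc : IsPreconnected X)
    (ha : Conn X φ al) (hF : Curv X g al Fc) (hoB : Ori 30 (Quo X g) oB)
    (hN : PField (Quo X g) 7 N) (hs : ∀ y ∈ Quo X g, ∀ u v, ⟪N y u, v⟫ = ⟪u, N y v⟫) :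
    ∃ z : ℤ, J 30 (Quo X g) oB (Fc ^ 8 * topr 7 2 N Fc) = (2 * Real.pi) ^ 15 * z :=
  (((euC_line hg hC hX ha hF).pow 7).mul (euC_top2 hg hC hX hXc ha hF hN hs)).int (by omega)
    (hg.clo_Quo hC hX) hoB

/-- **(z3)**: `∫ e c_7(N_ℂ ⊗ L)^2 ∈ ℤ` -/
theorem z3 (hg : Emb X φ g) (hC : Cir X φ) (hX : Clo (30 + 1) X) (hXc : IsPreconnected X)
    (ha : Conn X φ al) (hF : Curv X g al Fc) (hoB : Ori 30 (Quo X g) oB)
    (hN : PField (Quo X g) 7 N) (hs : ∀ y ∈ Quo X g, ∀ u v, ⟪N y u, v⟫ = ⟪u, N y v⟫) :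
    ∃ z : ℤ, J 30 (Quo X g) oB (Fc * (topr 7 1 N Fc * topr 7 1 N Fc))
      = (2 * Real.pi) ^ 15 * z :=
  ((euC_line hg hC hX ha hF).mul ((euC_top1 hg hC hX hXc ha hF hN hs).mul
    (euC_top1 hg hC hX hXc ha hF hN hs))).int (by omega) (hg.clo_Quo hC hX) hoB

end Crest.Agent.R208.EZ
end
end

-- ▼ part R208/GQ7a
section

/-!
Row 208, block GQ (helper989), part GQ7a: `k = 8`, `n = 16`: the vanishing of `c_7(T_J)` gives
`μ² = 36` (algebra).
-/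

set_option autoImplicit false

open PowerSeries Finset

namespace Crest.Agent.R208.GQ

variable {A B : Type*} [CommRing A] [Algebra ℂ A] [CommRing B] [Algebra ℂ B]

/-- the seventh elementary class from the power sums `t₃, t₄, t₇` -/
theorem el_seven {t : ℕ → B} (h1 : t 1 = 0) (h2 : t 2 = 0) (h5 : t 5 = 0) (h6 : t 6 = 0) :
    84 * CW.el t 7 = 12 * t 7 - 7 * (t 3 * t 4) := by
  have e0 : CW.el t 0 = 1 := CW.el_zero t
  have n1 := GA.el_newton t 0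
  have n3 := GA.el_newton t 2
  have n4 := GA.el_newton t 3
  have n7 := GA.el_newton t 6
  simp only [sum_range_succ, sum_range_zero, Nat.reduceAdd, Nat.reduceSub, e0, h1, h2, h5, h6]
    at n1 n3 n4 n7
  push_cast at n1 n3 n4 n7
  linear_combination 12 * n7 + 3 * t 3 * n4 - 4 * t 4 * n3 + (3 * t 3 * t 3) * n1

theorem QQ_coeff_zero (m : ℕ) (μ : ℂ) : coeff 0 (QQ m μ) = 0 := by
  have h := congrArg constantCoeff (QQ_mul m μ)
  simpa using h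

theorem QQ_mul_two (μ : ℂ) : QQ 2 μ + C (3 * μ) * (QQ 2 μ * X ^ 1) +
    C (1 + 2 * μ ^ 2) * (QQ 2 μ * X ^ 2) + C (2 * μ) * (QQ 2 μ * X ^ 3) =
      C μ * X ^ 1 + C (6 + 4 * μ ^ 2) * X ^ 2 + C (10 * μ) * X ^ 3 := by
  have h := QQ_mul 2 μ
  simp only [map_add, map_mul, map_pow, map_ofNat, map_one, Nat.cast_ofNat] at h ⊢
  linear_combination h

theorem coeff_aux {F : ℂ⟦X⟧} {a b c d e g : ℂ} (h0 : coeff 0 F = 0)
    (h : F + C a * (F * X ^ 1) + C b * (F * X ^ 2) + C c * (F * X ^ 3) =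
      C d * X ^ 1 + C e * X ^ 2 + C g * X ^ 3) : coeff 1 F = d ∧ coeff 2 F + a * d = e := by
  have h1 := congrArg (coeff 1) h
  have h2 := congrArg (coeff 2) h
  simp only [map_add, coeff_C_mul, coeff_mul_X_pow'] at h1 h2
  norm_num at h1 h2 h0
  rw [h0] at h1 h2
  have h3 : coeff 1 F = d := by simpa using h1
  rw [h3] at h2
  exact ⟨h3, by simpa using h2⟩

theorem QQ_coeff (μ : ℂ) : coeff 1 (QQ 2 μ) = μ ∧ coeff 2 (QQ 2 μ) = 6 + μ ^ 2 := by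
  obtain ⟨h1, h2⟩ := coeff_aux (QQ_coeff_zero 2 μ) (QQ_mul_two μ)
  exact ⟨h1, by linear_combination h2⟩

variable (φ : A →ₐ[ℂ] B) {ξ x1 x2 e : A} {x w : B} {Gr : ℕ → Submodule ℂ A}

/-- **`μ² = 36`** from `c_7(T_J) = 0` (`k = 8`, `n = 16`) -/
theorem mu_sq_alg (hxe : x1 - x2 = ξ * e) (hφξ : φ ξ = 0) (hφ1 : φ x1 = x) (hφ2 : φ x2 = x)
    (hφe : φ e = w) (h1 : (1 : A) ∈ Gr 0)
    (hmul : ∀ i j : ℕ, ∀ a b : A, a ∈ Gr i → b ∈ Gr j → a * b ∈ Gr (i + j)) (hξ : ξ ∈ Gr 1)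
    (hx1 : x1 ∈ Gr 4) (hx2 : x2 ∈ Gr 4) (he : e ∈ Gr (4 - 1))
    (div : ∀ j < 8, ∀ b ∈ Gr j, b * ξ = 0 → b = 0) {t s v : ℕ → A} (ht : ∀ j, t j ∈ Gr j)
    (hs : ∀ j, s j = ∑ i ∈ range (j + 1), (j.choose i : A) * t i * ξ ^ (j - i)) (μ : ℂ)
    (hT : ∀ i, 1 ≤ i → 2 * i ≤ 8 → 2 * t (2 * i) =
      (if 4 ∣ 2 * i then (-((4 : ℕ) : ℂ) * coeff (2 * i / 4) (QQ 2 μ)) • x2 ^ (2 * i / 4) else 0) -
        v (2 * i))
    (hF : ∀ i, 1 ≤ i → 2 * i ≤ 8 → 2 * s (2 * i) =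
      (if 4 ∣ 2 * i then (-((4 : ℕ) : ℂ) * coeff (2 * i / 4) (QQ 2 μ)) • x1 ^ (2 * i / 4) else 0) -
        v (2 * i))
    (hv : ∀ i, 1 ≤ i → φ (v (2 * i)) =
      if 4 ∣ 2 * i then (((4 : ℕ) : ℂ) * (-(2 * μ)) ^ (2 * i / 4)) • x ^ (2 * i / 4) else 0)
    (hc : CW.el t 7 = 0) (hxw : x * w ≠ 0) : μ ^ 2 = 36 := by
  obtain ⟨q1, q2⟩ := QQ_coeff μ
  have hodd := GK.odd_sum φ (M := 8) (l := 4) (by norm_num) hxe hφξ hφ1 hφ2 hφe h1 hmul hξ hx1 hx2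
    he div ht hs (σ := fun i => -((4 : ℕ) : ℂ) * coeff i (QQ 2 μ)) (v := v) hT hF
  have o1 := hodd 1 (by norm_num) (by norm_num)
  have o3 := hodd 2 (by norm_num) (by norm_num)
  have o5 := hodd 3 (by norm_num) (by norm_num)
  have o7 := hodd 4 (by norm_num) (by norm_num)
  norm_num [q1, q2] at o1 o3 o5 o7
  have hev : ∀ i, 1 ≤ i → 2 * i ≤ 8 → 2 * φ (t (2 * i)) =
      (if 4 ∣ 2 * i then (-((4 : ℕ) : ℂ) * coeff (2 * i / 4) (QQ 2 μ)) • x ^ (2 * i / 4) else 0) -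
        if 4 ∣ 2 * i then (((4 : ℕ) : ℂ) * (-(2 * μ)) ^ (2 * i / 4)) • x ^ (2 * i / 4) else 0 := by
    intro i hi hi8
    have e1 := congrArg φ (hT i hi hi8)
    rw [map_mul, map_ofNat, map_sub, hv i hi] at e1
    rw [e1]
    congr 1
    split_ifs
    · rw [map_smul, map_pow, hφ2]
    · rw [map_zero]
  have hhalf : ∀ {b c : B}, 2 * b = c → b = (1 / 2 : ℂ) • c := by
    intro b c h
    rw [← h, show (2 : B) * b = (2 : ℂ) • b by rw [Algebra.smul_def, map_ofNat], smul_smul]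
    norm_num
  have e2 := hhalf (hev 1 (by norm_num) (by norm_num))
  have e4 := hhalf (hev 2 (by norm_num) (by norm_num))
  have e6 := hhalf (hev 3 (by norm_num) (by norm_num))
  norm_num [q1] at e2 e4 e6
  have hel : CW.el (fun j => φ (t j)) 7 = 0 := by
    have h2 : φ (CW.el t 7) = CW.el (fun j => φ (t j)) 7 := CW.el_map φ.toRingHom t 7
    rw [← h2, hc, map_zero]
  have key := el_seven (t := fun j => φ (t j)) o1 e2 o5 e6
  rw [hel, mul_zero] at key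
  simp only [o3, o7, e4] at key
  have e4' : -((1 / 2 : ℂ) • (4 * μ) • x) + (1 / 2 : ℂ) • (4 * (2 * μ)) • x = (2 * μ) • x := by
    module
  have h12 : ∀ (c : ℂ) (y : B), 12 * (c • y) = (12 * c) • y := fun c y => by
    rw [Algebra.smul_def, Algebra.smul_def, map_mul, map_ofNat, mul_assoc]
  have h7 : ∀ (c : ℂ) (y : B), 7 * (c • y) = (7 * c) • y := fun c y => by
    rw [Algebra.smul_def, Algebra.smul_def, map_mul, map_ofNat, mul_assoc]
  rw [e4', smul_mul_smul_comm, h12, h7, ← sub_smul, mul_comm w x] at key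
  have h3 := (smul_eq_zero.1 key.symm).resolve_right hxw
  linear_combination h3

end Crest.Agent.R208.GQ
end

-- ▼ part R208/GQ7b

/-! Row 208, block GQ (helper989), part GQ7b: `k = 8`, `n = 16`: `μ² = 36`. -/

set_option autoImplicit false
set_option linter.unusedSectionVars false
set_option linter.unusedVariables false

open MeasureTheory Set Filter Topology Module
open scoped ContDiff RealInnerProductSpace Matrix
open Crest.GeometryTopology.Submanifold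
open Crest.Agent.R241.DDefs
open Crest.Agent.R241.D2
open Crest.Agent.R208.F Crest.Agent.R208.FI Crest.Agent.R208.CW Crest.Agent.R208.T
open Crest.Agent.R208.L (US)

noncomputable section

namespace Crest.Agent.R208.GQ

variable {n N : ℕ} {κ : ℝ} {S : Set (Euc N)} {G : Geo n N κ S} {p : Euc N}
  {ι : Type} [Fintype ι] [DecidableEq ι] {W : Euc N × Euc N → (ι × Fin 2 → Fin N) → ℝ}
  {x : Euc N → Ext (Euc N)} {h : GT.Bla G 8} {dF : ℕ}

set_option maxHeartbeats 1600000 in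
/-- **`μ² = 36`** for `(k, n) = (8, 16)` -/
theorem mu_sq (M : T.XM h 2 W p x) (hF : Sub dF (GT.FF S)) (hx : EC S x) (μ : ℝ)
    (hμV : cs hF (GT.idf_mV (FV.vfield_PVB h)) = 1 +
        PowerSeries.C ((μ : ℂ) • (FG.xp (((VX.nE ι : ℝ) : ℂ)⁻¹ • rcl hx) +
          FG.xq (((VX.nE ι : ℝ) : ℂ)⁻¹ • rcl hx))) * PowerSeries.X ^ (8 / 2) +
        PowerSeries.C ((FG.xp (((VX.nE ι : ℝ) : ℂ)⁻¹ • rcl hx) -
          FG.xq (((VX.nE ι : ℝ) : ℂ)⁻¹ • rcl hx)) ^ 2) * PowerSeries.X ^ 8) : μ ^ 2 = 36 := by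
  classical
  have hn : n = 16 := by rw [M.hn]
  have hkn := M.hkn
  have hV := FV.vfield_PVB h
  have hS : Sub n S := (GP.clo_S h.bl).sub
  obtain ⟨oS, hoS, -, hdS⟩ := GP.exists_ori (G := G) h.bl h.ty M.hk
  obtain ⟨ν, -, -, hcsV, q, hq0, hq, hclosed⟩ :=
    FG.closed_XM M hS hF hx hoS hdS (M.J_ne hoS) M.hm_zero M.dim1
  rw [show (8 / 2 : ℕ) = 4 by norm_num] at hμV hcsV hq
  set c₀ : ℂ := (((VX.nE ι : ℝ) : ℂ))⁻¹ with hc₀
  have hc₀0 : c₀ ≠ 0 := inv_ne_zero (by exact_mod_cast (VX.nE_pos ι).ne')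
  set X₀ : CW.H S := c₀ • rcl hx with hX₀
  -- the quotient
  have hZ : Clo (36 + 1) (GT.ZZ S (FV.PVB h)) := FV.clo_ZZ h M.hk (by omega)
  have hcir := GT.cir_ZZ (S := S) (PV := FV.PVB h)
  obtain ⟨mm, g, hg⟩ := CM.exists_emb hcir hZ
  obtain ⟨z, TD, FD, LD, hD⟩ := GT.exists_dpk hV h hg hZ
  have hQ := (hg.clo_Quo hcir hZ).sub
  have hZc : IsPreconnected (GT.ZZ S (FV.PVB h)) := FV.preconn_ZZ h (by norm_num)
  have hQc := preconn_Quo hg hZc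
  -- the splitting
  have hcι : 2 ≤ Fintype.card ι := by have := M.hι; omega
  have hne : Nonempty ι := Fintype.card_pos_iff.1 (by omega)
  obtain ⟨i0⟩ := hne
  have : Nonempty {i : ι // i ≠ i0} := GO.nonempty_ne i0 hcι
  obtain ⟨P0, W0, hw0, c, hc, hGS, -, hφe⟩ := GS.exists_e' (GO.eq0 i0) M.hW hg hZ hD hQ
  set eq0 := GO.eq0 i0 with heq0
  have hcι' := two_card eq0 M
  set φ := H.map hg.smap_jj with hφ
  set ξ := CW.sc hQ hD.idf_L 1 with hξ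
  set x1 := H.map hD.smap (FG.xp X₀) with hx1
  set x2 := H.map hD.smap (FG.xq X₀) with hx2
  set e : CW.H (CM.Quo (GT.ZZ S (FV.PVB h)) g) := (c₀ * c) • ec hw0.of with he
  have hxe : x1 - x2 = ξ * e := by
    rw [hx1, hx2, ← map_sub, hX₀, FG.xp, FG.xq, map_smul, map_smul, ← smul_sub, map_smul]
    have h1 := xp_sub_xq M hx
    rw [FG.xp, FG.xq] at h1
    rw [h1, hGS, smul_smul, he, mul_smul_comm]
  have hφξ : φ ξ = 0 := by
    rw [hξ, hD.xi_eq hg hZ hQ, map_smul, hφ, map_ec_L hg hcir, smul_zero]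
  have hφ2 : φ x2 = φ x1 := by
    have h1 := congrArg φ hxe
    rw [map_sub, map_mul, hφξ, zero_mul, sub_eq_zero] at h1
    exact h1.symm
  have hφ1 : φ x1 = c₀ • H.map (smap_pz h) (rcl hx) := by
    rw [hφ, hx1, hD.map_z hg hZ.sub, hX₀, FG.xp, map_smul, map_smul, H.map_map]
    rfl
  -- nonvanishing on `Z`
  obtain ⟨hn1, hn2⟩ := xw_ne eq0 M hx (i := 1) (by norm_num) (by omega)
  rw [pow_one] at hn1 hn2
  have hw : φ e = (c₀ * c) • ec (GS.or_0Z eq0 M.hW).of := by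
    rw [he, map_smul, hφe]
  have hxz : φ x1 ≠ 0 := by
    intro h0
    rw [hφ1] at h0
    exact hn1 ((smul_eq_zero.1 h0).resolve_left hc₀0)
  have hxwz : φ x1 * φ e ≠ 0 := by
    intro h0
    rw [hφ1, hw, smul_mul_smul_comm] at h0
    exact hn2 ((smul_eq_zero.1 h0).resolve_left (mul_ne_zero hc₀0 (mul_ne_zero hc₀0 hc)))
  -- uniqueness of `μ`
  set f : CW.H (GT.FF S) →ₐ[ℂ] CW.H (GT.ZZ S (FV.PVB h)) := φ.comp (H.map hD.smap) with hf
  have hf1 : f (FG.xp X₀) = φ x1 := rfl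
  have hf2 : f (FG.xq X₀) = φ x1 := hφ2
  have hμν : μ = ν := by
    have h1 := congrArg (PowerSeries.coeff 4) (hμV.symm.trans hcsV)
    rw [map_add, map_add, map_add, map_add, PowerSeries.coeff_C_mul, PowerSeries.coeff_C_mul,
      PowerSeries.coeff_C_mul, PowerSeries.coeff_X_pow, PowerSeries.coeff_X_pow,
      if_pos rfl, if_neg (by norm_num), mul_zero, mul_one, mul_one, add_zero, add_zero,
      add_right_inj] at h1
    have h2 := congrArg f h1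
    rw [map_smul, map_smul, map_add, hf1, hf2, ← two_smul ℂ, smul_smul, smul_smul, ← sub_eq_zero,
      ← sub_smul] at h2
    have h3 := (smul_eq_zero.1 h2).resolve_right hxz
    have h4 : (μ : ℂ) = ν := by linear_combination h3 / 2
    exact_mod_cast h4
  subst hμν
  -- degrees
  have hX₀d : X₀ ∈ HD S (2 * 4) := (HD S (2 * 4)).smul_mem _ (rcl_mem_HD hx M.dx)
  have hmul : ∀ i j : ℕ, ∀ a b : CW.H (CM.Quo (GT.ZZ S (FV.PVB h)) g),
      a ∈ HD (CM.Quo (GT.ZZ S (FV.PVB h)) g) (2 * i) →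
      b ∈ HD (CM.Quo (GT.ZZ S (FV.PVB h)) g) (2 * j) →
      a * b ∈ HD (CM.Quo (GT.ZZ S (FV.PVB h)) g) (2 * (i + j)) := by
    intro i j a b ha hb
    rw [mul_add]; exact HD_mul ha hb
  have hed : e ∈ HD (CM.Quo (GT.ZZ S (FV.PVB h)) g) (2 * (4 - 1)) := by
    have h1 := ec_mem_HD hw0.of
    have h2 : Fintype.card {i : ι // i ≠ i0} = 4 - 1 := by omega
    rw [h2] at h1
    exact Submodule.smul_mem _ _ h1
  have hι' : 2 * Fintype.card (Fin 8) = n := by rw [Fintype.card_fin]; omega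
  obtain ⟨WS, hOS⟩ := GP.exists_OR_S (G := G) h.bl h.ty M.hk hι'
  have hdiv : ∀ j < 8, ∀ b ∈ HD (CM.Quo (GT.ZZ S (FV.PVB h)) g) (2 * j),
      b * ξ = 0 → b = 0 := by
    intro j hj b hb h0
    refine div_Quo hg hcir hZ hZc hb ?_ (QV.exactIn_ZZ' M hι' hOS (M.eS_ne hι' hOS)
      (even_two_mul _) (lh_XM eq0 M) ⟨j, rfl⟩ (by omega))
    rw [hD.ec_L hg hZ hQ, mul_smul_comm, ← hξ, h0, smul_zero]
  -- power sums
  have htm := tm_sums (l := 4) (m := 2) (by norm_num) (s := CW.sc hS (GT.idf_mM (G := G))) (x := X₀)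
    (p := q) (μ : ℂ) (fun j _ => by rw [← CW.cc_eq_el]; exact hq j) hclosed
  have h2e : ∀ (i : ℕ) (a : CW.H (CM.Quo (GT.ZZ S (FV.PVB h)) g)),
      (1 + (-1) ^ (2 * i)) * a = 2 * a := by
    intro i a
    rw [(even_two_mul i).neg_one_pow]; norm_num
  have hT : ∀ i, 1 ≤ i → 2 * i ≤ 8 → 2 * CW.sc hQ (hD.idf_T hV h) (2 * i) =
      (if 4 ∣ 2 * i then (-((4 : ℕ) : ℂ) * PowerSeries.coeff (2 * i / 4) (QQ 2 μ)) • x2 ^ (2 * i / 4)
        else 0) - H.map hD.smap (CW.sc hF (GT.idf_mV hV) (2 * i)) := by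
    intro i hi hir
    rw [← h2e i, rel_T hV h hkn hD.toDes hQ hS hF, htm i hi (by omega)]
    congr 1
    split_ifs with hd
    · rw [hx2, FG.xq, map_smul, map_smul, map_pow, map_pow]
      rfl
    · rw [FG.xq, map_zero, map_zero]
  have hFs : ∀ i, 1 ≤ i → 2 * i ≤ 8 → 2 * CW.sc hQ (hD.idf_F hV h) (2 * i) =
      (if 4 ∣ 2 * i then (-((4 : ℕ) : ℂ) * PowerSeries.coeff (2 * i / 4) (QQ 2 μ)) • x1 ^ (2 * i / 4)
        else 0) - H.map hD.smap (CW.sc hF (GT.idf_mV hV) (2 * i)) := by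
    intro i hi hir
    rw [← h2e i, rel_F hV h hkn hD.toDes hQ hS hF, htm i hi (by omega)]
    congr 1
    split_ifs with hd
    · rw [hx1, FG.xp, map_smul, map_smul, map_pow, map_pow]
      rfl
    · rw [FG.xp, map_zero, map_zero]
  -- the power sums of `V` on `Z`
  have hcser : cser (fun j => φ (H.map hD.smap (CW.sc hF (GT.idf_mV hV) j))) =
      1 + PowerSeries.C ((2 * (μ : ℂ)) • φ x1) * PowerSeries.X ^ 4 := by
    have h1 : cser (fun j => φ (H.map hD.smap (CW.sc hF (GT.idf_mV hV) j))) =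
        PowerSeries.map f.toRingHom (cs hF (GT.idf_mV hV)) := by
      rw [cs, cser_map]
      rfl
    rw [h1, hcsV, map_series]
    have h3 : f.toRingHom ((μ : ℂ) • (FG.xp X₀ + FG.xq X₀)) = (2 * (μ : ℂ)) • φ x1 := by
      change f ((μ : ℂ) • (FG.xp X₀ + FG.xq X₀)) = _
      rw [map_smul, map_add, hf1, hf2]
      module
    have h4 : f.toRingHom ((FG.xp X₀ - FG.xq X₀) ^ 2) = 0 := by
      change f ((FG.xp X₀ - FG.xq X₀) ^ 2) = _
      rw [map_pow, map_sub, hf1, hf2, sub_self, sq, mul_zero]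
    rw [h3, h4, map_zero, zero_mul, add_zero]
  have hv := v_sums (by norm_num : 1 ≤ 4) (μ : ℂ) hcser
  -- the rank
  obtain ⟨W₁, hW₁⟩ := XE.exists_OR_F1 (ι₁ := Fin 4) h M.hk M.hne M.hι
    (by rw [Fintype.card_fin]; omega) M.hW
  have hc7 : CW.el (fun j => CW.sc hQ (hD.idf_T hV h) j) 7 = 0 := by
    have h1 : cc hQ (hD.idf_T hV h) 7 = 0 := cc_eq_zero hQ _ fun y hy => by
      rw [rank_T hV h hD.toDes hW₁ hy, Fintype.card_fin]; norm_num
    rw [CW.cc_eq_el] at h1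
    exact h1
  have hres := mu_sq_alg φ (Gr := fun j => HD (CM.Quo (GT.ZZ S (FV.PVB h)) g) (2 * j))
    hxe hφξ rfl hφ2 rfl one_mem_HD hmul (sc_mem_HD hQ hD.idf_L 1)
    (HD_map hD.smap (HD_map FG.smap_fst hX₀d)) (HD_map hD.smap (HD_map FG.smap_snd hX₀d)) hed hdiv
    (t := fun j => CW.sc hQ (hD.idf_T hV h) j) (s := fun j => CW.sc hQ (hD.idf_F hV h) j)
    (v := fun j => H.map hD.smap (CW.sc hF (GT.idf_mV hV) j))
    (fun j => sc_mem_HD hQ _ j) (fun j => by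
      rw [hD.sc_F hV h hQ j]
      exact Finset.sum_congr rfl fun i _ => by rw [hD.sc_L hQ (j - i)]) μ hT hFs
    (fun i hi => hv i hi) hc7 hxwz
  exact_mod_cast hres

end Crest.Agent.R208.GQ
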