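import Crest.Agent.R208.I6
import Crest.Agent.R208.I7
import Crest.Agent.R208.GH1c
import Mathlib

-- ▼ part R208/GZ1
section

/-!
R208, block GZ (helper595), part 1: the number identities of the endgame of the join trick.

* `cst (n + 1) = cst n * IM (n - 1) 0` (type `k = n`);
* `cst (n + 1) * 2 ^ (n - 1) = cst n * IM 0 (n - 1)` (type `k = 1`);
* `(n + 1) * volume (ball 0 1) = cst (n + 1)`.
-/

set_option autoImplicit false

open MeasureTheory Measure Set Filter Topology Module Metric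
open scoped RealInnerProductSpace ENNReal
open Crest.Agent.R208.L (cst)
open Crest.GeometryTopology.Submanifold
open Crest.Agent.R241.DDefs

noncomputable section

namespace Crest.Agent.R208.GZ

open Crest.Agent.R208.I (IM)

/-- the area of the unit sphere is `n` times the volume of the unit ball -/
theorem cst_eq_ball (n : ℕ) : cst n = (n : ℝ≥0∞) * volume (ball (0 : EuclideanSpace ℝ (Fin n)) 1) := by
  unfold cst
  rw [Measure.toSphere_apply_univ]
  congr 1
  rw [finrank_euclideanSpace, Fintype.card_fin]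

theorem cst_eq_gamma (n : ℕ) (hn : 1 ≤ n) :
    cst n = ENNReal.ofReal (2 * Real.pi ^ ((n : ℝ) / 2) / Real.Gamma ((n : ℝ) / 2)) := by
  have hne : Nonempty (Fin n) := ⟨⟨0, hn⟩⟩
  rw [cst_eq_ball, EuclideanSpace.volume_ball, Fintype.card_fin]
  have hn' : (0 : ℝ) < n := by exact_mod_cast hn
  have h1 : Real.Gamma ((n : ℝ) / 2 + 1) = (n : ℝ) / 2 * Real.Gamma ((n : ℝ) / 2) :=
    Real.Gamma_add_one (by positivity)
  have h2 : 0 < Real.Gamma ((n : ℝ) / 2) := Real.Gamma_pos_of_pos (by positivity)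
  have h3 : Real.sqrt Real.pi ^ n = Real.pi ^ ((n : ℝ) / 2) := by
    rw [Real.sqrt_eq_rpow, ← Real.rpow_natCast, ← Real.rpow_mul Real.pi_pos.le]
    congr 1
    ring
  rw [ENNReal.ofReal_one, one_pow, one_mul, ← ENNReal.ofReal_natCast, ← ENNReal.ofReal_mul hn'.le,
    h1, h3]
  congr 1
  field_simp

/-- the integral of the powers of the sine, as a real number -/
def J (m : ℕ) : ℝ := ∫ x in (0 : ℝ)..Real.pi, Real.sin x ^ m

lemma J_step (m : ℕ) : J (m + 2) = ((m : ℝ) + 1) / (m + 2) * J m := by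
  unfold J
  rw [integral_sin_pow]
  simp

/-- the beta integral `∫_0^π sin^(n-1) = √π Γ(n/2) / Γ((n+1)/2)`, in the product form -/
lemma J_gamma (m : ℕ) : J m * Real.Gamma ((m : ℝ) / 2 + 1) =
    Real.sqrt Real.pi * Real.Gamma (((m : ℝ) + 1) / 2) := by
  induction m using Nat.twoStepInduction with
  | zero =>
    have h0 : J 0 = Real.pi := by unfold J; simp
    rw [h0, Nat.cast_zero, zero_div, zero_add, Real.Gamma_one, Real.Gamma_one_half_eq,
      mul_one, Real.mul_self_sqrt Real.pi_pos.le]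
  | one =>
    have h0 : J 1 = 2 := by unfold J; simp; norm_num
    have h1 : ((1 : ℕ) : ℝ) / 2 + 1 = 1 / 2 + 1 := by norm_num
    have h2 : (((1 : ℕ) : ℝ) + 1) / 2 = 1 := by norm_num
    rw [h0, h1, h2, Real.Gamma_add_one (by norm_num), Real.Gamma_one, Real.Gamma_one_half_eq]
    ring
  | more m ih _ =>
    rw [J_step]
    have h1 : ((m + 2 : ℕ) : ℝ) / 2 + 1 = ((m : ℝ) / 2 + 1) + 1 := by push_cast; ring
    have h2 : (((m + 2 : ℕ) : ℝ) + 1) / 2 = ((m : ℝ) + 1) / 2 + 1 := by push_cast; ring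
    have hm : (0 : ℝ) ≤ m := Nat.cast_nonneg m
    have h5 : (m : ℝ) / 2 + 1 ≠ 0 := by positivity
    have h6 : ((m : ℝ) + 1) / 2 ≠ 0 := by positivity
    rw [h1, h2, Real.Gamma_add_one h5, Real.Gamma_add_one h6]
    have h3 : (m : ℝ) + 2 ≠ 0 := by positivity
    have h4 : ((m : ℝ) + 1) / (m + 2) * J m * (((m : ℝ) / 2 + 1) * Real.Gamma ((m : ℝ) / 2 + 1)) =
        ((m : ℝ) + 1) / 2 * (J m * Real.Gamma ((m : ℝ) / 2 + 1)) := by
      field_simp
    rw [h4, ih]
    ring


/-- the model integral of the sphere, as a real number -/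
theorem IM_zero_right (m : ℕ) : IM m 0 = ENNReal.ofReal (J m) := by
  unfold IM J
  rw [intervalIntegral.integral_of_le Real.pi_pos.le, ← integral_Ioc_eq_integral_Ioo.symm,
    ofReal_integral_eq_lintegral_ofReal]
  · simp
  · exact ((Continuous.integrableOn_Icc (by fun_prop)).mono_set Ioo_subset_Icc_self)
  · rw [EventuallyLE, ae_restrict_iff' measurableSet_Ioo]
    refine Eventually.of_forall fun x hx => ?_
    exact pow_nonneg (Real.sin_pos_of_pos_of_lt_pi hx.1 hx.2).le _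

lemma J_half (m : ℕ) : J m = 2 * ∫ x in (0 : ℝ)..(Real.pi / 2), Real.sin x ^ m := by
  have hi : ∀ a b : ℝ, IntervalIntegrable (fun x => Real.sin x ^ m) volume a b := fun a b =>
    Continuous.intervalIntegrable (by fun_prop) _ _
  unfold J
  rw [← intervalIntegral.integral_add_adjacent_intervals (hi 0 (Real.pi / 2))
    (hi (Real.pi / 2) Real.pi), two_mul]
  congr 1
  have h1 := intervalIntegral.integral_comp_sub_left (a := 0) (b := Real.pi / 2)
    (fun x => Real.sin x ^ m) Real.pi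
  simp only [Real.sin_pi_sub, sub_zero] at h1
  rw [h1]
  congr 1
  ring

/-- the model integral of the projective space, as a real number -/
theorem IM_zero_left (m : ℕ) : IM 0 m = ENNReal.ofReal (2 ^ m * J m) := by
  have h0 : 2 ^ m * J m = ∫ x in (0 : ℝ)..Real.pi, (2 * Real.sin (x / 2)) ^ m := by
    have h1 := intervalIntegral.integral_comp_div (a := 0) (b := Real.pi)
      (fun x => (2 * Real.sin x) ^ m) (two_ne_zero' ℝ)
    rw [h1, zero_div, J_half]
    simp only [mul_pow, intervalIntegral.integral_const_mul, smul_eq_mul]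
    ring
  rw [h0]
  unfold IM
  rw [intervalIntegral.integral_of_le Real.pi_pos.le, integral_Ioc_eq_integral_Ioo,
    ofReal_integral_eq_lintegral_ofReal]
  · simp
  · exact ((Continuous.integrableOn_Icc (by fun_prop)).mono_set Ioo_subset_Icc_self)
  · rw [EventuallyLE, ae_restrict_iff' measurableSet_Ioo]
    refine Eventually.of_forall fun x hx => ?_
    have := Real.sin_pos_of_pos_of_lt_pi (x := x / 2) (by linarith [hx.1])
      (by linarith [hx.1, hx.2])
    simp only [Pi.zero_apply]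
    positivity

/-- `cst (n + 1) = cst n * J (n - 1)` -/
theorem cst_succ_J {n : ℕ} (hn : 1 ≤ n) : cst (n + 1) = cst n * ENNReal.ofReal (J (n - 1)) := by
  have hn' : (1 : ℝ) ≤ n := by exact_mod_cast hn
  rw [cst_eq_gamma (n + 1) (by omega), cst_eq_gamma n hn, ← ENNReal.ofReal_mul (by positivity)]
  congr 1
  have h1 := J_gamma (n - 1)
  have h2 : ((n - 1 : ℕ) : ℝ) = n - 1 := by
    rw [Nat.cast_sub hn, Nat.cast_one]
  rw [h2] at h1
  have h3 : ((n : ℝ) - 1) / 2 + 1 = ((n + 1 : ℕ) : ℝ) / 2 := by push_cast; ring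
  have h4 : ((n : ℝ) - 1 + 1) / 2 = (n : ℝ) / 2 := by ring
  rw [h3, h4] at h1
  have h5 : 0 < Real.Gamma ((n : ℝ) / 2) := Real.Gamma_pos_of_pos (by positivity)
  have h6 : 0 < Real.Gamma (((n + 1 : ℕ) : ℝ) / 2) := Real.Gamma_pos_of_pos (by positivity)
  have h7 : Real.pi ^ (((n + 1 : ℕ) : ℝ) / 2) = Real.pi ^ ((n : ℝ) / 2) * Real.sqrt Real.pi := by
    rw [Real.sqrt_eq_rpow, ← Real.rpow_add Real.pi_pos]
    congr 1
    push_cast; ring
  rw [h7, div_mul_eq_mul_div, div_eq_div_iff h6.ne' h5.ne']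
  calc 2 * (Real.pi ^ ((n : ℝ) / 2) * Real.sqrt Real.pi) * Real.Gamma ((n : ℝ) / 2)
      = 2 * Real.pi ^ ((n : ℝ) / 2) * (Real.sqrt Real.pi * Real.Gamma ((n : ℝ) / 2)) := by ring
    _ = _ := by rw [← h1]; ring

/-- **number identity, type `k = n`** -/
theorem cst_succ_sphere {n : ℕ} (hn : 1 ≤ n) : cst (n + 1) = cst n * IM (n - 1) 0 := by
  rw [IM_zero_right, cst_succ_J hn]

/-- **number identity, type `k = 1`** -/
theorem cst_succ_rp {n : ℕ} (hn : 1 ≤ n) :
    cst (n + 1) * 2 ^ (n - 1) = cst n * IM 0 (n - 1) := by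
  rw [IM_zero_left, cst_succ_J hn, ENNReal.ofReal_mul (by positivity),
    ENNReal.ofReal_pow (by norm_num)]
  norm_num
  ring

/-- the volume of the unit ball of `ℝ^(n+1)` -/
theorem cst_ball (n : ℕ) : cst (n + 1) = ((n : ℝ≥0∞) + 1) *
    volume (ball (0 : EuclideanSpace ℝ (Fin (n + 1))) 1) := by
  rw [cst_eq_ball]
  push_cast
  rfl

end Crest.Agent.R208.GZ
end
end

-- ▼ part R208/GZ2
section

/-!
R208, block GZ (helper595), part 2: the volume of a closed curve (`n = 1`).
-/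

set_option autoImplicit false

open MeasureTheory Measure Set Filter Topology Module Metric
open scoped RealInnerProductSpace ENNReal
open Crest.GeometryTopology.Submanifold
open Crest.Agent.R241.DDefs
open Crest.Agent.R241.D2
open Crest.Agent.R208.L (cst nu)

noncomputable section

namespace Crest.Agent.R208.GZ

open Crest.Agent.R208.I (IM)

/-- in dimension `1` the density is `1` -/
lemma Dn_one {N : ℕ} {κ : ℝ} {S : Set (Euc N)} {G : Geo 1 N κ S} {q : Euc N × Euc N}
    (hq : q ∈ TS G) (h1 : ‖q.2‖ = 1) (s t : ℝ) : J.Dn G q s t = 1 := by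
  obtain ⟨b⟩ := J.exists_basis (m := 0) rfl hq h1
  rw [J.Dn_eq hq h1 b, Matrix.det_isEmpty, abs_one]

/-- the volume in dimension `1` -/
theorem vol_one {N : ℕ} {κ : ℝ} {S : Set (Euc N)} {G : Geo 1 N κ S}
    (hB : Bl 1 N κ S G Real.pi) : μHE[1] S = cst 1 * ENNReal.ofReal Real.pi := by
  have h1 := I.vol_sq' hB
  have h2 : ∀ t : ℝ, ∫⁻ q, ENNReal.ofReal (J.Dn G q 0 t) ∂(nu G) = cst 1 * μHE[1] S := by
    intro t
    have h3 : ∫⁻ q, ENNReal.ofReal (J.Dn G q 0 t) ∂(nu G) = ∫⁻ _, 1 ∂(nu G) := by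
      refine lintegral_congr_ae ?_
      filter_upwards [L.ae_nu G hB.hn] with q hq
      rw [Dn_one hq.1 hq.2, ENNReal.ofReal_one]
    rw [h3, lintegral_const, one_mul, L.nu_univ]
  simp only [h2] at h1
  rw [setLIntegral_const, Real.volume_Ioo, sub_zero] at h1
  have h3 := I.muHE_ne_zero hB
  have h4 := (L.muHE_lt_top hB.sub hB.cpt).ne
  have h5 : μHE[1] S * μHE[1] S = μHE[1] S * (cst 1 * ENNReal.ofReal Real.pi) := by
    rw [h1]; ring
  exact (ENNReal.mul_right_inj h3 h4).1 h5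

/-- **`VolLe` in dimension `1`** -/
theorem volLe_one {N : ℕ} {κ : ℝ} {S : Set (Euc N)} {G : Geo 1 N κ S}
    (hB : Bl 1 N κ S G Real.pi) : μHE[1] S ≤ cst 1 * IM 0 0 := by
  rw [vol_one hB, IM_zero_right]
  have : J 0 = Real.pi := by unfold J; simp
  rw [this]

end Crest.Agent.R208.GZ
end
end

-- ▼ part R208/GZ3
section

/-!
R208, block GZ (helper595), part 3: the volume of `S` as an integral of the Jacobian of the
exponential map over the balls of radius `π` and `2π` of the tangent space.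
-/

set_option autoImplicit false

open MeasureTheory Measure Set Filter Topology Module Metric
open scoped ContDiff RealInnerProductSpace ENNReal
open Crest.GeometryTopology.Submanifold
open Crest.Agent.R241.DDefs
open Crest.Agent.R241.D2
open Crest.Agent.R241.D3c
open Crest.Agent.R241
open Crest.Agent.R241.AF (jac jac_nonneg jac_sq_gram finrank_Euc)
open Crest.Agent.R208.L (cst nu)

noncomputable section

namespace Crest.Agent.R208.GZ

variable {n N : ℕ} {κ : ℝ} {S : Set (Euc N)} {G : Geo n N κ S}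

section frame

variable {p : Euc N} {A : Euc n →L[ℝ] Euc N}

lemma norm_frame (hA : ∀ v w, ⟪A v, A w⟫ = ⟪v, w⟫) (y : Euc n) : ‖A y‖ = ‖y‖ := by
  have h3 : ‖A y‖ ^ 2 = ‖y‖ ^ 2 := by
    rw [← real_inner_self_eq_norm_sq, ← real_inner_self_eq_norm_sq, hA]
  exact (sq_eq_sq₀ (norm_nonneg _) (norm_nonneg _)).1 h3

lemma frame_inj (hA : ∀ v w, ⟪A v, A w⟫ = ⟪v, w⟫) {v w : Euc n} (h : A v = A w) : v = w := by
  have h1 : ‖A (v - w)‖ = 0 := by rw [map_sub, h, sub_self, norm_zero]
  rw [norm_frame hA, norm_eq_zero, sub_eq_zero] at h1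
  exact h1

lemma frame_mem' (hAT : range A = (G.T p : Set (Euc N))) (v : Euc n) : A v ∈ G.T p := by
  have : A v ∈ (G.T p : Set (Euc N)) := by rw [← hAT]; exact ⟨v, rfl⟩
  exact this

lemma hasFDerivAt_expA (hp : p ∈ S) (hAT : range A = (G.T p : Set (Euc N))) (y : Euc n) :
    HasFDerivAt (fun y => Exp G p (A y)) ((fderiv ℝ (Exp G p) (A y)).comp A) y := by
  have h1 : ContDiffAt ℝ ∞ (Exp G p) (A y) := by
    have h2 : ContDiffAt ℝ ∞ (fun u : Euc N => (p, u)) (A y) := by fun_prop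
    exact ContDiffAt.comp (g := fun q : Euc N × Euc N => Exp G q.1 q.2) (A y)
      (contDiffAt_Exp G hp (frame_mem' hAT y)) h2
  exact (h1.differentiableAt (by simp)).hasFDerivAt.comp y A.hasFDerivAt

/-- a set of full measure -/
lemma muHE_exp_ball (hB : Bl n N κ S G Real.pi) (hp : p ∈ S) (hA : ∀ v w, ⟪A v, A w⟫ = ⟪v, w⟫)
    (hAT : range A = (G.T p : Set (Euc N))) :
    μHE[n] ((fun y => Exp G p (A y)) '' (ball 0 Real.pi \ {0})) = μHE[n] S := by
  have hV := L.nontrivial_Euc hB.hn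
  set Φ : Euc n → Euc N := fun y => Exp G p (A y) with hΦ
  have hd := hasFDerivAt_expA (G := G) hp hAT
  have h1 : S ⊆ Φ '' (ball 0 Real.pi \ {0}) ∪ (Φ '' {0} ∪ Φ '' sphere 0 Real.pi) := by
    intro q hq
    obtain ⟨v, hv, hvn, he⟩ := hB.exists_Exp hp hq
    have hvD : ‖v‖ ≤ Real.pi := by rw [hvn]; exact hB.dist_le p hp q hq
    have hv' : v ∈ (G.T p : Set (Euc N)) := hv
    rw [← hAT] at hv'
    obtain ⟨y, rfl⟩ := hv'
    rw [norm_frame hA] at hvD
    by_cases h0 : y = 0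
    · exact Or.inr (Or.inl ⟨y, h0, he⟩)
    rcases lt_or_eq_of_le hvD with h | h
    · exact Or.inl ⟨y, ⟨mem_ball_zero_iff.2 h, h0⟩, he⟩
    · exact Or.inr (Or.inr ⟨y, mem_sphere_zero_iff_norm.2 h, he⟩)
  have h2 : μHE[n] (Φ '' sphere 0 Real.pi) = 0 := by
    have h3 := AF.muHE_image_null (f := Φ) (s := sphere (0 : Euc n) Real.pi)
      (fun y _ => (hd y).differentiableAt.differentiableWithinAt) (addHaar_sphere _ _ _)
    rwa [finrank_Euc] at h3
  have h2' : μHE[n] (Φ '' {0}) = 0 := by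
    have h3 := AF.muHE_image_null (f := Φ) (s := {(0 : Euc n)})
      (fun y _ => (hd y).differentiableAt.differentiableWithinAt) (measure_singleton _)
    rwa [finrank_Euc] at h3
  apply le_antisymm
  · refine measure_mono ?_
    rintro _ ⟨y, -, rfl⟩
    exact Exp_mem G hp (frame_mem' hAT y)
  · refine (measure_mono h1).trans ((measure_union_le _ _).trans ?_)
    refine (add_le_add le_rfl (measure_union_le _ _)).trans ?_
    rw [h2, h2', add_zero, add_zero]

lemma injOn_exp (hB : Bl n N κ S G Real.pi) (hp : p ∈ S) (hA : ∀ v w, ⟪A v, A w⟫ = ⟪v, w⟫)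
    (hAT : range A = (G.T p : Set (Euc N))) :
    InjOn (fun y => Exp G p (A y)) (ball 0 Real.pi) := by
  intro y hy y' hy' h
  refine frame_inj hA ?_
  refine hB.Exp_inj hp (frame_mem' hAT y) (frame_mem' hAT y') ?_ ?_ h
  · rw [norm_frame hA]; exact mem_ball_zero_iff.1 hy
  · rw [norm_frame hA]; exact (mem_ball_zero_iff.1 hy').le

lemma jac_expA (hp : p ∈ S) (hA : ∀ v w, ⟪A v, A w⟫ = ⟪v, w⟫)
    (hAT : range A = (G.T p : Set (Euc N))) (y : Euc n) :
    jac ((fderiv ℝ (Exp G p) (A y)).comp A) = L.jE G (p, A y) :=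
  (L.jE_eq G (q := (p, A y)) ⟨hp, frame_mem' hAT y⟩ A hA hAT).symm

/-- the integral of the Jacobian over a set where `Exp` is injective -/
lemma lintegral_jE (hp : p ∈ S) (hA : ∀ v w, ⟪A v, A w⟫ = ⟪v, w⟫)
    (hAT : range A = (G.T p : Set (Euc N))) {R : Set (Euc n)} (hR : MeasurableSet R)
    (hinj : InjOn (fun y => Exp G p (A y)) R) :
    ∫⁻ y in R, ENNReal.ofReal (L.jE G (p, A y)) = μHE[n] ((fun y => Exp G p (A y)) '' R) := by
  have h4 := AF.lintegral_jac_eq_muHE_image (f := fun y => Exp G p (A y)) hR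
    (fun y _ => (hasFDerivAt_expA hp hAT y).hasFDerivWithinAt) hinj
  rw [finrank_Euc] at h4
  rw [← h4]
  simp only [jac_expA hp hA hAT]

/-- **the ball of radius `π`** -/
theorem lintegral_ball_one (hB : Bl n N κ S G Real.pi) (hp : p ∈ S)
    (hA : ∀ v w, ⟪A v, A w⟫ = ⟪v, w⟫) (hAT : range A = (G.T p : Set (Euc N))) :
    ∫⁻ y in ball 0 Real.pi, ENNReal.ofReal (L.jE G (p, A y)) = μHE[n] S := by
  have h1 := lintegral_jE (G := G) hp hA hAT measurableSet_ball (injOn_exp hB hp hA hAT)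
  rw [h1]
  apply le_antisymm
  · refine measure_mono ?_
    rintro _ ⟨y, -, rfl⟩
    exact Exp_mem G hp (frame_mem' hAT y)
  · rw [← muHE_exp_ball hB hp hA hAT]
    exact measure_mono (image_mono sdiff_subset)

/-- the reflection of the shell `π < |y| < 2π` onto the punctured ball -/
def Tf (y : Euc n) : Euc n := (1 - 2 * Real.pi * ‖y‖⁻¹) • y

lemma norm_Tf {y : Euc n} (h0 : 0 < ‖y‖) (h1 : ‖y‖ < 2 * Real.pi) :
    ‖Tf y‖ = 2 * Real.pi - ‖y‖ := by
  unfold Tf
  rw [norm_smul, Real.norm_eq_abs]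
  have h2 : 1 - 2 * Real.pi * ‖y‖⁻¹ = -((2 * Real.pi - ‖y‖) * ‖y‖⁻¹) := by
    field_simp
    ring
  rw [h2, abs_neg, abs_of_pos (mul_pos (by linarith) (inv_pos.2 h0)), mul_assoc,
    inv_mul_cancel₀ h0.ne', mul_one]

lemma Tf_Tf {y : Euc n} (h0 : 0 < ‖y‖) (h1 : ‖y‖ < 2 * Real.pi) : Tf (Tf y) = y := by
  have h2 := norm_Tf h0 h1
  have h3 : 2 * Real.pi - ‖y‖ ≠ 0 := by linarith
  rw [Tf, h2]
  unfold Tf
  rw [smul_smul]
  have h4 : (1 - 2 * Real.pi * (2 * Real.pi - ‖y‖)⁻¹) * (1 - 2 * Real.pi * ‖y‖⁻¹) = 1 := by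
    field_simp
    ring
  rw [h4, one_smul]

lemma Exp_Tf (hper : HS.Per G) (hp : p ∈ S) (hA : ∀ v w, ⟪A v, A w⟫ = ⟪v, w⟫)
    (hAT : range A = (G.T p : Set (Euc N))) {y : Euc n} (h0 : 0 < ‖y‖) :
    Exp G p (A (Tf y)) = Exp G p (A y) := by
  have h1 : ‖‖y‖⁻¹ • A y‖ = 1 := by
    rw [norm_smul, norm_inv, norm_norm, norm_frame hA, inv_mul_cancel₀ h0.ne']
  have h2 := GH.Exp_per hper hp ((G.T p).smul_mem ‖y‖⁻¹ (frame_mem' hAT y)) h1
    (‖y‖ - 2 * Real.pi)
  rw [add_sub_cancel, smul_smul, mul_inv_cancel₀ h0.ne', one_smul, smul_smul] at h2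
  rw [h2]
  unfold Tf
  rw [map_smul]
  congr 2
  field_simp

/-- **the ball of radius `2π`** -/
theorem lintegral_ball_two (hB : Bl n N κ S G Real.pi) (hper : HS.Per G) (hp : p ∈ S)
    (hA : ∀ v w, ⟪A v, A w⟫ = ⟪v, w⟫) (hAT : range A = (G.T p : Set (Euc N))) :
    ∫⁻ y in ball 0 (2 * Real.pi), ENNReal.ofReal (L.jE G (p, A y)) = 2 * μHE[n] S := by
  have hπ := Real.pi_pos
  have hV := L.nontrivial_Euc hB.hn
  set R : Set (Euc n) := ball 0 (2 * Real.pi) \ closedBall 0 Real.pi with hR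
  have hRm : MeasurableSet R := measurableSet_ball.diff measurableSet_closedBall
  have hR1 : ∀ y ∈ R, Real.pi < ‖y‖ ∧ ‖y‖ < 2 * Real.pi := by
    rintro y ⟨h1, h2⟩
    rw [mem_ball_zero_iff] at h1
    rw [mem_closedBall_zero_iff, not_le] at h2
    exact ⟨h2, h1⟩
  -- image
  have himg : (fun y => Exp G p (A y)) '' R =
      (fun y => Exp G p (A y)) '' (ball 0 Real.pi \ {0}) := by
    apply Subset.antisymm
    · rintro _ ⟨y, hy, rfl⟩
      obtain ⟨h1, h2⟩ := hR1 y hy
      have h3 := norm_Tf (hπ.trans h1) h2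
      refine ⟨Tf y, ⟨?_, ?_⟩, Exp_Tf hper hp hA hAT (hπ.trans h1)⟩
      · rw [mem_ball_zero_iff, h3]; linarith
      · intro h4
        rw [mem_singleton_iff] at h4
        rw [h4, norm_zero] at h3
        linarith
    · rintro _ ⟨y, ⟨hy1, hy2⟩, rfl⟩
      rw [mem_ball_zero_iff] at hy1
      have hy0 : 0 < ‖y‖ := norm_pos_iff.2 hy2
      have h3 := norm_Tf hy0 (by linarith)
      refine ⟨Tf y, ⟨?_, ?_⟩, Exp_Tf hper hp hA hAT hy0⟩
      · rw [mem_ball_zero_iff, h3]; linarith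
      · rw [mem_closedBall_zero_iff, h3, not_le]; linarith
  have hinj : InjOn (fun y => Exp G p (A y)) R := by
    intro y hy y' hy' h
    obtain ⟨h1, h2⟩ := hR1 y hy
    obtain ⟨h1', h2'⟩ := hR1 y' hy'
    have h3 := norm_Tf (hπ.trans h1) h2
    have h3' := norm_Tf (hπ.trans h1') h2'
    have h4 : Tf y = Tf y' := by
      refine injOn_exp hB hp hA hAT ?_ ?_ ?_
      · rw [mem_ball_zero_iff, h3]; linarith
      · rw [mem_ball_zero_iff, h3']; linarith
      · change Exp G p (A (Tf y)) = Exp G p (A (Tf y'))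
        rw [Exp_Tf hper hp hA hAT (hπ.trans h1), Exp_Tf hper hp hA hAT (hπ.trans h1')]
        exact h
    rw [← Tf_Tf (hπ.trans h1) h2, h4, Tf_Tf (hπ.trans h1') h2']
  have h1 := lintegral_jE (G := G) hp hA hAT hRm hinj
  rw [himg, muHE_exp_ball hB hp hA hAT] at h1
  have h2 := lintegral_ball_one hB hp hA hAT
  have h3 : ball (0 : Euc n) (2 * Real.pi) = closedBall 0 Real.pi ∪ R := by
    rw [hR, union_sdiff_cancel]
    exact closedBall_subset_ball (by linarith)
  rw [h3, lintegral_union hRm disjoint_sdiff_right, h1]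
  have h4 : ∫⁻ y in closedBall 0 Real.pi, ENNReal.ofReal (L.jE G (p, A y)) =
      ∫⁻ y in ball 0 Real.pi, ENNReal.ofReal (L.jE G (p, A y)) := by
    refine setLIntegral_congr ?_
    rw [← ball_union_sphere]
    exact union_ae_eq_left_of_ae_eq_empty (ae_eq_empty.2 (addHaar_sphere _ _ _))
  rw [h4, h2, two_mul]

lemma lintegral_ball_smul {h : Euc n → ℝ≥0∞} (hh : Measurable h) {c : ℝ} (hc : 0 < c) (r : ℝ) :
    ∫⁻ y in ball (0 : Euc n) r, h (c • y) =
      ENNReal.ofReal (c ^ n)⁻¹ * ∫⁻ y in ball (0 : Euc n) (c * r), h y := by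
  have h1 : Measure.map (fun y : Euc n => c • y) volume = ENNReal.ofReal (c ^ n)⁻¹ • volume := by
    have h2 := map_addHaar_smul (volume : Measure (Euc n)) hc.ne'
    rw [finrank_Euc, abs_of_pos (by positivity)] at h2
    exact h2
  have hm : Measurable ((ball (0 : Euc n) (c * r)).indicator h) := hh.indicator measurableSet_ball
  rw [← lintegral_indicator measurableSet_ball, ← lintegral_indicator measurableSet_ball]
  have h3 : ∀ y : Euc n, (ball (0 : Euc n) r).indicator (fun y => h (c • y)) y =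
      (ball (0 : Euc n) (c * r)).indicator h (c • y) := by
    intro y
    have h4 : c • y ∈ ball (0 : Euc n) (c * r) ↔ y ∈ ball (0 : Euc n) r := by
      rw [mem_ball_zero_iff, mem_ball_zero_iff, norm_smul, Real.norm_of_nonneg hc.le,
        mul_lt_mul_iff_right₀ hc]
    by_cases h5 : y ∈ ball (0 : Euc n) r
    · rw [indicator_of_mem h5, indicator_of_mem (h4.2 h5)]
    · rw [indicator_of_notMem h5, indicator_of_notMem (fun h6 => h5 (h4.1 h6))]
  rw [lintegral_congr h3, ← lintegral_map hm (measurable_const_smul c), h1,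
    lintegral_smul_measure, smul_eq_mul]

/-- **the integral of the Jacobian in the scaled ball** -/
theorem lintegral_scaled {c : ℝ} (hf : GH.Hf G c) (hp : p ∈ S)
    (hA : ∀ v w, ⟪A v, A w⟫ = ⟪v, w⟫) (hAT : range A = (G.T p : Set (Euc N))) :
    ∫⁻ y in ball 0 Real.pi, ENNReal.ofReal (L.jE G (p, c • A y)) =
      ENNReal.ofReal (c * (c ^ n)⁻¹) * μHE[n] S := by
  have hm : Measurable fun y : Euc n => ENNReal.ofReal (L.jE G (p, A y)) :=
    ENNReal.measurable_ofReal.comp ((L.measurable_jE G).comp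
      (measurable_const.prodMk A.continuous.measurable))
  have hc : 0 < c := by
    rcases hf.cases with h | h
    · rw [h]; exact one_pos
    · rw [h.1]; exact two_pos
  have h1 := lintegral_ball_smul hm hc Real.pi
  simp only [map_smul] at h1
  rw [h1, mul_comm c (c ^ n)⁻¹, ENNReal.ofReal_mul (by positivity), mul_assoc]
  congr 1
  rcases hf.cases with h | h
  · rw [h, one_mul, ENNReal.ofReal_one, one_mul]
    exact lintegral_ball_one hf.bl hp hA hAT
  · rw [h.1, lintegral_ball_two hf.bl hf.per hp hA hAT, ENNReal.ofReal_ofNat]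

end frame

end Crest.Agent.R208.GZ
end
end

-- ▼ part R208/GZ4
section

/-!
R208, block GZ (helper595), part 4: determinants of forms.
-/

set_option autoImplicit false

open Module
open scoped RealInnerProductSpace

noncomputable section

namespace Crest.Agent.R208.GZ

variable {m : ℕ}

/-- determinant of the form `g` on the vectors `b` -/
def dv (g : EuclideanSpace ℝ (Fin m) → EuclideanSpace ℝ (Fin m) → ℝ)
    (b : Fin m → EuclideanSpace ℝ (Fin m)) : ℝ :=
  (Matrix.of fun i j : Fin m => g (b i) (b j)).det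

/-- change of variables in the determinant of a form -/
theorem dv_comp (g : EuclideanSpace ℝ (Fin m) →L[ℝ] EuclideanSpace ℝ (Fin m) →L[ℝ] ℝ)
    (D : EuclideanSpace ℝ (Fin m) →ₗ[ℝ] EuclideanSpace ℝ (Fin m)) :
    dv (fun a b => g a b) (fun i => D (EuclideanSpace.basisFun (Fin m) ℝ i)) =
      LinearMap.det D ^ 2 * dv (fun a b => g a b) (EuclideanSpace.basisFun (Fin m) ℝ) := by
  classical
  set e := EuclideanSpace.basisFun (Fin m) ℝ with he
  set P := LinearMap.toMatrix e.toBasis e.toBasis D with hP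
  have hD : ∀ j, D (e j) = ∑ k, P k j • e k := by
    intro j
    have h1 := e.toBasis.sum_repr (D (e j))
    rw [← h1]
    refine Finset.sum_congr rfl fun k _ => ?_
    rw [OrthonormalBasis.coe_toBasis]
    congr 1
    rw [hP, LinearMap.toMatrix_apply, OrthonormalBasis.coe_toBasis]
  have h1 : (Matrix.of fun i j : Fin m => g (D (e i)) (D (e j))) =
      P.transpose * (Matrix.of fun i j : Fin m => g (e i) (e j)) * P := by
    ext i j
    rw [Matrix.of_apply, hD i, hD j, Matrix.mul_apply]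
    simp only [map_sum, map_smul, smul_eq_mul, Matrix.mul_apply, Matrix.transpose_apply,
      Matrix.of_apply, _root_.sum_apply, _root_.smul_apply]
    rw [Finset.sum_congr rfl fun x _ => ?_]
    simp only [Finset.mul_sum, Finset.sum_mul]
    refine Finset.sum_congr rfl fun k _ => ?_
    ring
  unfold dv
  rw [h1, Matrix.det_mul, Matrix.det_mul, Matrix.det_transpose, ← LinearMap.det_toMatrix e.toBasis D]
  ring

/-- the determinant of a form does not depend on the orthonormal basis -/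
theorem dv_basis (g : EuclideanSpace ℝ (Fin m) →L[ℝ] EuclideanSpace ℝ (Fin m) →L[ℝ] ℝ)
    (b : OrthonormalBasis (Fin m) ℝ (EuclideanSpace ℝ (Fin m))) :
    dv (fun a b => g a b) b = dv (fun a b => g a b) (EuclideanSpace.basisFun (Fin m) ℝ) := by
  classical
  set D : EuclideanSpace ℝ (Fin m) →ₗ[ℝ] EuclideanSpace ℝ (Fin m) :=
    b.repr.symm.toLinearEquiv.toLinearMap with hD
  have hDe : ∀ i, D (EuclideanSpace.basisFun (Fin m) ℝ i) = b i := by
    intro i
    rw [EuclideanSpace.basisFun_apply]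
    exact b.repr_symm_single i
  have h1 := dv_comp g D
  have h2 := dv_comp (innerSL ℝ) D
  simp only [hDe] at h1 h2
  have h3 : ∀ b : OrthonormalBasis (Fin m) ℝ (EuclideanSpace ℝ (Fin m)),
      dv (fun x y => (innerSL ℝ x) y) b = 1 := by
    intro b
    unfold dv
    have : (Matrix.of fun i j : Fin m => (innerSL ℝ (b i)) (b j)) = 1 := by
      ext i j
      rw [Matrix.of_apply, innerSL_apply_apply, b.inner_eq_ite, Matrix.one_apply]
    rw [this, Matrix.det_one]
  have h4 : dv (fun x y => (innerSL ℝ x) y) (fun i => b i) = 1 := h3 b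
  rw [h4, h3, mul_one] at h2
  rw [← h2, one_mul] at h1
  exact h1

/-- block form -/
theorem dv_block {n : ℕ} (g : EuclideanSpace ℝ (Fin (n + 1)) → EuclideanSpace ℝ (Fin (n + 1)) → ℝ)
    (b : Fin (n + 1) → EuclideanSpace ℝ (Fin (n + 1))) (h0 : g (b 0) (b 0) = 1)
    (h1 : ∀ j : Fin n, g (b 0) (b j.succ) = 0) :
    dv g b = (Matrix.of fun i j : Fin n => g (b i.succ) (b j.succ)).det := by
  unfold dv
  rw [Matrix.det_succ_row_zero, Finset.sum_eq_single 0]
  · simp only [Matrix.of_apply, Fin.val_zero, pow_zero, one_mul, h0]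
    congr 1
  · intro j _ hj
    obtain ⟨i, rfl⟩ := Fin.exists_succ_eq.2 hj
    simp [Matrix.of_apply, h1]
  · intro h
    exact absurd (Finset.mem_univ _) h

/-- an orthonormal basis starting with a given unit vector -/
theorem exists_basis_zero {n : ℕ} {e : EuclideanSpace ℝ (Fin (n + 1))} (he : ‖e‖ = 1) :
    ∃ b : OrthonormalBasis (Fin (n + 1)) ℝ (EuclideanSpace ℝ (Fin (n + 1))), b 0 = e := by
  obtain ⟨b, hb⟩ := Orthonormal.exists_orthonormalBasis_extension_of_card_eq (𝕜 := ℝ)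
    (E := EuclideanSpace ℝ (Fin (n + 1))) (ι := Fin (n + 1)) (by simp) (v := fun _ => e) (s := {0})
    (by
      constructor
      · rintro ⟨i, hi⟩
        exact he
      · rintro ⟨i, hi⟩ ⟨j, hj⟩ hij
        rw [Set.mem_singleton_iff] at hi hj
        exact absurd (Subtype.ext (hi.trans hj.symm)) hij)
  exact ⟨b, hb 0 rfl⟩

end Crest.Agent.R208.GZ
end
end

-- ▼ part R208/GZ5
section

/-!
R208, block GZ (helper595), part 5: the Jacobian of the euclidean polar map and the metric of the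
cone.
-/

set_option autoImplicit false

open MeasureTheory Measure Set Filter Topology Module Metric
open scoped ContDiff RealInnerProductSpace ENNReal
open Crest.GeometryTopology.Submanifold
open Crest.Agent.R241.DDefs
open Crest.Agent.R241.D2
open Crest.Agent.R241.D3c
open Crest.Agent.R241
open Crest.Agent.R241.AF (jac jac_nonneg jac_sq_gram finrank_Euc)
open Crest.Agent.R208.L (cst nu)
open Crest.Agent.R208.JT (Eu)
open Crest.Agent.R208.GH

noncomputable section

namespace Crest.Agent.R208.GZ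

variable {n N : ℕ} {κ : ℝ} {S : Set (Euc N)} {G : Geo n N κ S} {c : ℝ} {p : Euc N}

/-- the determinant of the metric `g` -/
def dg {m : ℕ} (g : Eu m →L[ℝ] Eu m →L[ℝ] ℝ) : ℝ :=
  dv (fun a b => g a b) (EuclideanSpace.basisFun (Fin m) ℝ)

/-- what is used of the metric of the cone -/
def IsGG (F : Fr G p) (c : ℝ) (g : Eu (n + 1) → Eu (n + 1) →L[ℝ] Eu (n + 1) →L[ℝ] ℝ) : Prop :=
  ∀ X, X ≠ 0 → ∀ a b, g X a b = ⟪X, a⟫ * ⟪X, b⟫ / ‖X‖ ^ 2 +
    ‖X‖ ^ 2 / c ^ 2 * ⟪fderiv ℝ (k0 F c) X a, fderiv ℝ (k0 F c) X b⟫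

/-- the frame of `T_p` given by the polar frame and an adapted orthonormal basis -/
def frA (F : Fr G p) (b : OrthonormalBasis (Fin (n + 1)) ℝ (Eu (n + 1))) : Euc n →L[ℝ] Euc N :=
  F.B.comp (LinearMap.toContinuousLinearMap
    ((Fintype.linearCombination ℝ fun i : Fin n => b i.succ) ∘ₗ
      (WithLp.linearEquiv 2 ℝ (Fin n → ℝ)).toLinearMap))

/-- `Σ y_i b_(i+1)` -/
def lift (b : OrthonormalBasis (Fin (n + 1)) ℝ (Eu (n + 1))) (y : Euc n) : Eu (n + 1) :=
  ∑ i : Fin n, y i • b i.succ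

lemma frA_apply (F : Fr G p) (b : OrthonormalBasis (Fin (n + 1)) ℝ (Eu (n + 1))) (y : Euc n) :
    frA F b y = F.B (lift b y) := rfl

lemma lift_single (b : OrthonormalBasis (Fin (n + 1)) ℝ (Eu (n + 1))) (i : Fin n) :
    lift b (EuclideanSpace.basisFun (Fin n) ℝ i) = b i.succ := by
  classical
  unfold lift
  rw [Finset.sum_eq_single i]
  · simp
  · intro j _ hj
    simp [hj]
  · intro h; exact absurd (Finset.mem_univ _) h

lemma inner_lift {b : OrthonormalBasis (Fin (n + 1)) ℝ (Eu (n + 1))} (y z : Euc n) :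
    ⟪lift b y, lift b z⟫ = ⟪y, z⟫ := by
  classical
  unfold lift
  rw [sum_inner]
  simp only [inner_sum, inner_smul_left, inner_smul_right, b.inner_eq_ite, Fin.succ_inj]
  simp [PiLp.inner_apply, mul_comm]

lemma inner_zero_lift {b : OrthonormalBasis (Fin (n + 1)) ℝ (Eu (n + 1))} (y : Euc n) :
    ⟪b 0, lift b y⟫ = 0 := by
  classical
  unfold lift
  simp only [inner_sum, inner_smul_right, b.inner_eq_ite]
  refine Finset.sum_eq_zero fun i _ => ?_
  rw [if_neg (Fin.succ_ne_zero i).symm, mul_zero]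

lemma norm_lift {b : OrthonormalBasis (Fin (n + 1)) ℝ (Eu (n + 1))} (y : Euc n) :
    ‖lift b y‖ = ‖y‖ := by
  have h3 : ‖lift b y‖ ^ 2 = ‖y‖ ^ 2 := by
    rw [← real_inner_self_eq_norm_sq, ← real_inner_self_eq_norm_sq, inner_lift]
  exact (sq_eq_sq₀ (norm_nonneg _) (norm_nonneg _)).1 h3


lemma lift_add (b : OrthonormalBasis (Fin (n + 1)) ℝ (Eu (n + 1))) (y z : Euc n) :
    lift b (y + z) = lift b y + lift b z := by
  unfold lift
  simp [add_smul, Finset.sum_add_distrib]

/-- every vector orthogonal to `b 0` is a `lift` -/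
lemma exists_lift {b : OrthonormalBasis (Fin (n + 1)) ℝ (Eu (n + 1))} {w : Eu (n + 1)}
    (hw : ⟪b 0, w⟫ = 0) : ∃ y : Euc n, lift b y = w := by
  refine ⟨WithLp.toLp 2 fun i => ⟪b i.succ, w⟫, ?_⟩
  have h1 := b.sum_repr' w
  rw [Fin.sum_univ_succ, hw, zero_smul, zero_add] at h1
  exact h1

variable (F : Fr G p) {b : OrthonormalBasis (Fin (n + 1)) ℝ (Eu (n + 1))} (hb : b 0 = F.e)
include hb

lemma norm_B {w : Eu (n + 1)} (hw : ⟪F.e, w⟫ = 0) : ⟪F.B w, F.B w⟫ = ⟪w, w⟫ := by
  rw [real_inner_self_eq_norm_sq, real_inner_self_eq_norm_sq, F.iso w hw]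

lemma inner_B {v w : Eu (n + 1)} (hv : ⟪F.e, v⟫ = 0) (hw : ⟪F.e, w⟫ = 0) :
    ⟪F.B v, F.B w⟫ = ⟪v, w⟫ := by
  have h1 := norm_B F hb (w := v + w) (by rw [inner_add_right, hv, hw, add_zero])
  rw [map_add] at h1
  simp only [inner_add_left, inner_add_right] at h1
  rw [norm_B F hb hv, norm_B F hb hw, real_inner_comm (F.B v) (F.B w), real_inner_comm v w] at h1
  linarith

lemma inner_frA (y z : Euc n) : ⟪frA F b y, frA F b z⟫ = ⟪y, z⟫ := by
  rw [frA_apply, frA_apply, inner_B F hb (by rw [← hb]; exact inner_zero_lift y)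
    (by rw [← hb]; exact inner_zero_lift z), inner_lift]

lemma range_frA : range (frA F b) = (G.T p : Set (Euc N)) := by
  ext v
  constructor
  · rintro ⟨y, rfl⟩
    exact F.mem _
  · intro hv
    obtain ⟨w, hw, rfl⟩ := F.surj v hv
    obtain ⟨y, rfl⟩ := exists_lift (b := b) (w := w) (by rw [hb]; exact hw)
    exact ⟨y, rfl⟩

omit hb

lemma orth_e_e : orth F.e F.e = 0 := by
  rw [orth, real_inner_self_eq_norm_sq, F.ne]; simp

lemma PE_ne {η : Eu (n + 1)} (h0 : 0 < ⟪F.e, η⟫) : PE F.e η ≠ 0 := by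
  intro h
  have h1 := norm_PE F.ne η
  rw [h, norm_zero, abs_of_pos h0] at h1
  exact h0.ne h1

lemma PE_hneg {η : Eu (n + 1)} (h0 : 0 < ⟪F.e, η⟫) (h1 : ‖orth F.e η‖ < Real.pi) :
    ∀ r : ℝ, 0 ≤ r → PE F.e η ≠ -(r • F.e) := by
  intro r hr h
  have h2 : (innerSL ℝ : Eu (n + 1) →L[ℝ] _) (orth F.e η) (orth F.e η) =
      ‖orth F.e η‖ ^ 2 := by
    rw [innerSL_apply_apply, real_inner_self_eq_norm_sq]
  have hS : 0 < Sn (‖orth F.e η‖ ^ 2) := Sn_pos (by positivity)
    (pow_lt_pow_left₀ h1 (norm_nonneg _) two_ne_zero)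
  have h3 : orth F.e (PE F.e η) = (⟪F.e, η⟫ * Sn (‖orth F.e η‖ ^ 2)) • orth F.e η := by
    rw [PE, (met_euc F.ne).orth_RP, h2]
  have h4 : orth F.e (PE F.e η) = 0 := by
    rw [h, ← neg_smul, orth_smul, orth_e_e, smul_zero]
  rw [h4] at h3
  have h5 : orth F.e η = 0 := (smul_eq_zero.1 h3.symm).resolve_left (mul_pos h0 hS).ne'
  have h6 := (met_euc F.ne).inner_RP η
  rw [h5] at h6
  have h7 : (innerSL ℝ : Eu (n + 1) →L[ℝ] _) (0 : Eu (n + 1)) (0 : Eu (n + 1)) = 0 := by simp
  rw [h7, Cs_zero, mul_one] at h6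
  have h8 : ⟪F.e, PE F.e η⟫ = ⟪F.e, η⟫ := h6
  rw [h, inner_neg_right, inner_smul_right, real_inner_self_eq_norm_sq, F.ne] at h8
  linarith

lemma hasFDerivAt_PE (η : Eu (n + 1)) :
    HasFDerivAt (PE F.e) (fderiv ℝ (PE F.e) η) η :=
  ((contDiff_RP' F.e _).differentiable (by simp) η).hasFDerivAt

/-- radial part of the derivative of `PE` -/
lemma inner_fderiv_PE (η a : Eu (n + 1)) :
    ⟪PE F.e η, fderiv ℝ (PE F.e) η a⟫ = ⟪F.e, η⟫ * ⟪F.e, a⟫ := by
  have h1 : (fun η => ‖PE F.e η‖ ^ 2) = fun η => ⟪F.e, η⟫ ^ 2 := by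
    ext1 η
    rw [norm_PE F.ne, sq_abs]
  have h2 := (hasFDerivAt_PE F η).norm_sq
  have h3 : HasFDerivAt (fun η : Eu (n + 1) => ⟪F.e, η⟫ ^ 2)
      ((2 * ⟪F.e, η⟫) • (innerSL ℝ F.e : Eu (n + 1) →L[ℝ] ℝ)) η := by
    have h4 : HasFDerivAt (fun η : Eu (n + 1) => ⟪F.e, η⟫) (innerSL ℝ F.e) η :=
      (innerSL ℝ F.e).hasFDerivAt
    have h5 := h4.pow 2
    simpa using h5
  rw [h1] at h2
  have h4 := congrArg (fun L => L a) (h2.unique h3)
  simp only [_root_.smul_apply, ContinuousLinearMap.comp_apply, innerSL_apply_apply,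
    smul_eq_mul] at h4
  simp only [nsmul_eq_mul, Nat.cast_ofNat] at h4
  linarith

variable (hp : p ∈ S)
include hp

/-- tangential part of the derivative of `PE` -/
lemma fderiv_k0_PE (hf : Hf G c) {η : Eu (n + 1)} (h0 : 0 < ⟪F.e, η⟫)
    (h1 : ‖orth F.e η‖ < Real.pi) (a : Eu (n + 1)) :
    fderiv ℝ (k0 F c) (PE F.e η) (fderiv ℝ (PE F.e) η a) =
      c • fderiv ℝ (Exp G p) (c • F.B (orth F.e η)) (F.B (orth F.e a)) := by
  have hX := PE_ne F h0
  have hd := ((contDiffAt_k0 F hp hf hX).differentiableAt (by simp)).hasFDerivAt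
  have hcomp := hd.comp η (hasFDerivAt_PE F η)
  have hev : (fun η => k0 F c (PE F.e η)) =ᶠ[𝓝 η]
      fun η => Exp G p (c • F.B (orth F.e η)) := by
    have h2 := (hasFDerivAt_PE F η).continuousAt.eventually
      (k0_eventually F (c := c) hp (PE_hneg F h0 h1))
    filter_upwards [h2, k1_PE_eventually F c h0 h1] with z h3 h4
    rw [h3, h4]
  have hE := (hasFDerivAt_expB F c hp η).2 a
  rw [← hev.fderiv_eq] at hE
  have h6 : (fun η => k0 F c (PE F.e η)) = k0 F c ∘ PE F.e := rfl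
  rw [h6, hcomp.fderiv, map_smul] at hE
  exact hE

include hb in
/-- **the Jacobian of the polar map** -/
theorem det_PE_sq (hf : Hf G c) (hc : c ≠ 0)
    {g : Eu (n + 1) → Eu (n + 1) →L[ℝ] Eu (n + 1) →L[ℝ] ℝ}
    (hg : IsGG F c g) {η : Eu (n + 1)} (h0 : 0 < ⟪F.e, η⟫) (h1 : ‖orth F.e η‖ < Real.pi) :
    (fderiv ℝ (PE F.e) η).det ^ 2 * dg (g (PE F.e η)) =
      (⟪F.e, η⟫ ^ n * L.jE G (p, c • F.B (orth F.e η))) ^ 2 := by
  set X := PE F.e η with hXdef
  set D := fderiv ℝ (PE F.e) η with hD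
  set ρ := ⟪F.e, η⟫ with hρ
  have hX : X ≠ 0 := PE_ne F h0
  have hXn : ‖X‖ ^ 2 = ρ ^ 2 := by rw [hXdef, norm_PE F.ne, sq_abs]
  -- the pulled back form
  set g' : Eu (n + 1) →L[ℝ] Eu (n + 1) →L[ℝ] ℝ := (g X).bilinearComp D D with hg'
  have hg'a : ∀ a b, g' a b = ⟪F.e, a⟫ * ⟪F.e, b⟫ + ρ ^ 2 *
      ⟪fderiv ℝ (Exp G p) (c • F.B (orth F.e η)) (F.B (orth F.e a)),
        fderiv ℝ (Exp G p) (c • F.B (orth F.e η)) (F.B (orth F.e b))⟫ := by
    intro a b
    have h2 : g' a b = g X (D a) (D b) := rfl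
    rw [h2, hg X hX, inner_fderiv_PE, inner_fderiv_PE, fderiv_k0_PE F hp hf h0 h1,
      fderiv_k0_PE F hp hf h0 h1, inner_smul_left, inner_smul_right, hXn, ← hρ]
    simp only [conj_trivial]
    have : ρ ≠ 0 := h0.ne'
    field_simp
  have h2 : dv (fun a b => g' a b) (EuclideanSpace.basisFun (Fin (n + 1)) ℝ) =
      D.det ^ 2 * dg (g X) := dv_comp (g X) D.toLinearMap
  have h3 := dv_basis g' b
  have hee : ⟪F.e, F.e⟫ = 1 := by rw [real_inner_self_eq_norm_sq, F.ne]; norm_num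
  have hes : ∀ j : Fin n, ⟪F.e, b j.succ⟫ = 0 := by
    intro j
    rw [← hb, b.inner_eq_ite, if_neg (Fin.succ_ne_zero j).symm]
  have h4 : dv (fun a b => g' a b) b =
      (Matrix.of fun i j : Fin n => g' (b i.succ) (b j.succ)).det := by
    apply dv_block
    · rw [hb, hg'a, orth_e_e, map_zero, map_zero, inner_zero_left, hee]; ring
    · intro j
      rw [hb, hg'a, orth_e_e, map_zero, map_zero, inner_zero_left, hes]; ring
  set T : Euc n →L[ℝ] Euc N := (fderiv ℝ (Exp G p) (c • F.B (orth F.e η))).comp (frA F b) with hT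
  have h5 : (Matrix.of fun i j : Fin n => g' (b i.succ) (b j.succ)) = ρ ^ 2 •
      (Matrix.of fun i j : Fin n => ⟪T (EuclideanSpace.basisFun (Fin n) ℝ i),
        T (EuclideanSpace.basisFun (Fin n) ℝ j)⟫) := by
    ext i j
    rw [Matrix.of_apply, Matrix.smul_apply, Matrix.of_apply, hg'a, hes, zero_mul, zero_add,
      smul_eq_mul, orth_of_inner (hes i), orth_of_inner (hes j), hT]
    simp only [ContinuousLinearMap.comp_apply, frA_apply, lift_single]
  have h6 : jac T = L.jE G (p, c • F.B (orth F.e η)) :=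
    (L.jE_eq G (q := (p, c • F.B (orth F.e η))) ⟨hp, (G.T p).smul_mem _ (F.mem _)⟩ (frA F b)
      (inner_frA F hb) (range_frA F hb)).symm
  rw [← h2, ← h3, h4, h5, Matrix.det_smul, Fintype.card_fin, ← jac_sq_gram, h6]
  ring

include hb in
/-- the same with square roots -/
theorem abs_det_PE (hf : Hf G c) (hc : c ≠ 0)
    {g : Eu (n + 1) → Eu (n + 1) →L[ℝ] Eu (n + 1) →L[ℝ] ℝ}
    (hg : IsGG F c g) {η : Eu (n + 1)} (h0 : 0 < ⟪F.e, η⟫) (h1 : ‖orth F.e η‖ < Real.pi) :
    |(fderiv ℝ (PE F.e) η).det| * Real.sqrt (dg (g (PE F.e η))) =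
      ⟪F.e, η⟫ ^ n * L.jE G (p, c • F.B (orth F.e η)) := by
  have h2 := det_PE_sq F hb hp hf hc hg h0 h1
  have h3 : 0 ≤ ⟪F.e, η⟫ ^ n * L.jE G (p, c • F.B (orth F.e η)) :=
    mul_nonneg (pow_nonneg h0.le _) (L.jE_nonneg G _)
  rw [← Real.sqrt_sq h3, ← h2, Real.sqrt_mul (sq_nonneg _), Real.sqrt_sq_eq_abs]

end Crest.Agent.R208.GZ
end
end

-- ▼ part R208/GZ6

/-!
R208, block GZ (helper595), part 6: the volume of the unit ball of the cone.
-/

set_option autoImplicit false

open MeasureTheory Measure Set Filter Topology Module Metric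
open scoped ContDiff RealInnerProductSpace ENNReal
open Crest.GeometryTopology.Submanifold
open Crest.Agent.R241.DDefs
open Crest.Agent.R241.D2
open Crest.Agent.R241.D3c
open Crest.Agent.R241
open Crest.Agent.R241.AF (jac jac_nonneg jac_sq_gram finrank_Euc)
open Crest.Agent.R208.L (cst nu)
open Crest.Agent.R208.JT (Eu)
open Crest.Agent.R208.GH

noncomputable section

namespace Crest.Agent.R208.GZ

section split

variable {n : ℕ}

/-- splitting off the first vector of an orthonormal basis -/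
def spl (b : OrthonormalBasis (Fin (n + 1)) ℝ (Eu (n + 1))) :
    WithLp 2 (ℝ × Euc n) →ₗᵢ[ℝ] Eu (n + 1) where
  toFun z := z.fst • b 0 + lift b z.snd
  map_add' x y := by
    simp only [WithLp.add_fst, WithLp.add_snd, add_smul, lift_add]
    abel
  map_smul' r x := by
    have h : lift b (r • x.snd) = r • lift b x.snd := by
      unfold lift
      simp [smul_smul, Finset.smul_sum]
    simp only [WithLp.smul_fst, WithLp.smul_snd, h, smul_eq_mul, mul_smul, smul_add,
      RingHom.id_apply]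
  norm_map' z := by
    change ‖z.fst • b 0 + lift b z.snd‖ = ‖z‖
    have h1 : ‖z.fst • b 0 + lift b z.snd‖ ^ 2 = ‖z‖ ^ 2 := by
      rw [WithLp.prod_norm_sq_eq_of_L2, norm_add_sq_real, inner_smul_left, inner_zero_lift,
        norm_smul, b.norm_eq_one, norm_lift]
      simp
    exact (sq_eq_sq₀ (norm_nonneg _) (norm_nonneg _)).1 h1

lemma finrank_spl : finrank ℝ (WithLp 2 (ℝ × Euc n)) = finrank ℝ (Eu (n + 1)) := by
  rw [(WithLp.linearEquiv 2 ℝ (ℝ × Euc n)).finrank_eq, Module.finrank_prod, finrank_self,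
    finrank_euclideanSpace_fin, finrank_euclideanSpace_fin, add_comm]

/-- **Fubini in an adapted basis** -/
theorem lintegral_split (b : OrthonormalBasis (Fin (n + 1)) ℝ (Eu (n + 1)))
    {H : Eu (n + 1) → ℝ≥0∞} (hH : Measurable H) :
    ∫⁻ η, H η = ∫⁻ ρ : ℝ, ∫⁻ y : Euc n, H (ρ • b 0 + lift b y) := by
  have h1 : MeasurePreserving ((spl b).toLinearIsometryEquiv finrank_spl) :=
    LinearIsometryEquiv.measurePreserving _
  have h2 : MeasurePreserving (@WithLp.toLp 2 (ℝ × Euc n)) := WithLp.volume_preserving_toLp _ _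
  have h3 := (h1.comp h2).lintegral_comp hH
  rw [← h3, Measure.volume_eq_prod, lintegral_prod]
  · rfl
  · exact (hH.comp (h1.comp h2).measurable).aemeasurable

end split

lemma lintegral_pow (n : ℕ) :
    ∫⁻ ρ in Ioo (0 : ℝ) 1, ENNReal.ofReal (ρ ^ n) = ENNReal.ofReal (1 / ((n : ℝ) + 1)) := by
  rw [← ofReal_integral_eq_lintegral_ofReal]
  · rw [← integral_Ioc_eq_integral_Ioo, ← intervalIntegral.integral_of_le zero_le_one,
      integral_pow]
    simp
  · exact ((Continuous.integrableOn_Icc (by fun_prop)).mono_set Ioo_subset_Icc_self)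
  · rw [EventuallyLE, ae_restrict_iff' measurableSet_Ioo]
    refine Eventually.of_forall fun x hx => ?_
    exact pow_nonneg hx.1.le _

variable {n N : ℕ} {κ : ℝ} {S : Set (Euc N)} {G : Geo n N κ S} {c : ℝ} {p : Euc N}

/-- the domain of the polar map -/
def Ud (F : Fr G p) : Set (Eu (n + 1)) :=
  {η | 0 < ⟪F.e, η⟫ ∧ ⟪F.e, η⟫ < 1 ∧ ‖orth F.e η‖ < Real.pi}

lemma continuous_orth (e : Eu (n + 1)) : Continuous (orth e) := by
  unfold orth; fun_prop

lemma measurableSet_Ud (F : Fr G p) : MeasurableSet (Ud F) := by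
  have h1 : Continuous fun η : Eu (n + 1) => ⟪F.e, η⟫ := by fun_prop
  have h2 : Continuous fun η : Eu (n + 1) => ‖orth F.e η‖ := (continuous_orth _).norm
  exact ((isOpen_lt continuous_const h1).inter ((isOpen_lt h1 continuous_const).inter
    (isOpen_lt h2 continuous_const))).measurableSet

lemma injOn_PE (F : Fr G p) : InjOn (PE F.e) (Ud F) := by
  intro η hη η' hη' h
  have h1 := norm_PE F.ne η
  have h2 := norm_PE F.ne η'
  rw [abs_of_pos hη.1] at h1
  rw [abs_of_pos hη'.1, ← h, h1] at h2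
  have h3 := nuv_PE F.ne (inner_orth F.ne η) hη.1 hη.2.2
  have h4 := nuv_PE F.ne (inner_orth F.ne η') hη'.1 hη'.2.2
  rw [decomp] at h3 h4
  rw [h, h4] at h3
  rw [← decomp F.e η, ← decomp F.e η', h2, h3]

lemma image_PE (F : Fr G p) : PE F.e '' (Ud F) ⊆ ball 0 1 := by
  rintro _ ⟨η, hη, rfl⟩
  rw [mem_ball_zero_iff, norm_PE F.ne, abs_of_pos hη.1]
  exact hη.2.1

lemma null_PE (F : Fr G p) (hn : 1 ≤ n) :
    volume (ball (0 : Eu (n + 1)) 1 \ PE F.e '' (Ud F)) = 0 := by
  have h1 : ball (0 : Eu (n + 1)) 1 \ PE F.e '' (Ud F) ⊆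
      (Submodule.span ℝ {F.e} : Submodule ℝ (Eu (n + 1))) := by
    rintro X ⟨hX1, hX2⟩
    by_contra hX
    obtain ⟨ρ, w, h1, h2, h3, h4⟩ := exists_PE F.ne (X := X) (by
      intro r _ h
      apply hX
      rw [h, ← neg_smul]
      exact Submodule.smul_mem _ _ (Submodule.mem_span_singleton_self _))
    apply hX2
    have hin : ⟪F.e, ρ • F.e + w⟫ = ρ := by
      rw [inner_add_right, inner_smul_right, real_inner_self_eq_norm_sq, F.ne, h2]; ring
    have hor : orth F.e (ρ • F.e + w) = w := by rw [orth, hin]; abel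
    refine ⟨ρ • F.e + w, ⟨by rw [hin]; exact h1, ?_, by rw [hor]; exact h3⟩, h4⟩
    have h5 := norm_PE F.ne (ρ • F.e + w)
    rw [h4, hin, abs_of_pos h1] at h5
    rw [hin, ← h5]
    exact mem_ball_zero_iff.1 hX1
  refine measure_mono_null h1 ?_
  apply addHaar_submodule
  intro h
  have h2 : finrank ℝ (Submodule.span ℝ {F.e} : Submodule ℝ (Eu (n + 1))) = n + 1 := by
    rw [h, finrank_top, finrank_euclideanSpace_fin]
  have h3 := finrank_span_le_card (R := ℝ) ({F.e} : Set (Eu (n + 1)))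
  simp at h3
  omega

/-- **the volume of the unit ball of the cone**, as a Lebesgue integral -/
theorem lintegral_cone (F : Fr G p) (hp : p ∈ S) (hf : Hf G c)
    {g : Eu (n + 1) → Eu (n + 1) →L[ℝ] Eu (n + 1) →L[ℝ] ℝ} (hg : IsGG F c g) :
    ∫⁻ X in ball (0 : Eu (n + 1)) 1, ENNReal.ofReal (Real.sqrt (dg (g X))) =
      ENNReal.ofReal (1 / ((n : ℝ) + 1)) * (ENNReal.ofReal (c * (c ^ n)⁻¹) * μHE[n] S) := by
  have hc : c ≠ 0 := by
    rcases hf.cases with h | h
    · rw [h]; exact one_ne_zero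
    · rw [h.1]; exact two_ne_zero
  obtain ⟨b, hb⟩ := exists_basis_zero F.ne
  have h1 : (ball (0 : Eu (n + 1)) 1 : Set (Eu (n + 1))) =ᵐ[volume] PE F.e '' (Ud F) := by
    have h2 : ball (0 : Eu (n + 1)) 1 =
        PE F.e '' (Ud F) ∪ (ball (0 : Eu (n + 1)) 1 \ PE F.e '' (Ud F)) :=
      (union_sdiff_cancel (image_PE F)).symm
    rw [h2]
    exact union_ae_eq_left_of_ae_eq_empty (ae_eq_empty.2 (null_PE F hf.bl.hn))
  rw [setLIntegral_congr h1, lintegral_image_eq_lintegral_abs_det_fderiv_mul volume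
    (measurableSet_Ud F) (fun η _ => (hasFDerivAt_PE F η).hasFDerivWithinAt) (injOn_PE F)]
  have h2 : ∫⁻ η in Ud F, ENNReal.ofReal |(fderiv ℝ (PE F.e) η).det| *
      ENNReal.ofReal (Real.sqrt (dg (g (PE F.e η)))) =
      ∫⁻ η in Ud F, ENNReal.ofReal (⟪F.e, η⟫ ^ n * L.jE G (p, c • F.B (orth F.e η))) := by
    refine setLIntegral_congr_fun (measurableSet_Ud F) fun η hη => ?_
    rw [← abs_det_PE F hb hp hf hc hg hη.1 hη.2.2, ENNReal.ofReal_mul (abs_nonneg _)]
  rw [h2, ← lintegral_indicator (measurableSet_Ud F), lintegral_split b]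
  · have h3 : ∀ (ρ : ℝ) (y : Euc n), (Ud F).indicator
        (fun η => ENNReal.ofReal (⟪F.e, η⟫ ^ n * L.jE G (p, c • F.B (orth F.e η))))
          (ρ • b 0 + lift b y) =
        (Ioo (0 : ℝ) 1).indicator (fun ρ => ENNReal.ofReal (ρ ^ n)) ρ *
          (ball (0 : Euc n) Real.pi).indicator
            (fun y => ENNReal.ofReal (L.jE G (p, c • frA F b y))) y := by
      intro ρ y
      have h0 : ⟪F.e, lift b y⟫ = 0 := by rw [← hb]; exact inner_zero_lift y
      have hin : ⟪F.e, ρ • b 0 + lift b y⟫ = ρ := by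
        rw [hb, inner_add_right, inner_smul_right, real_inner_self_eq_norm_sq, F.ne, h0]; ring
      have hor : orth F.e (ρ • b 0 + lift b y) = lift b y := by rw [orth, hin, hb]; abel
      by_cases h4 : ρ ∈ Ioo (0 : ℝ) 1 ∧ y ∈ ball (0 : Euc n) Real.pi
      · have h5 : ρ • b 0 + lift b y ∈ Ud F := by
          refine ⟨by rw [hin]; exact h4.1.1, by rw [hin]; exact h4.1.2, ?_⟩
          rw [hor, norm_lift]
          exact mem_ball_zero_iff.1 h4.2
        rw [indicator_of_mem h5, indicator_of_mem h4.1, indicator_of_mem h4.2, hin, hor,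
          ENNReal.ofReal_mul (pow_nonneg h4.1.1.le _), frA_apply]
      · have h5 : ρ • b 0 + lift b y ∉ Ud F := by
          rintro ⟨h6, h7, h8⟩
          rw [hin] at h6 h7
          rw [hor, norm_lift] at h8
          exact h4 ⟨⟨h6, h7⟩, mem_ball_zero_iff.2 h8⟩
        rw [indicator_of_notMem h5]
        rcases not_and_or.1 h4 with h6 | h6
        · rw [indicator_of_notMem h6, zero_mul]
        · rw [indicator_of_notMem h6, mul_zero]
    simp only [h3]
    have hm : Measurable fun y : Euc n => ENNReal.ofReal (L.jE G (p, c • frA F b y)) :=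
      ENNReal.measurable_ofReal.comp ((L.measurable_jE G).comp
        (measurable_const.prodMk ((frA F b).continuous.measurable.const_smul c)))
    have h5 : ∀ ρ : ℝ, ∫⁻ y : Euc n, (Ioo (0 : ℝ) 1).indicator (fun ρ => ENNReal.ofReal (ρ ^ n)) ρ *
          (ball (0 : Euc n) Real.pi).indicator
            (fun y => ENNReal.ofReal (L.jE G (p, c • frA F b y))) y =
        (Ioo (0 : ℝ) 1).indicator (fun ρ => ENNReal.ofReal (ρ ^ n)) ρ *
          (ENNReal.ofReal (c * (c ^ n)⁻¹) * μHE[n] S) := by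
      intro ρ
      rw [lintegral_const_mul _ (hm.indicator measurableSet_ball),
        lintegral_indicator measurableSet_ball,
        lintegral_scaled hf hp (inner_frA F hb) (range_frA F hb)]
    simp only [h5]
    have hm2 : Measurable fun ρ : ℝ => ENNReal.ofReal (ρ ^ n) :=
      ENNReal.measurable_ofReal.comp (measurable_id.pow_const n)
    rw [lintegral_mul_const _ (hm2.indicator measurableSet_Ioo),
      lintegral_indicator measurableSet_Ioo, lintegral_pow]
  · refine Measurable.indicator ?_ (measurableSet_Ud F)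
    refine ENNReal.measurable_ofReal.comp (Measurable.mul ?_ ?_)
    · have h1 : Continuous fun η : Eu (n + 1) => ⟪F.e, η⟫ := by fun_prop
      exact h1.measurable.pow_const n
    · have h1 : Continuous fun η : Eu (n + 1) => c • F.B (orth F.e η) :=
        (F.B.continuous.comp (continuous_orth _)).const_smul c
      exact (L.measurable_jE G).comp (measurable_const.prodMk h1.measurable)

lemma continuousOn_dg {m : ℕ} {g : Eu m → Eu m →L[ℝ] Eu m →L[ℝ] ℝ} {s : Set (Eu m)}
    (hg : ContinuousOn g s) : ContinuousOn (fun X => dg (g X)) s := by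
  have h1 : Continuous fun h : Eu m →L[ℝ] Eu m →L[ℝ] ℝ => dg h := by
    unfold dg dv
    refine Continuous.matrix_det ?_
    refine continuous_matrix fun i j => ?_
    simp only [Matrix.of_apply]
    fun_prop
  exact h1.comp_continuousOn hg

/-- **GH6**: the volume of the unit ball of the cone -/
theorem integral_cone (F : Fr G p) (hp : p ∈ S) (hf : Hf G c)
    {g : Eu (n + 1) → Eu (n + 1) →L[ℝ] Eu (n + 1) →L[ℝ] ℝ} (hg : IsGG F c g)
    (hgc : ContinuousOn g {X | X ≠ 0}) :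
    ∫ X in ball (0 : Eu (n + 1)) 1, Real.sqrt (dg (g X)) =
      1 / ((n : ℝ) + 1) * (c * (c ^ n)⁻¹ * (μHE[n] S).toReal) := by
  have hc : 0 < c := by
    rcases hf.cases with h | h
    · rw [h]; exact one_pos
    · rw [h.1]; exact two_pos
  have hm : AEStronglyMeasurable (fun X => Real.sqrt (dg (g X)))
      (volume.restrict (ball (0 : Eu (n + 1)) 1)) := by
    have h1 : ContinuousOn (fun X => Real.sqrt (dg (g X))) {X | X ≠ 0} :=
      Real.continuous_sqrt.comp_continuousOn (continuousOn_dg hgc)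
    have h2 : AEStronglyMeasurable (fun X => Real.sqrt (dg (g X)))
        (volume.restrict {X : Eu (n + 1) | X ≠ 0}) :=
      h1.aestronglyMeasurable isOpen_ne.measurableSet
    have h3 : (volume : Measure (Eu (n + 1))).restrict {X | X ≠ 0} = volume := by
      have : ({X | X ≠ 0} : Set (Eu (n + 1))) = {0}ᶜ := rfl
      rw [this, restrict_compl_singleton]
    rw [h3] at h2
    exact h2.restrict
  rw [integral_eq_lintegral_of_nonneg_ae (Eventually.of_forall fun X => Real.sqrt_nonneg _) hm,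
    lintegral_cone F hp hf hg, ENNReal.toReal_mul, ENNReal.toReal_mul,
    ENNReal.toReal_ofReal (by positivity), ENNReal.toReal_ofReal (by positivity)]

end Crest.Agent.R208.GZ
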