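import Crest.Agent.R208.HY1
import Crest.Agent.R208.HW1
import Crest.Agent.R208.T2d
import Crest.Agent.R208.HG1
import Crest.Agent.R208.HW2

-- ▼ part R208/HY2
section

/-! Row 208, (8,2), block H2 (helper969).  HY2: cohomology of `X × S^{2k+1}` below degree `2k+1`
is the cohomology of `X`. -/

set_option autoImplicit false
set_option linter.unusedSectionVars false

open MeasureTheory Set Filter Topology Module
open scoped ContDiff RealInnerProductSpace
open Crest.Agent.R208.F Crest.Agent.R208.FI Crest.Agent.R208.CW Crest.Agent.R208.T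
open Crest.Agent.R208.HW

noncomputable section

namespace Crest.Agent.R208.HY

variable {E : Type} [NormedAddCommGroup E] [NormedSpace ℝ E] [FiniteDimensional ℝ E]
  {X : Set E} {d r J k : ℕ} {x : E → Ext E}

/-- the trivial orientation of `ℂ^{k+1}` -/
def W1 (k : ℕ) (_ : E) (I : Fin (k + 1) × Fin 2 → Fin (k + 1) × Fin 2) : ℝ :=
  ((1 : Matrix (Fin (k + 1) × Fin 2) (Fin (k + 1) × Fin 2) ℝ).submatrix I id).det

theorem or_one (X : Set E) (k : ℕ) : OR X (fun _ => (1 : U k →L[ℝ] U k)) (W1 k) := by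
  refine ⟨fun _ _ => contDiffAt_const, fun _ _ _ => contDiffAt_const, fun y _ => ?_⟩
  refine ⟨1, by simp, fun v i => ?_, fun I => rfl⟩
  simp [Matrix.one_apply]

/-- the section `y ↦ (y, u)` of `XX X k → X` -/
theorem smap_sec {u : U k} (hu : ‖u‖ = 1) : SMap X (XX X k) (fun y => ((y, u) : E × U k)) :=
  ⟨fun _ _ => contDiffAt_id.prodMk contDiffAt_const, fun y hy => ⟨⟨hy, by
    simp⟩, hu⟩⟩

theorem smap_fstXX : SMap (XX X k) X (Prod.fst : E × U k → E) := smap_fstS


/-- closed forms of degree `j < 2k + 1` on `X × S^{2k+1}` come from `X` -/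
theorem xx_low (hX : Sub d X) (hc : IsPreconnected X) {j : ℕ} (hj : j < 2 * k + 1)
    {b : E × U k → Ext (E × U k)} (hb : Sm (XX X k) b) (hcl : Cl (XX X k) b) (hd : Hom j b) :
    ∃ c : E → Ext E, Sm X c ∧ Cl X c ∧ Hom j c ∧ Coh (XX X k) b (pull Prod.fst c) :=
  sph_low_all hX hc (or_one X k) (by rw [Fintype.card_fin]; omega) hb hcl hd


/-- **`Low` for `X × S^{2k+1}`** -/
theorem low_XX (hX : Sub d X) (hc : IsPreconnected X) (hL : Low X x r J) (hJ : J ≤ 2 * k + 1) :
    Low (XX X k) (pull Prod.fst x) r J := by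
  intro j b hj hjJ hb hcl hd
  obtain ⟨c, k1, k2, k3, k4⟩ := xx_low hX hc (by omega) hb hcl hd
  obtain ⟨l, h0, h1⟩ := hL j c hj hjJ k1 k2 k3
  refine ⟨l, h0, k4.trans ?_⟩
  have h2 := h1.pull (smap_fstXX (X := X) (k := k))
  rwa [pull_smul', pull_pow'] at h2


end Crest.Agent.R208.HY
end
end

-- ▼ part R208/HY5

/-! Row 208, (8,2), block H2 (helper969).  HY5: the cohomology of `B = X / S¹` and of
`B' = (X × S^(2k+1)) / S¹` in degrees `< J`, from that of `X`. -/

set_option autoImplicit false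
set_option linter.unusedSectionVars false

open MeasureTheory Set Filter Topology Module
open scoped ContDiff
open Crest.Agent.R208.F Crest.Agent.R208.FI Crest.Agent.R208.CW Crest.Agent.R208.T
open Crest.Agent.R208.CM Crest.Agent.R208.HW

noncomputable section

namespace Crest.Agent.R208.HY

variable {E : Type} [NormedAddCommGroup E] [NormedSpace ℝ E] [FiniteDimensional ℝ E]
  {X : Set E} {φ : ℝ → E → E} {n k m m' r J : ℕ} {g : E → Fin m → ℂ}
  {g' : E × U k → Fin m' → ℂ} {p : MM m' → MM m} {θ : E → Ext E} {x : E → Ext E}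
  {eB : MM m → Ext (MM m)} {eB' : MM m' → Ext (MM m')}

/-- closed forms of degree `< J` on `B` are polynomials in `x0` (degree `r`) and `e` (degree 2). -/
structure LowB {V : Type} [NormedAddCommGroup V] [NormedSpace ℝ V] [FiniteDimensional ℝ V]
    (B : Set V) (e x0 : V → Ext V) (r J : ℕ) : Prop where
  se : Sm B e
  ce : Cl B e
  de : Hom 2 e
  sx : Sm B x0
  cx : Cl B x0
  dx : Hom r x0
  odd : ∀ (j : ℕ) (b : V → Ext V), Odd j → j < J → Sm B b → Cl B b → Hom j b → Coh B b 0
  even : ∀ (j : ℕ) (b : V → Ext V), Even j → j < J → Sm B b → Cl B b → Hom j b →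
    ∃ f : ℕ → ℝ, Coh B b (∑ a ∈ Finset.range (j / r + 1),
      f a • (x0 ^ a * e ^ ((j - r * a) / 2)))

theorem Gys.lowB {V : Type} [NormedAddCommGroup V] [NormedSpace ℝ V] [FiniteDimensional ℝ V]
    {B : Set V} {q : E → V} {e x0 : V → Ext V} {d : ℕ} (hG : Gys X B q e) (hB : Sub d B)
    (hBc : IsPreconnected B) (hr : Even r) (hr0 : 0 < r) (hX : Low X x r J) (sx : Sm X x)
    (cx : Cl X x) (s0 : Sm B x0) (c0 : Cl B x0) (d0 : Hom r x0) (h0 : Coh X x (pull q x0)) :
    LowB B e x0 r J where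
  se := hG.sm
  ce := hG.cl
  de := hG.hom
  sx := s0
  cx := c0
  dx := d0
  odd := hG.odd hr hX
  even := hG.even hB hBc hr hr0 hX sx cx s0 c0 d0 h0

theorem preconn_Quo (hg : Emb X φ g) (hc : IsPreconnected X) : IsPreconnected (Quo X g) := by
  have h1 : Quo X g = jj g '' X := rfl
  rw [h1]
  exact hc.image _ fun z hz => (hg.contDiffAt_jj hz).continuousAt.continuousWithinAt



end Crest.Agent.R208.HY
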