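import Crest.Agent.R208.TX9
import Crest.Agent.R208.CM6b
import Crest.Agent.R208.HY5

/-! Row 208, (8,2), block H2 (helper969).  HY6: (H2) on `B = US / S¹` and on
`B' = (US × S^(2l+1)) / S¹`, with no open hypothesis. -/

set_option autoImplicit false
set_option linter.unusedSectionVars false

open MeasureTheory Set Filter Topology Module
open scoped ContDiff RealInnerProductSpace
open Crest.GeometryTopology.Submanifold
open Crest.Agent.R241.DDefs
open Crest.Agent.R241.D2
open Crest.Agent.R208.F Crest.Agent.R208.FI Crest.Agent.R208.CW Crest.Agent.R208.T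
open Crest.Agent.R208.CM Crest.Agent.R208.HW
open Crest.Agent.R208.L (US)
open Crest.Agent.R208.LB (al)

noncomputable section

namespace Crest.Agent.R208.HY

variable {n N k m m₁ m₂ l : ℕ} {κ : ℝ} {S : Set (Euc N)} {G : Geo n N κ S} {p₀ : Euc N}
  {ι : Type} [Fintype ι] [DecidableEq ι] {W₀ : Euc N × Euc N → (ι × Fin 2 → Fin N) → ℝ}
  {x : Euc N → Ext (Euc N)} {g : Euc N × Euc N → Fin m₁ → ℂ}
  {g' : (Euc N × Euc N) × U l → Fin m₂ → ℂ} {pr : MM m₂ → MM m₁}
  {Fc : MM m₁ → Ext (MM m₁)} {Fc' : MM m₂ → Ext (MM m₂)}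

theorem low_US {h : GT.Bla G k} (D : T.XM h m W₀ p₀ x) :
    Low (US G) (F.pull Prod.fst x) k (n + k - 1) := by
  rw [← FV.Sph_S]
  exact D.low

theorem smap_fst_US : SMap (US G) S (Prod.fst : Euc N × Euc N → Euc N) :=
  ⟨fun _ _ => contDiffAt_fst, fun _ hz => hz.1.1⟩



end Crest.Agent.R208.HY
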