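import Mathlib
import Crest.Agent.R241.D2
import Crest.Prelude.Def_SubmanifoldMetric

-- ▼ part R208/K1
section

/-!
R208 (Blaschke), block G5, file K1: abstract spherical convexity.

`Star T K`: a set `K` of unit vectors of a finite dimensional subspace `T` such that every
`x ∈ T` is `h u0` plus an element of the polar cone of `K`, `u0 ∈ K`, `h = ⟪x,u0⟫ ≥ 0`.
-/

set_option autoImplicit false

open Set Filter Topology
open scoped RealInnerProductSpace

noncomputable section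

namespace Crest.Agent.R208.K

variable {E : Type*} [NormedAddCommGroup E] [InnerProductSpace ℝ E] [FiniteDimensional ℝ E]

/-- the Moreau property of links. -/
structure Star (T : Submodule ℝ E) (K : Set E) : Prop where
  sub : ∀ u ∈ K, u ∈ T
  unit : ∀ u ∈ K, ‖u‖ = 1
  star : ∀ x ∈ T, ∃ u0 ∈ K, 0 ≤ ⟪x, u0⟫ ∧ ∀ u ∈ K, ⟪u, x - ⟪x, u0⟫ • u0⟫ ≤ 0

/-- the polar cone in `T`. -/
def pol (T : Submodule ℝ E) (K : Set E) : Set E := {y | y ∈ T ∧ ∀ u ∈ K, ⟪u, y⟫ ≤ 0}

/-- lineality space. -/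
def lin (T : Submodule ℝ E) (K : Set E) : Submodule ℝ E :=
  T ⊓ (Submodule.span ℝ (pol T K))ᗮ

omit [FiniteDimensional ℝ E] in
lemma mem_lin {T : Submodule ℝ E} {K : Set E} {x : E} :
    x ∈ lin T K ↔ x ∈ T ∧ ∀ y ∈ pol T K, ⟪y, x⟫ = 0 := by
  rw [lin, Submodule.mem_inf]
  refine and_congr_right fun _ => ?_
  constructor
  · intro h y hy
    exact (Submodule.mem_orthogonal _ _).1 h y (Submodule.subset_span hy)
  · intro h
    rw [Submodule.mem_orthogonal]
    intro u hu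
    induction hu using Submodule.span_induction with
    | mem y hy => exact h y hy
    | zero => simp
    | add a b _ _ ha hb => rw [inner_add_left, ha, hb, add_zero]
    | smul c a _ ha => rw [inner_smul_left, ha, mul_zero]

namespace Star

variable {T : Submodule ℝ E} {K : Set E}

/-- bipolar: vectors which are `≤ 0` against the polar cone are multiples of elements of `K`. -/
lemma mem_of_bipolar (h : Star T K) {x : E} (hx : x ∈ T)
    (hp : ∀ y ∈ pol T K, ⟪x, y⟫ ≤ 0) (h0 : x ≠ 0) : (‖x‖⁻¹ : ℝ) • x ∈ K := by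
  obtain ⟨u0, hu0, h1, h2⟩ := h.star x hx
  set c : ℝ := ⟪x, u0⟫ with hc
  have hy : x - c • u0 ∈ pol T K :=
    ⟨T.sub_mem hx (T.smul_mem _ (h.sub u0 hu0)), h2⟩
  have h3 := hp _ hy
  have hun := h.unit u0 hu0
  have hu2 : ⟪u0, u0⟫ = 1 := by rw [real_inner_self_eq_norm_sq, hun]; norm_num
  have h4 : ‖x‖ ^ 2 ≤ c ^ 2 := by
    rw [inner_sub_right, inner_smul_right, real_inner_self_eq_norm_sq, ← hc] at h3
    nlinarith
  have h5 : ‖x - c • u0‖ ^ 2 ≤ 0 := by
    rw [← real_inner_self_eq_norm_sq, inner_sub_left, inner_sub_right, inner_sub_right,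
      inner_smul_left, inner_smul_left, inner_smul_right, inner_smul_right, hu2,
      real_inner_comm x u0, ← hc, real_inner_self_eq_norm_sq]
    simp only [conj_trivial]
    nlinarith
  have h6 : x = c • u0 := by
    have : ‖x - c • u0‖ = 0 := by nlinarith [norm_nonneg (x - c • u0)]
    exact sub_eq_zero.1 (norm_eq_zero.1 this)
  have hcpos : 0 < c := by
    rcases h1.lt_or_eq with h7 | h7
    · exact h7
    · exfalso; apply h0; rw [h6, ← h7, zero_smul]
  have h7 : ‖x‖ = c := by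
    conv_lhs => rw [h6]
    rw [norm_smul, hun, mul_one, Real.norm_of_nonneg hcpos.le]
  have h8 : (c⁻¹ : ℝ) • x = u0 := by
    conv_lhs => rw [h6]
    rw [smul_smul, inv_mul_cancel₀ hcpos.ne', one_smul]
  rw [h7, h8]
  exact hu0

/-- spherical convexity -/
lemma conv (h : Star T K) {u v : E} (hu : u ∈ K) (hv : v ∈ K) {a b : ℝ} (ha : 0 ≤ a) (hb : 0 ≤ b)
    (h0 : a • u + b • v ≠ 0) : (‖a • u + b • v‖⁻¹ : ℝ) • (a • u + b • v) ∈ K := by
  refine h.mem_of_bipolar (T.add_mem (T.smul_mem _ (h.sub u hu)) (T.smul_mem _ (h.sub v hv)))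
    (fun y hy => ?_) h0
  rw [inner_add_left, inner_smul_left, inner_smul_left]
  simp only [conj_trivial]
  have h1 := hy.2 u hu
  have h2 := hy.2 v hv
  nlinarith [mul_nonneg ha (neg_nonneg.2 h1), mul_nonneg hb (neg_nonneg.2 h2)]

/-- unit vectors of the lineality space are in `K`. -/
lemma lin_sub (h : Star T K) {x : E} (hx : x ∈ lin T K) (hn : ‖x‖ = 1) : x ∈ K := by
  have h1 := mem_lin.1 hx
  have h0 : x ≠ 0 := by
    intro h2; rw [h2, norm_zero] at hn; norm_num at hn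
  have := h.mem_of_bipolar h1.1 (fun y hy => by rw [real_inner_comm, h1.2 y hy]) h0
  rwa [hn, inv_one, one_smul] at this


/-- a point of the polar cone which is negative off the lineality space. -/
lemma exists_sep (_h : Star T K) : ∃ x ∈ pol T K, ∀ u ∈ T, (∀ y ∈ pol T K, ⟪u, y⟫ ≤ 0) →
    0 ≤ ⟪u, x⟫ → u ∈ lin T K := by
  have hfg : (Submodule.span ℝ (pol T K)).FG := IsNoetherian.noetherian _
  obtain ⟨s, hs, hspan⟩ := Submodule.fg_span_iff_fg_span_finset_subset (pol T K) |>.1 hfg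
  have hsum : ∑ y ∈ s, y ∈ pol T K := by
    refine ⟨T.sum_mem fun y hy => (hs hy).1, fun u hu => ?_⟩
    rw [inner_sum]
    exact Finset.sum_nonpos fun y hy => (hs hy).2 u hu
  refine ⟨∑ y ∈ s, y, hsum, fun u huT hu h0 => ?_⟩
  rw [inner_sum] at h0
  have hz : ∀ y ∈ s, ⟪u, y⟫ = 0 := by
    have h1 : ∀ y ∈ s, ⟪u, y⟫ ≤ 0 := fun y hy => hu y (hs hy)
    have h2 : ∑ y ∈ s, ⟪u, y⟫ = 0 := le_antisymm (Finset.sum_nonpos h1) h0
    exact (Finset.sum_eq_zero_iff_of_nonpos h1).1 h2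
  rw [lin, Submodule.mem_inf]
  refine ⟨huT, ?_⟩
  rw [hspan, Submodule.mem_orthogonal]
  intro w hw
  induction hw using Submodule.span_induction with
  | mem y hy => rw [real_inner_comm]; exact hz y hy
  | zero => simp
  | add a b _ _ ha hb => rw [inner_add_left, ha, hb, add_zero]
  | smul c a _ ha => rw [inner_smul_left, ha, mul_zero]

lemma nontrivial (h : Star T K) : 1 ≤ Module.finrank ℝ (lin T K) := by
  obtain ⟨x, hx, hsep⟩ := h.exists_sep
  obtain ⟨u0, hu0, h1, -⟩ := h.star x hx.1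
  have h2 : u0 ∈ lin T K := hsep u0 (h.sub u0 hu0) (fun y hy => hy.2 u0 hu0)
    (by rw [real_inner_comm]; exact h1)
  have h3 : u0 ≠ 0 := by
    intro h4; have := h.unit u0 hu0; rw [h4, norm_zero] at this; norm_num at this
  rw [Nat.one_le_iff_ne_zero]
  intro h4
  have := Submodule.finrank_eq_zero.1 h4
  rw [this, Submodule.mem_bot] at h2
  exact h3 h2

/-- `k+1` orthonormal elements of `K`. -/
def Bad (k : ℕ) (K : Set E) : Prop :=
  ∃ e : Fin (k + 1) → E, Orthonormal ℝ e ∧ ∀ i, e i ∈ K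


/-- if `K` has no `k+1` orthonormal vectors and lineality at least `k`, it is the unit sphere of
its lineality space, which has dimension `k`. -/
lemma linear_of_not_bad (h : Star T K) {k : ℕ} (hk : k ≤ Module.finrank ℝ (lin T K))
    (hb : ¬ Bad k K) : Module.finrank ℝ (lin T K) = k ∧ ∀ u ∈ K, u ∈ lin T K := by
  set L := lin T K with hL
  set b := stdOrthonormalBasis ℝ L with hbdef
  have hbn : ∀ i, (b i : E) ∈ K := fun i =>
    h.lin_sub (b i).2 (by rw [← Submodule.coe_norm]; exact b.orthonormal.1 i)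
  have hbo : Orthonormal ℝ (fun i => (b i : E)) :=
    b.orthonormal.comp_linearIsometry L.subtypeₗᵢ
  have h1 : Module.finrank ℝ L = k := by
    by_contra hne
    have hlt : k + 1 ≤ Module.finrank ℝ L := by omega
    apply hb
    refine ⟨fun i => b (Fin.castLE hlt i), ?_, fun i => hbn _⟩
    exact hbo.comp _ (Fin.castLE_injective hlt)
  refine ⟨h1, fun u hu => ?_⟩
  by_contra hnL
  apply hb
  -- the component orthogonal to `L`
  set w : E := u - L.starProjection u with hw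
  have hw0 : w ≠ 0 := by
    intro h2
    apply hnL
    have : u = L.starProjection u := sub_eq_zero.1 h2
    rw [this]
    exact Submodule.starProjection_apply_mem _ _
  have hwo : ∀ x ∈ L, ⟪x, w⟫ = 0 := fun x hx => by
    have := Submodule.sub_starProjection_mem_orthogonal (K := L) u
    exact (Submodule.mem_orthogonal _ _).1 this x hx
  have hwT : w ∈ T := T.sub_mem (h.sub u hu) (by
    have := Submodule.starProjection_apply_mem L u
    exact (mem_lin.1 this).1)
  have hwK : (‖w‖⁻¹ : ℝ) • w ∈ K := by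
    refine h.mem_of_bipolar hwT (fun y hy => ?_) hw0
    rw [hw, inner_sub_left]
    have h3 : ⟪L.starProjection u, y⟫ = 0 := by
      rw [real_inner_comm]
      exact (mem_lin.1 (Submodule.starProjection_apply_mem L u)).2 y hy
    rw [h3, sub_zero]
    exact hy.2 u hu
  have hwn : ‖w‖ ≠ 0 := norm_ne_zero_iff.2 hw0
  refine ⟨Fin.snoc (α := fun _ => E) (fun i : Fin k => (b (Fin.cast h1.symm i) : E))
    ((‖w‖⁻¹ : ℝ) • w), ?_, ?_⟩
  · rw [orthonormal_iff_ite]
    intro i j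
    refine Fin.lastCases ?_ (fun i => ?_) i <;> refine Fin.lastCases ?_ (fun j => ?_) j
    · simp only [Fin.snoc_last, if_true]
      rw [real_inner_self_eq_norm_sq, norm_smul, norm_inv, norm_norm, inv_mul_cancel₀ hwn, one_pow]
    · simp only [Fin.snoc_last, Fin.snoc_castSucc]
      rw [if_neg (by simp [Fin.ext_iff]; omega), inner_smul_left, real_inner_comm,
        hwo _ (b _).2, mul_zero]
    · simp only [Fin.snoc_last, Fin.snoc_castSucc]
      rw [if_neg (by simp [Fin.ext_iff]; omega), inner_smul_right, hwo _ (b _).2, mul_zero]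
    · simp only [Fin.snoc_castSucc]
      have := (orthonormal_iff_ite.1 hbo) (Fin.cast h1.symm i) (Fin.cast h1.symm j)
      rw [this]
      simp [Fin.ext_iff]
  · intro i
    refine Fin.lastCases ?_ (fun i => ?_) i
    · simpa only [Fin.snoc_last] using hwK
    · simpa only [Fin.snoc_castSucc] using hbn _

end Star

end Crest.Agent.R208.K
end
end

-- ▼ part R208/K2

/-!
R208 (Blaschke), block G5, file K2: interface `Hyp` (first variation inequality, Hopf-Rinow,
minimality up to the diameter) and the Moreau property of the links.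
-/

set_option autoImplicit false

open Set Filter Topology
open scoped ContDiff RealInnerProductSpace
open Crest.GeometryTopology.Submanifold
open Crest.Agent.R241.DDefs
open Crest.Agent.R241.D2

noncomputable section

namespace Crest.Agent.R208.K

variable {n N : ℕ} {κ : ℝ} {S : Set (Euc N)} (G : Geo n N κ S)

/-- unit tangent bundle -/
def US : Set (Euc N × Euc N) := {z | z ∈ TS G ∧ ‖z.2‖ = 1}

/-- The interface: `S` compact, every unit speed geodesic minimises up to `D = diam`. -/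
structure Hyp (D : ℝ) : Prop where
  hD : 0 < D
  hn : 1 ≤ n
  cpt : IsCompact S
  ne : S.Nonempty
  sym : ∀ p ∈ S, ∀ q ∈ S, intrinsicDist S p q = intrinsicDist S q p
  cont : ContinuousOn (fun x : Euc N × Euc N => intrinsicDist S x.1 x.2) (S ×ˢ S)
  le : ∀ p ∈ S, ∀ q ∈ S, intrinsicDist S p q ≤ D
  mini : ∀ z ∈ US G, ∀ t, 0 ≤ t → t ≤ D → intrinsicDist S z.1 (fl G (z, t)).1 = t
  hr : ∀ p ∈ S, ∀ q ∈ S, ∃ v ∈ G.T p, ‖v‖ = 1 ∧ (fl G ((p, v), intrinsicDist S p q)).1 = q
  f1 : ∃ C : ℝ, 0 ≤ C ∧ ∀ z ∈ US G, ∀ l, D / 2 ≤ l → l ≤ D → ∀ p' ∈ S, ∀ q' ∈ S,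
    intrinsicDist S p' q' ≤ l - ⟪z.2, p' - z.1⟫ + ⟪(fl G (z, l)).2, q' - (fl G (z, l)).1⟫
      + C * (‖p' - z.1‖ ^ 2 + ‖q' - (fl G (z, l)).1‖ ^ 2)
  v4 : ∀ z ∈ US G, ∀ t, 0 < t → t < D → ∀ b ∈ G.T z.1,
    fderiv ℝ (Exp G z.1) (t • z.2) b = 0 → b = 0

/-- the link at `p` towards `q`: unit initial velocities at `p` of geodesics which are at `q` at
time `D`. -/
def Lk (D : ℝ) (p q : Euc N) : Set (Euc N) :=
  {v | v ∈ G.T p ∧ ‖v‖ = 1 ∧ (fl G ((p, v), D)).1 = q}

/-! ### elementary facts -/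

lemma fl_US {z : Euc N × Euc N} (hz : z ∈ US G) (t : ℝ) : fl G (z, t) ∈ US G :=
  ⟨fl_mem G hz.1 t, by rw [norm_fl G hz.1, hz.2]⟩

lemma rev_US {z : Euc N × Euc N} (hz : z ∈ US G) : rev z ∈ US G :=
  ⟨rev_mem G hz.1, by simpa [rev] using hz.2⟩

/-- going back along a geodesic. -/
lemma fl_rev_back {z : Euc N × Euc N} (hz : z ∈ TS G) (t : ℝ) :
    fl G (rev (fl G (z, t)), t) = rev z := by
  have h1 := (fl_rev G (complete G (fl_mem G hz t) (-t))).2
  rw [neg_neg] at h1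
  rw [h1, ← fl_add' G hz t (-t), add_neg_cancel, fl_zero]

lemma isClosed_US : IsClosed (US G) :=
  (isClosed_TS G).inter (isClosed_eq (continuous_snd.norm) continuous_const)

lemma isCompact_US (hS : IsCompact S) : IsCompact (US G) := by
  have h1 : IsCompact (S ×ˢ Metric.closedBall (0 : Euc N) 1) :=
    hS.prod (isCompact_closedBall _ _)
  refine h1.of_isClosed_subset (isClosed_US G) ?_
  rintro z ⟨⟨h2, -⟩, h3⟩
  exact ⟨h2, by rw [Metric.mem_closedBall, dist_zero_right, h3]⟩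

lemma continuousAt_fl {z : Euc N × Euc N} (hz : z ∈ TS G) (t : ℝ) :
    ContinuousAt (fl G) (z, t) := (contDiffAt_fl' G hz t).continuousAt

lemma hasDerivAt_fl' {z : Euc N × Euc N} (hz : z ∈ TS G) (t : ℝ) :
    HasDerivAt (fun s => fl G (z, s)) (X G (fl G (z, t))) t := hasDerivAt_fl G (complete G hz t)

lemma hasDerivAt_fst {z : Euc N × Euc N} (hz : z ∈ TS G) (t : ℝ) :
    HasDerivAt (fun s => (fl G (z, s)).1) (fl G (z, t)).2 t := hda_fst (hasDerivAt_fl' G hz t)

/-- second order Taylor estimate, uniform on the unit tangent bundle. -/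
lemma taylor2 (hS : IsCompact S) : ∃ M : ℝ, 0 ≤ M ∧ ∀ z ∈ US G, ∀ t : ℝ,
    ‖(fl G (z, t)).1 - z.1 - t • z.2‖ ≤ M * t ^ 2 := by
  obtain ⟨M, hM⟩ := ((isCompact_US G hS).image_of_continuousOn
    ((contDiff_X G).continuous.continuousOn)).isBounded.exists_norm_le
  have hM' : ∀ z ∈ US G, ‖(X G z).2‖ ≤ max M 0 := fun z hz =>
    (norm_snd_le _).trans ((hM _ (mem_image_of_mem _ hz)).trans (le_max_left _ _))
  have h0 : (0:ℝ) ≤ max M 0 := le_max_right _ _
  refine ⟨max M 0, h0, fun z hz t => ?_⟩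
  -- first order estimate for the velocity
  have h1 : ∀ s : ℝ, ‖(fl G (z, s)).2 - z.2‖ ≤ max M 0 * |s| := by
    intro s
    have := Convex.norm_image_sub_le_of_norm_hasDerivWithin_le (𝕜 := ℝ) (s := (univ : Set ℝ))
      (f := fun s => (fl G (z, s)).2) (f' := fun s => (X G (fl G (z, s))).2) (C := max M 0)
      (x := 0) (y := s) (fun x _ => (hda_snd (hasDerivAt_fl' G hz.1 x)).hasDerivWithinAt)
      (fun x _ => hM' _ (fl_US G hz x)) convex_univ (mem_univ _) (mem_univ _)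
    simpa [fl_zero] using this
  have h2 := Convex.norm_image_sub_le_of_norm_hasDerivWithin_le (𝕜 := ℝ)
      (s := uIcc 0 t) (f := fun s => (fl G (z, s)).1 - s • z.2)
      (f' := fun s => (fl G (z, s)).2 - z.2) (C := max M 0 * |t|) (x := 0) (y := t)
      (fun x _ => by
        have h3 := (hasDerivAt_fst G hz.1 x).sub ((hasDerivAt_id x).smul_const z.2)
        simp only [id_eq, one_smul] at h3
        exact h3.hasDerivWithinAt)
      (fun x hx => (h1 x).trans (by
        refine mul_le_mul_of_nonneg_left ?_ h0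
        rw [mem_uIcc] at hx
        rcases hx with hx | hx
        · rw [abs_of_nonneg hx.1, abs_of_nonneg (hx.1.trans hx.2)]; exact hx.2
        · rw [abs_of_nonpos hx.2, abs_of_nonpos (hx.1.trans hx.2)]; linarith [hx.1]))
      (convex_uIcc _ _) left_mem_uIcc right_mem_uIcc
  simp only [fl_zero, zero_smul, sub_zero] at h2
  rw [sub_right_comm] at h2
  refine h2.trans (le_of_eq ?_)
  rw [Real.norm_eq_abs, mul_assoc, abs_mul_abs_self, sq]

variable {G}

namespace Hyp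

variable {D : ℝ}

lemma lk_US {p q v : Euc N} (hp : p ∈ S) (hv : v ∈ Lk G D p q) : (p, v) ∈ US G :=
  ⟨⟨hp, hv.1⟩, hv.2.1⟩

lemma dist_of_lk (H : Hyp G D) {p q v : Euc N} (hp : p ∈ S) (hv : v ∈ Lk G D p q) :
    intrinsicDist S p q = D := by
  have := H.mini (p, v) (lk_US hp hv) D H.hD.le le_rfl
  rwa [hv.2.2] at this

/-- the back direction. -/
lemma neg_mem_lk {z : Euc N × Euc N} (hz : z ∈ US G) :
    -(fl G (z, D)).2 ∈ Lk G D (fl G (z, D)).1 z.1 := by
  have h1 := fl_US G hz D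
  have h2 := fl_rev_back G hz.1 D
  refine ⟨(G.T _).neg_mem h1.1.2, by rw [norm_neg]; exact h1.2, ?_⟩
  have h3 : rev (fl G (z, D)) = ((fl G (z, D)).1, -(fl G (z, D)).2) := rfl
  rw [← h3, h2]
  rfl

/-- first variation seen from `q` towards `p`. -/
lemma f1_lk (H : Hyp G D) : ∃ C : ℝ, 0 ≤ C ∧ ∀ q ∈ S, ∀ p ∈ S, ∀ u ∈ Lk G D q p, ∀ q' ∈ S,
    intrinsicDist S p q' ≤ D - ⟪u, q' - q⟫ + C * ‖q' - q‖ ^ 2 := by
  obtain ⟨C, hC, h⟩ := H.f1
  refine ⟨C, hC, fun q hq p hp u hu q' hq' => ?_⟩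
  have h1 := h (q, u) (lk_US hq hu) D (by linarith [H.hD]) le_rfl q' hq' p hp
  rw [hu.2.2, sub_self, inner_zero_right, norm_zero] at h1
  rw [H.sym p hp q' hq']
  simpa using h1

/-- the main limiting construction: for `x ∈ T q` there are points at distance `D` from `p` in the
direction `x - h u0`. -/
lemma approach (H : Hyp G D) {p q : Euc N} (hp : p ∈ S) (hq : q ∈ S)
    (hpq : intrinsicDist S p q = D) {x : Euc N} (hx : x ∈ G.T q) :
    ∃ u0 ∈ Lk G D q p, 0 ≤ ⟪x, u0⟫ ∧ ∃ (s : ℕ → ℝ) (y : ℕ → Euc N),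
      (∀ j, 0 < s j) ∧ Tendsto s atTop (𝓝 0) ∧ (∀ j, y j ∈ S ∧ intrinsicDist S p (y j) = D) ∧
      Tendsto (fun j => (s j)⁻¹ • (y j - q)) atTop (𝓝 (x - ⟪x, u0⟫ • u0)) := by
  obtain ⟨C, hC, hF⟩ := H.f1
  obtain ⟨C', hC', hF'⟩ := H.f1_lk
  obtain ⟨M, hM, hT⟩ := taylor2 G H.cpt
  -- the points `y₀ j`
  set s0 : ℕ → ℝ := fun j => 1 / ((j : ℝ) + 1) with hs0
  have hs0pos : ∀ j, 0 < s0 j := fun j => by positivity
  have hs0lim : Tendsto s0 atTop (𝓝 0) := tendsto_one_div_add_atTop_nhds_zero_nat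
  set y0 : ℕ → Euc N := fun j => (fl G ((q, x), s0 j)).1 with hy0
  have hqx : ((q, x) : Euc N × Euc N) ∈ TS G := ⟨hq, hx⟩
  have hy0S : ∀ j, y0 j ∈ S := fun j => (fl_mem G hqx _).1
  have hslope : Tendsto (fun j => (s0 j)⁻¹ • (y0 j - q)) atTop (𝓝 x) := by
    have h1 := hasDerivAt_fst G hqx 0
    rw [fl_zero] at h1
    have h2 := hasDerivAt_iff_tendsto_slope_zero.1 h1
    have h3 : Tendsto s0 atTop (𝓝[≠] 0) :=
      tendsto_nhdsWithin_iff.2 ⟨hs0lim, Eventually.of_forall fun j => (hs0pos j).ne'⟩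
    have h4 := h2.comp h3
    refine h4.congr fun j => ?_
    simp only [Function.comp_apply, zero_add, fl_zero, hy0]
  have hy0lim : Tendsto y0 atTop (𝓝 q) := by
    have h1 := (hs0lim.smul hslope).add_const q
    rw [zero_smul, zero_add] at h1
    refine h1.congr fun j => ?_
    rw [smul_smul, mul_inv_cancel₀ (hs0pos j).ne', one_smul, sub_add_cancel]
  -- minimal geodesics from `p`
  choose v0 hv0T hv0n hv0 using fun j => H.hr p hp (y0 j) (hy0S j)
  have hz0 : ∀ j, ((p, v0 j) : Euc N × Euc N) ∈ US G := fun j => ⟨⟨hp, hv0T j⟩, hv0n j⟩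
  obtain ⟨zi, hzi, φ, hφ, hlim⟩ := (isCompact_US G H.cpt).tendsto_subseq hz0
  have hφt := hφ.tendsto_atTop
  set s : ℕ → ℝ := s0 ∘ φ with hs
  set y : ℕ → Euc N := y0 ∘ φ with hy
  set z : ℕ → Euc N × Euc N := (fun j => (p, v0 j)) ∘ φ with hz
  set l : ℕ → ℝ := fun j => intrinsicDist S p (y j) with hl
  have hsp : ∀ j, 0 < s j := fun j => hs0pos _
  have hsl : Tendsto s atTop (𝓝 0) := hs0lim.comp hφt
  have hyS : ∀ j, y j ∈ S := fun j => hy0S _
  have hyl : Tendsto y atTop (𝓝 q) := hy0lim.comp hφt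
  have hysl : Tendsto (fun j => (s j)⁻¹ • (y j - q)) atTop (𝓝 x) := hslope.comp hφt
  have hzU : ∀ j, z j ∈ US G := fun j => hz0 _
  have hz1 : ∀ j, (z j).1 = p := fun j => rfl
  have hfl : ∀ j, (fl G (z j, l j)).1 = y j := fun j => hv0 _
  have hzi1 : zi.1 = p := by
    have h1 : Tendsto (fun j => (z j).1) atTop (𝓝 zi.1) := (continuous_fst.tendsto _).comp hlim
    have h2 : Tendsto (fun j => (z j).1) atTop (𝓝 p) := tendsto_const_nhds
    exact tendsto_nhds_unique h1 h2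
  have hlD : ∀ j, l j ≤ D := fun j => H.le _ hp _ (hyS j)
  have hll : Tendsto l atTop (𝓝 D) := by
    have h1 : Tendsto (fun j => ((p, y j) : Euc N × Euc N)) atTop (𝓝[S ×ˢ S] (p, q)) :=
      tendsto_nhdsWithin_iff.2 ⟨(tendsto_const_nhds.prodMk_nhds hyl),
        Eventually.of_forall fun j => ⟨hp, hyS j⟩⟩
    have h2 := (H.cont (p, q) ⟨hp, hq⟩).tendsto.comp h1
    simp only [hpq] at h2
    exact h2
  have hflim : Tendsto (fun j => fl G (z j, l j)) atTop (𝓝 (fl G (zi, D))) :=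
    (continuousAt_fl G hzi.1 D).tendsto.comp (hlim.prodMk_nhds hll)
  have hziq : (fl G (zi, D)).1 = q := by
    have h1 : Tendsto (fun j => (fl G (z j, l j)).1) atTop (𝓝 (fl G (zi, D)).1) :=
      (continuous_fst.tendsto _).comp hflim
    exact tendsto_nhds_unique (h1.congr hfl) hyl
  set u0 : Euc N := -(fl G (zi, D)).2 with hu0
  have hu0L : u0 ∈ Lk G D q p := by
    have := neg_mem_lk (D := D) hzi
    rwa [hziq, hzi1] at this
  have hwl : Tendsto (fun j => (fl G (z j, l j)).2) atTop (𝓝 (-u0)) := by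
    rw [hu0, neg_neg]
    exact (continuous_snd.tendsto _).comp hflim
  have hyq0 : Tendsto (fun j => ‖y j - q‖ * ‖(s j)⁻¹ • (y j - q)‖) atTop (𝓝 0) := by
    have h1 : Tendsto (fun j => ‖y j - q‖) atTop (𝓝 0) := by
      have := (hyl.sub_const q).norm
      simpa using this
    simpa using h1.mul hysl.norm
  -- upper bound for `(D - l)/s`
  have hup : ∀ᶠ j in atTop, (s j)⁻¹ * (D - l j) ≤
      -⟪(fl G (z j, l j)).2, (s j)⁻¹ • (y j - q)⟫
        + C * (‖y j - q‖ * ‖(s j)⁻¹ • (y j - q)‖) := by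
    have h1 : ∀ᶠ j in atTop, D / 2 ≤ l j :=
      (hll.eventually (lt_mem_nhds (by linarith [H.hD] : D / 2 < D))).mono fun j hj => hj.le
    filter_upwards [h1] with j hj
    have h2 := hF (z j) (hzU j) (l j) hj (hlD j) p hp q hq
    rw [hpq, hz1, sub_self, inner_zero_right, norm_zero, hfl] at h2
    have h3 : D - l j ≤ -⟪(fl G (z j, l j)).2, y j - q⟫ + C * ‖y j - q‖ ^ 2 := by
      rw [← neg_sub (y j) q, inner_neg_right, norm_neg] at h2
      nlinarith
    have h4 := mul_le_mul_of_nonneg_left h3 (inv_pos.2 (hsp j)).le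
    refine h4.trans (le_of_eq ?_)
    rw [inner_smul_right, norm_smul, Real.norm_of_nonneg (inv_pos.2 (hsp j)).le]
    ring
  have hlow : ∀ j, ⟪u0, (s j)⁻¹ • (y j - q)⟫ - C' * (‖y j - q‖ * ‖(s j)⁻¹ • (y j - q)‖) ≤
      (s j)⁻¹ * (D - l j) := by
    intro j
    have h2 := hF' q hq p hp u0 hu0L (y j) (hyS j)
    have h3 : ⟪u0, y j - q⟫ - C' * ‖y j - q‖ ^ 2 ≤ D - l j := by
      simp only [hl]; linarith
    have h4 := mul_le_mul_of_nonneg_left h3 (inv_pos.2 (hsp j)).le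
    refine le_trans (le_of_eq ?_) h4
    rw [inner_smul_right, norm_smul, Real.norm_of_nonneg (inv_pos.2 (hsp j)).le]
    ring
  have hquot : Tendsto (fun j => (s j)⁻¹ * (D - l j)) atTop (𝓝 ⟪x, u0⟫) := by
    refine tendsto_of_tendsto_of_tendsto_of_le_of_le' (g := fun j =>
      ⟪u0, (s j)⁻¹ • (y j - q)⟫ - C' * (‖y j - q‖ * ‖(s j)⁻¹ • (y j - q)‖)) (h := fun j =>
      -⟪(fl G (z j, l j)).2, (s j)⁻¹ • (y j - q)⟫
        + C * (‖y j - q‖ * ‖(s j)⁻¹ • (y j - q)‖)) ?_ ?_ (Eventually.of_forall hlow) hup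
    · have h1 : Tendsto (fun j => ⟪u0, (s j)⁻¹ • (y j - q)⟫) atTop (𝓝 ⟪u0, x⟫) :=
        (tendsto_const_nhds (x := u0)).inner hysl
      have h2 := h1.sub (hyq0.const_mul C')
      rwa [mul_zero, sub_zero, real_inner_comm] at h2
    · have h1 : Tendsto (fun j => -⟪(fl G (z j, l j)).2, (s j)⁻¹ • (y j - q)⟫) atTop
          (𝓝 (-⟪-u0, x⟫)) := (hwl.inner hysl).neg
      have h2 := h1.add (hyq0.const_mul C)
      rwa [inner_neg_left, neg_neg, mul_zero, add_zero, real_inner_comm] at h2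
  have hpos : 0 ≤ ⟪x, u0⟫ :=
    ge_of_tendsto' hquot fun j => mul_nonneg (inv_pos.2 (hsp j)).le (by linarith [hlD j])
  refine ⟨u0, hu0L, hpos, s, fun j => (fl G (z j, D)).1, hsp, hsl, fun j => ⟨?_, ?_⟩, ?_⟩
  · exact (fl_US G (hzU j) D).1.1
  · have := H.mini (z j) (hzU j) D H.hD.le le_rfl
    rwa [hz1] at this
  -- the limit
  have hkey : ∀ j, (s j)⁻¹ • ((fl G (z j, D)).1 - q) = (s j)⁻¹ • (y j - q)
      + ((s j)⁻¹ * (D - l j)) • (fl G (z j, l j)).2
      + (s j)⁻¹ • ((fl G (z j, D)).1 - y j - (D - l j) • (fl G (z j, l j)).2) := by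
    intro j
    rw [mul_smul, ← smul_add, ← smul_add]
    congr 1
    abel
  have herr : Tendsto (fun j => (s j)⁻¹ • ((fl G (z j, D)).1 - y j
      - (D - l j) • (fl G (z j, l j)).2)) atTop (𝓝 0) := by
    rw [tendsto_zero_iff_norm_tendsto_zero]
    have h1 : Tendsto (fun j => M * ((s j)⁻¹ * (D - l j)) * (D - l j)) atTop (𝓝 0) := by
      have h2 : Tendsto (fun j => D - l j) atTop (𝓝 0) := by
        have := hll.const_sub D
        rwa [sub_self] at this
      have := (hquot.const_mul M).mul h2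
      rwa [mul_zero] at this
    refine squeeze_zero (fun j => norm_nonneg _) (fun j => ?_) h1
    have h2 := hT (fl G (z j, l j)) (fl_US G (hzU j) _) (D - l j)
    rw [← fl_add' G (hzU j).1, add_sub_cancel, hfl] at h2
    rw [norm_smul, Real.norm_of_nonneg (inv_pos.2 (hsp j)).le]
    refine (mul_le_mul_of_nonneg_left h2 (inv_pos.2 (hsp j)).le).trans (le_of_eq ?_)
    ring
  have hall := (hysl.add (hquot.smul hwl)).add herr
  rw [add_zero, smul_neg, ← sub_eq_add_neg] at hall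
  exact hall.congr fun j => (hkey j).symm

/-- The Moreau property of links. -/
theorem star (H : Hyp G D) {p q : Euc N} (hp : p ∈ S) (hq : q ∈ S)
    (hpq : intrinsicDist S p q = D) : Star (G.T q) (Lk G D q p) := by
  refine ⟨fun u hu => hu.1, fun u hu => hu.2.1, fun x hx => ?_⟩
  obtain ⟨u0, hu0, h0, s, y, hs, hsl, hy, hyl⟩ := H.approach hp hq hpq hx
  refine ⟨u0, hu0, h0, fun u hu => ?_⟩
  obtain ⟨C, hC, hF⟩ := H.f1_lk
  have h1 : ∀ j, ⟪u, (s j)⁻¹ • (y j - q)⟫ ≤ C * (s j * ‖(s j)⁻¹ • (y j - q)‖ ^ 2) := by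
    intro j
    have h2 := hF q hq p hp u hu (y j) (hy j).1
    rw [(hy j).2] at h2
    have h3 : ⟪u, y j - q⟫ ≤ C * ‖y j - q‖ ^ 2 := by linarith
    have h4 := mul_le_mul_of_nonneg_left h3 (inv_pos.2 (hs j)).le
    rw [inner_smul_right]
    refine h4.trans (le_of_eq ?_)
    rw [norm_smul, Real.norm_of_nonneg (inv_pos.2 (hs j)).le]
    have := (hs j).ne'
    field_simp
  have h5 : Tendsto (fun j => ⟪u, (s j)⁻¹ • (y j - q)⟫) atTop (𝓝 ⟪u, x - ⟪x, u0⟫ • u0⟫) :=
    (tendsto_const_nhds (x := u)).inner hyl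
  have h6 : Tendsto (fun j => C * (s j * ‖(s j)⁻¹ • (y j - q)‖ ^ 2)) atTop (𝓝 0) := by
    have := (hsl.mul (hyl.norm.pow 2)).const_mul C
    rwa [zero_mul, mul_zero] at this
  exact le_of_tendsto_of_tendsto' h5 h6 h1

end Hyp

end Crest.Agent.R208.K
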