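import Crest.Agent.R208.HS1
import Crest.Agent.R208.G3
import Crest.Agent.R208.G3b
import Mathlib
import Crest.Agent.R208.G3s
import Crest.Agent.R208.K5

-- ▼ part R208/HS2
section

/-!
R208, block G7 (helper88), file HS2: the differential of `exp` at `ξ` and `-ξ`; the point symmetries.
-/

set_option autoImplicit false

open Set Filter Topology
open scoped ContDiff RealInnerProductSpace
open Crest.GeometryTopology.Submanifold
open Crest.Agent.R241.DDefs
open Crest.Agent.R241.D2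
open Crest.Agent.R241.D3b
open Crest.Agent.R241.D3c

noncomputable section

namespace Crest.Agent.R208.HS

variable {n N : ℕ} {κ : ℝ} {S : Set (Euc N)} {G : Geo n N κ S} {p v w : Euc N}

/-- Gauss lemma, squared norm of `dExp`. -/
lemma norm_sq_fderiv (hp : p ∈ S) (hv : v ∈ G.T p) (hv1 : ‖v‖ = 1) (hw : w ∈ G.T p)
    (hvw : ⟪v, w⟫ = 0) (a : ℝ) {t : ℝ} (ht : 0 < t) :
    t ^ 2 * ‖fderiv ℝ (Exp G p) (t • v) (a • v + w)‖ ^ 2 = t ^ 2 * a ^ 2 + ‖J G p v w t‖ ^ 2 := by
  have htv := (G.T p).smul_mem t hv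
  have htw := (G.T p).smul_mem t hw
  have h1 : t • fderiv ℝ (Exp G p) (t • v) (a • v + w) =
      a • Vel G p (t • v) + J G p v w t := by
    rw [← fderiv_Exp_self G hp htv, ← fderiv_Exp_smul hp hv hw]
    simp only [map_add, map_smul, smul_add]
    rw [smul_comm]
  have h2 : ⟪Vel G p (t • v), J G p v w t⟫ = 0 := by
    rw [← fderiv_Exp_smul hp hv hw, real_inner_comm, gauss G hp htv htw, inner_smul_left,
      inner_smul_right, hvw]
    simp
  have h3 : ‖Vel G p (t • v)‖ = t := by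
    rw [norm_Vel G hp htv, norm_smul, hv1, mul_one, Real.norm_eq_abs, abs_of_pos ht]
  have h4 : ‖t • fderiv ℝ (Exp G p) (t • v) (a • v + w)‖ ^ 2 =
      t ^ 2 * ‖fderiv ℝ (Exp G p) (t • v) (a • v + w)‖ ^ 2 := by
    rw [norm_smul, mul_pow, Real.norm_eq_abs, sq_abs]
  rw [← h4, h1, norm_add_sq_real, inner_smul_left, h2, norm_smul, h3, mul_pow, Real.norm_eq_abs,
    sq_abs]
  simp
  ring

lemma exists_polar (hv : v ∈ G.T p) (h0 : v ≠ 0) :
    ∃ u ∈ G.T p, ‖u‖ = 1 ∧ v = ‖v‖ • u := by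
  have hn : ‖v‖ ≠ 0 := norm_ne_zero_iff.2 h0
  refine ⟨‖v‖⁻¹ • v, (G.T p).smul_mem _ hv, ?_, ?_⟩
  · rw [norm_smul, norm_inv, norm_norm, inv_mul_cancel₀ hn]
  · rw [smul_smul, mul_inv_cancel₀ hn, one_smul]

/-- `dExp` at `-ξ` and at `ξ` have the same metric. -/
theorem norm_fderiv_neg (hper : Per G) (hpol : ∀ v ∈ G.T p, ‖v‖ = 1 → PolarAt G p v) (hp : p ∈ S)
    {ξ η : Euc N} (hξ : ξ ∈ G.T p) (hη : η ∈ G.T p) (hle : ‖ξ‖ ≤ Real.pi) :
    ‖fderiv ℝ (Exp G p) (-ξ) η‖ = ‖fderiv ℝ (Exp G p) ξ η‖ := by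
  by_cases h0 : ξ = 0
  · rw [h0, neg_zero]
  obtain ⟨v, hv, hv1, hξv⟩ := exists_polar hξ h0
  set t := ‖ξ‖ with ht
  have htpos : 0 < t := norm_pos_iff.2 h0
  set a := ⟪v, η⟫ with ha
  set w := η - a • v with hw
  have hwT : w ∈ G.T p := (G.T p).sub_mem hη ((G.T p).smul_mem a hv)
  have hvw : ⟪v, w⟫ = 0 := by
    rw [hw, inner_sub_right, inner_smul_right, real_inner_self_eq_norm_sq, hv1, ← ha]
    ring
  have hη1 : η = a • v + w := by rw [hw]; abel
  have hη2 : η = (-a) • (-v) + w := by rw [hη1]; simp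
  have hnv : -v ∈ G.T p := (G.T p).neg_mem hv
  have hnv1 : ‖-v‖ = 1 := by rw [norm_neg, hv1]
  have hnvw : ⟪-v, w⟫ = 0 := by rw [inner_neg_left, hvw, neg_zero]
  have e1 := norm_sq_fderiv hp hv hv1 hwT hvw a htpos
  have e2 := norm_sq_fderiv hp hnv hnv1 hwT hnvw (-a) htpos
  rw [← hη1, ← hξv] at e1
  rw [← hη2, smul_neg, ← hξv, norm_J_neg hper hp hv hv1 hwT hvw (hpol v hv hv1)
    (hpol _ hnv hnv1) ⟨htpos.le, hle⟩] at e2
  have e3 : t ^ 2 * ‖fderiv ℝ (Exp G p) (-ξ) η‖ ^ 2 = t ^ 2 * ‖fderiv ℝ (Exp G p) ξ η‖ ^ 2 := by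
    rw [e1, e2]; ring
  have e4 : ‖fderiv ℝ (Exp G p) (-ξ) η‖ ^ 2 = ‖fderiv ℝ (Exp G p) ξ η‖ ^ 2 :=
    mul_left_cancel₀ (by positivity) e3
  exact (sq_eq_sq₀ (norm_nonneg _) (norm_nonneg _)).1 e4

/-- `dExp` is injective on the open ball of radius `π`. -/
theorem fderiv_Exp_inj (hpol : ∀ v ∈ G.T p, ‖v‖ = 1 → PolarAt G p v) (hp : p ∈ S)
    {ξ η : Euc N} (hξ : ξ ∈ G.T p) (hη : η ∈ G.T p) (hlt : ‖ξ‖ < Real.pi)
    (h : fderiv ℝ (Exp G p) ξ η = 0) : η = 0 := by
  by_cases h0 : ξ = 0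
  · rw [h0, fderiv_Exp_zero G hp hη] at h
    exact h
  obtain ⟨v, hv, hv1, hξv⟩ := exists_polar hξ h0
  set t := ‖ξ‖ with ht
  have htpos : 0 < t := norm_pos_iff.2 h0
  set a := ⟪v, η⟫ with ha
  set w := η - a • v with hw
  have hwT : w ∈ G.T p := (G.T p).sub_mem hη ((G.T p).smul_mem a hv)
  have hvw : ⟪v, w⟫ = 0 := by
    rw [hw, inner_sub_right, inner_smul_right, real_inner_self_eq_norm_sq, hv1, ← ha]
    ring
  have hη1 : η = a • v + w := by rw [hw]; abel
  have e1 := norm_sq_fderiv hp hv hv1 hwT hvw a htpos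
  rw [← hη1, ← hξv, h, norm_zero] at e1
  have p1 : 0 ≤ t ^ 2 * a ^ 2 := by positivity
  have p2 : 0 ≤ ‖J G p v w t‖ ^ 2 := by positivity
  have z1 : t ^ 2 * a ^ 2 = 0 := by nlinarith
  have z2 : ‖J G p v w t‖ ^ 2 = 0 := by nlinarith
  have y1 : a = 0 := by
    rcases mul_eq_zero.1 z1 with h | h
    · exact absurd h (by positivity)
    · simpa using h
  have y2 : w = 0 := J_ne_zero (hpol v hv hv1) hwT hvw ⟨htpos, hlt⟩ (by simpa using z2)
  rw [hη1, y1, y2]
  simp

/-- the differential of `Exp ∘ b`. -/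
lemma hasDerivAt_Exp_comp (hp : p ∈ S) {c : ℝ → Euc N} {c' : Euc N} {t : ℝ}
    (hc : HasDerivAt c c' t) (hT : c t ∈ G.T p) :
    HasDerivAt (fun s => Exp G p (c s)) (fderiv ℝ (Exp G p) (c t) c') t :=
  hasDerivAt_sigma G hp hT hc

/-! ### The point symmetries -/

/-- hypotheses for the block -/
structure Hyp (G : Geo n N κ S) : Prop where
  bl : Bl n N κ S G Real.pi
  per : Per G
  pol : ∀ p ∈ S, ∀ v ∈ G.T p, ‖v‖ = 1 → PolarAt G p v
  reach : ∀ p ∈ S, ∀ q ∈ S, ∃ v ∈ G.T p, ‖v‖ = intrinsicDist S p q ∧ Exp G p v = q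
  inj : ∀ p ∈ S, ∀ v ∈ G.T p, ∀ w ∈ G.T p, ‖v‖ < Real.pi → ‖w‖ ≤ Real.pi →
    Exp G p v = Exp G p w → v = w

variable (G) in
/-- the point symmetry at `x` -/
def sy (x y : Euc N) : Euc N :=
  open Classical in
  if h : ∃ ξ ∈ G.T x, Exp G x ξ = y then Exp G x (-(Classical.choose h)) else y

lemma fl_per (hper : Per G) {z : Euc N × Euc N} (hz : z ∈ TS G) (hz1 : ‖z.2‖ = 1) :
    Function.Periodic (fun t => fl G (z, t)) (2 * Real.pi) := by
  intro t
  show fl G (z, t + 2 * Real.pi) = fl G (z, t)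
  rw [add_comm, fl_add' G hz, hper z hz hz1]

lemma norm_reduce (hper : Per G) (hp : p ∈ S) {ξ : Euc N} (hξ : ξ ∈ G.T p) :
    ∃ ξ' ∈ G.T p, ‖ξ'‖ ≤ Real.pi ∧ Exp G p ξ' = Exp G p ξ ∧ Exp G p (-ξ') = Exp G p (-ξ) := by
  by_cases h0 : ξ = 0
  · exact ⟨0, (G.T p).zero_mem, by simp [Real.pi_pos.le], by rw [h0], by rw [h0]⟩
  obtain ⟨v, hv, hv1, hξv⟩ := exists_polar hξ h0
  set t := ‖ξ‖ with ht
  have hz : (p, v) ∈ TS G := ⟨hp, hv⟩
  have hP := fl_per hper hz hv1
  set k : ℤ := round (t / (2 * Real.pi)) with hk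
  set t' := t - k * (2 * Real.pi) with ht'
  have hpi := Real.pi_pos
  have habs : |t'| ≤ Real.pi := by
    have h1 := abs_sub_round (t / (2 * Real.pi))
    have h2 : t' = (t / (2 * Real.pi) - round (t / (2 * Real.pi))) * (2 * Real.pi) := by
      rw [ht', hk]; field_simp
    rw [h2, abs_mul, abs_of_pos (by positivity : (0 : ℝ) < 2 * Real.pi)]
    nlinarith
  refine ⟨t' • v, (G.T p).smul_mem _ hv, ?_, ?_, ?_⟩
  · rw [norm_smul, hv1, mul_one, Real.norm_eq_abs]; exact habs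
  · rw [Exp_smul G hp hv]
    conv_rhs => rw [hξv]
    rw [Exp_smul G hp hv]
    have := hP.sub_int_mul_eq k (x := t)
    rw [ht', this]
  · rw [← neg_smul, Exp_smul G hp hv]
    conv_rhs => rw [hξv]
    rw [← neg_smul, Exp_smul G hp hv]
    have := hP.sub_int_mul_eq (-k) (x := -t)
    rw [← this, ht']
    congr 3
    push_cast
    ring

lemma dist_Exp' (H : Hyp G) (hp : p ∈ S) {ξ : Euc N} (hξ : ξ ∈ G.T p) (h : ‖ξ‖ ≤ Real.pi) :
    intrinsicDist S p (Exp G p ξ) = ‖ξ‖ := by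
  by_cases h0 : ξ = 0
  · rw [h0, Exp_zero G hp, intrinsicDist_self hp, norm_zero]
  obtain ⟨v, hv, hv1, hξv⟩ := exists_polar hξ h0
  have h1 := H.bl.dist_fl (p, v) ⟨hp, hv⟩ hv1 0 ‖ξ‖ (norm_nonneg _) (by simpa using h)
  rw [fl_zero, sub_zero] at h1
  conv_lhs => rw [hξv]
  rw [Exp_smul G hp hv]
  exact h1

theorem sy_well (H : Hyp G) (hp : p ∈ S) {ξ η : Euc N} (hξ : ξ ∈ G.T p) (hη : η ∈ G.T p)
    (h : Exp G p ξ = Exp G p η) : Exp G p (-ξ) = Exp G p (-η) := by
  obtain ⟨ξ', h1, h2, h3, h4⟩ := norm_reduce H.per hp hξ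
  obtain ⟨η', k1, k2, k3, k4⟩ := norm_reduce H.per hp hη
  rw [← h4, ← k4]
  rw [← h3, ← k3] at h
  rcases h2.lt_or_eq with hlt | heq
  · rw [H.inj p hp ξ' h1 η' k1 hlt k2 h]
  · have hη'n : ‖η'‖ = Real.pi := by
      rw [← dist_Exp' H hp k1 k2, ← h, dist_Exp' H hp h1 h2, heq]
    have key : ∀ ζ ∈ G.T p, ‖ζ‖ = Real.pi → Exp G p (-ζ) = Exp G p ζ := by
      intro ζ hζ hζn
      have hζ0 : ζ ≠ 0 := by
        intro h0; rw [h0, norm_zero] at hζn; exact Real.pi_pos.ne hζn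
      obtain ⟨v, hv, hv1, hζv⟩ := exists_polar hζ hζ0
      rw [hζn] at hζv
      rw [hζv, ← neg_smul, Exp_smul G hp hv, Exp_smul G hp hv]
      have := fl_per H.per (z := (p, v)) ⟨hp, hv⟩ hv1 (-Real.pi)
      simp only at this
      rw [← this]
      congr 3
      ring
    rw [key ξ' h1 heq, key η' k1 hη'n, h]

lemma sy_Exp (H : Hyp G) {x ξ : Euc N} (hx : x ∈ S) (hξ : ξ ∈ G.T x) :
    sy G x (Exp G x ξ) = Exp G x (-ξ) := by
  have h : ∃ ζ ∈ G.T x, Exp G x ζ = Exp G x ξ := ⟨ξ, hξ, rfl⟩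
  have h1 := Classical.choose_spec h
  unfold sy
  rw [dif_pos h]
  exact sy_well H hx h1.1 hξ h1.2

lemma sy_mem (H : Hyp G) {x y : Euc N} (hx : x ∈ S) (hy : y ∈ S) : sy G x y ∈ S := by
  obtain ⟨ξ, hξ, -, rfl⟩ := H.reach x hx y hy
  rw [sy_Exp H hx hξ]
  exact Exp_mem G hx ((G.T x).neg_mem hξ)


/-- the symmetry fixes the cut locus -/
lemma sy_cut (H : Hyp G) {x y : Euc N} (hx : x ∈ S) (hy : y ∈ S)
    (h : intrinsicDist S x y = Real.pi) : sy G x y = y := by
  obtain ⟨ξ, hξ, hn, rfl⟩ := H.reach x hx y hy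
  rw [h] at hn
  rw [sy_Exp H hx hξ]
  have hζ0 : ξ ≠ 0 := by
    intro h0; rw [h0, norm_zero] at hn; exact Real.pi_pos.ne hn
  obtain ⟨v, hv, hv1, hζv⟩ := exists_polar hξ hζ0
  rw [hn] at hζv
  rw [hζv, ← neg_smul, Exp_smul G hx hv, Exp_smul G hx hv]
  have := fl_per H.per (z := (x, v)) ⟨hx, hv⟩ hv1 (-Real.pi)
  simp only at this
  rw [← this]
  congr 3
  ring

/-- the symmetries are continuous -/
lemma continuousOn_sy (H : Hyp G) {x : Euc N} (hx : x ∈ S) : ContinuousOn (sy G x) S := by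
  obtain ⟨b, hb⟩ := exists_frame G hx
  set K : Set (Euc n) := Metric.closedBall 0 Real.pi with hK
  have hKc : IsCompact K := isCompact_closedBall _ _
  have hf : ContinuousOn (fun u => Exp G x (b u)) K := fun u _ =>
    ((contDiffAt_Exp' G hx (frame_mem hb u)).continuousAt.comp
      b.continuous.continuousAt).continuousWithinAt
  have hg : ContinuousOn (fun u => Exp G x (-(b u))) K := fun u _ =>
    (ContinuousAt.comp (f := fun u => -(b u)) (g := Exp G x)
      (contDiffAt_Exp' G hx ((G.T x).neg_mem (frame_mem hb u))).continuousAt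
      (b.continuous.neg.continuousAt)).continuousWithinAt
  rw [continuousOn_iff_isClosed]
  intro C hC
  obtain ⟨Z, hZ, hZK⟩ := (continuousOn_iff_isClosed.1 hg) C hC
  have hcomp : IsCompact ((fun u => Exp G x (b u)) '' (Z ∩ K)) :=
    (hKc.inter_left hZ).image_of_continuousOn (hf.mono inter_subset_right)
  refine ⟨_, hcomp.isClosed, ?_⟩
  ext y
  constructor
  · rintro ⟨hy1, hyS⟩
    obtain ⟨ξ, hξ, hn, rfl⟩ := H.reach x hx y hyS
    obtain ⟨u, rfl⟩ := exists_frame_eq hb hξ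
    refine ⟨⟨u, ?_, rfl⟩, hyS⟩
    rw [← hZK]
    refine ⟨?_, ?_⟩
    · have h2 : sy G x (Exp G x (b u)) ∈ C := hy1
      rw [sy_Exp H hx hξ] at h2
      exact h2
    · rw [hK, mem_closedBall_zero_iff, ← b.norm_map, hn]
      exact H.bl.dist_le x hx _ hyS
  · rintro ⟨⟨u, hu, rfl⟩, hyS⟩
    refine ⟨?_, hyS⟩
    show sy G x (Exp G x (b u)) ∈ C
    rw [sy_Exp H hx (frame_mem hb u)]
    rw [← hZK] at hu
    exact hu.1

/-- off the cut locus the symmetry preserves the speed of curves -/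
lemma hasDerivAt_sy (H : Hyp G) {x : Euc N} (hx : x ∈ S) {σ : ℝ → Euc N} {σ' : Euc N} {t : ℝ}
    (hσ : HasDerivAt σ σ' t) (hS : ∀ᶠ s in 𝓝 t, σ s ∈ S)
    (hlt : intrinsicDist S x (σ t) < Real.pi) :
    ∃ c', HasDerivAt (fun s => sy G x (σ s)) c' t ∧ ‖c'‖ = ‖σ'‖ := by
  obtain ⟨b, hb⟩ := exists_frame G hx
  obtain ⟨ξ, hξ, hn, hE⟩ := H.reach x hx (σ t) hS.self_of_nhds
  obtain ⟨u₀, rfl⟩ := exists_frame_eq hb hξ
  have hd0 := (contDiffAt_Exp' G hx hξ)
  have hΦ : ContDiffAt ℝ ∞ (fun u => Exp G x (b u)) u₀ :=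
    ContDiffAt.comp (g := Exp G x) u₀ hd0 (b.toContinuousLinearMap.contDiff.contDiffAt)
  have hfd : ∀ w, fderiv ℝ (fun u => Exp G x (b u)) u₀ w = fderiv ℝ (Exp G x) (b u₀) (b w) := by
    intro w
    have h1 : HasFDerivAt (fun u => Exp G x (b u))
        ((fderiv ℝ (Exp G x) (b u₀)).comp b.toContinuousLinearMap) u₀ :=
      HasFDerivAt.comp u₀ (hd0.differentiableAt (by simp)).hasFDerivAt
        b.toContinuousLinearMap.hasFDerivAt
    rw [h1.fderiv]
    rfl
  have hinj : Function.Injective (fderiv ℝ (fun u => Exp G x (b u)) u₀) := by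
    rw [injective_iff_map_eq_zero]
    intro w hw
    rw [hfd] at hw
    have := fderiv_Exp_inj (H.pol x hx) hx hξ (frame_mem hb w) (by rw [hn]; exact hlt) hw
    exact b.injective (by rw [this, map_zero])
  obtain ⟨R, hR, hR0, -, hR2⟩ := local_inverse H.bl.sub hΦ
    (Eventually.of_forall fun u => Exp_mem G hx (frame_mem hb u)) hinj
  rw [hE] at hR hR0 hR2
  have hu : HasDerivAt (fun s => R (σ s)) (fderiv ℝ R (σ t) σ') t :=
    (hR.differentiableAt (by simp)).hasFDerivAt.comp_hasDerivAt t hσ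
  set u' := fderiv ℝ R (σ t) σ' with hu'
  have hbu : HasDerivAt (fun s => b (R (σ s))) (b u') t :=
    b.toContinuousLinearMap.hasFDerivAt.comp_hasDerivAt t hu
  have hev : ∀ᶠ s in 𝓝 t, Exp G x (b (R (σ s))) = σ s := by
    have h1 : Tendsto σ (𝓝 t) (𝓝[S] (σ t)) :=
      tendsto_nhdsWithin_iff.2 ⟨hσ.continuousAt, hS⟩
    exact h1.eventually hR2
  have e1 : HasDerivAt (fun s => Exp G x (b (R (σ s))))
      (fderiv ℝ (Exp G x) (b (R (σ t))) (b u')) t :=
    hasDerivAt_Exp_comp hx hbu (frame_mem hb _)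
  have e2 := (hσ.congr_of_eventuallyEq hev).unique e1
  have e3 : HasDerivAt (fun s => Exp G x (-(b (R (σ s)))))
      (fderiv ℝ (Exp G x) (-(b (R (σ t)))) (-(b u'))) t :=
    hasDerivAt_Exp_comp hx hbu.neg ((G.T x).neg_mem (frame_mem hb _))
  have hev2 : (fun s => sy G x (σ s)) =ᶠ[𝓝 t] fun s => Exp G x (-(b (R (σ s)))) := by
    filter_upwards [hev] with s hs
    rw [← sy_Exp H hx (frame_mem hb _), hs]
  refine ⟨_, e3.congr_of_eventuallyEq hev2, ?_⟩
  rw [hR0, map_neg, norm_neg, norm_fderiv_neg H.per (H.pol x hx) hx hξ (frame_mem hb _)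
    (by rw [hn]; exact hlt.le), e2, hR0]

/-- a geodesic segment off the cut locus -/
lemma dist_sy_segment (H : Hyp G) {x : Euc N} (hx : x ∈ S) {z : Euc N × Euc N} (hz : z ∈ TS G)
    (hz1 : ‖z.2‖ = 1) {a b : ℝ} (hab : a ≤ b)
    (h : ∀ t ∈ Ioo a b, intrinsicDist S x (fl G (z, t)).1 < Real.pi) :
    intrinsicDist S (sy G x (fl G (z, a)).1) (sy G x (fl G (z, b)).1) ≤ b - a := by
  set σ : ℝ → Euc N := fun t => (fl G (z, t)).1 with hσ
  have hσS : ∀ t, σ t ∈ S := fun t => (fl_mem G hz t).1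
  have hσd : ∀ t, HasDerivAt σ (fl G (z, t)).2 t := fun t => hda_fst (hasDerivAt_fl G (complete G hz t))
  have hσc : Continuous σ := continuous_iff_continuousAt.2 fun t => (hσd t).continuousAt
  set c : ℝ → Euc N := fun t => sy G x (σ t) with hc
  have hcc : ContinuousOn c (Icc a b) :=
    ((continuousOn_sy H hx).comp hσc.continuousOn fun t _ => hσS t)
  rcases hab.eq_or_lt with rfl | hlt
  · rw [intrinsicDist_self (sy_mem H hx (hσS a)), sub_self]
  have hlip : LipschitzOnWith 1 c (Ioo a b) := by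
    have h1 : ∀ t ∈ Ioo a b, ∃ c', HasDerivAt c c' t ∧ ‖c'‖ = 1 := by
      intro t ht
      obtain ⟨c', h2, h3⟩ := hasDerivAt_sy H hx (hσd t) (Eventually.of_forall hσS) (h t ht)
      exact ⟨c', h2, by rw [h3, norm_fl G hz, hz1]⟩
    choose! c' h2 h3 using h1
    refine (convex_Ioo a b).lipschitzOnWith_of_nnnorm_hasDerivWithin_le
      (fun t ht => (h2 t ht).hasDerivWithinAt) (fun t ht => ?_)
    rw [← NNReal.coe_le_coe, coe_nnnorm, h3 t ht]
    simp
  have hlip2 : LipschitzOnWith 1 c (Icc a b) := by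
    rw [← closure_Ioo hlt.ne]
    exact (lipschitzOnWith_closure_iff (by rw [closure_Ioo hlt.ne]; exact hcc)).2 hlip
  have hch := intrinsicDist_le_of_chords H.bl.sub H.bl.cpt (c := c) (L := fun t => t) hab hcc
    (fun t _ => sy_mem H hx (hσS t)) (fun s hs t ht hst => by
      have := hlip2.dist_le_mul t ht s hs
      rw [dist_eq_norm, Real.dist_eq, abs_of_nonneg (by linarith)] at this
      simpa using this)
  exact hch.2

end Crest.Agent.R208.HS
end
end

-- ▼ part R208/HS3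
section

/-!
R208, block G7 (helper88), file HS3: the point symmetries are isometries; the equator lemma.
-/

set_option autoImplicit false

open Set Filter Topology
open scoped ContDiff RealInnerProductSpace
open Crest.GeometryTopology.Submanifold
open Crest.Agent.R241.DDefs
open Crest.Agent.R241.D2
open Crest.Agent.R241.D3b
open Crest.Agent.R241.D3c

noncomputable section

namespace Crest.Agent.R208.HS

variable {n N : ℕ} {κ : ℝ} {S : Set (Euc N)} {G : Geo n N κ S} {p v w : Euc N}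

/-- the point symmetries do not increase distances. -/
theorem sy_lip (H : Hyp G) {x y z : Euc N} (hx : x ∈ S) (hy : y ∈ S) (hz : z ∈ S) :
    intrinsicDist S (sy G x y) (sy G x z) ≤ intrinsicDist S y z := by
  obtain ⟨ζ, hζ, hn, rfl⟩ := H.reach y hy z hz
  rw [← hn]
  set l := ‖ζ‖ with hl
  by_cases h0 : ζ = 0
  · rw [h0, Exp_zero G hy, intrinsicDist_self (sy_mem H hx hy)]
    exact norm_nonneg _
  obtain ⟨v, hv, hv1, hζv⟩ := exists_polar hζ h0
  have hlpos : 0 < l := norm_pos_iff.2 h0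
  have hlπ : l ≤ Real.pi := by rw [hn]; exact H.bl.dist_le y hy _ hz
  have hzv : (y, v) ∈ TS G := ⟨hy, hv⟩
  set σ : ℝ → Euc N := fun t => (fl G ((y, v), t)).1 with hσ
  have hσS : ∀ t, σ t ∈ S := fun t => (fl_mem G hzv t).1
  have hσ0 : σ 0 = y := by simp [hσ, fl_zero]
  have hσl : σ l = Exp G y ζ := by
    rw [hζv, Exp_smul G hy hv]
  have hσc : Continuous σ := continuous_iff_continuousAt.2 fun t =>
    (hda_fst (hasDerivAt_fl G (complete G hzv t))).continuousAt
  rw [← hσl, ← hσ0]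
  have hcd : Continuous fun t => intrinsicDist S x (σ t) := by
    have h1 := continuousOn_intrinsicDist H.bl.sub H.bl.cpt H.bl.conn
    exact h1.comp_continuous (f := fun t => (x, σ t)) (by fun_prop) (fun t => ⟨hx, hσS t⟩)
  set T : Set ℝ := {t | t ∈ Icc 0 l ∧ intrinsicDist S x (σ t) = Real.pi} with hT
  have hTc : IsCompact T := by
    have h1 : T = Icc 0 l ∩ {t | intrinsicDist S x (σ t) = Real.pi} := rfl
    rw [h1]
    exact isCompact_Icc.inter_right (isClosed_eq hcd continuous_const)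
  have hlt : ∀ t ∈ Icc 0 l, t ∉ T → intrinsicDist S x (σ t) < Real.pi := by
    intro t ht htT
    exact lt_of_le_of_ne (H.bl.dist_le x hx _ (hσS t)) (fun h => htT ⟨ht, h⟩)
  rcases T.eq_empty_or_nonempty with hTe | hTn
  · have := dist_sy_segment H hx hzv hv1 hlpos.le (fun t ht =>
      hlt t ⟨ht.1.le, ht.2.le⟩ (by rw [hTe]; exact notMem_empty t))
    rw [sub_zero] at this
    exact this
  · obtain ⟨t0, ht0, hmin⟩ := hTc.exists_isLeast hTn
    obtain ⟨t1, ht1, hmax⟩ := hTc.exists_isGreatest hTn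
    have h01 : t0 ≤ t1 := hmin ht1
    have a1 := dist_sy_segment H hx hzv hv1 ht0.1.1 (fun t ht =>
      hlt t ⟨ht.1.le, ht.2.le.trans ht0.1.2⟩ (fun h => absurd (hmin h) (not_le.2 ht.2)))
    have a2 := dist_sy_segment H hx hzv hv1 ht1.1.2 (fun t ht =>
      hlt t ⟨ht1.1.1.trans ht.1.le, ht.2.le⟩ (fun h => absurd (hmax h) (not_le.2 ht.1)))
    have a3 := H.bl.dist_fl (y, v) hzv hv1 t0 t1 h01 (by linarith [ht0.1.1, ht1.1.2])
    have e0 : sy G x (σ t0) = σ t0 := sy_cut H hx (hσS t0) ht0.2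
    have e1 : sy G x (σ t1) = σ t1 := sy_cut H hx (hσS t1) ht1.2
    change intrinsicDist S (sy G x (σ 0)) (sy G x (σ t0)) ≤ t0 - 0 at a1
    change intrinsicDist S (sy G x (σ t1)) (sy G x (σ l)) ≤ l - t1 at a2
    change intrinsicDist S (σ t0) (σ t1) = t1 - t0 at a3
    have m : ∀ t, sy G x (σ t) ∈ S := fun t => sy_mem H hx (hσS t)
    have b1 := H.bl.tri (m 0) (m t0) (m l)
    have b2 := H.bl.tri (m t0) (m t1) (m l)
    rw [e0, e1, a3] at b2
    rw [e0] at b1 a1
    rw [e1] at a2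
    linarith

/-- the point symmetries do not increase distances, exponential form. -/
theorem symS (H : Hyp G) (hp : p ∈ S) {ξ η : Euc N} (hξ : ξ ∈ G.T p) (hη : η ∈ G.T p) :
    intrinsicDist S (Exp G p (-ξ)) (Exp G p (-η)) ≤ intrinsicDist S (Exp G p ξ) (Exp G p η) := by
  rw [← sy_Exp H hp hξ, ← sy_Exp H hp hη]
  exact sy_lip H hp (Exp_mem G hp hξ) (Exp_mem G hp hη)

/-- a Jacobi field vanishing at `0` and `π` has norm `sin t`. -/
lemma norm_J_of_kernel (h : PolarAt G p v) (hw : w ∈ G.T p) (hvw : ⟪v, w⟫ = 0)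
    (hJ : J G p v w Real.pi = 0) {t : ℝ} (ht : t ∈ Icc (0 : ℝ) Real.pi) :
    ‖J G p v w t‖ = Real.sin t * ‖w‖ := by
  obtain ⟨E, hE, hEv, hEJ⟩ := h
  obtain ⟨w₁, h1, w₂, h2, h3, h4, rfl⟩ := exists_decomp (G := G) hE hEv hw hvw
  have e0 := hEJ w₁ h1 w₂ h2 h3 h4 Real.pi ⟨Real.pi_pos.le, le_rfl⟩
  rw [hJ, Real.sin_pi_div_two] at e0
  simp at e0
  rw [e0, add_zero]
  have e1 := hEJ w₁ h1 0 (G.T p).zero_mem (by simp) (by simp) t ht
  rw [add_zero, norm_zero] at e1
  have hs : 0 ≤ Real.sin t := Real.sin_nonneg_of_nonneg_of_le_pi ht.1 ht.2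
  have e2 : ‖J G p v w₁ t‖ ^ 2 = (Real.sin t * ‖w₁‖) ^ 2 := by rw [e1]; ring
  exact (sq_eq_sq₀ (norm_nonneg _) (by positivity)).1 e2

/-- Arcs of the equator of a linked sphere are `1`-Lipschitz. -/
lemma arc_le (H : Hyp G) (hp : p ∈ S) {q : Euc N} {V : Submodule ℝ (Euc N)} (hV : V ≤ G.T p)
    (hVq : ∀ u ∈ V, ‖u‖ = 1 → Exp G p (Real.pi • u) = q) {v e : Euc N} (hv : v ∈ V)
    (he : e ∈ V) (hv1 : ‖v‖ = 1) (he1 : ‖e‖ = 1) (hve : ⟪v, e⟫ = 0) {α β : ℝ} (hαβ : α ≤ β) :
    intrinsicDist S (Exp G p ((Real.pi / 2) • (Real.cos α • v + Real.sin α • e)))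
      (Exp G p ((Real.pi / 2) • (Real.cos β • v + Real.sin β • e))) ≤ β - α := by
  set u : ℝ → Euc N := fun θ => Real.cos θ • v + Real.sin θ • e with hu
  set u' : ℝ → Euc N := fun θ => -Real.sin θ • v + Real.cos θ • e with hu'
  have huV : ∀ θ, u θ ∈ V := fun θ => V.add_mem (V.smul_mem _ hv) (V.smul_mem _ he)
  have hu'V : ∀ θ, u' θ ∈ V := fun θ => V.add_mem (V.smul_mem _ hv) (V.smul_mem _ he)
  have hvv : ⟪v, v⟫ = 1 := by rw [real_inner_self_eq_norm_sq, hv1]; norm_num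
  have hee : ⟪e, e⟫ = 1 := by rw [real_inner_self_eq_norm_sq, he1]; norm_num
  have hev : ⟪e, v⟫ = 0 := by rw [real_inner_comm]; exact hve
  have hn : ∀ a b : ℝ, ‖a • v + b • e‖ ^ 2 = a ^ 2 + b ^ 2 := by
    intro a b
    rw [← real_inner_self_eq_norm_sq]
    simp only [inner_add_left, inner_add_right, inner_smul_left, inner_smul_right, hvv, hee, hev,
      hve, conj_trivial]
    ring
  have hu1 : ∀ θ, ‖u θ‖ = 1 := by
    intro θ
    have : ‖u θ‖ ^ 2 = 1 ^ 2 := by
      rw [hu]; simp only; rw [hn]; nlinarith [Real.sin_sq_add_cos_sq θ]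
    exact (sq_eq_sq₀ (norm_nonneg _) (by norm_num)).1 this
  have hu'1 : ∀ θ, ‖u' θ‖ = 1 := by
    intro θ
    have : ‖u' θ‖ ^ 2 = 1 ^ 2 := by
      rw [hu']; simp only; rw [hn]; nlinarith [Real.sin_sq_add_cos_sq θ]
    exact (sq_eq_sq₀ (norm_nonneg _) (by norm_num)).1 this
  have huu' : ∀ θ, ⟪u θ, u' θ⟫ = 0 := by
    intro θ
    simp only [hu, hu', inner_add_left, inner_add_right, inner_smul_left, inner_smul_right, hvv,
      hee, hev, hve, conj_trivial]
    ring
  have hud : ∀ θ, HasDerivAt u (u' θ) θ := fun θ =>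
    ((Real.hasDerivAt_cos θ).smul_const v).add ((Real.hasDerivAt_sin θ).smul_const e)
  -- Jacobi field
  have hd : ∀ (r θ : ℝ), HasDerivAt (fun θ => Exp G p (r • u θ)) (J G p (u θ) (u' θ) r) θ := by
    intro r θ
    rw [← fderiv_Exp_smul hp (hV (huV θ)) (hV (hu'V θ))]
    exact hasDerivAt_Exp_comp hp ((hud θ).const_smul r) ((G.T p).smul_mem _ (hV (huV θ)))
  have hJπ : ∀ θ, J G p (u θ) (u' θ) Real.pi = 0 := by
    intro θ
    have h1 := hd Real.pi θ
    have h2 : (fun θ => Exp G p (Real.pi • u θ)) = fun _ => q :=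
      funext fun θ => hVq _ (huV θ) (hu1 θ)
    rw [h2] at h1
    exact h1.unique (hasDerivAt_const _ _)
  have hpi := Real.pi_pos
  have hJn : ∀ θ, ‖J G p (u θ) (u' θ) (Real.pi / 2)‖ = 1 := by
    intro θ
    rw [norm_J_of_kernel (H.pol p hp _ (hV (huV θ)) (hu1 θ)) (hV (hu'V θ)) (huu' θ) (hJπ θ)
      ⟨by positivity, by linarith⟩, hu'1, Real.sin_pi_div_two, mul_one]
  have hch := intrinsicDist_le_of_chords H.bl.sub H.bl.cpt
    (c := fun θ => Exp G p ((Real.pi / 2) • u θ)) (L := fun t => t) hαβ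
    (fun θ _ => (hd (Real.pi / 2) θ).continuousAt.continuousWithinAt)
    (fun θ _ => Exp_mem G hp ((G.T p).smul_mem _ (hV (huV θ))))
    (fun s hs t ht hst => by
      have h1 := (convex_Icc α β).norm_image_sub_le_of_norm_hasDerivWithin_le
        (f := fun θ => Exp G p ((Real.pi / 2) • u θ)) (C := 1)
        (fun θ _ => (hd (Real.pi / 2) θ).hasDerivWithinAt) (fun θ _ => (hJn θ).le) hs ht
      rw [Real.norm_eq_abs, abs_of_nonneg (by linarith), one_mul] at h1
      exact h1)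
  exact hch.2

/-- **The equator lemma.** -/
theorem equator (H : Hyp G) (hp : p ∈ S) {q : Euc N} {V : Submodule ℝ (Euc N)} (hV : V ≤ G.T p)
    (hVq : ∀ u ∈ V, ‖u‖ = 1 → Exp G p (Real.pi • u) = q) {v w : Euc N} (hv : v ∈ V)
    (hw : w ∈ V) (hv1 : ‖v‖ = 1) (hw1 : ‖w‖ = 1) :
    intrinsicDist S (Exp G p ((Real.pi / 2) • v)) (Exp G p ((Real.pi / 2) • w))
      = InnerProductGeometry.angle v w := by
  have hpi := Real.pi_pos
  have hmem : ∀ (r : ℝ) {u : Euc N}, u ∈ V → Exp G p (r • u) ∈ S := fun r u hu =>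
    Exp_mem G hp ((G.T p).smul_mem _ (hV hu))
  have hopp : intrinsicDist S (Exp G p ((Real.pi / 2) • v)) (Exp G p ((Real.pi / 2) • (-v))) =
      Real.pi := by
    have h1 := H.bl.dist_ray (s := -(Real.pi / 2)) (t := Real.pi / 2) hp (hV hv) hv1
      (by linarith) (by linarith)
    rw [intrinsicDist_comm, smul_neg, ← neg_smul, h1]
    ring
  set θ := InnerProductGeometry.angle v w with hθ
  have hθ0 : 0 ≤ θ := InnerProductGeometry.angle_nonneg _ _
  have hθπ : θ ≤ Real.pi := InnerProductGeometry.angle_le_pi _ _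
  have hcos : Real.cos θ = ⟪v, w⟫ := by
    rw [hθ, InnerProductGeometry.cos_angle, hv1, hw1, mul_one, div_one]
  have hv0 : v ≠ 0 := fun h' => by rw [h', norm_zero] at hv1; norm_num at hv1
  have hw0 : w ≠ 0 := fun h' => by rw [h', norm_zero] at hw1; norm_num at hw1
  rcases hθ0.eq_or_lt with h0 | h0
  · -- `w = v`
    have h1 : ⟪v, w⟫ = 1 := by rw [← hcos, ← h0, Real.cos_zero]
    have h2 : v = w := (inner_eq_one_iff_of_norm_eq_one hv1 hw1).1 h1
    rw [← h0, ← h2, intrinsicDist_self (hmem _ hv)]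
  rcases hθπ.eq_or_lt with hπ | hlt
  · have h1 : ⟪v, w⟫ = -1 := by rw [← hcos, hπ, Real.cos_pi]
    have h2 : ⟪v, -w⟫ = 1 := by rw [inner_neg_right, h1, neg_neg]
    have h3 : v = -w := (inner_eq_one_iff_of_norm_eq_one hv1 (by rw [norm_neg, hw1])).1 h2
    have h4 : w = -v := by rw [h3, neg_neg]
    rw [hπ, h4, hopp]
  have hsin : 0 < Real.sin θ := Real.sin_pos_of_pos_of_lt_pi h0 hlt
  have hvv : ⟪v, v⟫ = 1 := by rw [real_inner_self_eq_norm_sq, hv1]; norm_num
  have hww : ⟪w, w⟫ = 1 := by rw [real_inner_self_eq_norm_sq, hw1]; norm_num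
  set e : Euc N := (Real.sin θ)⁻¹ • (w - Real.cos θ • v) with he
  have heV : e ∈ V := V.smul_mem _ (V.sub_mem hw (V.smul_mem _ hv))
  have hwe : w = Real.cos θ • v + Real.sin θ • e := by
    rw [he, smul_smul, mul_inv_cancel₀ hsin.ne', one_smul]; abel
  have hve : ⟪v, e⟫ = 0 := by
    rw [he, inner_smul_right, inner_sub_right, inner_smul_right, hvv, hcos]; ring
  have he1 : ‖e‖ = 1 := by
    have h1 : ‖w - Real.cos θ • v‖ ^ 2 = Real.sin θ ^ 2 := by
      rw [norm_sub_sq_real, norm_smul, inner_smul_right, real_inner_comm, ← hcos, hw1, hv1,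
        mul_one, Real.norm_eq_abs, sq_abs, Real.sin_sq]
      ring
    have h2 : ‖w - Real.cos θ • v‖ = Real.sin θ :=
      (sq_eq_sq₀ (norm_nonneg _) hsin.le).1 h1
    rw [he, norm_smul, h2, norm_inv, Real.norm_eq_abs, abs_of_pos hsin,
      inv_mul_cancel₀ hsin.ne']
  have a1 := arc_le H hp hV hVq hv heV hv1 he1 hve (α := 0) (β := θ) hθ0
  have a2 := arc_le H hp hV hVq hv heV hv1 he1 hve (α := θ) (β := Real.pi) hθπ
  rw [Real.cos_zero, Real.sin_zero, one_smul, zero_smul, add_zero, ← hwe] at a1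
  rw [Real.cos_pi, Real.sin_pi, zero_smul, add_zero, ← hwe, neg_smul, one_smul] at a2
  have a3 := H.bl.tri (hmem (Real.pi / 2) hv) (hmem (Real.pi / 2) hw)
    (hmem (Real.pi / 2) (V.neg_mem hv))
  rw [hopp] at a3
  linarith

end Crest.Agent.R208.HS
end
end

-- ▼ part R208/M885
section

/-!
R208 (Blaschke), block G7, the METRIC part: if all point symmetries `s_x : exp_x ξ ↦ exp_x (-ξ)` of a
Blaschke manifold are isometries of the distance, and the "equators of the linked spheres" are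
geodesic (`MidS`), then the manifold is two-point homogeneous. No manifold theory is used here.
-/

set_option autoImplicit false

namespace Crest.Agent.R208.M

open Set

variable {X E : Type*} [MetricSpace X] [NormedAddCommGroup E] [InnerProductSpace ℝ E]

/-- Metric data of a Blaschke manifold of diameter `D`: `T p` the tangent space, `ex p` the
exponential map at `p`. -/
structure Bl (D : ℝ) (T : X → Submodule ℝ E) (ex : X → E → X) : Prop where
  D_pos : 0 < D
  dist_le : ∀ p q : X, dist p q ≤ D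
  rebase : ∀ p v, v ∈ T p → ‖v‖ = 1 → ∀ s : ℝ, ∃ w ∈ T (ex p (s • v)), ‖w‖ = 1 ∧
    ∀ t : ℝ, ex (ex p (s • v)) (t • w) = ex p ((s + t) • v)
  dist_ray : ∀ p v, v ∈ T p → ‖v‖ = 1 → ∀ r : ℝ, 0 ≤ r → r ≤ D → dist p (ex p (r • v)) = r
  periodic : ∀ p v, v ∈ T p → ‖v‖ = 1 → ∀ t : ℝ, ex p ((t + 2 * D) • v) = ex p (t • v)
  reach : ∀ p q : X, ∃ v ∈ T p, ‖v‖ = 1 ∧ ex p (dist p q • v) = q
  inj : ∀ p v w, v ∈ T p → ‖v‖ = 1 → w ∈ T p → ‖w‖ = 1 → ∀ r : ℝ, 0 < r → r < D →
    ex p (r • v) = ex p (r • w) → v = w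
  no_corner : ∀ p y q v, v ∈ T p → ‖v‖ = 1 → y ≠ p → ex p (dist p y • v) = y →
    dist p y + dist y q = dist p q → ex p (dist p q • v) = q

/-- The point symmetries and the fact that they are isometries. -/
structure SymS (T : X → Submodule ℝ E) (ex : X → E → X) (sym : X → X → X) : Prop where
  sym_ex : ∀ x ξ, ξ ∈ T x → sym x (ex x ξ) = ex x (-ξ)
  sym_iso : ∀ x, Isometry (sym x)

/-- The equators of the linked spheres are geodesic: if `v`, `v'` are two directions at `p` leading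
to the same cut point, not opposite, then there is a third one `u` such that the point on it at
distance `D/2` is the midpoint of the points at distance `D/2` on `v` and `v'`. -/
def MidS (D : ℝ) (T : X → Submodule ℝ E) (ex : X → E → X) : Prop :=
  ∀ p v v', v ∈ T p → ‖v‖ = 1 → v' ∈ T p → ‖v'‖ = 1 → ex p (D • v) = ex p (D • v') →
    v' ≠ v → v' ≠ -v → ∃ u ∈ T p, ‖u‖ = 1 ∧ ex p (D • u) = ex p (D • v) ∧
      dist (ex p ((D / 2) • v)) (ex p ((D / 2) • u))
        = dist (ex p ((D / 2) • v)) (ex p ((D / 2) • v')) / 2 ∧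
      dist (ex p ((D / 2) • u)) (ex p ((D / 2) • v'))
        = dist (ex p ((D / 2) • v)) (ex p ((D / 2) • v')) / 2

variable {D : ℝ} {T : X → Submodule ℝ E} {ex : X → E → X} {sym : X → X → X}

namespace Bl

lemma ex_zero (hB : Bl D T ex) (p : X) : ex p 0 = p := by
  obtain ⟨v, hv, hv1, h⟩ := hB.reach p p
  simpa using h

/-- uniqueness of the point at distance `a` on the way from `p` to `q`. -/
lemma unique_between (hB : Bl D T ex) {p q y z : X} (hpq : dist p q < D)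
    (hy : dist p y + dist y q = dist p q) (hz : dist p z + dist z q = dist p q)
    (h : dist p y = dist p z) : y = z := by
  by_cases hyp : y = p
  · subst hyp
    have : dist y z = 0 := by rw [← h]; simp
    exact dist_eq_zero.mp this
  have hzp : z ≠ p := by
    intro hzp
    subst hzp
    apply hyp
    have : dist z y = 0 := by rw [h]; simp
    exact (dist_eq_zero.mp this).symm
  obtain ⟨v, hv, hv1, hvy⟩ := hB.reach p y
  obtain ⟨w, hw, hw1, hwz⟩ := hB.reach p z
  have h1 := hB.no_corner p y q v hv hv1 hyp hvy hy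
  have h2 := hB.no_corner p z q w hw hw1 hzp hwz hz
  have hpos : 0 < dist p q := by
    have : 0 < dist p y := dist_pos.mpr (Ne.symm hyp)
    have := dist_nonneg (x := y) (y := q)
    linarith
  have hvw : v = w := hB.inj p v w hv hv1 hw hw1 _ hpos hpq (h1.trans h2.symm)
  rw [← hvy, ← hwz, hvw, h]

lemma ex_neg_D (hB : Bl D T ex) {p : X} {v : E} (hv : v ∈ T p) (hv1 : ‖v‖ = 1) :
    ex p (-(D • v)) = ex p (D • v) := by
  have := hB.periodic p v hv hv1 (-D)
  rw [show (-D + 2 * D) = D by ring] at this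
  rw [this, neg_smul]

end Bl

namespace SymS

lemma sym_invol (hB : Bl D T ex) (hS : SymS T ex sym) (x y : X) : sym x (sym x y) = y := by
  obtain ⟨v, hv, hv1, h⟩ := hB.reach x y
  have hmem : dist x y • v ∈ T x := (T x).smul_mem _ hv
  rw [← h, hS.sym_ex x _ hmem, hS.sym_ex x _ ((T x).neg_mem hmem), neg_neg]

lemma sym_self (hB : Bl D T ex) (hS : SymS T ex sym) (x : X) : sym x x = x := by
  have := hS.sym_ex x 0 (T x).zero_mem
  rwa [neg_zero, hB.ex_zero] at this

lemma sym_cut (hB : Bl D T ex) (hS : SymS T ex sym) {x y : X} (h : dist x y = D) :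
    sym x y = y := by
  obtain ⟨v, hv, hv1, hy⟩ := hB.reach x y
  rw [h] at hy
  rw [← hy, hS.sym_ex x _ ((T x).smul_mem _ hv), hB.ex_neg_D hv hv1]

/-- the point symmetry as an isometric equivalence. -/
noncomputable def symE (hB : Bl D T ex) (hS : SymS T ex sym) (x : X) : X ≃ᵢ X where
  toFun := sym x
  invFun := sym x
  left_inv := sym_invol hB hS x
  right_inv := sym_invol hB hS x
  isometry_toFun := hS.sym_iso x

@[simp] lemma symE_apply (hB : Bl D T ex) (hS : SymS T ex sym) (x y : X) :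
    symE hB hS x y = sym x y := rfl

/-- fixed points of `s_x`: `x` itself and the cut locus. -/
lemma eq_or_cut_of_fixed (hB : Bl D T ex) (hS : SymS T ex sym) {x y : X} (h : sym x y = y) :
    y = x ∨ dist x y = D := by
  by_contra hcon
  push Not at hcon
  obtain ⟨hne, hD⟩ := hcon
  obtain ⟨v, hv, hv1, hy⟩ := hB.reach x y
  have hpos : 0 < dist x y := dist_pos.mpr (Ne.symm hne)
  have hlt : dist x y < D := lt_of_le_of_ne (hB.dist_le x y) hD
  have h1 : ex x (dist x y • v) = ex x (dist x y • (-v)) := by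
    rw [smul_neg, ← hS.sym_ex x _ ((T x).smul_mem _ hv), hy, h]
  have h2 := hB.inj x v (-v) hv hv1 ((T x).neg_mem hv) (by rw [norm_neg, hv1]) _ hpos hlt h1
  have : v = 0 := by
    have h3 : v + v = 0 := by nth_rewrite 2 [h2]; simp
    have h4 : (2 : ℝ) • v = 0 := by rw [two_smul]; exact h3
    exact (smul_eq_zero.mp h4).resolve_left (by norm_num)
  rw [this] at hv1
  simp at hv1

/-- `s_m` swaps the points `γ(s-t)` and `γ(s+t)` where `m = γ(s)`. -/
lemma sym_ray (hB : Bl D T ex) (hS : SymS T ex sym) {p : X} {v : E} (hv : v ∈ T p)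
    (hv1 : ‖v‖ = 1) (s t : ℝ) : sym (ex p (s • v)) (ex p ((s + t) • v)) = ex p ((s - t) • v) := by
  obtain ⟨w, hw, hw1, h⟩ := hB.rebase p v hv hv1 s
  rw [← h t, hS.sym_ex _ _ ((T _).smul_mem _ hw), ← neg_smul, h (-t), sub_eq_add_neg]

/-- if `m` is halfway between `x` and `y` then `s_m x = y`. -/
lemma sym_mid (hB : Bl D T ex) (hS : SymS T ex sym) {x y m : X}
    (h1 : dist x m = dist x y / 2) (h2 : dist m y = dist x y / 2) : sym m x = y := by
  by_cases hxm : m = x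
  · subst hxm
    have h3 : dist m y = 0 := by
      have : dist m y / 2 = 0 := by rw [← h1]; simp
      linarith
    have h4 : m = y := dist_eq_zero.mp h3
    subst h4
    exact sym_self hB hS _
  obtain ⟨v, hv, hv1, hm⟩ := hB.reach x m
  have h3 := hB.no_corner x m y v hv hv1 hxm hm (by rw [h1, h2]; ring)
  have h4 := sym_ray hB hS hv hv1 (dist x m) (-(dist x m))
  rw [hm] at h4
  have h5 : dist x m + -dist x m = 0 := by ring
  rw [h5, zero_smul, hB.ex_zero] at h4
  rw [h4]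
  have h6 : dist x m - -dist x m = dist x y := by rw [h1]; ring
  rw [h6, h3]

end SymS

/-- isometric equivalences fixing `p` and mapping `q` to `q'`. -/
def Rel (p q q' : X) : Prop := ∃ Φ : X ≃ᵢ X, Φ p = p ∧ Φ q = q'

lemma Rel.refl (p q : X) : Rel p q q := ⟨IsometryEquiv.refl X, rfl, rfl⟩

lemma Rel.symm {p q q' : X} (h : Rel p q q') : Rel p q' q := by
  obtain ⟨Φ, h1, h2⟩ := h
  refine ⟨Φ.symm, ?_, ?_⟩
  · rw [Φ.symm_apply_eq]; exact h1.symm
  · rw [Φ.symm_apply_eq]; exact h2.symm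

lemma Rel.trans {p q q' q'' : X} (h : Rel p q q') (h' : Rel p q' q'') : Rel p q q'' := by
  obtain ⟨Φ, h1, h2⟩ := h
  obtain ⟨Ψ, h3, h4⟩ := h'
  refine ⟨Φ.trans Ψ, ?_, ?_⟩
  · simp [h1, h3]
  · simp [h2, h4]

open SymS

/-- Step (3): nearby cut points of `p` are related. -/
lemma rel_cut_near (hB : Bl D T ex) (hS : SymS T ex sym) {p w w' : X} (hw : dist p w = D)
    (hw' : dist p w' = D) (h : dist w w' < D) : Rel p w w' := by
  by_cases hww : w = w'
  · subst hww; exact Rel.refl p w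
  -- the midpoint `y` of `w` and `w'`
  obtain ⟨v, hv, hv1, hv2⟩ := hB.reach w w'
  set r := dist w w' with hr
  have hr0 : 0 < r := dist_pos.mpr hww
  set y := ex w ((r / 2) • v) with hy
  have hwy : dist w y = r / 2 := hB.dist_ray w v hv hv1 _ (by positivity) (by linarith)
  have hyw' : dist y w' = r / 2 := by
    obtain ⟨u, hu, hu1, h'⟩ := hB.rebase w v hv hv1 (r / 2)
    have h2 := hB.dist_ray y u hu hu1 (r / 2) (by positivity) (by linarith)
    rw [h' (r / 2), show r / 2 + r / 2 = r by ring, hv2] at h2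
    exact h2
  -- `s_p` fixes `w`, `w'`, hence `y`
  have hpw : sym p w = w := sym_cut hB hS hw
  have hpw' : sym p w' = w' := sym_cut hB hS hw'
  have hfix : sym p y = y := by
    apply hB.unique_between (p := w) (q := w') h
    · have h1 : dist w (sym p y) = dist w y := by
        nth_rewrite 1 [← hpw]; exact (hS.sym_iso p).dist_eq _ _
      have h2 : dist (sym p y) w' = dist y w' := by
        nth_rewrite 1 [← hpw']; exact (hS.sym_iso p).dist_eq _ _
      rw [h1, h2, hwy, hyw']; linarith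
    · rw [hwy, hyw']; linarith
    · nth_rewrite 1 [← hpw]; exact (hS.sym_iso p).dist_eq _ _
  have hyD : dist p y = D := by
    rcases eq_or_cut_of_fixed hB hS hfix with h1 | h1
    · exfalso
      rw [h1, dist_comm, hw] at hwy
      linarith [hB.D_pos]
    · exact h1
  refine ⟨symE hB hS y, ?_, ?_⟩
  · simp only [symE_apply]
    exact sym_cut hB hS (by rw [dist_comm]; exact hyD)
  · simp only [symE_apply]
    exact sym_mid hB hS (by rw [hwy]) (by rw [hyw'])

/-- Step (3): the stabiliser of `p` is transitive on the cut locus. -/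
lemma rel_cut (hB : Bl D T ex) (hS : SymS T ex sym)
    (hconn : ∀ p : X, IsPreconnected {w : X | dist p w = D}) {p w w' : X} (hw : dist p w = D)
    (hw' : dist p w' = D) : Rel p w w' := by
  -- the class of `w` and its complement
  set A : Set X := ⋃ z ∈ {z : X | dist p z = D ∧ Rel p w z}, Metric.ball z D with hA
  set B : Set X := ⋃ z ∈ {z : X | dist p z = D ∧ ¬ Rel p w z}, Metric.ball z D with hBB
  have hAo : IsOpen A := isOpen_biUnion fun z _ => Metric.isOpen_ball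
  have hBo : IsOpen B := isOpen_biUnion fun z _ => Metric.isOpen_ball
  by_contra hcon
  have hsub : {z : X | dist p z = D} ⊆ A ∪ B := by
    intro z hz
    by_cases h : Rel p w z
    · left
      exact mem_biUnion (show z ∈ {z : X | dist p z = D ∧ Rel p w z} from ⟨hz, h⟩)
        (Metric.mem_ball_self hB.D_pos)
    · right
      exact mem_biUnion (show z ∈ {z : X | dist p z = D ∧ ¬ Rel p w z} from ⟨hz, h⟩)
        (Metric.mem_ball_self hB.D_pos)
  have h1 : ({z : X | dist p z = D} ∩ A).Nonempty :=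
    ⟨w, hw, mem_biUnion (show w ∈ {z : X | dist p z = D ∧ Rel p w z} from ⟨hw, Rel.refl p w⟩)
        (Metric.mem_ball_self hB.D_pos)⟩
  have h2 : ({z : X | dist p z = D} ∩ B).Nonempty :=
    ⟨w', hw', mem_biUnion (show w' ∈ {z : X | dist p z = D ∧ ¬ Rel p w z} from ⟨hw', hcon⟩)
        (Metric.mem_ball_self hB.D_pos)⟩
  obtain ⟨z, hz, hzA, hzB⟩ := hconn p A B hAo hBo hsub h1 h2
  simp only [hA, hBB, mem_iUnion, Metric.mem_ball, mem_ofPred_eq, exists_prop] at hzA hzB hz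
  obtain ⟨a, ⟨ha1, ha2⟩, ha3⟩ := hzA
  obtain ⟨b, ⟨hb1, hb2⟩, hb3⟩ := hzB
  apply hb2
  have h3 : Rel p a z := rel_cut_near hB hS ha1 hz (by rw [dist_comm]; exact ha3)
  have h4 : Rel p z b := rel_cut_near hB hS hz hb1 hb3
  exact (ha2.trans h3).trans h4

/-- a unit vector whose `D`-point is the cut point, from a point at distance `r`. -/
lemma exists_dir (hB : Bl D T ex) {p w q : X} (hw : dist p w = D)
    (hq : dist p q + dist q w = D) :
    ∃ v ∈ T p, ‖v‖ = 1 ∧ ex p (D • v) = w ∧ ex p (dist p q • v) = q := by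
  by_cases hqp : q = p
  · subst hqp
    obtain ⟨v, hv, hv1, h⟩ := hB.reach q w
    rw [hw] at h
    refine ⟨v, hv, hv1, h, ?_⟩
    rw [dist_self, zero_smul, hB.ex_zero]
  · obtain ⟨v, hv, hv1, h⟩ := hB.reach p q
    have := hB.no_corner p q w v hv hv1 hqp h (by rw [hw]; exact hq)
    rw [hw] at this
    exact ⟨v, hv, hv1, this, h⟩

/-- Step (4): two directions at `p` with the same cut point are related. -/
lemma rel_dir (hB : Bl D T ex) (hS : SymS T ex sym) (hM : MidS D T ex) {p : X} {v v' : E}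
    (hv : v ∈ T p) (hv1 : ‖v‖ = 1) (hv' : v' ∈ T p) (hv1' : ‖v'‖ = 1)
    (h : ex p (D • v) = ex p (D • v')) {r : ℝ} (hr0 : 0 ≤ r) (hr : r < D) :
    Rel p (ex p (r • v)) (ex p (r • v')) := by
  by_cases h1 : v' = v
  · subst h1; exact Rel.refl _ _
  by_cases h2 : v' = -v
  · subst h2
    refine ⟨symE hB hS p, ?_, ?_⟩
    · exact sym_self hB hS p
    · simp only [symE_apply]
      rw [hS.sym_ex _ _ ((T p).smul_mem _ hv), smul_neg]
  obtain ⟨u, hu, hu1, hu2, hm1, hm2⟩ := hM p v v' hv hv1 hv' hv1' h h1 h2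
  set x := ex p ((D / 2) • v) with hx
  set x' := ex p ((D / 2) • v') with hx'
  set z := ex p ((D / 2) • u) with hz
  have hDp := hB.D_pos
  -- `s_z s_x` fixes `p` and maps `x` to `x'`
  have e1 : sym x p = ex p (D • v) := by
    have := sym_ray hB hS hv hv1 (D / 2) (-(D / 2))
    rw [show D / 2 + -(D / 2) = 0 by ring, zero_smul, hB.ex_zero,
      show D / 2 - -(D / 2) = D by ring] at this
    exact this
  have e2 : sym z (ex p (D • v)) = p := by
    have := sym_ray hB hS hu hu1 (D / 2) (D / 2)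
    rw [show D / 2 + (D / 2) = D by ring, show D / 2 - (D / 2) = 0 by ring, zero_smul,
      hB.ex_zero, hu2] at this
    exact this
  have e3 : sym z x = x' := sym_mid hB hS hm1 hm2
  set Φ : X ≃ᵢ X := (symE hB hS x).trans (symE hB hS z) with hΦ
  have hΦp : Φ p = p := by
    change sym z (sym x p) = p
    rw [e1, e2]
  have hΦx : Φ x = x' := by
    change sym z (sym x x) = x'
    rw [sym_self hB hS, e3]
  refine ⟨Φ, hΦp, ?_⟩
  -- the image of `ex p (r v)`
  set q := ex p (r • v) with hq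
  have dpx : dist p x = D / 2 := hB.dist_ray p v hv hv1 _ (by linarith) (by linarith)
  have dpx' : dist p x' = D / 2 := hB.dist_ray p v' hv' hv1' _ (by linarith) (by linarith)
  have dpq : dist p q = r := hB.dist_ray p v hv hv1 _ hr0 hr.le
  have dpΦq : dist p (Φ q) = r := by
    nth_rewrite 1 [← hΦp]; rw [Φ.isometry.dist_eq, dpq]
  have dxq : dist x (Φ.symm (Φ q)) = dist x' (Φ q) := by
    rw [← hΦx, Φ.isometry.dist_eq, Φ.symm_apply_apply]
  rw [Φ.symm_apply_apply] at dxq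
  rcases le_or_gt r (D / 2) with hle | hgt
  · -- `q` lies between `p` and `x`
    have dqx : dist q x = D / 2 - r := by
      obtain ⟨w, hw, hw1, h'⟩ := hB.rebase p v hv hv1 r
      have h2 := hB.dist_ray q w hw hw1 (D / 2 - r) (by linarith) (by linarith)
      rw [h' (D / 2 - r), show r + (D / 2 - r) = D / 2 by ring] at h2
      exact h2
    have dq'x : dist (ex p (r • v')) x' = D / 2 - r := by
      obtain ⟨w, hw, hw1, h'⟩ := hB.rebase p v' hv' hv1' r
      have h2 := hB.dist_ray _ w hw hw1 (D / 2 - r) (by linarith) (by linarith)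
      rw [h' (D / 2 - r), show r + (D / 2 - r) = D / 2 by ring] at h2
      exact h2
    have dpq' : dist p (ex p (r • v')) = r := hB.dist_ray p v' hv' hv1' _ hr0 hr.le
    apply hB.unique_between (p := p) (q := x')
    · rw [dpx']; linarith
    · rw [dpΦq, dpx', dist_comm (Φ q), ← dxq, dist_comm x, dqx]; ring
    · rw [dpq', dpx', dq'x]; ring
    · rw [dpΦq, dpq']
  · -- `x` lies between `p` and `q`
    have dxq2 : dist x q = r - D / 2 := by
      obtain ⟨w, hw, hw1, h'⟩ := hB.rebase p v hv hv1 (D / 2)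
      have h2 := hB.dist_ray x w hw hw1 (r - D / 2) (by linarith) (by linarith)
      rw [h' (r - D / 2), show D / 2 + (r - D / 2) = r by ring] at h2
      exact h2
    have hx'p : x' ≠ p := by
      intro h3
      rw [h3, dist_self] at dpx'
      linarith
    have h4 := hB.no_corner p x' (Φ q) v' hv' hv1' hx'p (by rw [dpx'])
      (by rw [dpx', ← dxq, dxq2, dpΦq]; ring)
    rw [dpΦq] at h4
    exact h4.symm

/-- **Two-point homogeneity** from the point symmetries. -/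
theorem two_point (hB : Bl D T ex) (hS : SymS T ex sym) (hM : MidS D T ex)
    (hconn : ∀ p : X, IsPreconnected {w : X | dist p w = D}) (p q p' q' : X)
    (hd : dist p q = dist p' q') : ∃ Φ : X ≃ᵢ X, Φ p = p' ∧ Φ q = q' := by
  have hDp := hB.D_pos
  -- reduce to `p = p'`
  suffices H : ∀ q q' : X, dist p q = dist p q' → Rel p q q' by
    obtain ⟨v, hv, hv1, h⟩ := hB.reach p p'
    set m := ex p ((dist p p' / 2) • v) with hm
    have h1 : sym m p = p' := by
      have := sym_ray hB hS hv hv1 (dist p p' / 2) (-(dist p p' / 2))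
      rw [show dist p p' / 2 + -(dist p p' / 2) = 0 by ring, zero_smul, hB.ex_zero,
        show dist p p' / 2 - -(dist p p' / 2) = dist p p' by ring, h] at this
      exact this
    have h2 : sym m p' = p := by rw [← h1, sym_invol hB hS]
    obtain ⟨Φ, h3, h4⟩ := H q (sym m q') (by
      rw [hd, ← (hS.sym_iso m).dist_eq p' q', h2])
    refine ⟨Φ.trans (symE hB hS m), ?_, ?_⟩
    · change sym m (Φ p) = p'
      rw [h3, h1]
    · change sym m (Φ q) = q'
      rw [h4, sym_invol hB hS]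
  intro q q' hqq
  by_cases hD : dist p q = D
  · exact rel_cut hB hS hconn hD (by rw [← hqq]; exact hD)
  have hlt : dist p q < D := lt_of_le_of_ne (hB.dist_le p q) hD
  obtain ⟨v, hv, hv1, hvq⟩ := hB.reach p q
  obtain ⟨v', hv', hv1', hvq'⟩ := hB.reach p q'
  set r := dist p q with hr
  rw [← hqq] at hvq'
  set w := ex p (D • v) with hw
  set w' := ex p (D • v') with hw'
  have dpw : dist p w = D := hB.dist_ray p v hv hv1 _ hDp.le le_rfl
  have dpw' : dist p w' = D := hB.dist_ray p v' hv' hv1' _ hDp.le le_rfl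
  obtain ⟨Φ, h1, h2⟩ := rel_cut hB hS hconn dpw dpw'
  -- `Φ q` lies on a geodesic from `p` to `w'`
  have dqw : dist q w = D - r := by
    obtain ⟨u, hu, hu1, h'⟩ := hB.rebase p v hv hv1 r
    have h2 := hB.dist_ray _ u hu hu1 (D - r) (by linarith) (by linarith [dist_nonneg (x := p) (y := q)])
    rw [h' (D - r), show r + (D - r) = D by ring, hvq] at h2
    exact h2
  have dpΦq : dist p (Φ q) = r := by
    nth_rewrite 1 [← h1]; rw [Φ.isometry.dist_eq]
  have dΦqw : dist (Φ q) w' = D - r := by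
    rw [← h2, Φ.isometry.dist_eq, dqw]
  obtain ⟨v'', hv'', hv1'', h3, h4⟩ := exists_dir hB dpw' (q := Φ q) (by rw [dpΦq, dΦqw]; ring)
  rw [dpΦq] at h4
  have h5 : Rel p (ex p (r • v'')) (ex p (r • v')) :=
    rel_dir hB hS hM hv'' hv1'' hv' hv1' h3 dist_nonneg hlt
  rw [h4, hvq'] at h5
  exact Rel.trans ⟨Φ, h1, rfl⟩ h5

end Crest.Agent.R208.M
end

-- ▼ part R208/M885b
section

/-!
R208 (Blaschke), block G7, the wiring: from the geometric facts about `(S, G)` (structure `Rigid`)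
to the conclusion of S0321, through the metric theorem `M.two_point`.
-/

set_option autoImplicit false

open Set Filter Topology
open scoped ContDiff RealInnerProductSpace
open Crest.GeometryTopology.Submanifold
open Crest.Agent.R241.DDefs Crest.Agent.R241.D Crest.Agent.R241.D2

noncomputable section

namespace Crest.Agent.R208.M

variable {n N : ℕ} {κ : ℝ} {S : Set (Euc N)}

/-- All the facts about a Blaschke manifold of diameter `π` with equality in NCK which are used for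
two-point homogeneity. -/
structure Rigid (G : Geo n N κ S) : Prop where
  bl : Crest.Agent.R208.Bl n N κ S G Real.pi
  dist_Exp : ∀ p ∈ S, ∀ v ∈ G.T p, ‖v‖ ≤ Real.pi → intrinsicDist S p (Exp G p v) = ‖v‖
  exists_Exp : ∀ p ∈ S, ∀ q ∈ S, ∃ v ∈ G.T p, ‖v‖ = intrinsicDist S p q ∧ Exp G p v = q
  no_corner : ∀ x ∈ S, ∀ u ∈ G.T x, ∀ w ∈ G.T x, ‖u‖ = 1 → ‖w‖ = 1 → ∀ s t : ℝ, 0 < s → 0 < t →
    intrinsicDist S (Exp G x (s • u)) (Exp G x (t • w)) = s + t → w = -u
  Exp_inj : ∀ p ∈ S, ∀ v ∈ G.T p, ∀ w ∈ G.T p, ‖v‖ < Real.pi → ‖w‖ ≤ Real.pi →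
    Exp G p v = Exp G p w → v = w
  per : ∀ z ∈ TS G, ‖z.2‖ = 1 → fl G (z, 2 * Real.pi) = z
  symS : ∀ p ∈ S, ∀ ξ ∈ G.T p, ∀ η ∈ G.T p, ‖ξ‖ ≤ Real.pi → ‖η‖ ≤ Real.pi →
    intrinsicDist S (Exp G p (-ξ)) (Exp G p (-η)) ≤ intrinsicDist S (Exp G p ξ) (Exp G p η)
  equator : ∀ p ∈ S, ∀ v ∈ G.T p, ∀ w ∈ G.T p, ‖v‖ = 1 → ‖w‖ = 1 →
    Exp G p (Real.pi • v) = Exp G p (Real.pi • w) →
    intrinsicDist S (Exp G p ((Real.pi / 2) • v)) (Exp G p ((Real.pi / 2) • w))
      = InnerProductGeometry.angle v w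
  lin : ∀ p ∈ S, ∀ v ∈ G.T p, ∀ w ∈ G.T p, ‖v‖ = 1 → ‖w‖ = 1 →
    Exp G p (Real.pi • v) = Exp G p (Real.pi • w) → v ≠ -w →
    Exp G p (Real.pi • (‖v + w‖⁻¹ • (v + w))) = Exp G p (Real.pi • v)

/-- The set `S` as a type, to carry the intrinsic metric. -/
@[ext] structure XM (S : Set (Euc N)) : Type where
  /-- the point -/
  val : Euc N
  /-- membership -/
  mem : val ∈ S

/-- the intrinsic metric. -/
@[reducible] def metricXM (hS : IsSubmanifold n N S) (hc : IsConnected S) : MetricSpace (XM S) where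
  dist x y := intrinsicDist S x.1 y.1
  dist_self x := intrinsicDist_self x.2
  dist_comm x y := intrinsicDist_comm S x.1 y.1
  dist_triangle x y z := intrinsicDist_triangle (joinedS_of_connected hS hc x.2 y.2)
    (joinedS_of_connected hS hc y.2 z.2)
  eq_of_dist_eq_zero {x y} h := by
    have h1 := chord_le_intrinsicDist (joinedS_of_connected hS hc x.2 y.2)
    have h2 : ‖y.1 - x.1‖ ≤ 0 := h1.trans (le_of_eq h)
    have h3 := norm_le_zero_iff.1 h2
    exact XM.ext (sub_eq_zero.1 h3).symm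

open Classical in
/-- the exponential map on `XM S`. -/
def exM (G : Geo n N κ S) (p : XM S) (v : Euc N) : XM S :=
  if h : v ∈ G.T p.1 then ⟨Exp G p.1 v, Exp_mem G p.2 h⟩ else p

lemma exM_coe (G : Geo n N κ S) (p : XM S) {v : Euc N} (hv : v ∈ G.T p.1) :
    (exM G p v).1 = Exp G p.1 v := by
  unfold exM; rw [dif_pos hv]

/-- two unit-speed parameters which agree modulo `2π`. -/
lemma Exp_periodic {G : Geo n N κ S} (hR : Rigid G) {p v : Euc N} (hp : p ∈ S) (hv : v ∈ G.T p)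
    (hv1 : ‖v‖ = 1) (t : ℝ) : Exp G p ((t + 2 * Real.pi) • v) = Exp G p (t • v) := by
  have hz : (p, v) ∈ TS G := ⟨hp, hv⟩
  rw [Exp_smul G hp hv, Exp_smul G hp hv, add_comm, fl_add' G hz, hR.per _ hz hv1]

lemma Exp_periodic_int {G : Geo n N κ S} (hR : Rigid G) {p v : Euc N} (hp : p ∈ S)
    (hv : v ∈ G.T p) (hv1 : ‖v‖ = 1) (t : ℝ) (k : ℤ) :
    Exp G p ((t + k * (2 * Real.pi)) • v) = Exp G p (t • v) := by
  induction k using Int.induction_on with
  | zero => simp
  | succ i ih =>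
    rw [show t + ((i : ℤ) + 1 : ℤ) * (2 * Real.pi) = (t + (i : ℤ) * (2 * Real.pi)) + 2 * Real.pi by
      push_cast; ring, Exp_periodic hR hp hv hv1, ih]
  | pred i ih =>
    rw [← ih, ← Exp_periodic hR hp hv hv1 (t + ((-(i : ℤ) - 1 : ℤ)) * (2 * Real.pi))]
    congr 2
    push_cast; ring

section

variable {G : Geo n N κ S} (hR : Rigid G)

include hR in
/-- the metric axioms. -/
theorem bl_metric : @Bl (XM S) (Euc N) (metricXM hR.bl.sub hR.bl.conn) _ _ Real.pi
    (fun p => G.T p.1) (exM G) := by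
  let _ := metricXM hR.bl.sub hR.bl.conn
  have hdist : ∀ p q : XM S, dist p q = intrinsicDist S p.1 q.1 := fun _ _ => rfl
  refine ⟨Real.pi_pos, fun p q => hR.bl.dist_le _ p.2 _ q.2, ?_, ?_, ?_, ?_, ?_, ?_⟩
  · -- rebase
    intro p v hv hv1 s
    have hz : (p.1, v) ∈ TS G := ⟨p.2, hv⟩
    have hsv : s • v ∈ G.T p.1 := (G.T p.1).smul_mem _ hv
    have e1 : (exM G p (s • v)).1 = (fl G ((p.1, v), s)).1 := by
      rw [exM_coe G p hsv, Exp_smul G p.2 hv]
    have hmem := fl_mem G hz s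
    refine ⟨(fl G ((p.1, v), s)).2, ?_, ?_, ?_⟩
    · rw [e1]; exact hmem.2
    · rw [norm_fl G hz, hv1]
    · intro t
      have hw : (fl G ((p.1, v), s)).2 ∈ G.T (exM G p (s • v)).1 := by rw [e1]; exact hmem.2
      apply XM.ext
      rw [exM_coe G _ ((G.T _).smul_mem _ hw), e1,
        exM_coe G p (v := (s + t) • v) ((G.T p.1).smul_mem _ hv), Exp_smul G hmem.1 hmem.2, Exp_smul G p.2 hv, fl_add' G hz]
  · intro p v hv hv1 r hr0 hr
    rw [hdist, exM_coe G p ((G.T p.1).smul_mem _ hv),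
      hR.dist_Exp _ p.2 _ ((G.T p.1).smul_mem _ hv), norm_smul, hv1, Real.norm_of_nonneg hr0,
      mul_one]
    rw [norm_smul, hv1, Real.norm_of_nonneg hr0, mul_one]; exact hr
  · intro p v hv hv1 t
    apply XM.ext
    rw [exM_coe G p ((G.T p.1).smul_mem _ hv), exM_coe G p ((G.T p.1).smul_mem _ hv),
      Exp_periodic hR p.2 hv hv1]
  · intro p q
    obtain ⟨v, hv, hvn, hvq⟩ := hR.exists_Exp p.1 p.2 q.1 q.2
    by_cases h0 : v = 0
    · -- `p = q`: any unit vector
      have hpq : p = q := by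
        apply XM.ext
        rw [← hvq, h0, Exp_zero G p.2]
      have hfr : 0 < Module.finrank ℝ (G.T p.1) := by
        rw [G.finrank_T p.1 p.2]; exact hR.bl.hn
      obtain ⟨w, hw⟩ := @exists_ne (G.T p.1) (Module.nontrivial_of_finrank_pos hfr) 0
      have hw0 : (w : Euc N) ≠ 0 := fun h => hw (Subtype.ext h)
      refine ⟨‖(w : Euc N)‖⁻¹ • (w : Euc N), (G.T p.1).smul_mem _ w.2, ?_, ?_⟩
      · rw [norm_smul, norm_inv, norm_norm, inv_mul_cancel₀ (norm_ne_zero_iff.2 hw0)]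
      · subst hpq
        rw [dist_self, zero_smul]
        apply XM.ext
        rw [exM_coe G p (G.T p.1).zero_mem, Exp_zero G p.2]
    · have hn0 : ‖v‖ ≠ 0 := norm_ne_zero_iff.2 h0
      refine ⟨‖v‖⁻¹ • v, (G.T p.1).smul_mem _ hv, ?_, ?_⟩
      · rw [norm_smul, norm_inv, norm_norm, inv_mul_cancel₀ hn0]
      · apply XM.ext
        rw [hdist, ← hvn, smul_smul, mul_inv_cancel₀ hn0, one_smul, exM_coe G p hv, hvq]
  · intro p v w hv hv1 hw hw1 r hr0 hr h
    have h1 : Exp G p.1 (r • v) = Exp G p.1 (r • w) := by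
      have := congrArg XM.val h
      rwa [exM_coe G p ((G.T p.1).smul_mem _ hv), exM_coe G p ((G.T p.1).smul_mem _ hw)] at this
    have h2 := hR.Exp_inj _ p.2 _ ((G.T p.1).smul_mem _ hv) _ ((G.T p.1).smul_mem _ hw)
      (by rw [norm_smul, hv1, Real.norm_of_nonneg hr0.le, mul_one]; exact hr)
      (by rw [norm_smul, hw1, Real.norm_of_nonneg hr0.le, mul_one]; exact hr.le) h1
    exact smul_right_injective _ hr0.ne' h2
  · intro p y q v hv hv1 hyp hy hadd
    have hdp : 0 < dist p y := dist_pos.2 (Ne.symm hyp)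
    by_cases hqy : q = y
    · subst hqy
      rw [dist_self, add_zero] at hadd
      exact hy
    have hdq : 0 < dist y q := dist_pos.2 (Ne.symm hqy)
    -- the velocity at `y`
    have hz : (p.1, v) ∈ TS G := ⟨p.2, hv⟩
    set d := dist p y with hd
    have hmem := fl_mem G hz d
    have hy1 : y.1 = (fl G ((p.1, v), d)).1 := by
      rw [← hy, exM_coe G p ((G.T p.1).smul_mem _ hv), Exp_smul G p.2 hv]
    set u : Euc N := (fl G ((p.1, v), d)).2 with hu
    have hfl : fl G ((p.1, v), d) = (y.1, u) := by rw [hy1]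
    have hyu : (y.1, u) ∈ TS G := by rw [← hfl]; exact hmem
    have hu1 : ‖u‖ = 1 := by rw [hu, norm_fl G hz, hv1]
    -- `p` is `Exp y (-d u)`
    have hpb : Exp G y.1 (d • (-u)) = p.1 := by
      rw [smul_neg, ← neg_smul, Exp_smul G y.2 hyu.2, ← hfl, ← fl_add' G hz, add_neg_cancel,
        fl_zero]
    obtain ⟨w, hw, hwn, hwq⟩ := hR.exists_Exp y.1 y.2 q.1 q.2
    have hwn' : ‖w‖ = dist y q := hwn
    have hw0 : ‖w‖ ≠ 0 := by rw [hwn']; exact hdq.ne'
    have hq2 : Exp G y.1 (dist y q • (‖w‖⁻¹ • w)) = q.1 := by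
      rw [← hwn', smul_smul, mul_inv_cancel₀ hw0, one_smul, hwq]
    have h1 := hR.no_corner y.1 y.2 (-u) ((G.T y.1).neg_mem hyu.2) (‖w‖⁻¹ • w)
      ((G.T y.1).smul_mem _ hw) (by rw [norm_neg, hu1])
      (by rw [norm_smul, norm_inv, norm_norm, inv_mul_cancel₀ hw0]) d (dist y q) hdp hdq
      (by rw [hpb, hq2]; exact hadd.symm)
    rw [neg_neg] at h1
    rw [h1] at hq2
    apply XM.ext
    rw [exM_coe G p ((G.T p.1).smul_mem _ hv), ← hadd, Exp_smul G p.2 hv, fl_add' G hz, hfl,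
      ← Exp_smul G y.2 hyu.2, hq2]

/-- the reduced vector: every tangent vector `ξ` can be replaced by one of norm `≤ π` with the same
`Exp (±ξ)`. -/
lemma exists_reduced {p ξ : Euc N} (hR : Rigid G) (hp : p ∈ S) (hξ : ξ ∈ G.T p) :
    ∃ η ∈ G.T p, ‖η‖ ≤ Real.pi ∧ Exp G p η = Exp G p ξ ∧ Exp G p (-η) = Exp G p (-ξ) := by
  by_cases h0 : ξ = 0
  · exact ⟨ξ, hξ, by rw [h0, norm_zero]; exact Real.pi_pos.le, rfl, rfl⟩
  have hn0 : ‖ξ‖ ≠ 0 := norm_ne_zero_iff.2 h0
  set v : Euc N := ‖ξ‖⁻¹ • ξ with hv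
  have hvT : v ∈ G.T p := (G.T p).smul_mem _ hξ
  have hv1 : ‖v‖ = 1 := by rw [hv, norm_smul, norm_inv, norm_norm, inv_mul_cancel₀ hn0]
  have hξv : ξ = ‖ξ‖ • v := by rw [hv, smul_smul, mul_inv_cancel₀ hn0, one_smul]
  -- reduce `‖ξ‖` modulo `2π` into `(-π, π]`
  set t : ℝ := toIocMod Real.two_pi_pos (-Real.pi) ‖ξ‖ with ht
  have htmem := toIocMod_mem_Ioc Real.two_pi_pos (-Real.pi) ‖ξ‖
  rw [← ht] at htmem
  have hteq : t = ‖ξ‖ - toIocDiv Real.two_pi_pos (-Real.pi) ‖ξ‖ * (2 * Real.pi) := by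
    rw [ht, toIocMod, zsmul_eq_mul]
  set k : ℤ := toIocDiv Real.two_pi_pos (-Real.pi) ‖ξ‖ with hk
  refine ⟨t • v, (G.T p).smul_mem _ hvT, ?_, ?_, ?_⟩
  · rw [norm_smul, hv1, mul_one, Real.norm_eq_abs, abs_le]
    exact ⟨htmem.1.le, by linarith [htmem.2]⟩
  · rw [hξv, ← Exp_periodic_int hR hp hvT hv1 t k]
    congr 2
    rw [hteq]; ring
  · rw [← neg_smul]
    rw [show -ξ = (-‖ξ‖) • v by rw [neg_smul, ← hξv]]
    rw [← Exp_periodic_int hR hp hvT hv1 (-t) (-k)]
    congr 2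
    rw [hteq]; push_cast; ring

open Classical in
/-- the point symmetry. -/
def symM (G : Geo n N κ S) (hR : Rigid G) (x y : XM S) : XM S :=
  exM G x (-(Classical.choose (hR.exists_Exp x.1 x.2 y.1 y.2)))

lemma symM_spec (hR : Rigid G) (x y : XM S) {ξ : Euc N} (hξ : ξ ∈ G.T x.1)
    (hn : ‖ξ‖ ≤ Real.pi) (h : Exp G x.1 ξ = y.1) : (symM G hR x y).1 = Exp G x.1 (-ξ) := by
  obtain ⟨hη, hηn, hηy⟩ := Classical.choose_spec (hR.exists_Exp x.1 x.2 y.1 y.2)
  unfold symM
  set η := Classical.choose (hR.exists_Exp x.1 x.2 y.1 y.2) with hηdef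
  have hηπ : ‖η‖ ≤ Real.pi := by rw [hηn]; exact hR.bl.dist_le _ x.2 _ y.2
  rw [exM_coe G x ((G.T x.1).neg_mem hη)]
  -- the distance is zero
  have h1 := hR.symS x.1 x.2 η hη ξ hξ hηπ hn
  rw [hηy, h, intrinsicDist_self y.2] at h1
  have h2 := chord_le_intrinsicDist (joinedS_of_connected hR.bl.sub hR.bl.conn
    (Exp_mem G x.2 ((G.T x.1).neg_mem hη)) (Exp_mem G x.2 ((G.T x.1).neg_mem hξ)))
  have h3 := norm_le_zero_iff.1 (h2.trans h1)
  exact (sub_eq_zero.1 h3).symm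

include hR in
theorem sym_metric : @SymS (XM S) (Euc N) (metricXM hR.bl.sub hR.bl.conn) _ _
    (fun p => G.T p.1) (exM G) (symM G hR) := by
  let _ := metricXM hR.bl.sub hR.bl.conn
  have hdist : ∀ p q : XM S, dist p q = intrinsicDist S p.1 q.1 := fun _ _ => rfl
  refine ⟨?_, ?_⟩
  · intro x ξ hξ
    obtain ⟨η, hη, hηn, h1, h2⟩ := exists_reduced hR x.2 hξ
    apply XM.ext
    rw [symM_spec hR x (exM G x ξ) hη hηn (by rw [exM_coe G x hξ, h1]),
      exM_coe G x ((G.T x.1).neg_mem hξ), h2]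
  · intro x
    apply Isometry.of_dist_eq
    intro y z
    obtain ⟨ξ, hξ, hξn, hy⟩ := hR.exists_Exp x.1 x.2 y.1 y.2
    obtain ⟨η, hη, hηn, hz⟩ := hR.exists_Exp x.1 x.2 z.1 z.2
    have hξπ : ‖ξ‖ ≤ Real.pi := by rw [hξn]; exact hR.bl.dist_le _ x.2 _ y.2
    have hηπ : ‖η‖ ≤ Real.pi := by rw [hηn]; exact hR.bl.dist_le _ x.2 _ z.2
    rw [hdist, hdist, symM_spec hR x y hξ hξπ hy, symM_spec hR x z hη hηπ hz, ← hy, ← hz]
    apply le_antisymm
    · exact hR.symS x.1 x.2 ξ hξ η hη hξπ hηπ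
    · have := hR.symS x.1 x.2 (-ξ) ((G.T x.1).neg_mem hξ) (-η) ((G.T x.1).neg_mem hη)
        (by rwa [norm_neg]) (by rwa [norm_neg])
      rwa [neg_neg, neg_neg] at this

include hR in
theorem mid_metric : @MidS (XM S) (Euc N) (metricXM hR.bl.sub hR.bl.conn) _ _ Real.pi
    (fun p => G.T p.1) (exM G) := by
  let _ := metricXM hR.bl.sub hR.bl.conn
  have hdist : ∀ p q : XM S, dist p q = intrinsicDist S p.1 q.1 := fun _ _ => rfl
  intro p v v' hv hv1 hv' hv1' h hne hne'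
  have hS : ∀ {c : ℝ} {w : Euc N}, w ∈ G.T p.1 → c • w ∈ G.T p.1 := fun hw =>
    (G.T p.1).smul_mem _ hw
  have h1 : Exp G p.1 (Real.pi • v) = Exp G p.1 (Real.pi • v') := by
    have := congrArg XM.val h
    rwa [exM_coe G p (hS hv), exM_coe G p (hS hv')] at this
  have hne1 : v ≠ -v' := fun h' => hne' (by rw [h', neg_neg])
  have hsum : v + v' ≠ 0 := fun h' => hne1 (eq_neg_of_add_eq_zero_left h')
  have hn0 : ‖v + v'‖ ≠ 0 := norm_ne_zero_iff.2 hsum
  set u : Euc N := ‖v + v'‖⁻¹ • (v + v') with hu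
  have huT : u ∈ G.T p.1 := hS ((G.T p.1).add_mem hv hv')
  have hu1 : ‖u‖ = 1 := by rw [hu, norm_smul, norm_inv, norm_norm, inv_mul_cancel₀ hn0]
  have hlin := hR.lin p.1 p.2 v hv v' hv' hv1 hv1' h1 hne1
  rw [← hu] at hlin
  have hpos : 0 < ‖v + v'‖⁻¹ := inv_pos.2 (norm_pos_iff.2 hsum)
  -- the angles
  have hang1 : InnerProductGeometry.angle v u = InnerProductGeometry.angle u v' := by
    rw [InnerProductGeometry.angle, InnerProductGeometry.angle, hv1, hu1, hv1']
    congr 1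
    rw [hu, inner_smul_right, inner_smul_left, inner_add_right, inner_add_left,
      real_inner_self_eq_norm_sq, real_inner_self_eq_norm_sq, hv1, hv1']
    simp only [conj_trivial, mul_one, div_one]
    ring
  have hang2 : InnerProductGeometry.angle v u + InnerProductGeometry.angle u v'
      = InnerProductGeometry.angle v v' := by
    have e1 : InnerProductGeometry.angle v u = InnerProductGeometry.angle v (v + v') :=
      InnerProductGeometry.angle_smul_right_of_pos _ _ hpos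
    have hv0 : v ≠ 0 := fun h' => by rw [h', norm_zero] at hv1; norm_num at hv1
    have hv0' : v' ≠ 0 := fun h' => by rw [h', norm_zero] at hv1'; norm_num at hv1'
    -- use cosines
    set θ := InnerProductGeometry.angle v u with hθ
    rw [← hang1]
    have hθ0 : 0 ≤ θ := InnerProductGeometry.angle_nonneg _ _
    have hcos : Real.cos θ = ⟪v, u⟫ := by
      rw [hθ, InnerProductGeometry.cos_angle, hv1, hu1, mul_one, div_one]
    have hc1 : ⟪v, v'⟫ = Real.cos (InnerProductGeometry.angle v v') := by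
      rw [InnerProductGeometry.cos_angle, hv1, hv1', mul_one, div_one]
    have hnsq : ‖v + v'‖ ^ 2 = 2 + 2 * ⟪v, v'⟫ := by
      rw [norm_add_sq_real, hv1, hv1']; ring
    have hvu : ⟪v, u⟫ = ‖v + v'‖⁻¹ * (1 + ⟪v, v'⟫) := by
      rw [hu, inner_smul_right, inner_add_right, real_inner_self_eq_norm_sq, hv1]; ring
    have hvu' : ⟪v, u⟫ = ‖v + v'‖ / 2 := by
      rw [hvu]
      have : 1 + ⟪v, v'⟫ = ‖v + v'‖ ^ 2 / 2 := by rw [hnsq]; ring
      rw [this]; field_simp
    have hcpos : 0 < Real.cos θ := by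
      rw [hcos, hvu']; positivity
    have hθ2 : θ < Real.pi / 2 := by
      by_contra hcon
      push Not at hcon
      have := Real.cos_nonpos_of_pi_div_two_le_of_le hcon
        (by linarith [InnerProductGeometry.angle_le_pi v u, Real.pi_pos])
      linarith
    have h2θ : Real.cos (θ + θ) = Real.cos (InnerProductGeometry.angle v v') := by
      rw [← hc1, ← two_mul, Real.cos_two_mul, hcos, hvu', div_pow, hnsq]; ring
    exact Real.injOn_cos ⟨by linarith, by linarith⟩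
      ⟨InnerProductGeometry.angle_nonneg _ _, InnerProductGeometry.angle_le_pi _ _⟩ h2θ
  refine ⟨u, huT, hu1, ?_, ?_, ?_⟩
  · apply XM.ext
    rw [exM_coe G p (hS huT), exM_coe G p (hS hv)]
    exact hlin
  · rw [hdist, hdist, exM_coe G p (hS huT), exM_coe G p (hS hv), exM_coe G p (hS hv'),
      hR.equator p.1 p.2 v hv u huT hv1 hu1 hlin.symm,
      hR.equator p.1 p.2 v hv v' hv' hv1 hv1' h1]
    linarith
  · rw [hdist, hdist, exM_coe G p (hS huT), exM_coe G p (hS hv), exM_coe G p (hS hv'),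
      hR.equator p.1 p.2 u huT v' hv' hu1 hv1' (hlin.trans h1),
      hR.equator p.1 p.2 v hv v' hv' hv1 hv1' h1]
    linarith

include hR in
theorem cut_connected : ∀ p : XM S, @IsPreconnected (XM S)
    (metricXM hR.bl.sub hR.bl.conn).toUniformSpace.toTopologicalSpace
    {w : XM S | (metricXM hR.bl.sub hR.bl.conn).dist p w = Real.pi} := by
  let _ := metricXM hR.bl.sub hR.bl.conn
  have hdist : ∀ p q : XM S, dist p q = intrinsicDist S p.1 q.1 := fun _ _ => rfl
  intro p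
  change IsPreconnected {w : XM S | dist p w = Real.pi}
  have hB := bl_metric hR
  -- the cut locus is the image of the unit sphere of `T p`
  have himg : {w : XM S | dist p w = Real.pi}
      = (fun v : G.T p.1 => exM G p (Real.pi • (v : Euc N))) '' Metric.sphere 0 1 := by
    ext w
    constructor
    · intro hw
      obtain ⟨v, hv, hv1, hvw⟩ := hB.reach p w
      rw [show dist p w = Real.pi from hw] at hvw
      exact ⟨⟨v, hv⟩, by rw [mem_sphere_zero_iff_norm]; exact hv1, hvw⟩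
    · rintro ⟨v, hv, rfl⟩
      rw [mem_sphere_zero_iff_norm] at hv
      exact hB.dist_ray p v v.2 hv Real.pi Real.pi_pos.le le_rfl
  rw [himg]
  -- continuity
  have hcont : Continuous (fun v : G.T p.1 => exM G p (Real.pi • (v : Euc N))) := by
    rw [Metric.continuous_iff']
    intro v ε hε
    have hmem : ∀ w : G.T p.1, Real.pi • (w : Euc N) ∈ G.T p.1 := fun w =>
      (G.T p.1).smul_mem _ w.2
    have hc1 : ContinuousAt (fun w : G.T p.1 => Exp G p.1 (Real.pi • (w : Euc N))) v := by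
      have := (contDiffAt_Exp G p.2 (hmem v)).continuousAt
      exact ContinuousAt.comp (g := fun q : Euc N × Euc N => Exp G q.1 q.2)
        (f := fun w : G.T p.1 => ((p.1, Real.pi • (w : Euc N)) : Euc N × Euc N)) this (by fun_prop)
    have hc2 := continuousOn_intrinsicDist hR.bl.sub hR.bl.cpt hR.bl.conn
      (Exp G p.1 (Real.pi • (v : Euc N)), Exp G p.1 (Real.pi • (v : Euc N)))
      ⟨Exp_mem G p.2 (hmem v), Exp_mem G p.2 (hmem v)⟩
    have hc3 : Tendsto (fun w : G.T p.1 => (Exp G p.1 (Real.pi • (w : Euc N)),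
        Exp G p.1 (Real.pi • (v : Euc N)))) (𝓝 v)
        (𝓝[S ×ˢ S] (Exp G p.1 (Real.pi • (v : Euc N)), Exp G p.1 (Real.pi • (v : Euc N)))) := by
      rw [tendsto_nhdsWithin_iff]
      refine ⟨?_, Eventually.of_forall fun w => ⟨Exp_mem G p.2 (hmem w), Exp_mem G p.2 (hmem v)⟩⟩
      exact (hc1.prodMk continuousAt_const)
    have hc4 := hc2.tendsto.comp hc3
    rw [intrinsicDist_self (Exp_mem G p.2 (hmem v))] at hc4
    filter_upwards [hc4.eventually (gt_mem_nhds hε)] with w hw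
    rw [hdist, exM_coe G p (hmem w), exM_coe G p (hmem v)]
    exact hw
  by_cases hn1 : n = 1
  · -- dimension one: the image is a single point
    have hfr : Module.finrank ℝ (G.T p.1) = 1 := by rw [G.finrank_T p.1 p.2, hn1]
    obtain ⟨v, hv, hv1, -⟩ := hB.reach p p
    have hsub : (fun v : G.T p.1 => exM G p (Real.pi • (v : Euc N))) '' Metric.sphere 0 1
        ⊆ {exM G p (Real.pi • v)} := by
      rintro _ ⟨w, hw, rfl⟩
      rw [mem_sphere_zero_iff_norm] at hw
      obtain ⟨c, hc⟩ := (finrank_eq_one_iff_of_nonzero' (⟨v, hv⟩ : G.T p.1) (by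
        intro h
        have : v = 0 := congrArg Subtype.val h
        rw [this, norm_zero] at hv1; norm_num at hv1)).1 hfr w
      have hc' : (w : Euc N) = c • v := by rw [← hc]; rfl
      have hcn : |c| = 1 := by
        have : ‖(w : Euc N)‖ = 1 := hw
        rw [hc', norm_smul, hv1, mul_one, Real.norm_eq_abs] at this
        exact this
      rw [mem_singleton_iff]
      rcases eq_or_eq_neg_of_abs_eq hcn with h | h
      · simp only [hc', h, one_smul]
      · simp only [hc', h, neg_smul, one_smul, smul_neg]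
        exact hB.ex_neg_D hv hv1
    exact (Set.subsingleton_singleton.anti hsub).isPreconnected
  · have hfr : 1 < Module.finrank ℝ (G.T p.1) := by
      rw [G.finrank_T p.1 p.2]
      have := hR.bl.hn
      omega
    have hrank : 1 < Module.rank ℝ (G.T p.1) := by
      rw [← Module.finrank_eq_rank]
      exact_mod_cast hfr
    exact (isPreconnected_sphere hrank 0 1).image _ hcont.continuousOn

/-- **G7**: the conclusion of S0321 from the geometric facts. -/
theorem two_point_S (hR : Rigid G) : ∀ p q p' q' : S, intrinsicDist S p q = intrinsicDist S p' q' →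
    ∃ Φ : S → S, IsIntrinsicIsometry S Φ ∧ Φ p = p' ∧ Φ q = q' := by
  intro p q p' q' h
  let _ := metricXM hR.bl.sub hR.bl.conn
  obtain ⟨Φ, h1, h2⟩ := two_point (bl_metric hR) (sym_metric hR) (mid_metric hR)
    (cut_connected hR) (⟨p.1, p.2⟩ : XM S) (⟨q.1, q.2⟩ : XM S) (⟨p'.1, p'.2⟩ : XM S)
    (⟨q'.1, q'.2⟩ : XM S) h
  refine ⟨fun x => ⟨(Φ ⟨x.1, x.2⟩).1, (Φ ⟨x.1, x.2⟩).2⟩, ⟨⟨?_, ?_⟩, ?_⟩, ?_, ?_⟩
  · intro x y hxy
    have h3 : Φ ⟨x.1, x.2⟩ = Φ ⟨y.1, y.2⟩ := XM.ext (congrArg Subtype.val hxy)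
    exact Subtype.ext (congrArg XM.val (Φ.injective h3))
  · intro y
    obtain ⟨x, hx⟩ := Φ.surjective ⟨y.1, y.2⟩
    exact ⟨⟨x.1, x.2⟩, Subtype.ext (congrArg XM.val hx)⟩
  · intro x y
    exact Φ.isometry.dist_eq ⟨x.1, x.2⟩ ⟨y.1, y.2⟩
  · exact Subtype.ext (congrArg XM.val h1)
  · exact Subtype.ext (congrArg XM.val h2)

end

end Crest.Agent.R208.M
end
end

-- ▼ part R208/HS4
section

/-!
R208, block G7 (helper88), file HS4: assembly of the rigid end.  Blaschke data of diameter `π` with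
closed geodesics, linked great spheres and the polar metric of the equality case are two-point
homogeneous.
-/

set_option autoImplicit false

open Set Filter Topology
open scoped ContDiff RealInnerProductSpace
open Crest.GeometryTopology.Submanifold
open Crest.Agent.R241.DDefs
open Crest.Agent.R241.D2

noncomputable section

namespace Crest.Agent.R208.HS

variable {n N : ℕ} {κ : ℝ} {S : Set (Euc N)} {G : Geo n N κ S}

/-- the links of antipodal pairs are great spheres (output of G5) -/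
def Links (G : Geo n N κ S) : Prop :=
  ∀ p ∈ S, ∀ q ∈ S, intrinsicDist S p q = Real.pi → ∃ V : Submodule ℝ (Euc N), V ≤ G.T p ∧
    ∀ v, (v ∈ V ∧ ‖v‖ = 1) ↔ (v ∈ G.T p ∧ ‖v‖ = 1 ∧ Exp G p (Real.pi • v) = q)

theorem hyp (h : Bl n N κ S G Real.pi) (hper : Per G)
    (hpol : ∀ p ∈ S, ∀ v ∈ G.T p, ‖v‖ = 1 → PolarAt G p v) : Hyp G where
  bl := h
  per := hper
  pol := hpol
  reach _ hp _ hq := h.exists_Exp hp hq
  inj _ hp _ hv _ hw h1 h2 h3 := h.Exp_inj hp hv hw h1 h2 h3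

theorem rigid (h : Bl n N κ S G Real.pi) (hper : Per G)
    (hpol : ∀ p ∈ S, ∀ v ∈ G.T p, ‖v‖ = 1 → PolarAt G p v) (hlink : Links G) : M.Rigid G := by
  have H := hyp h hper hpol
  have hpi := Real.pi_pos
  have hV : ∀ p ∈ S, ∀ v ∈ G.T p, ∀ w ∈ G.T p, ‖v‖ = 1 → ‖w‖ = 1 →
      Exp G p (Real.pi • v) = Exp G p (Real.pi • w) → ∃ V : Submodule ℝ (Euc N), V ≤ G.T p ∧
        v ∈ V ∧ w ∈ V ∧ ∀ u ∈ V, ‖u‖ = 1 → Exp G p (Real.pi • u) = Exp G p (Real.pi • v) := by
    intro p hp v hv w hw hv1 hw1 hvw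
    have hq : Exp G p (Real.pi • v) ∈ S := Exp_mem G hp ((G.T p).smul_mem _ hv)
    have hd : intrinsicDist S p (Exp G p (Real.pi • v)) = Real.pi := by
      rw [h.dist_Exp hp ((G.T p).smul_mem _ hv) (by
        rw [norm_smul, hv1, mul_one, Real.norm_eq_abs, abs_of_pos hpi]), norm_smul, hv1, mul_one,
        Real.norm_eq_abs, abs_of_pos hpi]
    obtain ⟨V, hVT, hVi⟩ := hlink p hp _ hq hd
    exact ⟨V, hVT, ((hVi v).2 ⟨hv, hv1, rfl⟩).1, ((hVi w).2 ⟨hw, hw1, hvw.symm⟩).1,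
      fun u hu hu1 => ((hVi u).1 ⟨hu, hu1⟩).2.2⟩
  exact
  { bl := h
    dist_Exp := fun p hp v hv hn => h.dist_Exp hp hv hn
    exists_Exp := fun p hp q hq => h.exists_Exp hp hq
    no_corner := by
      intro x hx u hu w hw hu1 hw1 s t hs ht hd
      have hle : s + t ≤ Real.pi := by
        rw [← hd]
        exact h.dist_le _ (Exp_mem G hx ((G.T x).smul_mem _ hu)) _
          (Exp_mem G hx ((G.T x).smul_mem _ hw))
      exact h.no_corner hx hu hw hu1 hw1 hs ht (by linarith) (by linarith) hd.ge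
    Exp_inj := fun p hp v hv w hw h1 h2 h3 => h.Exp_inj hp hv hw h1 h2 h3
    per := hper
    symS := fun p hp ξ hξ η hη _ _ => symS H hp hξ hη
    equator := by
      intro p hp v hv w hw hv1 hw1 hvw
      obtain ⟨V, hVT, hvV, hwV, hVq⟩ := hV p hp v hv w hw hv1 hw1 hvw
      exact equator H hp hVT hVq hvV hwV hv1 hw1
    lin := by
      intro p hp v hv w hw hv1 hw1 hvw hne
      obtain ⟨V, hVT, hvV, hwV, hVq⟩ := hV p hp v hv w hw hv1 hw1 hvw
      have hsum : v + w ≠ 0 := fun h' => hne (eq_neg_of_add_eq_zero_left h')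
      exact hVq _ (V.smul_mem _ (V.add_mem hvV hwV)) (by
        rw [norm_smul, norm_inv, norm_norm, inv_mul_cancel₀ (norm_ne_zero_iff.2 hsum)]) }

/-- **G7**: rigid Blaschke data are two-point homogeneous. -/
theorem hom (h : Bl n N κ S G Real.pi) (hper : Per G)
    (hpol : ∀ p ∈ S, ∀ v ∈ G.T p, ‖v‖ = 1 → PolarAt G p v) (hlink : Links G) : TwoPt S :=
  M.two_point_S (rigid h hper hpol hlink)

end Crest.Agent.R208.HS
end
end

-- ▼ part R208/K6

/-!
R208 (Blaschke), block G5, file K6: `U1` is closed in the unit tangent bundle, hence everything.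
-/

set_option autoImplicit false

open Set Filter Topology
open scoped ContDiff RealInnerProductSpace
open Crest.GeometryTopology.Submanifold
open Crest.Agent.R241.DDefs
open Crest.Agent.R241.D2
open Crest.Agent.R241.D3b
open Crest.Agent.R241.D3c

noncomputable section

namespace Crest.Agent.R208.K

variable {n N : ℕ} {κ : ℝ} {S : Set (Euc N)} {G : Geo n N κ S} {D : ℝ}

lemma tendsto_apply {E F : Type*} [NormedAddCommGroup E] [NormedSpace ℝ E]
    [NormedAddCommGroup F] [NormedSpace ℝ F] {A : ℕ → E →L[ℝ] F} {A0 : E →L[ℝ] F} {b : ℕ → E}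
    {b0 : E} (hA : Tendsto A atTop (𝓝 A0)) (hb : Tendsto b atTop (𝓝 b0)) :
    Tendsto (fun j => A j (b j)) atTop (𝓝 (A0 b0)) :=
  ((isBoundedBilinearMap_apply (𝕜 := ℝ) (E := E) (F := F)).continuous.tendsto (A0, b0)).comp
    (hA.prodMk_nhds hb)

/-- joint continuity of the derivative of `Exp`. -/
lemma tendsto_fderiv_Exp {q w b : ℕ → Euc N} {q0 w0 b0 : Euc N} (hq0 : q0 ∈ S)
    (hw0 : w0 ∈ G.T q0) (hq : ∀ j, q j ∈ S) (hw : ∀ j, w j ∈ G.T (q j))
    (hql : Tendsto q atTop (𝓝 q0)) (hwl : Tendsto w atTop (𝓝 w0))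
    (hbl : Tendsto b atTop (𝓝 b0)) :
    Tendsto (fun j => fderiv ℝ (Exp G (q j)) (w j) (b j)) atTop
      (𝓝 (fderiv ℝ (Exp G q0) w0 b0)) := by
  set F : Euc N × Euc N → Euc N := fun x => Exp G x.1 x.2 with hF
  have hkey : ∀ (x y c : Euc N), x ∈ S → y ∈ G.T x →
      fderiv ℝ (Exp G x) y c = fderiv ℝ F (x, y) (0, c) := by
    intro x y c hx hy
    have h1 : HasFDerivAt F (fderiv ℝ F (x, y)) (x, y) :=
      ((contDiffAt_Exp G hx hy).differentiableAt (by simp)).hasFDerivAt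
    have h2 : HasFDerivAt (fun u : Euc N => ((x, u) : Euc N × Euc N))
        (ContinuousLinearMap.inr ℝ (Euc N) (Euc N)) y := hasFDerivAt_prodMk_right x y
    have h3 : HasFDerivAt (Exp G x) ((fderiv ℝ F (x, y)).comp
        (ContinuousLinearMap.inr ℝ (Euc N) (Euc N))) y := h1.comp y h2
    rw [h3.fderiv]
    rfl
  have h1 : ContinuousAt (fderiv ℝ F) (q0, w0) :=
    ((contDiffAt_Exp G hq0 hw0).fderiv_right (m := 0) (by simp)).continuousAt
  have h2 : Tendsto (fun j => fderiv ℝ F (q j, w j)) atTop (𝓝 (fderiv ℝ F (q0, w0))) :=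
    h1.tendsto.comp (hql.prodMk_nhds hwl)
  have h3 : Tendsto (fun j => ((0 : Euc N), b j)) atTop (𝓝 (0, b0)) :=
    tendsto_const_nhds.prodMk_nhds hbl
  have h4 := tendsto_apply h2 h3
  rw [hkey _ _ _ hq0 hw0]
  exact h4.congr fun j => (hkey _ _ _ (hq j) (hw j)).symm

lemma isClosed_Zs : IsClosed (Zs G D) := by
  refine isSeqClosed_iff_isClosed.1 fun z z0 hz hlim => ?_
  have hz0 : z0 ∈ US G :=
    (isClosed_US G).mem_of_tendsto hlim (Eventually.of_forall fun j => (hz j).1)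
  refine ⟨hz0, fun b hb hb0 => ?_⟩
  have h1 : Tendsto (fun j => (z j).1) atTop (𝓝 z0.1) := (continuous_fst.tendsto _).comp hlim
  have h2 : Tendsto (fun j => (z j).2) atTop (𝓝 z0.2) := (continuous_snd.tendsto _).comp hlim
  have hPb : Tendsto (fun j => G.P (z j).1 b) atTop (𝓝 b) := by
    have h3 : Tendsto (fun j => G.P (z j).1) atTop (𝓝 (G.P z0.1)) :=
      (G.contDiff_P.continuous.tendsto _).comp h1
    have h4 := tendsto_apply h3 (tendsto_const_nhds (x := b))
    rwa [(P_eq_self G hz0.1.1).1 hb] at h4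
  set c : ℕ → Euc N := fun j => G.P (z j).1 b - ⟪G.P (z j).1 b, (z j).2⟫ • (z j).2 with hc
  have hcl : Tendsto c atTop (𝓝 b) := by
    have h4 : Tendsto (fun j => ⟪G.P (z j).1 b, (z j).2⟫) atTop (𝓝 ⟪b, z0.2⟫) := hPb.inner h2
    have h3 := hPb.sub (h4.smul h2)
    rwa [hb0, zero_smul, sub_zero] at h3
  have hcT : ∀ j, c j ∈ G.T (z j).1 := fun j =>
    (G.T _).sub_mem (P_mem G (hz j).1.1.1) ((G.T _).smul_mem _ (hz j).1.1.2)
  have hc0 : ∀ j, ⟪c j, (z j).2⟫ = 0 := by
    intro j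
    rw [hc]
    simp only
    rw [inner_sub_left, inner_smul_left, real_inner_self_eq_norm_sq, (hz j).1.2]
    simp
  have h5 := tendsto_fderiv_Exp (G := G) hz0.1.1 ((G.T _).smul_mem (2 * D) hz0.1.2)
    (fun j => (hz j).1.1.1) (fun j => (G.T _).smul_mem (2 * D) (hz j).1.1.2) h1
    (h2.const_smul (2 * D)) hcl
  exact tendsto_nhds_unique (h5.congr fun j => (hz j).2 (c j) (hcT j) (hc0 j))
    tendsto_const_nhds |>.symm ▸ rfl

namespace Hyp

/-- `U1` is closed. -/
lemma U1_closed (H : Hyp G D) (hmc : MultConst G D) {k : ℕ}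
    (hmin : ∀ z ∈ US G, k ≤ Module.finrank ℝ (lin (G.T z.1) (Lk G D z.1 (ep G D z))))
    {z : Euc N × Euc N} (hz : z ∈ closure (U1 G D k)) : z ∈ U1 G D k := by
  have hzU : z ∈ US G := by
    have := closure_minimal (fun x hx => hx.1 : U1 G D k ⊆ US G) (isClosed_US G)
    exact this hz
  have hsub : U1 G D k ⊆ Zs G D := fun x hx => H.U1_sub_Zs hmin hx
  have hzZ : z ∈ Zs G D := closure_minimal hsub isClosed_Zs hz
  have h1 := hmc z hzZ
  have h2 : ∃ z' ∈ U1 G D k, mult G D z' = mult G D z := by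
    have h3 : (𝓝[U1 G D k] z).NeBot := mem_closure_iff_nhdsWithin_neBot.1 hz
    have h4 : ∀ᶠ z' in 𝓝[U1 G D k] z, mult G D z' = mult G D z :=
      h1.filter_mono (nhdsWithin_mono _ hsub)
    obtain ⟨z', h5, h6⟩ := (h4.and self_mem_nhdsWithin).exists
    exact ⟨z', h6, h5⟩
  obtain ⟨z', hz', he⟩ := h2
  have h3 := H.mult_U1 hmc hmin hz'
  refine ⟨hzU, ?_⟩
  rintro ⟨e, heo, heL⟩
  have h4 := H.card_le_mult hzU.1.1 (ep_mem hzU) (mem_lk_self hzU) heo heL
  have h5 : mult G D (z.1, z.2) = mult G D z := rfl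
  omega

/-- preconnected subsets of the unit tangent bundle meeting `U1` are contained in `U1`. -/
lemma preconnected_sub (H : Hyp G D) (hmc : MultConst G D) {k : ℕ}
    (hmin : ∀ z ∈ US G, k ≤ Module.finrank ℝ (lin (G.T z.1) (Lk G D z.1 (ep G D z))))
    {s : Set (Euc N × Euc N)} (hs : IsPreconnected s) (hsU : s ⊆ US G)
    (hne : (s ∩ U1 G D k).Nonempty) : s ⊆ U1 G D k := by
  set B := {z | z ∈ US G ∧ Star.Bad k (Lk G D z.1 (ep G D z))} with hB
  have hBc : IsOpen Bᶜ := (H.bad_closed (k := k)).isOpen_compl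
  have hcl : IsOpen (closure (U1 G D k))ᶜ := isClosed_closure.isOpen_compl
  by_contra hcon
  obtain ⟨x, hxs, hxU⟩ := Set.not_subset.1 hcon
  obtain ⟨y, hys, hyU⟩ := hne
  have h1 := hs Bᶜ (closure (U1 G D k))ᶜ hBc hcl (fun a ha => by
      by_cases haU : a ∈ U1 G D k
      · exact Or.inl fun h => haU.2 h.2
      · exact Or.inr fun h => haU (H.U1_closed hmc hmin h))
    ⟨y, hys, fun h => hyU.2 h.2⟩ ⟨x, hxs, fun h => hxU (H.U1_closed hmc hmin h)⟩
  obtain ⟨a, has, ha1, ha2⟩ := h1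
  exact ha2 (subset_closure ⟨hsU has, fun h => ha1 ⟨hsU has, h⟩⟩)

lemma orbit_sub (H : Hyp G D) (hmc : MultConst G D) {k : ℕ}
    (hmin : ∀ z ∈ US G, k ≤ Module.finrank ℝ (lin (G.T z.1) (Lk G D z.1 (ep G D z))))
    {z : Euc N × Euc N} (hz : z ∈ U1 G D k) (t : ℝ) : fl G (z, t) ∈ U1 G D k := by
  have hcont : Continuous fun s : ℝ => fl G (z, s) :=
    continuous_iff_continuousAt.2 fun s => (hasDerivAt_fl' G hz.1.1 s).continuousAt
  have h1 := H.preconnected_sub hmc hmin (isPreconnected_range hcont)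
    (by rintro _ ⟨s, rfl⟩; exact fl_US G hz.1 s) ⟨z, ⟨0, fl_zero G z⟩, hz⟩
  exact h1 ⟨t, rfl⟩

lemma sphere_sub (H : Hyp G D) (hmc : MultConst G D) {k : ℕ}
    (hmin : ∀ z ∈ US G, k ≤ Module.finrank ℝ (lin (G.T z.1) (Lk G D z.1 (ep G D z))))
    (hk : 1 ≤ k) {p v w : Euc N} (hp : p ∈ S) (hv : ((p, v) : Euc N × Euc N) ∈ U1 G D k)
    (hw : w ∈ G.T p) (hwn : ‖w‖ = 1) : ((p, w) : Euc N × Euc N) ∈ U1 G D k := by
  have hfin := G.finrank_T p hp
  have hwU : ((p, w) : Euc N × Euc N) ∈ US G := ⟨⟨hp, hw⟩, hwn⟩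
  rcases Nat.lt_or_ge 1 n with hn | hn
  · -- the unit sphere of the tangent space is connected
    have hrank : 1 < Module.rank ℝ (G.T p) := by
      rw [← Module.finrank_eq_rank, hfin]
      exact_mod_cast hn
    have h1 : IsPreconnected (Metric.sphere (0 : G.T p) 1) :=
      (isConnected_sphere hrank (0 : G.T p) zero_le_one).isPreconnected
    have h2 : Continuous fun x : G.T p => ((p, (x : Euc N)) : Euc N × Euc N) := by fun_prop
    have h3 := h1.image _ h2.continuousOn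
    have h4 := H.preconnected_sub hmc hmin h3 (by
        rintro _ ⟨x, hx, rfl⟩
        rw [mem_sphere_zero_iff_norm] at hx
        exact ⟨⟨hp, x.2⟩, hx⟩)
      ⟨(p, v), ⟨⟨v, hv.1.1.2⟩, by rw [mem_sphere_zero_iff_norm]; exact hv.1.2, rfl⟩, hv⟩
    exact h4 ⟨⟨w, hw⟩, by rw [mem_sphere_zero_iff_norm]; exact hwn, rfl⟩
  · -- dimension one: no two orthonormal vectors
    refine ⟨hwU, ?_⟩
    rintro ⟨e, heo, heL⟩
    have h1 := card_le_of_orthonormal heo (L := G.T p) fun i => (heL i).1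
    rw [hfin] at h1
    omega

/-- everything is in `U1`. -/
lemma all_U1 (H : Hyp G D) (hmc : MultConst G D) {k : ℕ} (hk : 1 ≤ k)
    (hmin : ∀ z ∈ US G, k ≤ Module.finrank ℝ (lin (G.T z.1) (Lk G D z.1 (ep G D z))))
    (hne : (U1 G D k).Nonempty) {z : Euc N × Euc N} (hz : z ∈ US G) : z ∈ U1 G D k := by
  obtain ⟨⟨p0, v0⟩, hz0⟩ := hne
  have hp0 : p0 ∈ S := hz0.1.1.1
  have hp : z.1 ∈ S := hz.1.1
  obtain ⟨w, hw, hwn, hwe⟩ := H.hr p0 hp0 z.1 hp
  have h1 := H.sphere_sub hmc hmin hk hp0 hz0 hw hwn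
  have h2 := H.orbit_sub hmc hmin h1 (intrinsicDist S p0 z.1)
  set y := fl G ((p0, w), intrinsicDist S p0 z.1) with hy
  have h3 : ((z.1, y.2) : Euc N × Euc N) = y := Prod.ext hwe.symm rfl
  rw [← h3] at h2
  exact H.sphere_sub hmc hmin hk hp h2 hz.1.2 hz.2

/-- OUTPUT: all links are great spheres of the same dimension, all geodesics are closed, and the
kernel of `dExp` at distance `D` is the tangent space of the link. -/
theorem links (H : Hyp G D) (hmc : MultConst G D) : ∃ k : ℕ, 1 ≤ k ∧ k ≤ n ∧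
    (∀ z ∈ US G, fl G (z, 2 * D) = z) ∧
    (∀ p ∈ S, ∀ q ∈ S, intrinsicDist S p q = D → ∃ V : Submodule ℝ (Euc N), V ≤ G.T p ∧
      Module.finrank ℝ V = k ∧
      (∀ v : Euc N, (v ∈ V ∧ ‖v‖ = 1) ↔ (v ∈ G.T p ∧ ‖v‖ = 1 ∧ Exp G p (D • v) = q)) ∧
      (∀ v ∈ V, ‖v‖ = 1 → ∀ b : Euc N, (b ∈ G.T p ∧ fderiv ℝ (Exp G p) (D • v) b = 0) ↔
        (b ∈ V ∧ ⟪v, b⟫ = 0))) ∧
    (∀ z ∈ US G, mult G D z + 1 = k) := by
  obtain ⟨k, hk, hmin, hne⟩ := H.exists_k
  have hall : ∀ z ∈ US G, z ∈ U1 G D k := fun z hz => H.all_U1 hmc hk hmin hne hz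
  have hmult : ∀ z ∈ US G, mult G D z + 1 = k := fun z hz => H.mult_U1 hmc hmin (hall z hz)
  refine ⟨k, hk, ?_, fun z hz => H.periodic_of_U1 hmin (hall z hz), ?_, hmult⟩
  · obtain ⟨z, hz⟩ := hne
    have h1 := (H.linear_of_U1 hmin hz).1
    have h2 : lin (G.T z.1) (Lk G D z.1 (ep G D z)) ≤ G.T z.1 := inf_le_left
    have h3 := Submodule.finrank_mono h2
    rwa [h1, G.finrank_T _ hz.1.1.1] at h3
  · intro p hp q hq hpq
    have hst : Star (G.T p) (Lk G D p q) := H.star hq hp (by rw [H.sym _ hq _ hp]; exact hpq)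
    obtain ⟨u, hu, -⟩ := hst.star 0 (G.T _).zero_mem
    have hzU : ((p, u) : Euc N × Euc N) ∈ US G := lk_US hp hu
    have hepu : ep G D (p, u) = q := hu.2.2
    have hlin := H.linear_of_U1 hmin (hall _ hzU)
    have hlin1 : Module.finrank ℝ (lin (G.T p) (Lk G D p q)) = k := by
      rw [← hepu]; exact hlin.1
    have hlin2 : ∀ u, u ∈ Lk G D p q ↔ u ∈ lin (G.T p) (Lk G D p q) ∧ ‖u‖ = 1 := by
      rw [← hepu]; exact hlin.2
    set V := lin (G.T p) (Lk G D p q) with hV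
    have hVT : V ≤ G.T p := inf_le_left
    have hiff : ∀ v : Euc N, (v ∈ V ∧ ‖v‖ = 1) ↔ (v ∈ G.T p ∧ ‖v‖ = 1 ∧ Exp G p (D • v) = q) := by
      intro v
      rw [← hlin2 v]
      constructor
      · rintro ⟨h1, h2, h3⟩; exact ⟨h1, h2, by rw [Exp_smul G hp h1]; exact h3⟩
      · rintro ⟨h1, h2, h3⟩; exact ⟨h1, h2, by rw [Exp_smul G hp h1] at h3; exact h3⟩
    refine ⟨V, hVT, hlin1, hiff, fun v hv hvn b => ?_⟩
    have hvL : v ∈ Lk G D p q := (hlin2 v).2 ⟨hv, hvn⟩
    have hvU : ((p, v) : Euc N × Euc N) ∈ US G := lk_US hp hvL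
    have hepv : ep G D (p, v) = q := hvL.2.2
    have hle : Mk G D (p, v) ≤ V := by
      have := H.Mk_le hmc hmin (hall _ hvU)
      simp only [hepv] at this
      exact this
    have hin : ∀ c : Euc N, c ∈ Mk G D (p, v) → ⟪v, c⟫ = 0 := fun c hc =>
      inner_of_Mk hvU H.hD hc
    -- dimension count
    set W : Submodule ℝ (Euc N) := V ⊓ (Submodule.span ℝ {v})ᗮ with hW
    have hMW : Mk G D (p, v) ≤ W := by
      intro c hc
      refine ⟨hle hc, ?_⟩
      rw [SetLike.mem_coe, Submodule.mem_orthogonal_singleton_iff_inner_right]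
      exact hin c hc
    have hv0 : v ≠ 0 := by intro h; rw [h, norm_zero] at hvn; norm_num at hvn
    have hWdim : Module.finrank ℝ W ≤ mult G D (p, v) := by
      have h1 : W ⊓ Submodule.span ℝ {v} = ⊥ := by
        rw [Submodule.eq_bot_iff]
        rintro x ⟨⟨-, hx1⟩, hx2⟩
        obtain ⟨a, rfl⟩ := Submodule.mem_span_singleton.1 hx2
        rw [SetLike.mem_coe, Submodule.mem_orthogonal_singleton_iff_inner_right,
          inner_smul_right, real_inner_self_eq_norm_sq, hvn] at hx1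
        have ha : a = 0 := by simpa using hx1
        rw [ha, zero_smul]
      have h2 := Submodule.finrank_sup_add_finrank_inf_eq W (Submodule.span ℝ {v})
      rw [h1, finrank_bot, add_zero, finrank_span_singleton hv0] at h2
      have h3 : W ⊔ Submodule.span ℝ {v} ≤ V :=
        sup_le inf_le_left ((Submodule.span_singleton_le_iff_mem _ _).2 hv)
      have h4 := Submodule.finrank_mono h3
      rw [h2, hlin1] at h4
      have h5 := hmult _ hvU
      omega
    have hEq : Mk G D (p, v) = W := Submodule.eq_of_le_of_finrank_le hMW hWdim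
    constructor
    · rintro ⟨h1, h2⟩
      have h3 : b ∈ Mk G D (p, v) := ⟨h1, h2⟩
      exact ⟨hle h3, hin b h3⟩
    · rintro ⟨h1, h2⟩
      have h3 : b ∈ W := ⟨h1, by
        rw [SetLike.mem_coe, Submodule.mem_orthogonal_singleton_iff_inner_right]; exact h2⟩
      rw [← hEq] at h3
      exact h3

end Hyp

end Crest.Agent.R208.K
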