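import Crest.Agent.R208.G3b
import Crest.Agent.R208.I3
import Crest.Agent.R208.K2
import Mathlib
import Crest.Agent.R208.J6
import Crest.Agent.R208.K6_Mg

-- ▼ part R208/I4
section

/-!
R208, block I, file 4: the interface `K.Hyp` of block K from the Blaschke data `Bl`.
-/

set_option autoImplicit false

open Set Filter Topology
open scoped ContDiff RealInnerProductSpace
open Crest.GeometryTopology.Submanifold
open Crest.Agent.R241.DDefs
open Crest.Agent.R241.D2
open Crest.Agent.R241.D3b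
open Crest.Agent.R241.D3c

noncomputable section

namespace Crest.Agent.R208.I

variable {n N : ℕ} {κ : ℝ} {S : Set (Euc N)} {G : Geo n N κ S} {D : ℝ}

lemma exists_unit (hB : Bl n N κ S G D) {p : Euc N} (hp : p ∈ S) : ∃ v ∈ G.T p, ‖v‖ = 1 := by
  obtain ⟨fr, hfr⟩ := exists_frame G hp
  refine ⟨fr (stdVec n ⟨0, hB.hn⟩), frame_mem hfr _, ?_⟩
  rw [fr.norm_map]
  simp [stdVec]

theorem hr_of_bl (hB : Bl n N κ S G D) : HR G := fun _ hp _ hq => hB.exists_Exp hp hq

/-- The interface of block K. -/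
theorem hyp (hB : Bl n N κ S G D) : K.Hyp G D where
  hD := hB.D_pos
  hn := hB.hn
  cpt := hB.cpt
  ne := hB.conn.nonempty
  sym := fun p _ q _ => intrinsicDist_comm S p q
  cont := continuousOn_intrinsicDist hB.sub hB.cpt hB.conn
  le := hB.dist_le
  mini := fun z hz t h0 h1 => by
    have := hB.dist_fl z hz.1 hz.2 0 t h0 (by linarith)
    rwa [fl_zero, sub_zero] at this
  hr := fun p hp q hq => by
    obtain ⟨v, hv, hn, he⟩ := hB.exists_Exp hp hq
    by_cases hv0 : v = 0
    · obtain ⟨w, hw, hw1⟩ := exists_unit hB hp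
      refine ⟨w, hw, hw1, ?_⟩
      rw [← hn, hv0, norm_zero, fl_zero]
      rw [hv0, Exp_zero G hp] at he
      exact he
    · refine ⟨‖v‖⁻¹ • v, (G.T p).smul_mem _ hv, norm_unit hv0, ?_⟩
      rw [← hn, ← Exp_smul_unit hp hv hv0, he]
  f1 := by
    obtain ⟨K, hK, h⟩ := first_variation hB (hr_of_bl hB)
    exact ⟨K, hK, fun z hz l h1 h2 p' hp' q' hq' => h z hz.1 hz.2 l h1 h2 p' hp' q' hq'⟩
  v4 := fun z hz t h0 h1 b hb h => no_conj hB hz.1 hz.2 h0 h1 hb h

end Crest.Agent.R208.I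
end
end

-- ▼ part R208/I5
section

/-!
R208, block G6b (helper499), file 1: abstract integration of a per-orbit inequality for the mean of
`log D` over a measure preserving flow (inequality and equality case).
-/

set_option autoImplicit false
set_option linter.unusedSectionVars false

open MeasureTheory Set Filter Topology
open scoped ENNReal

noncomputable section

namespace Crest.Agent.R208.I

variable {Ω : Type*} [TopologicalSpace Ω] [T2Space Ω] [SecondCountableTopology Ω]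
  [MeasurableSpace Ω] [BorelSpace Ω]

/-- the orbit mean -/
def om (φ : ℝ → Ω → Ω) (D : Ω → ℝ → ℝ) (P : ℝ) (q : Ω) (t : ℝ) : ℝ :=
  (1 / P) * ∫ s in (0 : ℝ)..P, Real.log (D (φ s q) t)

/-- Data: a finite measure `ν` carried by the compact set `K`, a flow `φ` preserving `ν` and `K`,
a positive function `D` continuous on `K × (0, T)`. -/
structure FlowData (ν : Measure Ω) (K : Set Ω) (φ : ℝ → Ω → Ω) (D : Ω → ℝ → ℝ) (T : ℝ) : Prop where
  fin : IsFiniteMeasure ν
  cpt : IsCompact K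
  carr : ν Kᶜ = 0
  mp : ∀ s, MeasurePreserving (φ s) ν ν
  inv : ∀ s, ∀ q ∈ K, φ s q ∈ K
  cont : ContinuousOn (fun x : Ω × ℝ => φ x.2 x.1) (K ×ˢ univ)
  Dcont : ContinuousOn (fun x : Ω × ℝ => D x.1 x.2) (K ×ˢ Ioo 0 T)
  Dpos : ∀ q ∈ K, ∀ t ∈ Ioo 0 T, 0 < D q t

namespace FlowData

variable {ν : Measure Ω} {K : Set Ω} {φ : ℝ → Ω → Ω} {D : Ω → ℝ → ℝ} {T : ℝ}
  (h : FlowData ν K φ D T)
include h

lemma meas_K : MeasurableSet K := h.cpt.isClosed.measurableSet

lemma ae_K : ∀ᵐ q ∂ν, q ∈ K := by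
  rw [ae_iff]
  exact h.carr

lemma restrict_eq : ν.restrict K = ν := Measure.restrict_eq_self_of_ae_mem h.ae_K

/-- log D at time `t` -/
lemma contOn_D {t : ℝ} (ht : t ∈ Ioo 0 T) : ContinuousOn (fun q => D q t) K := by
  refine h.Dcont.comp (f := fun q => (q, t)) (by fun_prop) ?_
  intro q hq
  exact ⟨hq, ht⟩

lemma contOn_log {t : ℝ} (ht : t ∈ Ioo 0 T) : ContinuousOn (fun q => Real.log (D q t)) K :=
  (h.contOn_D ht).log fun q hq => (h.Dpos q hq t ht).ne'

lemma integrable_of_contOn {g : Ω → ℝ} (hg : ContinuousOn g K) : Integrable g ν := by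
  have := h.fin
  rw [← h.restrict_eq]
  exact hg.integrableOn_compact h.cpt

/-- joint continuity of `log D (φ_s q) t` -/
lemma contOn_orbit : ContinuousOn (fun x : (Ω × ℝ) × ℝ => Real.log (D (φ x.1.2 x.1.1) x.2))
    ((K ×ˢ univ) ×ˢ Ioo 0 T) := by
  have h1 : ContinuousOn (fun x : (Ω × ℝ) × ℝ => ((φ x.1.2 x.1.1, x.2) : Ω × ℝ))
      ((K ×ˢ univ) ×ˢ Ioo 0 T) := by
    refine ContinuousOn.prodMk ?_ (by fun_prop)
    exact h.cont.comp (f := fun x : (Ω × ℝ) × ℝ => x.1) (by fun_prop) fun x hx => hx.1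
  have hm : MapsTo (fun x : (Ω × ℝ) × ℝ => ((φ x.1.2 x.1.1, x.2) : Ω × ℝ))
      ((K ×ˢ univ) ×ˢ Ioo 0 T) (K ×ˢ Ioo 0 T) := fun x hx =>
    ⟨h.inv _ _ hx.1.1, hx.2⟩
  have h2 := h.Dcont.comp h1 hm
  exact h2.log fun x hx => (h.Dpos _ (h.inv _ _ hx.1.1) _ hx.2).ne'

variable {P : ℝ}

lemma contOn_om : ContinuousOn (fun x : Ω × ℝ => om φ D P x.1 x.2) (K ×ˢ Ioo 0 T) := by
  rw [continuousOn_iff_continuous_domRestrict]
  unfold om
  have h1 : Continuous (Function.uncurry fun (x : ↥(K ×ˢ Ioo (0 : ℝ) T)) (s : ℝ) =>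
      Real.log (D (φ s x.1.1) x.1.2)) := by
    have h2 := continuousOn_iff_continuous_domRestrict.1 h.contOn_orbit
    have h3 : Continuous fun y : ↥(K ×ˢ Ioo (0 : ℝ) T) × ℝ =>
        (⟨((y.1.1.1, y.2), y.1.1.2), ⟨⟨y.1.2.1, mem_univ _⟩, y.1.2.2⟩⟩ :
          ↥((K ×ˢ (univ : Set ℝ)) ×ˢ Ioo (0 : ℝ) T)) := by
      refine Continuous.subtype_mk ?_ _
      fun_prop
    exact h2.comp h3
  have h4 := intervalIntegral.continuous_parametric_intervalIntegral_of_continuous'
    (μ := volume) h1 0 P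
  exact continuous_const.mul h4

lemma contOn_om_left {t : ℝ} (ht : t ∈ Ioo 0 T) : ContinuousOn (fun q => om φ D P q t) K := by
  refine (h.contOn_om (P := P)).comp (f := fun q => (q, t)) (by fun_prop) ?_
  intro q hq
  exact ⟨hq, ht⟩

lemma contOn_om_right {q : Ω} (hq : q ∈ K) : ContinuousOn (fun t => om φ D P q t) (Ioo 0 T) := by
  refine (h.contOn_om (P := P)).comp (f := fun t => (q, t)) (by fun_prop) ?_
  intro t ht
  exact ⟨hq, ht⟩

lemma integral_om (hP : 0 < P) {t : ℝ} (ht : t ∈ Ioo 0 T) :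
    ∫ q, om φ D P q t ∂ν = ∫ q, Real.log (D q t) ∂ν := by
  have := h.fin
  unfold om
  rw [integral_const_mul]
  have hint : Integrable (Function.uncurry fun (q : Ω) (s : ℝ) => Real.log (D (φ s q) t))
      (ν.prod (volume.restrict (Ioc 0 P))) := by
    have h1 : ContinuousOn (Function.uncurry fun (q : Ω) (s : ℝ) => Real.log (D (φ s q) t))
        (K ×ˢ Icc 0 P) := by
      refine h.contOn_orbit.comp (f := fun y : Ω × ℝ => (y, t)) (by fun_prop) ?_
      intro y hy
      exact ⟨⟨hy.1, mem_univ _⟩, ht⟩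
    have h2 : IntegrableOn (Function.uncurry fun (q : Ω) (s : ℝ) => Real.log (D (φ s q) t))
        (K ×ˢ Icc 0 P) (ν.prod volume) :=
      h1.integrableOn_compact (h.cpt.prod isCompact_Icc)
    rw [IntegrableOn, ← Measure.prod_restrict, h.restrict_eq] at h2
    refine h2.mono_measure ?_
    exact Measure.prod_mono le_rfl (Measure.restrict_mono Ioc_subset_Icc_self le_rfl)
  have h2 : ∫ q, (∫ s in (0 : ℝ)..P, Real.log (D (φ s q) t)) ∂ν =
      ∫ s in Ioc 0 P, ∫ q, Real.log (D (φ s q) t) ∂ν := by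
    have h3 : ∀ q, (∫ s in (0 : ℝ)..P, Real.log (D (φ s q) t)) =
        ∫ s in Ioc 0 P, Real.log (D (φ s q) t) := fun q =>
      intervalIntegral.integral_of_le hP.le
    simp only [h3]
    exact integral_integral_swap hint
  rw [h2]
  have h4 : ∀ s, ∫ q, Real.log (D (φ s q) t) ∂ν = ∫ q, Real.log (D q t) ∂ν := by
    intro s
    have h5 : AEStronglyMeasurable (fun q => Real.log (D q t)) (Measure.map (φ s) ν) := by
      rw [(h.mp s).map_eq]
      exact (h.integrable_of_contOn (h.contOn_log ht)).aestronglyMeasurable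
    have h6 := integral_map (h.mp s).measurable.aemeasurable h5
    rw [(h.mp s).map_eq] at h6
    exact h6.symm
  simp only [h4]
  rw [integral_const, measureReal_restrict_apply MeasurableSet.univ, univ_inter,
    Real.volume_real_Ioc_of_le hP.le, smul_eq_mul, sub_zero, ← mul_assoc, one_div,
    inv_mul_cancel₀ hP.ne', one_mul]

/-- the lower bound at one time -/
lemma lower (hP : 0 < P) {t : ℝ} (ht : t ∈ Ioo 0 T) (L : ℝ) :
    ENNReal.ofReal (Real.exp L * (ν.real univ + ∫ q, (om φ D P q t - L) ∂ν)) ≤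
      ∫⁻ q, ENNReal.ofReal (D q t) ∂ν := by
  have := h.fin
  have hD := h.integrable_of_contOn (h.contOn_D ht)
  have hl := h.integrable_of_contOn (h.contOn_log ht)
  have ho := h.integrable_of_contOn (h.contOn_om_left (P := P) ht)
  have hpos : 0 ≤ᵐ[ν] fun q => D q t := by
    filter_upwards [h.ae_K] with q hq
    exact (h.Dpos q hq t ht).le
  rw [← ofReal_integral_eq_lintegral_ofReal hD hpos]
  apply ENNReal.ofReal_le_ofReal
  have h1 : Real.exp L * (ν.real univ + ∫ q, (om φ D P q t - L) ∂ν) =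
      ∫ q, Real.exp L * (1 + (Real.log (D q t) - L)) ∂ν := by
    have e1 : ∫ q, (1 + (Real.log (D q t) - L)) ∂ν =
        (∫ q, (1 : ℝ) ∂ν) + ∫ q, (Real.log (D q t) - L) ∂ν :=
      integral_add (integrable_const _) (hl.sub (integrable_const _))
    rw [integral_const_mul, e1, integral_sub hl (integrable_const _),
      integral_sub ho (integrable_const _), h.integral_om hP ht]
    simp
  rw [h1]
  refine integral_mono_ae ?_ hD ?_
  · exact ((integrable_const _).add (hl.sub (integrable_const _))).const_mul _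
  · filter_upwards [h.ae_K] with q hq
    have h2 := Real.add_one_le_exp (Real.log (D q t) - L)
    have h3 : Real.exp L * Real.exp (Real.log (D q t) - L) = D q t := by
      rw [← Real.exp_add, add_sub_cancel, Real.exp_log (h.Dpos q hq t ht)]
    calc Real.exp L * (1 + (Real.log (D q t) - L))
        ≤ Real.exp L * Real.exp (Real.log (D q t) - L) := by
          have := Real.exp_pos L
          gcongr
          linarith
      _ = D q t := h3

lemma lower' (hP : 0 < P) {t : ℝ} (ht : t ∈ Ioo 0 T) {L : ℝ} (hL : ∀ q ∈ K, L ≤ om φ D P q t) :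
    ENNReal.ofReal (Real.exp L) * ν univ ≤ ∫⁻ q, ENNReal.ofReal (D q t) ∂ν := by
  have := h.fin
  refine le_trans ?_ (h.lower hP ht L)
  have h1 : 0 ≤ ∫ q, (om φ D P q t - L) ∂ν := by
    refine integral_nonneg_of_ae ?_
    filter_upwards [h.ae_K] with q hq
    exact sub_nonneg.2 (hL q hq)
  have h2 : ν univ = ENNReal.ofReal (ν.real univ) :=
    (ENNReal.ofReal_toReal (measure_ne_top ν _)).symm
  rw [h2, ← ENNReal.ofReal_mul (Real.exp_pos L).le]
  apply ENNReal.ofReal_le_ofReal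
  have := Real.exp_pos L
  gcongr
  linarith

/-- **Integrated inequality.** -/
theorem ineq (hP : 0 < P) {L : ℝ → ℝ} (hL : ∀ t ∈ Ioo 0 T, ∀ q ∈ K, L t ≤ om φ D P q t) :
    (∫⁻ t in Ioo 0 T, ENNReal.ofReal (Real.exp (L t))) * ν univ ≤
      ∫⁻ t in Ioo 0 T, ∫⁻ q, ENNReal.ofReal (D q t) ∂ν := by
  have := h.fin
  rw [← lintegral_mul_const' _ _ (measure_ne_top ν _)]
  exact setLIntegral_mono' measurableSet_Ioo fun t ht => h.lower' hP ht (hL t ht)

/-- **Equality case.** -/
theorem eq_case (hP : 0 < P) {L : ℝ → ℝ} (hLc : ContinuousOn L (Ioo 0 T))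
    (hL : ∀ t ∈ Ioo 0 T, ∀ q ∈ K, L t ≤ om φ D P q t)
    (hfin : (∫⁻ t in Ioo 0 T, ENNReal.ofReal (Real.exp (L t))) * ν univ ≠ ⊤)
    (hsupp : ∀ q ∈ K, ∀ U ∈ 𝓝[K] q, ν U ≠ 0)
    (heq : ∫⁻ t in Ioo 0 T, ∫⁻ q, ENNReal.ofReal (D q t) ∂ν ≤
      (∫⁻ t in Ioo 0 T, ENNReal.ofReal (Real.exp (L t))) * ν univ) :
    ∀ t ∈ Ioo 0 T, ∀ q ∈ K, om φ D P q t = L t := by
  have := h.fin
  set f : ℝ → ℝ≥0∞ := fun t => ENNReal.ofReal (Real.exp (L t)) * ν univ with hf
  set g : ℝ → ℝ≥0∞ := fun t => ∫⁻ q, ENNReal.ofReal (D q t) ∂ν with hg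
  have hfint : ∫⁻ t in Ioo 0 T, f t = (∫⁻ t in Ioo 0 T, ENNReal.ofReal (Real.exp (L t))) * ν univ :=
    lintegral_mul_const' _ _ (measure_ne_top ν _)
  have hfg : f ≤ᵐ[volume.restrict (Ioo 0 T)] g := by
    refine (ae_restrict_iff' measurableSet_Ioo).2 (Eventually.of_forall fun t ht => ?_)
    exact h.lower' hP ht (hL t ht)
  have hgm : AEMeasurable g (volume.restrict (Ioo 0 T)) := by
    have h1 : AEMeasurable (fun x : ℝ × Ω => ENNReal.ofReal (D x.2 x.1))
        ((volume.restrict (Ioo 0 T)).prod ν) := by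
      have h2 : ContinuousOn (fun x : ℝ × Ω => D x.2 x.1) (Ioo 0 T ×ˢ K) := by
        refine h.Dcont.comp (f := fun x : ℝ × Ω => (x.2, x.1)) (by fun_prop) ?_
        intro x hx
        exact ⟨hx.2, hx.1⟩
      have h3 : AEMeasurable (fun x : ℝ × Ω => D x.2 x.1)
          ((volume.prod ν).restrict (Ioo 0 T ×ˢ K)) :=
        h2.aemeasurable (measurableSet_Ioo.prod h.meas_K)
      rw [← Measure.prod_restrict, h.restrict_eq] at h3
      exact h3.ennreal_ofReal
    exact h1.lintegral_prod_right'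
  have hae := ae_eq_of_ae_le_of_lintegral_le hfg (by rw [hfint]; exact hfin) hgm
    (by rw [hfint]; exact heq)
  -- a.e. `t`: equality for all `q`
  have hae2 : ∀ᵐ t ∂(volume.restrict (Ioo 0 T)), ∀ q ∈ K, om φ D P q t = L t := by
    filter_upwards [hae, ae_restrict_mem measurableSet_Ioo] with t ht htI
    have h1 := h.lower hP htI (L t)
    have h2 : ENNReal.ofReal (Real.exp (L t)) * ν univ = ∫⁻ q, ENNReal.ofReal (D q t) ∂ν := ht
    rw [← h2] at h1
    have h3 : ν univ = ENNReal.ofReal (ν.real univ) :=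
      (ENNReal.ofReal_toReal (measure_ne_top ν _)).symm
    rw [h3, ← ENNReal.ofReal_mul (Real.exp_pos _).le,
      ENNReal.ofReal_le_ofReal_iff (mul_nonneg (Real.exp_pos _).le measureReal_nonneg)] at h1
    have h4 : ∫ q, (om φ D P q t - L t) ∂ν ≤ 0 := by
      have h5 := le_of_mul_le_mul_left h1 (Real.exp_pos _)
      linarith
    have hnn : 0 ≤ᵐ[ν] fun q => om φ D P q t - L t := by
      filter_upwards [h.ae_K] with q hq
      exact sub_nonneg.2 (hL t htI q hq)
    have hint : Integrable (fun q => om φ D P q t - L t) ν :=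
      (h.integrable_of_contOn (h.contOn_om_left htI)).sub (integrable_const _)
    have h6 : (fun q => om φ D P q t - L t) =ᵐ[ν] 0 :=
      (integral_eq_zero_iff_of_nonneg_ae hnn hint).1
        (le_antisymm h4 (integral_nonneg_of_ae hnn))
    intro q hq
    by_contra hne
    have h7 : 0 < om φ D P q t - L t :=
      lt_of_le_of_ne (sub_nonneg.2 (hL t htI q hq)) (fun h8 => hne (by linarith))
    have h8 : ContinuousWithinAt (fun q => om φ D P q t - L t) K q :=
      ((h.contOn_om_left (P := P) htI) q hq).sub continuousWithinAt_const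
    have h9 : {q' | 0 < om φ D P q' t - L t} ∈ 𝓝[K] q := h8.eventually (lt_mem_nhds h7)
    refine hsupp q hq _ h9 ?_
    rw [← nonpos_iff_eq_zero]
    calc ν {q' | 0 < om φ D P q' t - L t} ≤ ν {q' | ¬ (om φ D P q' t - L t) = 0} :=
          measure_mono fun q' hq' => ne_of_gt hq'
      _ = 0 := ae_iff.1 h6
  -- all `t` by continuity
  intro t ht q hq
  have h1 : ∀ᵐ t ∂(volume.restrict (Ioo 0 T)), om φ D P q t = L t :=
    hae2.mono fun t ht => ht q hq
  have h2 := Measure.eqOn_Ioo_of_ae_eq (μ := volume) h1 (h.contOn_om_right hq) hLc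
  exact h2 ht

end FlowData

end Crest.Agent.R208.I
end
end

-- ▼ part R208/I6

/-!
R208, block G6b (helper499), file 2: the global inequality `vol S ≥ vol (model)` and the equality
case, for Blaschke data.
-/

set_option autoImplicit false
set_option linter.unusedSectionVars false

open MeasureTheory Measure Set Filter Topology Module Metric
open scoped ContDiff RealInnerProductSpace ENNReal
open Crest.GeometryTopology.Submanifold
open Crest.Agent.R241.DDefs
open Crest.Agent.R241.D2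
open Crest.Agent.R241
open Crest.Agent.R208.L (nu nuF cst volS)

noncomputable section

namespace Crest.Agent.R208.I

variable {n N : ℕ} {κ : ℝ} {S : Set (Euc N)} {G : Geo n N κ S}

/-! ### the model integral -/

/-- logarithm of the model density -/
def L0 (a b : ℕ) (u : ℝ) : ℝ :=
  (a : ℝ) * Real.log (Real.sin u) + (b : ℝ) * Real.log (2 * Real.sin (u / 2))

/-- the model integral `∫_0^π sin^a u (2 sin (u/2))^b du` -/
def IM (a b : ℕ) : ℝ≥0∞ :=
  ∫⁻ u in Ioo 0 Real.pi, ENNReal.ofReal (Real.sin u ^ a * (2 * Real.sin (u / 2)) ^ b)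

lemma sin_pos' {u : ℝ} (hu : u ∈ Ioo 0 Real.pi) : 0 < Real.sin u :=
  Real.sin_pos_of_pos_of_lt_pi hu.1 hu.2

lemma sin_half_pos {u : ℝ} (hu : u ∈ Ioo 0 Real.pi) : 0 < 2 * Real.sin (u / 2) := by
  have := Real.sin_pos_of_pos_of_lt_pi (x := u / 2) (by linarith [hu.1])
    (by linarith [hu.2, hu.1])
  positivity

lemma exp_L0 (a b : ℕ) {u : ℝ} (hu : u ∈ Ioo 0 Real.pi) :
    Real.exp (L0 a b u) = Real.sin u ^ a * (2 * Real.sin (u / 2)) ^ b := by
  unfold L0
  rw [Real.exp_add, ← Real.log_pow, ← Real.log_pow, Real.exp_log (pow_pos (sin_pos' hu) _),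
    Real.exp_log (pow_pos (sin_half_pos hu) _)]

lemma continuousOn_L0 (a b : ℕ) : ContinuousOn (L0 a b) (Ioo 0 Real.pi) := by
  unfold L0
  refine ContinuousOn.add (continuousOn_const.mul (ContinuousOn.log (by fun_prop)
    fun u hu => (sin_pos' hu).ne')) (continuousOn_const.mul (ContinuousOn.log (by fun_prop)
    fun u hu => (sin_half_pos hu).ne'))

lemma lintegral_exp_L0 (a b : ℕ) :
    ∫⁻ u in Ioo 0 Real.pi, ENNReal.ofReal (Real.exp (L0 a b u)) = IM a b :=
  setLIntegral_congr_fun measurableSet_Ioo fun u hu => by rw [exp_L0 a b hu]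

lemma IM_ne_top (a b : ℕ) : IM a b ≠ ⊤ := by
  have h1 : IM a b ≤ ∫⁻ u in Ioo 0 Real.pi, ENNReal.ofReal (2 ^ b) := by
    refine setLIntegral_mono' measurableSet_Ioo fun u hu => ENNReal.ofReal_le_ofReal ?_
    have h2 := sin_pos' hu
    have h3 := sin_half_pos hu
    calc Real.sin u ^ a * (2 * Real.sin (u / 2)) ^ b ≤ 1 ^ a * 2 ^ b := by
          gcongr
          · exact Real.sin_le_one _
          · linarith [Real.sin_le_one (u / 2)]
      _ = 2 ^ b := by simp
  refine ne_top_of_le_ne_top ?_ h1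
  rw [setLIntegral_const]
  exact ENNReal.mul_ne_top ENNReal.ofReal_ne_top (by simp)

/-! ### positivity of the volume -/

lemma jac_pos {U V : Type*} [NormedAddCommGroup U] [InnerProductSpace ℝ U] [FiniteDimensional ℝ U]
    [NormedAddCommGroup V] [InnerProductSpace ℝ V] [FiniteDimensional ℝ V]
    (A : U →L[ℝ] V) (hA : Function.Injective A) : 0 < AF.jac A := by
  have h1 : Function.Injective (A.adjoint ∘L A : U →L[ℝ] U).toLinearMap := by
    rw [injective_iff_map_eq_zero]
    intro x hx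
    have h2 : ⟪A x, A x⟫ = 0 := by
      rw [← ContinuousLinearMap.adjoint_inner_left]
      have h3 : A.adjoint (A x) = 0 := hx
      rw [h3, inner_zero_left]
    have h3 := inner_self_eq_zero.1 h2
    exact (injective_iff_map_eq_zero A).1 hA x h3
  have h2 : (A.adjoint ∘L A : U →L[ℝ] U).det ≠ 0 := by
    have h3 := LinearEquiv.isUnit_det' (LinearEquiv.ofInjectiveEndo _ h1)
    exact h3.ne_zero
  rw [← AF.jac_sq] at h2
  exact lt_of_le_of_ne (AF.jac_nonneg A) fun h => h2 (by rw [← h]; ring)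

/-- open pieces of a submanifold have positive volume -/
theorem muHE_ball_pos (hS : IsSubmanifold n N S) {p : Euc N} (hp : p ∈ S) {r : ℝ} (hr : 0 < r) :
    μHE[n] (ball p r ∩ S) ≠ 0 := by
  obtain ⟨f, V, hf⟩ := hS p hp
  have hcont : ContinuousOn f V := hf.contDiffOn.continuousOn
  have hW : IsOpen (V ∩ f ⁻¹' ball p r) := hcont.isOpen_inter_preimage hf.isOpen isOpen_ball
  set W := V ∩ f ⁻¹' ball p r with hWdef
  have h0 : (0 : Euc n) ∈ W := ⟨hf.zero_mem, by
    rw [mem_preimage, hf.map_zero]; exact mem_ball_self hr⟩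
  have hsub : f '' W ⊆ ball p r ∩ S := by
    rintro _ ⟨x, hx, rfl⟩
    exact ⟨hx.2, Crest.Agent.R241.D.mem_S hf hx.1⟩
  intro h
  have h1 : μHE[n] (f '' W) = 0 := measure_mono_null hsub h
  rw [AF.muHE_image_Euc hf.isOpen inter_subset_left hW.measurableSet
    (hf.contDiffOn.differentiableOn (by simp)) (hf.injOn.mono inter_subset_left)] at h1
  have hjc : ContinuousOn (fun x => AF.jac (fderiv ℝ f x)) W := by
    have h2 : ContinuousOn (fderiv ℝ f) V :=
      hf.contDiffOn.continuousOn_fderiv_of_isOpen hf.isOpen (by simp)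
    exact AF.continuous_jac.comp_continuousOn (h2.mono inter_subset_left)
  have hjm : AEMeasurable (fun x => ENNReal.ofReal (AF.jac (fderiv ℝ f x)))
      (volume.restrict W) := (hjc.aemeasurable hW.measurableSet).ennreal_ofReal
  rw [setLIntegral_eq_zero_iff' hW.measurableSet hjm] at h1
  have h2 : volume W = 0 := by
    refine measure_mono_null (fun x hx => ?_) (ae_iff.1 h1)
    have h3 := jac_pos _ (hf.injective_fderiv x hx.1)
    simp only [mem_ofPred_eq, Classical.not_imp]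
    exact ⟨hx, (ENNReal.ofReal_pos.2 h3).ne'⟩
  exact (hW.measure_pos volume ⟨0, h0⟩).ne' h2

theorem muHE_ne_zero (hB : Bl n N κ S G Real.pi) : μHE[n] S ≠ 0 := by
  obtain ⟨p, hp⟩ := hB.conn.nonempty
  intro h
  exact muHE_ball_pos hB.sub hp one_pos (measure_mono_null inter_subset_right h)

/-- the Liouville measure charges every neighbourhood in the unit tangent bundle -/
theorem nu_nhds_ne_zero (hn : 1 ≤ n) (hS : IsSubmanifold n N S) {q : Euc N × Euc N}
    (hq : q ∈ L.US G) {U : Set (Euc N × Euc N)} (hU : U ∈ 𝓝[L.US G] q) : nu G U ≠ 0 := by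
  obtain ⟨O, hO, hqO, hOU⟩ := mem_nhdsWithin.1 hU
  intro h
  have h1 : nu G O = 0 := by
    have h2 : O ⊆ U ∪ (L.US G)ᶜ := fun x hx => by
      by_cases h3 : x ∈ L.US G
      · exact Or.inl (hOU ⟨hx, h3⟩)
      · exact Or.inr h3
    exact measure_mono_null h2 (measure_union_null h (L.nu_compl_US G hn))
  have hm : Measurable fun z : Euc N × Euc N => (z.1, L.nrm (G.P z.1 z.2)) :=
    measurable_fst.prodMk (L.measurable_nP G)
  unfold L.nu at h1
  rw [Measure.smul_apply, map_apply hm hO.measurableSet, smul_eq_mul] at h1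
  have h3 := (mul_eq_zero.1 h1).resolve_left (L.cst_ne_zero hn)
  -- continuity at `q`
  have hPq : G.P q.1 q.2 = q.2 := (P_eq_self G hq.1.1).1 hq.1.2
  have hq0 : q.2 ≠ 0 := fun h0 => by
    have := hq.2; rw [h0, norm_zero] at this; exact zero_ne_one this
  have hc : ContinuousAt (fun z : Euc N × Euc N => (z.1, L.nrm (G.P z.1 z.2))) q := by
    refine continuousAt_fst.prodMk ?_
    have h4 : ContinuousAt (fun z : Euc N × Euc N => G.P z.1 z.2) q :=
      ((G.contDiff_P.continuous.comp continuous_fst).clm_apply continuous_snd).continuousAt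
    unfold L.nrm
    refine ContinuousAt.smul (ContinuousAt.inv₀ h4.norm ?_) h4
    rw [hPq]; exact norm_ne_zero_iff.2 hq0
  have hval : (fun z : Euc N × Euc N => (z.1, L.nrm (G.P z.1 z.2))) q = q := by
    show (q.1, L.nrm (G.P q.1 q.2)) = q
    rw [hPq]
    have : L.nrm q.2 = q.2 := by
      unfold L.nrm; rw [hq.2, inv_one, one_smul]
    rw [this]
  have h5 : (fun z : Euc N × Euc N => (z.1, L.nrm (G.P z.1 z.2))) ⁻¹' O ∈ 𝓝 q := by
    apply hc.preimage_mem_nhds
    have h6 : O ∈ 𝓝 ((fun z : Euc N × Euc N => (z.1, L.nrm (G.P z.1 z.2))) q) := by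
      rw [hval]
      exact hO.mem_nhds hqO
    exact h6
  obtain ⟨r, hr, hrO⟩ := Metric.mem_nhds_iff.1 h5
  have h6 : ball q.1 r ×ˢ ball q.2 r ⊆ (fun z : Euc N × Euc N => (z.1, L.nrm (G.P z.1 z.2))) ⁻¹' O := by
    rw [ball_prod_same]
    exact hrO
  have h7 := measure_mono_null h6 h3
  rw [Measure.prod_prod] at h7
  rcases mul_eq_zero.1 h7 with h8 | h8
  · unfold volS at h8
    rw [Measure.restrict_apply measurableSet_ball] at h8
    exact muHE_ball_pos hS hq.1.1 hr h8
  · unfold L.gam at h8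
    rw [withDensity_apply _ measurableSet_ball,
      setLIntegral_eq_zero_iff measurableSet_ball (L.measurable_gd _)] at h8
    have h9 : volume (ball q.2 r) = 0 := by
      refine measure_mono_null (fun x hx => ?_) (ae_iff.1 h8)
      simp only [mem_ofPred_eq, Classical.not_imp]
      refine ⟨hx, ?_⟩
      unfold L.gd
      exact (ENNReal.ofReal_pos.2 (Real.exp_pos _)).ne'
    exact (measure_ball_pos volume q.2 hr).ne' h9

/-! ### the flow data -/

section main

variable (hB : Bl n N κ S G Real.pi)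
include hB

lemma hnc : ∀ z ∈ TS G, ‖z.2‖ = 1 → ∀ t, 0 < t → t < Real.pi → ∀ w ∈ G.T z.1,
    fderiv ℝ (Exp G z.1) (t • z.2) w = 0 → w = 0 :=
  fun _ hz hz1 _ h0 h1 _ hw h => no_conj hB hz hz1 h0 h1 hw h

theorem flowData : FlowData (nu G) (L.US G) (fun s q => fl G (q, s))
    (fun q t => J.Dn G q 0 t) Real.pi where
  fin := L.isFiniteMeasure_nu G hB.sub hB.cpt
  cpt := by
    have h1 : L.US G = DS G 1 ∩ {q | ‖q.2‖ = 1} := by
      ext q
      constructor
      · rintro ⟨h1, h2⟩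
        exact ⟨⟨h1, h2.le⟩, h2⟩
      · rintro ⟨h1, h2⟩
        exact ⟨h1.1, h2⟩
    rw [h1]
    exact (isCompact_DS G hB.cpt 1).inter_right (isClosed_eq continuous_snd.norm continuous_const)
  carr := L.nu_compl_US G hB.hn
  mp := fun s => L.measurePreserving_fl G hB.hn hB.sub s
  inv := fun s q hq => ⟨fl_mem G hq.1 s, by rw [norm_fl G hq.1, hq.2]⟩
  cont := by
    rintro ⟨q, s⟩ ⟨hq, -⟩
    exact (contDiffAt_fl' G hq.1 s).continuousAt.continuousWithinAt
  Dcont := by
    rintro ⟨q, t⟩ ⟨hq, -⟩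
    have h1 := J.continuousAt_Dn (G := G) hq.1 0 t
    have h2 : ContinuousAt (fun x : (Euc N × Euc N) × ℝ => (x.1, (0 : ℝ), x.2)) (q, t) := by
      fun_prop
    exact (ContinuousAt.comp (f := fun x : (Euc N × Euc N) × ℝ => (x.1, (0 : ℝ), x.2))
      (g := fun z : (Euc N × Euc N) × ℝ × ℝ => J.Dn G z.1 z.2.1 z.2.2)
      (x := (q, t)) h1 h2).continuousWithinAt
  Dpos := fun q hq t ht => J.Dn_pos (hnc hB) hq.1 hq.2 ht.1 ht.2

/-- the square of the volume -/
theorem vol_sq' : μHE[n] S * μHE[n] S =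
    ∫⁻ t in Ioo 0 Real.pi, ∫⁻ q, ENNReal.ofReal (J.Dn G q 0 t) ∂(nu G) := by
  have hfin := (flowData hB).fin
  have h1 := L.vol_sq G hB.hn (D := Real.pi)
    (fun p hp v hv w hw h => hB.Exp_inj hp hv.1 hw.1 hv.2 hw.2.le h)
    (fun p hp q hq => by
      obtain ⟨v, hv, hvn, he⟩ := hB.exists_Exp hp hq
      exact ⟨v, hv, by rw [hvn]; exact hB.dist_le p hp q hq, he⟩)
  rw [h1]
  have hm : Measurable (Function.uncurry fun (q : Euc N × Euc N) (t : ℝ) =>
      ENNReal.ofReal (t ^ (n - 1) * L.jE G (q.1, t • q.2))) := by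
    refine ENNReal.measurable_ofReal.comp ((measurable_snd.pow_const _).mul ?_)
    exact (L.measurable_jE G).comp ((measurable_fst.comp measurable_fst).prodMk
      (measurable_snd.smul (measurable_snd.comp measurable_fst)))
  rw [lintegral_lintegral_swap hm.aemeasurable]
  refine setLIntegral_congr_fun measurableSet_Ioo fun t ht => ?_
  refine lintegral_congr_ae ?_
  filter_upwards [L.ae_nu G hB.hn] with q hq
  rw [J.jE_polar hq.1 hq.2 ht.1]

variable {a : ℕ} (hper : HS.Per G)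
  (hmult : ∀ z ∈ TS G, ‖z.2‖ = 1 → finrank ℝ
      (G.T z.1 ⊓ LinearMap.ker (fderiv ℝ (Exp G z.1) (Real.pi • z.2)).toLinearMap :
        Submodule ℝ (Euc N)) = a)
include hper hmult

lemma core (hcore : Crest.Agent.R208.N.CoreStmt) : ∀ t ∈ Ioo 0 Real.pi, ∀ q ∈ L.US G,
    L0 a (n - 1 - a) t ≤ om (fun s q => fl G (q, s)) (fun q t => J.Dn G q 0 t)
      (2 * Real.pi) q t :=
  fun _ ht _ hq => J.core_geodesic hcore hper (hnc hB) hmult hq.1 hq.2 ht.1 ht.2

/-- **The global inequality**: the volume is at least the volume of the model. -/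
theorem nck (hcore : Crest.Agent.R208.N.CoreStmt) : cst n * IM a (n - 1 - a) ≤ μHE[n] S := by
  have h1 := (flowData hB).ineq (P := 2 * Real.pi) (by positivity)
    (core hB hper hmult hcore)
  rw [lintegral_exp_L0, L.nu_univ, ← vol_sq' hB, ← mul_assoc, mul_comm (IM a (n - 1 - a))] at h1
  exact (ENNReal.mul_le_mul_iff_left (muHE_ne_zero hB) (L.muHE_lt_top hB.sub hB.cpt).ne).1 h1

/-- **The equality case.** -/
theorem nck_eq (hcore : Crest.Agent.R208.N.CoreStmt) (heq : Crest.Agent.R208.N.EqStmt)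
    (hle : μHE[n] S ≤ cst n * IM a (n - 1 - a)) :
    ∀ p ∈ S, ∀ v ∈ G.T p, ‖v‖ = 1 → HS.PolarAt G p v := by
  intro p hp v hv hv1
  have hV := L.muHE_lt_top hB.sub hB.cpt
  have h1 := (flowData hB).eq_case (P := 2 * Real.pi) (by positivity)
    (continuousOn_L0 a (n - 1 - a)) (core hB hper hmult hcore)
    (by
      rw [lintegral_exp_L0, L.nu_univ]
      exact ENNReal.mul_ne_top (IM_ne_top _ _) (ENNReal.mul_ne_top (L.cst_ne_top n) hV.ne))
    (fun q hq U hU => nu_nhds_ne_zero hB.hn hB.sub hq hU)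
    (by
      rw [lintegral_exp_L0, L.nu_univ, ← vol_sq' hB, ← mul_assoc, mul_comm (IM a (n - 1 - a))]
      gcongr)
  exact J.polar_of_eq heq hper (hnc hB) hmult (q := (p, v)) ⟨hp, hv⟩ hv1 fun u hu hu' =>
    h1 u ⟨hu, hu'⟩ (p, v) ⟨⟨hp, hv⟩, hv1⟩

end main

end Crest.Agent.R208.I
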