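import Crest.Agent.R208.JTDefs
import Crest.Agent.R208.FH9a
import Crest.Agent.R208.FH2

-- ▼ part R208/JT5
section

/-!
R208, block JT (helper631), part 5: algebra of two-forms, contraction, the mixed Hessian.
-/

set_option autoImplicit false
set_option linter.unusedSectionVars false

open Set Filter Topology Module MeasureTheory
open scoped NNReal ContDiff

noncomputable section

namespace Crest.Agent.R208.JT

open Crest.Agent.R208.F (Ext io inv pb top ii wd io_mul inv_io pb_io ii_mul ii_io_mul ii_io ii_pb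
  ii_one wd_apply evA evA_ii)

section two
variable {E E' : Type*} [AddCommGroup E] [Module ℝ E] [AddCommGroup E'] [Module ℝ E']

variable (E) in
/-- two-forms -/
def Two : Submodule ℝ (Ext E) :=
  Submodule.span ℝ {c | ∃ l l' : Module.Dual ℝ E, c = io l * io l'}

lemma two_io_io (l l' : Module.Dual ℝ E) : io l * io l' ∈ Two E :=
  Submodule.subset_span ⟨l, l', rfl⟩

lemma Two.inv_eq {c : Ext E} (hc : c ∈ Two E) : inv c = c := by
  refine Submodule.span_induction (p := fun c _ => inv c = c) ?_ ?_ ?_ ?_ hc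
  · rintro _ ⟨l, l', rfl⟩
    rw [map_mul, inv_io, inv_io, neg_mul_neg]
  · exact map_zero _
  · intro x y _ _ hx hy; rw [map_add, hx, hy]
  · intro r x _ hx; rw [map_smul, hx]

lemma Two.comm {c : Ext E} (hc : c ∈ Two E) (x : Ext E) : c * x = x * c := by
  refine Submodule.span_induction (p := fun c _ => c * x = x * c) ?_ ?_ ?_ ?_ hc
  · rintro _ ⟨l, l', rfl⟩
    rw [mul_assoc, io_mul l' x, ← mul_assoc, io_mul l (inv x), F.inv_inv, mul_assoc]
  · rw [zero_mul, mul_zero]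
  · intro a b _ _ ha hb; rw [add_mul, mul_add, ha, hb]
  · intro r a _ ha; rw [smul_mul_assoc, mul_smul_comm, ha]

lemma Two.pb {c : Ext E'} (hc : c ∈ Two E') (A : E →ₗ[ℝ] E') : pb A c ∈ Two E := by
  refine Submodule.span_induction (p := fun c _ => F.pb A c ∈ Two E) ?_ ?_ ?_ ?_ hc
  · rintro _ ⟨l, l', rfl⟩
    rw [map_mul, pb_io, pb_io]
    exact two_io_io _ _
  · rw [map_zero]; exact Submodule.zero_mem _
  · intro a b _ _ ha hb; rw [map_add]; exact Submodule.add_mem _ ha hb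
  · intro r a _ ha; rw [map_smul]; exact Submodule.smul_mem _ _ ha

/-- elements whose contraction is divisible by `θ` -/
def Dv (Z : E) (θ : Module.Dual ℝ E) (x : Ext E) : Prop := ∃ s, ii Z x = io θ * s

lemma Dv.one (Z : E) (θ : Module.Dual ℝ E) : Dv Z θ 1 := ⟨0, by rw [ii_one, mul_zero]⟩

lemma Dv.mul {Z : E} {θ : Module.Dual ℝ E} {a x : Ext E} (ha : a ∈ Two E)
    (hθ : ii Z a = io θ) (hx : Dv Z θ x) : Dv Z θ (a * x) := by
  obtain ⟨s, hs⟩ := hx
  refine ⟨x + a * s, ?_⟩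
  rw [ii_mul, hθ, Two.inv_eq ha, hs, mul_add, ← mul_assoc, ← mul_assoc, Two.comm ha (io θ)]

lemma Dv.pow_mul {Z : E} {θ : Module.Dual ℝ E} {a x : Ext E} (ha : a ∈ Two E)
    (hθ : ii Z a = io θ) (hx : Dv Z θ x) (n : ℕ) : Dv Z θ (a ^ n * x) := by
  induction n with
  | zero => rwa [pow_zero, one_mul]
  | succ n ih => rw [pow_succ', mul_assoc]; exact ih.mul ha hθ

lemma Dv.sum {ι : Type*} {Z : E} {θ : Module.Dual ℝ E} {s : Finset ι} {x : ι → Ext E}
    (h : ∀ i ∈ s, Dv Z θ (x i)) : Dv Z θ (∑ i ∈ s, x i) := by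
  choose! t ht using h
  refine ⟨∑ i ∈ s, t i, ?_⟩
  rw [map_sum, Finset.mul_sum]
  exact Finset.sum_congr rfl ht

end two

section topv
variable {k : ℕ}

lemma top_ii (Z : Eu k) (x : Ext (Eu k)) : top k (ii Z x) = 0 := by
  rw [F.top_apply, ← evA_ii]
  exact FI.evA_gt (by omega) _ _

lemma top_eq_zero_of_ii {Z : Eu k} (hZ : Z ≠ 0) {x : Ext (Eu k)} (hx : ii Z x = 0) :
    top k x = 0 := by
  set l : Module.Dual ℝ (Eu k) := ((innerSL ℝ Z : Eu k →L[ℝ] ℝ) : Eu k →ₗ[ℝ] ℝ) with hl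
  have hlZ : l Z ≠ 0 := by
    have : l Z = ‖Z‖ ^ 2 := by rw [hl]; simp
    rw [this]
    exact pow_ne_zero _ (norm_ne_zero_iff.2 hZ)
  have h1 : ii Z (io l * x) = l Z • x := by rw [ii_io_mul, hx, mul_zero, sub_zero]
  have h2 := top_ii Z (io l * x)
  rw [h1, map_smul, smul_eq_mul] at h2
  exact (mul_eq_zero.1 h2).resolve_left hlZ

/-- **the vanishing lemma** -/
theorem top_vanish {Z : Eu k} (hZ : Z ≠ 0) {θ β : Module.Dual ℝ (Eu k)} (hθ : θ Z = 0)
    (hβ : β Z = 0) {a c : Ext (Eu k)} (ha : a ∈ Two (Eu k)) (hc : c ∈ Two (Eu k))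
    (hia : ii Z a = io θ) (hic : ii Z c = io θ) (n : ℕ) :
    top k (io θ * (io β * ∑ i ∈ Finset.range n, a ^ i * c ^ (n - 1 - i))) = 0 := by
  refine top_eq_zero_of_ii hZ ?_
  obtain ⟨s, hs⟩ : Dv Z θ (∑ i ∈ Finset.range n, a ^ i * c ^ (n - 1 - i)) := by
    refine Dv.sum fun i _ => ?_
    have h1 : Dv Z θ (c ^ (n - 1 - i) * 1) := Dv.pow_mul hc hic (Dv.one Z θ) _
    rw [mul_one] at h1
    exact Dv.pow_mul ha hia h1 i
  rw [ii_io_mul, hθ, zero_smul, ii_io_mul, hβ, zero_smul, hs, zero_sub, zero_sub, mul_neg, neg_neg,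
    ← mul_assoc (io β), F.io_anti β θ, neg_mul, mul_neg, ← mul_assoc, ← mul_assoc, F.io_sq,
    zero_mul, zero_mul, neg_zero]

end topv

section wdio
variable {E : Type*} [NormedAddCommGroup E] [NormedSpace ℝ E] [FiniteDimensional ℝ E]

variable (E) in
/-- continuous linear version of `io` -/
def ioL : (E →L[ℝ] ℝ) →L[ℝ] Ext E :=
  LinearMap.toContinuousLinearMap
    { toFun := fun l => io (l : Module.Dual ℝ E)
      map_add' := fun a b => by rw [← map_add]; rfl
      map_smul' := fun r a => by rw [RingHom.id_apply, ← map_smul]; rfl }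

@[simp] lemma ioL_apply (l : E →L[ℝ] ℝ) : ioL E l = io (l : Module.Dual ℝ E) := rfl

lemma wd_io_two (t : E →L[ℝ] (E →L[ℝ] ℝ)) : wd E ((ioL E).comp t) ∈ Two E := by
  rw [wd_apply]
  exact Submodule.sum_mem _ fun i _ => two_io_io _ _

lemma ii_wd_io (t : E →L[ℝ] (E →L[ℝ] ℝ)) (w : E) :
    ii w (wd E ((ioL E).comp t)) =
      io ((t w - t.flip w : E →L[ℝ] ℝ) : Module.Dual ℝ E) := by
  rw [wd_apply, map_sum]
  have h1 : ∀ i, ii w (io ((finBasis ℝ E).coord i) * ((ioL E).comp t) (finBasis ℝ E i)) =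
      (finBasis ℝ E).coord i w • ioL E (t (finBasis ℝ E i)) -
        t (finBasis ℝ E i) w • io ((finBasis ℝ E).coord i) := by
    intro i
    rw [ii_io_mul]
    congr 1
    change io _ * ii w (io _) = _
    rw [ii_io, ← Algebra.commutes, ← Algebra.smul_def]
    rfl
  simp only [h1, Finset.sum_sub_distrib]
  have h2 : ∑ i, (finBasis ℝ E).coord i w • ioL E (t (finBasis ℝ E i)) = ioL E (t w) := by
    conv_rhs => rw [← (finBasis ℝ E).sum_repr w]
    simp only [map_sum, map_smul]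
    rfl
  have h3 : ∑ i, t (finBasis ℝ E i) w • io ((finBasis ℝ E).coord i) =
      io ((t.flip w : E →L[ℝ] ℝ) : Module.Dual ℝ E) := by
    rw [← F.coord_sum (finBasis ℝ E) ((t.flip w : E →L[ℝ] ℝ) : Module.Dual ℝ E)]
    simp only [map_sum, map_smul]
    rfl
  rw [h2, h3, ioL_apply, ← map_sub]
  rfl

lemma wd_io_symm (t : E →L[ℝ] (E →L[ℝ] ℝ)) (h : ∀ u v, t u v = t v u) :
    wd E ((ioL E).comp t) = 0 := by
  rw [wd_apply]
  have h1 : ∀ i, io ((finBasis ℝ E).coord i) * ((ioL E).comp t) (finBasis ℝ E i) =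
      ∑ j, io ((finBasis ℝ E).coord i) * (io ((finBasis ℝ E).coord j) *
        algebraMap ℝ (Ext E) (t (finBasis ℝ E i) (finBasis ℝ E j))) := by
    intro i
    rw [← Finset.mul_sum]
    congr 1
    change io ((t (finBasis ℝ E i) : E →L[ℝ] ℝ) : Module.Dual ℝ E) = _
    rw [← F.coord_sum (finBasis ℝ E) ((t (finBasis ℝ E i) : E →L[ℝ] ℝ) : Module.Dual ℝ E), map_sum]
    refine Finset.sum_congr rfl fun j _ => ?_
    rw [map_smul, ← Algebra.commutes, ← Algebra.smul_def]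
    rfl
  simp only [h1]
  exact F.sum_io_io _ _ fun i j => by rw [h]

end wdio

end Crest.Agent.R208.JT
end
end

-- ▼ part R208/JT1
section

/-!
R208, block JT (helper631), part 1: a Lipschitz equivariant map from `ℂ^m` with the scalar action
to a real space of dimension `2m` with a Lipschitz circle action.
-/

set_option autoImplicit false
set_option linter.unusedSectionVars false

open Set Filter Topology Module
open scoped NNReal

noncomputable section

namespace Crest.Agent.R208.JT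

/-- a uniform pointwise Lipschitz estimate is a Lipschitz estimate. -/
lemma lipschitzWith_of_eventually {W E : Type*} [NormedAddCommGroup W] [NormedSpace ℝ W]
    [NormedAddCommGroup E] {f : W → E} {C : ℝ≥0}
    (h : ∀ x, ∀ᶠ y in 𝓝 x, ‖f y - f x‖ ≤ C * ‖y - x‖) : LipschitzWith C f := by
  have hcont : Continuous f := by
    rw [continuous_iff_continuousAt]
    intro x
    rw [ContinuousAt, tendsto_iff_norm_sub_tendsto_zero]
    refine squeeze_zero' (Eventually.of_forall fun _ => norm_nonneg _) (h x) ?_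
    have h1 : Tendsto (fun y => (C : ℝ) * ‖y - x‖) (𝓝 x) (𝓝 (C * ‖x - x‖)) :=
      (continuous_const.mul (continuous_id.sub continuous_const).norm).tendsto x
    simpa using h1
  refine LipschitzWith.of_dist_le_mul fun x y => ?_
  rw [dist_comm, dist_comm x y, dist_eq_norm, dist_eq_norm]
  set γ : ℝ → W := fun t => x + t • (y - x) with hγ
  have hγc : Continuous γ := by fun_prop
  set S : Set ℝ := {t | ‖f (γ t) - f x‖ ≤ C * (t * ‖y - x‖)} with hS
  have hclosed : IsClosed (S ∩ Icc 0 1) := by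
    refine IsClosed.inter ?_ isClosed_Icc
    exact isClosed_le ((hcont.comp hγc).sub continuous_const).norm (by fun_prop)
  have hsub : Icc (0 : ℝ) 1 ⊆ S := by
    refine hclosed.Icc_subset_of_forall_exists_gt ?_ ?_
    · simp [hS, hγ]
    · rintro t ⟨htS, ht⟩ z hz
      have h1 := h (γ t)
      have h2 : ∀ᶠ s in 𝓝 t, ‖f (γ s) - f (γ t)‖ ≤ C * ‖γ s - γ t‖ := hγc.continuousAt.eventually h1
      have h3 : ∀ᶠ s in 𝓝[>] t, ‖f (γ s) - f (γ t)‖ ≤ C * ‖γ s - γ t‖ ∧ s ∈ Ioc t z := by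
        have h2' : ∀ᶠ s in 𝓝[>] t, ‖f (γ s) - f (γ t)‖ ≤ C * ‖γ s - γ t‖ := nhdsWithin_le_nhds h2
        have h2'' : ∀ᶠ s in 𝓝[>] t, s ∈ Ioc t z := Ioc_mem_nhdsGT hz
        exact h2'.and h2''
      obtain ⟨s, hs1, hs2⟩ := h3.exists
      refine ⟨s, ?_, hs2⟩
      have h4 : γ s - γ t = (s - t) • (y - x) := by
        simp only [hγ]; module
      rw [h4, norm_smul, Real.norm_of_nonneg (sub_nonneg.2 hs2.1.le)] at hs1
      have h5 : ‖f (γ t) - f x‖ ≤ C * (t * ‖y - x‖) := htS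
      change ‖f (γ s) - f x‖ ≤ C * (s * ‖y - x‖)
      calc ‖f (γ s) - f x‖ ≤ ‖f (γ s) - f (γ t)‖ + ‖f (γ t) - f x‖ := by
            have := norm_add_le (f (γ s) - f (γ t)) (f (γ t) - f x)
            simpa using this
        _ ≤ C * ((s - t) * ‖y - x‖) + C * (t * ‖y - x‖) := add_le_add hs1 h5
        _ = C * (s * ‖y - x‖) := by ring
  have h6 := hsub (right_mem_Icc.2 zero_le_one)
  have h7 : ‖f (γ 1) - f x‖ ≤ C * (1 * ‖y - x‖) := h6
  have h8 : γ 1 = y := by simp [hγ]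
  rwa [h8, one_mul] at h7

/-- a Lipschitz circle action, homogeneous and norm preserving -/
structure Rot {E : Type*} [NormedAddCommGroup E] [NormedSpace ℝ E] (ρ : ℂ → E → E) : Prop where
  mul : ∀ ζ ξ x, ‖ζ‖ = 1 → ‖ξ‖ = 1 → ρ ζ (ρ ξ x) = ρ (ζ * ξ) x
  one : ∀ x, ρ 1 x = x
  norm : ∀ ζ x, ‖ζ‖ = 1 → ‖ρ ζ x‖ = ‖x‖
  smul : ∀ ζ x (r : ℝ), ‖ζ‖ = 1 → 0 ≤ r → ρ ζ (r • x) = r • ρ ζ x
  lip : ∃ C : ℝ, 0 ≤ C ∧ ∀ ζ x y, ‖ζ‖ = 1 → ‖ρ ζ x - ρ ζ y‖ ≤ C * ‖x - y‖
  lipz : ∃ C : ℝ, 0 ≤ C ∧ ∀ ζ ξ x, ‖ζ‖ = 1 → ‖ξ‖ = 1 → ‖ρ ζ x - ρ ξ x‖ ≤ C * ‖ζ - ξ‖ * ‖x‖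

/-- an equivariant Lipschitz map from a complex space -/
structure EqMap {E : Type*} [NormedAddCommGroup E] [NormedSpace ℝ E] (ρ : ℂ → E → E)
    {W : Type*} [NormedAddCommGroup W] [NormedSpace ℂ W] (Φ : W → E) : Prop where
  lip : ∃ C : ℝ≥0, LipschitzWith C Φ
  equi : ∀ (ζ : ℂ) z, ‖ζ‖ = 1 → Φ (ζ • z) = ρ ζ (Φ z)
  smul : ∀ (r : ℝ) z, 0 ≤ r → Φ ((r : ℂ) • z) = r • Φ z
  ne : ∀ z, Φ z = 0 → z = 0

section step

variable {E : Type*} [NormedAddCommGroup E] [NormedSpace ℝ E] {ρ : ℂ → E → E}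
  {W : Type*} [NormedAddCommGroup W] [NormedSpace ℂ W] {Φ : W → E}

lemma Rot.zero (hρ : Rot ρ) {ζ : ℂ} (hζ : ‖ζ‖ = 1) : ρ ζ 0 = 0 := by
  have := hρ.smul ζ 0 0 hζ le_rfl
  simpa using this

lemma EqMap.zero (h : EqMap ρ Φ) : Φ 0 = 0 := by
  have := h.smul 0 0 le_rfl
  simpa using this

/-- composition with an isomorphism -/
lemma EqMap.comp (h : EqMap ρ Φ) {W' : Type*} [NormedAddCommGroup W'] [NormedSpace ℂ W']
    (e : W' ≃L[ℂ] W) : EqMap ρ (fun z => Φ (e z)) where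
  lip := by
    obtain ⟨C, hC⟩ := h.lip
    exact ⟨_, hC.comp e.lipschitz⟩
  equi ζ z hζ := by rw [map_smul, h.equi ζ _ hζ]
  smul r z hr := by rw [map_smul, h.smul r _ hr]
  ne z hz := by
    have := h.ne _ hz
    simpa using this

/-- the unit complex number in the direction of `w` -/
def un (w : ℂ) : ℂ := ((‖w‖⁻¹ : ℝ) : ℂ) * w

lemma norm_un {w : ℂ} (hw : w ≠ 0) : ‖un w‖ = 1 := by
  rw [un, norm_mul, Complex.norm_real, norm_inv, norm_norm, inv_mul_cancel₀ (norm_ne_zero_iff.2 hw)]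

lemma un_mul {ζ w : ℂ} (hζ : ‖ζ‖ = 1) : un (ζ * w) = ζ * un w := by
  rw [un, un, norm_mul, hζ, one_mul]; ring

lemma un_smul {r : ℝ} (hr : 0 < r) (w : ℂ) : un ((r : ℂ) * w) = un w := by
  rw [un, un, norm_mul, Complex.norm_real, Real.norm_of_nonneg hr.le]
  push_cast
  rw [mul_inv]
  have : ((r : ℂ))⁻¹ * (r : ℂ) = 1 := inv_mul_cancel₀ (by exact_mod_cast hr.ne')
  linear_combination (((‖w‖ : ℂ))⁻¹ * w) * this

lemma un_sub_le {w w' : ℂ} (hw : w ≠ 0) (hw' : w' ≠ 0) :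
    ‖un w' - un w‖ ≤ 2 * ‖w' - w‖ / ‖w‖ := by
  have h0 : 0 < ‖w‖ := norm_pos_iff.2 hw
  have h0' : 0 < ‖w'‖ := norm_pos_iff.2 hw'
  have h1 : un w' - un w = ((‖w‖⁻¹ : ℝ) : ℂ) * (w' - w) + ((‖w'‖⁻¹ - ‖w‖⁻¹ : ℝ) : ℂ) * w' := by
    rw [un, un]; push_cast; ring
  rw [h1]
  refine (norm_add_le _ _).trans ?_
  rw [norm_mul, norm_mul, Complex.norm_real, Complex.norm_real, norm_inv, norm_norm]
  have h2 : ‖(‖w'‖⁻¹ - ‖w‖⁻¹ : ℝ)‖ * ‖w'‖ ≤ ‖w' - w‖ / ‖w‖ := by
    have h3 : (‖w'‖⁻¹ - ‖w‖⁻¹ : ℝ) = (‖w‖ - ‖w'‖) / (‖w‖ * ‖w'‖) := by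
      field_simp
    rw [h3, norm_div, norm_mul, norm_norm, norm_norm, div_mul_eq_mul_div, mul_comm ‖w‖ ‖w'‖,
      mul_comm, mul_div_mul_left _ _ h0'.ne']
    gcongr
    rw [Real.norm_eq_abs]
    have := abs_norm_sub_norm_le w w'
    rwa [norm_sub_rev] at this
  calc ‖w‖⁻¹ * ‖w' - w‖ + ‖(‖w'‖⁻¹ - ‖w‖⁻¹ : ℝ)‖ * ‖w'‖
      ≤ ‖w' - w‖ / ‖w‖ + ‖w' - w‖ / ‖w‖ := by
        gcongr
        rw [div_eq_inv_mul]
    _ = 2 * ‖w' - w‖ / ‖w‖ := by ring

/-- the cut-off `(|w| - |z|/2)^+` -/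
def kp (z : W) (w : ℂ) : ℝ := max (‖w‖ - ‖z‖ / 2) 0

lemma kp_nonneg (z : W) (w : ℂ) : 0 ≤ kp z w := le_max_right _ _

lemma kp_le (z : W) (w : ℂ) : kp z w ≤ ‖w‖ :=
  max_le (by have := norm_nonneg z; linarith) (norm_nonneg _)

lemma kp_sub_le (z z' : W) (w w' : ℂ) : |kp z' w' - kp z w| ≤ ‖w' - w‖ + ‖z' - z‖ := by
  have h1 : |kp z' w' - kp z w| ≤ |(‖w'‖ - ‖z'‖ / 2) - (‖w‖ - ‖z‖ / 2)| := by
    have := abs_max_sub_max_le_abs (‖w'‖ - ‖z'‖ / 2) (‖w‖ - ‖z‖ / 2) 0
    exact this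
  refine h1.trans ?_
  have h2 := abs_norm_sub_norm_le w' w
  have h3 := abs_norm_sub_norm_le z' z
  rw [abs_le] at h2 h3 ⊢
  constructor <;> nlinarith [norm_nonneg (z' - z)]

/-- the extension of an equivariant map by one complex dimension -/
def ext (ρ : ℂ → E → E) (Φ : W → E) (v : E) (p : W × ℂ) : E :=
  if p.2 = 0 then Φ p.1 else ρ (un p.2) (Φ ((un p.2)⁻¹ • p.1) + kp p.1 p.2 • v)

lemma norm_un_inv {w : ℂ} (hw : w ≠ 0) : ‖(un w)⁻¹‖ = 1 := by rw [norm_inv, norm_un hw, inv_one]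

lemma un_ne {w : ℂ} (hw : w ≠ 0) : un w ≠ 0 := by
  intro h
  have := norm_un hw
  rw [h, norm_zero] at this
  exact zero_ne_one this

/-- where the cut-off vanishes the extension is `Φ`. -/
lemma ext_of_kp (hρ : Rot ρ) (h : EqMap ρ Φ) (v : E) {p : W × ℂ} (hk : kp p.1 p.2 = 0) :
    ext ρ Φ v p = Φ p.1 := by
  rw [ext]
  split_ifs with h0
  · rfl
  · rw [hk, zero_smul, add_zero, h.equi _ _ (norm_un_inv h0),
      hρ.mul _ _ _ (norm_un h0) (norm_un_inv h0), mul_inv_cancel₀ (un_ne h0), hρ.one]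

theorem EqMap.ext_step (hρ : Rot ρ) (h : EqMap ρ Φ) {v : E} (hv : ∀ z, Φ z ≠ -v) :
    EqMap ρ (ext ρ Φ v) where
  lip := by
    obtain ⟨L, hL⟩ := h.lip
    obtain ⟨C, hC0, hC⟩ := hρ.lip
    obtain ⟨K, hK0, hK⟩ := hρ.lipz
    have hLb : ∀ z, ‖Φ z‖ ≤ L * ‖z‖ := fun z => by
      have := hL.norm_sub_le z 0
      simpa [h.zero] using this
    -- the constant
    set M : ℝ := L + (C * (5 * L + 2 * ‖v‖) + 2 * K * (2 * L + ‖v‖)) + ‖v‖ with hM
    have hM0 : 0 ≤ M := by positivity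
    refine ⟨⟨M, hM0⟩, lipschitzWith_of_eventually fun x => ?_⟩
    change ∀ᶠ y in 𝓝 x, ‖ext ρ Φ v y - ext ρ Φ v x‖ ≤ M * ‖y - x‖
    obtain ⟨z, w⟩ := x
    by_cases hlt : ‖w‖ < ‖z‖ / 2
    · -- the region where the extension is `Φ`
      have h1 : ∀ᶠ y : W × ℂ in 𝓝 (z, w), ‖y.2‖ < ‖y.1‖ / 2 := by
        have hc1 : Continuous fun y : W × ℂ => ‖y.2‖ := continuous_snd.norm
        have hc2 : Continuous fun y : W × ℂ => ‖y.1‖ / 2 := continuous_fst.norm.div_const 2
        exact (hc1.tendsto (z, w)).eventually_lt (hc2.tendsto (z, w)) hlt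
      filter_upwards [h1] with y hy
      have k1 : kp y.1 y.2 = 0 := max_eq_right (by linarith)
      have k2 : kp z w = 0 := max_eq_right (by linarith)
      rw [ext_of_kp hρ h v k1, ext_of_kp hρ h v (p := (z, w)) k2]
      calc ‖Φ y.1 - Φ z‖ ≤ L * ‖y.1 - z‖ := hL.norm_sub_le _ _
        _ ≤ L * ‖y - (z, w)‖ := by gcongr; exact norm_fst_le (y - (z, w))
        _ ≤ M * ‖y - (z, w)‖ := by
          gcongr
          rw [hM]
          have : 0 ≤ (C * (5 * L + 2 * ‖v‖) + 2 * K * (2 * L + ‖v‖)) + ‖v‖ := by positivity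
          linarith
    · push Not at hlt
      by_cases hw : w = 0
      · -- the origin
        have hz : z = 0 := by
          rw [hw, norm_zero] at hlt
          have := norm_nonneg z
          exact norm_eq_zero.1 (by linarith)
        subst hw; subst hz
        refine Eventually.of_forall fun y => ?_
        have h0 : ext ρ Φ v ((0 : W), (0 : ℂ)) = 0 := by
          rw [ext, if_pos rfl, h.zero]
        have e : ((0 : W), (0 : ℂ)) = 0 := rfl
        rw [h0, sub_zero, e, sub_zero]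
        have hy1 : ‖y.1‖ ≤ ‖y‖ := norm_fst_le y
        have hy2 : ‖y.2‖ ≤ ‖y‖ := norm_snd_le y
        rw [ext]
        split_ifs with h0
        · calc ‖Φ y.1‖ ≤ L * ‖y.1‖ := hLb _
            _ ≤ L * ‖y‖ := by gcongr
            _ ≤ M * ‖y‖ := by
              gcongr
              rw [hM]
              have : 0 ≤ (C * (5 * L + 2 * ‖v‖) + 2 * K * (2 * L + ‖v‖)) + ‖v‖ := by positivity
              linarith
        · rw [hρ.norm _ _ (norm_un h0)]
          calc ‖Φ ((un y.2)⁻¹ • y.1) + kp y.1 y.2 • v‖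
              ≤ ‖Φ ((un y.2)⁻¹ • y.1)‖ + ‖kp y.1 y.2 • v‖ := norm_add_le _ _
            _ ≤ L * ‖(un y.2)⁻¹ • y.1‖ + ‖y.2‖ * ‖v‖ := by
              gcongr
              · exact hLb _
              · rw [norm_smul, Real.norm_of_nonneg (kp_nonneg _ _)]
                gcongr
                exact kp_le _ _
            _ ≤ L * ‖y‖ + ‖y‖ * ‖v‖ := by
              rw [norm_smul, norm_un_inv h0, one_mul]
              gcongr
            _ ≤ M * ‖y‖ := by
              rw [hM]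
              have : 0 ≤ (C * (5 * L + 2 * ‖v‖) + 2 * K * (2 * L + ‖v‖)) * ‖y‖ := by positivity
              nlinarith
      · have hw0 : 0 < ‖w‖ := norm_pos_iff.2 hw
        have h1 : ∀ᶠ y : W × ℂ in 𝓝 (z, w), y.2 ≠ 0 :=
          (continuous_snd.tendsto ((z, w) : W × ℂ)).eventually_ne hw
        filter_upwards [h1] with y hy
        rw [ext, ext, if_neg hy, if_neg hw]
        simp only
        set U₁ := Φ ((un y.2)⁻¹ • y.1) + kp y.1 y.2 • v with hU₁
        set U := Φ ((un w)⁻¹ • z) + kp z w • v with hU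
        set δ := ‖y - (z, w)‖ with hδ
        have hd1 : ‖y.1 - z‖ ≤ δ := norm_fst_le (y - (z, w))
        have hd2 : ‖y.2 - w‖ ≤ δ := norm_snd_le (y - (z, w))
        have hδ0 : 0 ≤ δ := norm_nonneg _
        have hu : ‖un y.2 - un w‖ ≤ 2 * δ / ‖w‖ :=
          (un_sub_le hw hy).trans (by gcongr)
        have hui : ‖(un y.2)⁻¹ - (un w)⁻¹‖ ≤ 2 * δ / ‖w‖ := by
          have e : (un y.2)⁻¹ - (un w)⁻¹ = (un y.2)⁻¹ * (un w - un y.2) * (un w)⁻¹ := by
            have a1 := un_ne hy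
            have a2 := un_ne hw
            field_simp
          rw [e, norm_mul, norm_mul, norm_un_inv hy, norm_un_inv hw, one_mul, mul_one,
            norm_sub_rev]
          exact hu
        have hz2 : ‖z‖ ≤ 2 * ‖w‖ := by linarith
        have hUn : ‖U‖ ≤ (2 * L + ‖v‖) * ‖w‖ := by
          calc ‖U‖ ≤ ‖Φ ((un w)⁻¹ • z)‖ + ‖kp z w • v‖ := norm_add_le _ _
            _ ≤ L * ‖(un w)⁻¹ • z‖ + ‖w‖ * ‖v‖ := by
              gcongr
              · exact hLb _
              · rw [norm_smul, Real.norm_of_nonneg (kp_nonneg _ _)]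
                gcongr
                exact kp_le _ _
            _ ≤ L * (2 * ‖w‖) + ‖w‖ * ‖v‖ := by
              rw [norm_smul, norm_un_inv hw, one_mul]
              gcongr
            _ = (2 * L + ‖v‖) * ‖w‖ := by ring
        have hUU : ‖U₁ - U‖ ≤ (5 * L + 2 * ‖v‖) * δ := by
          have e : U₁ - U = (Φ ((un y.2)⁻¹ • y.1) - Φ ((un w)⁻¹ • z)) +
              (kp y.1 y.2 - kp z w) • v := by
            rw [hU₁, hU, sub_smul]; abel
          rw [e]
          calc _ ≤ ‖Φ ((un y.2)⁻¹ • y.1) - Φ ((un w)⁻¹ • z)‖ + ‖(kp y.1 y.2 - kp z w) • v‖ :=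
                norm_add_le _ _
            _ ≤ L * ‖(un y.2)⁻¹ • y.1 - (un w)⁻¹ • z‖ + (2 * δ) * ‖v‖ := by
              gcongr
              · exact hL.norm_sub_le _ _
              · rw [norm_smul, Real.norm_eq_abs]
                gcongr
                exact (kp_sub_le _ _ _ _).trans (by linarith)
            _ ≤ L * (δ + 4 * δ) + (2 * δ) * ‖v‖ := by
              gcongr
              have e2 : (un y.2)⁻¹ • y.1 - (un w)⁻¹ • z = (un y.2)⁻¹ • (y.1 - z) +
                  ((un y.2)⁻¹ - (un w)⁻¹) • z := by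
                rw [smul_sub, sub_smul]; abel
              rw [e2]
              refine (norm_add_le _ _).trans ?_
              rw [norm_smul, norm_smul, norm_un_inv hy, one_mul]
              have e3 : ‖(un y.2)⁻¹ - (un w)⁻¹‖ * ‖z‖ ≤ (2 * δ / ‖w‖) * (2 * ‖w‖) := by gcongr
              have e4 : (2 * δ / ‖w‖) * (2 * ‖w‖) = 4 * δ := by
                field_simp; ring
              linarith
            _ = (5 * L + 2 * ‖v‖) * δ := by ring
        calc ‖ρ (un y.2) U₁ - ρ (un w) U‖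
            ≤ ‖ρ (un y.2) U₁ - ρ (un y.2) U‖ + ‖ρ (un y.2) U - ρ (un w) U‖ := by
              have := norm_add_le (ρ (un y.2) U₁ - ρ (un y.2) U) (ρ (un y.2) U - ρ (un w) U)
              simpa using this
          _ ≤ C * ‖U₁ - U‖ + K * ‖un y.2 - un w‖ * ‖U‖ :=
              add_le_add (hC _ _ _ (norm_un hy)) (hK _ _ _ (norm_un hy) (norm_un hw))
          _ ≤ C * ((5 * L + 2 * ‖v‖) * δ) + K * (2 * δ / ‖w‖) * ((2 * L + ‖v‖) * ‖w‖) := by
              gcongr
          _ = (C * (5 * L + 2 * ‖v‖) + 2 * K * (2 * L + ‖v‖)) * δ := by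
              field_simp
          _ ≤ M * δ := by
              gcongr
              rw [hM]
              have : 0 ≤ (L : ℝ) := L.2
              have := norm_nonneg v
              linarith
  equi ζ p hζ := by
    have hζ0 : ζ ≠ 0 := by
      intro h; rw [h, norm_zero] at hζ; exact zero_ne_one hζ
    rw [ext, ext]
    simp only [Prod.smul_snd, Prod.smul_fst, smul_eq_mul, mul_eq_zero, hζ0, false_or]
    split_ifs with h0
    · exact h.equi ζ _ hζ
    · rw [un_mul hζ, hρ.mul _ _ _ hζ (norm_un h0), smul_smul]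
      have e1 : (ζ * un p.2)⁻¹ * ζ = (un p.2)⁻¹ := by
        rw [mul_inv]
        field_simp
      have e2 : kp (ζ • p.1) (ζ * p.2) = kp p.1 p.2 := by
        rw [kp, kp, norm_smul, norm_mul, hζ, one_mul, one_mul]
      rw [e1, e2]
  smul r p hr := by
    rcases hr.eq_or_lt with h0 | h0
    · subst h0
      rw [Complex.ofReal_zero, zero_smul, zero_smul]
      change ext ρ Φ v ((0 : W), (0 : ℂ)) = 0
      rw [ext, if_pos rfl, h.zero]
    · rw [ext, ext]
      have hr0 : (r : ℂ) ≠ 0 := by exact_mod_cast h0.ne'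
      simp only [Prod.smul_snd, Prod.smul_fst, smul_eq_mul, mul_eq_zero, hr0, false_or]
      split_ifs with h1
      · exact h.smul r _ hr
      · rw [un_smul h0, ← hρ.smul _ _ r (norm_un h1) hr]
        have e2 : kp ((r : ℂ) • p.1) ((r : ℂ) * p.2) = r * kp p.1 p.2 := by
          rw [kp, kp, norm_smul, norm_mul, Complex.norm_real, Real.norm_of_nonneg hr,
            mul_max_of_nonneg _ _ hr, mul_zero]
          congr 1
          ring
        rw [e2, smul_comm ((un p.2)⁻¹) (r : ℂ) p.1, h.smul r _ hr, smul_add, smul_smul]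
  ne p hp := by
    rw [ext] at hp
    split_ifs at hp with h0
    · exact Prod.ext (h.ne _ hp) h0
    · exfalso
      have h1 : ‖Φ ((un p.2)⁻¹ • p.1) + kp p.1 p.2 • v‖ = 0 := by
        rw [← hρ.norm (un p.2) _ (norm_un h0), hp, norm_zero]
      rw [norm_eq_zero] at h1
      rcases (kp_nonneg p.1 p.2).eq_or_lt with hk | hk
      · rw [← hk, zero_smul, add_zero] at h1
        have h2 := h.ne _ h1
        rw [smul_eq_zero] at h2
        have h3 : p.1 = 0 := h2.resolve_left (inv_ne_zero (un_ne h0))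
        have h4 : kp p.1 p.2 = ‖p.2‖ := by
          rw [kp, h3, norm_zero, zero_div, sub_zero]
          exact max_eq_left (norm_nonneg _)
        rw [← hk] at h4
        exact h0 (norm_eq_zero.1 h4.symm)
      · refine hv ((((kp p.1 p.2)⁻¹ : ℝ) : ℂ) • ((un p.2)⁻¹ • p.1)) ?_
        have h5 := h.smul (kp p.1 p.2)⁻¹ ((un p.2)⁻¹ • p.1) (inv_nonneg.2 hk.le)
        have h6 : Φ ((un p.2)⁻¹ • p.1) = -(kp p.1 p.2 • v) := eq_neg_of_add_eq_zero_left h1
        rw [h6, smul_neg, smul_smul (kp p.1 p.2)⁻¹ (kp p.1 p.2) v, inv_mul_cancel₀ hk.ne',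
          one_smul] at h5
        exact h5

end step

end Crest.Agent.R208.JT
end
end

-- ▼ part R208/JT2

/-!
R208, block JT (helper631), part 2: the equivariant Lipschitz map `Φ` of the join.
-/

set_option autoImplicit false
set_option linter.unusedSectionVars false

open Set Filter Topology Module
open scoped NNReal

noncomputable section

namespace Crest.Agent.R208.JT

open Crest.Agent.R208.FI (kap)

section induction

variable {E : Type*} [NormedAddCommGroup E] [NormedSpace ℝ E] [FiniteDimensional ℝ E]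
  {ρ : ℂ → E → E}

lemma dimH_pi (j : ℕ) : dimH (univ : Set (Fin j → ℂ)) = (2 * j : ℕ) := by
  rw [Real.dimH_univ_eq_finrank]
  rw [Module.finrank_pi_fintype]
  simp [mul_comm]

theorem exists_eqMap (hρ : Rot ρ) (j : ℕ) (hj : 2 * j ≤ finrank ℝ E) :
    ∃ Φ : (Fin j → ℂ) → E, EqMap ρ Φ := by
  induction j with
  | zero =>
    refine ⟨fun _ => 0, ⟨⟨0, LipschitzWith.const 0⟩, ?_, ?_, ?_⟩⟩
    · intro ζ z hζ; rw [hρ.zero hζ]
    · intro r z _; rw [smul_zero]
    · intro z _; exact Subsingleton.elim _ _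
  | succ j ih =>
    obtain ⟨Φ, hΦ⟩ := ih (by omega)
    obtain ⟨C, hC⟩ := hΦ.lip
    have h1 : dimH (range Φ) ≤ (2 * j : ℕ) := by
      refine (hC.dimH_range_le).trans ?_
      rw [dimH_pi]
    have h2 : range Φ ≠ univ := by
      intro h
      rw [h, Real.dimH_univ_eq_finrank] at h1
      have : finrank ℝ E ≤ 2 * j := by exact_mod_cast h1
      omega
    obtain ⟨u, hu⟩ := (ne_univ_iff_exists_notMem _).1 h2
    have h3 := hΦ.ext_step hρ (v := -u) (fun z hz => hu ⟨z, by rw [hz, neg_neg]⟩)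
    have e : (Fin (j + 1) → ℂ) ≃L[ℂ] (Fin j → ℂ) × ℂ := by
      apply ContinuousLinearEquiv.ofFinrankEq
      simp
    exact ⟨_, h3.comp e⟩

end induction

section kappa

lemma norm_sq_kap {m : ℕ} (z : Eu (m + m)) :
    ‖z‖ ^ 2 = ‖(kap m m z).1‖ ^ 2 + ‖(kap m m z).2‖ ^ 2 := by
  rw [EuclideanSpace.norm_sq_eq, EuclideanSpace.norm_sq_eq, EuclideanSpace.norm_sq_eq,
    Fin.sum_univ_add]
  congr 1

lemma norm_sq_kap_symm {m : ℕ} (a b : Eu m) :
    ‖(kap m m).symm (a, b)‖ ^ 2 = ‖a‖ ^ 2 + ‖b‖ ^ 2 := by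
  rw [norm_sq_kap, ContinuousLinearEquiv.apply_symm_apply]

lemma norm_fst_kap {m : ℕ} (z : Eu (m + m)) : ‖(kap m m z).1‖ ≤ ‖z‖ := by
  have h := norm_sq_kap z
  exact (sq_le_sq₀ (norm_nonneg _) (norm_nonneg _)).1 (by nlinarith [sq_nonneg ‖(kap m m z).2‖])

lemma norm_snd_kap {m : ℕ} (z : Eu (m + m)) : ‖(kap m m z).2‖ ≤ ‖z‖ := by
  have h := norm_sq_kap z
  exact (sq_le_sq₀ (norm_nonneg _) (norm_nonneg _)).1 (by nlinarith [sq_nonneg ‖(kap m m z).1‖])

lemma norm_kap_symm_le {m : ℕ} (a b : Eu m) : ‖(kap m m).symm (a, b)‖ ≤ ‖a‖ + ‖b‖ := by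
  have h := norm_sq_kap_symm a b
  exact (sq_le_sq₀ (norm_nonneg _) (add_nonneg (norm_nonneg _) (norm_nonneg _))).1
    (by nlinarith [norm_nonneg a, norm_nonneg b])

end kappa

section rot

variable {m : ℕ} (J : JD m)

lemma JD.F_comm (X Y : Eu m) : J.F (X, Y) = J.F (Y, X) := by
  have h1 := J.norm_A X Y
  have h2 := J.norm_A Y X
  rw [J.A_comm] at h1
  linarith

lemma JD.F_smul_right (r : ℝ) (X Y : Eu m) : J.F (X, r • Y) = r * J.F (X, Y) := by
  rw [J.F_comm, J.F_smul, J.F_comm]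

/-- the circle action on pairs -/
def JD.rot (ζ : ℂ) (z : Eu (m + m)) : Eu (m + m) :=
  (kap m m).symm (J.A (ζ.re • (kap m m z).1) (ζ.im • (kap m m z).2),
    J.A (-ζ.im • (kap m m z).1) (ζ.re • (kap m m z).2))

lemma exists_angle {ζ : ℂ} (hζ : ‖ζ‖ = 1) : ∃ s : ℝ, ζ.re = Real.cos s ∧ ζ.im = Real.sin s := by
  have h0 : ζ ≠ 0 := by
    intro h; rw [h, norm_zero] at hζ; exact zero_ne_one hζ
  refine ⟨ζ.arg, ?_, ?_⟩
  · rw [Complex.cos_arg h0, hζ, div_one]
  · rw [Complex.sin_arg, hζ, div_one]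

theorem JD.rotRot : Rot J.rot where
  mul ζ ξ z hζ hξ := by
    obtain ⟨s, hs1, hs2⟩ := exists_angle hζ
    obtain ⟨t, ht1, ht2⟩ := exists_angle hξ
    have e1 : (ζ * ξ).re = Real.cos (s + t) := by
      rw [Complex.mul_re, hs1, hs2, ht1, ht2, Real.cos_add]
    have e2 : (ζ * ξ).im = Real.sin (s + t) := by
      rw [Complex.mul_im, hs1, hs2, ht1, ht2, Real.sin_add]; ring
    rw [JD.rot, JD.rot, JD.rot, e1, e2, ContinuousLinearEquiv.apply_symm_apply, hs1, hs2, ht1, ht2]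
    simp only
    rw [J.act s t]
    have h2 := J.act (s + Real.pi / 2) t (kap m m z).1 (kap m m z).2
    rw [Real.cos_add_pi_div_two, Real.sin_add_pi_div_two,
      show s + Real.pi / 2 + t = (s + t) + Real.pi / 2 by ring, Real.cos_add_pi_div_two,
      Real.sin_add_pi_div_two] at h2
    rw [h2]
  one z := by
    rw [JD.rot, Complex.one_re, Complex.one_im]
    simp only [one_smul, zero_smul, neg_zero]
    rw [J.A_zero, J.A_comm, J.A_zero]
    exact (kap m m).symm_apply_apply z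
  norm ζ z hζ := by
    have h1 : ζ.re ^ 2 + ζ.im ^ 2 = 1 := by
      have := Complex.sq_norm ζ
      rw [hζ, Complex.normSq_apply] at this
      linarith
    have h2 : ‖J.rot ζ z‖ ^ 2 = ‖z‖ ^ 2 := by
      rw [JD.rot, norm_sq_kap_symm, J.norm_A, J.norm_A, norm_sq_kap z, J.F_smul, J.F_smul,
        J.F_smul_right, J.F_smul_right, norm_smul, norm_smul, norm_smul, norm_smul, norm_neg,
        mul_pow, mul_pow, mul_pow, mul_pow, Real.norm_eq_abs, Real.norm_eq_abs, sq_abs, sq_abs]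
      linear_combination (‖(kap m m z).1‖ ^ 2 + ‖(kap m m z).2‖ ^ 2) * h1
    exact (sq_eq_sq₀ (norm_nonneg _) (norm_nonneg _)).1 h2
  smul ζ z r hζ hr := by
    rw [JD.rot, JD.rot, map_smul, Prod.smul_fst, Prod.smul_snd, smul_comm _ r, smul_comm _ r,
      smul_comm _ r, smul_comm _ r, J.A_smul, J.A_smul, ← Prod.smul_mk, map_smul]
  lip := by
    obtain ⟨C, hC⟩ := J.lip
    refine ⟨2 * C, by positivity, fun ζ x y hζ => ?_⟩
    have hre : |ζ.re| ≤ 1 := hζ ▸ Complex.abs_re_le_norm ζ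
    have him : |ζ.im| ≤ 1 := hζ ▸ Complex.abs_im_le_norm ζ
    have key : ∀ a b : ℝ, |a| ≤ 1 → |b| ≤ 1 →
        ‖J.A (a • (kap m m x).1) (b • (kap m m x).2) -
          J.A (a • (kap m m y).1) (b • (kap m m y).2)‖ ≤ C * ‖x - y‖ := by
      intro a b ha hb
      have h1 := hC.norm_sub_le (a • (kap m m x).1, b • (kap m m x).2)
        (a • (kap m m y).1, b • (kap m m y).2)
      refine h1.trans ?_
      gcongr
      rw [Prod.mk_sub_mk, ← smul_sub, ← smul_sub, Prod.norm_mk]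
      have e1 : (kap m m x).1 - (kap m m y).1 = (kap m m (x - y)).1 := by rw [map_sub]; rfl
      have e2 : (kap m m x).2 - (kap m m y).2 = (kap m m (x - y)).2 := by rw [map_sub]; rfl
      rw [e1, e2, norm_smul, norm_smul]
      refine max_le ?_ ?_
      · calc |a| * ‖(kap m m (x - y)).1‖ ≤ 1 * ‖x - y‖ := by
              gcongr
              exact norm_fst_kap _
          _ = ‖x - y‖ := one_mul _
      · calc |b| * ‖(kap m m (x - y)).2‖ ≤ 1 * ‖x - y‖ := by
              gcongr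
              exact norm_snd_kap _
          _ = ‖x - y‖ := one_mul _
    rw [JD.rot, JD.rot, ← map_sub, Prod.mk_sub_mk]
    refine (norm_kap_symm_le _ _).trans ?_
    have k1 := key ζ.re ζ.im hre him
    have k2 := key (-ζ.im) ζ.re (by rwa [abs_neg]) hre
    linarith
  lipz := by
    obtain ⟨C, hC⟩ := J.lip
    refine ⟨2 * C, by positivity, fun ζ ξ z hζ hξ => ?_⟩
    have hre : |ζ.re - ξ.re| ≤ ‖ζ - ξ‖ := by
      rw [← Complex.sub_re]; exact Complex.abs_re_le_norm _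
    have him : |ζ.im - ξ.im| ≤ ‖ζ - ξ‖ := by
      rw [← Complex.sub_im]; exact Complex.abs_im_le_norm _
    have key : ∀ a b a' b' : ℝ, |a - a'| ≤ ‖ζ - ξ‖ → |b - b'| ≤ ‖ζ - ξ‖ →
        ‖J.A (a • (kap m m z).1) (b • (kap m m z).2) -
          J.A (a' • (kap m m z).1) (b' • (kap m m z).2)‖ ≤ C * (‖ζ - ξ‖ * ‖z‖) := by
      intro a b a' b' ha hb
      have h1 := hC.norm_sub_le (a • (kap m m z).1, b • (kap m m z).2)
        (a' • (kap m m z).1, b' • (kap m m z).2)
      refine h1.trans ?_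
      gcongr
      rw [Prod.mk_sub_mk, ← sub_smul, ← sub_smul, Prod.norm_mk, norm_smul, norm_smul]
      refine max_le ?_ ?_
      · gcongr
        · exact ha
        · exact norm_fst_kap _
      · gcongr
        · exact hb
        · exact norm_snd_kap _
    rw [JD.rot, JD.rot, ← map_sub, Prod.mk_sub_mk]
    refine (norm_kap_symm_le _ _).trans ?_
    have k1 := key ζ.re ζ.im ξ.re ξ.im hre him
    have k2 := key (-ζ.im) ζ.re (-ξ.im) ξ.re (by
      rw [neg_sub_neg, abs_sub_comm]; exact him) hre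
    linarith

end rot

section main

variable {m : ℕ}

/-- complex coordinates -/
def cc (m : ℕ) : Eu (m + m) →L[ℝ] (Fin m → ℂ) :=
  LinearMap.toContinuousLinearMap
    { toFun := fun z i => ((kap m m z).1 i : ℂ) - Complex.I * ((kap m m z).2 i : ℂ)
      map_add' := fun x y => by
        funext i
        simp only [map_add, Prod.fst_add, Prod.snd_add, PiLp.add_apply, Complex.ofReal_add,
          Pi.add_apply]
        ring
      map_smul' := fun r x => by
        funext i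
        simp only [map_smul, Prod.smul_fst, Prod.smul_snd, PiLp.smul_apply, smul_eq_mul,
          Complex.ofReal_mul, RingHom.id_apply, Pi.smul_apply, Complex.real_smul]
        ring }

lemma cc_apply (z : Eu (m + m)) (i : Fin m) :
    cc m z i = ((kap m m z).1 i : ℂ) - Complex.I * ((kap m m z).2 i : ℂ) := rfl

lemma cc_eq_zero {z : Eu (m + m)} (h : cc m z = 0) : z = 0 := by
  have h1 : kap m m z = 0 := by
    refine Prod.ext ?_ ?_
    · ext i
      have := congrArg Complex.re (congrFun h i)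
      rw [cc_apply] at this
      simpa using this
    · ext i
      have := congrArg Complex.im (congrFun h i)
      rw [cc_apply] at this
      simpa using this
  exact (kap m m).injective (by rw [h1, map_zero])

/-- euclidean rotation of pairs -/
def Rs (ζ : ℂ) (z : Eu (m + m)) : Eu (m + m) :=
  (kap m m).symm (ζ.re • (kap m m z).1 + ζ.im • (kap m m z).2,
    -ζ.im • (kap m m z).1 + ζ.re • (kap m m z).2)

lemma cc_Rs (ζ : ℂ) (z : Eu (m + m)) : cc m (Rs ζ z) = ζ • cc m z := by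
  funext i
  rw [cc_apply, Pi.smul_apply, cc_apply, Rs, ContinuousLinearEquiv.apply_symm_apply]
  simp only [PiLp.add_apply, PiLp.smul_apply, smul_eq_mul, Complex.ofReal_add, Complex.ofReal_mul,
    Complex.ofReal_neg]
  conv_rhs => rw [← Complex.re_add_im ζ]
  linear_combination ((ζ.im : ℂ) * ((kap m m z).2 i : ℂ)) * Complex.I_mul_I

/-- **T3**: the equivariant Lipschitz map of the join. -/
theorem JD.exists_Phi (J : JD m) : ∃ Φ : Eu (m + m) → Eu (m + m),
    (∃ C : ℝ≥0, LipschitzWith C Φ) ∧ (∀ z, ‖Φ z‖ = ‖z‖) ∧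
    (∀ (r : ℝ) z, 0 ≤ r → Φ (r • z) = r • Φ z) ∧
    (∀ ζ z, ‖ζ‖ = 1 → Φ (Rs ζ z) = J.rot ζ (Φ z)) := by
  obtain ⟨Ψ, hΨ⟩ := exists_eqMap J.rotRot m (by
    rw [finrank_euclideanSpace, Fintype.card_fin]; omega)
  obtain ⟨L, hL⟩ := hΨ.lip
  -- `Ψ ∘ cc`
  set f : Eu (m + m) → Eu (m + m) := fun z => Ψ (cc m z) with hf
  obtain ⟨K, hK⟩ : ∃ K : ℝ≥0, LipschitzWith K f := ⟨_, hL.comp (cc m).lipschitz⟩
  have f_ne : ∀ z, f z = 0 → z = 0 := fun z hz => cc_eq_zero (hΨ.ne _ hz)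
  have f_smul : ∀ (r : ℝ) z, 0 ≤ r → f (r • z) = r • f z := by
    intro r z hr
    simp only [hf]
    rw [map_smul, ← hΨ.smul r _ hr]
    rfl
  have f_zero : f 0 = 0 := by
    have := f_smul 0 0 le_rfl
    simpa using this
  have f_equi : ∀ ζ z, ‖ζ‖ = 1 → f (Rs ζ z) = J.rot ζ (f z) := by
    intro ζ z hζ
    simp only [hf]
    rw [cc_Rs, hΨ.equi _ _ hζ]
  -- lower bound
  obtain ⟨c, hc0, hc⟩ : ∃ c : ℝ, 0 < c ∧ ∀ z, c * ‖z‖ ≤ ‖f z‖ := by
    by_cases hm : m = 0
    · subst hm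
      refine ⟨1, one_pos, fun z => ?_⟩
      have : z = 0 := by ext i; exact i.elim0
      rw [this]; simp
    · have hcpt : IsCompact (Metric.sphere (0 : Eu (m + m)) 1) := isCompact_sphere _ _
      have : Nonempty (Fin (m + m)) := ⟨⟨0, by omega⟩⟩
      have : Nontrivial (Eu (m + m)) := inferInstance
      have hne : (Metric.sphere (0 : Eu (m + m)) 1).Nonempty :=
        NormedSpace.sphere_nonempty.2 zero_le_one
      obtain ⟨x, hx, hmin⟩ := hcpt.exists_isMinOn hne hK.continuous.norm.continuousOn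
      have hx1 : ‖x‖ = 1 := by simpa using hx
      refine ⟨‖f x‖, norm_pos_iff.2 fun h => ?_, fun z => ?_⟩
      · have := f_ne _ h
        rw [this, norm_zero] at hx1
        exact zero_ne_one hx1
      · rcases eq_or_ne z 0 with hz | hz
        · rw [hz]; simp
        · have hz0 : 0 < ‖z‖ := norm_pos_iff.2 hz
          have h1 : ‖z‖⁻¹ • z ∈ Metric.sphere (0 : Eu (m + m)) 1 := by
            rw [mem_sphere_zero_iff_norm, norm_smul, norm_inv, norm_norm,
              inv_mul_cancel₀ hz0.ne']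
          have h2 : ‖f x‖ ≤ ‖f (‖z‖⁻¹ • z)‖ := hmin h1
          rw [f_smul _ _ (by positivity), norm_smul, norm_inv, norm_norm,
            inv_mul_eq_div, le_div_iff₀ hz0] at h2
          exact h2
  have f_pos : ∀ z, z ≠ 0 → 0 < ‖f z‖ := fun z hz =>
    lt_of_lt_of_le (mul_pos hc0 (norm_pos_iff.2 hz)) (hc z)
  refine ⟨fun z => (‖z‖ / ‖f z‖) • f z, ⟨1 + 2 * K / ⟨c, hc0.le⟩, ?_⟩, ?_, ?_, ?_⟩
  · refine LipschitzWith.of_dist_le_mul fun z w => ?_
    rw [dist_eq_norm, dist_eq_norm]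
    push_cast
    change _ ≤ (1 + 2 * K / c) * ‖z - w‖
    have hK0 : (0 : ℝ) ≤ K := K.2
    rcases eq_or_ne z 0 with hz | hz
    · rw [hz, norm_zero, zero_div, zero_smul, zero_sub, zero_sub, norm_neg, norm_neg]
      rcases eq_or_ne w 0 with hw | hw
      · rw [hw]; simp
      · have hw0 := f_pos w hw
        rw [norm_smul, norm_div, norm_norm, norm_norm, div_mul_cancel₀ _ hw0.ne']
        have : 0 ≤ 2 * K / c * ‖w‖ := by positivity
        linarith
    · rcases eq_or_ne w 0 with hw | hw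
      · have hz0 := f_pos z hz
        rw [hw, norm_zero, zero_div, zero_smul, sub_zero, sub_zero,
          norm_smul, norm_div, norm_norm, norm_norm, div_mul_cancel₀ _ hz0.ne']
        have : 0 ≤ 2 * K / c * ‖z‖ := by positivity
        linarith
      · have hz0 := f_pos z hz
        have hw0 := f_pos w hw
        have e1 : (‖z‖ / ‖f z‖) • f z - (‖w‖ / ‖f w‖) • f w =
            (‖z‖ / ‖f z‖) • (f z - f w) + (‖z‖ * (‖f z‖⁻¹ - ‖f w‖⁻¹)) • f w +
              ((‖z‖ - ‖w‖) / ‖f w‖) • f w := by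
          rw [smul_sub, div_eq_mul_inv, div_eq_mul_inv, div_eq_mul_inv]
          module
        rw [e1]
        refine (norm_add₃_le).trans ?_
        have hq : ‖z‖ / ‖f z‖ ≤ 1 / c := by
          rw [div_le_div_iff₀ hz0 hc0, one_mul, mul_comm]
          exact hc z
        have hfd : ‖f z - f w‖ ≤ K * ‖z - w‖ := hK.norm_sub_le z w
        have t1 : ‖(‖z‖ / ‖f z‖) • (f z - f w)‖ ≤ (1 / c) * (K * ‖z - w‖) := by
          rw [norm_smul, norm_div, norm_norm, norm_norm]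
          gcongr
        have t2 : ‖(‖z‖ * (‖f z‖⁻¹ - ‖f w‖⁻¹)) • f w‖ ≤ (1 / c) * (K * ‖z - w‖) := by
          have e2 : ‖z‖ * (‖f z‖⁻¹ - ‖f w‖⁻¹) = (‖z‖ / ‖f z‖) * ((‖f w‖ - ‖f z‖) / ‖f w‖) := by
            field_simp
          rw [norm_smul, e2, norm_mul, norm_div, norm_div, norm_norm, norm_norm, norm_norm,
            mul_assoc, div_mul_cancel₀ _ hw0.ne']
          have e3 : ‖‖f w‖ - ‖f z‖‖ ≤ K * ‖z - w‖ := by
            have := abs_norm_sub_norm_le (f w) (f z)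
            rw [norm_sub_rev] at this
            exact this.trans hfd
          gcongr
        have t3 : ‖((‖z‖ - ‖w‖) / ‖f w‖) • f w‖ ≤ ‖z - w‖ := by
          rw [norm_smul, norm_div, norm_norm, div_mul_cancel₀ _ hw0.ne']
          exact abs_norm_sub_norm_le z w
        have e4 : (1 + 2 * K / c) * ‖z - w‖ = (1 / c) * (K * ‖z - w‖) + (1 / c) * (K * ‖z - w‖) +
            ‖z - w‖ := by ring
        rw [e4]
        linarith
  · intro z
    change ‖(‖z‖ / ‖f z‖) • f z‖ = ‖z‖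
    rcases eq_or_ne z 0 with hz | hz
    · rw [hz]; simp
    · rw [norm_smul, norm_div, norm_norm, norm_norm, div_mul_cancel₀ _ (f_pos z hz).ne']
  · intro r z hr
    change (‖r • z‖ / ‖f (r • z)‖) • f (r • z) = r • (‖z‖ / ‖f z‖) • f z
    rcases hr.eq_or_lt with h | h
    · rw [← h]; simp
    · rw [f_smul r z hr, norm_smul, norm_smul, mul_div_mul_left _ _ (norm_pos_iff.2 h.ne').ne',
        smul_comm]
  · intro ζ z hζ
    change (‖Rs ζ z‖ / ‖f (Rs ζ z)‖) • f (Rs ζ z) = J.rot ζ ((‖z‖ / ‖f z‖) • f z)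
    have h1 : ‖Rs ζ z‖ = ‖z‖ := by
      have hr : ζ.re ^ 2 + ζ.im ^ 2 = 1 := by
        have := Complex.sq_norm ζ
        rw [hζ, Complex.normSq_apply] at this
        linarith
      refine (sq_eq_sq₀ (norm_nonneg _) (norm_nonneg _)).1 ?_
      rw [Rs, norm_sq_kap_symm, norm_sq_kap z, norm_add_sq_real, norm_add_sq_real, norm_smul,
        norm_smul, norm_smul, norm_smul, norm_neg, mul_pow, mul_pow, mul_pow, mul_pow,
        Real.norm_eq_abs, Real.norm_eq_abs, sq_abs, sq_abs, real_inner_smul_left,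
        real_inner_smul_right, real_inner_smul_left, real_inner_smul_right]
      linear_combination (‖(kap m m z).1‖ ^ 2 + ‖(kap m m z).2‖ ^ 2) * hr
    rw [h1, f_equi ζ z hζ, J.rotRot.norm ζ _ hζ, J.rotRot.smul ζ _ _ hζ (by positivity)]

end main

end Crest.Agent.R208.JT
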