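import Crest.Agent.R208.RK1
import Crest.Agent.R208.TI5
import Crest.Agent.R208.CM0
import Crest.Agent.R208.RR6
import Crest.Agent.R208.TX2
import Crest.Agent.R208.CH3c
import Crest.Agent.R208.SB2
import Crest.Agent.R208.RRc365C
import Crest.Agent.R208.TX8
import Crest.Agent.R208.NB9

-- ▼ part R208/KX1
section

/-! Row 208, `k = 2` (helper427), part KX1: the rotation by a right angle in the oriented planes
`V_pq` and the circle action `(p, v) ↦ (p, cos t v + sin t J v)` on `US G`. -/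

set_option autoImplicit false
set_option linter.unusedSectionVars false
set_option linter.unusedVariables false

open MeasureTheory Set Filter Topology Module
open scoped ContDiff RealInnerProductSpace
open Crest.GeometryTopology.Submanifold
open Crest.Agent.R241.DDefs
open Crest.Agent.R241.D2
open Crest.Agent.R208.NN Crest.Agent.R208.NB
open Crest.Agent.R208.T (OR)

noncomputable section

namespace Crest.Agent.R208.KX

variable {n N K k r : ℕ} {κ : ℝ} {S : Set (Euc N)} {G : Geo n N κ S} {z : Euc N × Euc N}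

section alg

variable {E : Type*} [NormedAddCommGroup E] [NormedSpace ℝ E] [FiniteDimensional ℝ E]
  {X : Set E} {P : E → Euc N →L[ℝ] Euc N} {W : E → (Unit × Fin 2 → Fin N) → ℝ} {x : E}

/-- a pair of indices -/
def pr (j i : Fin N) : Unit × Fin 2 → Fin N := fun p => if p.2 = 0 then j else i

/-- rotation by a right angle -/
def JJ (W : E → (Unit × Fin 2 → Fin N) → ℝ) (x : E) (v : Euc N) : Euc N :=
  WithLp.toLp 2 fun i => ∑ j, W x (pr j i) * v j

theorem inner_eq (a b : Euc N) : ⟪a, b⟫ = ∑ i, a i * b i := by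
  rw [PiLp.inner_apply]
  exact Finset.sum_congr rfl fun i _ => by simp [mul_comm]

theorem exists_fr (hW : OR X P W) (hx : x ∈ X) : ∃ f0 f1 : Euc N, ⟪f0, f0⟫ = 1 ∧ ⟪f1, f1⟫ = 1 ∧
    ⟪f0, f1⟫ = 0 ∧ (∀ v, P x v = ⟪f0, v⟫ • f0 + ⟪f1, v⟫ • f1) ∧
    ∀ v, JJ W x v = ⟪f0, v⟫ • f1 - ⟪f1, v⟫ • f0 := by
  obtain ⟨f, h1, h2, h3⟩ := hW.fr x hx
  have ho : ∀ a b, ∑ i, f i a * f i b = if a = b then 1 else 0 := by
    intro a b
    have h4 := congrFun (congrFun h1 a) b
    rw [Matrix.mul_apply, Matrix.one_apply] at h4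
    simpa [Matrix.transpose_apply] using h4
  refine ⟨WithLp.toLp 2 fun i => f i ((), 0), WithLp.toLp 2 fun i => f i ((), 1), ?_, ?_, ?_,
    ?_, ?_⟩
  · rw [inner_eq]; simpa using ho ((), 0) ((), 0)
  · rw [inner_eq]; simpa using ho ((), 1) ((), 1)
  · rw [inner_eq]; simpa using ho ((), 0) ((), 1)
  · intro v
    ext i
    rw [h2 v i]
    simp only [PiLp.add_apply, PiLp.smul_apply, smul_eq_mul, inner_eq]
    simp only [Matrix.mul_apply, Matrix.transpose_apply, Fintype.sum_prod_type,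
      Finset.univ_unique, Finset.sum_singleton, Fin.sum_univ_two, PUnit.default_eq_unit]
    rw [Finset.sum_mul, Finset.sum_mul, ← Finset.sum_add_distrib]
    exact Finset.sum_congr rfl fun j _ => by ring
  · intro v
    ext i
    simp only [JJ, PiLp.sub_apply, PiLp.smul_apply, smul_eq_mul, inner_eq]
    rw [Finset.sum_mul, Finset.sum_mul, ← Finset.sum_sub_distrib]
    refine Finset.sum_congr rfl fun j _ => ?_
    rw [h3]
    let e : Fin 2 ≃ Unit × Fin 2 := (Equiv.punitProd (Fin 2)).symm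
    rw [← Matrix.det_submatrix_equiv_self e, Matrix.det_fin_two]
    have e0 : e 0 = ((), 0) := rfl
    have e1 : e 1 = ((), 1) := rfl
    simp only [Matrix.submatrix_apply, e0, e1, id, pr]
    simp
    ring

theorem JJ_mem (hW : OR X P W) (hx : x ∈ X) (v : Euc N) : P x (JJ W x v) = JJ W x v := by
  obtain ⟨f0, f1, a, b, c, hP, hJ⟩ := exists_fr hW hx
  have c' : ⟪f1, f0⟫ = 0 := by rw [real_inner_comm]; exact c
  rw [hJ, hP]
  simp only [inner_sub_right, inner_smul_right, a, b, c, c']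
  module

theorem inner_JJ_self (hW : OR X P W) (hx : x ∈ X) (v : Euc N) : ⟪v, JJ W x v⟫ = 0 := by
  obtain ⟨f0, f1, a, b, c, hP, hJ⟩ := exists_fr hW hx
  rw [hJ, inner_sub_right, inner_smul_right, inner_smul_right, real_inner_comm v f0,
    real_inner_comm v f1]
  ring

theorem norm_JJ (hW : OR X P W) (hx : x ∈ X) {v : Euc N} (hv : P x v = v) :
    ‖JJ W x v‖ = ‖v‖ := by
  obtain ⟨f0, f1, a, b, c, hP, hJ⟩ := exists_fr hW hx
  have c' : ⟪f1, f0⟫ = 0 := by rw [real_inner_comm]; exact c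
  have h1 : ⟪v, v⟫ = ⟪f0, v⟫ ^ 2 + ⟪f1, v⟫ ^ 2 := by
    nth_rewrite 1 [← hv]
    rw [hP, inner_add_left, real_inner_smul_left, real_inner_smul_left]
    ring
  have h2 : ⟪JJ W x v, JJ W x v⟫ = ⟪f0, v⟫ ^ 2 + ⟪f1, v⟫ ^ 2 := by
    rw [hJ]
    simp only [inner_sub_left, inner_sub_right, inner_smul_right, real_inner_smul_left, a, b, c,
      c']
    ring
  have h3 : ‖JJ W x v‖ ^ 2 = ‖v‖ ^ 2 := by
    rw [← real_inner_self_eq_norm_sq, ← real_inner_self_eq_norm_sq, h1, h2]
  exact (pow_left_inj₀ (norm_nonneg _) (norm_nonneg _) two_ne_zero).1 h3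

theorem JJ_JJ (hW : OR X P W) (hx : x ∈ X) {v : Euc N} (hv : P x v = v) :
    JJ W x (JJ W x v) = -v := by
  obtain ⟨f0, f1, a, b, c, hP, hJ⟩ := exists_fr hW hx
  have c' : ⟪f1, f0⟫ = 0 := by rw [real_inner_comm]; exact c
  nth_rewrite 2 [← hv]
  rw [hJ (JJ W x v), hJ v, hP]
  simp only [inner_sub_right, inner_smul_right, a, b, c, c']
  module

theorem JJ_add_smul (x : E) (s t : ℝ) (u v : Euc N) :
    JJ W x (s • u + t • v) = s • JJ W x u + t • JJ W x v := by
  ext i
  simp only [JJ, PiLp.add_apply, PiLp.smul_apply, smul_eq_mul]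
  rw [Finset.mul_sum, Finset.mul_sum, ← Finset.sum_add_distrib]
  exact Finset.sum_congr rfl fun j _ => by ring

theorem contDiffAt_JJ (hW : OR X P W) (hx : x ∈ X) (v : Euc N) :
    ContDiffAt ℝ ∞ (fun q : E × Euc N => JJ W q.1 q.2) (x, v) := by
  have h0 : ContDiffAt ℝ ∞ (fun q : E × Euc N => fun i => ∑ j, W q.1 (pr j i) * q.2 j) (x, v) := by
    rw [contDiffAt_pi]
    intro i
    refine ContDiffAt.sum fun j _ => ?_
    have h1 : ContDiffAt ℝ ∞ (fun q : E × Euc N => W q.1 (pr j i)) (x, v) :=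
      ContDiffAt.comp (x, v) (g := fun y => W y (pr j i)) (f := fun q : E × Euc N => q.1)
        (hW.sW x hx _) contDiffAt_fst
    refine h1.mul ?_
    have h2 : ContDiff ℝ ∞ (fun q : E × Euc N => q.2 j) := by fun_prop
    exact h2.contDiffAt
  exact (PiLp.continuousLinearEquiv 2 ℝ (fun _ : Fin N => ℝ)).symm.contDiff.contDiffAt.comp
    (x, v) h0

end alg

/-! ### on `US G` -/

section us

variable {W : Euc N × Euc N → (Unit × Fin 2 → Fin N) → ℝ}

/-- the direction `J v` -/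
def jz (G : Geo n N κ S) (W : Euc N × Euc N → (Unit × Fin 2 → Fin N) → ℝ)
    (z : Euc N × Euc N) : Euc N := JJ W (ph G z) z.2

/-- rotation in `V_pq` -/
def rot (G : Geo n N κ S) (W : Euc N × Euc N → (Unit × Fin 2 → Fin N) → ℝ) (t : ℝ)
    (z : Euc N × Euc N) : Euc N × Euc N := (z.1, Real.cos t • z.2 + Real.sin t • jz G W z)

variable (h : GT.Bla G k) (hW : OR (GT.FF S) (FV.PVB h) W)

include h in
theorem PV_v (hz : z ∈ L.US G) : FV.PVB h (ph G z) z.2 = z.2 :=
  (FV.vfield_PVB h).PV_eq_self (p := z.1) (q := qq G z) (mem_FF h hz) (mem_Vs hz)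

include hW in
theorem contDiffAt_jz (hz : z ∈ L.US G) : ContDiffAt ℝ ∞ (jz G W) z := by
  have h1 := contDiffAt_JJ hW (mem_FF h hz) z.2
  exact ContDiffAt.comp z (g := fun q : (Euc N × Euc N) × Euc N => JJ W q.1 q.2)
    (f := fun z : Euc N × Euc N => (ph G z, z.2)) h1 ((contDiffAt_ph hz.1).prodMk contDiffAt_snd)

include hW in
theorem jz_mem (hz : z ∈ L.US G) : jz G W z ∈ GT.Vs G z.1 (qq G z) := by
  have h1 : FV.PVB h (ph G z) (jz G W z) = jz G W z := JJ_mem hW (mem_FF h hz) z.2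
  rw [← h1]
  exact (FV.vfield_PVB h).PV_mem (p := z.1) (q := qq G z) (mem_FF h hz) _

include hW in
theorem norm_jz (hz : z ∈ L.US G) : ‖jz G W z‖ = 1 :=
  (norm_JJ hW (mem_FF h hz) (PV_v h hz)).trans hz.2

include hW in
theorem inner_jz (hz : z ∈ L.US G) : ⟪z.2, jz G W z⟫ = 0 := inner_JJ_self hW (mem_FF h hz) z.2

include hW in
theorem norm_rot (hz : z ∈ L.US G) (t : ℝ) :
    ‖Real.cos t • z.2 + Real.sin t • jz G W z‖ = 1 := by
  have h1 : ‖Real.cos t • z.2 + Real.sin t • jz G W z‖ ^ 2 = 1 ^ 2 := by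
    rw [← real_inner_self_eq_norm_sq]
    simp only [inner_add_left, inner_add_right, real_inner_smul_left, inner_smul_right,
      inner_jz h hW hz, real_inner_comm z.2 (jz G W z), real_inner_self_eq_norm_sq,
      norm_jz h hW hz, hz.2]
    have := Real.sin_sq_add_cos_sq t
    nlinarith
  exact (pow_left_inj₀ (norm_nonneg _) zero_le_one two_ne_zero).1 h1

include hW in
theorem rot_mem_Vs (hz : z ∈ L.US G) (t : ℝ) :
    (rot G W t z).2 ∈ GT.Vs G z.1 (qq G z) :=
  Submodule.add_mem _ (Submodule.smul_mem _ _ (mem_Vs hz))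
    (Submodule.smul_mem _ _ (jz_mem h hW hz))

include hW in
theorem rot_mem (hz : z ∈ L.US G) (t : ℝ) : rot G W t z ∈ L.US G :=
  ⟨⟨hz.1.1, h.Vs_le (mem_FF h hz) (rot_mem_Vs h hW hz t)⟩, norm_rot h hW hz t⟩

include hW in
theorem ph_rot (hz : z ∈ L.US G) (t : ℝ) : ph G (rot G W t z) = ph G z := by
  have h1 : qq G (rot G W t z) = qq G z := by
    unfold qq
    rw [phi_pi (rot_mem h hW hz t)]
    exact h.Exp_pi (mem_FF h hz) (rot_mem_Vs h hW hz t) (norm_rot h hW hz t)
  exact Prod.ext rfl h1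

include hW in
theorem jz_rot (hz : z ∈ L.US G) (t : ℝ) :
    jz G W (rot G W t z) = -Real.sin t • z.2 + Real.cos t • jz G W z := by
  have h1 : JJ W (ph G z) (jz G W z) = -z.2 := JJ_JJ hW (mem_FF h hz) (PV_v h hz)
  have h2 : jz G W (rot G W t z) = JJ W (ph G z) (Real.cos t • z.2 + Real.sin t • jz G W z) := by
    unfold jz
    rw [ph_rot h hW hz]
    rfl
  rw [h2, JJ_add_smul, h1]
  change Real.cos t • jz G W z + _ = _
  module

include hW in
/-- **the rotation is a free circle action on `US G`** -/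
theorem cir_rot : CM.Cir (L.US G) (rot G W) where
  smooth := fun t z hz => by
    have h1 : ContDiffAt ℝ ∞ (fun q : ℝ × (Euc N × Euc N) => jz G W q.2) (t, z) :=
      ContDiffAt.comp (t, z) (g := jz G W) (f := fun q : ℝ × (Euc N × Euc N) => q.2)
        (contDiffAt_jz h hW hz) contDiffAt_snd
    have h2 : ContDiff ℝ ∞ (fun q : ℝ × (Euc N × Euc N) => q.2.1) := by fun_prop
    have h3 : ContDiff ℝ ∞ (fun q : ℝ × (Euc N × Euc N) => Real.cos q.1 • q.2.2) :=
      (Real.contDiff_cos.comp contDiff_fst).smul (contDiff_snd.comp contDiff_snd)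
    have h4 : ContDiff ℝ ∞ (fun q : ℝ × (Euc N × Euc N) => Real.sin q.1) :=
      Real.contDiff_sin.comp contDiff_fst
    exact h2.contDiffAt.prodMk (h3.contDiffAt.add (h4.contDiffAt.smul h1))
  maps := fun t z hz => rot_mem h hW hz t
  zero := fun z hz => by simp [rot]
  add := fun s t z hz => by
    refine Prod.ext rfl ?_
    change Real.cos (s + t) • z.2 + Real.sin (s + t) • jz G W z =
      Real.cos s • (Real.cos t • z.2 + Real.sin t • jz G W z) +
        Real.sin s • jz G W (rot G W t z)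
    rw [jz_rot h hW hz, Real.cos_add, Real.sin_add]
    module
  per := fun z hz => by simp [rot]
  free := fun t z hz h1 => by
    have h2 : Real.cos t • z.2 + Real.sin t • jz G W z = z.2 := congrArg Prod.snd h1
    have h3 : ⟪z.2, Real.cos t • z.2 + Real.sin t • jz G W z⟫ = ⟪z.2, z.2⟫ := by rw [h2]
    rw [inner_add_right, inner_smul_right, inner_smul_right, inner_jz h hW hz,
      real_inner_self_eq_norm_sq, hz.2] at h3
    have h4 : Real.cos t = 1 := by nlinarith
    obtain ⟨m, hm⟩ := (Real.cos_eq_one_iff t).1 h4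
    exact ⟨m, by rw [← hm]; ring⟩

end us

end Crest.Agent.R208.KX
end
end

-- ▼ part R208/KX2
section

/-! Row 208, `k = 2` (helper427), part KX2: the unit section of the negative line field. -/

set_option autoImplicit false
set_option linter.unusedSectionVars false
set_option linter.unusedVariables false

open MeasureTheory Set Filter Topology Module
open scoped ContDiff RealInnerProductSpace
open Crest.GeometryTopology.Submanifold
open Crest.Agent.R241.DDefs
open Crest.Agent.R241.D2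
open Crest.Agent.R208.NN Crest.Agent.R208.NB Crest.Agent.R208.RK
open Crest.Agent.R208.T (OR)

noncomputable section

namespace Crest.Agent.R208.KX

variable {n N K k r : ℕ} {κ : ℝ} {S : Set (Euc N)} {G : Geo n N κ S} {z : Euc N × Euc N}
  {W : Euc N × Euc N → (Unit × Fin 2 → Fin N) → ℝ} {δ : ℝ}
  {PN : Euc N × Euc N → Wt N K →L[ℝ] Wt N K}

theorem one_dim {F : Type*} [NormedAddCommGroup F] [InnerProductSpace ℝ F] {M : Submodule ℝ F}
    (h1 : finrank ℝ M = 1) {u x : F} (hu : u ∈ M) (hu1 : ‖u‖ = 1) (hx : x ∈ M) :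
    x = ⟪u, x⟫ • u := by
  have hu0 : (⟨u, hu⟩ : M) ≠ 0 := by
    intro h0
    have : u = 0 := congrArg Subtype.val h0
    rw [this, norm_zero] at hu1
    exact zero_ne_one hu1
  obtain ⟨c, hc⟩ := (finrank_eq_one_iff_of_nonzero' _ hu0).1 h1 ⟨x, hx⟩
  have hc' : c • u = x := congrArg Subtype.val hc
  have h2 : ⟪u, x⟫ = c := by
    rw [← hc', inner_smul_right, real_inner_self_eq_norm_sq, hu1]; ring
  rw [h2, hc']

/-- the vector representing `w ↦ ⟪J v, l0 w⟫` -/
def sc0 (h : GT.Bla G 2) (PN : Euc N × Euc N → Wt N K →L[ℝ] Wt N K)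
    (W : Euc N × Euc N → (Unit × Fin 2 → Fin N) → ℝ) (z : Euc N × Euc N) : Wt N K :=
  WithLp.toLp 2 fun i => ⟪jz G W z, wL h (nuP K) PN z (EuclideanSpace.single i 1)⟫

/-- the unit section -/
def nsec (h : GT.Bla G 2) (PN : Euc N × Euc N → Wt N K →L[ℝ] Wt N K)
    (W : Euc N × Euc N → (Unit × Fin 2 → Fin N) → ℝ) (z : Euc N × Euc N) : Wt N K :=
  (‖sc0 h PN W z‖⁻¹ : ℝ) • sc0 h PN W z

theorem inner_sc0 (h : GT.Bla G 2) (w : Wt N K) :
    ⟪sc0 h PN W z, w⟫ = ⟪jz G W z, wL h (nuP K) PN z w⟫ := by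
  have h1 : w = ∑ i, w i • EuclideanSpace.single i (1 : ℝ) := by
    ext j
    simp [Finset.sum_apply, Pi.single_apply]
  have h2 : ⟪jz G W z, wL h (nuP K) PN z w⟫ =
      ∑ i, w i * ⟪jz G W z, wL h (nuP K) PN z (EuclideanSpace.single i 1)⟫ := by
    conv_lhs => rw [h1]
    rw [map_sum, inner_sum]
    exact Finset.sum_congr rfl fun i _ => by rw [map_smul, inner_smul_right]
  rw [h2, PiLp.inner_apply]
  exact Finset.sum_congr rfl fun i _ => by simp [sc0]

section

variable (h : GT.Bla G 2) (hn : 2 < n) (H : NegB G 1 (nuP K) δ PN)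
  (hW : OR (GT.FF S) (FV.PVB h) W)

theorem wL_PN (hn : 2 < n) (H : NegB G 1 (nuP K) δ PN) (hz : z ∈ L.US G) (w : Wt N K) :
    wL h (nuP K) PN z (PN z w) = wL h (nuP K) PN z w := by
  rw [wL_eq h hn hz]
  change l0 G z (nuP K) (PN z (PN z w)) = l0 G z (nuP K) (PN z w)
  rw [H.idem]

theorem PN_sc0 (hn : 2 < n) (H : NegB G 1 (nuP K) δ PN) (hz : z ∈ L.US G) :
    PN z (sc0 h PN W z) = sc0 h PN W z := by
  refine ext_inner_right ℝ fun w => ?_
  rw [H.sy z, inner_sc0, inner_sc0, wL_PN h hn H hz]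

include hW in
theorem span_V0 (hz : z ∈ L.US G) {x : Euc N} (hx : x ∈ V0 G z) : x = ⟪jz G W z, x⟫ • jz G W z := by
  have h1 : finrank ℝ (V0 G z) = 1 := by
    have := finrank_V0 h hz
    omega
  exact one_dim h1 (mem_V0.2 ⟨jz_mem h hW hz, by rw [real_inner_comm]; exact inner_jz h hW hz⟩)
    (norm_jz h hW hz) hx

include hW in
theorem sc0_ne (hn : 2 < n) (H : NegB G 1 (nuP K) δ PN) (hz : z ∈ L.US G) :
    sc0 h PN W z ≠ 0 := by
  obtain ⟨w, hw0, hw⟩ : ∃ w : Wt N K, w ≠ 0 ∧ PN z w = w := by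
    have h1 := H.rank z hz
    have h2 : (LinearMap.range (PN z : Wt N K →ₗ[ℝ] Wt N K)) ≠ ⊥ := by
      intro h0
      rw [h0, finrank_bot] at h1
      exact zero_ne_one h1
    obtain ⟨w, hw, hw0⟩ := (Submodule.ne_bot_iff _).1 h2
    obtain ⟨u, rfl⟩ := hw
    exact ⟨_, hw0, H.idem z u⟩
  intro h0
  have h1 := inner_sc0 (W := W) (PN := PN) (z := z) h w
  rw [h0, inner_zero_left, wL_apply h hn hz hw] at h1
  have h2 := span_V0 h hW hz (l0_mem (G := G) (z := z) (nuP K) w)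
  rw [← h1, zero_smul] at h2
  exact hw0 (H.l0_inj h hz hw h2)

include hW in
theorem norm_nsec (hn : 2 < n) (H : NegB G 1 (nuP K) δ PN) (hz : z ∈ L.US G) :
    ‖nsec h PN W z‖ = 1 := by
  have h1 : ‖sc0 h PN W z‖ ≠ 0 := norm_ne_zero_iff.2 (sc0_ne h hW hn H hz)
  rw [nsec, norm_smul, norm_inv, norm_norm, inv_mul_cancel₀ h1]

theorem PN_nsec (hn : 2 < n) (H : NegB G 1 (nuP K) δ PN) (hz : z ∈ L.US G) :
    PN z (nsec h PN W z) = nsec h PN W z := by
  rw [nsec, map_smul, PN_sc0 h hn H hz]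

include hW in
/-- the direction of the section is `J v` -/
theorem dir_nsec (hn : 2 < n) (H : NegB G 1 (nuP K) δ PN) (hz : z ∈ L.US G) :
    dir h PN (z, nsec h PN W z) = jz G W z := by
  have h0 := sc0_ne h hW hn H hz
  have hp := PN_nsec (W := W) h hn H hz
  have hn0 : nsec h PN W z ≠ 0 := by
    intro h1
    have := norm_nsec h hW hn H hz
    rw [h1, norm_zero] at this
    exact zero_ne_one this
  have hd0 : dir h PN (z, nsec h PN W z) ∈ V0 G z := by
    refine mem_V0.2 ⟨dir_mem h hn hz hp, ?_⟩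
    rw [real_inner_comm]; exact inner_dir_v h hn hz hp
  have hd1 := norm_dir h H hn hz hp hn0
  have h2 := span_V0 h hW hz hd0
  have hpos : 0 < ⟪jz G W z, dir h PN (z, nsec h PN W z)⟫ := by
    have h3 : ⟪jz G W z, wL h (nuP K) PN z (nsec h PN W z)⟫ = ‖sc0 h PN W z‖ := by
      rw [← inner_sc0, nsec, inner_smul_right, real_inner_self_eq_norm_sq, pow_two, ← mul_assoc,
        inv_mul_cancel₀ (norm_ne_zero_iff.2 h0), one_mul]
    change 0 < ⟪jz G W z, (‖wL h (nuP K) PN z (nsec h PN W z)‖⁻¹ : ℝ) •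
      wL h (nuP K) PN z (nsec h PN W z)⟫
    rw [inner_smul_right, h3]
    have h4 : 0 < ‖wL h (nuP K) PN z (nsec h PN W z)‖ := norm_pos_iff.2 (wL_ne h H hn hz hp hn0)
    have h5 : 0 < ‖sc0 h PN W z‖ := norm_pos_iff.2 h0
    positivity
  have h3 : |⟪jz G W z, dir h PN (z, nsec h PN W z)⟫| = 1 := by
    have h4 := congrArg norm h2
    rw [hd1, norm_smul, norm_jz h hW hz, mul_one, Real.norm_eq_abs] at h4
    exact h4.symm
  rw [abs_of_pos hpos] at h3
  rw [h2, h3, one_smul]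

include hW in
theorem contDiffAt_nsec (hn : 2 < n) (H : NegB G 1 (nuP K) δ PN) (hz : z ∈ L.US G) :
    ContDiffAt ℝ ∞ (nsec h PN W) z := by
  have h1 : ContDiffAt ℝ ∞ (sc0 h PN W) z := by
    have h2 : ContDiffAt ℝ ∞ (fun z : Euc N × Euc N => fun i : (Fin K × Fin 2) × Fin N =>
        ⟪jz G W z, wL h (nuP K) PN z (EuclideanSpace.single i 1)⟫) z := by
      rw [contDiffAt_pi]
      intro i
      exact (contDiffAt_jz h hW hz).inner ℝ ((contDiffAt_wL h hn H hz).clm_apply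
        contDiffAt_const)
    exact (PiLp.continuousLinearEquiv 2 ℝ (fun _ : (Fin K × Fin 2) × Fin N => ℝ)).symm.contDiff.contDiffAt.comp
      z h2
  have h3 := sc0_ne h hW hn H hz
  exact ((h1.norm ℝ h3).inv (norm_ne_zero_iff.2 h3)).smul h1

include hW in
/-- **equivariance of the section** -/
theorem nsec_fl (hn : 2 < n) (H : NegB G 1 (nuP K) δ PN) (hz : z ∈ L.US G) (t : ℝ) :
    nsec h PN W (fl G (z, t)) = Rt (nuP K) t (nsec h PN W z) := by
  set M := fun t => LinearMap.range (PN (fl G (z, t)) : Wt N K →ₗ[ℝ] Wt N K) with hM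
  have hm := fun t => fl_mem_US hz t
  have m1 : ∀ t, nsec h PN W (fl G (z, t)) ∈ M t := fun t =>
    ⟨_, PN_nsec (W := W) h hn H (hm t)⟩
  have m2 : ∀ t, Rt (nuP K) t (nsec h PN W z) ∈ M t := fun t => by
    refine ⟨Rt (nuP K) t (nsec h PN W z), ?_⟩
    change PN (fl G (z, t)) (Rt (nuP K) t (nsec h PN W z)) = _
    rw [H.equi z hz, PN_nsec h hn H hz]
  have n1 : ∀ t, ‖nsec h PN W (fl G (z, t))‖ = 1 := fun t => norm_nsec h hW hn H (hm t)
  have n2 : ∀ t, ‖Rt (nuP K) t (nsec h PN W z)‖ = 1 := fun t => by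
    rw [norm_Rt]; exact norm_nsec h hW hn H hz
  set f := fun t => ⟪nsec h PN W (fl G (z, t)), Rt (nuP K) t (nsec h PN W z)⟫ with hf
  have e1 : ∀ t, Rt (nuP K) t (nsec h PN W z) = f t • nsec h PN W (fl G (z, t)) := fun t =>
    one_dim (H.rank _ (hm t)) (m1 t) (n1 t) (m2 t)
  have e2 : ∀ t, |f t| = 1 := fun t => by
    have := congrArg norm (e1 t)
    rw [n2, norm_smul, n1, mul_one, Real.norm_eq_abs] at this
    exact this.symm
  have hcf : Continuous f := by
    refine Continuous.inner ?_ ?_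
    · rw [continuous_iff_continuousAt]
      intro t
      exact ContinuousAt.comp (g := nsec h PN W) (f := fun t => fl G (z, t))
        (contDiffAt_nsec h hW hn H (hm t)).continuousAt (continuous_fl_t hz.1).fst.continuousAt
    · exact (contDiff_Rt (nuP K)).continuous.clm_apply continuous_const
  have h0 : f 0 = 1 := by
    change ⟪nsec h PN W (fl G (z, 0)), Rt (nuP K) 0 (nsec h PN W z)⟫ = 1
    rw [fl_zero, Rt_zero, real_inner_self_eq_norm_sq, norm_nsec h hW hn H hz, one_pow]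
  have h1 : ∀ t, f t = 1 := by
    intro t
    by_contra hne
    have h2 : f t = -1 := by
      rcases abs_eq (zero_le_one' ℝ) |>.1 (e2 t) with h3 | h3
      · exact absurd h3 hne
      · exact h3
    have h3 : (0 : ℝ) ∈ Set.Icc (f t) (f 0) := by rw [h2, h0]; constructor <;> norm_num
    obtain ⟨s, hs⟩ : (0 : ℝ) ∈ Set.range f :=
      mem_range_of_exists_le_of_exists_ge hcf ⟨t, h3.1⟩ ⟨0, h3.2⟩
    have h4 := e2 s
    rw [hs, abs_zero] at h4
    exact zero_ne_one h4
  rw [e1 t, h1, one_smul]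

end

end Crest.Agent.R208.KX
end
end

-- ▼ part R208/KX5
section

/-! Row 208, `k = 2` (helper427), part KX5: the orbit integral of the rotation is the integral over
the unit circle of `V_pq`. -/

set_option autoImplicit false
set_option linter.unusedSectionVars false
set_option linter.unusedVariables false

open MeasureTheory Set Filter Topology Module
open scoped ContDiff RealInnerProductSpace
open Crest.GeometryTopology.Submanifold
open Crest.Agent.R241.DDefs
open Crest.Agent.R241.D2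
open Crest.Agent.R208.F Crest.Agent.R208.FI Crest.Agent.R208.CW Crest.Agent.R208.T
open Crest.Agent.R208.NN Crest.Agent.R208.NB
open Crest.Agent.R208.RR

noncomputable section

namespace Crest.Agent.R208.KX

variable {n N : ℕ} {κ : ℝ} {S : Set (Euc N)} {G : Geo n N κ S} {z : Euc N × Euc N}
  {W : Euc N × Euc N → (Unit × Fin 2 → Fin N) → ℝ}

section

variable (h : GT.Bla G 2) (hW : OR (GT.FF S) (FV.PVB h) W)

theorem gen_rot (z : Euc N × Euc N) : CM.gen (rot G W) z = (0, jz G W z) := by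
  have h1 : HasDerivAt (fun t => rot G W t z)
      ((0 : Euc N), (-Real.sin 0) • z.2 + Real.cos 0 • jz G W z) 0 :=
    (hasDerivAt_const (0 : ℝ) z.1).prodMk
      (((Real.hasDerivAt_cos 0).smul_const z.2).add ((Real.hasDerivAt_sin 0).smul_const _))
  rw [CM.gen, h1.deriv]
  simp

theorem ph_eq (hz : z ∈ L.US G) : FV.phi G z = NB.ph G z := by
  refine Prod.ext rfl ?_
  change Exp G z.1 (Real.pi • z.2) = (fl G (z, Real.pi)).1
  rw [phi_pi hz]

include hW in
/-- the fibre of `US → F` is one orbit -/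
theorem fibre_eq (hz : z ∈ L.US G) :
    L.US G ∩ FV.phi G ⁻¹' {FV.phi G z} = range fun t => rot G W t z := by
  ext y
  constructor
  · rintro ⟨hy, hy'⟩
    have hy1 : NB.ph G y = NB.ph G z := by
      rw [← ph_eq hy, ← ph_eq hz]; exact hy'
    have e1 : y.1 = z.1 := by
      have h0 := congrArg Prod.fst hy1
      exact h0
    have hyV : y.2 ∈ GT.Vs G z.1 (qq G z) := by
      have h2 : y.2 ∈ GT.Vs G y.1 (qq G y) := mem_Vs hy
      rwa [e1, show qq G y = qq G z from congrArg Prod.snd hy1] at h2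
    -- coordinates
    have hspan : y.2 - ⟪z.2, y.2⟫ • z.2 ∈ V0 G z := by
      refine mem_V0.2 ⟨Submodule.sub_mem _ hyV (Submodule.smul_mem _ _ (mem_Vs hz)), ?_⟩
      rw [inner_sub_left, real_inner_smul_left, real_inner_self_eq_norm_sq, hz.2,
        real_inner_comm y.2 z.2]
      ring
    have hfr : finrank ℝ (V0 G z) = 1 := by
      have := finrank_V0 h hz
      omega
    have hj0 : jz G W z ∈ V0 G z :=
      mem_V0.2 ⟨jz_mem h hW hz, by rw [real_inner_comm]; exact inner_jz h hW hz⟩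
    have hj1 := norm_jz h hW hz
    have hne : (⟨jz G W z, hj0⟩ : V0 G z) ≠ 0 := by
      intro h0
      have : jz G W z = 0 := congrArg Subtype.val h0
      rw [this, norm_zero] at hj1
      exact zero_ne_one hj1
    obtain ⟨b, hb⟩ := (finrank_eq_one_iff_of_nonzero' _ hne).1 hfr ⟨_, hspan⟩
    have hb' : b • jz G W z = y.2 - ⟪z.2, y.2⟫ • z.2 := congrArg Subtype.val hb
    set a := ⟪z.2, y.2⟫ with ha
    have hy2 : y.2 = a • z.2 + b • jz G W z := by rw [hb']; abel
    have hab : a ^ 2 + b ^ 2 = 1 := by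
      have h3 : ⟪y.2, y.2⟫ = 1 := by rw [real_inner_self_eq_norm_sq, hy.2, one_pow]
      rw [hy2] at h3
      simp only [inner_add_left, inner_add_right, real_inner_smul_left, inner_smul_right,
        inner_jz h hW hz, real_inner_comm z.2 (jz G W z), real_inner_self_eq_norm_sq, hj1,
        hz.2] at h3
      nlinarith
    obtain ⟨t, ht1, ht2⟩ : ∃ t : ℝ, Real.cos t = a ∧ Real.sin t = b := by
      refine ⟨Complex.arg ⟨a, b⟩, ?_, ?_⟩
      · have hn : ‖(⟨a, b⟩ : ℂ)‖ = 1 := by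
          rw [Complex.norm_eq_sqrt_sq_add_sq, hab, Real.sqrt_one]
        have h0 : (⟨a, b⟩ : ℂ) ≠ 0 := fun h0 => by rw [h0, norm_zero] at hn; exact zero_ne_one hn
        rw [Complex.cos_arg h0, hn, div_one]
      · have hn : ‖(⟨a, b⟩ : ℂ)‖ = 1 := by
          rw [Complex.norm_eq_sqrt_sq_add_sq, hab, Real.sqrt_one]
        rw [Complex.sin_arg, hn, div_one]
    refine ⟨t, Prod.ext e1.symm ?_⟩
    change Real.cos t • z.2 + Real.sin t • jz G W z = y.2
    rw [ht1, ht2, hy2]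
  · rintro ⟨t, rfl⟩
    refine ⟨rot_mem h hW hz t, ?_⟩
    change FV.phi G (rot G W t z) = FV.phi G z
    rw [ph_eq (rot_mem h hW hz t), ph_eq hz, ph_rot h hW hz]

/-- the linear map `u ↦ ⟪u, d v⟫` -/
def Lu (N : ℕ) : Euc N →ₗ[ℝ] Ext (Euc N × Euc N) :=
  io ∘ₗ (LinearMap.snd ℝ (Euc N) (Euc N)).dualMap ∘ₗ innerₗ (Euc N)

theorem evA_Lu (u : Euc N) (v : Fin 1 → Euc N × Euc N) :
    evA (Euc N × Euc N) 1 (Lu N u) v = ⟪u, (v 0).2⟫ := by
  change evA (Euc N × Euc N) 1 (io ((LinearMap.snd ℝ (Euc N) (Euc N)).dualMap (innerₗ (Euc N) u))) v = _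
  rw [evA_io]
  rfl

include hW in
/-- **(C2)** -/
theorem orbit_value (hz : z ∈ L.US G)
    (hO : Clo 1 (L.US G ∩ FV.phi G ⁻¹' {FV.phi G z}))
    {o κ₁ : Euc N × Euc N → Ext (Euc N × Euc N)}
    (ho : Ori 1 (L.US G ∩ FV.phi G ⁻¹' {FV.phi G z}) o) (sκ : Sm (L.US G) κ₁) {r : ℝ}
    (hr : Eqv (L.US G) (Wp (rot G W) κ₁) (r • (1 : Euc N × Euc N → Ext (Euc N × Euc N)))) :
    |J 1 (L.US G ∩ FV.phi G ⁻¹' {FV.phi G z}) o κ₁| = |r| := by
  set O := L.US G ∩ FV.phi G ⁻¹' {FV.phi G z} with hOdef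
  have hC := cir_rot h hW
  have hOe : O = range fun t => rot G W t z := fibre_eq h hW hz
  have hal : ∀ y ∈ O, evA (Euc N × Euc N) 1 (Lu N (jz G W y)) (fun _ => CM.gen (rot G W) y) = 1 := by
    intro y hy
    rw [evA_Lu, gen_rot]
    change ⟪jz G W y, jz G W y⟫ = 1
    rw [real_inner_self_eq_norm_sq, norm_jz h hW hy.1, one_pow]
  have h1 := CH.J_orbit_gen hC hO hz hOe (al := fun y => Lu N (jz G W y)) hal κ₁
  -- the value of the orbit integral
  have h2 : evA (Euc N × Euc N) 0 (Wp (rot G W) κ₁ z) Fin.elim0 =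
      ∫ s in (0 : ℝ)..(2 * Real.pi), evA (Euc N × Euc N) 1 (κ₁ (rot G W s z))
        (fun _ => CM.gen (rot G W) (rot G W s z)) := by
    let L₀ : Ext (Euc N × Euc N) →L[ℝ] ℝ := LinearMap.toContinuousLinearMap
      { toFun := fun c => evA (Euc N × Euc N) 0 c Fin.elim0
        map_add' := fun x y => by rw [map_add]; rfl
        map_smul' := fun r x => by rw [map_smul]; rfl }
    have e0 : evA (Euc N × Euc N) 0 (Wp (rot G W) κ₁ z) Fin.elim0 = L₀ (Wp (rot G W) κ₁ z) := rfl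
    rw [e0, Wp_apply, ← ContinuousLinearMap.intervalIntegral_comp_comm _
      (integrable_Wp hC sκ hz)]
    have e1 : ∀ t : ℝ, L₀ (hopL (ContinuousLinearMap.inl ℝ (Euc N × Euc N) ℝ)
        ((0, 1) : (Euc N × Euc N) × ℝ) (F.pull (Fl (rot G W)) κ₁ (z, t))) =
        (2 * Real.pi) • (fun s => evA (Euc N × Euc N) 1 (κ₁ (rot G W s z))
          (fun _ => CM.gen (rot G W) (rot G W s z))) (2 * Real.pi * t) := by
      intro t
      rw [hopL_Fl hC hz, map_smul]
      congr 1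
      change evA (Euc N × Euc N) 0 (pb _ (ii _ _)) Fin.elim0 = _
      rw [evA_pb, ← evA_ii]
      congr 1
      funext i
      fin_cases i
      rfl
    rw [intervalIntegral.integral_congr (g := fun t => (2 * Real.pi) •
        (fun s => evA (Euc N × Euc N) 1 (κ₁ (rot G W s z))
          (fun _ => CM.gen (rot G W) (rot G W s z))) (2 * Real.pi * t)) (fun t _ => e1 t),
      intervalIntegral.integral_smul]
    have e2 := intervalIntegral.smul_integral_comp_mul_left (a := 0) (b := 1)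
      (fun s => evA (Euc N × Euc N) 1 (κ₁ (rot G W s z))
          (fun _ => CM.gen (rot G W) (rot G W s z))) (2 * Real.pi)
    rw [mul_zero, mul_one] at e2
    exact e2
  have h3 : evA (Euc N × Euc N) 0 (Wp (rot G W) κ₁ z) Fin.elim0 = r := by
    have e0 := congrArg (fun c => evA (Tan (L.US G) z) 0 c Fin.elim0) (eqv_iff.1 hr z hz)
    simp only [evA_pb] at e0
    have e1 : (fun i : Fin 0 => (Tan (L.US G) z).subtype (Fin.elim0 i)) =
        (Fin.elim0 : Fin 0 → Euc N × Euc N) := Subsingleton.elim _ _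
    rw [e1] at e0
    rw [e0, Pi.smul_apply, Pi.one_apply, ← Algebra.algebraMap_eq_smul_one, evA_zero_algebraMap]
  have hconn : IsPreconnected O := by
    rw [hOe]
    refine isPreconnected_range ?_
    rw [continuous_iff_continuousAt]
    exact fun t => (hC.hasDerivAt hz t).continuousAt
  have hCO : CM.Cir O (rot G W) := hC.mono inter_subset_left fun t y hy => by
    refine ⟨rot_mem h hW hy.1 t, ?_⟩
    change FV.phi G (rot G W t y) = FV.phi G z
    rw [ph_eq (rot_mem h hW hy.1 t), ph_rot h hW hy.1, ← ph_eq hy.1]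
    exact hy.2
  have hori : Ori 1 O (fun y => Lu N (jz G W y)) := by
    refine ⟨?_, fun y hy => ?_⟩
    · exact (LinearMap.continuous_of_finiteDimensional (Lu N)).comp_continuousOn
        fun y hy => (contDiffAt_jz h hW hy.1).continuousAt.continuousWithinAt
    · have hfr : finrank ℝ (Tan O y) = 1 := hO.sub.finrank_Tan hy
      have hF := frame_isFrame hfr
      have hg : CM.gen (rot G W) y ∈ Tan O y := hCO.gen_mem hy
      have hg1 : (⟨_, hg⟩ : Tan O y) ≠ 0 := fun h0 =>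
        hCO.gen_ne hy (congrArg Subtype.val h0)
      obtain ⟨c, hc⟩ := (finrank_eq_one_iff_of_nonzero' _ hg1).1 hfr ⟨_, hF.2 0⟩
      have hc' : c • CM.gen (rot G W) y = frame 1 O y 0 := congrArg Subtype.val hc
      have hne : frame 1 O y 0 ≠ 0 := by
        intro h0
        have h5 : ‖toEuclidean (frame 1 O y 0)‖ = 1 := hF.1.1 0
        rw [h0, map_zero, norm_zero] at h5
        exact zero_ne_one h5
      have hc0 : c ≠ 0 := by
        rintro rfl
        rw [zero_smul] at hc'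
        exact hne hc'.symm
      rw [evA_Lu, ← hc', gen_rot]
      change ⟪jz G W y, c • jz G W y⟫ ≠ 0
      rw [inner_smul_right, real_inner_self_eq_norm_sq, norm_jz h hW hy.1, one_pow, mul_one]
      exact hc0
  rcases J_ori_connected hO hori ho hconn with h4 | h4
  · rw [h4, h1, ← h2, h3]
  · rw [h4, h1, ← h2, h3, abs_neg]

end

end Crest.Agent.R208.KX
end
end

-- ▼ part R208/JX1

/-! Row 208 (helper613), part JX1: the period of `K (E^* x)` over the fibres of `US → F`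
(the form of degree `k - 1` with differential `x₂ - x₁`): it is the period of any form `μ` on `US`
with `dμ ~ x₂ - x₁`; passage from `Sph F V` to `US`. -/

set_option autoImplicit false
set_option linter.unusedSectionVars false
set_option linter.unusedVariables false

open MeasureTheory Set Filter Topology Module
open scoped ContDiff RealInnerProductSpace
open Crest.GeometryTopology.Submanifold
open Crest.Agent.R241.DDefs
open Crest.Agent.R241.D2
open Crest.Agent.R208.F Crest.Agent.R208.FI Crest.Agent.R208.CW Crest.Agent.R208.T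
open Crest.Agent.R208.L (US)
open Crest.Agent.R208.RRC (EE smap_EE)

noncomputable section

namespace Crest.Agent.R208.JX

section gen
variable {E E' : Type*} [NormedAddCommGroup E] [NormedSpace ℝ E] [FiniteDimensional ℝ E]
  [NormedAddCommGroup E'] [NormedSpace ℝ E'] [FiniteDimensional ℝ E']
  {r : ℕ} {Y : Set E} {X : Set E'} {o : E → Ext E} {f : E → E'} {b : E' → Ext E'}

/-- a pull-back along a map constant on `Y` has integral `0` over `Y` -/
theorem J_pull_const (hY : Clo r Y) (hr : 1 ≤ r) (hf : ∀ x ∈ Y, DifferentiableAt ℝ f x) {c : E'}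
    (hc : ∀ x ∈ Y, f x = c) : J r Y o (F.pull f b) = 0 := by
  rw [← J_zero (d := r) (X := Y) (o := o)]
  refine J_congr hY fun x hx w hw => ?_
  have h0 : ∀ v ∈ Tan Y x, fderiv ℝ f x v = 0 := by
    intro v hv
    have h1 : DifferentiableAt ℝ (fun y => f y - c) x := (hf x hx).sub_const c
    have h2 := FV.Tan_le_ker (X := Y) h1
    have h3 : {x ∈ Y | (fun y => f y - c) x = 0} = Y := by
      ext y
      exact ⟨fun h => h.1, fun h => ⟨h, by change f y - c = 0; rw [hc y h, sub_self]⟩⟩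
    rw [h3] at h2
    have h4 := (h2 hv).2
    have h5 : fderiv ℝ (fun y => f y - c) x v = 0 := h4
    rwa [fderiv_sub_const] at h5
  have h1 : evA E r (F.pull f b x) w = evA E' r (b (f x)) (fun i => fderiv ℝ f x (w i)) := by
    rw [F.pull, evA_pb]; rfl
  rw [h1]
  have h2 : evA E' r (b (f x)) (fun i => fderiv ℝ f x (w i)) = 0 :=
    AlternatingMap.map_coord_zero _ (⟨0, hr⟩ : Fin r) (h0 _ (hw _))
  rw [h2]
  simp

end gen

variable {n N k m : ℕ} {κ : ℝ} {S : Set (Euc N)} {G : Geo n N κ S} {p : Euc N}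
  {ι : Type} [Fintype ι] [DecidableEq ι] {W : Euc N × Euc N → (ι × Fin 2 → Fin N) → ℝ}
  {x : Euc N → Ext (Euc N)} {z : Euc N × Euc N}

/-- the fibre of `US → F` -/
abbrev Fb (G : Geo n N κ S) (z : Euc N × Euc N) : Set (Euc N × Euc N) :=
  US G ∩ FV.phi G ⁻¹' {FV.phi G z}

/-- the fibre of `Sph F V → F` -/
abbrev Sb (h : GT.Bla G k) (y : Euc N × Euc N) : Set ((Euc N × Euc N) × Euc N) :=
  T.Sph ({y} : Set (Euc N × Euc N)) (FV.PVB h)

theorem ph_eq_phi (hz : z ∈ US G) : NB.ph G z = FV.phi G z := Prod.ext rfl (NN.phi_pi hz)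


theorem Sph_sub (h : GT.Bla G k) {y : Euc N × Euc N} (hy : y ∈ GT.FF S) :
    Sb h y ⊆ T.Sph (GT.FF S) (FV.PVB h) := by
  rintro ζ ⟨⟨h1, h2⟩, h3⟩
  exact ⟨⟨by rw [mem_singleton_iff.1 h1]; exact hy, h2⟩, h3⟩

theorem bij_up (h : GT.Bla G k) (hz : z ∈ US G) :
    BijOn (FV.up G) (Fb G z) (Sb h (FV.phi G z)) := by
  have hF := FV.phi_mem h.bl hz
  refine ⟨fun y hy => ?_, fun y _ y' _ e => ?_, fun ζ hζ => ?_⟩
  · have h1 : FV.up G y ∈ T.Sph (GT.FF S) (FV.PVB h) := (SB.dif_US h).fw.maps hy.1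
    have h2 : (FV.up G y).1 = FV.phi G z := hy.2
    exact ⟨⟨h2, h1.1.2⟩, h1.2⟩
  · have := congrArg FV.dn e
    rwa [FV.dn_up, FV.dn_up] at this
  · have h1 : ζ ∈ T.Sph (GT.FF S) (FV.PVB h) := Sph_sub h hF hζ
    have h2 := (FV.mem_Sph_F h).1 h1
    have h3 : ζ.1 = FV.phi G z := hζ.1.1
    exact ⟨FV.dn ζ, ⟨h2.1, by rw [mem_preimage, mem_singleton_iff, h2.2, h3]⟩, FV.up_dn h h1⟩

theorem preconn_Fb (h : GT.Bla G k) (hk : 2 ≤ k) (hz : z ∈ US G) : IsPreconnected (Fb G z) := by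
  have hF := FV.phi_mem h.bl hz
  have h1 := (GP.sphere_preconn (V := FV.Vl G (FV.phi G z))
    (by rw [FV.finrank_Vl h.ty hF]; exact hk)).image (fun v : Euc N => (z.1, v)) (by fun_prop)
  convert h1 using 1
  ext y
  constructor
  · rintro ⟨h2, h3⟩
    have h4 : FV.phi G y = FV.phi G z := h3
    have h5 := FV.snd_mem_Vl h.bl h.ty h2
    rw [h4] at h5
    exact ⟨y.2, ⟨h5, h2.2⟩, Prod.ext (congrArg Prod.fst h4).symm rfl⟩
  · rintro ⟨v, ⟨h2, h3⟩, rfl⟩
    have h4 : ((FV.phi G z, v) : (Euc N × Euc N) × Euc N) ∈ T.Sph (GT.FF S) (FV.PVB h) :=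
      ⟨⟨hF, (FV.PV_eq_self h.bl h.ty (FV.sub_S h.bl) hF).2 h2⟩, h3⟩
    have h5 := (FV.mem_Sph_F h).1 h4
    exact ⟨h5.1, h5.2⟩

theorem clo_Fb (h : GT.Bla G k) (hk : 2 ≤ k) (z : Euc N × Euc N) : Clo (k - 1) (Fb G z) := by
  obtain ⟨r, rfl⟩ : ∃ r, k = r + 1 := ⟨k - 1, by omega⟩
  have hle := h.ty.le
  have hd : (2 * n - (r + 1)) + (r + 1) = 2 * n := by omega
  have h1 := SB.subm_Sph (FV.clo_FF' h hd) (FV.pfield_PVB h)
  have h2 := (SB.dif_US h).subm (SB.clo_US h (d := r + (2 * n - (r + 1))) (by omega)) h1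
  exact h2.clo_fibre _

theorem clo_Sb (h : GT.Bla G k) (hk : 2 ≤ k) {y : Euc N × Euc N} (hy : y ∈ GT.FF S) :
    Clo (k - 1) (Sb h y) := by
  obtain ⟨r, rfl⟩ : ∃ r, k = r + 1 := ⟨k - 1, by omega⟩
  have hm : ∀ x ∈ ({y} : Set (Euc N × Euc N)), x ∈ GT.FF S := fun x hx => by
    rw [mem_singleton_iff.1 hx]; exact hy
  have h1 : PField ({y} : Set (Euc N × Euc N)) (r + 1) (FV.PVB h) :=
    ⟨fun x hx => (FV.pfield_PVB h).smooth x (hm x hx), fun x hx => (FV.pfield_PVB h).idem x (hm x hx),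
      fun x hx => (FV.pfield_PVB h).rank x (hm x hx)⟩
  exact SB.clo_Sph (d := 0) ((T.sub_point y).clo isCompact_singleton) h1

/-- the period of a form on `Sph F V` over one fibre, seen in `US` -/
theorem abs_up (h : GT.Bla G k) (hk : 2 ≤ k) (hz : z ∈ US G)
    {kap : (Euc N × Euc N) × Euc N → Ext ((Euc N × Euc N) × Euc N)}
    (skap : Sm (T.Sph (GT.FF S) (FV.PVB h)) kap)
    {oF : Euc N × Euc N → Ext (Euc N × Euc N)} (ho : Ori (k - 1) (Fb G z) oF)
    {o : (Euc N × Euc N) × Euc N → Ext ((Euc N × Euc N) × Euc N)}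
    (ho' : Ori (k - 1) (Sb h (FV.phi G z)) o) :
    |J (k - 1) (Fb G z) oF (F.pull (FV.up G) kap)| = |J (k - 1) (Sb h (FV.phi G z)) o kap| := by
  have hF := FV.phi_mem h.bl hz
  have hcF := clo_Fb h hk z
  have hcS := clo_Sb h hk hF
  have hb := bij_up h hz
  have hd : ∀ y ∈ Fb G z, ContDiffAt ℝ ∞ (FV.up G) y := fun y hy => (SB.dif_US h).fw.smooth y hy.1
  have hkc : ContinuousOn kap (Sb h (FV.phi G z)) := fun y hy =>
    (skap y (Sph_sub h hF hy)).continuousAt.continuousWithinAt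
  have e1 := J_pull hcF hcS (fun y hy => (hd y hy).differentiableAt (by simp)) hb ho' hkc
  have hpo : Ori (k - 1) (Fb G z) (F.pull (FV.up G) o) := by
    refine Ori.pull hcF hcS (fun y hy => (hd y hy).of_le (by exact_mod_cast le_top)) hb.mapsTo
      (fun y hy v hv h0 => ?_) ho'
    exact (SB.dif_US h).inj hy.1 (Tan_mono_of_subset (fun a ha => ha.1) y hv) h0
  rcases J_ori_connected hcF ho hpo (preconn_Fb h hk hz) with h7 | h7
  · rw [← e1, h7]
  · rw [← e1, h7, abs_neg]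

/-- an orientation of the fibre of `Sph F V` -/
theorem ori_dn (h : GT.Bla G k) (hk : 2 ≤ k) (hz : z ∈ US G)
    {oF : Euc N × Euc N → Ext (Euc N × Euc N)} (ho : Ori (k - 1) (Fb G z) oF) :
    Ori (k - 1) (Sb h (FV.phi G z)) (F.pull FV.dn oF) := by
  have hF := FV.phi_mem h.bl hz
  have hcF := clo_Fb h hk z
  have hcS := clo_Sb h hk hF
  have hm : MapsTo FV.dn (Sb h (FV.phi G z)) (Fb G z) := fun ζ hζ => by
    have h2 := (FV.mem_Sph_F h).1 (Sph_sub h hF hζ)
    have h3 : ζ.1 = FV.phi G z := hζ.1.1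
    exact ⟨h2.1, by rw [mem_preimage, mem_singleton_iff, h2.2, h3]⟩
  refine Ori.pull hcS hcF (fun y hy => ?_) hm (fun y hy v hv h0 => ?_) ho
  · exact ((SB.dif_US h).inv.smooth y (Sph_sub h hF hy)).of_le (by exact_mod_cast le_top)
  · exact (SB.dif_US h).symm.inj (Sph_sub h hF hy) (Tan_mono_of_subset (Sph_sub h hF) y hv) h0

/-! ### `K (E^* x)` -/

theorem sm_KE (hx : Sm S x) : Sm (US G) (RR.K (F.pull (EE G) x)) := RR.Sm.K (hx.pull smap_EE)

/-- `d K(E^*x) = x₂ - x₁` on `US` -/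
theorem d_KE (h : GT.Bla G k) (hx : Sm S x) (cx : Cl S x) :
    Eqv (US G) (F.d (RR.K (F.pull (EE G) x)))
      (F.pull (FV.phi G) (F.pull Prod.snd x - F.pull Prod.fst x)) := by
  have s1 : Sm (RR.Cyl (US G)) (F.pull (EE G) x) := hx.pull smap_EE
  have h1 := RR.K_d_eqv s1
  have c1 : Cl (RR.Cyl (US G)) (F.pull (EE G) x) := cx.pull smap_EE hx
  have h2 : Eqv (US G) (RR.K (F.d (F.pull (EE G) x))) 0 := by
    rw [Eqv, sub_zero]; exact RR.K_eqv0 s1.d c1
  have hph : SMap (US G) (GT.FF S) (FV.phi G) :=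
    ⟨fun z hz => FV.contDiffAt_phi hz.1, fun z hz => FV.phi_mem h.bl hz⟩
  have e1 : Eqv (US G) (F.pull (RR.sl 1) (F.pull (EE G) x))
      (F.pull (FV.phi G) (F.pull Prod.snd x)) := by
    refine (eqv_pull_pull (RR.smap_sl 1) smap_EE (smap_snd_FF.comp hph) (fun z hz => ?_) x).trans
      (eqv_pull_pull hph smap_snd_FF (smap_snd_FF.comp hph) (fun _ _ => rfl) x).symm
    change Exp G z.1 ((Real.pi * 1) • z.2) = Exp G z.1 (Real.pi • z.2)
    rw [mul_one]
  have e0 : Eqv (US G) (F.pull (RR.sl 0) (F.pull (EE G) x))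
      (F.pull (FV.phi G) (F.pull Prod.fst x)) := by
    refine (eqv_pull_pull (RR.smap_sl 0) smap_EE (smap_fst_FF.comp hph) (fun z hz => ?_) x).trans
      (eqv_pull_pull hph smap_fst_FF (smap_fst_FF.comp hph) (fun _ _ => rfl) x).symm
    change Exp G z.1 ((Real.pi * 0) • z.2) = z.1
    rw [mul_zero, zero_smul, Exp_zero G hz.1.1]
  have e2 := h1.trans (e1.sub e0)
  rw [← pull_sub'] at e2
  have e3 := (Eqv.refl (F.d (RR.K (F.pull (EE G) x)))).add h2
  rw [add_zero] at e3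
  exact e3.symm.trans e2

/-- **any two forms of degree `k - 1` on `US` with differential `~ x₂ - x₁` have the same periods
over the fibres of `US → F`** -/
theorem period_eq {h : GT.Bla G k} (D : XM h m W p x) {μ μ' : Euc N × Euc N → Ext (Euc N × Euc N)}
    {e e' : Euc N × Euc N → Ext (Euc N × Euc N)} (sμ : Sm (US G) μ) (sμ' : Sm (US G) μ')
    (dμ : Hom (k - 1) μ) (dμ' : Hom (k - 1) μ') (hμ : Eqv (US G) (F.d μ) (F.pull (FV.phi G) e))
    (hμ' : Eqv (US G) (F.d μ') (F.pull (FV.phi G) e')) (he : Coh (GT.FF S) e e')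
    (de : Hom k e) (de' : Hom k e') {oF : Euc N × Euc N → Ext (Euc N × Euc N)}
    (ho : Ori (k - 1) (Fb G z) oF) :
    J (k - 1) (Fb G z) oF μ = J (k - 1) (Fb G z) oF μ' := by
  have hk := D.hk
  have hph : SMap (US G) (GT.FF S) (FV.phi G) :=
    ⟨fun z hz => FV.contDiffAt_phi hz.1, fun z hz => FV.phi_mem h.bl hz⟩
  obtain ⟨γ₀, sγ₀, hγ₀⟩ := he
  set γ := dp (k - 1) γ₀ with hγd
  have sγ : Sm (GT.FF S) γ := sγ₀.dp _
  have hγ : Eqv (GT.FF S) (e - e') (F.d γ) := by
    have h1 := hγ₀.dp k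
    have h2 : Eqv (GT.FF S) (dp k (F.d γ₀)) (F.d γ) := Eqv.of_eq fun y hy => by
      have := dp_d (k - 1) (sγ₀.diff hy)
      rwa [show k - 1 + 1 = k by omega] at this
    rw [(de.sub de').dp_eq] at h1
    exact h1.trans h2
  -- the closed form
  set β := μ - μ' - F.pull (FV.phi G) γ with hβ
  have sg : Sm (US G) (F.pull (FV.phi G) γ) := sγ.pull hph
  have sβ : Sm (US G) β := (sμ.sub sμ').sub sg
  have dβ : Hom (k - 1) β := (dμ.sub dμ').sub (hom_dp _ _).pull
  have cβ : Cl (US G) β := by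
    rw [Cl, resZero_iff]
    have h1 := d_sub_eqv (sμ.sub sμ') sg
    have h2 := d_sub_eqv sμ sμ'
    have h3 := d_pull_eqv hph sγ
    have h4 := (hγ.pull hph).symm
    rw [pull_sub'] at h4
    have h5 := (h2.trans (hμ.sub hμ')).sub (h3.trans h4)
    rw [sub_self] at h5
    exact h1.trans h5
  have hex : Coh (US G) β 0 := by
    have := D.exactIn_US β
    rw [FV.Sph_S] at this
    exact this sβ cβ dβ
  have hcl := clo_Fb h hk z
  have h0 : J (k - 1) (Fb G z) oF β = 0 := J_exact hcl ho (hex.mono fun y hy => hy.1)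
  have h1 : J (k - 1) (Fb G z) oF (F.pull (FV.phi G) γ) = 0 :=
    J_pull_const hcl (by omega) (fun y hy => hph.diff hy.1) (fun y hy => hy.2)
  have m1 : Sm (Fb G z) μ := sμ.mono fun y hy => hy.1
  have m2 : Sm (Fb G z) μ' := sμ'.mono fun y hy => hy.1
  have m3 : Sm (Fb G z) (F.pull (FV.phi G) γ) := sg.mono fun y hy => hy.1
  rw [hβ, RR.J_sub' hcl ho (m1.sub m2) m3, RR.J_sub' hcl ho m1 m2, h1, sub_zero] at h0
  linarith

theorem hom_KE (hx : Hom k x) (hk : 1 ≤ k) : Hom (k - 1) (RR.K (F.pull (EE G) x)) := by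
  have h1 : Hom (k - 1 + 1) (F.pull (EE G) x) := by rw [Nat.sub_add_cancel hk]; exact hx.pull
  exact fun u => RRC.isDeg_K h1 u

/-- **(JV4-F), relative form**: `kap` on `Sph F V` with `d kap = pr^* e`, `e ~ - e_R(V)`, and
periods of absolute value `τ` over the fibres ⟹ `K(E^* x)` has periods of absolute value `τ` over the
fibres of `US → F`. -/
theorem abs_KE' {h : GT.Bla G k} (D : XM h m W p x) (hz : z ∈ US G)
    {kap : (Euc N × Euc N) × Euc N → Ext ((Euc N × Euc N) × Euc N)}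
    {e : Euc N × Euc N → Ext (Euc N × Euc N)} (de : Hom k e)
    (he : Coh (GT.FF S) e (-(eR (FV.PVB h) W)))
    (skap : Sm (T.Sph (GT.FF S) (FV.PVB h)) kap) (dkap : Hom (k - 1) kap)
    (ekap : Eqv (T.Sph (GT.FF S) (FV.PVB h)) (F.d kap) (F.pull Prod.fst e))
    {τ : ℝ} (hτ : ∀ y ∈ GT.FF S, ∀ o, Ori (k - 1) (Sb h y) o → |J (k - 1) (Sb h y) o kap| = τ)
    {oF : Euc N × Euc N → Ext (Euc N × Euc N)} (ho : Ori (k - 1) (Fb G z) oF) :
    |J (k - 1) (Fb G z) oF (RR.K (F.pull (EE G) x))| = τ := by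
  have hk := D.hk
  have hF := FV.phi_mem h.bl hz
  have hup := (SB.dif_US h).fw
  have hph : SMap (US G) (GT.FF S) (FV.phi G) :=
    ⟨fun z hz => FV.contDiffAt_phi hz.1, fun z hz => FV.phi_mem h.bl hz⟩
  rw [← hτ _ hF _ (ori_dn h hk hz ho), ← abs_up h hk hz skap ho (ori_dn h hk hz ho)]
  congr 1
  refine period_eq D (sm_KE D.sx) (skap.pull hup) (hom_KE D.dx (by omega)) dkap.pull
    (d_KE h D.sx D.cx) (e' := e) ?_ ?_ ?_ de ho
  · refine (d_pull_eqv hup skap).trans ((ekap.pull hup).trans ?_)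
    exact eqv_pull_pull hup smap_fstS hph (fun _ _ => rfl) _
  · refine Coh.trans ?_ he.symm
    have h1 := D.snd_class.sub (Coh.refl (F.pull Prod.fst x))
    have e1 : F.pull Prod.fst x - eR (FV.PVB h) W - F.pull Prod.fst x = -(eR (FV.PVB h) W) := by
      abel
    rwa [e1] at h1
  · exact (D.dx.pull).sub D.dx.pull

/-- **(JV4-F), relative form**: `kap` on `Sph F V` with `d kap = -pr^* e_R(V)` and periods of
absolute value `τ` over the fibres ⟹ `K(E^* x)` has periods of absolute value `τ` over the fibres of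
`US → F`. -/
theorem abs_KE {h : GT.Bla G k} (D : XM h m W p x) (hz : z ∈ US G)
    {kap : (Euc N × Euc N) × Euc N → Ext ((Euc N × Euc N) × Euc N)}
    (skap : Sm (T.Sph (GT.FF S) (FV.PVB h)) kap) (dkap : Hom (k - 1) kap)
    (ekap : Eqv (T.Sph (GT.FF S) (FV.PVB h)) (F.d kap) (-(F.pull Prod.fst (eR (FV.PVB h) W))))
    {τ : ℝ} (hτ : ∀ y ∈ GT.FF S, ∀ o, Ori (k - 1) (Sb h y) o → |J (k - 1) (Sb h y) o kap| = τ)
    {oF : Euc N × Euc N → Ext (Euc N × Euc N)} (ho : Ori (k - 1) (Fb G z) oF) :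
    |J (k - 1) (Fb G z) oF (RR.K (F.pull (EE G) x))| = τ := by
  have h2 : Hom (2 * Fintype.card ι) (eR (FV.PVB h) W) := fun x => (degC_ef _ _ x).1
  rw [D.hι] at h2
  exact abs_KE' D hz h2.neg (Coh.refl _) skap dkap (by rw [pull_neg']; exact ekap) hτ ho


end Crest.Agent.R208.JX
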