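import Crest.Agent.R208.SV1
import Crest.Agent.R241.D3c
import Crest.Agent.R208.GT1
import Crest.Agent.R208.GP0
import Crest.Agent.R208.MSDefs

-- ▼ part R208/KG1
section

/-!
Row 208, block KG (helper10), part KG1: smooth rounding of the corners of broken geodesics.
Profile functions; the quadratic comparison `|D Exp_x(u) y|² ≤ |y|² + C (|u|²|y|² - ⟪u,y⟫²)`;
the energy of a rounded corner.
-/

set_option autoImplicit false

open Set Filter Topology MeasureTheory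
open scoped ContDiff RealInnerProductSpace Interval
open Crest.GeometryTopology.Submanifold
open Crest.Agent.R241.DDefs
open Crest.Agent.R241.D2
open Crest.Agent.R241.D3c

noncomputable section

namespace Crest.Agent.R208.KG

/-! ### The profile `th` -/

/-- derivative of the profile -/
def sg (r : ℝ) : ℝ := Real.smoothTransition ((r + 1) / 2)

lemma contDiff_sg : ContDiff ℝ ∞ sg :=
  Real.smoothTransition.contDiff.comp (by fun_prop)

lemma sg_nonneg (r : ℝ) : 0 ≤ sg r := Real.smoothTransition.nonneg _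


lemma sg_of_le {r : ℝ} (h : r ≤ -1) : sg r = 0 :=
  Real.smoothTransition.zero_of_nonpos (by linarith)

lemma sg_of_ge {r : ℝ} (h : 1 ≤ r) : sg r = 1 :=
  Real.smoothTransition.one_of_one_le (by linarith)

lemma sg_add_neg (r : ℝ) : sg r + sg (-r) = 1 := by
  unfold sg Real.smoothTransition
  have h1 : 1 - (r + 1) / 2 = (-r + 1) / 2 := by ring
  have h2 : 1 - (-r + 1) / 2 = (r + 1) / 2 := by ring
  rw [h1, h2]
  have h3 : expNegInvGlue ((r + 1) / 2) + expNegInvGlue ((-r + 1) / 2) ≠ 0 := by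
    have := Real.smoothTransition.pos_denom ((r + 1) / 2)
    rw [h1] at this
    exact this.ne'
  rw [add_comm (expNegInvGlue ((-r + 1) / 2)), ← add_div, div_self h3]

/-- the profile: `0` for `s ≤ -1`, `s` for `1 ≤ s`, `0 ≤ th' ≤ 1`, `th s - th (-s) = s` -/
def th (s : ℝ) : ℝ := ∫ r in (-1 : ℝ)..s, sg r

lemma hasDerivAt_th (s : ℝ) : HasDerivAt th (sg s) s :=
  intervalIntegral.integral_hasDerivAt_right (contDiff_sg.continuous.intervalIntegrable _ _)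
    (contDiff_sg.continuous.stronglyMeasurableAtFilter _ _) contDiff_sg.continuous.continuousAt

lemma deriv_th : deriv th = sg := funext fun s => (hasDerivAt_th s).deriv

lemma contDiff_th : ContDiff ℝ ∞ th := by
  rw [contDiff_infty_iff_deriv]
  refine ⟨fun s => (hasDerivAt_th s).differentiableAt, ?_⟩
  rw [deriv_th]
  exact contDiff_sg

lemma th_of_le {s : ℝ} (h : s ≤ -1) : th s = 0 := by
  unfold th
  rw [intervalIntegral.integral_symm, neg_eq_zero]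
  rw [intervalIntegral.integral_congr (g := fun _ => (0 : ℝ)), intervalIntegral.integral_zero]
  intro r hr
  rw [uIcc_of_le h] at hr
  exact sg_of_le hr.2

lemma th_sub_neg (s : ℝ) : th s - th (-s) = s := by
  have h1 : ∀ r, HasDerivAt (fun r => th r - th (-r) - r) 0 r := by
    intro r
    have h2 := (hasDerivAt_th (-r)).scomp r (hasDerivAt_neg r)
    refine (((hasDerivAt_th r).sub h2).sub (hasDerivAt_id r)).congr_deriv ?_
    rw [smul_eq_mul]
    have := sg_add_neg r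
    linarith
  have h2 := is_const_of_deriv_eq_zero (fun r => (h1 r).differentiableAt)
    (fun r => (h1 r).deriv) s 0
  simp only [neg_zero, sub_self] at h2
  linarith

lemma th_of_ge {s : ℝ} (h : 1 ≤ s) : th s = s := by
  have := th_sub_neg s
  rw [th_of_le (s := -s) (by linarith), sub_zero] at this
  exact this

lemma th_mono : Monotone th :=
  monotone_of_deriv_nonneg (fun s => (hasDerivAt_th s).differentiableAt)
    fun s => by rw [(hasDerivAt_th s).deriv]; exact sg_nonneg s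

lemma th_nonneg (s : ℝ) : 0 ≤ th s := by
  rcases le_total s (-1) with h | h
  · rw [th_of_le h]
  · calc (0 : ℝ) = th (-1) := (th_of_le le_rfl).symm
      _ ≤ th s := th_mono h

lemma th_zero_pos : 0 < th 0 := by
  unfold th
  refine intervalIntegral.integral_pos (by norm_num) contDiff_sg.continuous.continuousOn
    (fun r _ => sg_nonneg _) ⟨0, by norm_num, ?_⟩
  have := sg_add_neg 0
  rw [neg_zero] at this
  linarith

lemma th_le_one {s : ℝ} (h : s ≤ 1) : th s ≤ 1 :=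
  (th_mono h).trans (th_of_ge le_rfl).le

/-! ### Taylor's formula with parameters in a compact set -/

theorem taylor2 {Z : Type*} [NormedAddCommGroup Z] [NormedSpace ℝ Z] {K : Set Z}
    (hK : IsCompact K) {f : ℝ × Z → ℝ}
    (hf : ∀ τ ∈ Icc (0 : ℝ) 1, ∀ z ∈ K, ContDiffAt ℝ ∞ f (τ, z))
    (h0 : ∀ z ∈ K, fderiv ℝ f (0, z) (1, 0) = 0) :
    ∃ C : ℝ, 0 ≤ C ∧ ∀ z ∈ K, ∀ τ ∈ Icc (0 : ℝ) 1, f (τ, z) ≤ f (0, z) + C * τ ^ 2 := by
  set f1 : ℝ × Z → ℝ := fun y => fderiv ℝ f y (1, 0) with hf1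
  set f2 : ℝ × Z → ℝ := fun y => fderiv ℝ f1 y (1, 0) with hf2
  have c1 : ∀ τ ∈ Icc (0 : ℝ) 1, ∀ z ∈ K, ContDiffAt ℝ ∞ f1 (τ, z) := fun τ hτ z hz =>
    ((hf τ hτ z hz).fderiv_right (m := ∞) (by simp)).clm_apply contDiffAt_const
  have c2 : ∀ τ ∈ Icc (0 : ℝ) 1, ∀ z ∈ K, ContDiffAt ℝ ∞ f2 (τ, z) := fun τ hτ z hz =>
    ((c1 τ hτ z hz).fderiv_right (m := ∞) (by simp)).clm_apply contDiffAt_const
  obtain ⟨C, hC⟩ := ((isCompact_Icc (a := (0 : ℝ)) (b := 1)).prod hK).exists_bound_of_continuousOn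
    (f := f2) (fun y hy => (c2 y.1 hy.1 y.2 hy.2).continuousAt.continuousWithinAt)
  have hd : ∀ (τ : ℝ) (z : Z), HasDerivAt (fun s : ℝ => ((s, z) : ℝ × Z)) (1, 0) τ := fun τ z =>
    (hasDerivAt_id τ).prodMk (hasDerivAt_const τ z)
  refine ⟨|C|, abs_nonneg _, fun z hz τ hτ => ?_⟩
  have d1 : ∀ s ∈ Icc (0 : ℝ) 1, HasDerivAt (fun s => f (s, z)) (f1 (s, z)) s := fun s hs =>
    HasFDerivAt.comp_hasDerivAt (f := fun s : ℝ => ((s, z) : ℝ × Z)) s
      ((hf s hs z hz).differentiableAt (by simp)).hasFDerivAt (hd s z)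
  have d2 : ∀ s ∈ Icc (0 : ℝ) 1, HasDerivAt (fun s => f1 (s, z)) (f2 (s, z)) s := fun s hs =>
    HasFDerivAt.comp_hasDerivAt (f := fun s : ℝ => ((s, z) : ℝ × Z)) s
      ((c1 s hs z hz).differentiableAt (by simp)).hasFDerivAt (hd s z)
  -- `f1 ≤ |C| s`
  have e1 : ∀ s ∈ Icc (0 : ℝ) 1, f1 (s, z) ≤ |C| * s := by
    intro s hs
    have h1 := (convex_Icc (0 : ℝ) 1).norm_image_sub_le_of_norm_hasDerivWithin_le
      (f := fun s => f1 (s, z)) (C := |C|)
      (fun r hr => (d2 r hr).hasDerivWithinAt)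
      (fun r hr => (hC (r, z) ⟨hr, hz⟩).trans (le_abs_self C))
      (x := 0) (y := s) ⟨le_rfl, zero_le_one⟩ hs
    have h2 : f1 (0, z) = 0 := h0 z hz
    rw [h2, sub_zero, sub_zero, Real.norm_eq_abs, Real.norm_eq_abs, abs_of_nonneg hs.1] at h1
    exact (le_abs_self _).trans h1
  -- integrate
  have m1 : MonotoneOn (fun s => f (0, z) + |C| * s ^ 2 - f (s, z)) (Icc (0 : ℝ) 1) := by
    apply monotoneOn_of_deriv_nonneg (convex_Icc 0 1)
    · intro s hs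
      exact ((continuous_const.add (continuous_const.mul
        (continuous_pow 2))).continuousAt.sub (d1 s hs).continuousAt).continuousWithinAt
    · intro s hs
      rw [interior_Icc] at hs
      exact (((hasDerivAt_const s (f (0, z))).add ((hasDerivAt_pow 2 s).const_mul |C|)).sub
        (d1 s ⟨hs.1.le, hs.2.le⟩)).differentiableAt.differentiableWithinAt
    · intro s hs
      rw [interior_Icc] at hs
      have h3 := ((hasDerivAt_const s (f (0, z))).add ((hasDerivAt_pow 2 s).const_mul |C|)).sub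
        (d1 s ⟨hs.1.le, hs.2.le⟩)
      have h4 : deriv (fun s => f (0, z) + |C| * s ^ 2 - f (s, z)) s = _ := h3.deriv
      rw [h4]
      have h5 := e1 s ⟨hs.1.le, hs.2.le⟩
      have h6 : 0 ≤ |C| * s := mul_nonneg (abs_nonneg _) hs.1.le
      simp only [Nat.cast_ofNat, zero_add, Nat.add_one_sub_one, pow_one]
      linarith
  have m2 := m1 ⟨le_rfl, zero_le_one⟩ hτ hτ.1
  simp only at m2
  nlinarith [m2]

/-! ### The differential of `Exp` to second order -/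

variable {n N : ℕ} {κ : ℝ} {S : Set (Euc N)} {G : Geo n N κ S} {x u v w y a b : Euc N}

lemma hasDerivAt_fdExp (hx : x ∈ S) (hu : u ∈ G.T x) (w : Euc N) (τ : ℝ) :
    HasDerivAt (fun τ : ℝ => fderiv ℝ (Exp G x) (τ • u) w)
      (fderiv ℝ (fderiv ℝ (Exp G x)) (τ • u) u w) τ := by
  have h1 := (((contDiffAt_Exp' G hx ((G.T x).smul_mem τ hu)).fderiv_right
    (m := ∞) (by simp)).differentiableAt (by simp)).hasFDerivAt
  have h2 : HasDerivAt (fun τ : ℝ => τ • u) u τ := by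
    simpa using (hasDerivAt_id τ).smul_const u
  have h3 := h1.comp_hasDerivAt τ h2
  simpa using h3.clm_apply (hasDerivAt_const τ w)

lemma fdExp_self (hx : x ∈ S) (hv : v ∈ G.T x) (τ : ℝ) :
    fderiv ℝ (Exp G x) (τ • v) v = (fl G ((x, v), τ)).2 := by
  have h1 := ((contDiffAt_Exp' G hx ((G.T x).smul_mem τ hv)).differentiableAt
    (by simp)).hasFDerivAt
  have h2 : HasDerivAt (fun τ : ℝ => τ • v) v τ := by
    simpa using (hasDerivAt_id τ).smul_const v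
  have h3 := h1.comp_hasDerivAt τ h2
  have h4 : (Exp G x ∘ fun τ : ℝ => τ • v) = fun τ => (fl G ((x, v), τ)).1 :=
    funext fun τ => Exp_smul G hx hv τ
  rw [h4] at h3
  exact h3.unique (hda_fst (hasDerivAt_fl G (complete G (q := (x, v)) ⟨hx, hv⟩ τ)))

lemma snd_Exp_self (hx : x ∈ S) (hv : v ∈ G.T x) :
    fderiv ℝ (fderiv ℝ (Exp G x)) 0 v v = II G x v v := by
  have h1 := hasDerivAt_fdExp hx hv v 0
  rw [zero_smul] at h1
  have h2 : (fun τ : ℝ => fderiv ℝ (Exp G x) (τ • v) v) = fun τ => (fl G ((x, v), τ)).2 :=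
    funext fun τ => fdExp_self hx hv τ
  rw [h2] at h1
  have h3 := hda_snd (hasDerivAt_fl G (complete G (q := (x, v)) ⟨hx, hv⟩ 0))
  rw [fl_zero] at h3
  exact h1.unique h3

lemma snd_Exp_inner (hx : x ∈ S) (hu : u ∈ G.T x) (hw : w ∈ G.T x) (hy : y ∈ G.T x) :
    ⟪fderiv ℝ (fderiv ℝ (Exp G x)) 0 u w, y⟫ = 0 := by
  have hs : fderiv ℝ (fderiv ℝ (Exp G x)) 0 u w = fderiv ℝ (fderiv ℝ (Exp G x)) 0 w u := by
    have h0 : ContDiffAt ℝ ∞ (Exp G x) 0 := contDiffAt_Exp' G hx (G.T x).zero_mem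
    exact (h0.isSymmSndFDerivAt (n := ∞) Crest.Agent.R241.D3b.min_le).eq u w
  have h1 := snd_Exp_self hx ((G.T x).add_mem hu hw)
  have h2 : (2 : ℝ) • fderiv ℝ (fderiv ℝ (Exp G x)) 0 u w =
      II G x (u + w) (u + w) - II G x u u - II G x w w := by
    rw [← h1, ← snd_Exp_self hx hu, ← snd_Exp_self hx hw]
    simp only [map_add, add_apply]
    rw [← hs, two_smul]
    abel
  have h3 : ⟪(2 : ℝ) • fderiv ℝ (fderiv ℝ (Exp G x)) 0 u w, y⟫ = 0 := by
    rw [h2, inner_sub_left, inner_sub_left,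
      inner_II G hx ((G.T x).add_mem hu hw) ((G.T x).add_mem hu hw) hy,
      inner_II G hx hu hu hy, inner_II G hx hw hw hy]
    simp
  rw [inner_smul_left] at h3
  simpa using h3

/-- `|D Exp_x(u) w|² ≤ (1 + C |u|²) |w|²` -/
theorem exists_Q1 (hS : IsCompact S) (G : Geo n N κ S) :
    ∃ C : ℝ, 0 ≤ C ∧ ∀ x ∈ S, ∀ u ∈ G.T x, ∀ w ∈ G.T x, ‖u‖ ≤ 1 →
      ‖fderiv ℝ (Exp G x) u w‖ ^ 2 ≤ (1 + C * ‖u‖ ^ 2) * ‖w‖ ^ 2 := by
  set f : ℝ × (Euc N × Euc N × Euc N) → ℝ := fun z =>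
    ‖fderiv ℝ (Exp G z.2.1) (z.1 • z.2.2.1) z.2.2.2‖ ^ 2 with hf
  set K : Set (Euc N × Euc N × Euc N) := {z | z.1 ∈ S ∧ (z.2.1 ∈ G.T z.1 ∧ ‖z.2.1‖ ≤ 1) ∧
    (z.2.2 ∈ G.T z.1 ∧ ‖z.2.2‖ ≤ 1)} with hKd
  have hK : IsCompact K := by
    have h1 : K = (S ×ˢ (Metric.closedBall (0 : Euc N) 1 ×ˢ Metric.closedBall (0 : Euc N) 1)) ∩
        ({z | G.P z.1 z.2.1 = z.2.1} ∩ {z | G.P z.1 z.2.2 = z.2.2}) := by
      ext z
      constructor
      · rintro ⟨h1, ⟨h2, h3⟩, h4, h5⟩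
        exact ⟨⟨h1, by simpa using h3, by simpa using h5⟩, (P_eq_self G h1).1 h2,
          (P_eq_self G h1).1 h4⟩
      · rintro ⟨⟨h1, h2, h3⟩, h4, h5⟩
        exact ⟨h1, ⟨(P_eq_self G h1).2 h4, by simpa using h2⟩, (P_eq_self G h1).2 h5,
          by simpa using h3⟩
    rw [h1]
    have hP : Continuous G.P := G.contDiff_P.continuous
    refine (hS.prod ((isCompact_closedBall _ _).prod (isCompact_closedBall _ _))).inter_right
      ((isClosed_eq ((hP.comp continuous_fst).clm_apply (by fun_prop)) (by fun_prop)).inter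
      (isClosed_eq ((hP.comp continuous_fst).clm_apply (by fun_prop)) (by fun_prop)))
  have hmain : ∀ τ : ℝ, ∀ z ∈ K, ContDiffAt ℝ ∞ f (τ, z) := by
    rintro τ ⟨x, u, w⟩ ⟨h1, ⟨h2, h3⟩, h4, h5⟩
    have e1 : ContDiffAt ℝ ∞ (fun z : ℝ × (Euc N × Euc N × Euc N) =>
        fderiv ℝ (Exp G z.2.1) (z.1 • z.2.2.1)) (τ, x, u, w) := by
      refine ContDiffAt.fderiv (f := fun (z : ℝ × (Euc N × Euc N × Euc N)) (v : Euc N) =>
        Exp G z.2.1 v) (g := fun z => z.1 • z.2.2.1) (n := ∞) ?_ (by fun_prop) (by simp)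
      have e2 := contDiffAt_Exp G h1 ((G.T x).smul_mem τ h2)
      exact ContDiffAt.comp (f := fun y : (ℝ × (Euc N × Euc N × Euc N)) × Euc N =>
        (y.1.2.1, y.2)) ((τ, x, u, w), τ • u) e2 (by fun_prop)
    exact (e1.clm_apply (by fun_prop)).norm_sq ℝ
  have hinit : ∀ z ∈ K, f (0, z) = ‖z.2.2‖ ^ 2 := by
    rintro ⟨x, u, w⟩ ⟨h1, ⟨h2, h3⟩, h4, h5⟩
    simp only [hf, zero_smul]
    rw [fderiv_Exp_zero G h1 h4]
  have hder : ∀ z ∈ K, fderiv ℝ f (0, z) (1, 0) = 0 := by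
    rintro ⟨x, u, w⟩ hz
    obtain ⟨h1, ⟨h2, h3⟩, h4, h5⟩ := hz
    have e1 : HasDerivAt (fun s : ℝ => f (s, (x, u, w))) (fderiv ℝ f (0, (x, u, w)) (1, 0)) 0 :=
      HasFDerivAt.comp_hasDerivAt
        (f := fun s : ℝ => ((s, (x, u, w)) : ℝ × (Euc N × Euc N × Euc N))) (0 : ℝ)
        ((hmain 0 _ ⟨h1, ⟨h2, h3⟩, h4, h5⟩).differentiableAt (by simp)).hasFDerivAt
        ((hasDerivAt_id (0 : ℝ)).prodMk (hasDerivAt_const (0 : ℝ) (x, u, w)))
    have e2 := (hasDerivAt_fdExp h1 h2 w 0).norm_sq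
    rw [zero_smul, fderiv_Exp_zero G h1 h4, real_inner_comm, snd_Exp_inner h1 h2 h4 h4,
      mul_zero] at e2
    exact e1.unique e2
  obtain ⟨C, hC0, hC⟩ := taylor2 hK (fun τ _ z hz => hmain τ z hz) hder
  refine ⟨C, hC0, fun x hx u hu w hw hu1 => ?_⟩
  by_cases hu0 : u = 0
  · subst hu0
    rw [fderiv_Exp_zero G hx hw]
    simp
  by_cases hw0 : w = 0
  · subst hw0
    simp
  have hun : ‖u‖ ≠ 0 := norm_ne_zero_iff.2 hu0
  have hwn : ‖w‖ ≠ 0 := norm_ne_zero_iff.2 hw0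
  have h1 := hC (x, (‖u‖⁻¹ • u, ‖w‖⁻¹ • w)) ⟨hx, ⟨(G.T x).smul_mem _ hu, by
    rw [norm_smul, norm_inv, norm_norm, inv_mul_cancel₀ hun]⟩, (G.T x).smul_mem _ hw, by
    rw [norm_smul, norm_inv, norm_norm, inv_mul_cancel₀ hwn]⟩ ‖u‖ ⟨norm_nonneg _, hu1⟩
  rw [hinit _ ⟨hx, ⟨(G.T x).smul_mem _ hu, by
    rw [norm_smul, norm_inv, norm_norm, inv_mul_cancel₀ hun]⟩, (G.T x).smul_mem _ hw, by
    rw [norm_smul, norm_inv, norm_norm, inv_mul_cancel₀ hwn]⟩] at h1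
  simp only [hf, smul_smul, mul_inv_cancel₀ hun, one_smul, map_smul] at h1
  rw [norm_smul, norm_smul, norm_inv, norm_norm, inv_mul_cancel₀ hwn, mul_pow, one_pow] at h1
  have h2 : 0 < ‖w‖ ^ 2 := by positivity
  have h3 : ‖fderiv ℝ (Exp G x) u w‖ ^ 2 =
      (‖w‖⁻¹ ^ 2 * ‖fderiv ℝ (Exp G x) u w‖ ^ 2) * ‖w‖ ^ 2 := by
    field_simp
  rw [h3]
  exact mul_le_mul_of_nonneg_right h1 h2.le

/-- **(Q)** -/
theorem exists_Q (hS : IsCompact S) (G : Geo n N κ S) :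
    ∃ C : ℝ, 0 ≤ C ∧ ∀ x ∈ S, ∀ u ∈ G.T x, ∀ y ∈ G.T x, ‖u‖ ≤ 1 →
      ‖fderiv ℝ (Exp G x) u y‖ ^ 2 ≤ ‖y‖ ^ 2 + C * (‖u‖ ^ 2 * ‖y‖ ^ 2 - ⟪u, y⟫ ^ 2) := by
  obtain ⟨C, hC0, hC⟩ := exists_Q1 hS G
  refine ⟨C, hC0, fun x hx u hu y hy hu1 => ?_⟩
  by_cases hu0 : u = 0
  · subst hu0
    rw [fderiv_Exp_zero G hx hy]
    simp
  have hun : ‖u‖ ^ 2 ≠ 0 := pow_ne_zero 2 (norm_ne_zero_iff.2 hu0)
  set c : ℝ := ⟪u, y⟫ / ‖u‖ ^ 2 with hc
  set w : Euc N := y - c • u with hw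
  have hwT : w ∈ G.T x := (G.T x).sub_mem hy ((G.T x).smul_mem _ hu)
  have huw : ⟪u, w⟫ = 0 := by
    rw [hw, inner_sub_right, inner_smul_right, real_inner_self_eq_norm_sq, hc,
      div_mul_cancel₀ _ hun, sub_self]
  have hyw : y = c • u + w := by rw [hw]; abel
  have h1 : fderiv ℝ (Exp G x) u y = c • Vel G x u + fderiv ℝ (Exp G x) u w := by
    conv_lhs => rw [hyw]
    rw [map_add, map_smul, fderiv_Exp_self G hx hu]
  have h2 : ⟪c • Vel G x u, fderiv ℝ (Exp G x) u w⟫ = 0 := by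
    rw [inner_smul_left, real_inner_comm, gauss G hx hu hwT, huw, mul_zero]
  have h3 : ‖fderiv ℝ (Exp G x) u y‖ ^ 2 =
      c ^ 2 * ‖u‖ ^ 2 + ‖fderiv ℝ (Exp G x) u w‖ ^ 2 := by
    rw [h1, norm_add_sq_real, h2, norm_smul, norm_Vel G hx hu, mul_pow, Real.norm_eq_abs,
      sq_abs]
    ring
  have h4 : ‖y‖ ^ 2 = c ^ 2 * ‖u‖ ^ 2 + ‖w‖ ^ 2 := by
    conv_lhs => rw [hyw]
    rw [norm_add_sq_real, inner_smul_left, huw, norm_smul, mul_pow, Real.norm_eq_abs, sq_abs]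
    simp
  have h5 : ‖u‖ ^ 2 * ‖y‖ ^ 2 - ⟪u, y⟫ ^ 2 = ‖u‖ ^ 2 * ‖w‖ ^ 2 := by
    have : ⟪u, y⟫ = c * ‖u‖ ^ 2 := by rw [hc, div_mul_cancel₀ _ hun]
    rw [this, h4]
    ring
  rw [h3, h5, h4]
  have := hC x hx u hu w hwT hu1
  nlinarith [this]

end Crest.Agent.R208.KG
end
end

-- ▼ part R208/KG2
section

/-!
Row 208, block KG (helper10), part KG2: the rounded corner `Exp_x(g(s) b - g(-s) a)` and its
energy.
-/

set_option autoImplicit false

open Set Filter Topology MeasureTheory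
open scoped ContDiff RealInnerProductSpace Interval
open Crest.GeometryTopology.Submanifold
open Crest.Agent.R241.DDefs
open Crest.Agent.R241.D2
open Crest.Agent.R241.D3c

noncomputable section

namespace Crest.Agent.R208.KG

/-! ### profiles with parameters -/

/-- the flat profile at scale one: `0` for `s ≤ 1/4`, `s` for `1 ≤ s` -/
def ph (s : ℝ) : ℝ := s * Real.smoothTransition (2 * s - 1 / 2)

lemma contDiff_ph : ContDiff ℝ ∞ ph :=
  contDiff_id.mul (Real.smoothTransition.contDiff.comp (by fun_prop))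

lemma ph_of_le' {s : ℝ} (h : s ≤ 1 / 4) : ph s = 0 := by
  unfold ph; rw [Real.smoothTransition.zero_of_nonpos (by linarith), mul_zero]

lemma ph_of_le {s : ℝ} (h : s ≤ 0) : ph s = 0 := ph_of_le' (by linarith)

lemma ph_of_ge {s : ℝ} (h : 1 ≤ s) : ph s = s := by
  unfold ph; rw [Real.smoothTransition.one_of_one_le (by linarith), mul_one]



/-- the profile at scale `ε`, with homotopy parameter `τ` (`τ = 0`: `th`, `τ = 1`: flat) -/
def gT (ε τ s : ℝ) : ℝ := ε * ((1 - τ) * th (s / ε) + τ * ph (s / ε))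

lemma contDiff_gT (ε : ℝ) : ContDiff ℝ ∞ (fun q : ℝ × ℝ => gT ε q.1 q.2) := by
  have h1 : ContDiff ℝ ∞ (fun q : ℝ × ℝ => q.2 / ε) := contDiff_snd.div_const ε
  exact contDiff_const.mul (((contDiff_const.sub contDiff_fst).mul (contDiff_th.comp h1)).add
    (contDiff_fst.mul (contDiff_ph.comp h1)))

variable {ε τ s : ℝ}

lemma gT_of_le (hε : 0 < ε) (h : s ≤ -ε) : gT ε τ s = 0 := by
  have h1 : s / ε ≤ -1 := by rw [div_le_iff₀ hε]; linarith
  unfold gT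
  rw [th_of_le h1, ph_of_le (by linarith)]
  ring

lemma gT_of_ge (hε : 0 < ε) (h : ε ≤ s) : gT ε τ s = s := by
  have h1 : 1 ≤ s / ε := by rw [le_div_iff₀ hε]; linarith
  unfold gT
  rw [th_of_ge h1, ph_of_ge h1]
  field_simp
  ring

lemma gT_zero (ε s : ℝ) : gT ε 0 s = ε * th (s / ε) := by unfold gT; ring

lemma gT_one (ε s : ℝ) : gT ε 1 s = ε * ph (s / ε) := by unfold gT; ring

lemma gT_one_of_le (hε : 0 < ε) (h : s ≤ 0) : gT ε 1 s = 0 := by
  rw [gT_one, ph_of_le (div_nonpos_of_nonpos_of_nonneg h hε.le), mul_zero]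

lemma gT_one_of_le' (hε : 0 < ε) (h : s ≤ ε / 4) : gT ε 1 s = 0 := by
  rw [gT_one, ph_of_le' (by rw [div_le_iff₀ hε]; linarith), mul_zero]



lemma gT_sub_neg (hε : 0 < ε) (s : ℝ) : gT ε 0 s - gT ε 0 (-s) = s := by
  rw [gT_zero, gT_zero, ← mul_sub, neg_div, th_sub_neg]
  field_simp

lemma gT_nonneg (hε : 0 < ε) (s : ℝ) : 0 ≤ gT ε 0 s := by
  rw [gT_zero]; exact mul_nonneg hε.le (th_nonneg _)

lemma gT_le (hε : 0 < ε) (h : s ≤ ε) : gT ε 0 s ≤ ε := by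
  rw [gT_zero]
  have := th_le_one (s := s / ε) (by rw [div_le_iff₀ hε]; linarith)
  nlinarith

lemma hasDerivAt_gT (hε : 0 < ε) (s : ℝ) : HasDerivAt (fun s => gT ε 0 s) (sg (s / ε)) s := by
  have h1 : HasDerivAt (fun s : ℝ => s / ε) (1 / ε) s := (hasDerivAt_id s).div_const ε
  have h2 := ((hasDerivAt_th (s / ε)).comp s h1).const_mul ε
  have h3 : (fun s => gT ε 0 s) = fun s => ε * (th ∘ fun s => s / ε) s :=
    funext fun s => gT_zero ε s
  rw [h3]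
  refine h2.congr_deriv ?_
  field_simp

/-! ### the rounded corner -/

variable {n N : ℕ} {κ : ℝ} {S : Set (Euc N)} {G : Geo n N κ S} {x u v w y a b : Euc N}

/-- the argument of the exponential map -/
def uu (ε τ : ℝ) (a b : Euc N) (s : ℝ) : Euc N := gT ε τ s • b - gT ε τ (-s) • a

/-- the corner at `x`, incoming velocity `a`, outgoing velocity `b`, rounded -/
def rnd (G : Geo n N κ S) (ε τ : ℝ) (x a b : Euc N) (s : ℝ) : Euc N := Exp G x (uu ε τ a b s)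

lemma uu_mem (ha : a ∈ G.T x) (hb : b ∈ G.T x) : uu ε τ a b s ∈ G.T x :=
  (G.T x).sub_mem ((G.T x).smul_mem _ hb) ((G.T x).smul_mem _ ha)

lemma rnd_mem (hx : x ∈ S) (ha : a ∈ G.T x) (hb : b ∈ G.T x) : rnd G ε τ x a b s ∈ S :=
  Exp_mem G hx (uu_mem ha hb)

lemma uu_of_ge (hε : 0 < ε) (h : ε ≤ s) : uu ε τ a b s = s • b := by
  unfold uu
  rw [gT_of_ge hε h, gT_of_le hε (by linarith), zero_smul, sub_zero]

lemma uu_of_le (hε : 0 < ε) (h : s ≤ -ε) : uu ε τ a b s = s • a := by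
  unfold uu
  rw [gT_of_le hε h, gT_of_ge hε (by linarith), zero_smul, zero_sub, neg_smul, neg_neg]

lemma rnd_of_ge (hε : 0 < ε) (hx : x ∈ S) (hb : b ∈ G.T x) (h : ε ≤ s) :
    rnd G ε τ x a b s = (fl G ((x, b), s)).1 := by
  unfold rnd
  rw [uu_of_ge hε h, Exp_smul G hx hb]

lemma rnd_of_le (hε : 0 < ε) (hx : x ∈ S) (ha : a ∈ G.T x) (h : s ≤ -ε) :
    rnd G ε τ x a b s = (fl G ((x, a), s)).1 := by
  unfold rnd
  rw [uu_of_le hε h, Exp_smul G hx ha]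

lemma uu_self (hε : 0 < ε) : uu ε 0 a a s = s • a := by
  unfold uu
  rw [← sub_smul, gT_sub_neg hε]

lemma rnd_self (hε : 0 < ε) (hx : x ∈ S) (ha : a ∈ G.T x) :
    rnd G ε 0 x a a s = (fl G ((x, a), s)).1 := by
  unfold rnd
  rw [uu_self hε, Exp_smul G hx ha]

/-- the flat profile: outgoing arc -/
lemma rnd_one_of_nonneg (hε : 0 < ε) (hx : x ∈ S) (hb : b ∈ G.T x) (h : 0 ≤ s) :
    rnd G ε 1 x a b s = (fl G ((x, b), gT ε 1 s)).1 := by
  unfold rnd uu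
  rw [gT_one_of_le (s := -s) hε (by linarith), zero_smul, sub_zero, Exp_smul G hx hb]

/-- the flat profile: incoming arc -/
lemma rnd_one_of_nonpos (hε : 0 < ε) (hx : x ∈ S) (ha : a ∈ G.T x) (h : s ≤ 0) :
    rnd G ε 1 x a b s = (fl G ((x, a), -gT ε 1 (-s))).1 := by
  unfold rnd uu
  rw [gT_one_of_le hε h, zero_smul, zero_sub, ← neg_smul, Exp_smul G hx ha]

/-- joint smoothness -/
lemma contDiffAt_rnd (ε : ℝ) {x₀ a₀ b₀ : Euc N} (hx : x₀ ∈ S) (ha : a₀ ∈ G.T x₀)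
    (hb : b₀ ∈ G.T x₀) (τ₀ s₀ : ℝ) :
    ContDiffAt ℝ ∞ (fun q : (Euc N × Euc N × Euc N) × ℝ × ℝ =>
      rnd G ε q.2.1 q.1.1 q.1.2.1 q.1.2.2 q.2.2) ((x₀, a₀, b₀), τ₀, s₀) := by
  have h1 := contDiffAt_Exp G hx (uu_mem (ε := ε) (τ := τ₀) (s := s₀) ha hb)
  have g1 : ContDiff ℝ ∞ (fun q : (Euc N × Euc N × Euc N) × ℝ × ℝ => gT ε q.2.1 q.2.2) :=
    (contDiff_gT ε).comp contDiff_snd
  have g2 : ContDiff ℝ ∞ (fun q : (Euc N × Euc N × Euc N) × ℝ × ℝ => gT ε q.2.1 (-q.2.2)) :=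
    (contDiff_gT ε).comp (g := fun q : ℝ × ℝ => gT ε q.1 q.2)
      (f := fun q : (Euc N × Euc N × Euc N) × ℝ × ℝ => (q.2.1, -q.2.2)) (by fun_prop)
  have h2 : ContDiff ℝ ∞ (fun q : (Euc N × Euc N × Euc N) × ℝ × ℝ =>
      ((q.1.1, uu ε q.2.1 q.1.2.1 q.1.2.2 q.2.2) : Euc N × Euc N)) := by
    unfold uu
    exact (by fun_prop : ContDiff ℝ ∞ (fun q : (Euc N × Euc N × Euc N) × ℝ × ℝ => q.1.1)).prodMk
      ((g1.smul (by fun_prop)).sub (g2.smul (by fun_prop)))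
  exact ContDiffAt.comp (f := fun q : (Euc N × Euc N × Euc N) × ℝ × ℝ =>
    ((q.1.1, uu ε q.2.1 q.1.2.1 q.1.2.2 q.2.2) : Euc N × Euc N))
    ((x₀, a₀, b₀), τ₀, s₀) h1 h2.contDiffAt

/-- velocity of the argument -/
def uu' (ε : ℝ) (a b : Euc N) (s : ℝ) : Euc N := sg (s / ε) • b + sg (-s / ε) • a

lemma uu'_mem (ha : a ∈ G.T x) (hb : b ∈ G.T x) : uu' ε a b s ∈ G.T x :=
  (G.T x).add_mem ((G.T x).smul_mem _ hb) ((G.T x).smul_mem _ ha)

lemma hasDerivAt_uu (hε : 0 < ε) (a b : Euc N) (s : ℝ) :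
    HasDerivAt (uu ε 0 a b) (uu' ε a b s) s := by
  have h1 := (hasDerivAt_gT hε s).smul_const b
  have h2 := ((hasDerivAt_gT hε (-s)).scomp s (hasDerivAt_neg s)).smul_const a
  refine (h1.sub h2).congr_deriv ?_
  unfold uu'
  simp

lemma hasDerivAt_rnd (hε : 0 < ε) (hx : x ∈ S) (ha : a ∈ G.T x) (hb : b ∈ G.T x) (s : ℝ) :
    HasDerivAt (rnd G ε 0 x a b) (fderiv ℝ (Exp G x) (uu ε 0 a b s) (uu' ε a b s)) s :=
  ((contDiffAt_Exp' G hx (uu_mem ha hb)).differentiableAt (by simp)).hasFDerivAt.comp_hasDerivAt s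
    (hasDerivAt_uu hε a b s)

lemma norm_uu_le (hε : 0 < ε) (ha : ‖a‖ = 1) (hb : ‖b‖ = 1) (h1 : -ε ≤ s) (h2 : s ≤ ε) :
    ‖uu ε 0 a b s‖ ≤ 2 * ε := by
  unfold uu
  refine (norm_sub_le _ _).trans ?_
  rw [norm_smul, norm_smul, ha, hb, Real.norm_eq_abs, Real.norm_eq_abs,
    abs_of_nonneg (gT_nonneg hε _), abs_of_nonneg (gT_nonneg hε _)]
  have := gT_le hε h2
  have := gT_le (s := -s) hε (by linarith)
  linarith

lemma norm_uu' (_hε : 0 < ε) (ha : ‖a‖ = 1) (hb : ‖b‖ = 1) (s : ℝ) :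
    ‖uu' ε a b s‖ ^ 2 = 1 - sg (s / ε) * sg (-s / ε) * ‖b - a‖ ^ 2 := by
  have h1 := sg_add_neg (s / ε)
  rw [← neg_div] at h1
  unfold uu'
  rw [norm_add_sq_real, norm_sub_sq_real, norm_smul, norm_smul, ha, hb, inner_smul_left,
    inner_smul_right, Real.norm_eq_abs, Real.norm_eq_abs, mul_one, mul_one, sq_abs, sq_abs]
  simp only [conj_trivial]
  have h2 : sg (-s / ε) = 1 - sg (s / ε) := by linarith
  rw [h2]
  ring

lemma gram_uu (hε : 0 < ε) (ha : ‖a‖ = 1) (hb : ‖b‖ = 1) (h1 : -ε ≤ s) (h2 : s ≤ ε) :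
    ‖uu ε 0 a b s‖ ^ 2 * ‖uu' ε a b s‖ ^ 2 - ⟪uu ε 0 a b s, uu' ε a b s⟫ ^ 2 ≤
      ε ^ 2 * ‖b - a‖ ^ 2 := by
  set p := gT ε 0 s with hp
  set q := gT ε 0 (-s) with hq
  set p' := sg (s / ε) with hp'
  set q' := sg (-s / ε) with hq'
  set c := ⟪a, b⟫ with hc
  have e1 : ‖uu ε 0 a b s‖ ^ 2 = p ^ 2 + q ^ 2 - 2 * (p * q) * c := by
    unfold uu
    rw [norm_sub_sq_real, norm_smul, norm_smul, ha, hb, inner_smul_left, inner_smul_right,
      Real.norm_eq_abs, Real.norm_eq_abs, mul_one, mul_one, sq_abs, sq_abs, real_inner_comm]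
    simp only [conj_trivial]
    ring
  have e2 : ‖uu' ε a b s‖ ^ 2 = p' ^ 2 + q' ^ 2 + 2 * (p' * q') * c := by
    unfold uu'
    rw [norm_add_sq_real, norm_smul, norm_smul, ha, hb, inner_smul_left, inner_smul_right,
      Real.norm_eq_abs, Real.norm_eq_abs, mul_one, mul_one, sq_abs, sq_abs, real_inner_comm]
    simp only [conj_trivial]
    ring
  have e3 : ⟪uu ε 0 a b s, uu' ε a b s⟫ = p * p' - q * q' + (p * q' - q * p') * c := by
    unfold uu uu'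
    simp only [inner_sub_left, inner_add_right, inner_smul_left, inner_smul_right, conj_trivial,
      real_inner_self_eq_norm_sq, ha, hb, real_inner_comm a b]
    ring
  have e4 : ‖b - a‖ ^ 2 = 2 - 2 * c := by
    rw [norm_sub_sq_real, ha, hb, real_inner_comm]; ring
  have hcle : |c| ≤ 1 := by
    have := abs_real_inner_le_norm a b
    rwa [ha, hb, mul_one] at this
  have hc1 := abs_le.1 hcle
  rw [e1, e2, e3, e4]
  have e5 : (p ^ 2 + q ^ 2 - 2 * (p * q) * c) * (p' ^ 2 + q' ^ 2 + 2 * (p' * q') * c) -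
      (p * p' - q * q' + (p * q' - q * p') * c) ^ 2 =
      (p * q' + q * p') ^ 2 * ((1 - c) * (1 + c)) := by ring
  rw [e5]
  have f1 : 0 ≤ p := gT_nonneg hε _
  have f2 : 0 ≤ q := gT_nonneg hε _
  have f3 : p ≤ ε := gT_le hε h2
  have f4 : q ≤ ε := gT_le hε (by linarith)
  have f5 : 0 ≤ p' := sg_nonneg _
  have f6 : 0 ≤ q' := sg_nonneg _
  have f7 : p' + q' = 1 := by
    have h1 := sg_add_neg (s / ε)
    rwa [← neg_div] at h1
  have f8 : p * q' + q * p' ≤ ε := by nlinarith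
  have f9 : 0 ≤ p * q' + q * p' := by positivity
  have g1 : (p * q' + q * p') ^ 2 ≤ ε ^ 2 := by nlinarith
  have g2 : 0 ≤ (1 - c) * (1 + c) := mul_nonneg (by linarith [hc1.2]) (by linarith [hc1.1])
  have g3 : (1 - c) * (1 + c) ≤ 2 - 2 * c := by nlinarith [hc1.1, hc1.2]
  calc (p * q' + q * p') ^ 2 * ((1 - c) * (1 + c)) ≤ ε ^ 2 * ((1 - c) * (1 + c)) :=
        mul_le_mul_of_nonneg_right g1 g2
    _ ≤ ε ^ 2 * (2 - 2 * c) := mul_le_mul_of_nonneg_left g3 (by positivity)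

/-- the constant `∫ sg(r) sg(-r)` -/
def a0 : ℝ := ∫ r in (-1 : ℝ)..1, sg r * sg (-r)

lemma cont_sgsg : Continuous fun r : ℝ => sg r * sg (-r) :=
  contDiff_sg.continuous.mul (contDiff_sg.continuous.comp continuous_neg)

lemma a0_pos : 0 < a0 := by
  unfold a0
  refine intervalIntegral.integral_pos (by norm_num) cont_sgsg.continuousOn
    (fun r _ => mul_nonneg (sg_nonneg _) (sg_nonneg _)) ⟨0, by norm_num, ?_⟩
  have := sg_add_neg 0
  rw [neg_zero] at this ⊢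
  have h : sg 0 = 1 / 2 := by linarith
  rw [h]; norm_num

lemma int_sgsg (hε : 0 < ε) : ∫ s in (-ε)..ε, sg (s / ε) * sg (-s / ε) = ε * a0 := by
  have h1 := intervalIntegral.integral_comp_div (a := -ε) (b := ε)
    (fun r : ℝ => sg r * sg (-r)) hε.ne'
  simp only [neg_div, div_self hε.ne', smul_eq_mul] at h1
  unfold a0
  rw [← h1]
  simp only [neg_div]

/-- **the energy of a rounded corner** -/
theorem exists_eps (hS : IsCompact S) (G : Geo n N κ S) :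
    ∃ ε₀ : ℝ, 0 < ε₀ ∧ ε₀ ≤ 1 / 2 ∧ ∀ ε, 0 < ε → ε ≤ ε₀ → ∀ x ∈ S, ∀ a ∈ G.T x, ∀ b ∈ G.T x,
      ‖a‖ = 1 → ‖b‖ = 1 →
      (∀ s ∈ Icc (-ε) ε, ‖deriv (rnd G ε 0 x a b) s‖ ^ 2 ≤
        1 - sg (s / ε) * sg (-s / ε) * ‖b - a‖ ^ 2 + (a0 / 4) * ‖b - a‖ ^ 2) ∧
      ∫ s in (-ε)..ε, ‖deriv (rnd G ε 0 x a b) s‖ ^ 2 ≤ 2 * ε - (ε * a0 / 2) * ‖b - a‖ ^ 2 := by
  obtain ⟨C, hC0, hC⟩ := exists_Q hS G
  have ha0 := a0_pos
  refine ⟨min (1 / 2) (Real.sqrt (a0 / (4 * (C + 1)))), ?_, min_le_left _ _, ?_⟩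
  · have : 0 < a0 / (4 * (C + 1)) := by positivity
    exact lt_min (by norm_num) (Real.sqrt_pos.2 this)
  intro ε hε hε' x hx a ha b hb ha1 hb1
  have k1 : ε ≤ 1 / 2 := hε'.trans (min_le_left _ _)
  have k2 : ε ^ 2 ≤ a0 / (4 * (C + 1)) := by
    have h1 : ε ≤ Real.sqrt (a0 / (4 * (C + 1))) := hε'.trans (min_le_right _ _)
    have h2 : 0 ≤ a0 / (4 * (C + 1)) := by positivity
    calc ε ^ 2 ≤ Real.sqrt (a0 / (4 * (C + 1))) ^ 2 := by gcongr
      _ = _ := Real.sq_sqrt h2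
  have k3 : C * ε ^ 2 ≤ a0 / 4 := by
    calc C * ε ^ 2 ≤ (C + 1) * ε ^ 2 := by nlinarith [sq_nonneg ε]
      _ ≤ (C + 1) * (a0 / (4 * (C + 1))) := by gcongr
      _ = a0 / 4 := by field_simp
  have hpt : ∀ s ∈ Icc (-ε) ε, ‖deriv (rnd G ε 0 x a b) s‖ ^ 2 ≤
      1 - sg (s / ε) * sg (-s / ε) * ‖b - a‖ ^ 2 + (a0 / 4) * ‖b - a‖ ^ 2 := by
    intro s hs
    rw [(hasDerivAt_rnd hε hx ha hb s).deriv]
    have h1 := hC x hx (uu ε 0 a b s) (uu_mem ha hb) (uu' ε a b s) (uu'_mem ha hb)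
      ((norm_uu_le hε ha1 hb1 hs.1 hs.2).trans (by linarith))
    have h2 := gram_uu hε ha1 hb1 hs.1 hs.2
    rw [norm_uu' hε ha1 hb1 s] at h1 h2
    have h3 : C * (‖uu ε 0 a b s‖ ^ 2 * (1 - sg (s / ε) * sg (-s / ε) * ‖b - a‖ ^ 2) -
        ⟪uu ε 0 a b s, uu' ε a b s⟫ ^ 2) ≤ C * (ε ^ 2 * ‖b - a‖ ^ 2) :=
      mul_le_mul_of_nonneg_left h2 hC0
    have h4 : C * (ε ^ 2 * ‖b - a‖ ^ 2) ≤ a0 / 4 * ‖b - a‖ ^ 2 := by
      rw [← mul_assoc]
      exact mul_le_mul_of_nonneg_right k3 (sq_nonneg _)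
    linarith
  refine ⟨hpt, ?_⟩
  have c1 : Continuous fun s => ‖deriv (rnd G ε 0 x a b) s‖ ^ 2 := by
    have h1 : (fun s => deriv (rnd G ε 0 x a b) s) =
        fun s => fderiv ℝ (Exp G x) (uu ε 0 a b s) (uu' ε a b s) :=
      funext fun s => (hasDerivAt_rnd hε hx ha hb s).deriv
    have h2 : Continuous fun s => fderiv ℝ (Exp G x) (uu ε 0 a b s) (uu' ε a b s) := by
      have h3 : Continuous fun s => fderiv ℝ (Exp G x) (uu ε 0 a b s) := by
        rw [continuous_iff_continuousAt]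
        intro s
        have h4 := ((contDiffAt_Exp' G hx (uu_mem (ε := ε) (τ := 0) (s := s) ha hb)).fderiv_right
          (m := ∞) (by simp)).continuousAt
        exact ContinuousAt.comp (f := uu ε 0 a b) h4 (hasDerivAt_uu hε a b s).continuousAt
      refine h3.clm_apply ?_
      unfold uu'
      have h5 := contDiff_sg.continuous
      fun_prop
    rw [← h1] at h2
    exact h2.norm.pow 2
  have c2 : Continuous fun s : ℝ => 1 - sg (s / ε) * sg (-s / ε) * ‖b - a‖ ^ 2 +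
      (a0 / 4) * ‖b - a‖ ^ 2 := by
    have h5 := contDiff_sg.continuous
    fun_prop
  have c3 : Continuous fun s : ℝ => sg (s / ε) * sg (-s / ε) * ‖b - a‖ ^ 2 := by
    have h5 := contDiff_sg.continuous
    fun_prop
  calc ∫ s in (-ε)..ε, ‖deriv (rnd G ε 0 x a b) s‖ ^ 2
      ≤ ∫ s in (-ε)..ε, (1 - sg (s / ε) * sg (-s / ε) * ‖b - a‖ ^ 2 +
        (a0 / 4) * ‖b - a‖ ^ 2) :=
        intervalIntegral.integral_mono_on (by linarith) (c1.intervalIntegrable _ _)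
          (c2.intervalIntegrable _ _) hpt
    _ = 2 * ε - (ε * a0 / 2) * ‖b - a‖ ^ 2 := by
        have i1 : IntervalIntegrable (fun s : ℝ => 1 - sg (s / ε) * sg (-s / ε) * ‖b - a‖ ^ 2)
            volume (-ε) ε := (continuous_const.sub c3).intervalIntegrable _ _
        have i2 : IntervalIntegrable (fun _ : ℝ => (a0 / 4) * ‖b - a‖ ^ 2) volume (-ε) ε :=
          continuous_const.intervalIntegrable _ _
        have i3 : IntervalIntegrable (fun _ : ℝ => (1 : ℝ)) volume (-ε) ε :=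
          continuous_const.intervalIntegrable _ _
        rw [intervalIntegral.integral_add i1 i2,
          intervalIntegral.integral_sub i3 (c3.intervalIntegrable _ _),
          intervalIntegral.integral_mul_const, int_sgsg hε,
          intervalIntegral.integral_const, intervalIntegral.integral_const]
        simp only [smul_eq_mul]
        ring

end Crest.Agent.R208.KG
end
end

-- ▼ part R208/KG3
section

/-!
Row 208, block KG (helper10), part KG3: closed chains of `m` geodesic arcs of length `π`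
(`m` even) with rounded corners.
-/

set_option autoImplicit false

open Set Filter Topology MeasureTheory
open scoped ContDiff RealInnerProductSpace Interval
open Crest.GeometryTopology.Submanifold
open Crest.Agent.R241.DDefs
open Crest.Agent.R241.D2
open Crest.Agent.R241.D3c

noncomputable section

namespace Crest.Agent.R208.KG

/-! ### indices modulo `m` -/

/-- the residue of `j` -/
def idx (m : ℕ) [NeZero m] (j : ℤ) : Fin m :=
  ⟨(j % (m : ℤ)).toNat, by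
    have h0 : (0 : ℤ) < m := by exact_mod_cast Nat.pos_of_ne_zero (NeZero.ne m)
    have h1 := Int.emod_lt_of_pos j h0
    have h2 := Int.emod_nonneg j h0.ne'
    omega⟩

lemma idx_add (m : ℕ) [NeZero m] (j : ℤ) : idx m (j + m) = idx m j := by
  unfold idx
  simp

lemma idx_add_sub (m : ℕ) [NeZero m] (j : ℤ) : idx m (j + m - 1) = idx m (j - 1) := by
  have h : j + m - 1 = j - 1 + m := by ring
  rw [h, idx_add]

lemma idx_natCast (m : ℕ) [NeZero m] (i : Fin m) : idx m ((i : ℕ) : ℤ) = i := by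
  unfold idx
  ext
  have h1 : (((i : ℕ) : ℤ) % (m : ℤ)) = ((i : ℕ) : ℤ) :=
    Int.emod_eq_of_lt (by positivity) (by exact_mod_cast i.2)
  simp only [h1, Int.toNat_natCast]

variable {n N : ℕ} {κ : ℝ} {S : Set (Euc N)} {G : Geo n N κ S}

/-! ### chains -/

/-- closed chains of `m` arcs: points `p` and unit vectors `v i` at `p` with the same
`Exp_p (π v i)`. Arc `i` is the geodesic of `v i` on `[iπ, (i+1)π]`, `i = 0, …, m-1`. -/
def Km (G : Geo n N κ S) (m : ℕ) : Set (Euc N × (Fin m → Euc N)) :=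
  {z | z.1 ∈ S ∧ (∀ i, z.2 i ∈ G.T z.1 ∧ ‖z.2 i‖ = 1) ∧
    ∀ i i', Exp G z.1 (Real.pi • z.2 i) = Exp G z.1 (Real.pi • z.2 i')}

/-- state (point, velocity) of the `i`-th geodesic at time `jπ` -/
def sta (G : Geo n N κ S) {m : ℕ} (z : Euc N × (Fin m → Euc N)) (i : Fin m) (j : ℤ) :
    Euc N × Euc N := fl G ((z.1, z.2 i), j * Real.pi)

/-- the loop near the `j`-th corner (`s = t - jπ`) -/
def pc (G : Geo n N κ S) (ε : ℝ) {m : ℕ} [NeZero m] (z : Euc N × (Fin m → Euc N)) (τ : ℝ)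
    (j : ℤ) (s : ℝ) : Euc N :=
  rnd G ε τ (sta G z (idx m j) j).1 (sta G z (idx m (j - 1)) j).2 (sta G z (idx m j) j).2 s

/-- the loop, of period `mπ` -/
def cc (G : Geo n N κ S) (ε : ℝ) {m : ℕ} [NeZero m] (z : Euc N × (Fin m → Euc N)) (τ t : ℝ) :
    Euc N := pc G ε z τ (round (t / Real.pi)) (t - round (t / Real.pi) * Real.pi)

variable {m : ℕ} {z : Euc N × (Fin m → Euc N)}

lemma kTS (hz : z ∈ Km G m) (i : Fin m) : (z.1, z.2 i) ∈ TS G := ⟨hz.1, (hz.2.1 i).1⟩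

lemma sta_mem (hz : z ∈ Km G m) (i : Fin m) (j : ℤ) : sta G z i j ∈ TS G :=
  fl_mem G (kTS hz i) _

lemma norm_sta (hz : z ∈ Km G m) (i : Fin m) (j : ℤ) : ‖(sta G z i j).2‖ = 1 :=
  (norm_fl G (kTS hz i) _).trans (hz.2.1 i).2

lemma fl_int (hper : HS.Per G) {q : Euc N × Euc N} (hq : q ∈ TS G) (h1 : ‖q.2‖ = 1) (t : ℝ)
    (j : ℤ) : fl G (q, t + 2 * j * Real.pi) = fl G (q, t) := by
  have key : ∀ (q : Euc N × Euc N), q ∈ TS G → ‖q.2‖ = 1 → ∀ j : ℤ,
      fl G (q, 2 * j * Real.pi) = q := by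
    intro q hq h1 j
    induction j with
    | zero => simp [fl_zero]
    | succ i ih =>
      have e : 2 * ((i + 1 : ℤ) : ℝ) * Real.pi = 2 * (i : ℤ) * Real.pi + 2 * Real.pi := by
        push_cast; ring
      rw [e, fl_add' G hq, ih, hper q hq h1]
    | pred i ih =>
      have e : 2 * ((-(i : ℤ) - 1 : ℤ) : ℝ) * Real.pi =
          2 * (-(i : ℤ) : ℤ) * Real.pi + (-(2 * Real.pi)) := by
        push_cast; ring
      rw [e, fl_add' G hq, ih]
      have h2 := hper q hq h1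
      have h3 : fl G (fl G (q, 2 * Real.pi), -(2 * Real.pi)) = q := by
        rw [← fl_add' G hq]; simp [fl_zero]
      rwa [h2] at h3
  have e : t + 2 * j * Real.pi = 2 * j * Real.pi + t := by ring
  rw [e, fl_add' G hq, key q hq h1 j]

lemma sta_even (hper : HS.Per G) (hz : z ∈ Km G m) (i : Fin m) (j : ℤ) :
    sta G z i (2 * j) = (z.1, z.2 i) := by
  unfold sta
  have e : (((2 * j : ℤ) : ℝ)) * Real.pi = 0 + 2 * j * Real.pi := by push_cast; ring
  rw [e, fl_int hper (kTS hz i) (hz.2.1 i).2, fl_zero]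

lemma sta_odd (hper : HS.Per G) (hz : z ∈ Km G m) (i : Fin m) (j : ℤ) :
    sta G z i (2 * j + 1) = fl G ((z.1, z.2 i), Real.pi) := by
  unfold sta
  have e : (((2 * j + 1 : ℤ) : ℝ)) * Real.pi = Real.pi + 2 * j * Real.pi := by push_cast; ring
  rw [e, fl_int hper (kTS hz i) (hz.2.1 i).2]

lemma sta_fst (hper : HS.Per G) (hz : z ∈ Km G m) (i i' : Fin m) (j : ℤ) :
    (sta G z i j).1 = (sta G z i' j).1 := by
  rcases Int.even_or_odd' j with ⟨k, rfl | rfl⟩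
  · rw [sta_even hper hz, sta_even hper hz]
  · rw [sta_odd hper hz, sta_odd hper hz, ← Exp_smul G hz.1 (hz.2.1 i).1,
      ← Exp_smul G hz.1 (hz.2.1 i').1]
    exact hz.2.2 i i'

lemma sta_add (hper : HS.Per G) (hm : Even m) (hz : z ∈ Km G m) (i : Fin m) (j : ℤ) :
    sta G z i (j + m) = sta G z i j := by
  obtain ⟨l, rfl⟩ := hm
  unfold sta
  have e : (((j + ((l + l : ℕ) : ℤ) : ℤ) : ℝ)) * Real.pi =
      j * Real.pi + 2 * (l : ℤ) * Real.pi := by push_cast; ring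
  rw [e, fl_int hper (kTS hz i) (hz.2.1 i).2]

/-- the incoming and outgoing velocities are tangent at the corner -/
lemma sta_snd_mem (hper : HS.Per G) (hz : z ∈ Km G m) (i i' : Fin m) (j : ℤ) :
    (sta G z i' j).2 ∈ G.T (sta G z i j).1 := by
  rw [sta_fst hper hz i i' j]
  exact (sta_mem hz i' j).2

section

variable [NeZero m] {ε τ s t : ℝ} {j : ℤ}

lemma pc_mem (hper : HS.Per G) (hz : z ∈ Km G m) : pc G ε z τ j s ∈ S :=
  rnd_mem (sta_mem hz _ _).1 (sta_snd_mem hper hz _ _ _) (sta_snd_mem hper hz _ _ _)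

lemma pc_ge (hper : HS.Per G) (hε : 0 < ε) (hz : z ∈ Km G m) (hs : ε ≤ s) :
    pc G ε z τ j s = (fl G ((z.1, z.2 (idx m j)), j * Real.pi + s)).1 := by
  unfold pc
  rw [rnd_of_ge hε (sta_mem hz _ _).1 (sta_snd_mem hper hz _ _ _) hs, fl_add' G (kTS hz _)]
  rfl

lemma pc_le (hper : HS.Per G) (hε : 0 < ε) (hz : z ∈ Km G m) (hs : s ≤ -ε) :
    pc G ε z τ j s = (fl G ((z.1, z.2 (idx m (j - 1))), j * Real.pi + s)).1 := by
  unfold pc
  rw [rnd_of_le hε (sta_mem hz _ _).1 (sta_snd_mem hper hz _ _ _) hs, fl_add' G (kTS hz _),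
    sta_fst hper hz (idx m j) (idx m (j - 1)) j]
  rfl

lemma pc_overlap (hper : HS.Per G) (hε : 0 < ε) (hz : z ∈ Km G m) (h1 : ε ≤ s)
    (h2 : s ≤ Real.pi - ε) : pc G ε z τ j s = pc G ε z τ (j + 1) (s - Real.pi) := by
  rw [pc_ge hper hε hz h1, pc_le hper hε hz (by linarith), add_sub_cancel_right]
  congr 3
  push_cast
  ring

/-- the loop near the `j`-th corner -/
theorem cc_eq (hper : HS.Per G) (hε : 0 < ε) (hε1 : ε ≤ 1 / 2) (hz : z ∈ Km G m)
    (h1 : |t - j * Real.pi| ≤ Real.pi - ε) : cc G ε z τ t = pc G ε z τ j (t - j * Real.pi) := by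
  have hpi := Real.pi_gt_three
  set j' := round (t / Real.pi) with hj'
  have h2 : |t - j' * Real.pi| ≤ Real.pi / 2 := by
    have h3 := abs_sub_round (t / Real.pi)
    rw [← hj'] at h3
    have h4 : t - j' * Real.pi = (t / Real.pi - j') * Real.pi := by field_simp
    rw [h4, abs_mul, abs_of_pos Real.pi_pos]
    nlinarith
  obtain ⟨a1, a2⟩ := abs_le.1 h1
  obtain ⟨b1, b2⟩ := abs_le.1 h2
  have c1 : (j' : ℝ) < j + 2 := by nlinarith
  have c2 : (j : ℝ) < j' + 2 := by nlinarith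
  have c1' : j' < j + 2 := by exact_mod_cast c1
  have c2' : j < j' + 2 := by exact_mod_cast c2
  unfold cc
  rw [← hj']
  rcases (by omega : j' = j - 1 ∨ j' = j ∨ j' = j + 1) with h | h | h
  · rw [h] at b1 b2 ⊢
    push_cast at b1 b2 ⊢
    rw [pc_overlap hper hε hz (by linarith) (by linarith)]
    congr 1
    · ring
    · ring
  · rw [h]
  · rw [h] at b1 b2 ⊢
    push_cast at b1 b2 ⊢
    rw [pc_overlap (j := j) (s := t - j * Real.pi) hper hε hz (by linarith) (by linarith)]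
    congr 1
    ring

/-- near every time the loop is given by one corner formula -/
lemma cc_eq_round (hper : HS.Per G) (hε : 0 < ε) (hε1 : ε ≤ 1 / 2) (hz : z ∈ Km G m) {t₀ : ℝ}
    (h1 : |t - t₀| ≤ 1) : cc G ε z τ t =
      pc G ε z τ (round (t₀ / Real.pi)) (t - round (t₀ / Real.pi) * Real.pi) := by
  have hpi := Real.pi_gt_three
  refine cc_eq hper hε hε1 hz ?_
  have h3 := abs_sub_round (t₀ / Real.pi)
  have h4 : t₀ - round (t₀ / Real.pi) * Real.pi =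
      (t₀ / Real.pi - round (t₀ / Real.pi)) * Real.pi := by field_simp
  have h5 : |t₀ - round (t₀ / Real.pi) * Real.pi| ≤ Real.pi / 2 := by
    rw [h4, abs_mul, abs_of_pos Real.pi_pos]
    nlinarith
  have h6 := abs_sub_le t t₀ (round (t₀ / Real.pi) * Real.pi)
  linarith

theorem cc_period (hper : HS.Per G) (hm : Even m) (hz : z ∈ Km G m) (t : ℝ) :
    cc G ε z τ (t + m * Real.pi) = cc G ε z τ t := by
  unfold cc
  have e1 : (t + m * Real.pi) / Real.pi = t / Real.pi + (m : ℕ) := by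
    field_simp
  rw [e1, round_add_natCast]
  have e2 : t + m * Real.pi - ((round (t / Real.pi) + (m : ℤ) : ℤ) : ℝ) * Real.pi =
      t - round (t / Real.pi) * Real.pi := by push_cast; ring
  rw [e2]
  unfold pc
  rw [idx_add, idx_add_sub, sta_add hper hm hz, sta_add hper hm hz]

lemma cc_mem (hper : HS.Per G) (hz : z ∈ Km G m) : cc G ε z τ t ∈ S := pc_mem hper hz

/-- on the diagonal the loop is the geodesic -/
theorem cc_diag (hε : 0 < ε) (hz : z ∈ Km G m) {v : Euc N}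
    (hv : ∀ i, z.2 i = v) : cc G ε z 0 t = (fl G ((z.1, v), t)).1 := by
  have h1 : ∀ i, (z.1, z.2 i) = (z.1, v) := fun i => by rw [hv]
  have h2 : (z.1, v) ∈ TS G := by rw [← h1 (idx m 0)]; exact kTS hz _
  have h3 : ∀ i j, sta G z i j = fl G ((z.1, v), j * Real.pi) := fun i j => by
    unfold sta; rw [h1]
  unfold cc pc
  rw [h3, h3, rnd_self hε (fl_mem G h2 _).1 (fl_mem G h2 _).2]
  have h4 := fl_add' G h2 (round (t / Real.pi) * Real.pi)
    (t - round (t / Real.pi) * Real.pi)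
  rw [add_sub_cancel] at h4
  rw [h4]

/-- the corner jump -/
def jmp (G : Geo n N κ S) (z : Euc N × (Fin m → Euc N)) (j : ℤ) : Euc N :=
  (sta G z (idx m j) j).2 - (sta G z (idx m (j - 1)) j).2

lemma norm_jmp {k : ℕ} (h : GT.Bla G k) (hz : z ∈ Km G m) (j : ℤ) :
    ‖jmp G z j‖ = ‖z.2 (idx m j) - z.2 (idx m (j - 1))‖ := by
  unfold jmp
  have hper := h.ty.per
  rcases Int.even_or_odd' j with ⟨l, hl | hl⟩
  · rw [hl, sta_even hper hz, sta_even hper hz]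
  · set i := idx m j
    set i' := idx m (j - 1)
    rw [hl, sta_odd hper hz, sta_odd hper hz]
    have hF := h.mem_FF hz.1 (hz.2.1 i).1 (hz.2.1 i).2
    have hi : z.2 i ∈ GT.Vs G z.1 (Exp G z.1 (Real.pi • z.2 i)) :=
      GT.mem_Vs (hz.2.1 i).1 (hz.2.1 i).2
    have hi' : z.2 i' ∈ GT.Vs G z.1 (Exp G z.1 (Real.pi • z.2 i)) := by
      rw [hz.2.2 i i']
      exact GT.mem_Vs (hz.2.1 i').1 (hz.2.1 i').2
    have h1 := h.inner_ar hF hi (hz.2.1 i).2 hi' (hz.2.1 i').2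
    have h2 := (h.ar_spec hF hi (hz.2.1 i).2).2.1
    have h3 := (h.ar_spec hF hi' (hz.2.1 i').2).2.1
    have h4 : ‖GT.ar G z.1 (z.2 i) - GT.ar G z.1 (z.2 i')‖ ^ 2 = ‖z.2 i - z.2 i'‖ ^ 2 := by
      rw [norm_sub_sq_real, norm_sub_sq_real, h1, h2, h3, (hz.2.1 i).2, (hz.2.1 i').2]
    have h5 : ‖GT.ar G z.1 (z.2 i) - GT.ar G z.1 (z.2 i')‖ = ‖z.2 i - z.2 i'‖ :=
      (sq_eq_sq₀ (norm_nonneg _) (norm_nonneg _)).1 h4
    rw [← h5]
    unfold GT.ar
    rw [← norm_neg]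
    congr 1
    abel

end

end Crest.Agent.R208.KG
end
end

-- ▼ part R208/KG4
section

/-!
Row 208, block KG (helper10), part KG4: the family of rounded chains as a smooth family over
`Km × [0,1] × S¹`.
-/

set_option autoImplicit false

open Set Filter Topology MeasureTheory
open scoped ContDiff RealInnerProductSpace Interval
open Crest.GeometryTopology.Submanifold
open Crest.Agent.R241.DDefs
open Crest.Agent.R241.D2
open Crest.Agent.R241.D3c

noncomputable section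

namespace Crest.Agent.R208.KG

variable {n N : ℕ} {κ : ℝ} {S : Set (Euc N)} {G : Geo n N κ S} {m : ℕ}

theorem isCompact_Km (hS : IsCompact S) (G : Geo n N κ S) (m : ℕ) : IsCompact (Km G m) := by
  set A : Set (Euc N × (Fin m → Euc N)) :=
    {z | z.1 ∈ S ∧ ∀ i, z.2 i ∈ G.T z.1 ∧ ‖z.2 i‖ = 1} with hA
  have hP : Continuous G.P := G.contDiff_P.continuous
  have hAc : IsCompact A := by
    have h1 : A = (S ×ˢ Metric.closedBall (0 : Fin m → Euc N) 1) ∩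
        ⋂ i, ({z | G.P z.1 (z.2 i) = z.2 i} ∩ {z | ‖z.2 i‖ = 1}) := by
      ext z
      simp only [hA, mem_ofPred_eq, mem_inter_iff, mem_iInter, mem_prod,
        Metric.mem_closedBall, dist_zero_right]
      constructor
      · rintro ⟨h1, h2⟩
        exact ⟨⟨h1, (pi_norm_le_iff_of_nonneg zero_le_one).2 fun i => (h2 i).2.le⟩,
          fun i => ⟨(P_eq_self G h1).1 (h2 i).1, (h2 i).2⟩⟩
      · rintro ⟨⟨h1, -⟩, h2⟩
        exact ⟨h1, fun i => ⟨(P_eq_self G h1).2 (h2 i).1, (h2 i).2⟩⟩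
    rw [h1]
    refine (hS.prod (isCompact_closedBall _ _)).inter_right (isClosed_iInter fun i => ?_)
    refine (isClosed_eq ?_ (by fun_prop)).inter (isClosed_eq (by fun_prop) continuous_const)
    exact (hP.comp continuous_fst).clm_apply (by fun_prop)
  have h2 : Km G m = A ∩ ⋂ i, ⋂ i', {z | z ∈ A ∧
      Exp G z.1 (Real.pi • z.2 i) - Exp G z.1 (Real.pi • z.2 i') = 0} := by
    ext z
    simp only [Km, hA, mem_ofPred_eq, mem_inter_iff, mem_iInter]
    constructor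
    · rintro ⟨h1, h2, h3⟩
      exact ⟨⟨h1, h2⟩, fun i i' => ⟨⟨h1, h2⟩, sub_eq_zero.2 (h3 i i')⟩⟩
    · rintro ⟨⟨h1, h2⟩, h3⟩
      exact ⟨h1, h2, fun i i' => sub_eq_zero.1 (h3 i i').2⟩
  rw [h2]
  refine hAc.inter_right (isClosed_iInter fun i => isClosed_iInter fun i' => ?_)
  have hcont : ContinuousOn (fun z : Euc N × (Fin m → Euc N) =>
      Exp G z.1 (Real.pi • z.2 i) - Exp G z.1 (Real.pi • z.2 i')) A := by
    intro z hz
    have key : ∀ i, ContinuousAt (fun z : Euc N × (Fin m → Euc N) =>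
        Exp G z.1 (Real.pi • z.2 i)) z := fun i =>
      ContinuousAt.comp (f := fun z : Euc N × (Fin m → Euc N) => (z.1, Real.pi • z.2 i))
        (contDiffAt_Exp G hz.1 ((G.T z.1).smul_mem _ (hz.2 i).1)).continuousAt (by fun_prop)
    exact ((key i).sub (key i')).continuousWithinAt
  have := hcont.preimage_isClosed_of_isClosed hAc.isClosed (isClosed_singleton (x := (0 : Euc N)))
  exact this

/-- `Km × [0,1] × S¹` -/
def XX (G : Geo n N κ S) (m : ℕ) : Set ((Euc N × (Fin m → Euc N)) × ℝ × ℂ) :=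
  Km G m ×ˢ (Icc (0 : ℝ) 1 ×ˢ Metric.sphere (0 : ℂ) 1)

theorem isCompact_XX (hS : IsCompact S) (G : Geo n N κ S) (m : ℕ) : IsCompact (XX G m) :=
  (isCompact_Km hS G m).prod (isCompact_Icc.prod (isCompact_sphere _ _))

variable [NeZero m]

/-- the family, before the extension -/
def f0 (G : Geo n N κ S) (ε : ℝ) (q : (Euc N × (Fin m → Euc N)) × ℝ × ℂ) : Euc N :=
  cc G ε q.1 q.2.1 ((m : ℝ) / 2 * Complex.arg q.2.2)

lemma contDiffAt_arg {u : ℂ} (h : u ∈ Complex.slitPlane) : ContDiffAt ℝ ∞ Complex.arg u := by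
  have h1 : ContDiffAt ℝ ∞ Complex.log u := (Complex.contDiffAt_log h (n := ∞)).restrict_scalars ℝ
  have h2 : Complex.arg = fun u => Complex.imCLM (Complex.log u) := by
    ext u
    simp [Complex.log_im]
  rw [h2]
  exact Complex.imCLM.contDiff.contDiffAt.comp u h1

omit [NeZero m] in
lemma contDiffAt_sta {z : Euc N × (Fin m → Euc N)} (hz : z ∈ Km G m) (i : Fin m) (j : ℤ) :
    ContDiffAt ℝ ∞ (fun z : Euc N × (Fin m → Euc N) => sta G z i j) z := by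
  have h1 := contDiffAt_fl' G (kTS hz i) (j * Real.pi)
  exact ContDiffAt.comp (f := fun z : Euc N × (Fin m → Euc N) =>
    ((z.1, z.2 i), (j : ℝ) * Real.pi)) z h1 (by fun_prop)

lemma contDiffAt_pc (hper : HS.Per G) {ε : ℝ} {z : Euc N × (Fin m → Euc N)} (hz : z ∈ Km G m)
    (j : ℤ) (τ s : ℝ) :
    ContDiffAt ℝ ∞ (fun q : (Euc N × (Fin m → Euc N)) × ℝ × ℝ =>
      pc G ε q.1 q.2.1 j q.2.2) (z, τ, s) := by
  have h1 := contDiffAt_rnd (G := G) ε (sta_mem hz (idx m j) j).1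
    (sta_snd_mem hper hz (idx m j) (idx m (j - 1)) j)
    (sta_snd_mem hper hz (idx m j) (idx m j) j) τ s
  have h2 : ∀ i, ContDiffAt ℝ ∞ (fun q : (Euc N × (Fin m → Euc N)) × ℝ × ℝ => sta G q.1 i j)
      (z, τ, s) := fun i =>
    ContDiffAt.comp (f := fun q : (Euc N × (Fin m → Euc N)) × ℝ × ℝ => q.1) (z, τ, s)
      (contDiffAt_sta hz i j) contDiffAt_fst
  exact ContDiffAt.comp (f := fun q : (Euc N × (Fin m → Euc N)) × ℝ × ℝ =>
    (((sta G q.1 (idx m j) j).1, (sta G q.1 (idx m (j - 1)) j).2, (sta G q.1 (idx m j) j).2),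
      q.2.1, q.2.2)) (z, τ, s) h1
    (((h2 _).fst.prodMk ((h2 _).snd.prodMk (h2 _).snd)).prodMk contDiffAt_snd)

lemma cc_int (hper : HS.Per G) (hm : Even m) {ε τ : ℝ} {z : Euc N × (Fin m → Euc N)}
    (hz : z ∈ Km G m) (t : ℝ) (l : ℤ) :
    cc G ε z τ (t + l * (m * Real.pi)) = cc G ε z τ t := by
  have h1 : Function.Periodic (cc G ε z τ) (m * Real.pi) := cc_period hper hm hz
  exact (h1.int_mul l) t

lemma cc_arg (hper : HS.Per G) (hm : Even m) {ε τ : ℝ} {z : Euc N × (Fin m → Euc N)}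
    (hz : z ∈ Km G m) {a b : ℝ} (hab : (a : Real.Angle) = b) :
    cc G ε z τ ((m : ℝ) / 2 * a) = cc G ε z τ ((m : ℝ) / 2 * b) := by
  obtain ⟨l, hl⟩ := Real.Angle.angle_eq_iff_two_pi_dvd_sub.1 hab
  have h1 : (m : ℝ) / 2 * a = (m : ℝ) / 2 * b + l * (m * Real.pi) := by
    have : a = b + 2 * Real.pi * l := by linarith
    rw [this]; ring
  rw [h1, cc_int hper hm hz]

theorem exists_FC (hS : IsCompact S) (hper : HS.Per G) (hm : Even m) {ε : ℝ} (hε : 0 < ε)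
    (hε1 : ε ≤ 1 / 2) : ∃ f : (Euc N × (Fin m → Euc N)) × ℝ × ℂ → Euc N,
      (∀ q ∈ XX G m, ContDiffAt ℝ ∞ f q) ∧ ∀ q ∈ XX G m, f q = f0 G ε q := by
  refine GP.exists_extension (isCompact_XX hS G m) ?_
  rintro ⟨z₀, τ₀, u₀⟩ ⟨hz₀, hτ₀, hu₀⟩
  have hu0 : u₀ ≠ 0 := by
    intro h
    rw [h] at hu₀
    simp at hu₀
  set t₀ : ℝ := (m : ℝ) / 2 * Complex.arg u₀ with ht₀
  set j : ℤ := round (t₀ / Real.pi) with hj
  set P : (Euc N × (Fin m → Euc N)) × ℝ × ℂ → Prop := fun q =>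
    q.2.2 / u₀ ∈ Complex.slitPlane ∧ |(m : ℝ) / 2 * Complex.arg (q.2.2 / u₀)| < 1 with hP
  have hone : u₀ / u₀ = 1 := div_self hu0
  have hmem1 : (1 : ℂ) ∈ Complex.slitPlane := Complex.one_mem_slitPlane
  have hev : ∀ᶠ q in 𝓝 ((z₀, τ₀, u₀) : (Euc N × (Fin m → Euc N)) × ℝ × ℂ), P q := by
    have c1 : ContinuousAt (fun q : (Euc N × (Fin m → Euc N)) × ℝ × ℂ => q.2.2 / u₀)
        (z₀, τ₀, u₀) := by fun_prop
    have c2 : ContinuousAt (fun q : (Euc N × (Fin m → Euc N)) × ℝ × ℂ =>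
        |(m : ℝ) / 2 * Complex.arg (q.2.2 / u₀)|) (z₀, τ₀, u₀) := by
      have h1 : ContinuousAt Complex.arg (u₀ / u₀) := by
        rw [hone]; exact Complex.continuousAt_arg hmem1
      exact (continuousAt_const.mul (ContinuousAt.comp
        (f := fun q : (Euc N × (Fin m → Euc N)) × ℝ × ℂ => q.2.2 / u₀) h1 c1)).abs
    refine (c1.eventually_mem (Complex.isOpen_slitPlane.mem_nhds ?_)).and
      (c2.eventually_lt continuousAt_const ?_)
    · change u₀ / u₀ ∈ _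
      rw [hone]; exact hmem1
    · change |(m : ℝ) / 2 * Complex.arg (u₀ / u₀)| < 1
      rw [hone]; simp
  obtain ⟨U, hUP, hUo, hU⟩ := eventually_nhds_iff.1 hev
  refine ⟨U, fun q => pc G ε q.1 q.2.1 j
    ((m : ℝ) / 2 * (Complex.arg u₀ + Complex.arg (q.2.2 / u₀)) - j * Real.pi), hUo, hU, ?_, ?_⟩
  · rintro ⟨z, τ, u⟩ ⟨⟨hz, hτ, hu⟩, hqU⟩
    have hq := hUP _ hqU
    have h1 := contDiffAt_pc (ε := ε) hper hz j τ
      ((m : ℝ) / 2 * (Complex.arg u₀ + Complex.arg (u / u₀)) - j * Real.pi)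
    have h2 : ContDiffAt ℝ ∞ (fun q : (Euc N × (Fin m → Euc N)) × ℝ × ℂ =>
        Complex.arg (q.2.2 / u₀)) (z, τ, u) :=
      ContDiffAt.comp (f := fun q : (Euc N × (Fin m → Euc N)) × ℝ × ℂ => q.2.2 / u₀) (z, τ, u)
        (contDiffAt_arg hq.1) (by fun_prop)
    exact ContDiffAt.comp (f := fun q : (Euc N × (Fin m → Euc N)) × ℝ × ℂ => (q.1, q.2.1,
      (m : ℝ) / 2 * (Complex.arg u₀ + Complex.arg (q.2.2 / u₀)) - j * Real.pi)) (z, τ, u) h1
      (contDiffAt_fst.prodMk (contDiffAt_snd.fst.prodMk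
        ((contDiffAt_const.mul (contDiffAt_const.add h2)).sub contDiffAt_const)))
  · rintro ⟨z, τ, u⟩ ⟨⟨hz, hτ, hu⟩, hqU⟩
    have hq := hUP _ hqU
    have hu1 : u ≠ 0 := by
      intro h
      rw [h] at hu
      simp at hu
    simp only [f0]
    have h1 : ((Complex.arg u : ℝ) : Real.Angle) =
        ((Complex.arg u₀ + Complex.arg (u / u₀) : ℝ) : Real.Angle) := by
      have h2 := Complex.arg_mul_coe_angle hu0 (div_ne_zero hu1 hu0)
      rw [mul_div_cancel₀ _ hu0] at h2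
      rw [h2]
      rfl
    rw [cc_arg hper hm hz h1]
    symm
    rw [hj]
    refine cc_eq_round hper hε hε1 hz ?_
    have h3 : (m : ℝ) / 2 * (Complex.arg u₀ + Complex.arg (u / u₀)) - t₀ =
        (m : ℝ) / 2 * Complex.arg (u / u₀) := by rw [ht₀]; ring
    rw [h3]
    exact hq.2.le

/-- **the family of rounded chains** over `Km × [0,1] × S¹` (homotopy parameter `τ ∈ [0,1]`,
`τ = 0`: energy profile, `τ = 1`: flat profile) -/
def FC (G : Geo n N κ S) (m : ℕ) [NeZero m] (ε : ℝ) :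
    (Euc N × (Fin m → Euc N)) × ℝ × ℂ → Euc N := by
  classical
  exact if h : ∃ f : (Euc N × (Fin m → Euc N)) × ℝ × ℂ → Euc N,
      (∀ q ∈ XX G m, ContDiffAt ℝ ∞ f q) ∧ ∀ q ∈ XX G m, f q = f0 G ε q
    then Classical.choose h else 0

/-- the same with a real time, period `2π` -/
def F (G : Geo n N κ S) (m : ℕ) [NeZero m] (ε : ℝ) (z : Euc N × (Fin m → Euc N)) (τ α : ℝ) :
    Euc N := FC G m ε (z, τ, Complex.exp (α * Complex.I))

/-- standing assumptions -/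
structure OK (G : Geo n N κ S) (m : ℕ) (ε : ℝ) : Prop where
  cpt : IsCompact S
  per : HS.Per G
  even : Even m
  pos : 0 < ε
  le : ε ≤ 1 / 2

variable {ε τ α : ℝ} {z : Euc N × (Fin m → Euc N)}

lemma FC_spec (h : OK G m ε) : (∀ q ∈ XX G m, ContDiffAt ℝ ∞ (FC G m ε) q) ∧
    ∀ q ∈ XX G m, FC G m ε q = f0 G ε q := by
  classical
  have h1 := exists_FC (m := m) h.cpt h.per h.even h.pos h.le
  unfold FC
  rw [dif_pos h1]
  exact Classical.choose_spec h1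

theorem FC_smooth (h : OK G m ε) {q : (Euc N × (Fin m → Euc N)) × ℝ × ℂ} (hq : q ∈ XX G m) :
    ContDiffAt ℝ ∞ (FC G m ε) q := (FC_spec h).1 q hq

lemma exp_mem (α : ℝ) : Complex.exp (α * Complex.I) ∈ Metric.sphere (0 : ℂ) 1 := by
  simp [Complex.norm_exp_ofReal_mul_I]

omit [NeZero m] in
lemma mem_XX (hz : z ∈ Km G m) (hτ : τ ∈ Icc (0 : ℝ) 1) (α : ℝ) :
    (z, τ, Complex.exp (α * Complex.I)) ∈ XX G m := ⟨hz, hτ, exp_mem α⟩

theorem F_eq (h : OK G m ε) (hz : z ∈ Km G m) (hτ : τ ∈ Icc (0 : ℝ) 1) (α : ℝ) :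
    F G m ε z τ α = cc G ε z τ ((m : ℝ) / 2 * α) := by
  unfold F
  rw [(FC_spec h).2 _ (mem_XX hz hτ α)]
  simp only [f0]
  refine cc_arg h.per h.even hz ?_
  rw [Complex.arg_exp_mul_I, Real.Angle.coe_toIocMod]

theorem FC_mem (h : OK G m ε) {q : (Euc N × (Fin m → Euc N)) × ℝ × ℂ} (hq : q ∈ XX G m) :
    FC G m ε q ∈ S := by
  rw [(FC_spec h).2 q hq]
  exact cc_mem h.per hq.1

theorem F_mem (h : OK G m ε) (hz : z ∈ Km G m) (hτ : τ ∈ Icc (0 : ℝ) 1) (α : ℝ) :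
    F G m ε z τ α ∈ S := FC_mem h (mem_XX hz hτ α)

theorem F_per (α : ℝ) : F G m ε z τ (α + 2 * Real.pi) = F G m ε z τ α := by
  unfold F
  have h1 : (((α + 2 * Real.pi : ℝ) : ℂ)) * Complex.I = α * Complex.I + 2 * Real.pi * Complex.I := by
    push_cast; ring
  rw [h1, Complex.exp_periodic]

theorem F_smooth (h : OK G m ε) (hz : z ∈ Km G m) (hτ : τ ∈ Icc (0 : ℝ) 1) (α : ℝ) :
    ContDiffAt ℝ ∞ (fun q : (Euc N × (Fin m → Euc N)) × ℝ × ℝ => F G m ε q.1 q.2.1 q.2.2)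
      (z, τ, α) := by
  unfold F
  have h1 : ContDiff ℝ ∞ (fun a : ℝ => Complex.exp (a * Complex.I)) := by
    have : ContDiff ℝ ∞ Complex.exp := Complex.contDiff_exp
    exact this.comp (Complex.ofRealCLM.contDiff.mul contDiff_const)
  exact ContDiffAt.comp (f := fun q : (Euc N × (Fin m → Euc N)) × ℝ × ℝ =>
    (q.1, q.2.1, Complex.exp (q.2.2 * Complex.I))) (z, τ, α) (FC_smooth h (mem_XX hz hτ α))
    (contDiffAt_fst.prodMk (contDiffAt_snd.fst.prodMk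
      (ContDiffAt.comp (g := fun a : ℝ => Complex.exp (a * Complex.I))
        (f := fun q : (Euc N × (Fin m → Euc N)) × ℝ × ℝ => q.2.2) (z, τ, α)
        (h1.contDiffAt (x := α)) contDiffAt_snd.snd)))

theorem F_smooth_t (h : OK G m ε) (hz : z ∈ Km G m) (hτ : τ ∈ Icc (0 : ℝ) 1) :
    ContDiff ℝ ∞ (F G m ε z τ) := by
  rw [contDiff_iff_contDiffAt]
  intro α
  exact ContDiffAt.comp (g := fun q : (Euc N × (Fin m → Euc N)) × ℝ × ℝ =>
    F G m ε q.1 q.2.1 q.2.2) (f := fun a : ℝ => (z, τ, a)) α (F_smooth h hz hτ α) (by fun_prop)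



end Crest.Agent.R208.KG
end
end

-- ▼ part R208/KG5

/-!
Row 208, block KG (helper10), part KG5: the energy of the rounded chains:
`En (F z 0) ≤ m² π / 4 - c Σ ‖v_i - v_{i-1}‖²`.
-/

set_option autoImplicit false

open Set Filter Topology MeasureTheory
open scoped ContDiff RealInnerProductSpace Interval
open Crest.GeometryTopology.Submanifold
open Crest.Agent.R241.DDefs
open Crest.Agent.R241.D2
open Crest.Agent.R241.D3c

noncomputable section

namespace Crest.Agent.R208.KG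

variable {n N : ℕ} {κ : ℝ} {S : Set (Euc N)} {G : Geo n N κ S} {m : ℕ} {ε : ℝ}
  {x a b : Euc N}

/-! ### the corner on `[-π/2, π/2]` -/

lemma norm_deriv_rnd_ge (hε : 0 < ε) (hx : x ∈ S) (ha : a ∈ G.T x) (hb : b ∈ G.T x)
    (hb1 : ‖b‖ = 1) {s : ℝ} (hs : ε ≤ s) : ‖deriv (rnd G ε 0 x a b) s‖ ^ 2 = 1 := by
  have h1 : 1 ≤ s / ε := by rw [le_div_iff₀ hε]; linarith
  have h2 : -s / ε ≤ -1 := by rw [neg_div]; linarith
  rw [(hasDerivAt_rnd hε hx ha hb s).deriv, uu_of_ge hε hs]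
  unfold uu'
  rw [sg_of_ge h1, sg_of_le h2, one_smul, zero_smul, add_zero, fdExp_self hx hb,
    norm_fl G (q := (x, b)) ⟨hx, hb⟩]
  simp [hb1]

lemma norm_deriv_rnd_le (hε : 0 < ε) (hx : x ∈ S) (ha : a ∈ G.T x) (hb : b ∈ G.T x)
    (ha1 : ‖a‖ = 1) {s : ℝ} (hs : s ≤ -ε) : ‖deriv (rnd G ε 0 x a b) s‖ ^ 2 = 1 := by
  have h1 : 1 ≤ -s / ε := by rw [le_div_iff₀ hε]; linarith
  have h2 : s / ε ≤ -1 := by rw [neg_div] at h1; linarith
  rw [(hasDerivAt_rnd hε hx ha hb s).deriv, uu_of_le hε hs]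
  unfold uu'
  rw [sg_of_ge h1, sg_of_le h2, one_smul, zero_smul, zero_add, fdExp_self hx ha,
    norm_fl G (q := (x, a)) ⟨hx, ha⟩]
  simp [ha1]

lemma continuous_deriv_rnd (hε : 0 < ε) (hx : x ∈ S) (ha : a ∈ G.T x) (hb : b ∈ G.T x) :
    Continuous fun s => ‖deriv (rnd G ε 0 x a b) s‖ ^ 2 := by
  have h1 : (fun s => deriv (rnd G ε 0 x a b) s) =
      fun s => fderiv ℝ (Exp G x) (uu ε 0 a b s) (uu' ε a b s) :=
    funext fun s => (hasDerivAt_rnd hε hx ha hb s).deriv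
  have h2 : Continuous fun s => fderiv ℝ (Exp G x) (uu ε 0 a b s) (uu' ε a b s) := by
    have h3 : Continuous fun s => fderiv ℝ (Exp G x) (uu ε 0 a b s) := by
      rw [continuous_iff_continuousAt]
      intro s
      have h4 := ((contDiffAt_Exp' G hx (uu_mem (ε := ε) (τ := 0) (s := s) ha hb)).fderiv_right
        (m := ∞) (by simp)).continuousAt
      exact ContinuousAt.comp (f := uu ε 0 a b) h4 (hasDerivAt_uu hε a b s).continuousAt
    refine h3.clm_apply ?_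
    unfold uu'
    have h5 := contDiff_sg.continuous
    fun_prop
  rw [← h1] at h2
  exact h2.norm.pow 2

/-- the energy of the corner on `[-π/2, π/2]` -/
theorem int_rnd (hε : 0 < ε) (hε1 : ε ≤ 1 / 2) (hx : x ∈ S) (ha : a ∈ G.T x) (hb : b ∈ G.T x)
    (ha1 : ‖a‖ = 1) (hb1 : ‖b‖ = 1) :
    ∫ s in (-(Real.pi / 2))..(Real.pi / 2), ‖deriv (rnd G ε 0 x a b) s‖ ^ 2 =
      Real.pi - 2 * ε + ∫ s in (-ε)..ε, ‖deriv (rnd G ε 0 x a b) s‖ ^ 2 := by
  have hpi := Real.pi_gt_three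
  have hc := continuous_deriv_rnd hε hx ha hb
  have hi : ∀ u v : ℝ, IntervalIntegrable (fun s => ‖deriv (rnd G ε 0 x a b) s‖ ^ 2) volume u v :=
    fun u v => hc.intervalIntegrable _ _
  rw [← intervalIntegral.integral_add_adjacent_intervals (hi _ (-ε)) (hi _ _),
    ← intervalIntegral.integral_add_adjacent_intervals (hi (-ε) ε) (hi _ _)]
  have h1 : ∫ s in (-(Real.pi / 2))..(-ε), ‖deriv (rnd G ε 0 x a b) s‖ ^ 2 =
      Real.pi / 2 - ε := by
    rw [intervalIntegral.integral_congr (g := fun _ => (1 : ℝ))]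
    · rw [intervalIntegral.integral_const, smul_eq_mul]; ring
    · intro s hs
      rw [uIcc_of_le (by linarith)] at hs
      exact norm_deriv_rnd_le hε hx ha hb ha1 hs.2
  have h2 : ∫ s in ε..(Real.pi / 2), ‖deriv (rnd G ε 0 x a b) s‖ ^ 2 =
      Real.pi / 2 - ε := by
    rw [intervalIntegral.integral_congr (g := fun _ => (1 : ℝ))]
    · rw [intervalIntegral.integral_const, smul_eq_mul]; ring
    · intro s hs
      rw [uIcc_of_le (by linarith)] at hs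
      exact norm_deriv_rnd_ge hε hx ha hb hb1 hs.1
  rw [h1, h2]
  ring

/-! ### the chain -/

variable [NeZero m] {z : Euc N × (Fin m → Euc N)}

omit [NeZero m] in
lemma m_pos [NeZero m] : (0 : ℝ) < m := by exact_mod_cast Nat.pos_of_ne_zero (NeZero.ne m)

lemma cc_eq_F (h : OK G m ε) (hz : z ∈ Km G m) :
    cc G ε z 0 = fun t => F G m ε z 0 (2 / m * t) := by
  have hm := m_pos (m := m)
  funext t
  rw [F_eq h hz ⟨le_rfl, zero_le_one⟩]
  congr 1
  field_simp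

lemma contDiff_cc (h : OK G m ε) (hz : z ∈ Km G m) : ContDiff ℝ ∞ (cc G ε z 0) := by
  rw [cc_eq_F h hz]
  exact (F_smooth_t h hz ⟨le_rfl, zero_le_one⟩).comp (by fun_prop)

lemma En_F (h : OK G m ε) (hz : z ∈ Km G m) :
    MS.En (F G m ε z 0) = (m : ℝ) / 4 * ∫ t in (0 : ℝ)..(m * Real.pi),
      ‖deriv (cc G ε z 0) t‖ ^ 2 := by
  have hm := m_pos (m := m)
  have h1 : F G m ε z 0 = fun α => cc G ε z 0 ((m : ℝ) / 2 * α) :=
    funext fun α => F_eq h hz ⟨le_rfl, zero_le_one⟩ α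
  have h2 : ∀ α, deriv (F G m ε z 0) α = ((m : ℝ) / 2) • deriv (cc G ε z 0) ((m : ℝ) / 2 * α) := by
    intro α
    rw [h1]
    exact deriv_comp_mul_left ((m : ℝ) / 2) (cc G ε z 0) α
  unfold MS.En
  have h3 : ∀ α, ‖deriv (F G m ε z 0) α‖ ^ 2 =
      ((m : ℝ) / 2) ^ 2 * ‖deriv (cc G ε z 0) ((m : ℝ) / 2 * α)‖ ^ 2 := by
    intro α
    rw [h2, norm_smul, mul_pow, Real.norm_eq_abs, sq_abs]
  simp_rw [h3]
  rw [intervalIntegral.integral_const_mul]
  have h4 := intervalIntegral.integral_comp_mul_left (a := 0) (b := 2 * Real.pi)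
    (fun t => ‖deriv (cc G ε z 0) t‖ ^ 2) (c := (m : ℝ) / 2) (by positivity)
  rw [h4, smul_eq_mul, mul_zero]
  have h5 : (m : ℝ) / 2 * (2 * Real.pi) = m * Real.pi := by ring
  rw [h5]
  field_simp
  ring

lemma deriv_cc (h : OK G m ε) (hz : z ∈ Km G m) (j : ℤ) {s : ℝ}
    (hs : |s| < Real.pi - ε) :
    deriv (cc G ε z 0) (j * Real.pi + s) = deriv (fun s => pc G ε z 0 j s) s := by
  have h1 : (fun s => cc G ε z 0 (j * Real.pi + s)) =ᶠ[𝓝 s] fun s => pc G ε z 0 j s := by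
    have h2 : ∀ᶠ s' in 𝓝 s, |s'| < Real.pi - ε := continuous_abs.continuousAt.eventually_lt
      continuousAt_const hs
    filter_upwards [h2] with s' hs'
    rw [cc_eq h.per h.pos h.le hz (j := j) (by rw [add_sub_cancel_left]; exact hs'.le),
      add_sub_cancel_left]
  rw [← h1.deriv_eq]
  exact (deriv_comp_const_add (f := cc G ε z 0) (j * Real.pi) s).symm

/-- energy around one corner -/
lemma int_corner (h : OK G m ε) (hz : z ∈ Km G m) (j : ℤ) :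
    ∫ t in (j * Real.pi - Real.pi / 2)..(j * Real.pi + Real.pi / 2),
      ‖deriv (cc G ε z 0) t‖ ^ 2 =
      Real.pi - 2 * ε + ∫ s in (-ε)..ε, ‖deriv (fun s => pc G ε z 0 j s) s‖ ^ 2 := by
  have hpi := Real.pi_gt_three
  have hx := (sta_mem hz (idx m j) j).1
  have ha := sta_snd_mem h.per hz (idx m j) (idx m (j - 1)) j
  have hb := sta_snd_mem h.per hz (idx m j) (idx m j) j
  have h1 := intervalIntegral.integral_comp_add_left (a := -(Real.pi / 2)) (b := Real.pi / 2)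
    (fun t => ‖deriv (cc G ε z 0) t‖ ^ 2) (j * Real.pi)
  have h2 : j * Real.pi + -(Real.pi / 2) = j * Real.pi - Real.pi / 2 := by ring
  rw [h2] at h1
  have h4 := int_rnd h.pos h.le hx ha hb (norm_sta hz _ _) (norm_sta hz _ _)
  refine (h1.symm.trans ?_).trans h4
  refine intervalIntegral.integral_congr fun s hs => ?_
  rw [uIcc_of_le (by linarith)] at hs
  have h3 : |s| < Real.pi - ε := by
    have := h.le
    exact lt_of_le_of_lt (abs_le.2 hs) (by linarith)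
  change ‖deriv (cc G ε z 0) (j * Real.pi + s)‖ ^ 2 = _
  rw [deriv_cc h hz j h3]
  rfl

/-- the integral over a period as a sum over the corners -/
lemma int_cc (h : OK G m ε) (hz : z ∈ Km G m) :
    ∫ t in (0 : ℝ)..(m * Real.pi), ‖deriv (cc G ε z 0) t‖ ^ 2 =
      ∑ j ∈ Finset.range m, (Real.pi - 2 * ε +
        ∫ s in (-ε)..ε, ‖deriv (fun s => pc G ε z 0 (j : ℤ) s) s‖ ^ 2) := by
  have hcont : Continuous fun t => ‖deriv (cc G ε z 0) t‖ ^ 2 :=
    ((contDiff_cc h hz).continuous_deriv (by simp)).norm.pow 2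
  have hper : Function.Periodic (fun t => ‖deriv (cc G ε z 0) t‖ ^ 2) (m * Real.pi) := by
    intro t
    simp only
    have h1 : deriv (cc G ε z 0) (t + m * Real.pi) = deriv (cc G ε z 0) t := by
      have h2 : (fun t => cc G ε z 0 (t + m * Real.pi)) = cc G ε z 0 :=
        funext fun t => cc_period h.per h.even hz t
      have h3 := deriv_comp_add_const (f := cc G ε z 0) (m * Real.pi) t
      rw [h2] at h3
      exact h3.symm
    rw [h1]
  have h1 := hper.intervalIntegral_add_eq 0 (-(Real.pi / 2))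
  rw [zero_add] at h1
  rw [h1]
  have h2 := intervalIntegral.sum_integral_adjacent_intervals
    (f := fun t => ‖deriv (cc G ε z 0) t‖ ^ 2) (μ := volume)
    (a := fun j : ℕ => (j : ℝ) * Real.pi - Real.pi / 2) (n := m)
    (fun j _ => hcont.intervalIntegrable _ _)
  have e1 : ((0 : ℕ) : ℝ) * Real.pi - Real.pi / 2 = -(Real.pi / 2) := by simp
  have e2 : (m : ℝ) * Real.pi - Real.pi / 2 = -(Real.pi / 2) + m * Real.pi := by ring
  simp only [e1, e2] at h2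
  rw [← h2]
  refine Finset.sum_congr rfl fun j _ => ?_
  have h3 := int_corner h hz (j : ℤ)
  rw [← h3]
  congr 1
  push_cast
  ring

/-- `Σ_i ‖v_i - v_{i-1}‖²` -/
def jsq {m : ℕ} [NeZero m] (z : Euc N × (Fin m → Euc N)) : ℝ :=
  ∑ j ∈ Finset.range m, ‖z.2 (idx m (j : ℤ)) - z.2 (idx m ((j : ℤ) - 1))‖ ^ 2

/-- **energy inequality** -/
theorem exists_En_le (hS : IsCompact S) (G : Geo n N κ S) {k : ℕ} (hB : GT.Bla G k) (m : ℕ)
    [NeZero m] (hm : Even m) :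
    ∃ ε₀ : ℝ, 0 < ε₀ ∧ ∀ ε, 0 < ε → ε ≤ ε₀ → OK G m ε ∧ ∃ c : ℝ, 0 < c ∧
      ∀ z ∈ Km G m, MS.En (F G m ε z 0) ≤ (m : ℝ) ^ 2 * Real.pi / 4 - c * jsq z := by
  obtain ⟨ε₀, h1, h2, h3⟩ := exists_eps hS G
  refine ⟨ε₀, h1, fun ε hε hε' => ?_⟩
  have hOK : OK G m ε := ⟨hS, hB.ty.per, hm, hε, hε'.trans h2⟩
  have hm0 := m_pos (m := m)
  have ha0 := a0_pos
  refine ⟨hOK, (m : ℝ) / 4 * (ε * a0 / 2), by positivity, fun z hz => ?_⟩
  rw [En_F hOK hz, int_cc hOK hz]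
  have key : ∀ j ∈ Finset.range m, (Real.pi - 2 * ε +
      ∫ s in (-ε)..ε, ‖deriv (fun s => pc G ε z 0 (j : ℤ) s) s‖ ^ 2) ≤
      Real.pi - (ε * a0 / 2) * ‖z.2 (idx m (j : ℤ)) - z.2 (idx m ((j : ℤ) - 1))‖ ^ 2 := by
    intro j _
    have e1 := (h3 ε hε hε' _ (sta_mem hz (idx m (j : ℤ)) j).1 _
      (sta_snd_mem hOK.per hz (idx m (j : ℤ)) (idx m ((j : ℤ) - 1)) j) _
      (sta_snd_mem hOK.per hz (idx m (j : ℤ)) (idx m (j : ℤ)) j)
      (norm_sta hz _ _) (norm_sta hz _ _)).2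
    have e2 := norm_jmp hB hz (j : ℤ)
    unfold jmp at e2
    rw [e2] at e1
    have e3 : ∫ s in (-ε)..ε, ‖deriv (fun s => pc G ε z 0 (j : ℤ) s) s‖ ^ 2 ≤
      2 * ε - (ε * a0 / 2) * ‖z.2 (idx m (j : ℤ)) - z.2 (idx m ((j : ℤ) - 1))‖ ^ 2 := e1
    linarith
  have hsum := Finset.sum_le_sum key
  rw [Finset.sum_sub_distrib, ← Finset.mul_sum, Finset.sum_const, Finset.card_range,
    nsmul_eq_mul] at hsum
  have h5 : (m : ℝ) / 4 * (∑ j ∈ Finset.range m, (Real.pi - 2 * ε +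
      ∫ s in (-ε)..ε, ‖deriv (fun s => pc G ε z 0 (j : ℤ) s) s‖ ^ 2)) ≤
      (m : ℝ) / 4 * (m * Real.pi - (ε * a0 / 2) * jsq z) :=
    mul_le_mul_of_nonneg_left hsum (by positivity)
  refine h5.trans (le_of_eq ?_)
  ring

end Crest.Agent.R208.KG
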