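import Crest.Agent.R208.SB1
import Crest.Agent.R208.FH10
import Crest.Agent.R208.FV3

/-! Row 208, VOL4 (helper566): (V4-b) integration over the unit sphere bundle:
`∫_{Sph X P} W ∧ fst^*ζ = (∫_{fibre} W) (∫_X ζ)` for closed `W`; connectedness. -/

set_option autoImplicit false
set_option linter.unusedSectionVars false
set_option linter.unusedVariables false

open Set Filter Topology Module Metric
open scoped ContDiff RealInnerProductSpace
open Crest.Agent.R208.F Crest.Agent.R208.FI Crest.Agent.R208.T Crest.Agent.R208.FG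
open Crest.Agent.R208.SB

noncomputable section

namespace Crest.Agent.R208.ZG

variable {E H : Type*} [NormedAddCommGroup E] [NormedSpace ℝ E] [FiniteDimensional ℝ E]
  [NormedAddCommGroup H] [InnerProductSpace ℝ H] [FiniteDimensional ℝ H]
  {X : Set E} {P : E → H →L[ℝ] H} {d r : ℕ} {oP : E → Ext H} {oX : E → Ext E}
  {W : E × H → Ext (E × H)} {ζ : E → Ext E} {x y : E}

/-! ### connectedness -/

theorem preconn_sphereV {V : Submodule ℝ H} (hV : 2 ≤ finrank ℝ V) :
    IsPreconnected {v : H | v ∈ V ∧ ‖v‖ = 1} := by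
  have h1 : IsPreconnected (sphere (0 : V) 1) := by
    apply isPreconnected_sphere
    rw [← Module.finrank_eq_rank]
    exact_mod_cast hV
  have h2 := h1.image (fun v : V => (v : H)) continuous_subtype_val.continuousOn
  have h3 : (fun v : V => (v : H)) '' sphere (0 : V) 1 = {v : H | v ∈ V ∧ ‖v‖ = 1} := by
    ext v
    constructor
    · rintro ⟨u, hu, rfl⟩
      exact ⟨u.2, by simpa using hu⟩
    · rintro ⟨h1, h2⟩
      exact ⟨⟨v, h1⟩, by simpa using h2, rfl⟩
  rwa [h3] at h2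

theorem mem_range_iff (hP : PField X r P) (hx : x ∈ X) (v : H) :
    v ∈ LinearMap.range (P x : H →ₗ[ℝ] H) ↔ P x v = v := by
  constructor
  · rintro ⟨w, rfl⟩
    exact hP.idem x hx w
  · intro h
    exact ⟨v, h⟩

theorem fib_Sph (hP : PField X r P) (hx : x ∈ X) :
    Sph X P ∩ Prod.fst ⁻¹' {x} = (fun v => (x, v)) ''
      {v : H | v ∈ LinearMap.range (P x : H →ₗ[ℝ] H) ∧ ‖v‖ = 1} := by
  ext z
  constructor
  · rintro ⟨⟨⟨h1, h2⟩, h3⟩, h4⟩
    have h4' : z.1 = x := h4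
    refine ⟨z.2, ⟨(mem_range_iff hP hx _).2 ?_, h3⟩, ?_⟩
    · rw [← h4']; exact h2
    · rw [← h4']
  · rintro ⟨v, ⟨h1, h2⟩, rfl⟩
    exact ⟨⟨⟨hx, (mem_range_iff hP hx v).1 h1⟩, h2⟩, rfl⟩

theorem preconn_fib_Sph (hP : PField X (r + 1) P) (hr : 1 ≤ r) (hx : x ∈ X) :
    IsPreconnected (Sph X P ∩ Prod.fst ⁻¹' {x}) := by
  rw [fib_Sph hP hx]
  exact (preconn_sphereV (by rw [hP.rank x hx]; omega)).image _ (by fun_prop)

theorem nonempty_fib_Sph (hP : PField X (r + 1) P) (hx : x ∈ X) :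
    (Sph X P ∩ Prod.fst ⁻¹' {x}).Nonempty := by
  rw [fib_Sph hP hx]
  have h1 : 0 < finrank ℝ (LinearMap.range (P x : H →ₗ[ℝ] H)) := by rw [hP.rank x hx]; omega
  obtain ⟨v, hv⟩ : ∃ v : LinearMap.range (P x : H →ₗ[ℝ] H), v ≠ 0 := by
    have := (Module.finrank_pos_iff (R := ℝ) (M := LinearMap.range (P x : H →ₗ[ℝ] H))).1 h1
    exact exists_ne 0
  have hv' : (v : H) ≠ 0 := fun h => hv (Subtype.ext h)
  refine ⟨_, ⟨(‖(v : H)‖⁻¹ : ℝ) • (v : H), ⟨Submodule.smul_mem _ _ v.2, ?_⟩, rfl⟩⟩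
  rw [norm_smul, norm_inv, norm_norm, inv_mul_cancel₀ (norm_ne_zero_iff.2 hv')]

theorem fst_Sph (hP : PField X (r + 1) P) : Prod.fst '' Sph X P = X := by
  ext x
  constructor
  · rintro ⟨z, hz, rfl⟩
    exact hz.1.1
  · intro hx
    obtain ⟨z, hz, hz'⟩ := nonempty_fib_Sph hP hx
    exact ⟨z, hz, hz'⟩


/-- **the unit sphere bundle is connected** -/
theorem preconn_Sph (hX : IsCompact X) (hXc : IsPreconnected X) (hP : PField X (r + 1) P)
    (hr : 1 ≤ r) : IsPreconnected (Sph X P) :=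
  FV.preconn_of_fibres (f := Prod.fst) (isCompact_Sph hX hP) continuous_fst.continuousOn
    (fst_Sph hP) hXc fun x hx => preconn_fib_Sph hP hr hx

/-! ### integration -/

theorem ori_dpz {E : Type*} [NormedAddCommGroup E] [NormedSpace ℝ E] [FiniteDimensional ℝ E]
    {X : Set E} {d : ℕ} {o : E → Ext E} (ho : Ori d X o) : Ori d X (dp d o) where
  cont := by
    have h1 : Continuous (dpl (E := E) d) :=
      LinearMap.continuous_of_finiteDimensional (dpl (E := E) d)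
    exact h1.comp_continuousOn ho.cont
  ne x hx := by
    change evA E d (dpl d (o x)) _ ≠ 0
    rw [evA_dpl, if_pos rfl]
    exact ho.ne x hx

/-- **(V4-b), oriented form** -/
theorem int_Sph (hX : Clo d X) (hXc : IsPreconnected X) (hP : PField X (r + 1) P)
    (h : OPr X (r + 1) P oP) (ho : Ori d X oX) (hd : ∀ x, IsDeg d (oX x))
    (sW : Sm (Sph X P) W) (cW : Cl (Sph X P) W) (hζ : ContinuousOn ζ X)
    (hζ0 : ∀ x ∈ X, ∀ q < d, evA E q (ζ x) = 0) (hy : y ∈ X) :
    J (r + d) (Sph X P) (fun z => oV oP z * pull Prod.fst oX z)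
      (fun z => W z * pull Prod.fst ζ z) =
      J r (Sph X P ∩ Prod.fst ⁻¹' {y}) (oV oP) W * J d X oX ζ := by
  have hs := osubm_Sph hX hP h ho hd
  exact fibre_integration_const hs.subm hXc hs.base hs.cV hs.tot hs.low
    (fun z hz => (sW z hz).of_le (by simp)) cW hζ hζ0 hy

/-- **(V4-b)**, any orientations, `X` connected, fibres connected (`1 ≤ r`) -/
theorem abs_int_Sph (hX : Clo d X) (hXc : IsPreconnected X) (hP : PField X (r + 1) P)
    (hr : 1 ≤ r) (h : OPr X (r + 1) P oP) (hoX : Ori d X oX) {o : E × H → Ext (E × H)}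
    (ho : Ori (r + d) (Sph X P) o) {oF : E × H → Ext (E × H)} (hy : y ∈ X)
    (hoF : Ori r (Sph X P ∩ Prod.fst ⁻¹' {y}) oF)
    (sW : Sm (Sph X P) W) (cW : Cl (Sph X P) W) (hζ : ContinuousOn ζ X)
    (hζ0 : ∀ x ∈ X, ∀ q < d, evA E q (ζ x) = 0) :
    |J (r + d) (Sph X P) o (W * F.pull Prod.fst ζ)| =
      |J r (Sph X P ∩ Prod.fst ⁻¹' {y}) oF W| * |J d X oX ζ| := by
  have h1 := ori_dpz hoX
  have hdg : ∀ x, IsDeg d (dp d oX x) := fun x => hom_dp d oX x
  have hs := osubm_Sph hX hP h h1 hdg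
  have h2 := int_Sph hX hXc hP h h1 hdg sW cW hζ hζ0 hy
  have h3 : |J d X (dp d oX) ζ| = |J d X oX ζ| := by
    rcases J_ori_connected hX hoX h1 hXc with e | e
    · rw [e]
    · rw [e, abs_neg]
  have h4 : |J r (Sph X P ∩ Prod.fst ⁻¹' {y}) (oV oP) W| =
      |J r (Sph X P ∩ Prod.fst ⁻¹' {y}) oF W| := by
    rcases J_ori_connected (hs.subm.clo_fibre y) hoF (hs.fib y) (preconn_fib_Sph hP hr hy)
      with e | e
    · rw [e]
    · rw [e, abs_neg]
  have h5 : |J (r + d) (Sph X P) o (W * F.pull Prod.fst ζ)| =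
      |J (r + d) (Sph X P) (fun z => oV oP z * pull Prod.fst (dp d oX) z)
        (fun z => W z * pull Prod.fst ζ z)| := by
    rcases J_ori_connected hs.subm.cloZ hs.tot ho (preconn_Sph hX.compact hXc hP hr) with e | e
    · rw [e]; rfl
    · rw [e, abs_neg]; rfl
  rw [h5, h2, abs_mul, h3, h4]

end Crest.Agent.R208.ZG
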