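import Crest.Agent.R208.ZG4
import Crest.Agent.R208.TP4
import Crest.Agent.R208.RR5
import Crest.Agent.R208.GQ2d
import Crest.Agent.R208.CM6b
import Crest.Agent.R208.CM2b
import Crest.Agent.R208.KP3
import Crest.Agent.R208.ZH2

-- ▼ part R208/ZG5
section

/-!
R208, ZG5 (helper385): `α ≠ 0` for `k = 4`: if `w² = β x` then `J (w^(2m+1) e^(2m-1)) = 0`.
-/

set_option autoImplicit false
set_option linter.unusedSectionVars false

open MeasureTheory Set Filter Topology Module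
open scoped ContDiff
open Crest.Agent.R208.F Crest.Agent.R208.FI Crest.Agent.R208.CW Crest.Agent.R208.T
open Crest.Agent.R208.SO

noncomputable section

namespace Crest.Agent.R208.ZG

/-- the middle terms cancel -/
theorem mid_cancel {A : Type*} [CommRing A] {m : ℕ} (hm : 1 ≤ m) {p q : A} (hp : p ^ (m + 1) = 0)
    (hq : q ^ (m + 1) = 0) : (p + q) * (p - q) ^ (2 * m - 1) = 0 := by
  obtain ⟨c, rfl⟩ : ∃ c, m = c + 1 := ⟨m - 1, by omega⟩
  have h1 : (p - q) ^ (2 * c + 1) = p ^ c * (-q) ^ (c + 1) * ((2 * c + 1).choose c : A) +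
      p ^ (c + 1) * (-q) ^ c * ((2 * c + 1).choose (c + 1) : A) := by
    rw [sub_eq_add_neg, add_pow, Finset.sum_eq_add_of_mem c (c + 1)
      (Finset.mem_range.2 (by omega)) (Finset.mem_range.2 (by omega)) (by omega)]
    · rw [show 2 * c + 1 - c = c + 1 by omega, show 2 * c + 1 - (c + 1) = c by omega]
    · intro i hi hne
      have hi' := Finset.mem_range.1 hi
      rcases lt_or_ge i c with h | h
      · have h2 : (-q) ^ (2 * c + 1 - i) = 0 := by
          rw [neg_pow, show 2 * c + 1 - i = (c + 1 + 1) + (c - 1 - i) by omega, pow_add q, hq,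
            zero_mul, mul_zero]
        rw [h2, mul_zero, zero_mul]
      · have h2 : p ^ i = 0 := by
          have h3 : i ≠ c := hne.1
          have h4 : i ≠ c + 1 := hne.2
          rw [show i = (c + 1 + 1) + (i - (c + 1 + 1)) by omega, pow_add, hp, zero_mul]
        rw [h2, zero_mul, zero_mul]
  have h2 : ((2 * c + 1).choose (c + 1)) = (2 * c + 1).choose c := by
    rw [show (2 * c + 1).choose (c + 1) = (2 * c + 1).choose (2 * c + 1 - (c + 1)) from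
      (Nat.choose_symm (by omega)).symm]
    congr 1
    omega
  rw [show 2 * (c + 1) - 1 = 2 * c + 1 by omega, h1, h2]
  rw [neg_pow q c, neg_pow q (c + 1), pow_succ (-1 : A) c]
  have e1 : p * p ^ (c + 1) = 0 := by rw [← pow_succ', hp]
  have e2 : q * q ^ (c + 1) = 0 := by rw [← pow_succ', hq]
  generalize ((2 * c + 1).choose c : A) = b
  linear_combination (((-1) ^ c * q ^ c * b) * e1 - ((-1) ^ c * p ^ c * b) * e2)

section forms

variable {m : ℕ}
  {EY EB F' : Type} [NormedAddCommGroup EY] [NormedSpace ℝ EY] [FiniteDimensional ℝ EY]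
  [NormedAddCommGroup EB] [NormedSpace ℝ EB] [FiniteDimensional ℝ EB]
  [NormedAddCommGroup F'] [NormedSpace ℝ F'] [FiniteDimensional ℝ F']

/-- **`α ≠ 0`** -/
theorem alpha_ne {Y : Set EY} {B : Set EB} {S' : Set F'} {oY : EY → Ext EY} {ρ : EY → EB}
    (hm : 1 ≤ m) (hY : Clo (8 * m) Y) (hoY : Ori (8 * m) Y oY)
    (hS : Sub (4 * m) S') (sρ : SMap Y B ρ)
    {e x p : EB → Ext EB} (he : CF2 B 2 e) (hx : CF2 B 4 x) (hp : CF2 B 4 p)
    {w : EY → Ext EY} (hw : CF2 Y 2 w) {α β l : ℝ} (hl : l ≠ 0)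
    (h1 : Coh B p (α • (e * e) + β • x)) (h2 : Coh Y (w * w) (F.pull ρ p))
    {om : F' → Ext F'} (hom : CF2 S' 4 om) {f f' : EY → F'} (sf : SMap Y S' f) (sf' : SMap Y S' f')
    (h3 : Coh Y (F.pull f om) (F.pull ρ x + l • (F.pull ρ e * w)))
    (h3' : Coh Y (F.pull f' om) (F.pull ρ x - l • (F.pull ρ e * w)))
    (hJ : J (8 * m) Y oY (w ^ (2 * m + 1) * F.pull ρ e ^ (2 * m - 1)) ≠ 0) : α ≠ 0 := by
  intro hα
  apply hJ
  have Ee : EC Y (F.pull ρ e) := (CF2.ec he).pull sρ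
  have Ex : EC Y (F.pull ρ x) := (CF2.ec hx).pull sρ
  have Ep : EC Y (F.pull ρ p) := (CF2.ec hp).pull sρ
  have Ew : EC Y w := CF2.ec hw
  have Eo : EC S' om := CF2.ec hom
  have hW : rcl Ew ^ 2 = β • rcl Ex := by
    have k1 : Coh Y (w * w) (β • F.pull ρ x) := by
      refine h2.trans ?_
      have := Coh.pull sρ h1
      rwa [hα, zero_smul, zero_add, pull_smul'] at this
    have k2 := rcl_congr (Ew.mul Ew) (Ex.smul β) k1
    rw [rcl_mul Ew Ew, rcl_smul' β Ex] at k2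
    rw [sq]; exact k2
  have hom0 : ∀ {g : EY → F'} (sg : SMap Y S' g), rcl (Eo.pull sg) ^ (m + 1) = 0 := by
    intro g sg
    rw [rcl_pull sg Eo, ← map_pow, ← rcl_pow]
    have k1 : Coh S' (om ^ (m + 1)) 0 := Coh.of_eqv (eqv_zero_of_gt hS (p := 4 * (m + 1))
      (Hom.pow hom.hom (m + 1)) (by omega))
    rw [(rcl_eq_zero_iff (Eo.pow (m + 1))).2 k1, map_zero]
  have hAe : EC Y (F.pull ρ x + l • (F.pull ρ e * w)) := Ex.add ((Ee.mul Ew).smul l)
  have hBe : EC Y (F.pull ρ x - l • (F.pull ρ e * w)) := by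
    have := Ex.add ((Ee.mul Ew).smul (-l))
    rwa [neg_smul, ← sub_eq_add_neg] at this
  have rA : rcl hAe = rcl Ex + l • (rcl Ee * rcl Ew) := by
    rw [rcl_add Ex ((Ee.mul Ew).smul l), rcl_smul' l (Ee.mul Ew), rcl_mul Ee Ew]
  have rB : rcl hBe = rcl Ex - l • (rcl Ee * rcl Ew) := by
    rw [rcl_sub Ex ((Ee.mul Ew).smul l) hBe, rcl_smul' l (Ee.mul Ew), rcl_mul Ee Ew]
  have hA : (rcl Ex + l • (rcl Ee * rcl Ew)) ^ (m + 1) = 0 := by
    rw [← rA, ← rcl_congr (Eo.pull sf) hAe h3]; exact hom0 sf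
  have hB' : (rcl Ex - l • (rcl Ee * rcl Ew)) ^ (m + 1) = 0 := by
    rw [← rB, ← rcl_congr (Eo.pull sf') hBe h3']; exact hom0 sf'
  have key := mid_cancel hm hA hB'
  have e1 : rcl Ex + l • (rcl Ee * rcl Ew) + (rcl Ex - l • (rcl Ee * rcl Ew)) =
      (2 : ℝ) • rcl Ex := by rw [two_smul]; abel
  have e2 : rcl Ex + l • (rcl Ee * rcl Ew) - (rcl Ex - l • (rcl Ee * rcl Ew)) =
      (2 * l) • (rcl Ee * rcl Ew) := by rw [mul_smul, two_smul]; abel
  rw [e1, e2, smul_pow, smul_mul_smul_comm] at key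
  have key2 : rcl Ex * (rcl Ee * rcl Ew) ^ (2 * m - 1) = 0 := by
    have h5 : (2 * (2 * l) ^ (2 * m - 1) : ℝ) ≠ 0 :=
      mul_ne_zero two_ne_zero (pow_ne_zero _ (mul_ne_zero two_ne_zero hl))
    have h6 := congrArg (fun z => (2 * (2 * l) ^ (2 * m - 1) : ℝ)⁻¹ • z) key
    simp only [smul_zero] at h6
    rwa [smul_smul, inv_mul_cancel₀ h5, one_smul] at h6
  have k1 : rcl ((Ew.pow (2 * m + 1)).mul (Ee.pow (2 * m - 1))) = 0 := by
    rw [rcl_mul (Ew.pow (2 * m + 1)) (Ee.pow (2 * m - 1)), rcl_pow Ew, rcl_pow Ee]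
    have h6 : rcl Ew ^ (2 * m + 1) * rcl Ee ^ (2 * m - 1) =
        rcl Ew ^ 2 * (rcl Ee * rcl Ew) ^ (2 * m - 1) := by
      rw [mul_pow, show 2 * m + 1 = 2 + (2 * m - 1) by omega, pow_add]
      ring
    rw [h6, hW, smul_mul_assoc, key2, smul_zero]
  have k2 := intR_rcl hY hoY ((Ew.pow (2 * m + 1)).mul (Ee.pow (2 * m - 1)))
  rw [k1, map_zero] at k2
  exact k2.symm

end forms

end Crest.Agent.R208.ZG
end
end

-- ▼ part R208/ZG6
section

/-!
R208, ZG6 (helper385): sphere bundles as quotients, horizontal forms with horizontal differential are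
invariant, the relation `A - B ~ c e w` on `Y` from a family.
-/

set_option autoImplicit false
set_option linter.unusedSectionVars false
set_option linter.unusedVariables false

open MeasureTheory Set Filter Topology Module
open scoped ContDiff RealInnerProductSpace
open Crest.Agent.R208.F Crest.Agent.R208.FI Crest.Agent.R208.CW Crest.Agent.R208.T
open Crest.Agent.R208.RR Crest.Agent.R208.CM Crest.Agent.R208.SO

noncomputable section

namespace Crest.Agent.R208.ZG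

universe u

section inv
variable {E : Type u} [NormedAddCommGroup E] [NormedSpace ℝ E] [FiniteDimensional ℝ E]
  {d : ℕ} {Z : Set E} {x : E} {φ : ℝ → E → E} {γ : E → Ext E}

/-- the flow map `(x, t) ↦ φ (r t) x` -/
def Fr (φ : ℝ → E → E) (r : ℝ) (q : E × ℝ) : E := φ (r * q.2) q.1

theorem contDiffAt_Fr (hφ : Cir Z φ) (hx : x ∈ Z) (r t : ℝ) :
    ContDiffAt ℝ ∞ (Fr φ r) (x, t) := by
  have h1 := hφ.smooth (r * t) x hx
  have h2 : ContDiffAt ℝ ∞ (fun q : E × ℝ => ((r * q.2, q.1) : ℝ × E)) (x, t) :=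
    ((contDiff_const.mul contDiff_snd).prodMk contDiff_fst).contDiffAt
  exact ContDiffAt.comp (g := fun q : ℝ × E => φ q.1 q.2) (x, t) h1 h2

theorem Fr_mem (hφ : Cir Z φ) (hx : x ∈ Z) (r t : ℝ) : Fr φ r (x, t) ∈ Z := hφ.maps _ hx

theorem fderiv_Fr_inl (hφ : Cir Z φ) (hx : x ∈ Z) (r t : ℝ) :
    (fderiv ℝ (Fr φ r) (x, t)).comp (ContinuousLinearMap.inl ℝ E ℝ) =
      fderiv ℝ (φ (r * t)) x := by
  have h1 : HasFDerivAt (Fr φ r) (fderiv ℝ (Fr φ r) (x, t)) (x, t) :=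
    ((contDiffAt_Fr hφ hx r t).differentiableAt (by simp)).hasFDerivAt
  have hj : HasFDerivAt (fun y : E => (y, t)) (ContinuousLinearMap.inl ℝ E ℝ) x :=
    (hasFDerivAt_id x).prodMk (hasFDerivAt_const t x)
  exact (h1.comp x hj).fderiv.symm

theorem fderiv_Fr_inr (hφ : Cir Z φ) (hx : x ∈ Z) (r t : ℝ) :
    fderiv ℝ (Fr φ r) (x, t) ((0, 1) : E × ℝ) = r • gen φ (φ (r * t) x) := by
  have h1 : HasFDerivAt (Fr φ r) (fderiv ℝ (Fr φ r) (x, t)) (x, t) :=
    ((contDiffAt_Fr hφ hx r t).differentiableAt (by simp)).hasFDerivAt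
  have h2 : HasDerivAt (fun s : ℝ => ((x, s) : E × ℝ)) ((0, 1) : E × ℝ) t :=
    (hasDerivAt_const t x).prodMk (hasDerivAt_id t)
  have h3 := h1.comp_hasDerivAt t h2
  have h4 := hφ.hasDerivAt hx (r * t)
  have h5 : HasDerivAt (fun s : ℝ => r * s) r t := by
    simpa using (hasDerivAt_id t).const_mul r
  have h6 := h4.scomp t h5
  exact h3.unique h6

theorem hopL_Fr (hφ : Cir Z φ) (hx : x ∈ Z) (r t : ℝ) :
    hopL (ContinuousLinearMap.inl ℝ E ℝ) ((0, 1) : E × ℝ) (F.pull (Fr φ r) γ (x, t)) =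
      r • pb ((fderiv ℝ (φ (r * t)) x : E →L[ℝ] E) : E →ₗ[ℝ] E)
        (ii (gen φ (φ (r * t) x)) (γ (φ (r * t) x))) := by
  rw [hopL_apply, F.pull, ii_pb]
  change pb _ (pb _ (ii (fderiv ℝ (Fr φ r) (x, t) ((0, 1) : E × ℝ)) _)) = _
  rw [fderiv_Fr_inr hφ hx, pb_comp]
  have h1 : ((fderiv ℝ (Fr φ r) (x, t) : E × ℝ →L[ℝ] E) : E × ℝ →ₗ[ℝ] E) ∘ₗ
      ((ContinuousLinearMap.inl ℝ E ℝ : E →L[ℝ] E × ℝ) : E →ₗ[ℝ] E × ℝ) =
      ((fderiv ℝ (φ (r * t)) x : E →L[ℝ] E) : E →ₗ[ℝ] E) := by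
    rw [← fderiv_Fr_inl hφ hx]; rfl
  rw [h1, map_smul, LinearMap.smul_apply, map_smul]
  rfl

theorem hop_Fr_hz (hφ : Cir Z φ) (sγ : Sm Z γ) (hγ : Hz Z (gen φ) γ) (r : ℝ) :
    Eqv Z (hop (ContinuousLinearMap.inl ℝ E ℝ) ((0, 1) : E × ℝ) (F.pull (Fr φ r) γ)) 0 := by
  refine eqv_iff.2 fun x hx => ?_
  let R : Ext E →L[ℝ] Ext (Tan Z x) :=
    LinearMap.toContinuousLinearMap (pb (Tan Z x).subtype).toLinearMap
  have hi : IntervalIntegrable (fun t => hopL (ContinuousLinearMap.inl ℝ E ℝ) ((0, 1) : E × ℝ)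
      (F.pull (Fr φ r) γ (x, t))) volume 0 1 := by
    refine Continuous.intervalIntegrable ?_ _ _
    refine (hopL _ _).continuous.comp ?_
    rw [continuous_iff_continuousAt]
    intro t
    have h1 : ContinuousAt (F.pull (Fr φ r) γ) ((fun s : ℝ => ((x, s) : E × ℝ)) t) :=
      (contDiffAt_pull (m := ∞) (contDiffAt_Fr hφ hx r t) (by simp)
        (sγ _ (Fr_mem hφ hx r t))).continuousAt
    exact h1.comp (f := fun s : ℝ => ((x, s) : E × ℝ)) (by fun_prop : Continuous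
      (fun s : ℝ => ((x, s) : E × ℝ))).continuousAt
  have h0 : hop (ContinuousLinearMap.inl ℝ E ℝ) ((0, 1) : E × ℝ) (F.pull (Fr φ r) γ) x =
      ∫ t in (0 : ℝ)..1, hopL (ContinuousLinearMap.inl ℝ E ℝ) ((0, 1) : E × ℝ)
        (F.pull (Fr φ r) γ (x, t)) := by
    rw [hop, I1]
    simp only [hopg, jv_inl]
  rw [h0, Pi.zero_apply, map_zero]
  have h1 : pb (Tan Z x).subtype (∫ t in (0 : ℝ)..1, hopL (ContinuousLinearMap.inl ℝ E ℝ)
      ((0, 1) : E × ℝ) (F.pull (Fr φ r) γ (x, t))) = R (∫ t in (0 : ℝ)..1,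
      hopL (ContinuousLinearMap.inl ℝ E ℝ) ((0, 1) : E × ℝ) (F.pull (Fr φ r) γ (x, t))) := rfl
  rw [h1, ← ContinuousLinearMap.intervalIntegral_comp_comm _ hi]
  have h2 : ∀ t : ℝ, R (hopL (ContinuousLinearMap.inl ℝ E ℝ) ((0, 1) : E × ℝ)
      (F.pull (Fr φ r) γ (x, t))) = 0 := by
    intro t
    rw [hopL_Fr hφ hx]
    have h3 : Rs Z (φ (r * t) x) (ii (gen φ (φ (r * t) x)) (γ (φ (r * t) x))) = 0 :=
      hγ _ (hφ.maps _ hx)
    have h4 := pb_pull_eq_zero (X := Z) (Y := Z) (f := φ (r * t)) (x := x)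
      ((hφ.smooth_right (r * t) hx).differentiableAt (by simp)) (hφ.maps (r * t)) h3
    change Rs Z x (r • _) = 0
    rw [map_smul]
    exact (congrArg (fun z => r • z) h4).trans (smul_zero r)
  simp only [h2, intervalIntegral.integral_zero]

/-- a horizontal form with horizontal differential is invariant -/
theorem inv_of_hz {n : ℕ} (hZ : Sub n Z) (hφ : Cir Z φ) (sγ : Sm Z γ) (hγ : Hz Z (gen φ) γ)
    (hdγ : Hz Z (gen φ) (F.d γ)) : Inv Z φ γ := by
  intro r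
  have h1 : ∀ x ∈ Z, F.d (hop (ContinuousLinearMap.inl ℝ E ℝ) ((0, 1) : E × ℝ)
      (F.pull (Fr φ r) γ)) x + hop (ContinuousLinearMap.inl ℝ E ℝ) ((0, 1) : E × ℝ)
      (F.pull (Fr φ r) (F.d γ)) x =
      F.pull (fun y => Fr φ r (y, 1)) γ x - F.pull (fun y => Fr φ r (y, 0)) γ x := by
    intro x hx
    have := d_hop_pull (j := ContinuousLinearMap.inl ℝ E ℝ) (v := ((0, 1) : E × ℝ))
      (Fh := Fr φ r) (om := γ) (x := x) (fun t _ => by
        rw [jv_inl]; exact (contDiffAt_Fr hφ hx r t).of_le two_le)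
      (fun t _ => by
        rw [jv_inl]; exact (sγ _ (Fr_mem hφ hx r t)).of_le (by exact_mod_cast le_top))
    simp only [jv_inl] at this
    exact this
  have s1 : Sm Z (hop (ContinuousLinearMap.inl ℝ E ℝ) ((0, 1) : E × ℝ) (F.pull (Fr φ r) γ)) :=
    fun x hx => contDiffAt_Hop (fun t _ => contDiffAt_Fr hφ hx r t) fun t _ =>
      sγ _ (Fr_mem hφ hx r t)
  have e1 := (hop_Fr_hz hφ sγ hγ r).d hZ s1 Sm.zero
  have e2 := hop_Fr_hz hφ sγ.d hdγ r
  have hs : ∀ t : ℝ, ∀ x ∈ Z, DifferentiableAt ℝ (fun y => Fr φ r (y, t)) x := fun t x hx =>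
    show DifferentiableAt ℝ (φ (r * t)) x from (hφ.smooth_right _ hx).differentiableAt (by simp)
  have e3 : Eqv Z (F.pull (fun y => Fr φ r (y, 1)) γ) (F.pull (φ r) γ) :=
    eqv_pull_of_eq γ (hs 1) (fun x hx => (hφ.smooth_right _ hx).differentiableAt (by simp))
      fun y hy => by simp only [Fr, mul_one]
  have e4 : Eqv Z (F.pull (fun y => Fr φ r (y, 0)) γ) γ := by
    have := eqv_pull_of_eq γ (hs 0) (g := fun y => y) (fun x hx => differentiableAt_id)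
      (X := Z) fun y hy => by simp only [Fr, mul_zero]; exact hφ.zero y hy
    rwa [show F.pull (fun y : E => y) γ = γ from funext fun y => pull_id γ y] at this
  refine eqv_iff.2 fun x hx => ?_
  have h3 := congrArg (Rs Z x) (h1 x hx)
  rw [map_add, map_sub, eqv_iff.1 e1 x hx, eqv_iff.1 e2 x hx, eqv_iff.1 e3 x hx,
    eqv_iff.1 e4 x hx, Pi.zero_apply, map_zero, add_zero] at h3
  have h4 : F.d (0 : E → Ext E) x = 0 := d_const 0 x
  rw [h4, map_zero] at h3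
  exact (sub_eq_zero.1 h3.symm)

end inv

section rel
variable {E E' : Type} [NormedAddCommGroup E] [NormedSpace ℝ E] [FiniteDimensional ℝ E]
  [NormedAddCommGroup E'] [NormedSpace ℝ E'] [FiniteDimensional ℝ E']
  {n m : ℕ} {Z : Set E} {Y : Set E'} {φ : ℝ → E → E} {q : E → E'}
  {a b h η : E × ℝ → Ext (E × ℝ)} {θ : E → Ext E} {c : ℝ} {A B W e : E' → Ext E'}

/-- the relation `A - B ~ c e w` on the quotient, from the family at time `1` -/
theorem rel_quo (hZ : Sub n Z) (hφ : Cir Z φ) (hq : TP.QM Z φ Y q) (sθ : Sm Z θ)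
    (H : Fam Z (gen φ) m a b h η (c • θ) c) (ha : Eqv Z (F.pull (sl 1) a) (F.pull q A))
    (hb : Eqv Z (F.pull (sl 1) b) (F.pull q B)) (hh : Eqv Z (F.pull (sl 1) h) (F.pull q W))
    (hθ : Eqv Z (F.d θ) (F.pull q e)) : Coh Y (A - B) (c • (e * W)) := by
  set η1 := F.pull (sl 1) η with hη1
  have sη1 : Sm Z η1 := H.sη.pull (smap_sl 1)
  have dcθ : Eqv Z (F.d (c • θ)) (c • F.d θ) := d_smul_eqv c sθ
  have r1 : Eqv Z (F.pull (sl 1) (a - b)) (F.d (c • θ) * F.pull (sl 1) h + F.d η1) := by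
    have h1 := H.rel.pull (smap_sl 1)
    rw [pull_add', pull_mul'] at h1
    refine h1.trans (Eqv.add ?_ (pull_sl_d 1 H.sη))
    have h2 := pull_sl_dcyl hZ 1 H.sθ
    rw [one_smul] at h2
    exact h2.mul (Eqv.refl _)
  have r2 : Eqv Z (F.d η1) (F.pull (sl 1) (a - b) - F.d (c • θ) * F.pull (sl 1) h) := by
    have h1 := r1.sub (Eqv.refl (F.d (c • θ) * F.pull (sl 1) h))
    rw [add_sub_cancel_left] at h1
    exact h1.symm
  have z1 : Hz Z (gen φ) (F.d η1) := Hz.eqv H.Vt r2 (H.hz_ρ.sub (H.dθ.mul H.h1))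
  have i1 : Inv Z φ η1 := inv_of_hz hZ hφ sη1 H.η1 z1
  obtain ⟨ηY, s2, e2⟩ := hq.exists_basic hφ sη1 i1 (eqv_iff.2 fun x hx => by
    rw [H.η1 x hx, Pi.zero_apply, map_zero])
  have sY : Sm Y ηY := fun y _ => s2.contDiffAt
  refine ⟨ηY, sY, hq.eqv_of_pull ?_⟩
  have e3 : Eqv Z (F.pull q (F.d ηY)) (F.d η1) :=
    (d_pull_eqv hq.smap sY).symm.trans (e2.d hZ (sY.pull hq.smap) sη1)
  refine Eqv.trans ?_ e3.symm
  refine Eqv.trans ?_ r2.symm
  rw [pull_sub', pull_sub', pull_smul', pull_mul', pull_sub']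
  refine (ha.symm.sub hb.symm).sub ?_
  have e4 := (dcθ.trans (hθ.smul c)).symm.mul hh.symm
  rwa [smul_mul_assoc] at e4

end rel

section split
variable {EB H F' : Type} [NormedAddCommGroup EB] [NormedSpace ℝ EB] [FiniteDimensional ℝ EB]
  [NormedAddCommGroup H] [InnerProductSpace ℝ H] [FiniteDimensional ℝ H]
  [NormedAddCommGroup F'] [NormedSpace ℝ F'] [FiniteDimensional ℝ F']
  {B : Set EB} {P : EB → H →L[ℝ] H} {W : EB × H → Ext (EB × H)} {S' : Set F'}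
  {f : EB × H → F'} {om : F' → Ext F'} {e : EB → Ext EB} {c : ℝ}

/-- `(x, v) ↦ (x, -v)` -/
def flp (z : EB × H) : EB × H := (z.1, -z.2)

theorem contDiff_flp : ContDiff ℝ ∞ (flp : EB × H → EB × H) := contDiff_fst.prodMk contDiff_snd.neg

theorem smap_flp : SMap (Sph B P) (Sph B P) flp :=
  ⟨fun _ _ => contDiff_flp.contDiffAt, fun z hz => by
    refine ⟨⟨hz.1.1, ?_⟩, ?_⟩
    · change P z.1 (-z.2) = -z.2
      rw [map_neg, hz.1.2]
    · change ‖-z.2‖ = 1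
      rw [norm_neg]; exact hz.2⟩


/-- **the two contractions**: `f^*om ~ y + (c/2) e W`, `(f ∘ flp)^*om ~ y - (c/2) e W`. -/
theorem exists_y (hL : GQ.LH B P 2 W) (hflip : Eqv (Sph B P) (F.pull flp W) (-W))
    (hom : CF2 S' 4 om) (sf : SMap (Sph B P) S' f)
    (hrel : Coh (Sph B P) (F.pull f om - F.pull (f ∘ flp) om) (c • (F.pull Prod.fst e * W))) :
    ∃ y : EB → Ext EB, CF2 B 4 y ∧
      Coh (Sph B P) (F.pull f om) (F.pull Prod.fst y + (c / 2) • (F.pull Prod.fst e * W)) ∧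
      Coh (Sph B P) (F.pull (f ∘ flp) om)
        (F.pull Prod.fst y - (c / 2) • (F.pull Prod.fst e * W)) := by
  obtain ⟨y, v, sy, cy, dy, sv, cv, dv, h1⟩ := hL.split (i := 2) (hom.sm.pull sf)
    (Cl.pull sf hom.sm hom.cl) hom.hom.pull
  have sfl := smap_flp (B := B) (P := P)
  have e1 : Eqv (Sph B P) (F.pull flp (F.pull f om)) (F.pull (f ∘ flp) om) :=
    eqv_pull_pull sfl sf (sf.comp sfl) (fun _ _ => rfl) om
  have e2 : ∀ a : EB → Ext EB, Eqv (Sph B P) (F.pull flp (F.pull Prod.fst a))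
      (F.pull Prod.fst a) := fun a =>
    eqv_pull_pull sfl (smap_fstS (X := B) (P := P)) (smap_fstS (X := B) (P := P))
      (fun _ _ => rfl) a
  have h2 : Coh (Sph B P) (F.pull (f ∘ flp) om) (F.pull Prod.fst y - W * F.pull Prod.fst v) := by
    refine (Coh.of_eqv e1.symm).trans ((h1.pull sfl).trans (Coh.of_eqv ?_))
    rw [pull_add', pull_mul']
    refine ((e2 y).add (hflip.mul (e2 v))).trans ?_
    rw [neg_mul, ← sub_eq_add_neg]
    exact Eqv.refl _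
  have h3 : Coh (Sph B P) (F.pull f om + F.pull (f ∘ flp) om) ((2 : ℝ) • F.pull Prod.fst y) := by
    have := h1.add h2
    rwa [add_add_sub_cancel, ← two_smul ℝ] at this
  refine ⟨y, ⟨sy, cy, dy, by decide⟩, ?_, ?_⟩
  · have h4 := (h3.add hrel).smul (1 / 2)
    have e3 : (1 / 2 : ℝ) • (F.pull f om + F.pull (f ∘ flp) om +
        (F.pull f om - F.pull (f ∘ flp) om)) = F.pull f om := by
      rw [add_add_sub_cancel, ← two_smul ℝ, smul_smul]; norm_num
    have e4 : (1 / 2 : ℝ) • ((2 : ℝ) • F.pull (Prod.fst : EB × H → EB) y +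
        c • (F.pull Prod.fst e * W)) = F.pull Prod.fst y + (c / 2) • (F.pull Prod.fst e * W) := by
      rw [smul_add, smul_smul, smul_smul]; norm_num
      rw [show (1 / 2 : ℝ) * c = c / 2 by ring]
    rwa [e3, e4] at h4
  · have h4 := (h3.sub hrel).smul (1 / 2)
    have e3 : (1 / 2 : ℝ) • (F.pull f om + F.pull (f ∘ flp) om -
        (F.pull f om - F.pull (f ∘ flp) om)) = F.pull (f ∘ flp) om := by
      rw [add_sub_sub_cancel, ← two_smul ℝ, smul_smul]; norm_num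
    have e4 : (1 / 2 : ℝ) • ((2 : ℝ) • F.pull (Prod.fst : EB × H → EB) y -
        c • (F.pull Prod.fst e * W)) = F.pull Prod.fst y - (c / 2) • (F.pull Prod.fst e * W) := by
      rw [smul_sub, smul_smul, smul_smul]; norm_num
      rw [show (1 / 2 : ℝ) * c = c / 2 by ring]
    rwa [e3, e4] at h4

end split

end Crest.Agent.R208.ZG
end
end

-- ▼ part R208/ZG7
section

/-!
R208, ZG7 (helper385): `In4` from the two contractions on `Z → Y → B`: all numbers.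
-/

set_option autoImplicit false
set_option linter.unusedSectionVars false
set_option linter.unusedVariables false

open MeasureTheory Set Filter Topology Module
open scoped ContDiff RealInnerProductSpace
open Crest.Agent.R208.F Crest.Agent.R208.FI Crest.Agent.R208.CW Crest.Agent.R208.T
open Crest.Agent.R208.RR Crest.Agent.R208.CM Crest.Agent.R208.SO

noncomputable section

namespace Crest.Agent.R208.ZG

section orb
variable {E E' : Type} [NormedAddCommGroup E] [NormedSpace ℝ E] [FiniteDimensional ℝ E]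
  [NormedAddCommGroup E'] [NormedSpace ℝ E'] [FiniteDimensional ℝ E']
  {d m : ℕ} {Z : Set E} {Y : Set E'} {φ : ℝ → E → E} {q : E → E'} {oY : E' → Ext E'}
  {θ h1 : E → Ext E} {c : ℝ} {W e : E' → Ext E'}

/-- **integration over the orbits**: `J_Z (cθ (d cθ)^(i) h^(j)) = c^(i+1) 2π J_Y (e^i W^j)`. -/
theorem J_orb (hZ : Clo (d + 1) Z) (hφ : Cir Z φ) (hq : TP.QM Z φ Y q) (hs : Subm 1 d Z Y q)
    (sθ : Sm Z θ) (dθ1 : Hom 1 θ) (θ1 : ∀ x ∈ Z, evA E 1 (θ x) (fun _ => gen φ x) = 1)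
    (hoY : Ori d Y oY) (se : Sm Y e) (sW : Sm Y W) (hθ : Eqv Z (F.d θ) (F.pull q e))
    (hh : Eqv Z h1 (F.pull q W)) (i j : ℕ) (hcm : e ^ i * W ^ j = W ^ j * e ^ i) :
    Ori (d + 1) Z (fun x => θ x * F.pull q oY x) ∧
    J (d + 1) Z (fun x => θ x * F.pull q oY x) ((c • θ) * (F.d (c • θ) ^ i * h1 ^ j)) =
      c ^ (i + 1) * (2 * Real.pi * J d Y oY (W ^ j * e ^ i)) := by
  have hcont : ContinuousOn θ Z := fun x hx => (sθ x hx).continuousAt.continuousWithinAt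
  have sη : Sm Y (W ^ j * e ^ i) := (T.Sm.pow sW j).mul (T.Sm.pow se i)
  have hη : ContinuousOn (W ^ j * e ^ i) Y := fun x hx =>
    (sη x hx).continuousAt.continuousWithinAt
  obtain ⟨k1, k2⟩ := J_fib hφ hs hq.act (fun x hx y hy hxy => hq.sep x hx y hy hxy.symm) hq.surj
    hcont (fun x _ => dθ1 x) θ1 hoY hη
  refine ⟨k1, ?_⟩
  have k3 : Eqv Z ((c • θ) * (F.d (c • θ) ^ i * h1 ^ j))
      (c ^ (i + 1) • (θ * F.pull q (W ^ j * e ^ i))) := by
    rw [← hcm]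
    refine eqv_iff.2 fun x hx => ?_
    have e1 := eqv_iff.1 (d_smul_eqv c sθ) x hx
    have e2 := eqv_iff.1 hθ x hx
    have e3 := eqv_iff.1 hh x hx
    rw [pull_mul', RR.pull_pow', RR.pull_pow']
    simp only [rs_mul, rs_smul, rs_pow] at *
    rw [e1, e2, e3]
    generalize Rs Z x (θ x) = A
    generalize Rs Z x (F.pull q e x) = Q
    generalize Rs Z x (F.pull q W x) = V
    rw [smul_pow, smul_mul_assoc, smul_mul_assoc, mul_smul_comm, smul_smul, pow_succ']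
  rw [RR.J_eqv hZ k3]
  have k4 : J (d + 1) Z (fun x => θ x * F.pull q oY x)
      (c ^ (i + 1) • (θ * F.pull q (W ^ j * e ^ i))) = c ^ (i + 1) *
      J (d + 1) Z (fun x => θ x * F.pull q oY x) (θ * F.pull q (W ^ j * e ^ i)) :=
    FI.J_smul (c ^ (i + 1))
  rw [k4]
  congr 1

end orb

section final

open Crest.GeometryTopology.Submanifold
open Crest.Agent.R241.DDefs
open Crest.Agent.R241.D2
open Crest.Agent.R208.L (US)
open Crest.Agent.R208.LB (oUS)

variable {n N : ℕ} {κ : ℝ} {S : Set (Euc N)} {G : Geo n N κ S} {m : ℕ}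
  {EZ EB H F' : Type} [NormedAddCommGroup EZ] [NormedSpace ℝ EZ] [FiniteDimensional ℝ EZ]
  [NormedAddCommGroup EB] [NormedSpace ℝ EB] [FiniteDimensional ℝ EB]
  [NormedAddCommGroup H] [InnerProductSpace ℝ H] [FiniteDimensional ℝ H]
  [NormedAddCommGroup F'] [NormedSpace ℝ F'] [FiniteDimensional ℝ F']
  {Z : Set EZ} {B : Set EB} {P : EB → H →L[ℝ] H} {S' : Set F'}
  {oY : EB × H → Ext (EB × H)} {oB : EB → Ext EB} {φ : ℝ → EZ → EZ} {q : EZ → EB × H}
  {e p : EB → Ext EB} {W : EB × H → Ext (EB × H)} {om : F' → Ext F'} {f : EB × H → F'}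
  {a b h η : EZ × ℝ → Ext (EZ × ℝ)} {θ : EZ → Ext EZ} {c : ℝ}

/-- **`In4` from the geometry** -/
theorem in4_final (hn : n = 4 * m) (hm : 1 ≤ m) (hY : Clo (8 * m) (Sph B P))
    (hoY : Ori (8 * m) (Sph B P) oY) (hB : Sub (8 * m - 2) B) (hS : Sub (4 * m) S')
    (he : CF2 B 2 e) (hp : CF2 B 4 p) (hW : CF2 (Sph B P) 2 W) (hL : GQ.LH B P 2 W)
    (hflip : Eqv (Sph B P) (F.pull flp W) (-W)) (h2 : Coh (Sph B P) (W * W) (F.pull Prod.fst p))
    (hom : CF2 S' 4 om) (sf : SMap (Sph B P) S' f)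
    -- the circle bundle
    (hZ : Clo (8 * m + 1) Z) (hφ : Cir Z φ) (hq : TP.QM Z φ (Sph B P) q)
    (hs : Subm 1 (8 * m) Z (Sph B P) q) (sθ : Sm Z θ) (dθ1 : Hom 1 θ)
    (θ1 : ∀ x ∈ Z, evA EZ 1 (θ x) (fun _ => gen φ x) = 1)
    (hθ : Eqv Z (F.d θ) (F.pull q (F.pull Prod.fst e)))
    -- the family
    (hF : Fam Z (gen φ) m a b h η (c • θ) c) (ha : Eqv Z (F.pull (sl 1) a) (F.pull q (F.pull f om)))
    (hb : Eqv Z (F.pull (sl 1) b) (F.pull q (F.pull (f ∘ flp) om)))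
    (hh : Eqv Z (F.pull (sl 1) h) (F.pull q W))
    -- numbers
    {ω₀ β T : ℝ} (hω : ω₀ ≠ 0) (hc : c ≠ 0) (hT : T ≠ 0)
    (hD : ∀ o, Ori (8 * m + 1) Z o → |J (8 * m + 1) Z o ((c • θ) * (F.d (c • θ) ^ (2 * m - 1) *
      F.pull (sl 1) h ^ (2 * m + 1)))| = ((2 * m).choose m : ℝ) * (|ω₀| * T ^ 2))
    (hper : T ^ 2 ≤ (Real.pi * c * ω₀) ^ (2 * m))
    (hfib : |J (8 * m) (Sph B P) oY (W * F.pull Prod.fst e ^ (4 * m - 1))| =
      |ω₀| * |J (8 * m - 2) B oB (e ^ (4 * m - 1))|)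
    (hvol : J (2 * n - 1) (US G) (oUS n N) (oUS n N) ≤
      2 * Real.pi * |J (8 * m - 2) B oB (e ^ (4 * m - 1))|)
    -- classes
    (hlow : ∀ y : EB → Ext EB, CF2 B 4 y →
      Coh Z (F.pull q (F.pull Prod.fst y)) (F.pull (sl 1) a) →
      ∃ α : ℝ, Coh B p (α • (e * e) + β • y))
    (hint : ∀ (y : EB → Ext EB) (α : ℝ), CF2 B 4 y →
      Coh (Sph B P) (F.pull f om) (F.pull Prod.fst y + (c / 2) • (F.pull Prod.fst e * W)) →
      Coh B p (α • (e * e) + β • y) → α ≠ 0 → 1 ≤ |(2 / ω₀) ^ 2 * α * (2 * Real.pi) ^ 2|)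
    (hlam : |2 * Real.pi * β * c / ω₀| ≤ 2) : Nonempty (In4 G m) := by
  have hπ := Real.pi_pos
  have se' : Sm (Sph B P) (F.pull Prod.fst e) := he.sm.pull smap_fstS
  have hrel := rel_quo hZ.sub hφ hq sθ hF ha hb hh hθ
  obtain ⟨y, hy, h3, h3'⟩ := exists_y hL hflip hom sf hrel
  -- the pull-back of `y`
  have h4 : Coh Z (F.pull q (F.pull Prod.fst y)) (F.pull (sl 1) a) := by
    have k1 := h3.pull hq.smap
    rw [pull_add', pull_smul', pull_mul'] at k1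
    have sW' : Sm Z (F.pull q W) := hW.sm.pull hq.smap
    have cW' : Cl Z (F.pull q W) := Cl.pull hq.smap hW.sm hW.cl
    have k2 : Coh Z (F.pull q (F.pull Prod.fst e) * F.pull q W) 0 := by
      have k3 : Eqv Z (F.pull q (F.pull Prod.fst e) * F.pull q W) (F.d (θ * F.pull q W)) :=
        (hθ.symm.mul (Eqv.refl _)).trans (d_mul_cl sθ sW' cW').symm
      refine ⟨θ * F.pull q W, sθ.mul sW', ?_⟩
      rw [sub_zero]
      exact k3
    have k4 := (Coh.refl (X := Z) (F.pull q (F.pull Prod.fst y))).add (k2.smul (c / 2))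
    rw [smul_zero, add_zero] at k4
    exact (k4.symm.trans k1.symm).trans (Coh.of_eqv ha.symm)
  obtain ⟨α, hα⟩ := hlow y hy h4
  -- the number
  have hcm : F.pull Prod.fst e ^ (2 * m - 1) * W ^ (2 * m + 1) =
      W ^ (2 * m + 1) * F.pull Prod.fst e ^ (2 * m - 1) := by
    have : Commute W (F.pull Prod.fst e ^ (2 * m - 1)) := hW.comm _
    exact (this.pow_left (2 * m + 1)).eq.symm
  obtain ⟨ho, hJ⟩ := J_orb (c := c) hZ hφ hq hs sθ dθ1 θ1 hoY se' hW.sm hθ hh (2 * m - 1)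
    (2 * m + 1) hcm
  have hD' := hD _ ho
  rw [hJ] at hD'
  set X := J (8 * m) (Sph B P) oY (W ^ (2 * m + 1) * F.pull Prod.fst e ^ (2 * m - 1)) with hX
  have hC : (0 : ℝ) < ((2 * m).choose m : ℝ) := by
    exact_mod_cast Nat.choose_pos (by omega)
  have hw : 0 < |ω₀| := abs_pos.2 hω
  have hT2 : 0 < T ^ 2 := by positivity
  have hX0 : X ≠ 0 := by
    intro h0
    rw [h0, mul_zero, mul_zero, abs_zero] at hD'
    have : 0 < ((2 * m).choose m : ℝ) * (|ω₀| * T ^ 2) := by positivity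
    exact this.ne hD'
  have hα0 : α ≠ 0 := alpha_ne hm hY hoY hS (smap_fstS (X := B) (P := P)) he hy hp hW
    (l := c / 2) (div_ne_zero hc two_ne_zero) hα h2 hom sf (sf.comp smap_flp) h3 h3' hX0
  have ha1 := hint y α hy h3 hα hα0
  have hs1 : (1 / (2 * Real.pi)) ≠ 0 := by positivity
  have hs2 : (2 / ω₀) ≠ 0 := div_ne_zero two_ne_zero hω
  have hs3 : (1 / (2 * Real.pi)) * (2 / ω₀) / c ≠ 0 := div_ne_zero (mul_ne_zero hs1 hs2) hc
  have ea : (2 / ω₀) ^ 2 * α / (1 / (2 * Real.pi)) ^ 2 = (2 / ω₀) ^ 2 * α * (2 * Real.pi) ^ 2 := by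
    field_simp
  refine exists_in4 hm hY hoY hB hS (smap_fstS (X := B) (P := P)) he hy hp hW
    (l := c / 2) hα h2 hom sf (sf.comp smap_flp) h3 h3' (1 / (2 * Real.pi)) (2 / ω₀)
    ((1 / (2 * Real.pi)) * (2 / ω₀) / c) 1 hs1 hs3 (by field_simp) ?_ ?_ ?_ ?_
  · -- hN
    rw [← hX, one_mul, abs_mul]
    obtain ⟨i, rfl⟩ : ∃ i, m = i + 1 := ⟨m - 1, by omega⟩
    rw [show 2 * (i + 1) - 1 = 2 * i + 1 by omega] at *
    rw [show 2 * (i + 1) = 2 * i + 2 by ring] at *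
    have hc' : 0 < |c| := abs_pos.2 hc
    have k1 : |c| ^ (2 * i + 2) * (2 * Real.pi * |X|) ≤
        ((2 * i + 2).choose (i + 1) : ℝ) * (|ω₀| * (Real.pi * |c| * |ω₀|) ^ (2 * i + 2)) := by
      have k2 : |c ^ (2 * i + 1 + 1) * (2 * Real.pi * X)| =
          |c| ^ (2 * i + 2) * (2 * Real.pi * |X|) := by
        rw [abs_mul, abs_pow, abs_mul, abs_of_pos (by positivity : (0 : ℝ) < 2 * Real.pi)]
      rw [← k2, hD']
      have k3 : (Real.pi * c * ω₀) ^ (2 * i + 2) = (Real.pi * |c| * |ω₀|) ^ (2 * i + 2) := by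
        have k4 : |Real.pi * c * ω₀| = Real.pi * |c| * |ω₀| := by
          rw [abs_mul, abs_mul, abs_of_pos hπ]
        rw [← k4, ← abs_pow, abs_of_nonneg]
        exact Even.pow_nonneg ⟨i + 1, by ring⟩ _
      rw [k3] at hper
      exact mul_le_mul_of_nonneg_left (mul_le_mul_of_nonneg_left hper hw.le) hC.le
    have k5 : 2 * Real.pi * |X| ≤
        ((2 * i + 2).choose (i + 1) : ℝ) * (|ω₀| * (Real.pi * |ω₀|) ^ (2 * i + 2)) := by
      have k6 : (0 : ℝ) < |c| ^ (2 * i + 2) := by positivity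
      refine le_of_mul_le_mul_left (k1.trans (le_of_eq ?_)) k6
      rw [mul_pow, mul_pow, mul_pow]
      ring
    have k7 : |(2 / ω₀) ^ (2 * i + 2 + 1) * (1 / (2 * Real.pi)) ^ (2 * i + 1)| * |X| =
        (2 / |ω₀|) ^ (2 * i + 2 + 1) * (1 / (2 * Real.pi)) ^ (2 * i + 2) * (2 * Real.pi * |X|) := by
      rw [abs_mul, abs_pow, abs_pow, abs_div, abs_two,
        abs_of_pos (by positivity : (0 : ℝ) < 1 / (2 * Real.pi)), pow_succ _ (2 * i + 1)]
      field_simp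
    rw [k7]
    have k8 : (0 : ℝ) < (2 / |ω₀|) ^ (2 * i + 2 + 1) * (1 / (2 * Real.pi)) ^ (2 * i + 2) := by
      positivity
    refine (mul_le_mul_of_nonneg_left k5 k8.le).trans (le_of_eq ?_)
    have k9 : (2 / |ω₀|) ^ (2 * i + 2) * (1 / (2 * Real.pi)) ^ (2 * i + 2) *
        (Real.pi * |ω₀|) ^ (2 * i + 2) = 1 := by
      rw [← mul_pow, ← mul_pow]
      have : 2 / |ω₀| * (1 / (2 * Real.pi)) * (Real.pi * |ω₀|) = 1 := by
        field_simp
      rw [this, one_pow]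
    have k10 : 2 / |ω₀| * |ω₀| = 2 := by field_simp
    calc (2 / |ω₀|) ^ (2 * i + 2 + 1) * (1 / (2 * Real.pi)) ^ (2 * i + 2) *
          (((2 * i + 2).choose (i + 1) : ℝ) * (|ω₀| * (Real.pi * |ω₀|) ^ (2 * i + 2)))
        = ((2 / |ω₀|) ^ (2 * i + 2) * (1 / (2 * Real.pi)) ^ (2 * i + 2) *
          (Real.pi * |ω₀|) ^ (2 * i + 2)) * (2 / |ω₀| * |ω₀|) *
          ((2 * i + 2).choose (i + 1) : ℝ) := by rw [pow_succ]; ring
      _ = _ := by rw [k9, k10, one_mul]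
  · rw [ea]; exact ha1
  · have e1 : (2 / ω₀) ^ 2 * β / (2 * (1 / (2 * Real.pi) * (2 / ω₀) / c)) =
        2 * Real.pi * β * c / ω₀ := by
      field_simp
    rw [e1, ea]
    linarith
  · rw [one_mul, abs_mul, hfib]
    refine hvol.trans (le_of_eq ?_)
    subst hn
    obtain ⟨i, rfl⟩ : ∃ i, m = i + 1 := ⟨m - 1, by omega⟩
    rw [show 4 * (i + 1) - 1 = 4 * i + 3 by omega]
    rw [abs_mul, abs_pow, abs_div, abs_two,
      abs_of_pos (by positivity : (0 : ℝ) < 1 / (2 * Real.pi))]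
    have k1 : (2 * Real.pi) ^ (4 * (i + 1)) * (1 / (2 * Real.pi)) ^ (4 * i + 3) = 2 * Real.pi := by
      rw [show 4 * (i + 1) = 4 * i + 3 + 1 by ring, pow_succ, mul_right_comm, ← mul_pow]
      have : 2 * Real.pi * (1 / (2 * Real.pi)) = 1 := by field_simp
      rw [this, one_pow, one_mul]
    generalize |J (8 * (i + 1) - 2) B oB (e ^ (4 * i + 3))| = V at *
    have k2 : 2 / |ω₀| * |ω₀| = 2 := by field_simp
    calc 2 * Real.pi * V = ((2 * Real.pi) ^ (4 * (i + 1)) * (1 / (2 * Real.pi)) ^ (4 * i + 3)) *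
          (2 / |ω₀| * |ω₀|) * V / 2 := by rw [k1, k2]; ring
      _ = _ := by ring

end final

end Crest.Agent.R208.ZG
end
end

-- ▼ part R208/ZG8
section

/-!
R208, ZG8 (helper385): descent of the contraction to `Y`; the class of `y` on the unit tangent bundle.
-/

set_option autoImplicit false
set_option linter.unusedSectionVars false
set_option linter.unusedVariables false

open MeasureTheory Set Filter Topology Module
open scoped ContDiff RealInnerProductSpace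
open Crest.Agent.R208.F Crest.Agent.R208.FI Crest.Agent.R208.CW Crest.Agent.R208.T
open Crest.Agent.R208.RR Crest.Agent.R208.CM Crest.Agent.R208.SO

noncomputable section

namespace Crest.Agent.R208.ZG

section desc
variable {E E' F' : Type} [NormedAddCommGroup E] [NormedSpace ℝ E] [FiniteDimensional ℝ E]
  [NormedAddCommGroup E'] [NormedSpace ℝ E'] [FiniteDimensional ℝ E']
  [NormedAddCommGroup F'] [NormedSpace ℝ F'] [FiniteDimensional ℝ F']
  {Z : Set E} {Y : Set E'} {S' : Set F'} {φ : ℝ → E → E} {q : E → E'}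

/-- **descent of invariant functions** -/
theorem exists_fun (hq : TP.QM Z φ Y q) {f : E → F'} (hf : ∀ x ∈ Z, ContDiffAt ℝ ∞ f x)
    (hinv : ∀ x ∈ Z, ∀ t, f (φ t x) = f x) :
    ∃ f' : E' → F', ContDiff ℝ ∞ f' ∧ ∀ x ∈ Z, f' (q x) = f x := by
  suffices hk : ∃ s : E' → F', ContDiff ℝ ∞ s ∧
      ∀ y ∈ Y, s y ∈ {w : F' | ∀ x ∈ Z, q x = y → w = f x} by
    obtain ⟨s, hs, hsA⟩ := hk
    exact ⟨s, hs, fun x hx => hsA _ (hq.smap.maps hx) x hx rfl⟩
  refine exists_glueC (X := Y) hq.clos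
    (fun y => {w : F' | ∀ x ∈ Z, q x = y → w = f x}) (fun y hy => ?_) (fun y hy => ?_)
  · have : {w : F' | ∀ x ∈ Z, q x = y → w = f x} = ⋂ x ∈ {x ∈ Z | q x = y}, {f x} := by
      ext w
      simp only [mem_setOf_eq, mem_iInter, mem_singleton_iff]
      exact ⟨fun h x hx => h x hx.1 hx.2, fun h x hx hxy => h x ⟨hx, hxy⟩⟩
    rw [this]
    exact convex_iInter₂ fun x hx => convex_singleton _
  · obtain ⟨x, hx, rfl⟩ := hq.surj y hy
    obtain ⟨σ, O', a1, a2, a3, a5, a6, a4⟩ := hq.sec x hx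
    refine ⟨O', fun y => f (σ y), a1, a2, fun y hy => ContDiffAt.contDiffWithinAt ?_, ?_⟩
    · exact (hf _ (a5 y hy)).comp y (a3.contDiffAt (a1.mem_nhds hy))
    · rintro y ⟨hyQ, hyO⟩ x' hx' hxy
      obtain ⟨t, ht⟩ := hq.sep x' hx' _ (a5 y hyO) (by rw [hxy, a6 y ⟨hyQ, hyO⟩])
      change f (σ y) = f x'
      rw [ht, hinv x' hx']

variable {A : E × ℝ → F'} {om : F' → Ext F'}

theorem smap_end (sA : SMap (Cyl Z) S' A) (s : ℝ) : SMap Z S' (fun z => A (z, s)) :=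
  sA.comp (smap_sl s)

/-- the end map of a contraction descends -/
theorem exists_end (hq : TP.QM Z φ Y q) (sA : SMap (Cyl Z) S' A)
    (hA : ∀ z ∈ Z, ∀ t, A (φ t z, 1) = A (z, 1)) :
    ∃ f : E' → F', SMap Y S' f ∧ ∀ z ∈ Z, f (q z) = A (z, 1) := by
  obtain ⟨f, h1, h2⟩ := exists_fun hq (f := fun z => A (z, 1)) (smap_end sA 1).smooth hA
  refine ⟨f, ⟨fun y _ => h1.contDiffAt, fun y hy => ?_⟩, h2⟩
  obtain ⟨x, hx, rfl⟩ := hq.surj y hy
  change f (q x) ∈ S'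
  rw [h2 x hx]
  exact (smap_end sA 1).maps hx

theorem pull_sl_pull (sA : SMap (Cyl Z) S' A) (s : ℝ) (om : F' → Ext F') :
    Eqv Z (F.pull (sl s) (F.pull A om)) (F.pull (fun z => A (z, s)) om) :=
  eqv_pull_pull (smap_sl s) sA (smap_end sA s) (fun _ _ => rfl) om

/-- `sl 1` of the pulled back form -/
theorem pull_end (hq : TP.QM Z φ Y q) (sA : SMap (Cyl Z) S' A) {f : E' → F'} (sf : SMap Y S' f)
    (hf : ∀ z ∈ Z, f (q z) = A (z, 1)) (om : F' → Ext F') :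
    Eqv Z (F.pull (sl 1) (F.pull A om)) (F.pull q (F.pull f om)) :=
  (pull_sl_pull sA 1 om).trans
    (eqv_pull_pull hq.smap sf (smap_end sA 1) (fun z hz => hf z hz) om).symm

/-- the two ends of a closed form on the cylinder are cohomologous -/
theorem coh_sl {w : E × ℝ → Ext (E × ℝ)} (sw : Sm (Cyl Z) w) (cw : Cl (Cyl Z) w) :
    Coh Z (F.pull (sl 1) w) (F.pull (sl 0) w) := by
  refine ⟨K w, Sm.K sw, ?_⟩
  have h1 := K_d_eqv sw
  have h2 : Eqv Z (K (F.d w)) 0 := by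
    have h3 := K_eqv sw.d Sm.zero (resZero_iff.1 cw)
    rwa [K_zero'] at h3
  have h6 := h1.sub (Eqv.refl (K (F.d w)))
  rw [add_sub_cancel_right] at h6
  have h7 := (Eqv.refl (X := Z) (F.pull (sl 1) w - F.pull (sl 0) w)).sub h2
  rw [sub_zero] at h7
  exact (h6.trans h7).symm

end desc

section low
variable {EX HX EB H F' : Type} [NormedAddCommGroup EX] [NormedSpace ℝ EX]
  [FiniteDimensional ℝ EX] [NormedAddCommGroup HX] [InnerProductSpace ℝ HX]
  [FiniteDimensional ℝ HX] [NormedAddCommGroup EB] [NormedSpace ℝ EB] [FiniteDimensional ℝ EB]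
  [NormedAddCommGroup H] [InnerProductSpace ℝ H] [FiniteDimensional ℝ H]
  [NormedAddCommGroup F'] [NormedSpace ℝ F'] [FiniteDimensional ℝ F']
  {X : Set EX} {P : EX → HX →L[ℝ] HX} {B : Set EB} {P' : EB → H →L[ℝ] H} {S' : Set F'}
  {WX : EX × HX → Ext (EX × HX)} {q : EX × HX → EB × H} {j : EX → EB} {ft : EX → F'}
  {A : (EX × HX) × ℝ → F'} {om : F' → Ext F'} {y : EB → Ext EB}

/-- the class `y` restricts to the class of the foot point. -/
theorem coh_base (hL : GQ.LH X P 2 WX) (sq : SMap (Sph X P) (Sph B P') q)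
    (hqj : ∀ z ∈ Sph X P, (q z).1 = j z.1) (sj : SMap X B j)
    (sA : SMap (Cyl (Sph X P)) S' A) (sft : SMap X S' ft)
    (A0 : ∀ z ∈ Sph X P, A (z, 0) = ft z.1) (hy : CF2 B 4 y) (hom : CF2 S' 4 om)
    (h : Coh (Sph X P) (F.pull q (F.pull Prod.fst y)) (F.pull (sl 1) (F.pull A om))) :
    Coh X (F.pull j y) (F.pull ft om) := by
  have e1 : Eqv (Sph X P) (F.pull q (F.pull Prod.fst y)) (F.pull Prod.fst (F.pull j y)) :=
    eqv_pull_pull' sq (smap_fstS (X := B) (P := P')) (smap_fstS (X := X) (P := P)) sj hqj y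
  have e2 : Eqv (Sph X P) (F.pull (sl 0) (F.pull A om)) (F.pull Prod.fst (F.pull ft om)) :=
    (pull_sl_pull sA 0 om).trans
      (eqv_pull_pull (smap_fstS (X := X) (P := P)) sft (smap_end sA 0)
        (fun z hz => (A0 z hz).symm) om).symm
  have s1 : Sm (Cyl (Sph X P)) (F.pull A om) := hom.sm.pull sA
  have c1 : Cl (Cyl (Sph X P)) (F.pull A om) := Cl.pull sA hom.sm hom.cl
  have h1 : Coh (Sph X P) (F.pull Prod.fst (F.pull j y)) (F.pull Prod.fst (F.pull ft om)) :=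
    (Coh.of_eqv e1.symm).trans (h.trans ((coh_sl s1 c1).trans (Coh.of_eqv e2)))
  have h2 : Coh (Sph X P) (F.pull Prod.fst (F.pull j y - F.pull ft om)) 0 := by
    have := h1.sub (Coh.refl (F.pull (Prod.fst : EX × HX → EX) (F.pull ft om)))
    rwa [sub_self, ← pull_sub'] at this
  have sy : Sm X (F.pull j y) := hy.sm.pull sj
  have cy : Cl X (F.pull j y) := Cl.pull sj hy.sm hy.cl
  have so : Sm X (F.pull ft om) := hom.sm.pull sft
  have co : Cl X (F.pull ft om) := Cl.pull sft hom.sm hom.cl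
  have h3 := hL.inj' (sy.sub so) (Cl.sub sy so cy co) (Hom.sub hy.hom.pull hom.hom.pull) h2
  have := h3.add (Coh.refl (F.pull ft om))
  rwa [sub_add_cancel, zero_add] at this

end low

end Crest.Agent.R208.ZG
end
end

-- ▼ part R208/KP4

/-! Row 208, block RR (helper545), part KP4: **the CM half of `k = 4`**: the family, its constant
and the number, in the form of 385's `ZG.in4_final`. -/

set_option autoImplicit false
set_option linter.unusedSectionVars false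
set_option linter.unusedVariables false

open MeasureTheory MeasureTheory.Measure Set Filter Topology Module Metric
open scoped ContDiff RealInnerProductSpace
open Crest.GeometryTopology.Submanifold
open Crest.Agent.R241.DDefs
open Crest.Agent.R241.D Crest.Agent.R241.D2
open Crest.Agent.R208.F Crest.Agent.R208.FI Crest.Agent.R208.CW Crest.Agent.R208.T

noncomputable section

namespace Crest.Agent.R208.KP

open Crest.Agent.R208.RR (Cyl mem_Cyl smap_fst sl smap_sl Wp Fl Pre Fam Hz Inv Ev J_eqv J_smul'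
  K_eqv K_smul Wp_eqv Wp_smul J_sub' J_add' hom_K hom_Wp)
open Crest.Agent.R208.NN (Wt nuP)
open Crest.Agent.R208.FL (Af D1)
open Crest.Agent.R208.KC (flp)

/-- the number of the family -/
theorem J_Fam {n N k : ℕ} {κ : ℝ} {S : Set (Euc N)} {G : Geo n N κ S}
    {oS ξ : Euc N → Ext (Euc N)} {m d r : ℕ}
    {H : Type} [NormedAddCommGroup H] [NormedSpace ℝ H] [FiniteDimensional ℝ H]
    {Z : Set H} {τ : H → Euc N × Euc N} {oV : H → Ext H}
    {oU : Euc N × Euc N → Ext (Euc N × Euc N)} {φ : ℝ → H → H}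
    {a b hh η : H × ℝ → Ext (H × ℝ)} {θ : H → Ext H} {c : ℝ}
    (h : GT.Bla G k) (hk : 2 ≤ k) (hm : 1 ≤ m) (hn : n = k * m)
    (hd : d + 1 = 2 * n) (hoS : Ori n S oS) (sξ : Sm S ξ) (cξ : Cl S ξ) (dξ : Hom k ξ)
    (hX : Coh (GT.FF S) (KD.hF ξ m) 0) (A : Fam Z (CM.gen φ) m a b hh η θ c)
    (hφ : CM.Cir Z φ) (hc : c ≠ 0)
    (ia : Inv Z φ (F.pull (sl 1) a)) (ib : Inv Z φ (F.pull (sl 1) b))
    (ih : Inv Z φ (F.pull (sl 1) hh)) (h00 : Eqv Z (F.pull (sl 0) a) (F.pull (sl 0) b))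
    (hτ : FG.OSubm r d Z (L.US G) τ oV oU)
    (ha0 : Eqv Z (F.pull (sl 0) a) (F.pull τ (F.pull Prod.fst ξ)))
    {o : H → Ext H} (ho : Ori (r + d) Z o) (hZc : IsPreconnected Z)
    {u : Euc N × Euc N} (hu : u ∈ L.US G) :
    |J (r + d) Z o (θ * (F.d θ ^ (2 * m - 1) * F.pull (sl 1) hh ^ (2 * m + 1)))| =
      ((2 * m).choose m : ℝ) *
        (|J r (Z ∩ τ ⁻¹' {u}) oV (F.pull (sl 0) hh)| * (J n S oS (ξ ^ m)) ^ 2) := by
  rw [A.rr1 hτ.subm.cloZ ho hm, abs_mul, abs_mul, abs_pow, abs_neg, abs_one, one_pow, one_mul,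
    Nat.abs_cast, KD.D_value' h hk hm hn hd hoS sξ cξ dξ hX A hφ hc ia ib ih h00 hτ ha0 ho hZc hu]

section inst
variable {n N K m : ℕ} {κ : ℝ} {S : Set (Euc N)} {G : Geo n N κ S}
  {lg : Euc N → Euc N → Euc N} {ρ : Euc N → Euc N} {r C r' Kr B w δ : ℝ}
  {PN : Euc N × Euc N → Wt N K →L[ℝ] Wt N K} {ε E₀ η₀ : ℝ} {J₀ : ℕ}
  {ξ oS : Euc N → Ext (Euc N)} {W θ : (Euc N × Euc N) × Wt N K → Ext ((Euc N × Euc N) × Wt N K)}
  {oV : (Euc N × Euc N) × Wt N K → Ext ((Euc N × Euc N) × Wt N K)}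
  {oU : Euc N × Euc N → Ext (Euc N × Euc N)} {z : Euc N × Euc N} {τ₀ : ℝ}

set_option maxHeartbeats 1000000 in
/-- **the CM half of `k = 4`** -/
theorem four (h : D1 G 4 K lg ρ r C r' Kr B w δ PN ε J₀ E₀ η₀) (hm : 2 ≤ m) (hn : n = 4 * m)
    (hoS : Ori n S oS) (sξ : Sm S ξ) (cξ : Cl S ξ) (dξ : Hom 4 ξ)
    (hX : Coh (GT.FF S) (KD.hF ξ m) 0)
    (hW : Bas (T.Sph (L.US G) PN) (FL.Ph G K) W) (dW : Hom 2 W)
    (hWf : Eqv (T.Sph (L.US G) PN) (F.pull flp W) (-W))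
    (hθ : Thd (T.Sph (L.US G) PN) (FL.Ph G K) θ)
    (hH : ∀ β : (Euc N × Euc N) × Wt N K → Ext ((Euc N × Euc N) × Wt N K),
      Sm (T.Sph (L.US G) PN) β → Cl (T.Sph (L.US G) PN) β → Hom 2 β →
        ∃ c : ℝ, Coh (T.Sph (L.US G) PN) β (c • W))
    (hτ : FG.OSubm 2 (2 * n - 1) (T.Sph (L.US G) PN) (L.US G) Prod.fst oV oU)
    (hz : z ∈ L.US G) (h0 : 0 < τ₀)
    (hC : |J 2 (T.Sph (L.US G) PN ∩ Prod.fst ⁻¹' {z}) oV
      (Wp (FM.phiF h.bla PN) (F.pull Prod.fst (RR.K (E := Euc N × Euc N)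
        (F.pull (RRC.EE G) ξ))))| = 2 * τ₀)
    (hT : |J n S oS (ξ ^ m)| ≤ τ₀ ^ m) :
    ∃ (c : ℝ) (η : ((Euc N × Euc N) × Wt N K) × ℝ → Ext (((Euc N × Euc N) × Wt N K) × ℝ)),
      c ≠ 0 ∧
      Fam (T.Sph (L.US G) PN) (CM.gen (FL.Ph G K)) m (F.pull (Af G lg ρ w J₀ ε) ξ)
        (F.pull (fun y => Af G lg ρ w J₀ ε (ff flp y)) ξ) (F.pull Prod.fst W) η (c • θ) c ∧
      |Real.pi * c * J 2 (T.Sph (L.US G) PN ∩ Prod.fst ⁻¹' {z}) oV W| = τ₀ ∧
      (∀ o, Ori (8 * m + 1) (T.Sph (L.US G) PN) o →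
        |J (8 * m + 1) (T.Sph (L.US G) PN) o ((c • θ) * (F.d (c • θ) ^ (2 * m - 1) *
          F.pull (sl 1) (F.pull Prod.fst W) ^ (2 * m + 1)))| = ((2 * m).choose m : ℝ) *
          (|J 2 (T.Sph (L.US G) PN ∩ Prod.fst ⁻¹' {z}) oV W| * (J n S oS (ξ ^ m)) ^ 2)) ∧
      (J n S oS (ξ ^ m)) ^ 2 ≤
        (Real.pi * c * J 2 (T.Sph (L.US G) PN ∩ Prod.fst ⁻¹' {z}) oV W) ^ (2 * m) := by
  set Z := T.Sph (L.US G) PN with hZd
  set ω₀ := J 2 (Z ∩ Prod.fst ⁻¹' {z}) oV W with hω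
  have hkn : 4 < n := by omega
  have hφ := cir_Z h
  have hA := ctr_Z h
  have hf := flp_Z h
  have hB := h.bla.bl
  have hn2 : 2 ≤ n := by omega
  have hUc : IsCompact (L.US G) := (LB.clo_US (FV.sub_S hB) hB.cpt (d := 2 * n - 1)
    (by omega)).compact
  have hpf : PField (L.US G) (2 + 1) PN := ⟨h.neg.smooth, fun z _ v => h.neg.idem z v, h.neg.rank⟩
  have hZc : IsPreconnected Z := ZG.preconn_Sph hUc (FV.preconn_US hB hn2) hpf (by norm_num)
  have hZ : Clo (2 + (2 * n - 1)) Z := hτ.subm.cloZ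
  have x0 : Eqv S (ξ ^ (m + 1)) 0 := by
    refine eqv_iff.2 fun u hu => ?_
    have h1 : IsDeg (4 * (m + 1)) (pb (FI.Tan S u).subtype ((ξ ^ (m + 1)) u)) :=
      (KD.hom_pow' dξ (m + 1) u).pb _
    rw [h1.eq_zero (by rw [(FV.sub_S hB).finrank_Tan hu, hn]; omega), Pi.zero_apply, map_zero]
  obtain ⟨c, η, H, P, hcoh⟩ := exists_fam_four hφ hZ.sub hZc smap_ft hA hf sξ cξ dξ x0 hW dW hWf
    hθ hH
  -- the fibre value
  have hcg := cg_Z h hkn sξ cξ
  have sWK := P.sWK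
  have sE : Sm (Cyl (L.US G)) (F.pull (RRC.EE G) ξ) := sξ.pull RRC.smap_EE
  have hP1 : SMap Z (L.US G) (Prod.fst : (Euc N × Euc N) × Wt N K → Euc N × Euc N) :=
    ⟨fun q _ => contDiffAt_fst, fun q hq => hq.1.1⟩
  have sF : Sm Z (Wp (FM.phiF h.bla PN) (F.pull Prod.fst (RR.K (E := Euc N × Euc N)
      (F.pull (RRC.EE G) ξ)))) :=
    RR.Sm.Wp (FM.cir_phiF h.bla h.neg hkn) ((RR.Sm.K sE).pull hP1)
  have v1 := J_fibre_coh hτ sWK (hW.sm.smul _) hcoh z
  have v2 := J_fibre_coh hτ sWK sF.neg hcg z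
  have v3 : 2 * Real.pi * c * ω₀ = J 2 (Z ∩ Prod.fst ⁻¹' {z}) oV
      (-(Wp (FM.phiF h.bla PN) (F.pull Prod.fst (RR.K (E := Euc N × Euc N)
        (F.pull (RRC.EE G) ξ))))) := by
    rw [← v2, v1, J_smul']
  have v4 : |2 * Real.pi * c * ω₀| = 2 * τ₀ := by
    rw [v3, ← hC]
    have e : (-(Wp (FM.phiF h.bla PN) (F.pull Prod.fst (RR.K (E := Euc N × Euc N)
        (F.pull (RRC.EE G) ξ))))) = (-1 : ℝ) • (Wp (FM.phiF h.bla PN) (F.pull Prod.fst
          (RR.K (E := Euc N × Euc N) (F.pull (RRC.EE G) ξ)))) := by rw [neg_one_smul]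
    rw [e, J_smul', abs_mul, abs_neg, abs_one, one_mul]
  have v5 : |Real.pi * c * ω₀| = τ₀ := by
    have : |2 * Real.pi * c * ω₀| = 2 * |Real.pi * c * ω₀| := by
      rw [mul_assoc, mul_assoc, abs_mul, abs_two, ← mul_assoc]
    linarith
  have hc : c ≠ 0 := by
    rintro rfl
    rw [mul_zero, zero_mul, abs_zero] at v5
    exact h0.ne v5
  refine ⟨c, η, hc, H, v5, fun o ho => ?_, ?_⟩
  · have hdim : 2 + (2 * n - 1) = 8 * m + 1 := by omega
    rw [← hdim] at ho ⊢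
    have sl0 : Eqv Z (F.pull (sl 0) (F.pull Prod.fst W)) W := sl_fst 0 hW.sm
    have ha0 : Eqv Z (F.pull (sl 0) (F.pull (Af G lg ρ w J₀ ε) ξ))
        (F.pull Prod.fst (F.pull Prod.fst ξ)) := by
      refine (hA.sl_zero smap_ft ξ).trans (Eqv.symm ?_)
      exact eqv_pull_pull hP1 KD.smap_fst_US smap_ft (fun _ _ => rfl) ξ
    rw [J_Fam h.bla (by norm_num) (by omega) hn (by omega) hoS sξ cξ dξ hX H hφ hc P.ia P.ib P.ih
      P.h00 hτ ha0 ho hZc hz]
    congr 2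
    rw [hω]
    congr 1
    exact J_eqv (hτ.subm.clo_fibre z) (sl0.mono_tan inter_subset_left)
  · rw [pow_mul, ← sq_abs, ← sq_abs (Real.pi * c * ω₀), v5, ← pow_mul, mul_comm 2 m, pow_mul]
    exact pow_le_pow_left₀ (abs_nonneg _) hT 2

end inst

end Crest.Agent.R208.KP
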