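import Crest.Agent.R208.XM1
import Crest.Agent.R208.SN9
import Crest.Agent.R208.XMDefs
import Crest.Agent.R208.SN10
import Crest.Agent.R208.VX2
import Crest.Agent.R208.TX6b

-- ▼ part R208/XM8a
section

/-! Row 208, block XM (helper595).  XM8a: the map `f : S⁴ → C` of one step of the spread tower over
a point and the family of planes over the ball (input of helper671's `main`). -/

set_option autoImplicit false
set_option linter.unusedSectionVars false

open MeasureTheory Set Filter Topology Module Matrix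
open scoped ContDiff RealInnerProductSpace Quaternion
open Crest.Agent.R208.F Crest.Agent.R208.FI Crest.Agent.R208.CW Crest.Agent.R208.T Crest.Agent.R208.SN

noncomputable section

namespace Crest.Agent.R208.XM

universe u

section phi
variable {K : Type*} [NormedAddCommGroup K] [InnerProductSpace ℝ K] [FiniteDimensional ℝ K]

/-- the diffeomorphism of `S⁴` with `SB {q} P` -/
def Phi (q : K) (j : ℍ →ₗᵢ[ℝ] K) (z : E5) : (K × K) × ℝ := ((q, j z.2), z.1)

theorem contDiff_Phi (q : K) (j : ℍ →ₗᵢ[ℝ] K) : ContDiff ℝ ∞ (Phi q j) :=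
  (contDiff_const.prodMk (j.contDiff.comp contDiff_snd)).prodMk contDiff_fst

theorem fderiv_Phi (q : K) (j : ℍ →ₗᵢ[ℝ] K) (z v : E5) :
    fderiv ℝ (Phi q j) z v = ((0, j v.2), v.1) := by
  have h : HasFDerivAt (Phi q j) (((0 : E5 →L[ℝ] K).prod
      (j.toContinuousLinearMap ∘L ContinuousLinearMap.snd ℝ ℝ ℍ)).prod
      (ContinuousLinearMap.fst ℝ ℝ ℍ)) z :=
    ((hasFDerivAt_const q z).prodMk
      ((j.toContinuousLinearMap.hasFDerivAt (x := z.2)).comp z hasFDerivAt_snd)).prodMk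
        hasFDerivAt_fst
  rw [h.fderiv]; rfl

theorem fderiv_Phi_inj (q : K) (j : ℍ →ₗᵢ[ℝ] K) (z v : E5) (h : fderiv ℝ (Phi q j) z v = 0) :
    v = 0 := by
  rw [fderiv_Phi] at h
  have h1 : j v.2 = 0 := congrArg (fun y : (K × K) × ℝ => y.1.2) h
  have h2 : v.1 = 0 := congrArg (fun y : (K × K) × ℝ => y.2) h
  refine Prod.ext h2 (j.injective ?_)
  rw [h1]; exact (map_zero j).symm

theorem bijOn_Phi {P : K → K →L[ℝ] K} {q : K} {j : ℍ →ₗᵢ[ℝ] K} (hj : ∀ v, P q (j v) = j v)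
    (hj' : ∀ x, P q x = x → ∃ v, j v = x) : BijOn (Phi q j) X4 (SB {q} P) := by
  refine ⟨fun z hz => ?_, fun z _ z' _ h => ?_, fun y hy => ?_⟩
  · refine SB_iff.2 ⟨mem_singleton _, hj _, ?_⟩
    rw [mem_X4] at hz
    show ⟪j z.2, j z.2⟫ + z.1 * z.1 = 1
    rw [real_inner_self_eq_norm_sq, j.norm_map]; linarith [sq z.1]
  · have h1 : j z.2 = j z'.2 := congrArg (fun y : (K × K) × ℝ => y.1.2) h
    have h2 : z.1 = z'.1 := congrArg (fun y : (K × K) × ℝ => y.2) h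
    exact Prod.ext h2 (j.injective h1)
  · obtain ⟨hx, hP, hn⟩ := SB_iff.1 hy
    have hx' : y.1.1 = q := hx
    rw [hx'] at hP
    obtain ⟨v, hv⟩ := hj' _ hP
    refine ⟨(y.2, v), ?_, Prod.ext (Prod.ext hx'.symm hv) rfl⟩
    rw [mem_X4]
    show y.2 ^ 2 + ‖v‖ ^ 2 = 1
    rw [← j.norm_map v, hv, ← real_inner_self_eq_norm_sq]
    linarith [sq y.2]

theorem exists_j {P0 : K →L[ℝ] K} (hid : ∀ v, P0 (P0 v) = P0 v)
    (hr : finrank ℝ (LinearMap.range (P0 : K →ₗ[ℝ] K)) = 4) :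
    ∃ j : ℍ →ₗᵢ[ℝ] K, (∀ v, P0 (j v) = j v) ∧ ∀ x, P0 x = x → ∃ v, j v = x := by
  set V := LinearMap.range (P0 : K →ₗ[ℝ] K) with hV
  have hf : finrank ℝ ℍ = finrank ℝ V := by rw [Quaternion.finrank_eq_four, hr]
  let e : ℍ ≃ₗᵢ[ℝ] V := (stdOrthonormalBasis ℝ ℍ).equiv (stdOrthonormalBasis ℝ V) (finCongr hf)
  refine ⟨V.subtypeₗᵢ.comp e.toLinearIsometry, fun v => ?_, fun x hx => ?_⟩
  · obtain ⟨y, hy⟩ := (e v).2
    show P0 (e v : K) = (e v : K)
    rw [← hy]; exact hid y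
  · refine ⟨e.symm ⟨x, ⟨x, hx⟩⟩, ?_⟩
    show ((e (e.symm ⟨x, ⟨x, hx⟩⟩) : V) : K) = x
    rw [e.apply_symm_apply]

end phi

section bb

/-- the cut off as a function on the ball -/
def bb (v : ℍ) : ℝ := bt (-√(1 - ‖v‖ ^ 2))

theorem bb_zero {v : ℍ} (h : 3 / 4 ≤ ‖v‖ ^ 2) : bb v = 0 := by
  refine bt_zero ?_
  have : √(1 - ‖v‖ ^ 2) ≤ 1 / 2 := by
    rw [show (1 / 2 : ℝ) = √((1 / 2) ^ 2) by rw [Real.sqrt_sq (by norm_num)]]
    exact Real.sqrt_le_sqrt (by linarith)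
  linarith

theorem bb_pos_zero : bb 0 ≠ 0 := by
  have : (0 : ℝ) < bb 0 := bt_pos (by rw [norm_zero]; norm_num)
  exact this.ne'

theorem contDiff_bb : ContDiff ℝ ∞ bb := by
  rw [contDiff_iff_contDiffAt]
  intro v
  rcases lt_or_ge (‖v‖ ^ 2) (7 / 8) with h | h
  · have h1 : ContDiffAt ℝ ∞ (fun v : ℍ => 1 - ‖v‖ ^ 2) v :=
      contDiffAt_const.sub (contDiff_norm_sq ℝ).contDiffAt
    have h2 : (1 : ℝ) - ‖v‖ ^ 2 ≠ 0 := by
      intro h0; linarith
    exact (contDiff_bt.contDiffAt (x := -√(1 - ‖v‖ ^ 2))).comp v (h1.sqrt h2).neg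
  · have : bb =ᶠ[𝓝 v] fun _ => 0 := by
      have ho : {y : ℍ | 3 / 4 < ‖y‖ ^ 2} ∈ 𝓝 v :=
        (isOpen_lt continuous_const (continuous_norm.pow 2)).mem_nhds (by
          show 3 / 4 < ‖v‖ ^ 2; linarith)
      filter_upwards [ho] with y hy
      exact bb_zero (le_of_lt hy)
    exact contDiffAt_const.congr_of_eventuallyEq this

theorem bt_X4 {z : E5} (hz : z ∈ X4) (h : z.1 ≤ 0) : bt z.1 = bb z.2 := by
  rw [mem_X4] at hz
  rw [bb, show 1 - ‖z.2‖ ^ 2 = z.1 ^ 2 by linarith, Real.sqrt_sq_eq_abs, abs_of_nonpos h, neg_neg]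

end bb

section main
variable {n : Type u} {ι : Type*} [Fintype n] [DecidableEq n] [Fintype ι] [DecidableEq ι]
  {T : Submodule ℝ (EuclideanSpace ℝ n)} {C : Set (EuclideanSpace ℝ n)}
  {P : EuclideanSpace ℝ n → EuclideanSpace ℝ n →L[ℝ] EuclideanSpace ℝ n}
  {W : EuclideanSpace ℝ n → (ι × Fin 2 → n) → ℝ} {rho : EuclideanSpace ℝ n → EuclideanSpace ℝ n}
  {q w : EuclideanSpace ℝ n} {j : ℍ →ₗᵢ[ℝ] EuclideanSpace ℝ n}

/-- the section on the ball -/
def sj (j : ℍ →ₗᵢ[ℝ] EuclideanSpace ℝ n) (w : EuclideanSpace ℝ n) (v : ℍ) : EuclideanSpace ℝ n :=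
  j v + bb v • w

theorem contDiff_sj : ContDiff ℝ ∞ (sj j w) :=
  j.contDiff.add (contDiff_bb.smul contDiff_const)

theorem sj_out {v : ℍ} (h : 3 / 4 ≤ ‖v‖ ^ 2) : sj j w v = j v := by
  rw [sj, bb_zero h, zero_smul, add_zero]

theorem sj_ne (hj : ∀ v, P q (j v) = j v) (hw : P q w ≠ w) (v : ℍ) : sj j w v ≠ 0 := by
  intro h0
  rcases eq_or_ne (bb v) 0 with hb | hb
  · rw [sj, hb, zero_smul, add_zero] at h0
    have : v = 0 := j.injective (by rw [h0]; exact (map_zero j).symm)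
    rw [this] at hb
    exact bb_pos_zero hb
  · refine hw ?_
    have h2 : w = (-(bb v)⁻¹) • j v := by
      have : j v = -(bb v • w) := eq_neg_of_add_eq_zero_left h0
      rw [this, smul_neg, neg_smul, neg_neg, smul_smul, inv_mul_cancel₀ hb, one_smul]
    rw [h2, map_smul, hj]

theorem sj_mem (h : Spr T C P W rho) (hq : q ∈ C) (hj : ∀ v, P q (j v) = j v) (hwT : w ∈ T)
    (v : ℍ) : sj j w v ∈ T := by
  refine T.add_mem ?_ (T.smul_mem _ hwT)
  rw [← hj]; exact h.rg _ hq _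

theorem rho_j (h : Spr T C P W rho) (hq : q ∈ C) (hj : ∀ v, P q (j v) = j v) {v : ℍ}
    (hv : v ≠ 0) : rho (j v) = q :=
  h.uniq _ hq _ (fun h0 => hv (j.injective (by rw [h0]; exact (map_zero j).symm))) (hj v)

/-- **the data over `S⁴`**, for a spread of 4-planes -/
theorem exists_flat (h : Spr T C P W rho) (hc : Fintype.card ι = 2) {c : ℕ} (hC : Sub c C)
    (hq : q ∈ C) (hT : 4 < finrank ℝ T) :
    ∃ (f : E5 → EuclideanSpace ℝ n) (j : ℍ →ₗᵢ[ℝ] EuclideanSpace ℝ n)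
      (P' : ℍ → EuclideanSpace ℝ n →L[ℝ] EuclideanSpace ℝ n) (s : ℍ → EuclideanSpace ℝ n),
      ContDiff ℝ ∞ f ∧ SMap X4 C f ∧ |J 4 X4 o4 (F.pull f (eR P W))| = |kGG ι| / 2 ∧
      ContDiff ℝ ∞ P' ∧ ContDiff ℝ ∞ s ∧ (∀ v x, P' v (P' v x) = P' v x) ∧
      (∀ v x y, ⟪P' v x, y⟫ = ⟪x, P' v y⟫) ∧
      (∀ v, finrank ℝ (LinearMap.range (P' v : EuclideanSpace ℝ n →ₗ[ℝ] EuclideanSpace ℝ n)) = 4) ∧
      (∀ v, P' v (s v) = s v) ∧ (∀ v, s v ≠ 0) ∧
      (∀ v, 3 / 4 ≤ ‖v‖ ^ 2 → s v = j v ∧ ∀ w : ℍ, P' v (j w) = j w) ∧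
      (∀ z ∈ X4, z.1 < 0 → P (f z) = P' z.2) ∧ ∀ z ∈ X4, 0 ≤ z.1 → P (f z) = P' 1 := by
  have : Nonempty ι := Fintype.card_pos_iff.1 (by omega)
  have hpf := h.or.pfield
  have hL0 := Lv.zero (ι := ι) (P := P) (W := W) hq
  obtain ⟨w, hwT, hw⟩ := exists_w h hL0.clo.sub hL0.sm (by omega)
  obtain ⟨g, h1, h2, h3⟩ := exists_g h hL0.clo hL0.sm hwT hw
  have hL := hL0.step hC h ⟨h, hL0.sm, hwT, hw, h1, h2, h3⟩
  have hw' : P q w ≠ w := hw q rfl
  obtain ⟨j, hj, hj'⟩ := exists_j (P0 := P q) (fun v => hpf.idem q hq v)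
    (by rw [hpf.rank q hq, hc])
  have hb : BijOn (Phi q j) X4 (SB {q} P) := bijOn_Phi hj hj'
  set o := fun z : (EuclideanSpace ℝ n × EuclideanSpace ℝ n) × ℝ =>
    oVf (fun x => W (id x)) z * F.pull pB (1 : EuclideanSpace ℝ n → Ext (EuclideanSpace ℝ n)) z with ho
  have e4 : 2 * Fintype.card ι * (0 + 1) = 4 := by omega
  have hclo : Clo 4 (SB {q} P) := by have := hL.clo; rwa [e4] at this
  have hori : Ori 4 (SB {q} P) o := by have := hL.ori; rwa [e4] at this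
  have hval : |J 4 (SB {q} P) o (F.pull g (eR P W))| = |kGG ι| / 2 := by
    have := hL.val
    rwa [e4, zero_add, pow_one, pow_one] at this
  have hconn : IsPreconnected (SB {q} P) := hL.conn
  have hdeg := deg_bijOn clo_X4 ori_X4 preconn_X4 hclo hori hL.ne
    (fun x _ => ((contDiff_Phi q j).contDiffAt.of_le (by simp))) hb
    (fun x _ v _ hv => fderiv_Phi_inj q j x v hv)
  obtain ⟨-, hsp⟩ := deg_spec clo_X4 ori_X4 hclo hori hconn
    (fun x _ => ((contDiff_Phi q j).contDiffAt (x := x)).of_le (WithTop.coe_le_coe.2 le_top))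
    hb.mapsTo
  have hes : Sm C (eR P W) := (eR_ec h.or).sm
  have hcont : ContinuousOn (F.pull g (eR P W)) (SB {q} P) := fun y hy =>
    (contDiffAt_pull (h1.contDiffAt) (by simp) (hes _ (hL.sm.maps hy))).continuousAt.continuousWithinAt
  have hJ : J 4 X4 o4 (F.pull (fun z => g (Phi q j z)) (eR P W))
      = deg 4 X4 o4 (SB {q} P) o (Phi q j) * J 4 (SB {q} P) o (F.pull g (eR P W)) := by
    rw [← hsp _ hcont]
    congr 1
    funext z
    exact (pull_comp ((contDiff_Phi q j).differentiable (by simp) z)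
      (h1.differentiable (by simp) _)).symm
  refine ⟨fun z => g (Phi q j z), j, fun v => P (rho (sj j w v)), sj j w,
    h1.comp (contDiff_Phi q j), ?_, ?_, ?_, contDiff_sj, ?_, ?_, ?_, ?_, ?_, ?_, ?_, ?_⟩
  · exact hL.sm.comp ⟨fun x _ => (contDiff_Phi q j).contDiffAt, hb.mapsTo⟩
  · rw [hJ, abs_mul, hval]
    rcases hdeg with hd | hd
    · rw [hd, abs_one, one_mul]
    · rw [hd, abs_neg, abs_one, one_mul]
  · rw [contDiff_iff_contDiffAt]
    intro v
    have h4 := h.sm _ (sj_mem h hq hj hwT v) (sj_ne hj hw' v)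
    exact ContDiffAt.comp (g := P) v
      (h.or.sP _ (h.mem _ (sj_mem h hq hj hwT v) (sj_ne hj hw' v)))
      (ContDiffAt.comp (g := rho) v h4 contDiff_sj.contDiffAt)
  · exact fun v x => hpf.idem _ (h.mem _ (sj_mem h hq hj hwT v) (sj_ne hj hw' v)) x
  · exact fun v x y => OR_sym h.or (h.mem _ (sj_mem h hq hj hwT v) (sj_ne hj hw' v)) x y
  · intro v
    rw [hpf.rank _ (h.mem _ (sj_mem h hq hj hwT v) (sj_ne hj hw' v)), hc]
  · exact fun v => h.fix _ (sj_mem h hq hj hwT v) (sj_ne hj hw' v)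
  · exact sj_ne hj hw'
  · intro v hv
    have hv0 : v ≠ 0 := by rintro rfl; rw [norm_zero] at hv; norm_num at hv
    refine ⟨sj_out hv, fun x => ?_⟩
    show P (rho (sj j w v)) (j x) = j x
    rw [sj_out hv, rho_j h hq hj hv0]
    exact hj x
  · intro z hz hz0
    have h4 : g (Phi q j z) = rho (sv w (Phi q j z)) := h3 _ (hb.mapsTo hz) (by
      show z.1 < 1; linarith)
    have h5 : sv w (Phi q j z) = sj j w z.2 := by
      rw [sv, sj, ← bt_X4 hz hz0.le]; rfl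
    show P (g (Phi q j z)) = P (rho (sj j w z.2))
    rw [h4, h5]
  · intro z hz hz0
    have h4 : g (Phi q j z) = q := h2 _ (hb.mapsTo hz) (by
      show -(1 / 2) ≤ z.1; linarith)
    show P (g (Phi q j z)) = P (rho (sj j w 1))
    rw [h4, sj_out (by rw [norm_one]; norm_num), rho_j h hq hj one_ne_zero]

end main

end Crest.Agent.R208.XM
end
end

-- ▼ part R208/XM8b

/-! Row 208, block XM (helper595).  XM8b: **`μ = 2 (1 + 2 d)`** for `k = 4`, from helper671's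
`MainStmt`, the spread tower over a point and (X3). -/

set_option autoImplicit false
set_option linter.unusedSectionVars false

open MeasureTheory Set Filter Topology Module Matrix
open scoped ContDiff RealInnerProductSpace Quaternion
open Crest.GeometryTopology.Submanifold
open Crest.Agent.R241.DDefs
open Crest.Agent.R241.D2
open Crest.Agent.R208.F Crest.Agent.R208.FI Crest.Agent.R208.CW Crest.Agent.R208.T Crest.Agent.R208.SN

noncomputable section

namespace Crest.Agent.R208.XM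

section gen
variable {E : Type*} [NormedAddCommGroup E] [NormedSpace ℝ E] [FiniteDimensional ℝ E]
  {X : Set E} {d : ℕ} {o : E → Ext E}

theorem integ_rcl (hX : Clo d X) (ho : Ori d X o) {a : E → Ext E} (h : EC X a) :
    integ hX ho (rcl h) = ((J d X o a : ℝ) : ℂ) := by
  rw [rcl, integ_cls]
  refine Complex.ext rfl ?_
  show J d X o (fun x => (0 : E → Ext E) x) = 0
  have h1 := J_smul (d := d) (X := X) (o := o) (om := fun _ => (0 : Ext E)) (0 : ℝ)
  simpa using h1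

theorem pull_const_zero {E' : Type*} [NormedAddCommGroup E'] [NormedSpace ℝ E']
    [FiniteDimensional ℝ E'] {j : ℕ} {c : E'} {b : E' → Ext E'} (hj : 1 ≤ j) (hb : Hom j b) :
    F.pull (fun _ : E => c) b = 0 := by
  funext y
  rw [F.pull, fderiv_fun_const]
  refine ext_evA fun q => ?_
  ext v
  rw [evA_pb]
  by_cases h : q = j
  · subst h
    show evA E' q (b c) (fun _ => 0) = evA E q (0 : Ext E) v
    rw [map_zero]
    exact (evA E' q (b c)).map_coord_zero (⟨0, by omega⟩ : Fin q) rfl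
  · rw [hb c q h]
    show (0 : ℝ) = evA E q (0 : Ext E) v
    rw [map_zero]; rfl

/-- the second Chern class of a real field -/
theorem cc_two {n : Type*} [Fintype n] [DecidableEq n] (hX : Sub d X) {Q : E → Matrix n n ℂ}
    (hQ : IdF X Q) (hr : ∀ x ∈ X, (Q x).map (starRingEnd ℂ) = Q x) :
    cc hX hQ 2 = (-(1 / 2) : ℂ) • CW.sc hX hQ 2 := by
  have h1 : CW.sc hX hQ 1 = 0 := by
    have h2 := VX.cc_real_odd hX hQ hr (j := 1) odd_one
    rw [cc_eq_el, el] at h2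
    simpa [el_zero] using h2
  rw [cc_eq_el, el, Fin.sum_univ_two]
  simp only [Fin.val_zero, Fin.val_one, pow_zero, pow_one, zero_add, one_mul, h1, mul_zero,
    Nat.sub_self, el_zero, mul_one]
  rw [neg_mul, one_mul, smul_neg, neg_smul]
  norm_num

end gen

section main
variable {n N : ℕ} {κ : ℝ} {S : Set (Euc N)} {G : Geo n N κ S}
  {ι : Type*} [Fintype ι] [DecidableEq ι] {W : Euc N × Euc N → (ι × Fin 2 → Fin N) → ℝ}

theorem nE_card (hι : 2 * Fintype.card ι = 4) : VX.nE ι = 8 := by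
  have : Fintype.card ι = 2 := by omega
  rw [VX.nE, this]; norm_num [Nat.factorial]

theorem kGG_card (hι : 2 * Fintype.card ι = 4) : |kGG ι| / 2 = 32 * Real.pi ^ 2 := by
  have h2 : Fintype.card ι = 2 := by omega
  have : Nonempty ι := Fintype.card_pos_iff.1 (by omega)
  rw [kGG_eq, h2, abs_of_pos (by positivity)]
  norm_num [Nat.factorial]
  ring

/-- the restriction of `V` to a cut locus, in `T_p` -/
theorem OR_PL {k : ℕ} (h : GT.Bla G k) {p : Euc N} (hp : p ∈ S) (hW : OR (GT.FF S) (FV.PVB h) W) :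
    OR (GP.Cut S p) (PL h p) (fun q => W (p, q)) :=
  OR_comp hW (f := fun q => (p, q))
    ⟨fun _ _ => contDiffAt_const.prodMk contDiffAt_id, fun _ hq => mem_FF_Cut G hp hq⟩

/-- **the integrality of `μ`**, `k = 4`; `c = ± 1` is the sign convention of (X1b) -/
theorem mu_four_gen (hM : MainStmt) (h : GT.Bla G 4) (hn : 4 < n) {p : Euc N} (hp : p ∈ S)
    {dF : ℕ} (hF : Sub dF (GT.FF S)) (hι : 2 * Fintype.card ι = 4)
    (hW : OR (GT.FF S) (FV.PVB h) W) {x : Euc N → Ext (Euc N)} (dx : Hom 4 x) (hx : EC S x)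
    {c : ℝ} (hc : |c| = 1)
    (hrel : Coh (GT.FF S) (F.pull Prod.snd x) (F.pull Prod.fst x + c • eR (FV.PVB h) W)) {μ : ℝ}
    (hμ : cc hF (GT.idf_mV (FV.vfield_PVB h)) 2 =
      (μ : ℂ) • (FG.xp (((VX.nE ι : ℝ) : ℂ)⁻¹ • rcl hx) + FG.xq (((VX.nE ι : ℝ) : ℂ)⁻¹ • rcl hx))) :
    ∃ d : ℤ, μ = 2 * (1 + 2 * d) := by
  obtain ⟨q, hq⟩ := Cut_nonempty h (by omega) hp
  have hW' := OR_PL h hp hW
  have hspr := spr_Cut h hp hW'
  obtain ⟨f, j, P', s, hf, hfm, hJ, f1, f2, f3, f4, f5, f6, f7, f8, f9, f10⟩ :=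
    exists_flat hspr (by omega) (FV.clo_Cut h hp).sub hq (by rw [G.finrank_T p hp]; exact hn)
  have hφ : SMap X4 (GT.FF S) (fun z => (p, f z)) :=
    ⟨fun z _ => contDiffAt_const.prodMk hf.contDiffAt, fun z hz => mem_FF_Cut G hp (hfm.maps hz)⟩
  set hV := GT.idf_mV (FV.vfield_PVB h) with hVdef
  have hr : ∀ z ∈ X4, (GT.mV (FV.PVB h) ((p, f z))).map (starRingEnd ℂ) = GT.mV (FV.PVB h) (p, f z) :=
    fun z _ => VX.mV_real _ _
  obtain ⟨d, hd⟩ := hM ⟨f1, f2, f3, f4, f5, f6, f7, f8⟩ (hV.comp hφ)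
    (fun z hz h0 => by
      rw [VX.mV_eq, ← f9 z hz h0]; rfl)
    (fun z hz h0 => by
      rw [VX.mV_eq, ← f10 z hz h0]; rfl)
  -- the left side
  have e1 : integ clo_X4 ori_X4 (H.map hφ (cc hF hV 2)) = -(8 * (Real.pi : ℂ) ^ 2 * (1 + 2 * d)) := by
    rw [cc_map sub_X4 hF hφ hV 2, cc_two sub_X4 (hV.comp hφ) hr, map_smul, CW.sc, integ_cls, hd,
      smul_eq_mul]
    ring
  -- the right side
  have hfx : SMap X4 S f := ⟨hfm.smooth, fun z hz => (hfm.maps hz).1⟩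
  have hcp : SMap X4 S (fun _ => p) := ⟨fun _ _ => contDiffAt_const, fun _ _ => hp⟩
  have e2 : integ clo_X4 ori_X4 (H.map hφ (FG.xp (rcl hx))) = 0 := by
    rw [FG.xp, H.map_map]
    have : H.map (FG.smap_fst.comp hφ) (rcl hx) = rcl (hx.pull (FG.smap_fst.comp hφ)) :=
      (rcl_pull _ _).symm
    rw [this, integ_rcl]
    show ((J 4 X4 o4 (F.pull (fun _ => p) x) : ℝ) : ℂ) = 0
    rw [pull_const_zero (by norm_num) dx]
    have h1 := J_smul (d := 4) (X := X4) (o := o4) (om := fun _ => (0 : Ext E5)) (0 : ℝ)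
    have h2 : J 4 X4 o4 (0 : E5 → Ext E5) = 0 := by
      show J 4 X4 o4 (fun _ => (0 : Ext E5)) = 0
      simpa using h1
    rw [h2]; simp
  have e3 : integ clo_X4 ori_X4 (H.map hφ (FG.xq (rcl hx))) = ((J 4 X4 o4 (F.pull f x) : ℝ) : ℂ) := by
    rw [FG.xq, H.map_map]
    have : H.map (FG.smap_snd.comp hφ) (rcl hx) = rcl (hx.pull (FG.smap_snd.comp hφ)) :=
      (rcl_pull _ _).symm
    rw [this, integ_rcl]
  -- the value
  have e4 : |J 4 X4 o4 (F.pull f x)| = 32 * Real.pi ^ 2 := by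
    have g1 : Coh X4 (F.pull f x) (c • F.pull f (eR (PL h p) (fun q => W (p, q)))) := by
      have g2 := hrel.pull hφ
      have g3 : Eqv X4 (F.pull (fun z => (p, f z)) (F.pull Prod.snd x)) (F.pull f x) :=
        eqv_pull_pull hφ FG.smap_snd hfx (fun _ _ => rfl) x
      have g4 : Eqv X4 (F.pull (fun z => (p, f z)) (F.pull Prod.fst x)) 0 := by
        have := eqv_pull_pull hφ FG.smap_fst hcp (fun _ _ => rfl) x
        rwa [pull_const_zero (by norm_num) dx] at this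
      have g5 : Eqv X4 (F.pull (fun z => (p, f z)) (eR (FV.PVB h) W))
          (F.pull f (eR (PL h p) (fun q => W (p, q)))) :=
        (eqv_pull_eR hW hφ).trans (eqv_pull_eR hW' hfm).symm
      refine (Coh.of_eqv g3.symm).trans (g2.trans (Coh.of_eqv ?_))
      rw [pull_add', pull_smul']
      have := g4.add (g5.smul c)
      rwa [zero_add] at this
    have sx : Sm X4 (F.pull f x) := (hx.pull hfx).sm
    have se : Sm X4 (F.pull f (eR (PL h p) (fun q => W (p, q)))) := ((VX.ec_eR hW').pull hfm).sm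
    have g6 := J_of_coh clo_X4 ori_X4 sx (se.smul c) g1
    rw [g6]
    have g7 : J 4 X4 o4 (c • F.pull f (eR (PL h p) (fun q => W (p, q))))
        = c * J 4 X4 o4 (F.pull f (eR (PL h p) (fun q => W (p, q)))) := J_smul _
    rw [g7, abs_mul, hc, one_mul, hJ, kGG_card hι]
  have e5 : integ clo_X4 ori_X4 (H.map hφ (cc hF hV 2)) = integ clo_X4 ori_X4 (H.map hφ
      ((μ : ℂ) • (FG.xp (((VX.nE ι : ℝ) : ℂ)⁻¹ • rcl hx)
        + FG.xq (((VX.nE ι : ℝ) : ℂ)⁻¹ • rcl hx)))) := by rw [hμ]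
  rw [e1, map_smul, map_smul, map_add, map_add] at e5
  have e6 : FG.xp (((VX.nE ι : ℝ) : ℂ)⁻¹ • rcl hx) = ((VX.nE ι : ℝ) : ℂ)⁻¹ • FG.xp (rcl hx) := by
    rw [FG.xp, map_smul, ← FG.xp]
  have e7 : FG.xq (((VX.nE ι : ℝ) : ℂ)⁻¹ • rcl hx) = ((VX.nE ι : ℝ) : ℂ)⁻¹ • FG.xq (rcl hx) := by
    rw [FG.xq, map_smul, ← FG.xq]
  rw [e6, e7, map_smul, map_smul, map_smul, map_smul, e2, e3, smul_zero, zero_add, smul_eq_mul,
    smul_eq_mul, nE_card hι] at e5
  have e8 : -(8 * Real.pi ^ 2 * (1 + 2 * d)) = μ * ((8 : ℝ)⁻¹ * J 4 X4 o4 (F.pull f x)) := by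
    have : ((-(8 * Real.pi ^ 2 * (1 + 2 * d)) : ℝ) : ℂ)
        = ((μ * ((8 : ℝ)⁻¹ * J 4 X4 o4 (F.pull f x)) : ℝ) : ℂ) := by
      push_cast
      rw [e5]
      push_cast
      ring
    exact_mod_cast this
  have hpi : (0 : ℝ) < Real.pi ^ 2 := by positivity
  rcases abs_cases (J 4 X4 o4 (F.pull f x)) with ⟨h1, -⟩ | ⟨h1, -⟩
  · rw [h1] at e4
    rw [e4] at e8
    refine ⟨-1 - d, ?_⟩
    push_cast
    have : Real.pi ^ 2 * (μ + 2 * (1 + 2 * d)) = 0 := by linarith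
    rcases mul_eq_zero.1 this with h2 | h2
    · exact absurd h2 hpi.ne'
    · linarith
  · rw [h1] at e4
    have e4' : J 4 X4 o4 (F.pull f x) = -(32 * Real.pi ^ 2) := by linarith
    rw [e4'] at e8
    refine ⟨d, ?_⟩
    have : Real.pi ^ 2 * (μ - 2 * (1 + 2 * d)) = 0 := by linarith
    rcases mul_eq_zero.1 this with h2 | h2
    · exact absurd h2 hpi.ne'
    · linarith

/-- **(X10)** for `helper316`'s class `x` (`snd^* x ~ fst^* x - ε`): `μ` is twice an odd integer -/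
theorem mu_four {ι : Type} [Fintype ι] [DecidableEq ι] {W : Euc N × Euc N → (ι × Fin 2 → Fin N) → ℝ}
    (hM : MainStmt) {h : GT.Bla G 4} {m : ℕ} {p : Euc N} {x : Euc N → Ext (Euc N)}
    (D : T.XM h m W p x) {dF : ℕ} (hF : Sub dF (GT.FF S)) (hx : EC S x) {μ : ℝ}
    (hμ : cc hF (GT.idf_mV (FV.vfield_PVB h)) 2 =
      (μ : ℂ) • (FG.xp (((VX.nE ι : ℝ) : ℂ)⁻¹ • rcl hx) + FG.xq (((VX.nE ι : ℝ) : ℂ)⁻¹ • rcl hx))) :
    ∃ d : ℤ, μ = 2 * (1 + 2 * d) := by
  refine mu_four_gen hM h D.hkn D.hp hF D.hι D.hW D.dx hx (c := -1) (by norm_num) ?_ hμ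
  have := D.snd_class
  rwa [sub_eq_add_neg, ← neg_one_smul ℝ (eR (FV.PVB h) W)] at this


end main

end Crest.Agent.R208.XM
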