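import Crest.Agent.R208.TX9
import Crest.Agent.R208.CM6b
import Crest.Agent.R208.HY5
import Crest.Agent.R208.SO3
import Crest.Agent.R208.PV2
import Crest.Agent.R208.FG5
import Crest.Agent.R208.XM8b

-- ▼ part R208/ZH1
section

/-! Row 208, VOL4, block (V4-a) (helper316).  ZH1: closed forms of degree `4` on `B = US / S¹`. -/

set_option autoImplicit false
set_option linter.unusedSectionVars false

open MeasureTheory Set Filter Topology Module
open scoped ContDiff RealInnerProductSpace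
open Crest.GeometryTopology.Submanifold
open Crest.Agent.R241.DDefs
open Crest.Agent.R241.D2
open Crest.Agent.R208.F Crest.Agent.R208.FI Crest.Agent.R208.CW Crest.Agent.R208.T
open Crest.Agent.R208.CM
open Crest.Agent.R208.L (US)
open Crest.Agent.R208.LB (al)

noncomputable section

namespace Crest.Agent.R208.ZG

section gys
variable {E E' : Type} [NormedAddCommGroup E] [NormedSpace ℝ E] [FiniteDimensional ℝ E]
  [NormedAddCommGroup E'] [NormedSpace ℝ E'] [FiniteDimensional ℝ E']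
  {X : Set E} {B : Set E'} {q : E → E'} {F₀ y b : E' → Ext E'} {x : E → Ext E} {d r J : ℕ} {β : ℝ}

/-- closed forms of degree `4` on the base of a circle bundle, if the closed `2`-forms on `X` are
exact -/
theorem low_four (hG : HY.Gys X B q F₀) (hB : FI.Sub d B) (hBc : IsPreconnected B)
    (h2 : ExactIn X 2)
    (sy : Sm B y) (cy : Cl B y) (dy : Hom 4 y) (hy : Coh X (F.pull q y) x)
    (sb : Sm B b) (cb : Cl B b) (db : Hom 4 b) (hb : Coh X (F.pull q b) (β • x)) :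
    ∃ α : ℝ, Coh B b (α • (F₀ * F₀) + β • y) := by
  have h1 : Coh X (F.pull q (b - β • y)) 0 := by
    rw [pull_sub', pull_smul']
    have := hb.sub (hy.smul β)
    rwa [sub_self] at this
  obtain ⟨c, sc, cc, dc, hc⟩ := hG.high 2 (b - β • y) (sb.sub (sy.smul β))
    (Cl.sub sb (sy.smul β) cb (Cl.smul β sy cy)) (db.sub (dy.smul β)) h1
  obtain ⟨a, sa, ca, da, ha⟩ := hG.high 0 c sc cc dc
    (h2 _ (sc.pull hG.smap) (cc.pull hG.smap sc) dc.pull)
  obtain ⟨α, hα⟩ := const_of_closed hB hBc sa ca da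
  refine ⟨α, ?_⟩
  have e1 : Coh B (c * F₀) (a * F₀ * F₀) := Coh.mul_right hG.sm hG.cl ha
  have e2 : Eqv B (a * F₀ * F₀) (α • (F₀ * F₀)) := Eqv.of_eq fun z hz => by
    rw [Pi.mul_apply, Pi.mul_apply, hα z hz, Pi.smul_apply, Pi.mul_apply, Algebra.smul_def,
      mul_assoc]
  have e3 := (hc.trans (e1.trans (Coh.of_eqv e2))).add (Coh.refl (β • y))
  rwa [sub_add_cancel] at e3

end gys

variable {n N m m' : ℕ} {κ : ℝ} {S : Set (Euc N)} {G : Geo n N κ S} {p₀ : Euc N}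
  {ι : Type} [Fintype ι] [DecidableEq ι] {W₀ : Euc N × Euc N → (ι × Fin 2 → Fin N) → ℝ}
  {x : Euc N → Ext (Euc N)} {g : Euc N × Euc N → Fin m' → ℂ} {Fc y p : MM m' → Ext (MM m')}
  {β : ℝ}

theorem exactIn_two {h : GT.Bla G 4} (D : T.XM h m W₀ p₀ x) : ExactIn (US G) 2 := by
  intro b sb cb db
  rw [← FV.Sph_S] at *
  have h2 := D.two_k
  obtain ⟨c, hc0, hc⟩ := D.low 2 b (by norm_num) (by omega) sb cb db
  rwa [hc0 (by norm_num), zero_smul] at hc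

/-- **(V4-a)** closed forms of degree `4` on `B` -/
theorem low_y {h : GT.Bla G 4} (D : T.XM h m W₀ p₀ x) (hper : HS.Per G)
    (hg : Emb (US G) (gf G) g) (hFc : Curv (US G) g al Fc)
    (hy : SO.CF2 (Quo (US G) g) 4 y)
    (hyU : Coh (US G) (F.pull (jj g) y) (F.pull Prod.fst x))
    (hp : SO.CF2 (Quo (US G) g) 4 p)
    (hpU : Coh (US G) (F.pull (jj g) p) (β • F.pull Prod.fst x)) :
    ∃ α : ℝ, Coh (Quo (US G) g) p (α • (Fc * Fc) + β • y) := by
  have hX := clo_US' h.bl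
  have hc := cir_US h.bl hper
  have hG := HG.gys hg hc hX (conn_al (FV.sub_S h.bl)) hFc
  exact low_four hG (hg.clo_Quo hc hX).sub (HY.preconn_Quo hg (FV.preconn_US h.bl (by
      have := D.two_k; omega))) (exactIn_two D)
    hy.sm hy.cl hy.hom hyU hp.sm hp.cl hp.hom hpU

end Crest.Agent.R208.ZG
end
end

-- ▼ part R208/PV3

/-! Row 208, block (K9)(ii) of the volume theorem (helper613), part PV3: the output theorems, on the
class `x` of `T.XM`. -/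

set_option autoImplicit false
set_option linter.unusedSectionVars false
set_option linter.unusedVariables false

open MeasureTheory Set Filter Topology Module
open scoped ContDiff RealInnerProductSpace
open Crest.GeometryTopology.Submanifold
open Crest.Agent.R241.DDefs
open Crest.Agent.R241.D2
open Crest.Agent.R208.NN
open Crest.Agent.R208.NB
open Crest.Agent.R208.F Crest.Agent.R208.FI Crest.Agent.R208.CW
open Crest.Agent.R208.CM (Emb Cir Quo jj MM)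
open Crest.Agent.R208.T (EC rcl Sm Cl Hom Coh Eqv mtx)

noncomputable section

namespace Crest.Agent.R208.PV

variable {n N k K m dF dU : ℕ} {κ : ℝ} {S : Set (Euc N)} {G : Geo n N κ S} {p : Euc N}
  {ι : Type} [Fintype ι] [DecidableEq ι] {W : Euc N × Euc N → (ι × Fin 2 → Fin N) → ℝ}
  {h : GT.Bla G k} {x : Euc N → Ext (Euc N)}
  {δ : ℝ} {PN : Euc N × Euc N → Wt N K →L[ℝ] Wt N K}

/-- the middle class of `V ⊗ ℂ` on `FF S` in terms of the normalised class of `x` -/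
def Mid (h : GT.Bla G k) (ι : Type) [Fintype ι] (hF : FI.Sub dF (GT.FF S)) (hx : EC S x)
    (μ : ℝ) : Prop :=
  cc hF (GT.idf_mV (FV.vfield_PVB h)) (k / 2) =
    (μ : ℂ) • (FG.xp (((VX.nE ι : ℝ) : ℂ)⁻¹ • rcl hx) + FG.xq (((VX.nE ι : ℝ) : ℂ)⁻¹ • rcl hx))


end Crest.Agent.R208.PV

namespace Crest.Agent.R208.PV

variable {n N K m dF dU : ℕ} {κ : ℝ} {S : Set (Euc N)} {G : Geo n N κ S} {p : Euc N}
  {ι : Type} [Fintype ι] [DecidableEq ι] {W : Euc N × Euc N → (ι × Fin 2 → Fin N) → ℝ}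
  {h : GT.Bla G 4} {x : Euc N → Ext (Euc N)}
  {δ : ℝ} {PN : Euc N × Euc N → Wt N K →L[ℝ] Wt N K}

theorem nE_four (hι : 2 * Fintype.card ι = 4) : VX.nE ι = 8 := by
  have h1 : Fintype.card ι = 2 := by omega
  rw [VX.nE, h1]
  norm_num [Nat.factorial]

theorem abs_two_of {μ : ℝ} (h1 : ∃ d : ℤ, μ = 2 * (1 + 2 * d)) (h2 : |μ| < 6) : |μ| = 2 := by
  obtain ⟨d, rfl⟩ := h1
  have h3 : |(2 * (1 + 2 * d) : ℤ)| < 6 := by
    have : ((|(2 * (1 + 2 * d) : ℤ)| : ℤ) : ℝ) < 6 := by push_cast; exact h2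
    exact_mod_cast this
  rw [abs_lt] at h3
  have h4 : d = 0 ∨ d = -1 := by omega
  rcases h4 with rfl | rfl
  · norm_num
  · norm_num

/-- **(K9)** for `k = 4`: `|μ| = 2`, from (X10) and (V4) -/
theorem exists_mu_four (D : T.XM h m W p x) (H : NegB G (4 - 1) (nuP K) δ PN)
    (hU : FI.Sub dU (L.US G)) (hF : FI.Sub dF (GT.FF S)) (hx : EC S x) (hM : XM.MainStmt)
    (hlt : ∀ μ : ℝ, cs hF (GT.idf_mV (FV.vfield_PVB h)) = 1 +
        PowerSeries.C ((μ : ℂ) • (FG.xp (((VX.nE ι : ℝ) : ℂ)⁻¹ • rcl hx) +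
          FG.xq (((VX.nE ι : ℝ) : ℂ)⁻¹ • rcl hx))) * PowerSeries.X ^ (4 / 2) +
        PowerSeries.C ((FG.xp (((VX.nE ι : ℝ) : ℂ)⁻¹ • rcl hx) -
          FG.xq (((VX.nE ι : ℝ) : ℂ)⁻¹ • rcl hx)) ^ 2) * PowerSeries.X ^ 4 → |μ| < 6) :
    ∃ μ : ℝ, |μ| = 2 ∧ Mid h ι hF hx μ ∧
      Coh (L.US G) (EW.cR 2 PN) ((μ / 4) • F.pull Prod.fst x) := by
  obtain ⟨μ, h1, h2, h3⟩ := FG.cs_V D hF hx
  have h4 : |μ| = 2 := abs_two_of (XM.mu_four hM D hF hx h2) (hlt μ h3)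
  refine ⟨μ, h4, h2, ?_⟩
  have h5 := coh_cR h D.hkn H hU hF hx h2
  rw [nE_four D.hι] at h5
  have h6 : 2 * μ / 8 = μ / 4 := by ring
  rwa [h6] at h5

/-- **(K9)** for `k = 4`, over the quotient `B = US G / S¹` -/
theorem exists_mu_four_quo {mm d dp : ℕ} {g : Euc N × Euc N → Fin mm → ℂ}
    {R : ℝ → Wt N K →L[ℝ] Wt N K} {φ : ℝ → Euc N × Euc N → Euc N × Euc N}
    {Tr : Euc N × Euc N → Wt N K →L[ℝ] EuclideanSpace ℝ (Fin dp)}
    {P' : MM mm → EuclideanSpace ℝ (Fin dp) →L[ℝ] EuclideanSpace ℝ (Fin dp)}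
    (D : T.XM h m W p x) (H : NegB G (4 - 1) (nuP K) δ PN)
    (hF : FI.Sub dF (GT.FF S)) (hx : EC S x) (hM : XM.MainStmt)
    (hlt : ∀ μ : ℝ, cs hF (GT.idf_mV (FV.vfield_PVB h)) = 1 +
        PowerSeries.C ((μ : ℂ) • (FG.xp (((VX.nE ι : ℝ) : ℂ)⁻¹ • rcl hx) +
          FG.xq (((VX.nE ι : ℝ) : ℂ)⁻¹ • rcl hx))) * PowerSeries.X ^ (4 / 2) +
        PowerSeries.C ((FG.xp (((VX.nE ι : ℝ) : ℂ)⁻¹ • rcl hx) -
          FG.xq (((VX.nE ι : ℝ) : ℂ)⁻¹ • rcl hx)) ^ 2) * PowerSeries.X ^ 4 → |μ| < 6)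
    (hg : Emb (L.US G) φ g) (hC : Cir (L.US G) φ) (hX : Clo (d + 1) (L.US G)) (hR : CM.Rep R)
    (hT : CM.Triv (L.US G) φ R Tr) (hP : PField (Quo (L.US G) g) (4 - 1) P')
    (hP' : ∀ z ∈ L.US G, P' (jj g z) = CM.Qd Tr PN z) :
    ∃ μ : ℝ, |μ| = 2 ∧ Mid h ι hF hx μ ∧
      Coh (L.US G) (EW.cR 2 PN) ((μ / 4) • F.pull Prod.fst x) ∧
      Coh (L.US G) (F.pull (jj g) (EW.cR 2 P')) ((μ / 4) • F.pull Prod.fst x) := by
  obtain ⟨μ, h1, h2, h3⟩ := exists_mu_four D H hX.sub hF hx hM hlt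
  exact ⟨μ, h1, h2, h3, (EW.pull_cR hg hC hX hR hT H.pfield hP hP' 2).trans h3⟩

end Crest.Agent.R208.PV
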