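import Crest.Agent.R208.CW1
import Crest.Agent.R208.FH11
import Crest.Agent.R208.XM1

-- ▼ part R208/XM2
section

/-! Row 208, block XM (helper671).  XM2: connection forms of orthonormal frames, the Chern-Simons
form, gauge transformations, additivity of `tr (g⁻¹ dg)³`. -/

set_option autoImplicit false
set_option linter.unusedSectionVars false
set_option linter.unusedSimpArgs false
set_option linter.unusedVariables false

open scoped BigOperators ContDiff Topology
open Module Set Matrix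

noncomputable section

namespace Crest.Agent.R208.XM

open Crest.Agent.R208.F Crest.Agent.R208.FI Crest.Agent.R208.CW

section alg
variable {T : Type*} [AddCommGroup T] [Module ℝ T] {n m : Type*} [Fintype n] [Fintype m]

/-- graded cyclicity of the trace -/
theorem tr_odd {X : Matrix n m (CF T)} (hX : invM X = -X) (Y : Matrix m n (CF T)) :
    (X * Y).trace = (invM Y * X).trace := by
  simp only [Matrix.trace, Matrix.diag_apply, Matrix.mul_apply]
  rw [Finset.sum_comm]
  refine Finset.sum_congr rfl fun i _ => Finset.sum_congr rfl fun j _ => ?_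
  have h : invC (X j i) = - X j i := congrFun (congrFun hX j) i
  exact odd_commC h _


variable {A X Y Z : Matrix n n (CF T)}

theorem tr_oo (hX : invM X = -X) (hY : invM Y = -Y) : (X * Y).trace = -(Y * X).trace := by
  rw [tr_odd hX, hY, neg_mul, Matrix.trace_neg]

theorem tr_oe (hX : invM X = -X) (hY : invM Y = Y) : (X * Y).trace = (Y * X).trace := by
  rw [tr_odd hX, hY]

/-- cyclicity for three odd factors -/
theorem tr_ooo (hX : invM X = -X) (hY : invM Y = -Y) (hZ : invM Z = -Z) :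
    (X * Y * Z).trace = (Y * Z * X).trace := by
  rw [Matrix.mul_assoc X Y Z]
  exact tr_oe hX (by rw [invM_mul, hY, hZ, neg_mul_neg])

theorem tr_four (hA : invM A = -A) : (A * A * A * A).trace = 0 := by
  have h : (A * A * A * A).trace = -(A * A * A * A).trace := by
    have e : A * A * A * A = A * (A * A * A) := by simp only [Matrix.mul_assoc]
    conv_lhs => rw [e, tr_oo hA (by rw [invM_mul, invM_mul, hA, neg_mul_neg, mul_neg])]
  have h2 : (2 : ℂ) • (A * A * A * A).trace = 0 := by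
    rw [two_smul]
    nth_rewrite 1 [h]
    rw [neg_add_cancel]
  have h3 := congrArg (fun c => ((2 : ℂ)⁻¹) • c) h2
  simpa [smul_smul] using h3

end alg

section clc
variable {E : Type*} [NormedAddCommGroup E] [NormedSpace ℝ E] [FiniteDimensional ℝ E]
  {n m l : Type*} [Fintype n] [Fintype m] [Fintype l] [DecidableEq n] [DecidableEq m]
  [DecidableEq l] {x : E}

theorem DD_congr {M N : E → Matrix n m ℂ} (h : M =ᶠ[𝓝 x] N) : DD M x = DD N x := by
  refine Matrix.ext fun i j => ?_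
  exact dC_congr (h.mono fun y hy => by simp only [hy])


theorem dM_congr {M N : E → Matrix n m (CF E)} (h : M =ᶠ[𝓝 x] N) : dM M x = dM N x := by
  refine Matrix.ext fun i j => ?_
  exact dC_congr (h.mono fun y hy => by simp only [hy])



/-- the connection form `Bᵀ dB` of a frame -/
def cA (B : E → Matrix n m ℂ) (y : E) : Matrix m m (CF E) := hat E (B y)ᵀ * DD B y

theorem invM_cA (B : E → Matrix n m ℂ) (y : E) : invM (cA B y) = - cA B y := by
  rw [cA, invM_mul, invM_hat, invM_DD, Matrix.mul_neg]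

theorem MD_cA {B : E → Matrix n m ℂ} (hB : SM ∞ B x) : MD ∞ (cA B) x :=
  hB.transpose.hat.mul (hB.MD_DD inf_add_one)

/-- a frame: smooth and orthonormal near `x` -/
structure OFm (B : E → Matrix n m ℂ) (x : E) : Prop where
  sm : ∀ᶠ y in 𝓝 x, SM ∞ B y
  on : ∀ᶠ y in 𝓝 x, (B y)ᵀ * B y = 1

theorem OFm.s {B : E → Matrix n m ℂ} (h : OFm B x) : SM ∞ B x := h.sm.self_of_nhds
theorem OFm.o {B : E → Matrix n m ℂ} (h : OFm B x) : (B x)ᵀ * B x = 1 := h.on.self_of_nhds

theorem OFm.ev {B : E → Matrix n m ℂ} (h : OFm B x) : ∀ᶠ y in 𝓝 x, OFm B y := by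
  filter_upwards [h.sm.eventually_nhds, h.on.eventually_nhds] with y h1 h2 using ⟨h1, h2⟩

theorem DD_tr_mul {B : E → Matrix n m ℂ} (h : OFm B x) :
    DD (fun y => (B y)ᵀ) x * hat E (B x) = - cA B x := by
  have h1 := DD_mul (E := E) (h.s.transpose.of_le one_le_inf) (h.s.of_le one_le_inf)
  have h2 : DD (fun y => (B y)ᵀ * B y) x = 0 := by
    rw [DD_congr (N := fun _ => 1) h.on, DD_const]
  rw [h2] at h1
  rw [cA, eq_neg_iff_add_eq_zero]
  exact h1.symm

theorem dM_cA {B : E → Matrix n m ℂ} (h : SM ∞ B x) :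
    dM (cA B) x = DD (fun y => (B y)ᵀ) x * DD B x := by
  have h1 : MD 1 (fun y => hat E (B y)ᵀ) x := (h.transpose.hat).of_le one_le_inf
  have h2 : MD 1 (DD B) x := (h.MD_DD inf_add_one).of_le one_le_inf
  have h3 := dM_mul h1 h2
  rw [dM_DD (h.of_le two_le), Matrix.mul_zero, add_zero] at h3
  exact h3

theorem dM_dM_cA {B : E → Matrix n m ℂ} (h : ∀ᶠ y in 𝓝 x, SM ∞ B y) :
    dM (dM (cA B)) x = 0 := by
  have h1 : dM (cA B) =ᶠ[𝓝 x] fun y => DD (fun y => (B y)ᵀ) y * DD B y := by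
    filter_upwards [h] with y hy using dM_cA hy
  have hs := h.self_of_nhds
  rw [dM_congr h1, dM_mul ((hs.transpose.MD_DD inf_add_one).of_le one_le_inf)
    ((hs.MD_DD inf_add_one).of_le one_le_inf), dM_DD (hs.of_le two_le),
    dM_DD (hs.transpose.of_le two_le), Matrix.zero_mul, Matrix.mul_zero, add_zero]

theorem invM_dM_cA {B : E → Matrix n m ℂ} (h : SM ∞ B x) : invM (dM (cA B) x) = dM (cA B) x := by
  rw [dM_cA h, invM_mul, invM_DD, invM_DD, Matrix.neg_mul, Matrix.mul_neg, neg_neg]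

/-- the Chern-Simons form -/
def csf (B : E → Matrix n m ℂ) (y : E) : CF E :=
  (cA B y * dM (cA B) y).trace + ((2 : ℂ) / 3) • (cA B y * cA B y * cA B y).trace

theorem CD_csf {B : E → Matrix n m ℂ} (h : SM ∞ B x) : CD ∞ (csf B) x := by
  have h1 := MD_cA h
  exact (h1.mul (h1.dM inf_add_one)).trace.add (((h1.mul h1).mul h1).trace.csmul _)

theorem third (c : CF E) : ((2 : ℂ) / 3) • (c + c + c) = c + c := by
  have : c + c + c = (3 : ℂ) • c := by
    rw [show (3 : ℂ) = 1 + 1 + 1 by norm_num, add_smul, add_smul, one_smul]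
  rw [this, smul_smul, show (2 : ℂ) / 3 * 3 = 1 + 1 by norm_num, add_smul, one_smul]

/-- `d CS = tr F²` -/
theorem dC_csf {B : E → Matrix n m ℂ} (h : ∀ᶠ y in 𝓝 x, SM ∞ B y) :
    dC (csf B) x = ((dM (cA B) x + cA B x * cA B x) * (dM (cA B) x + cA B x * cA B x)).trace := by
  have hs := h.self_of_nhds
  have h1 : MD 1 (cA B) x := (MD_cA hs).of_le one_le_inf
  have h2 : MD 1 (dM (cA B)) x := ((MD_cA hs).dM inf_add_one).of_le one_le_inf
  have ho := invM_cA B x
  have he := invM_dM_cA hs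
  set A := cA B x with hA
  set D := dM (cA B) x with hD
  have e1 : dC (fun y => (cA B y * dM (cA B) y).trace) x = (D * D).trace := by
    rw [dC_trace (h1.mul h2), dM_mul h1 h2, dM_dM_cA h, mul_zero, add_zero]
  have e2 : dC (fun y => (cA B y * cA B y * cA B y).trace) x
      = (D * (A * A)).trace + (D * (A * A)).trace + (D * (A * A)).trace := by
    rw [dC_trace ((h1.mul h1).mul h1), dM_mul (h1.mul h1) h1, dM_mul h1 h1, invM_mul]
    rw [← hA, ← hD, ho, Matrix.trace_add, add_mul, Matrix.trace_add, neg_mul, neg_mul,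
      Matrix.trace_neg, neg_mul_neg]
    have f1 : (A * D * A).trace = -(D * (A * A)).trace := by
      rw [Matrix.mul_assoc A D A, tr_oo ho (by rw [invM_mul, he, ho, mul_neg]), Matrix.mul_assoc]
    have f2 : (A * A * D).trace = (D * (A * A)).trace := by
      rw [Matrix.mul_assoc A A D, tr_oo ho (by rw [invM_mul, he, ho, neg_mul]), f1, neg_neg]
    rw [f1, f2, neg_neg, Matrix.mul_assoc]
  have e3 : dC (csf B) x = (D * D).trace + ((2 : ℂ) / 3) • ((D * (A * A)).trace
      + (D * (A * A)).trace + (D * (A * A)).trace) := by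
    rw [← e1, ← e2, ← dC_csmul _ (((h1.mul h1).mul h1).trace)]
    exact dC_add (h1.mul h2).trace ((((h1.mul h1).mul h1).trace).csmul _)
  rw [e3, third]
  have f2 : (A * A * D).trace = (D * (A * A)).trace := by
    have f1 : (A * D * A).trace = -(D * (A * A)).trace := by
      rw [Matrix.mul_assoc A D A, tr_oo ho (by rw [invM_mul, he, ho, mul_neg]), Matrix.mul_assoc]
    rw [Matrix.mul_assoc A A D, tr_oo ho (by rw [invM_mul, he, ho, neg_mul]), f1, neg_neg]
  have f4 : (A * A * (A * A)).trace = 0 := by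
    rw [← Matrix.mul_assoc]; exact tr_four ho
  rw [mul_add, add_mul, add_mul, Matrix.trace_add, Matrix.trace_add, Matrix.trace_add, f2, f4,
    add_zero, add_assoc]

/-- **`s_2` of the field of a frame is `d CS`** -/
theorem sf_two_eq {B : E → Matrix n m ℂ} (h : OFm B x) {Q : E → Matrix n n ℂ}
    (hQ : Q =ᶠ[𝓝 x] fun y => B y * (B y)ᵀ) : sf 2 Q x = dC (csf B) x := by
  have hb1 : SM 1 B x := h.s.of_le one_le_inf
  have hq1 : Q x = B x * (B x)ᵀ := hQ.self_of_nhds
  have hδ : DD Q x = DD B x * hat E (B x)ᵀ + hat E (B x) * DD (fun y => (B y)ᵀ) x := by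
    rw [DD_congr hQ, DD_mul hb1 hb1.transpose]
  have hCB : hat E (B x)ᵀ * hat E (B x) = 1 := by rw [← hat_mul, h.o, hat_one]
  set b := hat E (B x) with hb
  set c := hat E (B x)ᵀ with hc
  set db := DD B x with hdb
  set dc := DD (fun y => (B y)ᵀ) x with hdc
  have hdcb : dc * b = -(c * db) := DD_tr_mul h
  have hA : cA B x = c * db := rfl
  have hDA : dM (cA B) x = dc * db := dM_cA h.s
  have hqh : hat E (Q x) = b * c := by rw [hq1, hat_mul]
  have r1 : ∀ Y : Matrix m n (CF E), c * (b * Y) = Y := fun Y => by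
    rw [← Matrix.mul_assoc, hCB, Matrix.one_mul]
  have r1' : ∀ Y : Matrix m m (CF E), c * (b * Y) = Y := fun Y => by
    rw [← Matrix.mul_assoc, hCB, Matrix.one_mul]
  have r2 : ∀ Y : Matrix m n (CF E), dc * (b * Y) = -(c * (db * Y)) :=
    fun Y => by rw [← Matrix.mul_assoc, hdcb, Matrix.neg_mul, Matrix.mul_assoc]
  have r2' : ∀ Y : Matrix m m (CF E), dc * (b * Y) = -(c * (db * Y)) :=
    fun Y => by rw [← Matrix.mul_assoc, hdcb, Matrix.neg_mul, Matrix.mul_assoc]
  have hqq : hat E (Q x) * hat E (Q x) = hat E (Q x) := by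
    rw [hqh, Matrix.mul_assoc, r1]
  -- `δ = δ q + q δ`
  have hδq : DD Q x = DD Q x * hat E (Q x) + hat E (Q x) * DD Q x := by
    rw [hδ, hqh]
    simp only [Matrix.add_mul, Matrix.mul_add, Matrix.mul_assoc, r1, r1', r2, r2', Matrix.mul_neg,
      Matrix.neg_mul]
    abel
  have h4 := idem_pow hqq hδq 2
  have hF : c * (DD Q x * DD Q x) * b = dM (cA B) x + cA B x * cA B x := by
    rw [hδ, hDA, hA]
    simp only [Matrix.add_mul, Matrix.mul_add, Matrix.mul_assoc, r1, r1', r2, r2', hCB, hdcb,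
      Matrix.mul_neg, Matrix.neg_mul, Matrix.mul_one]
    abel
  have hF' : c * (DD Q x * (DD Q x * b)) = dM (cA B) x + cA B x * cA B x := by
    rw [← hF]; simp only [Matrix.mul_assoc]
  rw [dC_csf h.sm, sf, h4]
  set F := dM (cA B) x + cA B x * cA B x with hFd
  have r3 : ∀ Y : Matrix m n (CF E),
      c * (DD Q x * (DD Q x * (b * Y))) = F * Y := fun Y => by
    rw [← hF']; simp only [Matrix.mul_assoc]
  have r3' : ∀ Y : Matrix m m (CF E),
      c * (DD Q x * (DD Q x * (b * Y))) = F * Y := fun Y => by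
    rw [← hF']; simp only [Matrix.mul_assoc]
  have e5 : hat E (Q x) * (hat E (Q x) * (DD Q x * DD Q x) * hat E (Q x)) ^ 2 = b * (F * F * c) := by
    rw [hqh, sq]
    simp only [Matrix.mul_assoc, r1, r3, r3']
  rw [e5, hb, trace_hat_comm, ← hb, Matrix.mul_assoc (F * F) c b, hCB, Matrix.mul_one]

end clc

/-! ### square frames -/

section sq
variable {E : Type*} [NormedAddCommGroup E] [NormedSpace ℝ E] [FiniteDimensional ℝ E]
  {n m : Type*} [Fintype n] [Fintype m] [DecidableEq n] [DecidableEq m] {x : E}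

theorem OFm.mul {g : E → Matrix n m ℂ} {h : E → Matrix m m ℂ} (hg : OFm g x) (hh : OFm h x) :
    OFm (fun y => g y * h y) x where
  sm := by filter_upwards [hg.sm, hh.sm] with y h1 h2 using h1.mul h2
  on := by
    filter_upwards [hg.on, hh.on] with y h1 h2
    rw [Matrix.transpose_mul, Matrix.mul_assoc, ← Matrix.mul_assoc (g y)ᵀ, h1, Matrix.one_mul, h2]

theorem OFm.o' {g : E → Matrix m m ℂ} (h : OFm g x) : g x * (g x)ᵀ = 1 :=
  mul_eq_one_comm.1 h.o

theorem OFm.congr {g g' : E → Matrix n m ℂ} (h : OFm g x) (hg : g' =ᶠ[𝓝 x] g) : OFm g' x where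
  sm := by
    filter_upwards [h.sm, hg.eventually_nhds] with y h1 h2
    intro i j
    exact (h1 i j).congr_of_eventuallyEq (h2.mono fun z hz => by simp only [hz])
  on := by filter_upwards [h.on, hg] with y h1 h2; rw [h2, h1]

/-- `(Bᵀ dB)³` -/
def w3 (B : E → Matrix n m ℂ) (y : E) : CF E := (cA B y * cA B y * cA B y).trace


theorem CD_w3 {B : E → Matrix n m ℂ} (h : SM ∞ B x) : CD ∞ (w3 B) x :=
  (((MD_cA h).mul (MD_cA h)).mul (MD_cA h)).trace

theorem cA_congr {B B' : E → Matrix n m ℂ} (h : B =ᶠ[𝓝 x] B') : cA B x = cA B' x := by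
  rw [cA, cA, DD_congr h, h.self_of_nhds]

theorem w3_congr {B B' : E → Matrix n m ℂ} (h : B =ᶠ[𝓝 x] B') : w3 B x = w3 B' x := by
  rw [w3, w3, cA_congr h]


theorem csf_congr {B B' : E → Matrix n m ℂ} (h : B =ᶠ[𝓝 x] B') : csf B x = csf B' x := by
  have h1 : cA B =ᶠ[𝓝 x] cA B' := h.eventually_nhds.mono fun _ hy => cA_congr hy
  rw [csf, csf, dM_congr h1, cA_congr h]

theorem DD_const_mul {B₀ : Matrix n m ℂ} {g : E → Matrix m m ℂ} (hg : SM ∞ g x) :
    DD (fun y => B₀ * g y) x = hat E B₀ * DD g x := by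
  rw [DD_mul (A := fun _ => B₀) (SM.const B₀) (hg.of_le one_le_inf), DD_const, Matrix.zero_mul, zero_add]

/-- constant gauge factors on the left do not matter -/
theorem cA_const_mul {B₀ : Matrix n m ℂ} (h0 : B₀ᵀ * B₀ = 1) {g : E → Matrix m m ℂ}
    (hg : SM ∞ g x) : cA (fun y => B₀ * g y) x = cA g x := by
  rw [cA, DD_const_mul hg, Matrix.transpose_mul, hat_mul, cA]
  calc hat E (g x)ᵀ * hat E B₀ᵀ * (hat E B₀ * DD g x)
      = hat E (g x)ᵀ * (hat E B₀ᵀ * hat E B₀) * DD g x := by simp only [Matrix.mul_assoc]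
    _ = _ := by rw [← hat_mul, h0, hat_one, Matrix.mul_one]

theorem csf_const_mul {B₀ : Matrix n m ℂ} (h0 : B₀ᵀ * B₀ = 1) {g : E → Matrix m m ℂ}
    (hg : ∀ᶠ y in 𝓝 x, SM ∞ g y) : csf (fun y => B₀ * g y) x = csf g x := by
  have h1 : cA (fun y => B₀ * g y) =ᶠ[𝓝 x] cA g := hg.mono fun y hy => cA_const_mul h0 hy
  rw [csf, csf, dM_congr h1, h1.self_of_nhds]

variable {g h : E → Matrix m m ℂ}

theorem DD_eq (hg : OFm g x) : DD g x = hat E (g x) * cA g x := by
  rw [cA, ← Matrix.mul_assoc, ← hat_mul, hg.o', hat_one, Matrix.one_mul]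

theorem DDt_eq (hg : OFm g x) : DD (fun y => (g y)ᵀ) x = -(cA g x * hat E (g x)ᵀ) := by
  have h1 := DD_tr_mul hg
  calc DD (fun y => (g y)ᵀ) x = DD (fun y => (g y)ᵀ) x * (hat E (g x) * hat E (g x)ᵀ) := by
        rw [← hat_mul, hg.o', hat_one, Matrix.mul_one]
    _ = _ := by rw [← Matrix.mul_assoc, h1, Matrix.neg_mul]

theorem dM_cA_sq (hg : OFm g x) : dM (cA g) x = -(cA g x * cA g x) := by
  rw [dM_cA hg.s, DD_eq hg, ← Matrix.mul_assoc, DD_tr_mul hg, Matrix.neg_mul]

/-- Chern-Simons form of a gauge transformation -/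
theorem csf_sq (hg : OFm g x) : csf g x = (-(1 : ℂ) / 3) • w3 g x := by
  rw [csf, dM_cA_sq hg, w3, Matrix.mul_neg, Matrix.trace_neg, ← Matrix.mul_assoc]
  set c := (cA g x * cA g x * cA g x).trace
  rw [show -c = (-1 : ℂ) • c by rw [neg_smul, one_smul], ← add_smul]
  norm_num

theorem dC_w3 {B : E → Matrix n m ℂ} (hs : SM ∞ B x) :
    dC (w3 B) x = (dM (cA B) x * (cA B x * cA B x)).trace
      + (dM (cA B) x * (cA B x * cA B x)).trace + (dM (cA B) x * (cA B x * cA B x)).trace := by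
  have h1 : MD 1 (cA B) x := (MD_cA hs).of_le one_le_inf
  have h2 : MD 1 (dM (cA B)) x := ((MD_cA hs).dM inf_add_one).of_le one_le_inf
  have ho := invM_cA B x
  have he := invM_dM_cA hs
  set A := cA B x with hA
  set D := dM (cA B) x with hD
  change dC (fun y => (cA B y * cA B y * cA B y).trace) x = _
  rw [dC_trace ((h1.mul h1).mul h1), dM_mul (h1.mul h1) h1, dM_mul h1 h1, invM_mul]
  rw [← hA, ← hD, ho, Matrix.trace_add, add_mul, Matrix.trace_add, neg_mul, neg_mul,
    Matrix.trace_neg, neg_mul_neg]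
  have f1 : (A * D * A).trace = -(D * (A * A)).trace := by
    rw [Matrix.mul_assoc A D A, tr_oo ho (by rw [invM_mul, he, ho, mul_neg]), Matrix.mul_assoc]
  have f2 : (A * A * D).trace = (D * (A * A)).trace := by
    rw [Matrix.mul_assoc A A D, tr_oo ho (by rw [invM_mul, he, ho, neg_mul]), f1, neg_neg]
  rw [f1, f2, neg_neg, Matrix.mul_assoc]

/-- `tr (g⁻¹ dg)³` is closed -/
theorem dC_w3_sq (hg : OFm g x) : dC (w3 g) x = 0 := by
  have h4 : (cA g x * cA g x * (cA g x * cA g x)).trace = 0 := by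
    rw [← Matrix.mul_assoc]; exact tr_four (invM_cA g x)
  rw [dC_w3 hg.s, dM_cA_sq hg, Matrix.neg_mul, Matrix.trace_neg, h4]
  simp

/-- gauge transformation of the connection form -/
theorem cA_mul (hg : OFm g x) (hh : OFm h x) :
    cA (fun y => g y * h y) x = hat E (h x)ᵀ * cA g x * hat E (h x) + cA h x := by
  rw [cA, DD_mul (hg.s.of_le one_le_inf) (hh.s.of_le one_le_inf), Matrix.transpose_mul, hat_mul,
    Matrix.mul_add, cA, cA]
  congr 1
  · simp only [Matrix.mul_assoc]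
  · calc hat E (h x)ᵀ * hat E (g x)ᵀ * (hat E (g x) * DD h x)
        = hat E (h x)ᵀ * (hat E (g x)ᵀ * hat E (g x)) * DD h x := by
          simp only [Matrix.mul_assoc]
      _ = _ := by rw [← hat_mul, hg.o, hat_one, Matrix.mul_one]

/-- the mixed term -/
def mx (g h : E → Matrix m m ℂ) (y : E) : CF E :=
  (hat E (h y)ᵀ * cA g y * hat E (h y) * cA h y).trace

theorem CD_mx (hg : SM ∞ g x) (hh : SM ∞ h x) : CD ∞ (mx g h) x :=
  ((((hh.transpose.hat).mul (MD_cA hg)).mul hh.hat).mul (MD_cA hh)).trace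

/-- **additivity** of `tr (g⁻¹ dg)³` modulo exact forms -/
theorem w3_mul (hg : OFm g x) (hh : OFm h x) :
    w3 (fun y => g y * h y) x = w3 g x + w3 h x - (3 : ℂ) • dC (mx g h) x := by
  have hgs : MD 1 (cA g) x := (MD_cA hg.s).of_le one_le_inf
  have hhs : MD 1 (cA h) x := (MD_cA hh.s).of_le one_le_inf
  have hht : MD 1 (fun y => hat E (h y)ᵀ) x := hh.s.transpose.hat.of_le one_le_inf
  have hhh : MD 1 (fun y => hat E (h y)) x := hh.s.hat.of_le one_le_inf
  set θ := cA g x with hθ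
  set ψ := cA h x with hψ
  set a := hat E (h x) with ha
  set b := hat E (h x)ᵀ with hb
  have hθo : invM θ = -θ := invM_cA g x
  have hψo : invM ψ = -ψ := invM_cA h x
  have hab : a * b = 1 := by rw [ha, hb, ← hat_mul, hh.o', hat_one]
  have hba : b * a = 1 := by rw [ha, hb, ← hat_mul, hh.o, hat_one]
  set φ := b * θ * a with hφ
  have hφo : invM φ = -φ := by
    rw [hφ, invM_mul, invM_mul, hθo, ha, hb, invM_hat, invM_hat, mul_neg, neg_mul]
  have hdφ : dM (fun y => hat E (h y)ᵀ * cA g y * hat E (h y)) x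
      = -(ψ * φ) - φ * φ - φ * ψ := by
    rw [dM_mul (hht.mul hgs) hhh, dM_mul hht hgs, invM_mul, invM_hat]
    have e1 : dM (fun y => hat E (h y)ᵀ) x = -(ψ * b) := DDt_eq hh
    have e2 : dM (fun y => hat E (h y)) x = a * ψ := DD_eq hh
    rw [e1, e2, dM_cA_sq hg, ← hθ, hθo, ← hb, ← ha]
    have e3 : φ * φ = b * (θ * θ) * a := by
      rw [hφ]
      calc b * θ * a * (b * θ * a) = b * θ * (a * b) * θ * a := by noncomm_ring
        _ = _ := by rw [hab]; noncomm_ring
    rw [e3, hφ]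
    noncomm_ring
  have hdmx : dC (mx g h) x = -(φ * φ * ψ).trace - (φ * ψ * ψ).trace := by
    change dC (fun y => (hat E (h y)ᵀ * cA g y * hat E (h y) * cA h y).trace) x = _
    rw [dC_trace (((hht.mul hgs).mul hhh).mul hhs), dM_mul ((hht.mul hgs).mul hhh) hhs, hdφ,
      dM_cA_sq hh, ← hψ]
    change ((-(ψ * φ) - φ * φ - φ * ψ) * ψ + invM φ * -(ψ * ψ)).trace = _
    rw [hφo]
    have e1 : (ψ * φ * ψ).trace = (φ * ψ * ψ).trace := tr_ooo hψo hφo hψo
    have e2 : (-(ψ * φ) - φ * φ - φ * ψ) * ψ + -φ * -(ψ * ψ)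
        = -(ψ * φ * ψ) - φ * φ * ψ - φ * ψ * ψ + φ * ψ * ψ := by noncomm_ring
    rw [e2, Matrix.trace_add, Matrix.trace_sub, Matrix.trace_sub, Matrix.trace_neg, e1]
    abel
  have hw : w3 g x = (φ * φ * φ).trace := by
    have e1 : φ * φ * φ = b * (θ * θ * θ * a) := by
      rw [hφ]
      calc b * θ * a * (b * θ * a) * (b * θ * a)
          = b * θ * (a * b) * θ * (a * b) * θ * a := by noncomm_ring
        _ = _ := by rw [hab]; noncomm_ring
    rw [e1, hb, trace_hat_comm, ← hb, Matrix.mul_assoc (θ * θ * θ) a b, hab, Matrix.mul_one]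
    rfl
  rw [hdmx, hw]
  change (cA (fun y => g y * h y) x * cA (fun y => g y * h y) x
    * cA (fun y => g y * h y) x).trace = _
  rw [cA_mul hg hh, ← hθ, ← hψ, ← ha, ← hb, ← hφ]
  change _ = (φ * φ * φ).trace + (ψ * ψ * ψ).trace - (3 : ℂ) • _
  have e1 : (φ * ψ * φ).trace = (φ * φ * ψ).trace := by
    rw [tr_ooo hφo hψo hφo, tr_ooo hψo hφo hφo]
  have e2 : (ψ * φ * φ).trace = (φ * φ * ψ).trace := tr_ooo hψo hφo hφo
  have e3 : (ψ * φ * ψ).trace = (φ * ψ * ψ).trace := tr_ooo hψo hφo hψo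
  have e4 : (ψ * ψ * φ).trace = (φ * ψ * ψ).trace := by
    rw [tr_ooo hψo hψo hφo, e3]
  have e5 : (φ + ψ) * (φ + ψ) * (φ + ψ) = φ * φ * φ + φ * φ * ψ + φ * ψ * φ + φ * ψ * ψ
      + ψ * φ * φ + ψ * φ * ψ + ψ * ψ * φ + ψ * ψ * ψ := by noncomm_ring
  rw [e5]
  simp only [Matrix.trace_add, e1, e2, e3, e4]
  set u := (φ * φ * ψ).trace
  set v := (φ * ψ * ψ).trace
  have e6 : (3 : ℂ) • (-u - v) = -(u + u + u) - (v + v + v) := by
    rw [show (3 : ℂ) = 1 + 1 + 1 by norm_num, add_smul, add_smul, one_smul]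
    abel
  rw [e6]
  abel

end sq

end Crest.Agent.R208.XM
end
end

-- ▼ part R208/XM3
section

/-! Row 208, block XM (helper671).  XM3: cut-off functions and the functional
`w ↦ ∫_X dχ ∧ w`. -/

set_option autoImplicit false
set_option linter.unusedSectionVars false
set_option linter.unusedSimpArgs false
set_option linter.unusedVariables false

open scoped BigOperators ContDiff Topology
open Module Set Filter

noncomputable section

namespace Crest.Agent.R208.XM

open Crest.Agent.R208.F Crest.Agent.R208.FI Crest.Agent.R208.CW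

section cut
variable {E : Type*} [NormedAddCommGroup E] [NormedSpace ℝ E] [FiniteDimensional ℝ E]
  {n : ℕ} {X U : Set E} {o : E → Ext E} {χ χ' : E → ℝ} {w w' η : E → CF E} {z : E}

/-- a real function as a form -/
def fn (χ : E → ℝ) (y : E) : CF E := algebraMap ℂ (CF E) ((χ y : ℝ) : ℂ)

theorem CD_fn (h : ContDiffAt ℝ ∞ χ z) : CD ∞ (fn χ) z :=
  CD.of_fun (Complex.ofRealCLM.contDiff.contDiffAt.comp z h)

theorem invC_fn (χ : E → ℝ) (y : E) : invC (fn χ y) = fn χ y := invC_algebraMap _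


/-- a cut-off function: smooth along `X`, locally constant off `U` -/
structure Cut (X U : Set E) (χ : E → ℝ) : Prop where
  sm : ∀ z ∈ X, ContDiffAt ℝ ∞ χ z
  lc : ∀ z ∈ X, z ∉ U → ∃ c : ℝ, χ =ᶠ[𝓝 z] fun _ => c

theorem Cut.dC_eq (h : Cut X U χ) (hz : z ∈ X) (hU : z ∉ U) : dC (fn χ) =ᶠ[𝓝 z] fun _ => 0 := by
  obtain ⟨c, hc⟩ := h.lc z hz hU
  have h1 : fn χ =ᶠ[𝓝 z] fun _ => algebraMap ℂ (CF E) ((c : ℝ) : ℂ) :=
    hc.mono fun y hy => by simp only [fn, hy]
  refine (dC_congr_nhds h1).trans (Filter.Eventually.of_forall fun y => ?_)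
  exact dC_const _ _

theorem Cut.smo (h : Cut X U χ) (hw : Smo (X ∩ U) w) : Smo X (fun y => dC (fn χ) y * w y) := by
  intro z hz
  by_cases hU : z ∈ U
  · exact ((CD_fn (h.sm z hz)).dC inf_add_one).mul (hw z ⟨hz, hU⟩)
  · refine (CD.const (0 : CF E)).congr ?_
    filter_upwards [h.dC_eq hz hU] with y hy
    rw [hy, zero_mul]

/-- `∫_X dχ ∧ w` -/
def Mc (n : ℕ) (X : Set E) (o : E → Ext E) (χ : E → ℝ) (w : E → CF E) : ℂ :=
  JC n X o fun y => dC (fn χ) y * w y

variable (hX : Clo n X) (ho : Ori n X o)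
include hX ho

theorem Mc_add (h : Cut X U χ) (hw : Smo (X ∩ U) w) (hw' : Smo (X ∩ U) w') :
    Mc n X o χ (fun y => w y + w' y) = Mc n X o χ w + Mc n X o χ w' := by
  rw [Mc, Mc, Mc, ← JC_add hX ho (h.smo hw) (h.smo hw')]
  congr 1
  funext y
  exact mul_add _ _ _

theorem Mc_smul (h : Cut X U χ) (hw : Smo (X ∩ U) w) (c : ℂ) :
    Mc n X o χ (fun y => c • w y) = c * Mc n X o χ w := by
  rw [Mc, Mc, ← JC_csmul hX ho c (h.smo hw)]
  congr 1
  funext y
  exact mul_smul_comm _ _ _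

theorem Mc_congr (h : Cut X U χ) (he : ∀ z ∈ X, z ∈ U → w z = w' z) :
    Mc n X o χ w = Mc n X o χ w' := by
  refine JC_congr hX fun z hz => ?_
  by_cases hU : z ∈ U
  · rw [he z hz hU]
  · rw [(h.dC_eq hz hU).self_of_nhds, zero_mul, zero_mul]

theorem Mc_dC (h : Cut X U χ) (hη : Smo (X ∩ U) η) : Mc n X o χ (dC η) = 0 := by
  have h1 : JC n X o (dC fun y => dC (fn χ) y * η y) = 0 := JC_dC hX ho (h.smo hη)
  have h2 : JC n X o (dC fun y => dC (fn χ) y * η y)
      = JC n X o ((-1 : ℂ) • fun y => dC (fn χ) y * dC η y) := by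
    refine JC_congr hX fun z hz => ?_
    congr 1
    by_cases hU : z ∈ U
    · have h3 := ((CD_fn (h.sm z hz)).dC inf_add_one)
      rw [dC_mul (h3.of_le one_le_inf) ((hη z ⟨hz, hU⟩).of_le one_le_inf),
        dC_dC ((CD_fn (h.sm z hz)).of_le two_le), zero_mul, zero_add]
      have h4 : invC (dC (fn χ) z) = - dC (fn χ) z := by
        have := dC_invC' (fn χ) z
        simp only [invC_fn] at this
        exact (neg_eq_iff_eq_neg.2 this).symm
      rw [h4]
      simp only [Pi.smul_apply, neg_smul, one_smul, neg_mul]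
    · have h3 : (fun y => dC (fn χ) y * η y) =ᶠ[𝓝 z] fun _ => 0 := by
        filter_upwards [h.dC_eq hz hU] with y hy
        rw [hy, zero_mul]
      rw [dC_congr h3, dC_const]
      simp only [Pi.smul_apply, (h.dC_eq hz hU).self_of_nhds, zero_mul, smul_zero]
  rw [h1] at h2
  rw [JC_csmul hX ho _ (h.smo (w := dC η) fun z hz => (hη z hz).dC inf_add_one)] at h2
  have h3 : (-1 : ℂ) * Mc n X o χ (dC η) = 0 := h2.symm
  simpa using h3

theorem Mc_indep (h : Cut X U χ) (h' : Cut X U χ') (he : ∀ z ∈ X, z ∉ U → χ =ᶠ[𝓝 z] χ')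
    (hw : Smo (X ∩ U) w) (hc : ∀ z ∈ X, z ∈ U → dC w z = 0) :
    Mc n X o χ w = Mc n X o χ' w := by
  have hs : Smo X (fun y => (fn χ y - fn χ' y) * w y) := by
    intro z hz
    by_cases hU : z ∈ U
    · exact ((CD_fn (h.sm z hz)).sub (CD_fn (h'.sm z hz))).mul (hw z ⟨hz, hU⟩)
    · refine (CD.const (0 : CF E)).congr ?_
      filter_upwards [he z hz hU] with y hy
      rw [fn, fn, hy, sub_self, zero_mul]
  have h1 : JC n X o (dC fun y => (fn χ y - fn χ' y) * w y) = 0 := JC_dC hX ho hs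
  have h2 : JC n X o (dC fun y => (fn χ y - fn χ' y) * w y)
      = JC n X o ((fun y => dC (fn χ) y * w y) + (-1 : ℂ) • fun y => dC (fn χ') y * w y) := by
    refine JC_congr hX fun z hz => ?_
    congr 1
    simp only [Pi.add_apply, Pi.smul_apply, neg_smul, one_smul]
    by_cases hU : z ∈ U
    · have c1 := CD_fn (h.sm z hz)
      have c2 := CD_fn (h'.sm z hz)
      rw [dC_mul ((c1.sub c2).of_le one_le_inf) ((hw z ⟨hz, hU⟩).of_le one_le_inf), hc z hz hU,
        mul_zero, add_zero, dC_sub (c1.of_le one_le_inf) (c2.of_le one_le_inf), sub_mul,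
        sub_eq_add_neg]
      rfl
    · have h3 : (fun y => (fn χ y - fn χ' y) * w y) =ᶠ[𝓝 z] fun _ => 0 := by
        filter_upwards [he z hz hU] with y hy
        rw [fn, fn, hy, sub_self, zero_mul]
      rw [dC_congr h3, dC_const]
      change 0 = dC (fn χ) z * w z + -(dC (fn χ') z * w z)
      rw [(h.dC_eq hz hU).self_of_nhds, (h'.dC_eq hz hU).self_of_nhds]
      simp
  rw [h1, JC_add hX ho (h.smo hw) ((h'.smo hw).csmul _), JC_csmul hX ho _ (h'.smo hw)] at h2
  have h3 : (0 : ℂ) = Mc n X o χ w + (-1) * Mc n X o χ' w := h2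
  linear_combination -h3

/-- transgression -/
theorem JC_eq_neg_Mc (h : Cut X U χ) (hη : Smo X η) (hw : ∀ z ∈ X, rs X z (w z)
      = rs X z (fn χ z * dC η z)) : JC n X o w = - Mc n X o χ η := by
  have hs : Smo X (fun y => fn χ y * η y) := fun z hz => (CD_fn (h.sm z hz)).mul (hη z hz)
  have hη' : Smo (X ∩ U) η := fun z hz => hη z hz.1
  have h1 : JC n X o (dC fun y => fn χ y * η y) = 0 := JC_dC hX ho hs
  have h2 : JC n X o (dC fun y => fn χ y * η y)
      = JC n X o ((fun y => dC (fn χ) y * η y) + fun y => fn χ y * dC η y) := by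
    refine JC_congr hX fun z hz => ?_
    rw [dC_mul ((CD_fn (h.sm z hz)).of_le one_le_inf) ((hη z hz).of_le one_le_inf), invC_fn]
    rfl
  rw [h1, JC_add hX ho (h.smo hη') fun z hz =>
    (CD_fn (h.sm z hz)).mul ((hη z hz).dC inf_add_one)] at h2
  have h3 : JC n X o w = JC n X o fun y => fn χ y * dC η y := JC_congr hX hw
  rw [h3]
  have h4 : (0 : ℂ) = Mc n X o χ η + JC n X o fun y => fn χ y * dC η y := h2
  linear_combination -h4

end cut

section deg
variable {E F : Type*} [NormedAddCommGroup E] [NormedSpace ℝ E] [FiniteDimensional ℝ E]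
  [NormedAddCommGroup F] [NormedSpace ℝ F] [FiniteDimensional ℝ F]
  {n : ℕ} {X : Set E} {Y : Set F} {oX : E → Ext E} {oY : F → Ext F} {f : E → F}

/-- degree, complex forms -/
theorem exists_deg_JC (hX : Clo n X) (hoX : Ori n X oX) (hY : Clo n Y) (hoY : Ori n Y oY)
    (hYc : IsPreconnected Y) (hf : SMap X Y f) :
    ∃ d : ℤ, ∀ om : F → CF F, Smo Y om → JC n X oX (pullC f om) = d * JC n Y oY om := by
  obtain ⟨d, hd⟩ := exists_degree hX hoX hY hoY hYc (fun x hx => hf.c2 hx) hf.maps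
  refine ⟨d, fun om hom => ?_⟩
  have h1 := hd (fun y => (om y).re) hom.cont_re
  have h2 := hd (fun y => (om y).im) hom.cont_im
  apply Complex.ext
  · change J n X oX (pull f fun y => (om y).re) = _
    rw [h1]
    simp [JC]
  · change J n X oX (pull f fun y => (om y).im) = _
    rw [h2]
    simp [JC]

end deg

end Crest.Agent.R208.XM
end
end

-- ▼ part R208/XM4

/-! Row 208, block XM (helper671).  XM4: the real and complex matrices of quaternionic left and
right multiplications; the tautological field `LV z = L_(v/|v|)`, `z = (t, v)`. -/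

set_option autoImplicit false
set_option linter.unusedSectionVars false
set_option linter.unusedSimpArgs false
set_option linter.unusedVariables false

open scoped BigOperators ContDiff Topology Quaternion RealInnerProductSpace
open Module Set Filter Matrix

noncomputable section

namespace Crest.Agent.R208.XM

open Crest.Agent.R208.F Crest.Agent.R208.FI Crest.Agent.R208.CW

/-- matrix of `x ↦ a * x` in the basis `1, i, j, k` -/
def LM (a : ℍ) : Matrix (Fin 4) (Fin 4) ℝ :=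
  !![a.re, -a.imI, -a.imJ, -a.imK; a.imI, a.re, -a.imK, a.imJ;
    a.imJ, a.imK, a.re, -a.imI; a.imK, -a.imJ, a.imI, a.re]

/-- matrix of `x ↦ x * b` in the basis `1, i, j, k` -/
def RM (b : ℍ) : Matrix (Fin 4) (Fin 4) ℝ :=
  !![b.re, -b.imI, -b.imJ, -b.imK; b.imI, b.re, b.imK, -b.imJ;
    b.imJ, -b.imK, b.re, b.imI; b.imK, b.imJ, -b.imI, b.re]

/-- complexified matrices -/
def LC (a : ℍ) : Matrix (Fin 4) (Fin 4) ℂ := (LM a).map ((↑) : ℝ → ℂ)
def RC (a : ℍ) : Matrix (Fin 4) (Fin 4) ℂ := (RM a).map ((↑) : ℝ → ℂ)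

/-- components of a quaternion -/
def qc (a : ℍ) (i : Fin 4) : ℝ := ![a.re, a.imI, a.imJ, a.imK] i

/-- the basis quaternions -/
def qe (i : Fin 4) : ℍ := ![⟨1, 0, 0, 0⟩, ⟨0, 1, 0, 0⟩, ⟨0, 0, 1, 0⟩, ⟨0, 0, 0, 1⟩] i

@[simp] theorem qe0_re : (qe 0).re = 1 := rfl
@[simp] theorem qe0_imI : (qe 0).imI = 0 := rfl
@[simp] theorem qe0_imJ : (qe 0).imJ = 0 := rfl
@[simp] theorem qe0_imK : (qe 0).imK = 0 := rfl
@[simp] theorem qe1_re : (qe 1).re = 0 := rfl
@[simp] theorem qe1_imI : (qe 1).imI = 1 := rfl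
@[simp] theorem qe1_imJ : (qe 1).imJ = 0 := rfl
@[simp] theorem qe1_imK : (qe 1).imK = 0 := rfl
@[simp] theorem qe2_re : (qe 2).re = 0 := rfl
@[simp] theorem qe2_imI : (qe 2).imI = 0 := rfl
@[simp] theorem qe2_imJ : (qe 2).imJ = 1 := rfl
@[simp] theorem qe2_imK : (qe 2).imK = 0 := rfl
@[simp] theorem qe3_re : (qe 3).re = 0 := rfl
@[simp] theorem qe3_imI : (qe 3).imI = 0 := rfl
@[simp] theorem qe3_imJ : (qe 3).imJ = 0 := rfl
@[simp] theorem qe3_imK : (qe 3).imK = 1 := rfl

theorem LM_apply (a : ℍ) (i j : Fin 4) : LM a i j = qc (a * qe j) i := by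
  fin_cases i <;> fin_cases j <;> simp [LM, qc]

theorem RM_apply (a : ℍ) (i j : Fin 4) : RM a i j = qc (qe j * a) i := by
  fin_cases i <;> fin_cases j <;> simp [RM, qc]

theorem qc_eq_inner (a : ℍ) (i : Fin 4) : qc a i = ⟪qe i, a⟫ := by
  rw [Quaternion.inner_def]
  fin_cases i <;> simp [qc]

theorem LM_mul (a b : ℍ) : LM (a * b) = LM a * LM b := by
  ext i j
  fin_cases i <;> fin_cases j <;>
    simp [LM, Matrix.mul_apply, Fin.sum_univ_four] <;> ring

theorem RM_mul (a b : ℍ) : RM (a * b) = RM b * RM a := by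
  ext i j
  fin_cases i <;> fin_cases j <;>
    simp [RM, Matrix.mul_apply, Fin.sum_univ_four] <;> ring


theorem LM_star (a : ℍ) : LM (star a) = (LM a)ᵀ := by
  ext i j
  fin_cases i <;> fin_cases j <;> simp [LM, Matrix.transpose_apply]

theorem RM_star (a : ℍ) : RM (star a) = (RM a)ᵀ := by
  ext i j
  fin_cases i <;> fin_cases j <;> simp [RM, Matrix.transpose_apply]

theorem LM_one : LM 1 = 1 := by
  ext i j
  fin_cases i <;> fin_cases j <;> simp [LM]

theorem RM_one : RM 1 = 1 := by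
  ext i j
  fin_cases i <;> fin_cases j <;> simp [RM]

/-- the matrix of the conjugation -/
def kap : Matrix (Fin 4) (Fin 4) ℝ := !![1, 0, 0, 0; 0, -1, 0, 0; 0, 0, -1, 0; 0, 0, 0, -1]

theorem kap_sq : kap * kap = 1 := by
  ext i j
  fin_cases i <;> fin_cases j <;> simp [kap, Matrix.mul_apply, Fin.sum_univ_four]

theorem kap_t : kapᵀ = kap := by
  ext i j
  fin_cases i <;> fin_cases j <;> simp [kap, Matrix.transpose_apply]

theorem RM_star_eq (a : ℍ) : RM (star a) = kap * LM a * kap := by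
  ext i j
  fin_cases i <;> fin_cases j <;>
    simp [RM, LM, kap, Matrix.mul_apply, Fin.sum_univ_four]

theorem star_mul_self_of_norm {a : ℍ} (h : ‖a‖ = 1) : star a * a = 1 := by
  rw [Quaternion.star_mul_self, Quaternion.normSq_eq_norm_mul_self, h]
  simp

theorem self_mul_star_of_norm {a : ℍ} (h : ‖a‖ = 1) : a * star a = 1 := by
  rw [Quaternion.self_mul_star, Quaternion.normSq_eq_norm_mul_self, h]
  simp

theorem map_ofReal_mul {n m l : Type*} [Fintype m] (A : Matrix n m ℝ) (B : Matrix m l ℝ) :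
    (A * B).map ((↑) : ℝ → ℂ) = A.map ((↑) : ℝ → ℂ) * B.map ((↑) : ℝ → ℂ) :=
  Matrix.map_mul (f := Complex.ofRealHom)

theorem LC_mul (a b : ℍ) : LC (a * b) = LC a * LC b := by
  rw [LC, LM_mul, map_ofReal_mul]
  rfl

theorem RC_mul (a b : ℍ) : RC (a * b) = RC b * RC a := by
  rw [RC, RM_mul, map_ofReal_mul]
  rfl

theorem LC_orth {a : ℍ} (h : ‖a‖ = 1) : (LC a)ᵀ * LC a = 1 := by
  have h1 : (LC a)ᵀ = LC (star a) := by
    rw [LC, LC, LM_star, Matrix.transpose_map]
  rw [h1, ← LC_mul, star_mul_self_of_norm h, LC, LM_one]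
  exact Matrix.map_one _ Complex.ofReal_zero Complex.ofReal_one

theorem RC_orth {a : ℍ} (h : ‖a‖ = 1) : (RC a)ᵀ * RC a = 1 := by
  have h1 : (RC a)ᵀ = RC (star a) := by
    rw [RC, RC, RM_star, Matrix.transpose_map]
  rw [h1, ← RC_mul, self_mul_star_of_norm h, RC, RM_one]
  exact Matrix.map_one _ Complex.ofReal_zero Complex.ofReal_one

/-! ### smoothness -/

section smooth
variable {G : Type*} [NormedAddCommGroup G] [NormedSpace ℝ G] {k : WithTop ℕ∞} {x : G}

theorem contDiff_qc (i : Fin 4) : ContDiff ℝ k (fun a : ℍ => qc a i) := by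
  have : (fun a : ℍ => qc a i) = fun a => innerSL ℝ (qe i) a := by
    funext a; rw [qc_eq_inner]; rfl
  rw [this]
  exact ContinuousLinearMap.contDiff _

theorem SM_of_real {n m : Type*} [Fintype n] [Fintype m] {M : G → Matrix n m ℝ}
    (h : ∀ i j, ContDiffAt ℝ k (fun y => M y i j) x) :
    SM k (fun y => (M y).map ((↑) : ℝ → ℂ)) x := fun i j =>
  Complex.ofRealCLM.contDiff.contDiffAt.comp x (h i j)

theorem SM_LC {a : G → ℍ} (h : ContDiffAt ℝ k a x) : SM k (fun y => LC (a y)) x := by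
  refine SM_of_real fun i j => ?_
  simp only [LM_apply]
  exact (contDiff_qc i).contDiffAt.comp x (h.mul contDiffAt_const)

theorem SM_RC {a : G → ℍ} (h : ContDiffAt ℝ k a x) : SM k (fun y => RC (a y)) x := by
  refine SM_of_real fun i j => ?_
  simp only [RM_apply]
  exact (contDiff_qc i).contDiffAt.comp x (contDiffAt_const.mul h)

end smooth

section frames
variable {E : Type*} [NormedAddCommGroup E] [NormedSpace ℝ E] [FiniteDimensional ℝ E] {x : E}

theorem OFm_LC {a : E → ℍ} (h : ∀ᶠ y in 𝓝 x, ContDiffAt ℝ ∞ a y) (h1 : ∀ᶠ y in 𝓝 x, ‖a y‖ = 1) :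
    OFm (fun y => LC (a y)) x :=
  ⟨h.mono fun _ hy => SM_LC hy, h1.mono fun _ hy => LC_orth hy⟩

theorem OFm_RC {a : E → ℍ} (h : ∀ᶠ y in 𝓝 x, ContDiffAt ℝ ∞ a y) (h1 : ∀ᶠ y in 𝓝 x, ‖a y‖ = 1) :
    OFm (fun y => RC (a y)) x :=
  ⟨h.mono fun _ hy => SM_RC hy, h1.mono fun _ hy => RC_orth hy⟩

/-- `tr (R_(q̄)⁻¹ dR_(q̄))³ = tr (L_q⁻¹ dL_q)³` -/
theorem w3_RC_star {a : E → ℍ} (h : ContDiffAt ℝ ∞ a x) :
    w3 (fun y => RC (star (a y))) x = w3 (fun y => LC (a y)) x := by
  set K : Matrix (Fin 4) (Fin 4) ℂ := kap.map ((↑) : ℝ → ℂ) with hK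
  have hKK : K * K = 1 := by
    rw [hK, ← map_ofReal_mul, kap_sq]
    exact Matrix.map_one _ Complex.ofReal_zero Complex.ofReal_one
  have hKt : Kᵀ = K := by rw [hK, ← Matrix.transpose_map, kap_t]
  have hR : (fun y => RC (star (a y))) = fun y => K * LC (a y) * K := by
    funext y
    rw [RC, RM_star_eq, map_ofReal_mul, map_ofReal_mul]
    rfl
  have hL : SM ∞ (fun y => LC (a y)) x := SM_LC h
  have hDD : DD (fun y => K * LC (a y) * K) x = hat E K * DD (fun y => LC (a y)) x * hat E K := by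
    rw [DD_mul (A := fun y => K * LC (a y)) (B := fun _ => K)
      (((SM.const K).mul hL).of_le one_le_inf) (SM.const K), DD_const, Matrix.mul_zero, add_zero,
      DD_const_mul hL]
  have hc : cA (fun y => K * LC (a y) * K) x = hat E K * cA (fun y => LC (a y)) x * hat E K := by
    rw [cA, hDD, Matrix.transpose_mul, Matrix.transpose_mul, hKt, hat_mul, hat_mul, cA]
    have e1 : hat E K * hat E K = 1 := by rw [← hat_mul, hKK, hat_one]
    calc hat E K * (hat E (LC (a x))ᵀ * hat E K) * (hat E K * DD (fun y => LC (a y)) x * hat E K)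
        = hat E K * (hat E (LC (a x))ᵀ * (hat E K * hat E K) * DD (fun y => LC (a y)) x)
          * hat E K := by simp only [Matrix.mul_assoc]
      _ = _ := by rw [e1, Matrix.mul_one]
  have e1 : hat E K * hat E K = 1 := by rw [← hat_mul, hKK, hat_one]
  rw [hR, w3, hc, w3]
  set A := cA (fun y => LC (a y)) x
  have e2 : hat E K * A * hat E K * (hat E K * A * hat E K) * (hat E K * A * hat E K)
      = hat E K * (A * A * A * hat E K) := by
    calc hat E K * A * hat E K * (hat E K * A * hat E K) * (hat E K * A * hat E K)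
        = hat E K * (A * (hat E K * hat E K) * A * (hat E K * hat E K) * A * hat E K) := by
          simp only [Matrix.mul_assoc]
      _ = _ := by rw [e1]; simp only [Matrix.mul_one]
  rw [e2, trace_hat_comm, Matrix.mul_assoc (A * A * A), e1, Matrix.mul_one]

end frames

/-! ### the tautological field -/

/-- `v ↦ v / |v|` -/
def vh (z : E5) : ℍ := ‖z.2‖⁻¹ • z.2

theorem norm_vh {z : E5} (h : z.2 ≠ 0) : ‖vh z‖ = 1 := by
  rw [vh, norm_smul, norm_inv, norm_norm, inv_mul_cancel₀ (norm_ne_zero_iff.2 h)]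

theorem contDiffAt_vh {z : E5} (h : z.2 ≠ 0) : ContDiffAt ℝ ∞ vh z :=
  ((contDiffAt_snd.norm ℝ h).inv (norm_ne_zero_iff.2 h)).smul contDiffAt_snd

/-- `z = (t, v) ↦ L_(v/|v|)` -/
def LV (z : E5) : Matrix (Fin 4) (Fin 4) ℂ := LC (vh z)

theorem ne_ev {z : E5} (h : z.2 ≠ 0) : ∀ᶠ y : E5 in 𝓝 z, y.2 ≠ 0 :=
  continuous_snd.continuousAt.eventually_ne h

theorem OFm_LV {z : E5} (h : z.2 ≠ 0) : OFm LV z :=
  OFm_LC ((ne_ev h).mono fun _ hy => contDiffAt_vh hy) ((ne_ev h).mono fun _ hy => norm_vh hy)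

end Crest.Agent.R208.XM
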