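import Crest.Agent.R208.XM6a
import Mathlib
import Crest.Agent.R208.XM4
import Crest.Agent.R208.GP3a
import Crest.Agent.R208.XMDefs
import Crest.Agent.R208.XM8b

-- ▼ part R208/XM6
section

/-! Row 208, block XM (helper833).  XM6: the integral `∫ dχ ∧ tr (L⁻¹dL)³ = ± 48 π²` (const_LV). -/

set_option autoImplicit false
set_option linter.unusedSectionVars false
set_option linter.unusedSimpArgs false
set_option linter.unusedVariables false

open scoped BigOperators ContDiff Topology Quaternion RealInnerProductSpace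
open Module Set Filter Matrix MeasureTheory

noncomputable section

namespace Crest.Agent.R208.XM

open Crest.Agent.R208.F Crest.Agent.R208.FI Crest.Agent.R208.CW

/-! ### the cut-off -/

/-- cut-off -/
def chf (f : ℝ → ℝ) (z : E5) : ℝ := if z.1 < 0 then f (‖z.2‖ ^ 2) else 0

theorem inner_lr (z w : E5) : ⟪z.2, w.2⟫ = ‖z.2‖ * lr z w := by
  rw [← inner_vh]
  by_cases h : z.2 = 0
  · rw [h]; simp
  · have hne : ‖z.2‖ ≠ 0 := norm_ne_zero_iff.2 h
    rw [vh, real_inner_smul_left, ← mul_assoc, mul_inv_cancel₀ hne, one_mul]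

theorem chf_ev {f : ℝ → ℝ} {z : E5} (hz : z.1 < 0) :
    chf f =ᶠ[𝓝 z] fun y => f (‖y.2‖ ^ 2) := by
  have h1 : ∀ᶠ y : E5 in 𝓝 z, y.1 < 0 := continuous_fst.continuousAt.eventually (gt_mem_nhds hz)
  filter_upwards [h1] with y hy
  rw [chf, if_pos hy]

theorem hasFDerivAt_chf {f : ℝ → ℝ} (hf : ContDiff ℝ ∞ f) {z : E5} (hz : z.1 < 0) :
    HasFDerivAt (chf f) (deriv f (‖z.2‖ ^ 2) •
      (2 • (innerSL ℝ z.2).comp (ContinuousLinearMap.snd ℝ ℝ ℍ))) z := by
  have h1 : HasFDerivAt (fun z : E5 => ‖z.2‖ ^ 2)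
      (2 • (innerSL ℝ z.2).comp (ContinuousLinearMap.snd ℝ ℝ ℍ)) z :=
    (hasFDerivAt_snd (𝕜 := ℝ) (p := z)).norm_sq
  have h2 : HasDerivAt f (deriv f (‖z.2‖ ^ 2)) (‖z.2‖ ^ 2) :=
    ((hf.differentiable (by simp)).differentiableAt).hasDerivAt
  exact (h2.comp_hasFDerivAt z h1).congr_of_eventuallyEq (chf_ev hz)

theorem dC_chf {f : ℝ → ℝ} (hf : ContDiff ℝ ∞ f) {z : E5} (hz : z.1 < 0) :
    dC (fn (chf f)) z = Cx.ofR (io ((2 * deriv f (‖z.2‖ ^ 2) * ‖z.2‖) • lr z)) := by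
  rw [dC_fn (hasFDerivAt_chf hf hz).differentiableAt, (hasFDerivAt_chf hf hz).fderiv]
  congr 2
  refine LinearMap.ext fun w => ?_
  change deriv f (‖z.2‖ ^ 2) * (2 • ⟪z.2, w.2⟫) = (2 * deriv f (‖z.2‖ ^ 2) * ‖z.2‖) * lr z w
  rw [inner_lr, nsmul_eq_mul]
  push_cast
  ring

theorem dC_chf_zero {f : ℝ → ℝ} {b : ℝ} (hb : b < 1) (h0 : ∀ s, b ≤ s → f s = 0) {z : E5}
    (hzX : z ∈ X4) (hz : 0 ≤ z.1) : dC (fn (chf f)) z = 0 := by
  have h1 : ∀ᶠ y : E5 in 𝓝 z, 0 < y.1 ∨ b < ‖y.2‖ ^ 2 := by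
    have ho : IsOpen {y : E5 | 0 < y.1 ∨ b < ‖y.2‖ ^ 2} :=
      (isOpen_lt continuous_const continuous_fst).union
        (isOpen_lt continuous_const (continuous_snd.norm.pow 2))
    refine ho.mem_nhds ?_
    rcases hz.lt_or_eq with h | h
    · exact Or.inl h
    · right
      rw [mem_X4, ← h] at hzX
      change b < ‖z.2‖ ^ 2
      nlinarith
  have h2 : chf f =ᶠ[𝓝 z] fun _ => 0 := by
    filter_upwards [h1] with y hy
    rw [chf]
    split_ifs with h
    · rcases hy with hy | hy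
      · exact absurd h (not_lt.2 hy.le)
      · exact h0 _ hy.le
    · rfl
  have h3 : HasFDerivAt (chf f) (0 : E5 →L[ℝ] ℝ) z :=
    (hasFDerivAt_const (0 : ℝ) z).congr_of_eventuallyEq h2
  rw [dC_fn h3.differentiableAt, h3.fderiv]
  simp

/-! ### the integrand -/

/-- the integrand -/
def omf (f : ℝ → ℝ) (z : E5) : CF E5 := dC (fn (chf f)) z * w3 LV z

/-- its real value on the lower half-sphere -/
def omr (f : ℝ → ℝ) (z : E5) : Ext E5 :=
  -(24 • ((2 * deriv f (‖z.2‖ ^ 2) * ‖z.2‖) • (io (lr z) * (io (P1 z) * (io (P2 z) * io (P3 z))))))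

theorem omf_eq {f : ℝ → ℝ} (hf : ContDiff ℝ ∞ f) {z : E5} (hz : z.1 < 0) :
    omf f z = Cx.ofR (omr f z) := by
  rw [omf, omr, dC_chf hf hz]
  by_cases h : z.2 = 0
  · rw [h]; simp
  · rw [w3_LV h, ← map_mul, map_smul, smul_mul_assoc, mul_neg, mul_smul_comm, mul_assoc (io (P1 z)),
      smul_neg, smul_comm]

theorem omf_zero {f : ℝ → ℝ} {b : ℝ} (hb : b < 1) (h0 : ∀ s, b ≤ s → f s = 0) {z : E5}
    (hzX : z ∈ X4) (hz : 0 ≤ z.1) : omf f z = 0 := by
  rw [omf, dC_chf_zero hb h0 hzX hz, zero_mul]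

/-! ### the chart -/

/-- coordinates -/
abbrev qL : Eu 4 ≃ₗᵢ[ℝ] ℍ := Quaternion.linearIsometryEquivTuple.symm

/-- the chart of the lower half-sphere -/
def ph (u : Eu 4) : E5 := (-√(1 - ‖u‖ ^ 2), qL u)

theorem loc_ph : ∃ O ℓ, Loc X4 ph (Metric.ball 0 1) O ℓ := by
  have hlt : ∀ u ∈ Metric.ball (0 : Eu 4) 1, 0 < 1 - ‖u‖ ^ 2 := by
    intro u hu
    rw [mem_ball_zero_iff] at hu
    nlinarith [norm_nonneg u]
  refine ⟨_, _, Loc.mk' (O := {z : E5 | z.1 < 0}) (ℓ := fun z => qL.symm z.2) Metric.isOpen_ball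
    (isOpen_lt continuous_fst continuous_const) ?_ ?_ ?_ ?_⟩
  · refine ContDiffOn.prodMk ?_ ?_
    · refine (ContDiffOn.sqrt ?_ fun u hu => (hlt u hu).ne').neg
      exact contDiffOn_const.sub (contDiff_norm_sq ℝ).contDiffOn
    · exact qL.contDiff.contDiffOn
  · exact (qL.symm.contDiff.comp contDiff_snd).contDiffOn
  · apply Subset.antisymm
    · rintro _ ⟨u, hu, rfl⟩
      refine ⟨?_, ?_⟩
      · rw [mem_X4]
        change (-√(1 - ‖u‖ ^ 2)) ^ 2 + ‖qL u‖ ^ 2 = 1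
        rw [qL.norm_map, neg_sq, Real.sq_sqrt (hlt u hu).le]
        ring
      · change -√(1 - ‖u‖ ^ 2) < 0
        rw [neg_lt_zero]
        exact Real.sqrt_pos.2 (hlt u hu)
    · rintro z ⟨hz, hz0⟩
      rw [mem_X4] at hz
      change z.1 < 0 at hz0
      have hn : ‖qL.symm z.2‖ = ‖z.2‖ := qL.symm.norm_map _
      refine ⟨qL.symm z.2, ?_, ?_⟩
      · rw [mem_ball_zero_iff, hn]
        nlinarith [norm_nonneg z.2, sq_nonneg (‖z.2‖ - 1)]
      · refine Prod.ext ?_ (qL.apply_symm_apply _)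
        change -√(1 - ‖qL.symm z.2‖ ^ 2) = z.1
        rw [hn, show 1 - ‖z.2‖ ^ 2 = z.1 ^ 2 by linarith, Real.sqrt_sq_eq_abs, abs_of_neg hz0,
          neg_neg]
  · intro u hu
    exact qL.symm_apply_apply u

theorem chart_ph : Chart 4 X4 ph (Metric.ball 0 1) := by
  obtain ⟨O, ℓ, h⟩ := loc_ph
  exact h.chart

theorem ph_neg {u : Eu 4} (hu : u ∈ Metric.ball (0 : Eu 4) 1) : (ph u).1 < 0 := by
  rw [mem_ball_zero_iff] at hu
  change -√(1 - ‖u‖ ^ 2) < 0
  rw [neg_lt_zero]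
  exact Real.sqrt_pos.2 (by nlinarith [norm_nonneg u])

theorem mem_image_ph {z : E5} (hz : z ∈ X4) (hz0 : z.1 < 0) : z ∈ ph '' Metric.ball 0 1 := by
  rw [mem_X4] at hz
  have hn : ‖qL.symm z.2‖ = ‖z.2‖ := qL.symm.norm_map _
  refine ⟨qL.symm z.2, ?_, ?_⟩
  · rw [mem_ball_zero_iff, hn]
    nlinarith [norm_nonneg z.2, sq_nonneg (‖z.2‖ - 1)]
  · refine Prod.ext ?_ (qL.apply_symm_apply _)
    change -√(1 - ‖qL.symm z.2‖ ^ 2) = z.1
    rw [hn, show 1 - ‖z.2‖ ^ 2 = z.1 ^ 2 by linarith, Real.sqrt_sq_eq_abs, abs_of_neg hz0,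
      neg_neg]

theorem fderiv_ph_snd {u : Eu 4} (hu : u ∈ Metric.ball (0 : Eu 4) 1) (v : Eu 4) :
    (fderiv ℝ ph u v).2 = qL v := by
  have h1 := (chart_ph.differentiableAt hu).hasFDerivAt.snd
  have h2 : HasFDerivAt (fun x => (ph x).2) (qL.toContinuousLinearEquiv : Eu 4 →L[ℝ] ℍ) u :=
    qL.toContinuousLinearEquiv.hasFDerivAt
  have h3 := h1.unique h2
  exact congrArg (fun L : Eu 4 →L[ℝ] ℍ => L v) h3

theorem qc_qL_sb (i j : Fin 4) : qc (qL (sb 4 i)) j = if j = i then 1 else 0 := by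
  rw [OrthonormalBasis.coe_toBasis, EuclideanSpace.basisFun_apply]
  fin_cases i <;> fin_cases j <;> simp [qc, qL]

theorem evA_four (l0 l1 l2 l3 : Module.Dual ℝ E5) (w : Fin 4 → E5) :
    evA E5 4 (io l0 * (io l1 * (io l2 * io l3))) w
      = Matrix.det (Matrix.of fun i j => (![l0, l1, l2, l3] : Fin 4 → Module.Dual ℝ E5) j (w i)) := by
  have h : io l0 * (io l1 * (io l2 * io l3))
      = ExteriorAlgebra.ιMulti ℝ 4 (![l0, l1, l2, l3] : Fin 4 → Module.Dual ℝ E5) := by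
    have h3 : (io l3 : Ext E5) = ExteriorAlgebra.ιMulti ℝ 1 ![l3] := by
      have := io_mul_iMulti l3 0 ![]
      rw [ExteriorAlgebra.ιMulti_zero_apply, mul_one] at this
      exact this
    rw [h3, io_mul_iMulti, io_mul_iMulti, io_mul_iMulti]
  rw [h, evA_iMulti]

theorem det_aux {z : E5} (hs : av 0 z ^ 2 + av 1 z ^ 2 + av 2 z ^ 2 + av 3 z ^ 2 = 1)
    (w : Fin 4 → E5) (hl : ∀ i j : Fin 4, lq j (w i) = if j = i then 1 else 0) :
    Matrix.det (Matrix.of fun i j => (![lr z, P1 z, P2 z, P3 z] : Fin 4 → Module.Dual ℝ E5) j (w i))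
      = (‖z.2‖⁻¹) ^ 3 := by
  have e : (Matrix.of fun i j => (![lr z, P1 z, P2 z, P3 z] : Fin 4 → Module.Dual ℝ E5) j (w i))
      = !![av 0 z, ‖z.2‖⁻¹ * (-av 1 z), ‖z.2‖⁻¹ * (-av 2 z), ‖z.2‖⁻¹ * (-av 3 z);
          av 1 z, ‖z.2‖⁻¹ * av 0 z, ‖z.2‖⁻¹ * (-av 3 z), ‖z.2‖⁻¹ * av 2 z;
          av 2 z, ‖z.2‖⁻¹ * av 3 z, ‖z.2‖⁻¹ * av 0 z, ‖z.2‖⁻¹ * (-av 1 z);
          av 3 z, ‖z.2‖⁻¹ * (-av 2 z), ‖z.2‖⁻¹ * av 1 z, ‖z.2‖⁻¹ * av 0 z] := by
    refine Matrix.ext fun i j => ?_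
    fin_cases i <;> fin_cases j <;>
      simp only [Matrix.of_apply, Matrix.cons_val', Matrix.cons_val_zero, Matrix.cons_val_one,
        Matrix.cons_val, Matrix.cons_val_fin_one, Fin.zero_eta, Fin.mk_one, Fin.reduceFinMk, lr,
        P1, P2, P3, LinearMap.add_apply, LinearMap.sub_apply, LinearMap.smul_apply, smul_eq_mul,
        hl] <;> simp
  rw [e, Matrix.det_succ_row_zero]
  simp only [Fin.sum_univ_four, Matrix.det_fin_three]
  simp [Fin.succAbove, Matrix.submatrix]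
  have hs2 : (av 0 z ^ 2 + av 1 z ^ 2 + av 2 z ^ 2 + av 3 z ^ 2) ^ 2 = 1 := by
    rw [hs]; norm_num
  linear_combination (‖z.2‖⁻¹) ^ 3 * hs2

theorem top_omr {f : ℝ → ℝ} {u : Eu 4} (hu : u ∈ Metric.ball (0 : Eu 4) 1) (hf0 : deriv f 0 = 0) :
    top 4 (pb ((fderiv ℝ ph u : Eu 4 →L[ℝ] E5) : Eu 4 →ₗ[ℝ] E5) (omr f (ph u)))
      = -48 * deriv f (‖u‖ ^ 2) * (‖u‖ ^ 2)⁻¹ := by
  have hn : ‖(ph u).2‖ = ‖u‖ := qL.norm_map u
  rw [top_pb, omr, hn]
  rcases eq_or_ne u 0 with rfl | hu0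
  · simp [hf0]
  have hz : (ph u).2 ≠ 0 := by
    intro h
    apply hu0
    rw [← norm_eq_zero, ← hn, h, norm_zero]
  have hr : ‖u‖ ≠ 0 := norm_ne_zero_iff.2 hu0
  have hs := sum_av_sq hz
  have hl : ∀ i j : Fin 4, lq j (fderiv ℝ ph u (sb 4 i)) = if j = i then 1 else 0 := by
    intro i j
    rw [lq_apply, fderiv_ph_snd hu, qc_qL_sb]
  rw [map_neg, map_nsmul, map_smul, AlternatingMap.neg_apply, AlternatingMap.smul_apply,
    AlternatingMap.smul_apply, evA_four]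
  rw [det_aux hs (fun i => (fderiv ℝ ph u : Eu 4 →ₗ[ℝ] E5) (sb 4 i)) hl, hn]
  simp only [nsmul_eq_mul, smul_eq_mul]
  field_simp
  push_cast
  ring

/-! ### the radial integral -/

theorem vol_ball4 : (volume : Measure (Eu 4)).real (Metric.ball 0 1) = Real.pi ^ 2 / 2 := by
  rw [Measure.real, EuclideanSpace.volume_ball]
  have h1 : √Real.pi ^ 4 = Real.pi ^ 2 := by
    rw [show (4 : ℕ) = 2 * 2 by norm_num, pow_mul, Real.sq_sqrt Real.pi_nonneg]
  have h2 : Real.Gamma ((4 : ℕ) / 2 + 1) = 2 := by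
    rw [show ((4 : ℕ) : ℝ) / 2 + 1 = ((2 : ℕ) : ℝ) + 1 by norm_num, Real.Gamma_nat_eq_factorial]
    norm_num
  rw [Fintype.card_fin, h1, h2, ENNReal.ofReal_one, one_pow, one_mul, ENNReal.toReal_ofReal]
  positivity

theorem deriv_zero_of_ge {f : ℝ → ℝ} {b : ℝ} (h0 : ∀ s, b ≤ s → f s = 0) {s : ℝ} (hs : b < s) :
    deriv f s = 0 := by
  have h : f =ᶠ[𝓝 s] fun _ => 0 := by
    filter_upwards [lt_mem_nhds hs] with t ht using h0 t ht.le
  rw [h.deriv_eq, deriv_const]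

theorem int_radial {f : ℝ → ℝ} (hf : ContDiff ℝ ∞ f) {a b : ℝ} (ha : 0 < a) (hab : a < b)
    (hb : b < 1) (h1 : ∀ s ≤ a, f s = 1) (h0 : ∀ s, b ≤ s → f s = 0) :
    ∫ u in Metric.ball (0 : Eu 4) 1, (-48 * deriv f (‖u‖ ^ 2) * (‖u‖ ^ 2)⁻¹)
      = 48 * Real.pi ^ 2 := by
  rw [setIntegral_eq_integral_of_forall_compl_eq_zero]
  swap
  · intro u hu
    rw [mem_ball_zero_iff, not_lt] at hu
    rw [deriv_zero_of_ge h0 (s := ‖u‖ ^ 2) (by nlinarith), mul_zero, zero_mul]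
  have e := integral_fun_norm_addHaar (volume : Measure (Eu 4))
    (fun y : ℝ => -48 * deriv f (y ^ 2) * (y ^ 2)⁻¹)
  rw [e, vol_ball4, finrank_euclideanSpace, Fintype.card_fin]
  have hg : ContDiff ℝ 1 fun y : ℝ => f (y ^ 2) :=
    (hf.comp (contDiff_id.pow 2)).of_le (by exact_mod_cast le_top)
  have hc : HasCompactSupport fun y : ℝ => f (y ^ 2) := by
    refine HasCompactSupport.intro (isCompact_Icc (a := (-1 : ℝ)) (b := 1)) fun y hy => ?_
    refine h0 _ ?_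
    rw [mem_Icc, not_and_or, not_le, not_le] at hy
    rcases hy with hy | hy <;> nlinarith
  have e2 := hc.integral_Ioi_deriv_eq hg 0
  have e3 : ∫ y in Ioi (0 : ℝ), y ^ (4 - 1) • (-48 * deriv f (y ^ 2) * (y ^ 2)⁻¹)
      = ∫ y in Ioi (0 : ℝ), -24 * deriv (fun y : ℝ => f (y ^ 2)) y := by
    refine setIntegral_congr_fun measurableSet_Ioi fun y hy => ?_
    have hy0 : y ≠ 0 := (mem_Ioi.1 hy).ne'
    have hd : HasDerivAt (fun y : ℝ => f (y ^ 2)) (deriv f (y ^ 2) * (2 * y)) y := by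
      have h2 : HasDerivAt (fun y : ℝ => y ^ 2) (2 * y) y := by simpa using hasDerivAt_pow 2 y
      exact ((hf.differentiable (by simp)).differentiableAt).hasDerivAt.comp y h2
    simp only [hd.deriv, smul_eq_mul]
    field_simp
    norm_num
    ring
  rw [e3, integral_const_mul, e2]
  have : f (0 ^ 2) = 1 := h1 _ (by rw [zero_pow two_ne_zero]; exact ha.le)
  simp only [this, nsmul_eq_mul, smul_eq_mul]
  push_cast
  ring

/-! ### the constant -/

theorem const_LV {f : ℝ → ℝ} (hf : ContDiff ℝ ∞ f) {a b : ℝ} (ha : 0 < a) (hab : a < b) (hb : b < 1)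
    (h1 : ∀ s ≤ a, f s = 1) (h0 : ∀ s, b ≤ s → f s = 0) :
    (JC 4 X4 o4 fun y => dC (fn fun z : E5 => if z.1 < 0 then f (‖z.2‖ ^ 2) else 0) y * w3 LV y)
        = 48 * Real.pi ^ 2
    ∨ (JC 4 X4 o4 fun y => dC (fn fun z : E5 => if z.1 < 0 then f (‖z.2‖ ^ 2) else 0) y * w3 LV y)
        = -(48 * Real.pi ^ 2) := by
  change JC 4 X4 o4 (omf f) = _ ∨ JC 4 X4 o4 (omf f) = _
  have him : J 4 X4 o4 (fun x => (omf f x).im) = 0 := by
    refine J_eq_zero clo_X4 fun x hx w _ => ?_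
    rcases lt_or_ge x.1 0 with h | h
    · rw [omf_eq hf h]
      simp
    · rw [omf_zero hb h0 hx h]
      simp
  have hre : J 4 X4 o4 (fun x => (omf f x).re)
      = ∫ u in Metric.ball (0 : Eu 4) 1, top 4 (pull ph (fun x => (omf f x).re) u)
        * Real.sign (top 4 (pull ph o4 u)) := by
    refine J_eq_chart clo_X4 chart_ph fun x hx hx2 => ?_
    have h : 0 ≤ x.1 := by
      by_contra hcon
      exact hx2 (mem_image_ph hx (not_le.1 hcon))
    rw [omf_zero hb h0 hx h]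
    simp
  obtain ⟨ε, hε⟩ := chart_ph.exists_sign ori_X4 (convex_ball (0 : Eu 4) 1).isPreconnected
  have hf0 : deriv f 0 = 0 := by
    have h : f =ᶠ[𝓝 0] fun _ => 1 := by
      filter_upwards [gt_mem_nhds ha] with t ht using h1 t ht.le
    rw [h.deriv_eq, deriv_const]
  have hre2 : J 4 X4 o4 (fun x => (omf f x).re) = 48 * Real.pi ^ 2 * ε := by
    rw [hre, ← int_radial hf ha hab hb h1 h0, ← integral_mul_const]
    refine setIntegral_congr_fun measurableSet_ball fun u hu => ?_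
    simp only [hε u hu]
    congr 1
    rw [← top_omr hu hf0, pull, omf_eq hf (ph_neg hu)]
    simp
  have hε1 : ε = 1 ∨ ε = -1 := by
    have h0b : (0 : Eu 4) ∈ Metric.ball (0 : Eu 4) 1 := by simp
    rw [← hε 0 h0b]
    rcases lt_or_gt_of_ne (chart_ph.top_ne_zero ori_X4 h0b) with h | h
    · right; exact Real.sign_of_neg h
    · left; exact Real.sign_of_pos h
  have hJ : JC 4 X4 o4 (omf f) = ((48 * Real.pi ^ 2 * ε : ℝ) : ℂ) := by
    refine Complex.ext ?_ ?_
    · rw [Complex.ofReal_re]; exact hre2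
    · rw [Complex.ofReal_im]; exact him
  rw [hJ]
  rcases hε1 with h | h
  · left; rw [h]; push_cast; ring
  · right; rw [h]; push_cast; ring

end Crest.Agent.R208.XM
end
end

-- ▼ part R208/XM5a
section

/-! Row 208, block XM (helper671).  XM5a: smooth moving frames over balls, smooth Gram-Schmidt,
orthonormal frames with prescribed first vector. -/

set_option autoImplicit false
set_option linter.unusedSectionVars false
set_option linter.unusedSimpArgs false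
set_option linter.unusedVariables false

open Set Filter Topology Module Metric
open scoped ContDiff RealInnerProductSpace

noncomputable section

namespace Crest.Agent.R208.XM

/-- **smooth moving frame** over a ball. -/
theorem star_frame_smooth {V E F : Type*} [NormedAddCommGroup V] [NormedSpace ℝ V]
    [FiniteDimensional ℝ V]
    [NormedAddCommGroup E] [NormedSpace ℝ E] [NormedAddCommGroup F] [NormedSpace ℝ F]
    {P : V → (E →L[ℝ] E)} (hP : ContDiff ℝ ∞ P) (hid : ∀ x v, P x (P x v) = P x v) (R : ℝ)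
    {B₀ : F →L[ℝ] E} (hB₀ : Function.Injective B₀) (hPB : ∀ v, P 0 (B₀ v) = B₀ v) :
    ∃ B : V → (F →L[ℝ] E), ContDiff ℝ ∞ B ∧
      ∀ x, ‖x‖ ≤ R → Function.Injective (B x) ∧ ∀ v, P x (B x v) = B x v := by
  classical
  set A : Set V := closedBall 0 R with hAdef
  have hA : IsCompact A := isCompact_closedBall _ _
  have hst : ∀ x ∈ A, ∀ t ∈ Icc (0 : ℝ) 1, t • x ∈ A := by
    intro x hx t ht
    rw [hAdef, mem_closedBall_zero_iff] at hx ⊢
    rw [norm_smul, Real.norm_eq_abs, abs_of_nonneg ht.1]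
    nlinarith [norm_nonneg x, ht.1, ht.2]
  have hc : ContinuousOn (fun q : V × ℝ => P (q.2 • q.1)) (A ×ˢ Icc (0 : ℝ) 1) :=
    (hP.continuous.comp (by fun_prop)).continuousOn
  have huc := (hA.prod isCompact_Icc).uniformContinuousOn_of_continuous hc
  rw [Metric.uniformContinuousOn_iff] at huc
  obtain ⟨δ, hδ, hδ'⟩ := huc (1 / 2) (by norm_num)
  obtain ⟨m, hm⟩ := exists_nat_gt (1 / δ)
  have hm0 : (0 : ℝ) < m := lt_trans (by positivity) hm
  have hmδ : 1 / (m : ℝ) < δ := by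
    rw [div_lt_iff₀ hm0]
    rw [div_lt_iff₀ hδ] at hm
    linarith
  set s : ℕ → ℝ := fun i => i / m with hs
  have hs01 : ∀ i ≤ m, s i ∈ Icc (0 : ℝ) 1 := fun i hi => ⟨by positivity, by
    rw [hs]; simp only
    rw [div_le_one hm0]; exact_mod_cast hi⟩
  have hstep : ∀ x ∈ A, ∀ i, i + 1 ≤ m → ‖P (s (i + 1) • x) - P (s i • x)‖ < 1 / 2 := by
    intro x hx i hi
    have h1 := hδ' (x, s (i + 1)) ⟨hx, hs01 _ hi⟩ (x, s i) ⟨hx, hs01 _ (by omega)⟩ (by
      rw [Prod.dist_eq, dist_self, max_eq_right dist_nonneg, Real.dist_eq]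
      have h2 : s (i + 1) - s i = 1 / m := by rw [hs]; simp only; push_cast; ring
      rw [h2, abs_of_pos (by positivity)]
      exact hmδ)
    rw [dist_eq_norm] at h1
    exact h1
  let w : ℕ → V → (F →L[ℝ] E) := fun i =>
    Nat.rec (fun _ => B₀) (fun j wj x => (P (s (j + 1) • x)).comp (wj x)) i
  have hw0 : ∀ x, w 0 x = B₀ := fun _ => rfl
  have hws : ∀ i x, w (i + 1) x = (P (s (i + 1) • x)).comp (w i x) := fun _ _ => rfl
  have hwc : ∀ i, ContDiff ℝ ∞ (w i) := by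
    intro i
    induction i with
    | zero => exact contDiff_const
    | succ i ih =>
      have h2 : ContDiff ℝ ∞ (fun x => P (s (i + 1) • x)) :=
        hP.comp (contDiff_const.smul contDiff_id)
      exact h2.clm_comp ih
  have hwm : ∀ i ≤ m, ∀ x ∈ A, (∀ v, P (s i • x) (w i x v) = w i x v) ∧
      ∀ v, v ≠ 0 → w i x v ≠ 0 := by
    intro i
    induction i with
    | zero =>
      intro _ x _
      have h1 : s 0 = 0 := by rw [hs]; simp
      rw [h1, zero_smul, hw0]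
      exact ⟨hPB, fun v hv h => hv (hB₀ (by rw [h, map_zero]))⟩
    | succ i ih =>
      intro hi x hx
      obtain ⟨h1, h2⟩ := ih (by omega) x hx
      have hmem : s (i + 1) • x ∈ A := hst x hx _ (hs01 _ hi)
      rw [hws]
      refine ⟨fun v => hid _ _, fun v hv h => ?_⟩
      have h' : P (s (i + 1) • x) (w i x v) = 0 := h
      have h3 := (P (s (i + 1) • x) - P (s i • x)).le_opNorm (w i x v)
      rw [sub_apply, h', h1, zero_sub, norm_neg] at h3
      have h4 : 0 < ‖w i x v‖ := norm_pos_iff.2 (h2 v hv)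
      nlinarith [hstep x hx i hi]
  have hsm : s m = 1 := by rw [hs]; simp only; exact div_self hm0.ne'
  refine ⟨w m, hwc m, fun x hx => ?_⟩
  obtain ⟨h1, h2⟩ := hwm m le_rfl x (by rw [hAdef, mem_closedBall_zero_iff]; exact hx)
  rw [hsm, one_smul] at h1
  refine ⟨?_, h1⟩
  intro a b hab
  by_contra hne
  exact h2 (a - b) (sub_ne_zero.2 hne) (by rw [map_sub, hab, sub_self])

open InnerProductSpace in
/-- smoothness of Gram-Schmidt -/
theorem contDiffAt_gramSchmidt {G H : Type*} [NormedAddCommGroup G] [NormedSpace ℝ G]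
    [NormedAddCommGroup H] [InnerProductSpace ℝ H] {m : ℕ} {r : WithTop ℕ∞} {u : G → Fin m → H}
    {x : G} (hu : ∀ i, ContDiffAt ℝ r (fun y => u y i) x) (hli : LinearIndependent ℝ (u x)) :
    ∀ (i : Fin m), ContDiffAt ℝ r (fun y => gramSchmidt ℝ (u y) i) x := by
  intro i
  induction i using WellFoundedLT.induction with
  | ind i ih =>
    have h1 : (fun y => gramSchmidt ℝ (u y) i) = fun y => u y i - ∑ j ∈ Finset.Iio i,
        (⟪gramSchmidt ℝ (u y) j, u y i⟫ / ‖gramSchmidt ℝ (u y) j‖ ^ 2) • gramSchmidt ℝ (u y) j := by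
      funext y
      have := gramSchmidt_def'' ℝ (u y) i
      simp only [RCLike.ofReal_real_eq_id, id_eq] at this
      exact eq_sub_of_add_eq this.symm
    rw [h1]
    refine (hu i).sub (ContDiffAt.sum fun j hj => ?_)
    have hj' : j < i := Finset.mem_Iio.1 hj
    have h0 : gramSchmidt ℝ (u x) j ≠ 0 := gramSchmidt_ne_zero j hli
    have h2 := ih j hj'
    refine ((h2.inner ℝ (hu i)).div (h2.norm_sq ℝ) ?_).smul h2
    exact pow_ne_zero 2 (norm_ne_zero_iff.2 h0)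

open InnerProductSpace in
theorem contDiffAt_gramSchmidtNormed {G H : Type*} [NormedAddCommGroup G] [NormedSpace ℝ G]
    [NormedAddCommGroup H] [InnerProductSpace ℝ H] {m : ℕ} {r : WithTop ℕ∞} {u : G → Fin m → H}
    {x : G} (hu : ∀ i, ContDiffAt ℝ r (fun y => u y i) x) (hli : LinearIndependent ℝ (u x))
    (i : Fin m) : ContDiffAt ℝ r (fun y => gramSchmidtNormed ℝ (u y) i) x := by
  have h0 : gramSchmidt ℝ (u x) i ≠ 0 := gramSchmidt_ne_zero i hli
  have h1 := contDiffAt_gramSchmidt hu hli i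
  have h2 : (fun y => gramSchmidtNormed ℝ (u y) i)
      = fun y => ‖gramSchmidt ℝ (u y) i‖⁻¹ • gramSchmidt ℝ (u y) i := by
    funext y
    simp [gramSchmidtNormed]
  rw [h2]
  exact ((h1.norm ℝ h0).inv (norm_ne_zero_iff.2 h0)).smul h1

open InnerProductSpace in
/-- **orthonormal frame with prescribed first vector** -/
theorem exists_onframe {V H : Type*} [NormedAddCommGroup V] [NormedSpace ℝ V]
    [FiniteDimensional ℝ V] [NormedAddCommGroup H] [InnerProductSpace ℝ H]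
    [FiniteDimensional ℝ H] {m : ℕ}
    {P : V → H →L[ℝ] H} (sP : ContDiff ℝ ∞ P) {s : V → H} (ss : ContDiff ℝ ∞ s)
    (idem : ∀ v x, P v (P v x) = P v x) (sym : ∀ v x y, ⟪P v x, y⟫ = ⟪x, P v y⟫)
    (rk : ∀ v, finrank ℝ (LinearMap.range (P v : H →ₗ[ℝ] H)) = m + 1)
    (Ps : ∀ v, P v (s v) = s v) (s0 : ∀ v, s v ≠ 0) (R : ℝ) :
    ∃ e : V → Fin (m + 1) → H, (∀ v, ‖v‖ ≤ R → ∀ i, ContDiffAt ℝ ∞ (fun y => e y i) v) ∧
      ∀ v, ‖v‖ ≤ R → Orthonormal ℝ (e v) ∧ (∀ i, P v (e v i) = e v i) ∧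
        e v 0 = ‖s v‖⁻¹ • s v := by
  -- the complement of `s`
  set c : V → ℝ := fun v => (‖s v‖ ^ 2)⁻¹ with hc
  have hc0 : ∀ v, ‖s v‖ ^ 2 ≠ 0 := fun v => pow_ne_zero 2 (norm_ne_zero_iff.2 (s0 v))
  set S : V → H →L[ℝ] H := fun v => c v • (innerSL ℝ (s v)).smulRight (s v) with hS
  have hSa : ∀ v x, S v x = (c v * ⟪s v, x⟫) • s v := fun v x => by
    simp [hS, smul_smul]
  set Q : V → H →L[ℝ] H := fun v => P v - S v with hQ
  have hQa : ∀ v x, Q v x = P v x - (c v * ⟪s v, x⟫) • s v := fun v x => by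
    rw [hQ]; simp only [sub_apply, hSa]
  have hcS : ContDiff ℝ ∞ c := (ss.norm_sq ℝ).inv hc0
  have hSS : ContDiff ℝ ∞ S := by
    refine hcS.smul ?_
    have h1 : ContDiff ℝ ∞ fun v => innerSL ℝ (s v) := (innerSL ℝ (E := H)).contDiff.comp ss
    exact h1.smulRight ss
  have hsQ : ContDiff ℝ ∞ Q := sP.sub hSS
  have hsP : ∀ v x, ⟪s v, P v x⟫ = ⟪s v, x⟫ := fun v x => by rw [← sym, Ps]
  have hcs : ∀ v, c v * ⟪s v, s v⟫ = 1 := fun v => by
    rw [hc, real_inner_self_eq_norm_sq]; exact inv_mul_cancel₀ (hc0 v)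
  have hQs : ∀ v x, ⟪s v, Q v x⟫ = 0 := fun v x => by
    rw [hQa, inner_sub_right, hsP, real_inner_smul_right]
    have := hcs v
    linear_combination (-⟪s v, x⟫) * this
  have hPQ : ∀ v x, P v (Q v x) = Q v x := fun v x => by
    rw [hQa, map_sub, idem, map_smul, Ps]
  have hQid : ∀ v x, Q v (Q v x) = Q v x := fun v x => by
    rw [hQa v (Q v x), hPQ, hQs, mul_zero, zero_smul, sub_zero]
  have hQfix : ∀ v x, Q v x = x ↔ P v x = x ∧ ⟪s v, x⟫ = 0 := fun v x => by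
    constructor
    · intro h
      rw [← h]
      exact ⟨hPQ v x, hQs v x⟩
    · rintro ⟨h1, h2⟩
      rw [hQa, h1, h2, mul_zero, zero_smul, sub_zero]
  -- the initial frame
  have hker : ∃ B₀ : EuclideanSpace ℝ (Fin m) →L[ℝ] H, Function.Injective B₀ ∧
      ∀ v, Q 0 (B₀ v) = B₀ v := by
    set W : Submodule ℝ H := LinearMap.range (P 0 : H →ₗ[ℝ] H) with hW
    set K : Submodule ℝ H := W ⊓ (ℝ ∙ s 0)ᗮ with hK
    have hfix : ∀ x ∈ K, Q 0 x = x := by
      rintro x ⟨⟨y, rfl⟩, hx⟩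
      rw [hQfix]
      refine ⟨idem 0 y, ?_⟩
      exact Submodule.mem_orthogonal_singleton_iff_inner_right.1 hx
    have hfin : m ≤ finrank ℝ K := by
      have h1 := Submodule.finrank_add_inf_finrank_orthogonal
        (K₁ := ℝ ∙ s 0) (K₂ := W) (by
          rw [Submodule.span_singleton_le_iff_mem]
          exact ⟨s 0, Ps 0⟩)
      rw [rk 0, finrank_span_singleton (s0 0)] at h1
      have h2 : (ℝ ∙ s 0)ᗮ ⊓ W = K := inf_comm _ _
      rw [h2] at h1
      omega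
    set bm : Basis (Fin m) ℝ (EuclideanSpace ℝ (Fin m)) :=
      (EuclideanSpace.basisFun (Fin m) ℝ).toBasis
    set bK := Module.finBasis ℝ K
    set f : EuclideanSpace ℝ (Fin m) →ₗ[ℝ] K := bm.constr ℕ (bK ∘ Fin.castLE hfin) with hfdef
    have hf : Function.Injective f := bm.injective_constr_of_linearIndependent
      (bK.linearIndependent.comp _ (Fin.castLE_injective hfin))
    refine ⟨LinearMap.toContinuousLinearMap (K.subtype ∘ₗ f), ?_, fun v => ?_⟩
    · exact K.injective_subtype.comp hf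
    · exact hfix _ (f v).2
  obtain ⟨B₀, hB₀, hQB⟩ := hker
  obtain ⟨B, hB, hBi⟩ := star_frame_smooth hsQ hQid R hB₀ hQB
  set u : V → Fin (m + 1) → H := fun v =>
    Fin.cons (s v) (fun i : Fin m => B v (EuclideanSpace.single i 1)) with hu
  have hus : ∀ i, ContDiff ℝ ∞ (fun v => u v i) := by
    intro i
    refine Fin.cases ?_ (fun i => ?_) i
    · simpa [hu] using ss
    · simp only [hu, Fin.cons_succ]
      exact hB.clm_apply contDiff_const
  have hli : ∀ v, ‖v‖ ≤ R → LinearIndependent ℝ (u v) := by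
    intro v hv
    rw [hu]
    rw [linearIndependent_finCons]
    have hinj := (hBi v hv).1
    constructor
    · have h1 : LinearIndependent ℝ (fun i : Fin m => EuclideanSpace.single i (1 : ℝ)) := by
        have := (EuclideanSpace.basisFun (Fin m) ℝ).orthonormal.linearIndependent
        have h3 : ⇑(EuclideanSpace.basisFun (Fin m) ℝ)
            = fun i : Fin m => EuclideanSpace.single i (1 : ℝ) := by
          funext i; exact EuclideanSpace.basisFun_apply _ _ _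
        rwa [h3] at this
      exact h1.map' (B v : EuclideanSpace ℝ (Fin m) →ₗ[ℝ] H) (LinearMap.ker_eq_bot.2 hinj)
    · intro hmem
      have h2 : ∀ x ∈ Submodule.span ℝ (Set.range fun i : Fin m => B v (EuclideanSpace.single i 1)),
          ⟪s v, x⟫ = 0 := by
        intro x hx
        induction hx using Submodule.span_induction with
        | mem x h =>
          obtain ⟨i, rfl⟩ := h
          exact ((hQfix v _).1 ((hBi v hv).2 _)).2
        | zero => exact inner_zero_right _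
        | add x y _ _ hx hy => rw [inner_add_right, hx, hy, add_zero]
        | smul a x _ hx => rw [real_inner_smul_right, hx, mul_zero]
      exact s0 v (inner_self_eq_zero.1 (h2 _ hmem))
  refine ⟨fun v => gramSchmidtNormed ℝ (u v), fun v hv i => ?_, fun v hv => ⟨?_, ?_, ?_⟩⟩
  · exact contDiffAt_gramSchmidtNormed (fun i => (hus i).contDiffAt) (hli v hv) i
  · exact gramSchmidtNormed_orthonormal (hli v hv)
  · intro i
    have h1 : ∀ x ∈ Submodule.span ℝ (Set.range (u v)), P v x = x := by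
      intro x hx
      induction hx using Submodule.span_induction with
      | mem x h =>
        obtain ⟨i, rfl⟩ := h
        refine Fin.cases ?_ (fun i => ?_) i
        · simpa [hu] using Ps v
        · simp only [hu, Fin.cons_succ]
          exact ((hQfix v _).1 ((hBi v hv).2 _)).1
      | zero => exact map_zero _
      | add x y _ _ hx hy => rw [map_add, hx, hy]
      | smul a x _ hx => rw [map_smul, hx]
    refine h1 _ ?_
    rw [← span_gramSchmidt ℝ (u v), ← span_gramSchmidtNormed_range]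
    exact Submodule.subset_span ⟨i, rfl⟩
  · have h1 : gramSchmidt ℝ (u v) 0 = s v := by
      rw [gramSchmidt_def]
      have : Finset.Iio (0 : Fin (m + 1)) = ∅ := by
        ext j; simp
      rw [this, Finset.sum_empty, sub_zero]
      simp [hu]
    simp [gramSchmidtNormed, h1]

end Crest.Agent.R208.XM
end
end

-- ▼ part R208/XM5b
section

/-! Row 208, block XM (helper671).  XM5b: lifting of orthonormal pairs of imaginary quaternions
`(h₁, h₂) = (q i q⁻¹, q j q⁻¹)` over an annulus in `ℍ`. -/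

set_option autoImplicit false
set_option linter.unusedSectionVars false
set_option linter.unusedSimpArgs false
set_option linter.unusedVariables false

open scoped BigOperators ContDiff Topology Quaternion RealInnerProductSpace
open Module Set Filter Metric

noncomputable section

namespace Crest.Agent.R208.XM

open Crest.Agent.R208.GP

/-- orthonormal pair of imaginary quaternions -/
structure Im2 (h₁ h₂ : ℍ) : Prop where
  r1 : h₁.re = 0
  r2 : h₂.re = 0
  n1 : ‖h₁‖ = 1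
  n2 : ‖h₂‖ = 1
  o : ⟪h₁, h₂⟫ = 0

theorem inner_comp (a b : ℍ) :
    ⟪a, b⟫ = a.re * b.re + a.imI * b.imI + a.imJ * b.imJ + a.imK * b.imK := by
  rw [Quaternion.inner_def]
  simp

theorem norm_comp (a : ℍ) : ‖a‖ ^ 2 = a.re ^ 2 + a.imI ^ 2 + a.imJ ^ 2 + a.imK ^ 2 := by
  rw [← real_inner_self_eq_norm_sq, inner_comp]; ring

theorem sq_imag {h : ℍ} (hr : h.re = 0) (hn : ‖h‖ = 1) : h * h = -1 := by
  have h1 := norm_comp h
  rw [hn, hr] at h1
  ext <;> simp [hr] <;> nlinarith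

namespace Im2
variable {h₁ h₂ : ℍ} (h : Im2 h₁ h₂)
include h

theorem s1 : h₁ * h₁ = -1 := sq_imag h.r1 h.n1
theorem s2 : h₂ * h₂ = -1 := sq_imag h.r2 h.n2

theorem anti : h₂ * h₁ = -(h₁ * h₂) := by
  have h1 := h.o
  rw [inner_comp, h.r1, h.r2] at h1
  ext <;> simp [h.r1, h.r2] <;> nlinarith

theorem st1 : star h₁ = -h₁ := by ext <;> simp [h.r1]
theorem st2 : star h₂ = -h₂ := by ext <;> simp [h.r2]
theorem st12 : star (h₁ * h₂) = -(h₁ * h₂) := by
  rw [star_mul, h.st1, h.st2, neg_mul_neg, h.anti]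
theorem re12 : (h₁ * h₂).re = 0 := by
  have := h.st12
  have h1 := congrArg QuaternionAlgebra.re this
  simp only [Quaternion.re_star, Quaternion.re_neg] at h1
  linarith

end Im2


theorem star_qe {i : Fin 4} (hi : i ≠ 0) : star (qe i) = - qe i := by
  fin_cases i
  · exact absurd rfl hi
  all_goals (ext <;> simp)

theorem qe1_sq : qe 1 * qe 1 = -1 := by ext <;> simp
theorem qe2_sq : qe 2 * qe 2 = -1 := by ext <;> simp
theorem qe3_sq : qe 3 * qe 3 = -1 := by ext <;> simp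
theorem qe12 : qe 1 * qe 2 = qe 3 := by ext <;> simp
theorem qe21 : qe 2 * qe 1 = - qe 3 := by ext <;> simp
theorem qe0 : qe 0 = 1 := rfl

/-- the operator `x ↦ h x e` -/
def TT (h e : ℍ) : ℍ →L[ℝ] ℍ :=
  (ContinuousLinearMap.mul ℝ ℍ h).comp ((ContinuousLinearMap.mul ℝ ℍ).flip e)

theorem TT_apply (h e x : ℍ) : TT h e x = h * x * e := by
  simp [TT, mul_assoc]

/-- the projection to the line `{x | h₁ x = x i, h₂ x = x j}` -/
def Pi (h₁ h₂ : ℍ) : ℍ →L[ℝ] ℍ :=
  (1 / 4 : ℝ) • (ContinuousLinearMap.id ℝ ℍ - TT h₁ (qe 1) - TT h₂ (qe 2) - TT (h₁ * h₂) (qe 3))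

theorem Pi_apply (h₁ h₂ x : ℍ) : Pi h₁ h₂ x
    = (1 / 4 : ℝ) • (x - h₁ * x * qe 1 - h₂ * x * qe 2 - h₁ * h₂ * x * qe 3) := by
  simp [Pi, TT_apply]

section fix
variable {h₁ h₂ : ℍ} (h : Im2 h₁ h₂)
include h

theorem Pi_left1 (x : ℍ) : h₁ * Pi h₁ h₂ x = Pi h₁ h₂ x * qe 1 := by
  rw [Pi_apply, mul_smul_comm, smul_mul_assoc]
  congr 1
  have e1 : h₁ * (h₁ * x * qe 1) = - (x * qe 1) := by
    rw [← mul_assoc, ← mul_assoc, h.s1]; noncomm_ring
  have e2 : h₁ * (h₁ * h₂ * x * qe 3) = - (h₂ * x * qe 3) := by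
    rw [show h₁ * (h₁ * h₂ * x * qe 3) = (h₁ * h₁) * h₂ * x * qe 3 by noncomm_ring, h.s1]
    noncomm_ring
  have e3 : h₁ * x * qe 1 * qe 1 = - (h₁ * x) := by rw [mul_assoc, qe1_sq]; noncomm_ring
  have e4 : h₂ * x * qe 2 * qe 1 = - (h₂ * x * qe 3) := by rw [mul_assoc, qe21]; noncomm_ring
  have q31 : qe 3 * qe 1 = qe 2 := by ext <;> simp
  have e5 : h₁ * h₂ * x * qe 3 * qe 1 = h₁ * h₂ * x * qe 2 := by rw [mul_assoc, q31]
  rw [mul_sub, mul_sub, mul_sub, sub_mul, sub_mul, sub_mul, e1, e2, e3, e4, e5]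
  noncomm_ring

theorem Pi_left2 (x : ℍ) : h₂ * Pi h₁ h₂ x = Pi h₁ h₂ x * qe 2 := by
  rw [Pi_apply, mul_smul_comm, smul_mul_assoc]
  congr 1
  have e1 : h₂ * (h₂ * x * qe 2) = - (x * qe 2) := by
    rw [← mul_assoc, ← mul_assoc, h.s2]; noncomm_ring
  have e2 : h₂ * (h₁ * h₂ * x * qe 3) = h₁ * x * qe 3 := by
    rw [show h₂ * (h₁ * h₂ * x * qe 3) = (h₂ * h₁) * h₂ * x * qe 3 by noncomm_ring, h.anti,
      show -(h₁ * h₂) * h₂ * x * qe 3 = -(h₁ * (h₂ * h₂) * x * qe 3) by noncomm_ring, h.s2]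
    noncomm_ring
  have e3 : h₂ * x * qe 2 * qe 2 = - (h₂ * x) := by rw [mul_assoc, qe2_sq]; noncomm_ring
  have e4 : h₁ * x * qe 1 * qe 2 = h₁ * x * qe 3 := by rw [mul_assoc, qe12]
  have q32 : qe 3 * qe 2 = - qe 1 := by ext <;> simp
  have e5 : h₁ * h₂ * x * qe 3 * qe 2 = - (h₁ * h₂ * x * qe 1) := by
    rw [mul_assoc, q32]; noncomm_ring
  have e6 : h₂ * (h₁ * x * qe 1) = -(h₁ * h₂ * x * qe 1) := by
    rw [show h₂ * (h₁ * x * qe 1) = (h₂ * h₁) * x * qe 1 by noncomm_ring, h.anti]; noncomm_ring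
  rw [mul_sub, mul_sub, mul_sub, sub_mul, sub_mul, sub_mul, e1, e2, e3, e4, e5, e6]
  noncomm_ring

theorem Pi_fix {x : ℍ} (e1 : h₁ * x = x * qe 1) (e2 : h₂ * x = x * qe 2) : Pi h₁ h₂ x = x := by
  rw [Pi_apply, e1, e2]
  have e3 : h₁ * h₂ * x = x * qe 3 := by
    rw [mul_assoc, e2, ← mul_assoc, e1, mul_assoc, qe12]
  rw [e3]
  have f1 : x * qe 1 * qe 1 = -x := by rw [mul_assoc, qe1_sq]; noncomm_ring
  have f2 : x * qe 2 * qe 2 = -x := by rw [mul_assoc, qe2_sq]; noncomm_ring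
  have f3 : x * qe 3 * qe 3 = -x := by rw [mul_assoc, qe3_sq]; noncomm_ring
  rw [f1, f2, f3]
  have : x - -x - -x - -x = (4 : ℝ) • x := by
    rw [show (4 : ℝ) = 1 + 1 + 1 + 1 by norm_num, add_smul, add_smul, add_smul, one_smul]; abel
  rw [this, smul_smul]
  norm_num

omit h in
theorem inner_TT {a e : ℍ} (ha : star a = -a) (he : star e = -e) (x y : ℍ) :
    ⟪a * x * e, y⟫ = ⟪x, a * y * e⟫ := by
  have h1 : (a * x * e * star y).re = (x * star (a * y * e)).re := by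
    rw [star_mul, star_mul, he, ha]
    have e1 : x * (-e * (star y * -a)) = (x * e * star y) * a := by noncomm_ring
    have e2 : a * x * e * star y = a * (x * e * star y) := by noncomm_ring
    rw [e1, e2]
    simp only [Quaternion.re_mul]
    ring
  rw [Quaternion.inner_def, Quaternion.inner_def, h1]

theorem Pi_sym (x y : ℍ) : ⟪Pi h₁ h₂ x, y⟫ = ⟪x, Pi h₁ h₂ y⟫ := by
  rw [Pi_apply, Pi_apply, real_inner_smul_left, real_inner_smul_right]
  simp only [inner_sub_left, inner_sub_right]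
  rw [inner_TT h.st1 (star_qe (by decide)), inner_TT h.st2 (star_qe (by decide)),
    inner_TT h.st12 (star_qe (by decide))]

omit h in
theorem tr_TT (a e : ℍ) : ∑ l, ⟪a * qe l * e, qe l⟫ = 4 * a.re * e.re := by
  rw [Fin.sum_univ_four]
  simp only [inner_comp, Quaternion.re_mul, Quaternion.imI_mul, Quaternion.imJ_mul,
    Quaternion.imK_mul, qe0_re, qe0_imI, qe0_imJ, qe0_imK, qe1_re, qe1_imI, qe1_imJ, qe1_imK,
    qe2_re, qe2_imI, qe2_imJ, qe2_imK, qe3_re, qe3_imI, qe3_imJ, qe3_imK]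
  ring

theorem tr_Pi : ∑ l, ⟪Pi h₁ h₂ (qe l), qe l⟫ = 1 := by
  simp only [Pi_apply, real_inner_smul_left, inner_sub_left]
  rw [← Finset.mul_sum]
  simp only [Finset.sum_sub_distrib]
  rw [tr_TT, tr_TT, tr_TT, h.r1, h.r2, h.re12]
  have h4 : ∑ l, ⟪qe l, qe l⟫ = 4 := by
    have := tr_TT 1 1
    simp only [one_mul, mul_one] at this
    rw [this]; simp
  rw [h4]
  norm_num

omit h in
/-- the centraliser of `i` and `j` -/
theorem real_of_comm {z : ℍ} (h1 : z * qe 1 = qe 1 * z) (h2 : z * qe 2 = qe 2 * z) :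
    z = (z.re : ℍ) := by
  have a1 := congrArg QuaternionAlgebra.imK h1
  have a2 := congrArg QuaternionAlgebra.imJ h1
  have a3 := congrArg QuaternionAlgebra.imK h2
  simp at a1 a2 a3
  ext
  · simp
  · simp; linarith
  · simp; linarith
  · simp; linarith

theorem R1_Pi : R1 (Pi h₁ h₂) := by
  -- a nonzero fixed vector
  have hex : ∃ l, Pi h₁ h₂ (qe l) ≠ 0 := by
    by_contra hcon
    push Not at hcon
    have := tr_Pi h
    simp only [hcon, inner_zero_left, Finset.sum_const_zero] at this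
    exact zero_ne_one this
  obtain ⟨l, hl⟩ := hex
  set y := Pi h₁ h₂ (qe l) with hy
  set u : ℍ := ‖y‖⁻¹ • y with hu
  have hun : ‖u‖ = 1 := by
    rw [hu, norm_smul, norm_inv, norm_norm, inv_mul_cancel₀ (norm_ne_zero_iff.2 hl)]
  have hu0 : u ≠ 0 := by intro h0; rw [h0, norm_zero] at hun; exact zero_ne_one hun
  have u1 : h₁ * u = u * qe 1 := by
    rw [hu, mul_smul_comm, smul_mul_assoc, Pi_left1 h]
  have u2 : h₂ * u = u * qe 2 := by
    rw [hu, mul_smul_comm, smul_mul_assoc, Pi_left2 h]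
  refine ⟨u, hun, fun x => ?_⟩
  set w := Pi h₁ h₂ x with hw
  have w1 : h₁ * w = w * qe 1 := Pi_left1 h x
  have w2 : h₂ * w = w * qe 2 := Pi_left2 h x
  have z1 : (u⁻¹ * w) * qe 1 = qe 1 * (u⁻¹ * w) := by
    have e1 : qe 1 = u⁻¹ * h₁ * u := by rw [mul_assoc, u1, ← mul_assoc, inv_mul_cancel₀ hu0, one_mul]
    calc (u⁻¹ * w) * qe 1 = u⁻¹ * (h₁ * w) := by rw [w1, mul_assoc]
      _ = u⁻¹ * h₁ * (u * u⁻¹) * w := by rw [mul_inv_cancel₀ hu0]; noncomm_ring
      _ = (u⁻¹ * h₁ * u) * (u⁻¹ * w) := by noncomm_ring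
      _ = _ := by rw [← e1]
  have z2 : (u⁻¹ * w) * qe 2 = qe 2 * (u⁻¹ * w) := by
    have e1 : qe 2 = u⁻¹ * h₂ * u := by rw [mul_assoc, u2, ← mul_assoc, inv_mul_cancel₀ hu0, one_mul]
    calc (u⁻¹ * w) * qe 2 = u⁻¹ * (h₂ * w) := by rw [w2, mul_assoc]
      _ = u⁻¹ * h₂ * (u * u⁻¹) * w := by rw [mul_inv_cancel₀ hu0]; noncomm_ring
      _ = (u⁻¹ * h₂ * u) * (u⁻¹ * w) := by noncomm_ring
      _ = _ := by rw [← e1]
  have z3 := real_of_comm z1 z2
  set c := (u⁻¹ * w).re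
  have hwc : w = c • u := by
    calc w = u * (u⁻¹ * w) := by rw [← mul_assoc, mul_inv_cancel₀ hu0, one_mul]
      _ = u * (c : ℍ) := by rw [z3]
      _ = c • u := by rw [Quaternion.mul_coe_eq_smul]
  have hc : c = ⟪u, x⟫ := by
    have e1 : ⟪u, w⟫ = c := by
      rw [hwc, real_inner_smul_right, real_inner_self_eq_norm_sq, hun]; ring
    rw [← e1, hw, ← Pi_sym h, Pi_fix h u1 u2]
  rw [hwc, hc]

/-- fixed vectors conjugate `(i, j)` to `(h₁, h₂)` -/
theorem of_fix {q : ℍ} (hq : Pi h₁ h₂ q = q) : h₁ * q = q * qe 1 ∧ h₂ * q = q * qe 2 := by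
  have h1 := Pi_left1 h q
  have h2 := Pi_left2 h q
  rw [hq] at h1 h2
  exact ⟨h1, h2⟩

end fix

section smooth
variable {G : Type*} [NormedAddCommGroup G] [NormedSpace ℝ G] {k : WithTop ℕ∞} {x : G}

theorem contDiffAt_TT {a : G → ℍ} (ha : ContDiffAt ℝ k a x) (e : ℍ) :
    ContDiffAt ℝ k (fun y => TT (a y) e) x :=
  ((ContinuousLinearMap.mul ℝ ℍ).contDiff.contDiffAt.comp x ha).clm_comp contDiffAt_const

theorem contDiffAt_Pi {h₁ h₂ : G → ℍ} (h1 : ContDiffAt ℝ k h₁ x) (h2 : ContDiffAt ℝ k h₂ x) :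
    ContDiffAt ℝ k (fun y => Pi (h₁ y) (h₂ y)) x := by
  have e : ContDiffAt ℝ k (fun y => (1 / 4 : ℝ) • (ContinuousLinearMap.id ℝ ℍ - TT (h₁ y) (qe 1)
      - TT (h₂ y) (qe 2) - TT (h₁ y * h₂ y) (qe 3))) x :=
    ContDiffAt.const_smul (1 / 4 : ℝ) (((contDiffAt_const.sub (contDiffAt_TT h1 _)).sub
      (contDiffAt_TT h2 _)).sub (contDiffAt_TT (h1.mul h2) _))
  exact e

end smooth

/-- the closed annulus -/
def An (r₁ r₂ : ℝ) : Set ℍ := {v | r₁ ≤ ‖v‖ ∧ ‖v‖ ≤ r₂}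

theorem isCompact_An (r₁ r₂ : ℝ) : IsCompact (An r₁ r₂) := by
  refine Metric.isCompact_of_isClosed_isBounded ?_ ?_
  · exact (isClosed_le continuous_const continuous_norm).inter
      (isClosed_le continuous_norm continuous_const)
  · exact (Metric.isBounded_iff_subset_closedBall 0).2 ⟨r₂, fun v hv => by
      rw [mem_closedBall_zero_iff]; exact hv.2⟩

/-- **lift of an orthonormal pair over an annulus** -/
theorem exists_lift {r₁ r₂ : ℝ} (h0 : 0 < r₁) (hr : r₁ < r₂) {h₁ h₂ : ℍ → ℍ}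
    (s1 : ∀ v ∈ An r₁ r₂, ContDiffAt ℝ ∞ h₁ v) (s2 : ∀ v ∈ An r₁ r₂, ContDiffAt ℝ ∞ h₂ v)
    (h : ∀ v ∈ An r₁ r₂, Im2 (h₁ v) (h₂ v)) :
    ∃ q : ℍ → ℍ, (∀ v ∈ An r₁ r₂, ContDiffAt ℝ ∞ q v) ∧ ∀ v ∈ An r₁ r₂,
      ‖q v‖ = 1 ∧ h₁ v * q v = q v * qe 1 ∧ h₂ v * q v = q v * qe 2 := by
  set R : ℍ → ℍ →L[ℝ] ℍ := fun v => Pi (h₁ v) (h₂ v) with hR
  have hRs : ∀ v ∈ An r₁ r₂, ContDiffAt ℝ ∞ R v := fun v hv => contDiffAt_Pi (s1 v hv) (s2 v hv)
  have hR1 : ∀ v ∈ An r₁ r₂, R1 (R v) := fun v hv => R1_Pi (h v hv)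
  have hRc : ContinuousOn R (An r₁ r₂) := fun v hv => (hRs v hv).continuousAt.continuousWithinAt
  set ρ : ℝ → ℝ := fun t => r₁ + t * (r₂ - r₁) with hρ
  have hm : ∀ z ∈ (Icc (0 : ℝ) 1) ×ˢ sphere (0 : ℍ) 1, ρ z.1 • z.2 ∈ An r₁ r₂ := by
    rintro ⟨t, u⟩ ⟨ht, hu⟩
    have hu' : ‖u‖ = 1 := by simpa using hu
    have h1 : 0 < ρ t := by
      have := mul_nonneg ht.1 (sub_pos.2 hr).le
      simp only [hρ]; linarith
    change r₁ ≤ ‖ρ t • u‖ ∧ ‖ρ t • u‖ ≤ r₂
    rw [norm_smul, hu', mul_one, Real.norm_eq_abs, abs_of_pos h1]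
    simp only [hρ]
    constructor
    · nlinarith [ht.1]
    · nlinarith [ht.2]
  obtain ⟨w, hw, hw1⟩ := lift_prod_sphere (V := ℝ) (F := ℍ) (W := ℍ) (A := Icc (0 : ℝ) 1)
    isCompact_Icc (by simp) (fun x hx t ht => by
      rw [smul_eq_mul]
      exact ⟨mul_nonneg ht.1 hx.1, by nlinarith [hx.1, hx.2, ht.1, ht.2]⟩)
    (by rw [Quaternion.finrank_eq_four]; norm_num)
    (P := fun z => R (ρ z.1 • z.2))
    (hRc.comp (by fun_prop) hm) (fun z hz => hR1 _ (hm z hz))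
  set q₀ : ℍ → ℍ := fun v => w ((‖v‖ - r₁) / (r₂ - r₁), ‖v‖⁻¹ • v) with hq₀
  have hd : 0 < r₂ - r₁ := sub_pos.2 hr
  have hmem : ∀ v ∈ An r₁ r₂, ((‖v‖ - r₁) / (r₂ - r₁), ‖v‖⁻¹ • v) ∈
      (Icc (0 : ℝ) 1) ×ˢ sphere (0 : ℍ) 1 := by
    rintro v ⟨hv1, hv2⟩
    have hv0 : 0 < ‖v‖ := lt_of_lt_of_le h0 hv1
    refine ⟨⟨div_nonneg (by linarith) hd.le, (div_le_one hd).2 (by linarith)⟩, ?_⟩
    simp [norm_smul, inv_mul_cancel₀ hv0.ne']
  have hback : ∀ v ∈ An r₁ r₂, ρ ((‖v‖ - r₁) / (r₂ - r₁)) • (‖v‖⁻¹ • v) = v := by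
    rintro v ⟨hv1, hv2⟩
    have hv0 : 0 < ‖v‖ := lt_of_lt_of_le h0 hv1
    have : ρ ((‖v‖ - r₁) / (r₂ - r₁)) = ‖v‖ := by
      simp only [hρ]; rw [div_mul_cancel₀ _ hd.ne']; ring
    rw [this, smul_smul, mul_inv_cancel₀ hv0.ne', one_smul]
  have hq₀c : ContinuousOn q₀ (An r₁ r₂) := by
    refine hw.comp (ContinuousOn.prodMk ?_ ?_) hmem
    · exact ((continuous_norm.sub continuous_const).div_const _).continuousOn
    · refine ContinuousOn.smul (ContinuousOn.inv₀ continuous_norm.continuousOn ?_) continuousOn_id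
      rintro v ⟨hv1, -⟩
      exact (lt_of_lt_of_le h0 hv1).ne'
  have hq₀1 : ∀ v ∈ An r₁ r₂, ‖q₀ v‖ = 1 ∧ R v (q₀ v) = q₀ v := by
    intro v hv
    have := hw1 _ (hmem v hv)
    simp only [hback v hv] at this
    exact this
  obtain ⟨q, hqs, hq⟩ := smooth_lift (isCompact_An r₁ r₂) hRs hR1 hq₀c hq₀1
  refine ⟨q, hqs, fun v hv => ?_⟩
  rw [hq v hv]
  obtain ⟨h1, h2⟩ := hq₀1 v hv
  exact ⟨h1, of_fix (h v hv) h2⟩

end Crest.Agent.R208.XM
end
end

-- ▼ part R208/XM5c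
section

/-! Row 208, block XM (helper671).  XM5c: the concrete cut-off functions on `S⁴`, and the degree:
`∫ dχ tr (L_q⁻¹ dL_q)³ = d ∫ dχ tr (L_v⁻¹ dL_v)³`, `d` an integer. -/

set_option autoImplicit false
set_option linter.unusedSectionVars false
set_option linter.unusedSimpArgs false
set_option linter.unusedVariables false

open scoped BigOperators ContDiff Topology Quaternion RealInnerProductSpace
open Module Set Filter Matrix

noncomputable section

namespace Crest.Agent.R208.XM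

open Crest.Agent.R208.F Crest.Agent.R208.FI Crest.Agent.R208.CW

section nat
variable {E F : Type*} [NormedAddCommGroup E] [NormedSpace ℝ E] [FiniteDimensional ℝ E]
  [NormedAddCommGroup F] [NormedSpace ℝ F] [FiniteDimensional ℝ F]
  {n m : Type*} [Fintype n] [Fintype m] [DecidableEq n] [DecidableEq m] {x : E}

/-- naturality of the connection form -/
theorem pullC_w3 {f : E → F} {B : F → Matrix n m ℂ} (hf : ContDiffAt ℝ 2 f x)
    (hB : SM 1 B (f x)) : pullC f (w3 B) x = w3 (fun y => B (f y)) x := by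
  set φ : CF F →+* CF E := pbC ((fderiv ℝ f x : E →L[ℝ] F) : E →ₗ[ℝ] F) with hφ
  have h1 : pullC f (w3 B) x = φ ((cA B (f x) * cA B (f x) * cA B (f x)).trace) := rfl
  have h2 : φ ((cA B (f x) * cA B (f x) * cA B (f x)).trace)
      = ((cA B (f x) * cA B (f x) * cA B (f x)).map φ).trace := map_sum φ _ _
  have h3 : (DD B (f x)).map φ = DD (fun y => B (f y)) x := pbC_DD hf hB
  have h4 : (hat F (B (f x))ᵀ).map φ = hat E (B (f x))ᵀ :=
    Matrix.ext fun i j => pbC_algebraMap _ _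
  have h5 : (cA B (f x)).map φ = cA (fun y => B (f y)) x := by
    rw [cA, Matrix.map_mul, h3, h4, cA]
  rw [h1, h2, Matrix.map_mul, Matrix.map_mul, h5]
  rfl

theorem pullC_dfn {f : E → F} {χ : F → ℝ} (hf : ContDiffAt ℝ 2 f x) (hχ : ContDiffAt ℝ ∞ χ (f x)) :
    pullC f (dC (fn χ)) x = dC (fn fun y => χ (f y)) x := by
  rw [← dC_pullC hf ((CD_fn hχ).of_le one_le_inf)]
  congr 1
  funext y
  exact pbC_algebraMap _ _

end nat

/-- the annulus region -/
def UU : Set E5 := {z | 9 / 10 < ‖z.2‖ ∧ ‖z.2‖ < 99 / 100}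

theorem isOpen_UU : IsOpen UU := by
  have hc : Continuous fun z : E5 => ‖z.2‖ := by fun_prop
  exact (isOpen_lt continuous_const hc).inter (isOpen_lt hc continuous_const)

theorem ne_of_UU {z : E5} (h : z ∈ UU) : z.2 ≠ 0 := fun h0 => by
  have := h.1
  rw [h0, norm_zero] at this
  norm_num at this

/-- off the annulus -/
theorem off_UU {z : E5} (hz : z ∈ X4) (hU : z ∉ UU) : z.1 < -(2 / 5) ∨ -(1 / 5) < z.1 := by
  rw [mem_X4] at hz
  by_contra hcon
  push Not at hcon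
  obtain ⟨h1, h2⟩ := hcon
  apply hU
  have h3 : z.1 ^ 2 ≤ 4 / 25 := by nlinarith
  have h4 : 1 / 25 ≤ z.1 ^ 2 := by nlinarith
  constructor
  · by_contra h5
    push Not at h5
    nlinarith [norm_nonneg z.2]
  · by_contra h5
    push Not at h5
    nlinarith [norm_nonneg z.2]

/-- profile of a cut-off -/
structure Prof (φ : ℝ → ℝ) : Prop where
  sm : ContDiff ℝ ∞ φ
  l : ∀ t ≤ -(2 / 5 : ℝ), φ t = 1
  r : ∀ t, -(1 / 5 : ℝ) ≤ t → φ t = 0

theorem Prof.cut {φ : ℝ → ℝ} (h : Prof φ) : Cut X4 UU (fun z => φ z.1) where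
  sm := fun z _ => (h.sm.comp contDiff_fst).contDiffAt
  lc := fun z hz hU => by
    rcases off_UU hz hU with h1 | h1
    · refine ⟨1, ?_⟩
      filter_upwards [(continuous_fst.tendsto z).eventually_lt_const h1] with y hy
      exact h.l _ hy.le
    · refine ⟨0, ?_⟩
      filter_upwards [(continuous_fst.tendsto z).eventually_const_lt h1] with y hy
      exact h.r _ hy.le

theorem Prof.agree {φ ψ : ℝ → ℝ} (h : Prof φ) (h' : Prof ψ) {z : E5} (hz : z ∈ X4) (hU : z ∉ UU) :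
    (fun z : E5 => φ z.1) =ᶠ[𝓝 z] fun z => ψ z.1 := by
  rcases off_UU hz hU with h1 | h1
  · filter_upwards [(continuous_fst.tendsto z).eventually_lt_const h1] with y hy
    rw [h.l _ hy.le, h'.l _ hy.le]
  · filter_upwards [(continuous_fst.tendsto z).eventually_const_lt h1] with y hy
    rw [h.r _ hy.le, h'.r _ hy.le]

/-- the standard profile -/
def pr0 (t : ℝ) : ℝ := 1 - Real.smoothTransition (5 * t + 2)

theorem prof_pr0 : Prof pr0 where
  sm := contDiff_const.sub (Real.smoothTransition.contDiff.comp (by fun_prop))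
  l := fun t ht => by
    rw [pr0, Real.smoothTransition.zero_of_nonpos (by linarith), sub_zero]
  r := fun t ht => by
    rw [pr0, Real.smoothTransition.one_of_one_le (by linarith), sub_self]

/-- the angle -/
def an (t : ℝ) : ℝ := Real.pi * Real.smoothTransition (5 * t + 2)

theorem contDiff_an : ContDiff ℝ ∞ an :=
  contDiff_const.mul (Real.smoothTransition.contDiff.comp (by fun_prop))

theorem an_l {t : ℝ} (ht : t ≤ -(2 / 5 : ℝ)) : an t = 0 := by
  rw [an, Real.smoothTransition.zero_of_nonpos (by linarith), mul_zero]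

theorem an_r {t : ℝ} (ht : -(1 / 5 : ℝ) ≤ t) : an t = Real.pi := by
  rw [an, Real.smoothTransition.one_of_one_le (by linarith), mul_one]


theorem prof_an {φ : ℝ → ℝ} (h : Prof φ) : Prof (fun t => φ (-Real.cos (an t))) where
  sm := h.sm.comp ((Real.contDiff_cos.comp contDiff_an).neg)
  l := fun t ht => by
    rw [an_l ht, Real.cos_zero]
    exact h.l _ (by norm_num)
  r := fun t ht => by
    rw [an_r ht, Real.cos_pi]
    exact h.r _ (by norm_num)

section deg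
variable {q : E5 → ℍ}

/-- smooth unit quaternion field on the annulus region -/
structure UQ (q : E5 → ℍ) : Prop where
  sm : ∀ z ∈ UU, ContDiffAt ℝ ∞ q z
  un : ∀ z ∈ UU, ‖q z‖ = 1

theorem UQ.ofm (hq : UQ q) {z : E5} (hz : z ∈ UU) : OFm (fun y => LC (q y)) z :=
  OFm_LC ((isOpen_UU.eventually_mem hz).mono fun y hy => hq.sm y hy)
    ((isOpen_UU.eventually_mem hz).mono fun y hy => hq.un y hy)

theorem uq_vh : UQ vh where
  sm := fun z hz => contDiffAt_vh (ne_of_UU hz)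
  un := fun z hz => norm_vh (ne_of_UU hz)

/-- the suspension map -/
def Ph (q : E5 → ℍ) (z : E5) : E5 := (-Real.cos (an z.1), Real.sin (an z.1) • q z)

theorem Ph_off {z : E5} (hz : z ∈ X4) (hU : z ∉ UU) :
    ∃ c : E5, Ph q =ᶠ[𝓝 z] (fun _ => c) ∧ Real.sin (an z.1) = 0 := by
  rcases off_UU hz hU with h1 | h1
  · refine ⟨(-1, 0), ?_, by rw [an_l h1.le, Real.sin_zero]⟩
    filter_upwards [(continuous_fst.tendsto z).eventually_lt_const h1] with y hy
    rw [Ph, an_l hy.le, Real.cos_zero, Real.sin_zero, zero_smul]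
  · refine ⟨(1, 0), ?_, by rw [an_r h1.le, Real.sin_pi]⟩
    filter_upwards [(continuous_fst.tendsto z).eventually_const_lt h1] with y hy
    rw [Ph, an_r hy.le, Real.cos_pi, Real.sin_pi, zero_smul, neg_neg]

theorem smap_Ph (hq : UQ q) : SMap X4 X4 (Ph q) where
  smooth := fun z hz => by
    by_cases hU : z ∈ UU
    · have h1 : ContDiffAt ℝ ∞ (fun z : E5 => an z.1) z :=
        (contDiff_an.comp contDiff_fst).contDiffAt
      exact ((Real.contDiff_cos.contDiffAt.comp z h1).neg).prodMk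
        ((Real.contDiff_sin.contDiffAt.comp z h1).smul (hq.sm z hU))
    · obtain ⟨c, hc, -⟩ := Ph_off (q := q) hz hU
      exact contDiffAt_const.congr_of_eventuallyEq hc
  maps := fun z hz => by
    rw [mem_X4]
    change (-Real.cos (an z.1)) ^ 2 + ‖Real.sin (an z.1) • q z‖ ^ 2 = 1
    by_cases hU : z ∈ UU
    · rw [norm_smul, hq.un z hU, mul_one, Real.norm_eq_abs, sq_abs, neg_sq]
      exact Real.cos_sq_add_sin_sq _
    · obtain ⟨c, hc, h0⟩ := Ph_off (q := q) hz hU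
      rw [h0, zero_smul, norm_zero, neg_sq]
      have := Real.cos_sq_add_sin_sq (an z.1)
      rw [h0] at this
      exact this

theorem smo_w3 (hq : UQ q) : Smo (X4 ∩ UU) (w3 fun y => LC (q y)) := fun z hz =>
  CD_w3 (SM_LC (hq.sm z hz.2))

theorem closed_w3 (hq : UQ q) : ∀ z ∈ X4, z ∈ UU → dC (w3 fun y => LC (q y)) z = 0 :=
  fun z _ hU => dC_w3_sq (hq.ofm hU)

theorem not_UU_of {c : ℝ} : ((c, 0) : E5) ∉ UU := fun h => ne_of_UU h rfl

/-- **the degree** -/
theorem exists_deg (hq : UQ q) {φ : ℝ → ℝ} (h : Prof φ) : ∃ d : ℤ,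
    Mc 4 X4 o4 (fun z => φ z.1) (w3 fun y => LC (q y))
      = d * Mc 4 X4 o4 (fun z => φ z.1) (w3 LV) := by
  obtain ⟨d, hd⟩ := exists_deg_JC clo_X4 ori_X4 clo_X4 ori_X4 preconn_X4 (smap_Ph hq)
  refine ⟨d, ?_⟩
  have h1 := hd (fun y => dC (fn fun z : E5 => φ z.1) y * w3 LV y) (h.cut.smo (smo_w3 uq_vh))
  have h2 : JC 4 X4 o4 (pullC (Ph q) fun y => dC (fn fun z : E5 => φ z.1) y * w3 LV y)
      = Mc 4 X4 o4 (fun z => φ (-Real.cos (an z.1))) (w3 fun y => LC (q y)) := by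
    refine JC_congr clo_X4 fun z hz => ?_
    congr 1
    have hs : ContDiffAt ℝ 2 (Ph q) z := (smap_Ph hq).c2 hz
    have hmul : pullC (Ph q) (fun y => dC (fn fun z : E5 => φ z.1) y * w3 LV y) z
        = pullC (Ph q) (dC (fn fun z : E5 => φ z.1)) z * pullC (Ph q) (w3 LV) z :=
      map_mul (pbC _) _ _
    have hd1 : pullC (Ph q) (dC (fn fun z : E5 => φ z.1)) z
        = dC (fn fun z : E5 => φ (-Real.cos (an z.1))) z :=
      pullC_dfn hs ((h.sm.comp contDiff_fst).contDiffAt)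
    rw [hmul]
    by_cases h0 : Real.sin (an z.1) = 0
    · -- `Ph q z = (c, 0)`
      have h3 : Ph q z ∉ UU := by
        rw [Ph, h0, zero_smul]; exact not_UU_of
      have h4 : dC (fn fun z : E5 => φ z.1) (Ph q z) = 0 :=
        (h.cut.dC_eq ((smap_Ph hq).maps hz) h3).self_of_nhds
      have h5 : pullC (Ph q) (dC (fn fun z : E5 => φ z.1)) z = 0 := by
        change pbC _ (dC (fn fun z : E5 => φ z.1) (Ph q z)) = 0
        rw [h4, map_zero]
      rw [← hd1, h5, zero_mul, zero_mul]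
    · have hU : z ∈ UU := by
        by_contra hU
        exact h0 (Ph_off (q := q) hz hU).choose_spec.2
      have hpos : 0 < Real.sin (an z.1) := by
        refine lt_of_le_of_ne ?_ (Ne.symm h0)
        apply Real.sin_nonneg_of_nonneg_of_le_pi
        · exact mul_nonneg Real.pi_pos.le (Real.smoothTransition.nonneg _)
        · have := Real.smoothTransition.le_one (5 * z.1 + 2)
          rw [an]; nlinarith [Real.pi_pos]
      have hne : (Ph q z).2 ≠ 0 := by
        change Real.sin (an z.1) • q z ≠ 0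
        refine smul_ne_zero h0 fun h6 => ?_
        have := hq.un z hU
        rw [h6, norm_zero] at this
        exact zero_ne_one this
      have h7 : (fun y => LV (Ph q y)) =ᶠ[𝓝 z] fun y => LC (q y) := by
        have hc : Continuous fun y : E5 => Real.sin (an y.1) :=
          Real.continuous_sin.comp (contDiff_an.continuous.comp continuous_fst)
        filter_upwards [(hc.tendsto z).eventually_const_lt hpos, isOpen_UU.eventually_mem hU]
          with y hy hyU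
        rw [LV, vh]
        change LC (‖Real.sin (an y.1) • q y‖⁻¹ • (Real.sin (an y.1) • q y)) = _
        rw [norm_smul, hq.un y hyU, mul_one, Real.norm_eq_abs, abs_of_pos hy, smul_smul,
          inv_mul_cancel₀ hy.ne', one_smul]
      rw [hd1, pullC_w3 hs ((OFm_LV hne).s.of_le one_le_inf), w3_congr h7]
  rw [h2] at h1
  rw [Mc_indep clo_X4 ori_X4 h.cut (prof_an h).cut (fun z hz hU => h.agree (prof_an h) hz hU)
    (smo_w3 hq) (closed_w3 hq), h1]
  rfl

end deg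

/-! ### the cut-off of the constant computation -/

/-- cut-off on the lower hemisphere, as a function of `‖v‖²` -/
def c2 (f : ℝ → ℝ) (z : E5) : ℝ := if z.1 < 0 then f (‖z.2‖ ^ 2) else 0

section c2
variable {f : ℝ → ℝ} (hf : ContDiff ℝ ∞ f) (h1 : ∀ s ≤ (82 / 100 : ℝ), f s = 1)
  (h0 : ∀ s, (97 / 100 : ℝ) ≤ s → f s = 0)
include hf h1 h0

theorem c2_agree {φ : ℝ → ℝ} (h : Prof φ) {z : E5} (hz : z ∈ X4) (hU : z ∉ UU) :
    (fun z : E5 => φ z.1) =ᶠ[𝓝 z] c2 f := by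
  have hz' := hz
  rw [mem_X4] at hz'
  by_cases hn : 9 / 10 < ‖z.2‖
  · have hn2 : 99 / 100 ≤ ‖z.2‖ := by
      by_contra hcon
      push Not at hcon
      exact hU ⟨hn, hcon⟩
    have h3 : (97 / 100 : ℝ) < ‖z.2‖ ^ 2 := by nlinarith
    have h4 : -(1 / 5 : ℝ) < z.1 := by nlinarith
    have hc : Continuous fun y : E5 => ‖y.2‖ ^ 2 := by fun_prop
    filter_upwards [(continuous_fst.tendsto z).eventually_const_lt h4,
      (hc.tendsto z).eventually_const_lt h3] with y hy1 hy2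
    rw [h.r _ hy1.le, c2]
    split_ifs
    · rw [h0 _ hy2.le]
    · rfl
  · push Not at hn
    have h3 : ‖z.2‖ ^ 2 ≤ 81 / 100 := by nlinarith [norm_nonneg z.2]
    have h3' : ‖z.2‖ ^ 2 < 82 / 100 := by linarith
    have h4 : 19 / 100 ≤ z.1 ^ 2 := by linarith
    have hc : Continuous fun y : E5 => ‖y.2‖ ^ 2 := by fun_prop
    rcases lt_or_ge z.1 0 with h5 | h5
    · have h6 : z.1 < -(2 / 5 : ℝ) := by nlinarith
      filter_upwards [(continuous_fst.tendsto z).eventually_lt_const h6,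
        (hc.tendsto z).eventually_lt_const h3'] with y hy1 hy2
      have : y.1 < 0 := by linarith
      rw [h.l _ hy1.le, c2, if_pos this, h1 _ hy2.le]
    · have h6 : 0 < z.1 := by
        rcases h5.lt_or_eq with h | h
        · exact h
        · rw [← h] at h4; norm_num at h4
      filter_upwards [(continuous_fst.tendsto z).eventually_const_lt h6] with y hy1
      rw [h.r _ (by linarith), c2, if_neg (by linarith)]

theorem cut_c2 : Cut X4 UU (c2 f) where
  sm := fun z hz => by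
    rw [mem_X4] at hz
    rcases lt_trichotomy z.1 0 with h | h | h
    · have : c2 f =ᶠ[𝓝 z] fun z => f (‖z.2‖ ^ 2) := by
        filter_upwards [(continuous_fst.tendsto z).eventually_lt_const h] with y hy
        rw [c2, if_pos hy]
      exact ((hf.comp (contDiff_snd.norm_sq ℝ)).contDiffAt).congr_of_eventuallyEq this
    · have hc : Continuous fun y : E5 => ‖y.2‖ ^ 2 := by fun_prop
      have h3 : (97 / 100 : ℝ) < ‖z.2‖ ^ 2 := by rw [h] at hz; nlinarith
      have : c2 f =ᶠ[𝓝 z] fun z => 0 := by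
        filter_upwards [(hc.tendsto z).eventually_const_lt h3] with y hy
        rw [c2]
        split_ifs
        · rw [h0 _ hy.le]
        · rfl
      exact contDiffAt_const.congr_of_eventuallyEq this
    · have : c2 f =ᶠ[𝓝 z] fun z => 0 := by
        filter_upwards [(continuous_fst.tendsto z).eventually_const_lt h] with y hy
        rw [c2, if_neg (by linarith)]
      exact contDiffAt_const.congr_of_eventuallyEq this
  lc := fun z hz hU => by
    obtain ⟨c, hc⟩ := prof_pr0.cut.lc z hz hU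
    exact ⟨c, (c2_agree hf h1 h0 prof_pr0 hz hU).symm.trans hc⟩

/-- the constant, in terms of the standard cut-off -/
theorem Mc_c2 {φ : ℝ → ℝ} (h : Prof φ) :
    Mc 4 X4 o4 (fun z => φ z.1) (w3 LV) = Mc 4 X4 o4 (c2 f) (w3 LV) :=
  Mc_indep clo_X4 ori_X4 h.cut (cut_c2 hf h1 h0) (fun z hz hU => c2_agree hf h1 h0 h hz hU)
    (smo_w3 uq_vh) (closed_w3 uq_vh)

end c2

end Crest.Agent.R208.XM
end
end

-- ▼ part R208/XM7a
section

/-! Row 208, block XM (helper671).  XM7a: frames of the flat model and their quaternionic form on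
the annulus. -/

set_option autoImplicit false
set_option linter.unusedSectionVars false
set_option linter.unusedSimpArgs false
set_option linter.unusedVariables false

open scoped BigOperators ContDiff Topology Quaternion RealInnerProductSpace
open Module Set Filter Matrix

noncomputable section

namespace Crest.Agent.R208.XM

open Crest.Agent.R208.F Crest.Agent.R208.FI Crest.Agent.R208.CW

theorem qe_on : Orthonormal ℝ qe := by
  rw [orthonormal_iff_ite]
  intro i j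
  rw [inner_comp]
  fin_cases i <;> fin_cases j <;> simp

theorem sum_qc (a : ℍ) : ∑ m, qc a m • qe m = a := by
  rw [Fin.sum_univ_four]
  ext <;> simp [qc]

theorem inner_mul_left (a x y : ℍ) : ⟪a * x, a * y⟫ = ‖a‖ ^ 2 * ⟪x, y⟫ := by
  rw [norm_comp, inner_comp, inner_comp]
  simp only [Quaternion.re_mul, Quaternion.imI_mul, Quaternion.imJ_mul, Quaternion.imK_mul]
  ring

theorem inner_mul_right (a x y : ℍ) : ⟪x * a, y * a⟫ = ‖a‖ ^ 2 * ⟪x, y⟫ := by
  rw [norm_comp, inner_comp, inner_comp]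
  simp only [Quaternion.re_mul, Quaternion.imI_mul, Quaternion.imJ_mul, Quaternion.imK_mul]
  ring

theorem preconn_An {r₁ r₂ : ℝ} (h0 : 0 < r₁) : IsPreconnected (An r₁ r₂) := by
  have h1 : IsPreconnected (Metric.sphere (0 : ℍ) 1) := by
    refine isPreconnected_sphere ?_ 0 1
    rw [← Module.finrank_eq_rank, Quaternion.finrank_eq_four]
    norm_num
  have h2 : IsPreconnected (Icc r₁ r₂ ×ˢ Metric.sphere (0 : ℍ) 1) := isPreconnected_Icc.prod h1
  have h3 : (fun p : ℝ × ℍ => p.1 • p.2) '' (Icc r₁ r₂ ×ˢ Metric.sphere (0 : ℍ) 1) = An r₁ r₂ := by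
    ext v
    constructor
    · rintro ⟨⟨r, u⟩, ⟨hr, hu⟩, rfl⟩
      have hu' : ‖u‖ = 1 := by simpa using hu
      have : ‖r • u‖ = r := by
        rw [norm_smul, hu', mul_one, Real.norm_eq_abs, abs_of_pos (lt_of_lt_of_le h0 hr.1)]
      change r₁ ≤ ‖r • u‖ ∧ ‖r • u‖ ≤ r₂
      rw [this]; exact hr
    · rintro ⟨hv1, hv2⟩
      have hv0 : 0 < ‖v‖ := lt_of_lt_of_le h0 hv1
      refine ⟨(‖v‖, ‖v‖⁻¹ • v), ⟨⟨hv1, hv2⟩, ?_⟩, ?_⟩
      · simp [norm_smul, inv_mul_cancel₀ hv0.ne']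
      · simp only [smul_smul, mul_inv_cancel₀ hv0.ne', one_smul]
  rw [← h3]
  exact h2.image _ (by fun_prop)

/-- a projection of rank `4` in terms of an orthonormal frame of its range -/
theorem proj_eq_sum {H : Type*} [NormedAddCommGroup H] [InnerProductSpace ℝ H]
    [FiniteDimensional ℝ H] {m : ℕ} {P : H →L[ℝ] H} (idem : ∀ x, P (P x) = P x)
    (sym : ∀ x y, ⟪P x, y⟫ = ⟪x, P y⟫)
    (rk : finrank ℝ (LinearMap.range (P : H →ₗ[ℝ] H)) = m) {e : Fin m → H} (he : Orthonormal ℝ e)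
    (hPe : ∀ i, P (e i) = e i) (x : H) : P x = ∑ i, ⟪e i, x⟫ • e i := by
  have h1 : Submodule.span ℝ (Set.range e) ≤ LinearMap.range (P : H →ₗ[ℝ] H) := by
    rw [Submodule.span_le]
    rintro _ ⟨i, rfl⟩
    exact ⟨e i, hPe i⟩
  have h2 : Submodule.span ℝ (Set.range e) = LinearMap.range (P : H →ₗ[ℝ] H) := by
    refine Submodule.eq_of_le_of_finrank_eq h1 ?_
    rw [rk, finrank_span_eq_card he.linearIndependent, Fintype.card_fin]
  have h3 : P x ∈ Submodule.span ℝ (Set.range e) := by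
    rw [h2]; exact ⟨x, rfl⟩
  obtain ⟨c, hc⟩ := (Submodule.mem_span_range_iff_exists_fun ℝ).1 h3
  rw [← hc]
  refine Finset.sum_congr rfl fun i _ => ?_
  congr 1
  have h4 : ⟪e i, P x⟫ = c i := by
    rw [← hc]; exact he.inner_right_fintype c i
  rw [← h4, ← sym, hPe]

section flat
variable {n : Type*} [Fintype n] [DecidableEq n] {j : ℍ →ₗᵢ[ℝ] EuclideanSpace ℝ n}
  {P : ℍ → EuclideanSpace ℝ n →L[ℝ] EuclideanSpace ℝ n} {s : ℍ → EuclideanSpace ℝ n}

theorem Flat.P_eq (h : Flat j P s) {v : ℍ} (hv : 3 / 4 ≤ ‖v‖ ^ 2) (x : EuclideanSpace ℝ n) :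
    P v x = ∑ m, ⟪j (qe m), x⟫ • j (qe m) :=
  proj_eq_sum (h.idem v) (h.sym v) (h.rk v) (qe_on.comp_linearIsometry j)
    (fun i => (h.out v hv).2 _) x

theorem Flat.P_const (h : Flat j P s) {v : ℍ} (hv : 3 / 4 ≤ ‖v‖ ^ 2) : P v = P 1 := by
  ext1 x
  rw [h.P_eq hv, h.P_eq (v := 1) (by simp; norm_num)]

/-- **frame and lift** -/
theorem Flat.exists_frame (h : Flat j P s) : ∃ (e : ℍ → Fin 4 → EuclideanSpace ℝ n) (q : ℍ → ℍ),
    (∀ v, ‖v‖ ≤ 2 → ∀ i, ContDiffAt ℝ ∞ (fun y => e y i) v) ∧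
    (∀ v, ‖v‖ ≤ 2 → Orthonormal ℝ (e v) ∧ ∀ i, P v (e v i) = e v i) ∧
    (∀ v ∈ An (9 / 10) (99 / 100), ContDiffAt ℝ ∞ q v) ∧
    (∀ v ∈ An (9 / 10) (99 / 100), ‖q v‖ = 1 ∧
      ∀ l, e v l = j (‖v‖⁻¹ • v * (q v * (qe l * star (q v))))) := by
  obtain ⟨e, hes, he⟩ := exists_onframe h.sP h.ss h.idem h.sym h.rk h.Ps h.s0 2
  set A : Set ℍ := An (9 / 10) (99 / 100) with hA
  have hA2 : ∀ v ∈ A, ‖v‖ ≤ 2 := fun v hv => hv.2.trans (by norm_num)
  have hA3 : ∀ v ∈ A, 3 / 4 ≤ ‖v‖ ^ 2 := fun v hv => by nlinarith [hv.1]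
  have hA0 : ∀ v ∈ A, v ≠ 0 := fun v hv h0 => by
    have := hv.1
    rw [h0, norm_zero] at this
    norm_num at this
  set u : ℍ → ℍ := fun v => ‖v‖⁻¹ • v with hu
  have hun : ∀ v ∈ A, ‖u v‖ = 1 := fun v hv => by
    rw [hu]
    simp only
    rw [norm_smul, norm_inv, norm_norm, inv_mul_cancel₀ (norm_ne_zero_iff.2 (hA0 v hv))]
  have hus : ∀ v ∈ A, ContDiffAt ℝ ∞ u v := fun v hv =>
    ((contDiffAt_norm ℝ (hA0 v hv)).inv (norm_ne_zero_iff.2 (hA0 v hv))).smul contDiffAt_id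
  -- coordinates
  set y : Fin 4 → ℍ → ℍ := fun l v => ∑ m, ⟪j (qe m), e v l⟫ • qe m with hy
  have hjy : ∀ v ∈ A, ∀ l, j (y l v) = e v l := fun v hv l => by
    rw [hy]
    simp only [map_sum, map_smul]
    rw [← h.P_eq (hA3 v hv), (he v (hA2 v hv)).2.1]
  have hys : ∀ v ∈ A, ∀ l, ContDiffAt ℝ ∞ (y l) v := fun v hv l =>
    ContDiffAt.sum fun m _ => (contDiffAt_const.inner ℝ (hes v (hA2 v hv) l)).smul contDiffAt_const
  have hyy : ∀ v ∈ A, ∀ l m, ⟪y l v, y m v⟫ = if l = m then 1 else 0 := fun v hv l m => by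
    rw [← j.inner_map_map, hjy v hv, hjy v hv]
    exact orthonormal_iff_ite.1 (he v (hA2 v hv)).1 l m
  have hy0 : ∀ v ∈ A, y 0 v = u v := fun v hv => by
    apply j.injective
    rw [hjy v hv, (he v (hA2 v hv)).2.2, (h.out v (hA3 v hv)).1, j.norm_map, hu]
    simp only [map_smul]
  -- the imaginary quaternions
  set hh : Fin 4 → ℍ → ℍ := fun l v => star (u v) * y l v with hhh
  have hst : ContDiff ℝ ∞ (fun a : ℍ => star a) := by
    have : (fun a : ℍ => star a) = fun a => (2 * qc a 0) • (1 : ℍ) - a := by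
      funext a
      ext
      · simp [qc]; ring
      · simp
      · simp
      · simp
    rw [this]
    exact ((contDiff_const.mul (contDiff_qc 0)).smul contDiff_const).sub contDiff_id
  have hhs : ∀ v ∈ A, ∀ l, ContDiffAt ℝ ∞ (hh l) v := fun v hv l =>
    (hst.contDiffAt.comp v (hus v hv)).mul (hys v hv l)
  have hh0 : ∀ v ∈ A, hh 0 v = 1 := fun v hv => by
    rw [hhh]; simp only
    rw [hy0 v hv, star_mul_self_of_norm (hun v hv)]
  have hhi : ∀ v ∈ A, ∀ l m, ⟪hh l v, hh m v⟫ = if l = m then 1 else 0 := fun v hv l m => by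
    rw [hhh]; simp only
    rw [inner_mul_left, Quaternion.norm_star, hun v hv, hyy v hv]; simp
  have hre : ∀ v ∈ A, ∀ l, l ≠ 0 → (hh l v).re = 0 := fun v hv l hl => by
    have h1 := hhi v hv 0 l
    rw [hh0 v hv, if_neg hl.symm, inner_comp] at h1
    simpa using h1
  have hnn : ∀ v ∈ A, ∀ l, ‖hh l v‖ = 1 := fun v hv l => by
    have h1 := hhi v hv l l
    rw [if_pos rfl, real_inner_self_eq_norm_sq] at h1
    have h2 : 0 ≤ ‖hh l v‖ := norm_nonneg _
    nlinarith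
  have him : ∀ v ∈ A, Im2 (hh 1 v) (hh 2 v) := fun v hv =>
    ⟨hre v hv 1 (by decide), hre v hv 2 (by decide), hnn v hv 1, hnn v hv 2, by
      rw [hhi v hv]; simp⟩
  obtain ⟨q, hqs, hq⟩ := exists_lift (by norm_num) (by norm_num) (fun v hv => hhs v hv 1)
    (fun v hv => hhs v hv 2) him
  have hqn : ∀ v ∈ A, ‖q v‖ = 1 := fun v hv => (hq v hv).1
  have hqq : ∀ v ∈ A, q v * star (q v) = 1 := fun v hv => self_mul_star_of_norm (hqn v hv)
  have hqq' : ∀ v ∈ A, star (q v) * q v = 1 := fun v hv => star_mul_self_of_norm (hqn v hv)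
  have h1q : ∀ v ∈ A, hh 1 v = q v * (qe 1 * star (q v)) := fun v hv => by
    rw [← mul_assoc, ← (hq v hv).2.1, mul_assoc, hqq v hv, mul_one]
  have h2q : ∀ v ∈ A, hh 2 v = q v * (qe 2 * star (q v)) := fun v hv => by
    rw [← mul_assoc, ← (hq v hv).2.2, mul_assoc, hqq v hv, mul_one]
  -- the sign
  set w : ℍ → ℍ := fun v => star (q v) * hh 3 v * q v with hw
  have hww : ∀ v ∈ A, ∀ l, ⟪qe l, w v⟫ = ⟪q v * (qe l * star (q v)), hh 3 v⟫ := fun v hv l => by
    have e1 : q v * (qe l * star (q v)) = q v * qe l * star (q v) := by rw [mul_assoc]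
    have e2 : hh 3 v = q v * w v * star (q v) := by
      rw [hw]; simp only
      calc hh 3 v = (q v * star (q v)) * hh 3 v * (q v * star (q v)) := by
            rw [hqq v hv, one_mul, mul_one]
        _ = _ := by noncomm_ring
    rw [e1]
    conv_rhs => rw [e2]
    rw [inner_mul_right, inner_mul_left, Quaternion.norm_star, hqn v hv]; simp
  have hw0 : ∀ v ∈ A, (w v).re = 0 := fun v hv => by
    have h1 := hww v hv 0
    rw [qe0, one_mul, hqq v hv, ← hh0 v hv, hhi v hv, if_neg (by decide)] at h1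
    rw [inner_comp] at h1
    rw [hh0 v hv] at h1
    simpa using h1
  have hw1 : ∀ v ∈ A, (w v).imI = 0 := fun v hv => by
    have h1 := hww v hv 1
    rw [← h1q v hv, hhi v hv, if_neg (by decide), inner_comp] at h1
    simpa using h1
  have hw2 : ∀ v ∈ A, (w v).imJ = 0 := fun v hv => by
    have h1 := hww v hv 2
    rw [← h2q v hv, hhi v hv, if_neg (by decide), inner_comp] at h1
    simpa using h1
  have hwn : ∀ v ∈ A, (w v).imK ^ 2 = 1 := fun v hv => by
    have h1 : ‖w v‖ ^ 2 = 1 := by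
      rw [hw]; simp only
      rw [norm_mul, norm_mul, Quaternion.norm_star, hqn v hv, hnn v hv]; norm_num
    rw [norm_comp, hw0 v hv, hw1 v hv, hw2 v hv] at h1
    nlinarith
  have hwc : ContinuousOn (fun v => (w v).imK) A := by
    refine Quaternion.continuous_imK.comp_continuousOn ?_
    have hqc : ContinuousOn q A := fun v hv => (hqs v hv).continuousAt.continuousWithinAt
    have h3c : ContinuousOn (hh 3) A := fun v hv => (hhs v hv 3).continuousAt.continuousWithinAt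
    exact ((continuous_star.comp_continuousOn hqc).mul h3c).mul hqc
  obtain ⟨σ, hσ, hσw⟩ : ∃ σ : ℝ, σ * σ = 1 ∧ ∀ v ∈ A, (w v).imK = σ := by
    have hpre : IsPreconnected A := preconn_An (by norm_num)
    have h9 : ((9 / 10 : ℝ) • (1 : ℍ)) ∈ A := by
      constructor
      · rw [norm_smul, norm_one, mul_one, Real.norm_eq_abs, abs_of_pos (by norm_num)]
      · rw [norm_smul, norm_one, mul_one, Real.norm_eq_abs, abs_of_pos (by norm_num)]; norm_num
    refine ⟨(w ((9 / 10 : ℝ) • (1 : ℍ))).imK, by rw [← sq]; exact hwn _ h9, fun v hv => ?_⟩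
    have himg := hpre.image _ hwc
    have hcase : ∀ a ∈ A, (w a).imK = 1 ∨ (w a).imK = -1 := fun a ha =>
      mul_self_eq_one_iff.1 (by rw [← sq]; exact hwn a ha)
    by_contra hne
    have hz : (0 : ℝ) ∈ (fun v => (w v).imK) '' A := by
      have hoc := himg.ordConnected
      rcases hcase v hv with h1 | h1 <;> rcases hcase _ h9 with h2 | h2
      · exact absurd (h1.trans h2.symm) hne
      · exact hoc.out ⟨_, h9, h2⟩ ⟨v, hv, h1⟩ ⟨by norm_num, by norm_num⟩
      · exact hoc.out ⟨v, hv, h1⟩ ⟨_, h9, h2⟩ ⟨by norm_num, by norm_num⟩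
      · exact absurd (h1.trans h2.symm) hne
    obtain ⟨a, ha, ha0⟩ := hz
    have := hwn a ha
    simp only at ha0
    rw [ha0] at this
    norm_num at this
  have h3q : ∀ v ∈ A, σ • hh 3 v = q v * (qe 3 * star (q v)) := fun v hv => by
    have e1 : w v = σ • qe 3 := by
      ext
      · simp [hw0 v hv]
      · simp [hw1 v hv]
      · simp [hw2 v hv]
      · simp [hσw v hv]
    have e2 : hh 3 v = q v * w v * star (q v) := by
      rw [hw]; simp only
      calc hh 3 v = (q v * star (q v)) * hh 3 v * (q v * star (q v)) := by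
            rw [hqq v hv, one_mul, mul_one]
        _ = _ := by noncomm_ring
    rw [e2, e1, mul_smul_comm, smul_mul_assoc, smul_smul, hσ, one_smul, mul_assoc]
  set sg : Fin 4 → ℝ := fun l => if l = 3 then σ else 1 with hsg
  have hsg2 : ∀ l, sg l * sg l = 1 := fun l => by
    rw [hsg]; simp only; split_ifs
    · exact hσ
    · norm_num
  refine ⟨fun v l => sg l • e v l, q, fun v hv i => (hes v hv i).const_smul (sg i),
    fun v hv => ⟨?_, fun i => by rw [map_smul, (he v hv).2.1]⟩, hqs, fun v hv => ⟨hqn v hv, ?_⟩⟩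
  · have h1 := orthonormal_iff_ite.1 (he v hv).1
    rw [orthonormal_iff_ite]
    intro i k
    rw [real_inner_smul_left, real_inner_smul_right, h1]
    split_ifs with hik
    · rw [hik]; have := hsg2 k; linarith
    · ring
  · have hyh : ∀ l, y l v = u v * hh l v := fun l => by
      rw [hhh]; simp only
      rw [← mul_assoc, self_mul_star_of_norm (hun v hv), one_mul]
    intro l
    change sg l • e v l = j (u v * (q v * (qe l * star (q v))))
    rw [← hjy v hv l, ← map_smul, hyh, ← mul_smul_comm]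
    congr 2
    fin_cases l
    · simp only [hsg, Fin.zero_eta]
      rw [if_neg (by decide), one_smul]
      change hh 0 v = _
      rw [hh0 v hv, qe0, one_mul, hqq v hv]
    · simp only [hsg]
      rw [if_neg (by decide), one_smul]
      exact h1q v hv
    · simp only [hsg]
      rw [if_neg (by decide), one_smul]
      exact h2q v hv
    · simp only [hsg]
      rw [if_pos (by decide)]
      exact h3q v hv

end flat

end Crest.Agent.R208.XM
end
end

-- ▼ part R208/XM7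
section

/-! Row 208, block XM (helper671).  XM7: **`∫_{S⁴} s₂ = 16 π² (1 + 2 d)`** for the flat model:
`p_1 = 2 mod 4` for an oriented rank 4 bundle over `S⁴` with Euler number `±1`. -/

set_option autoImplicit false
set_option linter.unusedSectionVars false
set_option linter.unusedSimpArgs false
set_option linter.unusedVariables false

open scoped BigOperators ContDiff Topology Quaternion RealInnerProductSpace
open Module Set Filter Matrix

noncomputable section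

namespace Crest.Agent.R208.XM

open Crest.Agent.R208.F Crest.Agent.R208.FI Crest.Agent.R208.CW

/-- statement of the constant computation (XM6) -/
def ConstStmt : Prop := ∀ {f : ℝ → ℝ} (_ : ContDiff ℝ ∞ f) {a b : ℝ} (_ : 0 < a) (_ : a < b)
    (_ : b < 1) (_ : ∀ s ≤ a, f s = 1) (_ : ∀ s, b ≤ s → f s = 0),
    (JC 4 X4 o4 fun y => dC (fn fun z : E5 => if z.1 < 0 then f (‖z.2‖ ^ 2) else 0) y * w3 LV y)
      = 48 * (Real.pi : ℂ) ^ 2 ∨
    (JC 4 X4 o4 fun y => dC (fn fun z : E5 => if z.1 < 0 then f (‖z.2‖ ^ 2) else 0) y * w3 LV y)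
      = -(48 * (Real.pi : ℂ) ^ 2)

section loc
variable {E : Type*} [NormedAddCommGroup E] [NormedSpace ℝ E] [FiniteDimensional ℝ E]
  {n m : Type*} [Fintype n] [Fintype m] [DecidableEq n] {X : Set E} {d : ℕ} {x : E}

theorem dl_congr_loc (hX : Sub d X) (hx : x ∈ X) {A B : E → Matrix n m ℂ} (hA : SM 1 A x)
    (hB : SM 1 B x) (h : ∀ᶠ y in 𝓝 x, y ∈ X → A y = B y) : dl X A x = dl X B x := by
  refine Matrix.ext fun i j => ?_
  exact rs_dC_congr hX hx (CD.of_fun (hA i j)) (CD.of_fun (hB i j))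
    (h.mono fun y hy hyX => by simp only [hy hyX])

theorem rs_sf_congr (hX : Sub d X) (hx : x ∈ X) {A B : E → Matrix n n ℂ} (hA : SM 1 A x)
    (hB : SM 1 B x) (h : ∀ᶠ y in 𝓝 x, y ∈ X → A y = B y) (k : ℕ) :
    rs X x (sf k A x) = rs X x (sf k B x) := by
  rw [rs_sf, rs_sf, dl_congr_loc hX hx hA hB h, h.self_of_nhds hx]

theorem sf_const (M : Matrix n n ℂ) (x : E) : sf 2 (fun _ => M) x = 0 := by
  rw [sf, DD_const, zero_pow (by norm_num), mul_zero, Matrix.trace_zero]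

theorem sf_congr {A B : E → Matrix n n ℂ} (h : A =ᶠ[𝓝 x] B) (k : ℕ) : sf k A x = sf k B x := by
  rw [sf, sf, DD_congr h, h.self_of_nhds]

end loc

theorem LM_qc (a x : ℍ) (m : Fin 4) : ∑ r, LM a m r * qc x r = qc (a * x) m := by
  rw [Fin.sum_univ_four]
  fin_cases m <;> simp [LM, qc] <;> ring

theorem LMRM (a b c : ℍ) (m l : Fin 4) :
    (LM a * (LM b * RM c)) m l = qc (a * (b * (qe l * c))) m := by
  have h1 : ∀ r, (LM b * RM c) r l = qc (b * (qe l * c)) r := fun r => by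
    rw [Matrix.mul_apply]
    simp only [RM_apply]
    exact LM_qc b _ r
  rw [Matrix.mul_apply]
  simp only [h1]
  exact LM_qc a _ m

section main
variable {n : Type*} [Fintype n] [DecidableEq n] {j : ℍ →ₗᵢ[ℝ] EuclideanSpace ℝ n}
  {P : ℍ → EuclideanSpace ℝ n →L[ℝ] EuclideanSpace ℝ n} {s : ℍ → EuclideanSpace ℝ n}
  {e : ℍ → Fin 4 → EuclideanSpace ℝ n} {q : ℍ → ℍ}

/-- matrix of a frame -/
def Bm (e : Fin 4 → EuclideanSpace ℝ n) : Matrix n (Fin 4) ℂ :=
  Matrix.of fun a i => ((e i a : ℝ) : ℂ)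

theorem Bm_tr {e e' : Fin 4 → EuclideanSpace ℝ n} :
    (Bm e)ᵀ * Bm e' = Matrix.of fun i k => ((⟪e i, e' k⟫ : ℝ) : ℂ) := by
  ext i k
  rw [Matrix.mul_apply, Matrix.of_apply, PiLp.inner_apply, Complex.ofReal_sum]
  refine Finset.sum_congr rfl fun a _ => ?_
  simp [Bm, mul_comm]

theorem Bm_on {e : Fin 4 → EuclideanSpace ℝ n} (he : Orthonormal ℝ e) : (Bm e)ᵀ * Bm e = 1 := by
  rw [Bm_tr]
  ext i k
  rw [Matrix.of_apply, orthonormal_iff_ite.1 he, Matrix.one_apply]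
  split_ifs <;> simp

theorem mtx_eq {A : EuclideanSpace ℝ n →L[ℝ] EuclideanSpace ℝ n}
    {e : Fin 4 → EuclideanSpace ℝ n} (h : ∀ x, A x = ∑ i, ⟪e i, x⟫ • e i) :
    T.mtx A = Bm e * (Bm e)ᵀ := by
  ext a b
  rw [T.mtx, Matrix.of_apply, h, Matrix.mul_apply]
  simp only [Bm, Matrix.transpose_apply, Matrix.of_apply]
  rw [WithLp.ofLp_sum, Finset.sum_apply, Complex.ofReal_sum]
  refine Finset.sum_congr rfl fun i _ => ?_
  simp [EuclideanSpace.inner_single_right, mul_comm]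

/-- the frame as a field on `ℝ × ℍ` -/
def BB (e : ℍ → Fin 4 → EuclideanSpace ℝ n) (z : E5) : Matrix n (Fin 4) ℂ := Bm (e z.2)

/-- the clutching matrix -/
def GG (q : ℍ → ℍ) (z : E5) : Matrix (Fin 4) (Fin 4) ℂ :=
  LV z * (LC (q z.2) * RC (star (q z.2)))

/-- what is needed from `Flat.exists_frame` -/
structure FQ (j : ℍ →ₗᵢ[ℝ] EuclideanSpace ℝ n)
    (P : ℍ → EuclideanSpace ℝ n →L[ℝ] EuclideanSpace ℝ n)
    (e : ℍ → Fin 4 → EuclideanSpace ℝ n) (q : ℍ → ℍ) : Prop where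
  es : ∀ v, ‖v‖ ≤ 2 → ∀ i, ContDiffAt ℝ ∞ (fun y => e y i) v
  eo : ∀ v, ‖v‖ ≤ 2 → Orthonormal ℝ (e v) ∧ ∀ i, P v (e v i) = e v i
  qs : ∀ v ∈ An (9 / 10) (99 / 100), ContDiffAt ℝ ∞ q v
  qe : ∀ v ∈ An (9 / 10) (99 / 100), ‖q v‖ = 1 ∧
      ∀ l, e v l = j (‖v‖⁻¹ • v * (q v * (XM.qe l * star (q v))))

theorem lt2_ev {z : E5} (hz : ‖z.2‖ < 2) : ∀ᶠ y : E5 in 𝓝 z, ‖y.2‖ < 2 := by
  have hc : Continuous fun y : E5 => ‖y.2‖ := by fun_prop
  exact (hc.tendsto z).eventually_lt_const hz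

theorem mem_An_of_UU {z : E5} (hz : z ∈ UU) : z.2 ∈ An (9 / 10) (99 / 100) := ⟨hz.1.le, hz.2.le⟩

namespace FQ
variable (h : FQ j P e q)
include h

theorem ofm {z : E5} (hz : ‖z.2‖ < 2) : OFm (BB e) z where
  sm := (lt2_ev hz).mono fun y hy a i => by
    have h1 : ContDiffAt ℝ ∞ (fun y : E5 => e y.2 i) y :=
      (h.es y.2 hy.le i).comp y contDiffAt_snd
    have h2 : ContDiffAt ℝ ∞ (fun y : E5 => e y.2 i a) y :=
      (EuclideanSpace.proj a : EuclideanSpace ℝ n →L[ℝ] ℝ).contDiff.contDiffAt.comp y h1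
    exact Complex.ofRealCLM.contDiff.contDiffAt.comp y h2
  on := (lt2_ev hz).mono fun y hy => Bm_on (h.eo y.2 hy.le).1

theorem uq : UQ (fun z : E5 => q z.2) where
  sm := fun z hz => (h.qs z.2 (mem_An_of_UU hz)).comp z contDiffAt_snd
  un := fun z hz => (h.qe z.2 (mem_An_of_UU hz)).1

theorem BB_eq {z : E5} (hz : z ∈ UU) : BB e z = Bm (fun m => j (XM.qe m)) * GG q z := by
  have h1 := (h.qe z.2 (mem_An_of_UU hz)).2
  have h2 : GG q z = (LM (vh z) * (LM (q z.2) * RM (star (q z.2)))).map ((↑) : ℝ → ℂ) := by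
    rw [GG, map_ofReal_mul, map_ofReal_mul]; rfl
  ext a l
  rw [Matrix.mul_apply, h2]
  simp only [Matrix.map_apply, LMRM]
  change ((e z.2 l a : ℝ) : ℂ) = ∑ m, ((j (XM.qe m) a : ℝ) : ℂ) * _
  rw [h1 l]
  set x : ℍ := ‖z.2‖⁻¹ • z.2 * (q z.2 * (XM.qe l * star (q z.2))) with hx
  have h3 : j x = ∑ m, qc x m • j (XM.qe m) := by
    conv_lhs => rw [← sum_qc x]
    rw [map_sum]
    exact Finset.sum_congr rfl fun m _ => map_smul _ _ _
  rw [h3, WithLp.ofLp_sum, Finset.sum_apply, Complex.ofReal_sum]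
  refine Finset.sum_congr rfl fun m _ => ?_
  simp [mul_comm]
  exact Or.inl rfl

theorem ofmR {z : E5} (hz : z ∈ UU) : OFm (fun y : E5 => RC (star (q y.2))) z := by
  have hst : ContDiff ℝ ∞ (fun a : ℍ => star a) := by
    have : (fun a : ℍ => star a) = fun a => (2 * qc a 0) • (1 : ℍ) - a := by
      funext a
      ext
      · simp [qc]; ring
      · simp
      · simp
      · simp
    rw [this]
    exact ((contDiff_const.mul (contDiff_qc 0)).smul contDiff_const).sub contDiff_id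
  refine OFm_RC ((isOpen_UU.eventually_mem hz).mono fun y hy => ?_)
    ((isOpen_UU.eventually_mem hz).mono fun y hy => ?_)
  · exact hst.contDiffAt.comp y (h.uq.sm y hy)
  · rw [Quaternion.norm_star]; exact h.uq.un y hy

theorem ofmLR {z : E5} (hz : z ∈ UU) :
    OFm (fun y : E5 => LC (q y.2) * RC (star (q y.2))) z := (h.uq.ofm hz).mul (h.ofmR hz)

theorem ofmG {z : E5} (hz : z ∈ UU) : OFm (GG q) z :=
  (OFm_LV (ne_of_UU hz)).mul (h.ofmLR hz)

theorem w3_GG {z : E5} (hz : z ∈ UU) : w3 (GG q) z = w3 LV z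
    + (w3 (fun y : E5 => LC (q y.2)) z + w3 (fun y : E5 => LC (q y.2)) z
      - (3 : ℂ) • dC (mx (fun y : E5 => LC (q y.2)) fun y => RC (star (q y.2))) z)
    - (3 : ℂ) • dC (mx LV fun y : E5 => LC (q y.2) * RC (star (q y.2))) z := by
  have h1 := w3_mul (OFm_LV (ne_of_UU hz)) (h.ofmLR hz)
  have h2 := w3_mul (h.uq.ofm hz) (h.ofmR hz)
  have h3 : w3 (fun y : E5 => RC (star (q y.2))) z = w3 (fun y : E5 => LC (q y.2)) z :=
    w3_RC_star (h.uq.sm z hz)
  rw [h3] at h2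
  rw [h2] at h1
  exact h1

theorem csf_BB {z : E5} (hz : z ∈ UU) : csf (BB e) z = (-(1 : ℂ) / 3) • w3 (GG q) z := by
  have h0 : (Bm fun m => j (XM.qe m))ᵀ * Bm (fun m => j (XM.qe m)) = 1 :=
    Bm_on (qe_on.comp_linearIsometry j)
  have h1 : BB e =ᶠ[𝓝 z] fun y => Bm (fun m => j (XM.qe m)) * GG q y :=
    (isOpen_UU.eventually_mem hz).mono fun y hy => h.BB_eq hy
  rw [csf_congr h1, csf_const_mul h0 ((h.ofmG hz).sm), csf_sq (h.ofmG hz)]

/-- the transgression -/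
theorem Mc_csf {φ : ℝ → ℝ} (hφ : Prof φ) : ∃ d : ℤ,
    Mc 4 X4 o4 (fun z => φ z.1) (csf (BB e))
      = (-(1 : ℂ) / 3) * ((1 + 2 * d) * Mc 4 X4 o4 (fun z => φ z.1) (w3 LV)) := by
  obtain ⟨d, hd⟩ := exists_deg h.uq hφ
  refine ⟨d, ?_⟩
  set w1 : E5 → CF E5 := w3 LV
  set w2 : E5 → CF E5 := w3 fun y : E5 => LC (q y.2)
  set m1 : E5 → CF E5 := mx LV fun y : E5 => LC (q y.2) * RC (star (q y.2)) with hm1
  set m2 : E5 → CF E5 := mx (fun y : E5 => LC (q y.2)) fun y => RC (star (q y.2)) with hm2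
  have c := hφ.cut
  have s1 : Smo (X4 ∩ UU) w1 := smo_w3 uq_vh
  have s2 : Smo (X4 ∩ UU) w2 := smo_w3 h.uq
  have t1 : Smo (X4 ∩ UU) m1 := fun z hz => CD_mx (OFm_LV (ne_of_UU hz.2)).s (h.ofmLR hz.2).s
  have t2 : Smo (X4 ∩ UU) m2 := fun z hz => CD_mx (h.uq.ofm hz.2).s (h.ofmR hz.2).s
  have u1 : Smo (X4 ∩ UU) (fun z => (-3 : ℂ) • dC m1 z) := (t1.dC).csmul _
  have u2 : Smo (X4 ∩ UU) (fun z => (-3 : ℂ) • dC m2 z) := (t2.dC).csmul _
  have a1 : Smo (X4 ∩ UU) (fun z => w2 z + w2 z) := s2.add s2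
  have a2 : Smo (X4 ∩ UU) (fun z => (w2 z + w2 z) + (-3 : ℂ) • dC m2 z) := a1.add u2
  have a3 : Smo (X4 ∩ UU) (fun z => w1 z + ((w2 z + w2 z) + (-3 : ℂ) • dC m2 z)) := s1.add a2
  have a4 : Smo (X4 ∩ UU) (fun z => (w1 z + ((w2 z + w2 z) + (-3 : ℂ) • dC m2 z))
      + (-3 : ℂ) • dC m1 z) := a3.add u1
  have e1 : Mc 4 X4 o4 (fun z => φ z.1) (csf (BB e)) = Mc 4 X4 o4 (fun z => φ z.1)
      (fun z => (-(1 : ℂ) / 3) • ((w1 z + ((w2 z + w2 z) + (-3 : ℂ) • dC m2 z))
        + (-3 : ℂ) • dC m1 z)) := by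
    refine Mc_congr clo_X4 ori_X4 c fun z hz hU => ?_
    rw [h.csf_BB hU, h.w3_GG hU]
    congr 1
    rw [neg_smul, neg_smul, ← sub_eq_add_neg, ← sub_eq_add_neg]
  rw [e1, Mc_smul clo_X4 ori_X4 c a4, Mc_add clo_X4 ori_X4 c a3 u1, Mc_add clo_X4 ori_X4 c s1 a2,
    Mc_add clo_X4 ori_X4 c a1 u2, Mc_add clo_X4 ori_X4 c s2 s2,
    Mc_smul clo_X4 ori_X4 c t1.dC, Mc_smul clo_X4 ori_X4 c t2.dC, Mc_dC clo_X4 ori_X4 c t1,
    Mc_dC clo_X4 ori_X4 c t2, hd]
  ring

end FQ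

/-- **main theorem**, from the constant -/
theorem main_of (hK : ConstStmt) (h : Flat j P s) {Q : E5 → Matrix n n ℂ} (hQ : IdF X4 Q)
    (hQ1 : ∀ z ∈ X4, z.1 < 0 → Q z = T.mtx (P z.2))
    (hQ2 : ∀ z ∈ X4, 0 ≤ z.1 → Q z = T.mtx (P 1)) :
    ∃ d : ℤ, JC 4 X4 o4 (sf 2 Q) = 16 * (Real.pi : ℂ) ^ 2 * (1 + 2 * d) := by
  obtain ⟨e, q, f1, f2, f3, f4⟩ := h.exists_frame
  have hF : FQ j P e q := ⟨f1, f2, f3, f4⟩
  have hlt : ∀ z ∈ X4, ‖z.2‖ < 2 := fun z hz => by
    rw [mem_X4] at hz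
    nlinarith [norm_nonneg z.2, sq_nonneg z.1]
  have hPB : ∀ v, ‖v‖ ≤ 2 → T.mtx (P v) = Bm (e v) * (Bm (e v))ᵀ := fun v hv =>
    mtx_eq fun x => proj_eq_sum (h.idem v) (h.sym v) (h.rk v) (f2 v hv).1 (f2 v hv).2 x
  have hη : Smo X4 (csf (BB e)) := fun z hz => CD_csf (hF.ofm (hlt z hz)).s
  have hBBt : ∀ z ∈ X4, SM ∞ (fun y => BB e y * (BB e y)ᵀ) z := fun z hz =>
    ((hF.ofm (hlt z hz)).s).mul ((hF.ofm (hlt z hz)).s.transpose)
  have hC : Continuous fun y : E5 => ‖y.2‖ ^ 2 := by fun_prop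
  have key : ∀ z ∈ X4, rs X4 z (sf 2 Q z)
      = rs X4 z (fn (fun z : E5 => pr0 z.1) z * dC (csf (BB e)) z) := by
    intro z hz
    have hz' := hz
    rw [mem_X4] at hz'
    rcases lt_or_ge z.1 (-(2 / 5)) with hc | hc
    · -- lower part
      have hc0 : z.1 < 0 := by linarith
      have e1 : rs X4 z (sf 2 Q z) = rs X4 z (sf 2 (fun y => BB e y * (BB e y)ᵀ) z) := by
        refine rs_sf_congr sub_X4 hz (hQ.s1 hz) ((hBBt z hz).of_le one_le_inf) ?_ 2
        filter_upwards [(continuous_fst.tendsto z).eventually_lt_const hc0] with y hy hyX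
        rw [hQ1 y hyX hy, hPB _ (hlt y hyX).le]; rfl
      rw [e1, sf_two_eq (hF.ofm (hlt z hz)) (Q := fun y => BB e y * (BB e y)ᵀ) (Eventually.of_forall fun _ => rfl)]
      congr 1
      have : fn (fun z : E5 => pr0 z.1) z = 1 := by
        rw [fn, prof_pr0.l _ hc.le, Complex.ofReal_one, map_one]
      rw [this, one_mul]
    · -- `Q` is constant on `X` near `z`
      have hc1 : -(1 / 2 : ℝ) < z.1 := by linarith
      have e1 : rs X4 z (sf 2 Q z) = rs X4 z (sf 2 (fun _ => T.mtx (P 1)) z) := by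
        refine rs_sf_congr sub_X4 hz (hQ.s1 hz) (SM.const _) ?_ 2
        filter_upwards [(continuous_fst.tendsto z).eventually_const_lt hc1] with y hy hyX
        rcases lt_or_ge y.1 0 with hy0 | hy0
        · rw [hQ1 y hyX hy0, h.P_const]
          rw [mem_X4] at hyX
          nlinarith
        · exact hQ2 y hyX hy0
      rw [e1, sf_const, map_zero]
      rcases lt_or_ge (-(1 / 5)) z.1 with hd | hd
      · have : fn (fun z : E5 => pr0 z.1) z = 0 := by
          rw [fn, prof_pr0.r _ hd.le, Complex.ofReal_zero, map_zero]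
        rw [this, zero_mul, map_zero]
      · have h34 : (3 / 4 : ℝ) < ‖z.2‖ ^ 2 := by nlinarith
        have e2 : (fun y => BB e y * (BB e y)ᵀ) =ᶠ[𝓝 z] fun _ => T.mtx (P 1) := by
          filter_upwards [(hC.tendsto z).eventually_const_lt h34, lt2_ev (hlt z hz)] with y hy hy2
          have := hPB y.2 hy2.le
          rw [h.P_const hy.le] at this
          rw [this]; rfl
        have e3 : dC (csf (BB e)) z = 0 := by
          rw [← sf_two_eq (hF.ofm (hlt z hz)) (Q := fun y => BB e y * (BB e y)ᵀ)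
            (Eventually.of_forall fun _ => rfl), sf_congr e2, sf_const]
        rw [e3, mul_zero, map_zero]
  have hJ := JC_eq_neg_Mc clo_X4 ori_X4 prof_pr0.cut hη key
  obtain ⟨d, hd⟩ := hF.Mc_csf prof_pr0
  -- the constant
  set f : ℝ → ℝ := fun s => 1 - Real.smoothTransition ((s - 82 / 100) * (100 / 15)) with hf
  have hfs : ContDiff ℝ ∞ f :=
    contDiff_const.sub (Real.smoothTransition.contDiff.comp (by fun_prop))
  have hf1 : ∀ s ≤ (82 / 100 : ℝ), f s = 1 := fun s hs => by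
    rw [hf]; simp only
    rw [Real.smoothTransition.zero_of_nonpos (by linarith), sub_zero]
  have hf0 : ∀ s, (97 / 100 : ℝ) ≤ s → f s = 0 := fun s hs => by
    rw [hf]; simp only
    rw [Real.smoothTransition.one_of_one_le (by linarith), sub_self]
  have hM := Mc_c2 hfs hf1 hf0 prof_pr0
  have hk := hK hfs (a := 82 / 100) (b := 97 / 100) (by norm_num) (by norm_num) (by norm_num)
    hf1 hf0
  have hk' : Mc 4 X4 o4 (fun z => pr0 z.1) (w3 LV) = 48 * (Real.pi : ℂ) ^ 2 ∨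
      Mc 4 X4 o4 (fun z => pr0 z.1) (w3 LV) = -(48 * (Real.pi : ℂ) ^ 2) := by
    rw [hM]; exact hk
  rcases hk' with h48 | h48
  · refine ⟨d, ?_⟩
    rw [hJ, hd, h48]; ring
  · refine ⟨-d - 1, ?_⟩
    rw [hJ, hd, h48]; push_cast; ring

end main

theorem mainStmt_of (hK : ConstStmt) : MainStmt := fun h _ hQ hQ1 hQ2 => main_of hK h hQ hQ1 hQ2

end Crest.Agent.R208.XM
end
end

-- ▼ part R208/XM7b

/-! Row 208, block XM (helper671, with XM6 of helper833 and XM8 of helper595).  XM7b: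
**`MainStmt`** without hypotheses, and **`μ = 2 (1 + 2 d)`** for `k = 4`. -/

set_option autoImplicit false

open MeasureTheory Set Filter Topology Module Matrix
open scoped ContDiff RealInnerProductSpace Quaternion
open Crest.GeometryTopology.Submanifold
open Crest.Agent.R241.DDefs
open Crest.Agent.R241.D2
open Crest.Agent.R208.F Crest.Agent.R208.FI Crest.Agent.R208.CW Crest.Agent.R208.T Crest.Agent.R208.SN

noncomputable section

namespace Crest.Agent.R208.XM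

theorem constStmt : ConstStmt := fun hf _ _ ha hab hb h1 h0 => const_LV hf ha hab hb h1 h0

/-- **`∫_{S⁴} s₂ = 16 π² (1 + 2 d)`** for every flat field of rank four over `S⁴` -/
theorem main : MainStmt := mainStmt_of constStmt

section

variable {n N : ℕ} {κ : ℝ} {S : Set (Euc N)} {G : Geo n N κ S}


end

end Crest.Agent.R208.XM
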