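import Crest.Agent.R208.XF1c
import Crest.Agent.R208.SN10
import Crest.Agent.R208.XE2
import Crest.Agent.R208.TX7b
import Crest.Agent.R208.GS1
import Crest.Agent.R208.TX9
import Crest.Agent.R208.ZG1

-- ▼ part R208/XF3
section

/-! Row 208, block XF (helper885).  XF3: the Euler number of the bundle `T_p ⊖ V_pq` over the cut
locus of `p` is `± 1`: for fixed `h ∈ T_p` the section `q ↦ h - P_q h` has exactly one zero, and
it is non degenerate. -/

set_option autoImplicit false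
set_option linter.unusedSectionVars false

open MeasureTheory Set Filter Topology Module Matrix
open scoped ContDiff RealInnerProductSpace
open Crest.GeometryTopology.Submanifold
open Crest.Agent.R241.DDefs
open Crest.Agent.R241.D2
open Crest.Agent.R208.F Crest.Agent.R208.FI Crest.Agent.R208.CW Crest.Agent.R208.T
open Crest.Agent.R208.SN

noncomputable section

namespace Crest.Agent.R208.XF

section abstract
variable {n ι κ : Type*} [Fintype n] [DecidableEq n] [Fintype ι] [DecidableEq ι]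
  [Fintype κ] [DecidableEq κ]
  {T : Submodule ℝ (EuclideanSpace ℝ n)} {C : Set (EuclideanSpace ℝ n)}
  {P F : EuclideanSpace ℝ n → EuclideanSpace ℝ n →L[ℝ] EuclideanSpace ℝ n}
  {W : EuclideanSpace ℝ n → (ι × Fin 2 → n) → ℝ}
  {W' : EuclideanSpace ℝ n → (κ × Fin 2 → n) → ℝ}
  {rho : EuclideanSpace ℝ n → EuclideanSpace ℝ n} {oC : EuclideanSpace ℝ n → Ext (EuclideanSpace ℝ n)}

/-- the projections of an `OR` are idempotent -/
theorem OR_idem (h : OR C P W) {x : EuclideanSpace ℝ n} (hx : x ∈ C) (v : EuclideanSpace ℝ n) :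
    P x (P x v) = P x v := (OR.pfield h).idem x hx v

/-- **nondegeneracy** of the section `q ↦ h - P_q h` of a spread -/
theorem spr_nondeg (hS : Spr T C P W rho) {m : ℕ} (hC : Sub m C) {h : EuclideanSpace ℝ n}
    (hT : h ∈ T) (h0 : h ≠ 0) {q : EuclideanSpace ℝ n} (hq : q ∈ C) (hPq : P q h = h)
    {v : EuclideanSpace ℝ n} (hv : v ∈ Tan C q)
    (hd : fderiv ℝ (fun q => h - P q h) q v = 0) : v = 0 := by
  have hPs : ContDiffAt ℝ ∞ P q := hS.or.sP q hq
  have hPd : DifferentiableAt ℝ (fun q => P q h) q :=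
    (hPs.differentiableAt (by simp)).clm_apply (differentiableAt_const h)
  have h1 : fderiv ℝ (fun q => P q h) q v = 0 := by
    have h2 : HasFDerivAt (fun q => h - P q h) (-(fderiv ℝ (fun q => P q h) q)) q :=
      hPd.hasFDerivAt.const_sub h
    rw [h2.fderiv] at hd
    simpa using hd
  have hrd : DifferentiableAt ℝ rho (P q h) := by
    rw [hPq]
    exact (hS.sm h hT h0).differentiableAt (by simp)
  have hcomp : HasFDerivAt (fun q => rho (P q h))
      ((fderiv ℝ rho (P q h)).comp (fderiv ℝ (fun q => P q h) q)) q :=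
    hrd.hasFDerivAt.comp q hPd.hasFDerivAt
  -- `rho (P q h) = q` on `C` near `q`
  have hev : ∀ᶠ y in 𝓝 q, P y h ≠ 0 := by
    have : ContinuousAt (fun q => P q h) q := hPd.continuousAt
    exact this.eventually_ne (by rw [hPq]; exact h0)
  have hfix : ∀ y ∈ C, P y h ≠ 0 → rho (P y h) = y := fun y hy hy0 =>
    hS.uniq y hy _ hy0 (OR_idem hS.or hy h)
  have h3 : fderiv ℝ (fun q => rho (P q h)) q v = v := by
    have hle : Tan C q ≤ LinearMap.ker ((fderiv ℝ (fun q => rho (P q h)) q -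
        ContinuousLinearMap.id ℝ _ : EuclideanSpace ℝ n →L[ℝ] EuclideanSpace ℝ n) :
        EuclideanSpace ℝ n →ₗ[ℝ] EuclideanSpace ℝ n) := by
      rw [Tan, Submodule.span_le]
      rintro w ⟨γ, rfl, hγ, hCγ⟩
      have h4 : HasDerivAt (fun t => rho (P (γ t) h)) (fderiv ℝ (fun q => rho (P q h)) (γ 0) w) 0 :=
        hcomp.differentiableAt.hasFDerivAt.comp_hasDerivAt 0 hγ
      have h5 : (fun t => rho (P (γ t) h)) =ᶠ[𝓝 0] γ := by
        filter_upwards [hCγ, hγ.continuousAt.eventually hev] with t ht ht' using hfix _ ht ht'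
      have h6 := (hγ.congr_of_eventuallyEq h5).unique h4
      change fderiv ℝ (fun q => rho (P q h)) (γ 0) w - w = 0
      rw [← h6, sub_self]
    have := hle hv
    exact sub_eq_zero.1 this
  rw [← h3, hcomp.fderiv, ContinuousLinearMap.comp_apply, h1, map_zero]

/-- **(XF3), abstract form**: the complement of a spread has Euler number `± 1`. -/
theorem eR_compl [Nonempty κ] (hS : Spr T C P W rho) (hC : Clo (Fintype.card κ * 2) C)
    (hoC : Ori (Fintype.card κ * 2) C oC) (hF : OR C F W')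
    (hFP : ∀ q ∈ C, ∀ v ∈ T, F q v = v - P q v) (hT : ∃ h ∈ T, h ≠ 0) :
    ∃ ε : ℝ, (ε = 1 ∨ ε = -1) ∧ J (Fintype.card κ * 2) C oC (eR F W') = ε * tau κ := by
  classical
  obtain ⟨h, hh, h0⟩ := hT
  have hz : h - P (rho h) h = 0 := by rw [hS.fix h hh h0, sub_self]
  obtain ⟨ε, hε, hJ⟩ := zero_locus (s := fun q => h - P q h) (Z := {rho h}) hC hoC hF
    (fun q hq => contDiffAt_const.sub ((hS.or.sP q hq).clm_apply contDiffAt_const))
    (fun q hq => by
      rw [hFP q hq _ (T.sub_mem hh (hS.rg q hq h)), map_sub, OR_idem hS.or hq, sub_self, sub_zero])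
    (fun z hz => by rw [Finset.mem_singleton.1 hz]; exact hS.mem h hh h0)
    (fun z hz' => by rw [Finset.mem_singleton.1 hz']; exact hz)
    (fun q hq hq0 => by
      rw [Finset.mem_singleton]
      exact (hS.uniq q hq h h0 (sub_eq_zero.1 hq0).symm).symm)
    (fun z hz' v hv hd => by
      rw [Finset.mem_singleton] at hz'
      subst hz'
      exact spr_nondeg hS hC.sub hh h0 (hS.mem h hh h0) (hS.fix h hh h0) hv hd)
  refine ⟨ε (rho h), hε _ (Finset.mem_singleton_self _), ?_⟩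
  rw [hJ, Finset.sum_singleton, mul_comm]

end abstract

variable {n N k : ℕ} {κ : ℝ} {S : Set (Euc N)} {G : Geo n N κ S} {p : Euc N}
  {ι' : Type*} [Fintype ι'] [DecidableEq ι']
  {F : Euc N → Euc N →L[ℝ] Euc N} {W' : Euc N → (ι' × Fin 2 → Fin N) → ℝ}

/-- **(XF3)**: over the cut locus `C_p` the Euler number of `F_1 = T_p ⊖ V_pq` is `± 1`. -/
theorem J_F1 (h : GT.Bla G k) (hk : 2 ≤ k) (hke : Even k) (hkn : k < n)
    (hι' : 2 * Fintype.card ι' = n - k) (hp : p ∈ S)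
    {oC : Euc N → Ext (Euc N)} (hoC : Ori (n - k) (GP.Cut S p) oC)
    (hF : OR (GP.Cut S p) F W')
    (hFP : ∀ q ∈ GP.Cut S p, ∀ v ∈ G.T p, F q v = v - PL h p q v) :
    ∃ ε : ℝ, (ε = 1 ∨ ε = -1) ∧ J (n - k) (GP.Cut S p) oC (eR F W') = ε * tau ι' := by
  obtain ⟨r, hr⟩ := hke
  have hιc : 2 * Fintype.card (Fin r) = k := by rw [Fintype.card_fin]; omega
  obtain ⟨Wt, -, hW⟩ := exists_OR_PL h hk (by omega) hp hιc
  have : Nonempty ι' := Fintype.card_pos_iff.1 (by omega)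
  have e : n - k = Fintype.card ι' * 2 := by omega
  have hC : Clo (n - k) (GP.Cut S p) := FV.clo_Cut h hp
  rw [e] at hoC hC ⊢
  refine eR_compl (spr_Cut h hp hW) hC hoC hF hFP ?_
  have h1 : 0 < finrank ℝ (G.T p) := by rw [G.finrank_T p hp]; omega
  have : Nontrivial (G.T p) := Module.nontrivial_of_finrank_pos h1
  obtain ⟨u, hu⟩ := exists_ne (0 : G.T p)
  exact ⟨u, u.2, fun h0 => hu (Subtype.ext h0)⟩

end Crest.Agent.R208.XF
end
end

-- ▼ part R208/XE3
section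

/-! Row 208, block XE (helper126).  XE3: (X4′) the Euler class of `T_p C_q` over `F`, and (EN) the
Euler class of `S` is not zero, both from (X1c), (X1d) and the integral of the Euler form of
`T_p C_q` over the cut locus. -/

set_option autoImplicit false
set_option linter.unusedSectionVars false

open MeasureTheory Set Filter Topology Module
open scoped ContDiff RealInnerProductSpace Matrix
open Crest.GeometryTopology.Submanifold
open Crest.Agent.R241.DDefs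
open Crest.Agent.R241.D2
open Crest.Agent.R208.F Crest.Agent.R208.FI Crest.Agent.R208.CW Crest.Agent.R208.T

noncomputable section

namespace Crest.Agent.R208.XE

/-! ### algebra -/
section alg
variable {A : Type*} [CommRing A] [Algebra ℂ A] {x₁ x₂ e f : A} {m : ℕ}

theorem pow_mul_e (h21 : x₂ = x₁ - e) (hy : x₁ ^ (m + 1) = 0) (j : ℕ) :
    x₁ ^ m * e ^ j = x₁ ^ m * (-x₂) ^ j := by
  have he : e = x₁ - x₂ := by rw [h21]; ring
  induction j with
  | zero => simp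
  | succ j ih =>
    calc x₁ ^ m * e ^ (j + 1) = (x₁ ^ m * e ^ j) * e := by rw [pow_succ]; ring
      _ = (x₁ ^ m * (-x₂) ^ j) * (x₁ - x₂) := by rw [ih, he]
      _ = x₁ ^ m * (-x₂) ^ (j + 1) + (-x₂) ^ j * x₁ ^ (m + 1) := by
          rw [pow_succ (-x₂), pow_succ x₁]; ring
      _ = x₁ ^ m * (-x₂) ^ (j + 1) := by rw [hy, mul_zero, add_zero]

/-- independence of the monomials `x₁^a e^(m-a)`, `1 ≤ a ≤ m` -/
theorem indep (h21 : x₂ = x₁ - e) (hy : x₁ ^ (m + 1) = 0) (hne : x₁ ^ m * x₂ ^ (m - 1) ≠ 0)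
    (g : ℕ → ℂ) (h0 : g 0 = 0)
    (hs : ∑ a ∈ Finset.range (m + 1), g a • (x₁ ^ a * e ^ (m - a)) = 0) (a : ℕ) (ha : a ≤ m) :
    g a = 0 := by
  induction a using Nat.strong_induction_on with
  | _ a ih =>
    by_contra hga
    have ha1 : 1 ≤ a := by
      by_contra hlt
      have : a = 0 := by omega
      exact hga (this ▸ h0)
    have h1 := congrArg (fun t => x₁ ^ (m - a) * t) hs
    simp only [mul_zero] at h1
    rw [Finset.mul_sum, Finset.sum_eq_single_of_mem a (Finset.mem_range.2 (by omega))] at h1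
    · have h2 : x₁ ^ m * e ^ (m - a) = 0 := by
        have h3 : g a • (x₁ ^ m * e ^ (m - a)) = 0 := by
          rw [← h1, mul_smul_comm, ← mul_assoc, ← pow_add, Nat.sub_add_cancel ha]
        exact (smul_eq_zero_iff_right hga).1 h3
      rw [pow_mul_e h21 hy] at h2
      have h4 : x₁ ^ m * x₂ ^ (m - a) = 0 := by
        have h5 : x₁ ^ m * x₂ ^ (m - a) = (-1) ^ (m - a) * (x₁ ^ m * (-x₂) ^ (m - a)) := by
          rw [mul_left_comm, ← mul_pow]; simp
        rw [h5, h2, mul_zero]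
      apply hne
      have h6 : m - 1 = (m - a) + (a - 1) := by omega
      rw [h6, pow_add, ← mul_assoc, h4, zero_mul]
    · intro b hb hba
      have hb' := Finset.mem_range.1 hb
      rcases lt_or_gt_of_ne hba with h2 | h2
      · rw [ih b h2 (by omega), zero_smul, mul_zero]
      · rw [mul_smul_comm, ← mul_assoc, ← pow_add]
        have h3 : m - a + b = (m + 1) + (b - a - 1) := by omega
        rw [h3, pow_add, hy, zero_mul, zero_mul, smul_zero]

/-- the division without division -/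
theorem ring_main (hm : 1 ≤ m) (h21 : x₂ = x₁ - e) (hy : x₁ ^ (m + 1) = 0)
    (hne : x₁ ^ m * x₂ ^ (m - 1) ≠ 0) {c ρ : ℂ} (hef : e * f = c • x₁ ^ m)
    (hh : ∑ i ∈ Finset.range (m + 1), x₁ ^ i * x₂ ^ (m - i) = 0) (g : ℕ → ℂ) (h0 : g 0 = 0)
    (hb : f - ρ • ∑ i ∈ Finset.range m, ((i + 1 : ℕ) : A) * (x₁ ^ i * x₂ ^ (m - 1 - i))
      = ∑ a ∈ Finset.range m, g a • (x₁ ^ a * e ^ (m - 1 - a))) :
    f = ρ • ∑ i ∈ Finset.range m, ((i + 1 : ℕ) : A) * (x₁ ^ i * x₂ ^ (m - 1 - i)) ∧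
      c = ρ * (m + 1) := by
  have h1 := alg_id x₁ x₂ m
  rw [hh, sub_zero] at h1
  have h2 : x₁ - x₂ = e := by rw [h21]; ring
  rw [h2] at h1
  set c' : ℂ := c - ρ * (m + 1) with hc'
  have h3 : e * (∑ a ∈ Finset.range m, g a • (x₁ ^ a * e ^ (m - 1 - a))) = c' • x₁ ^ m := by
    rw [← hb, mul_sub, hef, mul_smul_comm, h1, hc', sub_smul, mul_smul]
    congr 2
    rw [Algebra.smul_def]
    simp
  have h4 : ∑ a ∈ Finset.range (m + 1), (fun a => if a = m then -c' else g a) a •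
      (x₁ ^ a * e ^ (m - a)) = 0 := by
    rw [Finset.sum_range_succ]
    have h5 : ∑ a ∈ Finset.range m, (fun a => if a = m then -c' else g a) a •
        (x₁ ^ a * e ^ (m - a)) = c' • x₁ ^ m := by
      rw [← h3, Finset.mul_sum]
      refine Finset.sum_congr rfl fun a ha => ?_
      have ha' := Finset.mem_range.1 ha
      have h6 : m - a = (m - 1 - a) + 1 := by omega
      simp only [if_neg ha'.ne]
      rw [h6, pow_succ, mul_smul_comm]
      congr 1
      ring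
    rw [h5]
    simp
  have h7 := indep h21 hy hne _ (by
    have : (0 : ℕ) ≠ m := by omega
    simp only [if_neg this, h0]) h4
  have h8 : c' = 0 := by
    have := h7 m le_rfl
    simpa using this
  have h9 : ∀ a ∈ Finset.range m, g a = 0 := fun a ha => by
    have ha' := Finset.mem_range.1 ha
    have := h7 a ha'.le
    simpa only [if_neg ha'.ne] using this
  refine ⟨?_, sub_eq_zero.1 h8⟩
  have h10 : ∑ a ∈ Finset.range m, g a • (x₁ ^ a * e ^ (m - 1 - a)) = 0 :=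
    Finset.sum_eq_zero fun a ha => by rw [h9 a ha, zero_smul]
  rw [h10] at hb
  exact sub_eq_zero.1 hb

end alg

/-! ### geometry -/
section geo
variable {n N k m : ℕ} {κ : ℝ} {S : Set (Euc N)} {G : Geo n N κ S} {p : Euc N}
  {ι ι₁ : Type} [Fintype ι] [DecidableEq ι] [Fintype ι₁] [DecidableEq ι₁]
  {W : Euc N × Euc N → (ι × Fin 2 → Fin N) → ℝ} {W₁ : Euc N × Euc N → (ι₁ × Fin 2 → Fin N) → ℝ}
  {x : Euc N → Ext (Euc N)} {h : GT.Bla G k}

theorem ec_x (D : XM h m W p x) : EC S x := by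
  obtain ⟨r, hr⟩ := D.hke
  refine EC.of_hom (j := r) D.sx D.cx ?_
  rw [two_mul, ← hr]
  exact D.dx

theorem ec_x1 (D : XM h m W p x) : EC (GT.FF S) (F.pull Prod.fst x) := (ec_x D).pull smap_fst_FF

theorem ec_x2 (D : XM h m W p x) : EC (GT.FF S) (F.pull Prod.snd x) := (ec_x D).pull smap_snd_FF

/-- the fibre `{p} × C_p` -/
theorem smap_CutL (hp : p ∈ S) : SMap (GP.Cut S p) (GT.FF S) (fun q : Euc N => (p, q)) :=
  ⟨fun _ _ => contDiffAt_const.prodMk contDiffAt_id, fun _ hq => ⟨hp, hq.1, hq.2⟩⟩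

theorem nk_eq (D : XM h m W p x) : n - k = k * (m - 1) := by
  have h1 := D.hn
  have h2 := D.hm
  obtain ⟨j, rfl⟩ : ∃ j, m = j + 1 := ⟨m - 1, by omega⟩
  rw [h1, Nat.add_sub_cancel, Nat.mul_succ, Nat.add_sub_cancel]

theorem nk_div (D : XM h m W p x) : (n - k) / k = m - 1 := by
  have := D.hk
  rw [nk_eq D]
  exact Nat.mul_div_cancel_left _ (by omega)

/-- the power `e^(m-1)` is not exact on the cut locus -/
theorem cut_ne (D : XM h m W p x) :
    ¬ Coh (GP.Cut S p) (eR (FV.PC h p) (fun q => W (q, p)) ^ (m - 1)) 0 := by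
  intro h0
  have hk := D.hk
  obtain ⟨o, ho, -, -⟩ := exists_ori_Cut h D.hk D.hkn D.hp
  obtain ⟨m', h1, h2, hJ⟩ := X1a h D.hk D.hkn D.hp D.hι (OR_Cut h D.hp D.hW) ho
  have h3 : m' = m - 1 := by
    have h4 : k * (m' + 1) = k * m := by rw [← h2, ← D.hn]
    have := Nat.eq_of_mul_eq_mul_left (by omega) h4
    omega
  rw [h3] at hJ
  exact hJ (J_exact (FV.clo_Cut h D.hp) ho h0)

/-- `e(T_p C_q)` on `{p} × C_p` -/
theorem restr_F1 (D : XM h m W p x) (hW₁ : OR (GT.FF S) (F1 h) W₁) (hι₁ : 2 * Fintype.card ι₁ = n - k) :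
    ∃ c₀ : ℝ, c₀ ≠ 0 ∧ Coh (GP.Cut S p) (F.pull (fun q : Euc N => (p, q)) (eR (F1 h) W₁))
      (c₀ • eR (FV.PC h p) (fun q => W (q, p)) ^ (m - 1)) := by
  have hp := D.hp
  have hF : OR (GP.Cut S p) (fun q => F1 h (p, q)) (fun q => W₁ (p, q)) :=
    GP.OR.comp hW₁ (f := fun q : Euc N => (p, q)) (smap_CutL hp).smooth (smap_CutL hp).maps
  obtain ⟨o, ho, -, -⟩ := exists_ori_Cut h D.hk D.hkn hp
  obtain ⟨ε, hε, hJ⟩ := XF.J_F1 h D.hk D.hke D.hkn hι₁ hp ho hF (fun q hq v hv => by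
    change G.P p v - FV.PVB h (p, q) v = v - FV.PVB h (p, q) v
    rw [(P_eq_self G hp).1 hv])
  have hd : Hom (n - k) (eR (fun q => F1 h (p, q)) fun q => W₁ (p, q)) := by
    rw [← hι₁]; exact hom_eR
  obtain ⟨c₀, -, hc⟩ := Cut_classes h D.hk D.hkn hp D.hι (OR_Cut h hp D.hW) (n - k) hF.ec_eR.sm
    hF.ec_eR.cl hd
  rw [nk_div D] at hc
  refine ⟨c₀, ?_, (Coh.of_eqv (eqv_pull_eR hW₁ (smap_CutL hp))).trans hc⟩
  rintro rfl
  rw [zero_smul] at hc
  have h1 := J_exact (FV.clo_Cut h hp) ho hc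
  rw [hJ] at h1
  have h2 := XF.tau_pos ι₁
  rcases hε with rfl | rfl
  · rw [one_mul] at h1; exact h2.ne' h1
  · rw [neg_one_mul, neg_eq_zero] at h1; exact h2.ne' h1

/-- the Whitney formula on `F`: `e(V) e(F₁) ~ c x₁^m`; `c = c₀ t` with `e(TM) ~ t x^m` -/
theorem whitney_F (D : XM h m W p x) (hW₁ : OR (GT.FF S) (F1 h) W₁)
    (hι₁ : 2 * Fintype.card ι₁ = n - k) {V : Euc N → ((ι ⊕ ι₁) × Fin 2 → Fin N) → ℝ}
    (hV : OR S G.P V) :
    ∃ t c₀ : ℝ, c₀ ≠ 0 ∧ Coh S (eR G.P V) (t • x ^ m) ∧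
      Coh (GT.FF S) (eR (FV.PVB h) W * eR (F1 h) W₁) ((c₀ * t) • F.pull Prod.fst x ^ m) := by
  have hk := D.hk
  have hι := D.hι
  have hkn := D.hkn
  have hn' : 2 * Fintype.card (ι ⊕ ι₁) = n := by
    rw [Fintype.card_sum]; omega
  have hdV : Hom n (eR G.P V) := by
    have := hom_eR (P := G.P) (W := V)
    rwa [hn'] at this
  have hdx : Hom n (x ^ m) := by
    have := D.dx.pow m
    rwa [← D.hn] at this
  have hxm := (ec_x D).pow m
  obtain ⟨s, t, hst, hco⟩ := D.dim1 (x ^ m) (eR G.P V) hxm.sm hxm.cl hdx hV.ec_eR.sm hV.ec_eR.cl hdV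
  have ht : t ≠ 0 := by
    rintro rfl
    rw [zero_smul, sub_zero] at hco
    have hs : s ≠ 0 := by rcases hst with h1 | h1
                          · exact h1
                          · exact absurd rfl h1
    exact D.xm_ne (hco.smul_zero_of_ne hs)
  have h1 : Coh S (eR G.P V) ((s / t) • x ^ m) := by
    refine (rcl_eq_iff hV.ec_eR (hxm.smul _)).1 ?_
    have e0 : s • x ^ m - t • eR G.P V = s • x ^ m + (-1 : ℝ) • (t • eR G.P V) := by
      rw [neg_one_smul, sub_eq_add_neg]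
    rw [e0] at hco
    have h2 := (rcl_eq_zero_iff ((hxm.smul s).add ((hV.ec_eR.smul t).smul (-1)))).2 hco
    rw [rcl_add (hxm.smul s) ((hV.ec_eR.smul t).smul (-1)), rcl_smul _ (hV.ec_eR.smul t),
      rcl_smul _ hV.ec_eR, rcl_smul _ hxm] at h2
    rw [rcl_smul _ hxm]
    have ht' : (t : ℂ) ≠ 0 := by exact_mod_cast ht
    have h3 : (t : ℂ) • rcl hV.ec_eR = (s : ℂ) • rcl hxm := by
      have h4 : (((-1 : ℝ) : ℝ) : ℂ) • (t : ℂ) • rcl hV.ec_eR = - ((t : ℂ) • rcl hV.ec_eR) := by simp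
      rw [h4, ← sub_eq_add_neg, sub_eq_zero] at h2
      exact h2.symm
    have h5 : rcl hV.ec_eR = (t : ℂ)⁻¹ • ((t : ℂ) • rcl hV.ec_eR) := by
      rw [smul_smul, inv_mul_cancel₀ ht', one_smul]
    rw [h5, h3, smul_smul]
    congr 1
    push_cast
    field_simp
  have hQ : OR (GT.FF S) (fun z : Euc N × Euc N => G.P z.1) (fun z => V z.1) :=
    GP.OR.comp hV (f := fun z : Euc N × Euc N => z.1) (fun _ _ => contDiffAt_fst)
      fun z hz => hz.1
  obtain ⟨σ, hσ, hw⟩ := whitney_sign (FV.preconn_FF' h (by omega)) D.hW hW₁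
    (fun z hz v => PV_F1 h hz v) hQ (fun z _ => by
      change G.P z.1 = FV.PVB h z + (G.P z.1 - FV.PVB h z)
      abel)
  set C : ℝ := (((Fintype.card ι + Fintype.card ι₁).choose (Fintype.card ι) : ℕ) : ℝ) with hC
  have hC0 : C ≠ 0 := by
    rw [hC]
    exact_mod_cast (Nat.choose_pos (Nat.le_add_right _ _)).ne'
  refine ⟨s / t, σ * C⁻¹, mul_ne_zero ?_ (inv_ne_zero hC0), h1, hw.trans ?_⟩
  · rcases hσ with rfl | rfl
    · exact one_ne_zero
    · exact neg_ne_zero.2 one_ne_zero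
  · have h6 : Coh (GT.FF S) (eR (fun z : Euc N × Euc N => G.P z.1) (fun z => V z.1))
        ((s / t) • F.pull Prod.fst x ^ m) := by
      refine (Coh.of_eqv (eqv_pull_eR hV smap_fst_FF).symm).trans ?_
      have := h1.pull (smap_fst_FF (S := S))
      rwa [pull_smul', pull_pow'] at this
    have h7 := h6.smul (σ * C⁻¹)
    rwa [smul_smul] at h7

end geo

end Crest.Agent.R208.XE
end
end

-- ▼ part R208/XE4
section

/-! Row 208, block XE (helper126).  XE4: (X4′) and (EN), the theorems. -/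

set_option autoImplicit false
set_option linter.unusedSectionVars false

open MeasureTheory Set Filter Topology Module
open scoped ContDiff RealInnerProductSpace Matrix
open Crest.GeometryTopology.Submanifold
open Crest.Agent.R241.DDefs
open Crest.Agent.R241.D2
open Crest.Agent.R208.F Crest.Agent.R208.FI Crest.Agent.R208.CW Crest.Agent.R208.T

noncomputable section

namespace Crest.Agent.R208.XE

variable {n N k m : ℕ} {κ : ℝ} {S : Set (Euc N)} {G : Geo n N κ S} {p : Euc N}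
  {ι ι₁ ι' : Type} [Fintype ι] [DecidableEq ι] [Fintype ι₁] [DecidableEq ι₁] [Fintype ι']
  [DecidableEq ι']
  {W : Euc N × Euc N → (ι × Fin 2 → Fin N) → ℝ} {W₁ : Euc N × Euc N → (ι₁ × Fin 2 → Fin N) → ℝ}
  {x : Euc N → Ext (Euc N)} {h : GT.Bla G k}

/-- `x₁ ^ (m + 1) = 0` -/
theorem x1_pow (D : XM h m W p x) : rcl (ec_x1 D) ^ (m + 1) = 0 := by
  have hd : Hom (k * (m + 1)) (x ^ (m + 1)) := D.dx.pow (m + 1)
  have h1 : Coh S (x ^ (m + 1)) 0 := Coh.of_eqv (eqv_zero_of_gt (FV.sub_S h.bl) (by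
    have := D.hn
    have := D.hk
    rw [Nat.mul_succ]
    omega) hd)
  have h2 : rcl ((ec_x D).pow (m + 1)) = 0 := (rcl_eq_zero_iff _).2 h1
  rw [rcl_pow (ec_x D)] at h2
  have h3 : rcl (ec_x1 D) = H.map smap_fst_FF (rcl (ec_x D)) := rcl_pull _ _
  rw [h3, ← map_pow, h2, map_zero]

/-- the class of `x₁^m x₂^(m-1)` -/
theorem mix_ne (D : XM h m W p x) : rcl (ec_x1 D) ^ m * rcl (ec_x2 D) ^ (m - 1) ≠ 0 := by
  intro h0
  refine D.mix_ne ((rcl_eq_zero_iff (((ec_x1 D).pow m).mul ((ec_x2 D).pow (m - 1)))).1 ?_)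
  rw [rcl_mul ((ec_x1 D).pow m) ((ec_x2 D).pow (m - 1)), rcl_pow (ec_x1 D), rcl_pow (ec_x2 D), h0]

/-- the class of the second projection -/
theorem x2_eq (D : XM h m W p x) : rcl (ec_x2 D) = rcl (ec_x1 D) - rcl D.hW.ec_eR := by
  have hxe : EC (GT.FF S) (F.pull Prod.fst x + (-1 : ℝ) • eR (FV.PVB h) W) :=
    (ec_x1 D).add (D.hW.ec_eR.smul (-1))
  have h3 : Coh (GT.FF S) (F.pull Prod.snd x) (F.pull Prod.fst x + (-1 : ℝ) • eR (FV.PVB h) W) := by
    rw [neg_one_smul, ← sub_eq_add_neg]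
    exact D.snd_class
  rw [rcl_congr (ec_x2 D) hxe h3, rcl_add (ec_x1 D) (D.hW.ec_eR.smul (-1)), rcl_smul _ D.hW.ec_eR]
  simp [sub_eq_add_neg]

/-- the classes on `{p} × C_p` -/
theorem map_x1 (D : XM h m W p x) : H.map (smap_CutL D.hp) (rcl (ec_x1 D)) = 0 := by
  have hk := D.hk
  obtain ⟨-, h2⟩ := restr_class (C := GP.Cut S p) (ιC := fun q : Euc N => (p, q)) (p := p)
    (smap_snd_FF (S := S)) smap_fst_FF (by omega) D.dx (smap_CutL D.hp) (fun _ hq => hq.1)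
    (fun _ _ => rfl) (fun _ _ => rfl)
  rw [← rcl_pull (smap_CutL D.hp) (ec_x1 D)]
  exact (rcl_eq_zero_iff _).2 (Coh.of_eqv h2)

theorem map_x2 (D : XM h m W p x) :
    H.map (smap_CutL D.hp) (rcl (ec_x2 D)) = rcl (OR_Cut h D.hp D.hW).ec_eR := by
  have hk := D.hk
  obtain ⟨h1, -⟩ := restr_class (C := GP.Cut S p) (ιC := fun q : Euc N => (p, q)) (p := p)
    (smap_snd_FF (S := S)) smap_fst_FF (by omega) D.dx (smap_CutL D.hp) (fun _ hq => hq.1)
    (fun _ _ => rfl) (fun _ _ => rfl)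
  rw [← rcl_pull (smap_CutL D.hp) (ec_x2 D)]
  exact (rcl_eq_iff _ _).2 (Coh.of_eqv (h1.trans D.ex))

theorem cut_pow_ne (D : XM h m W p x) : rcl (OR_Cut h D.hp D.hW).ec_eR ^ (m - 1) ≠ 0 := by
  intro h0
  refine cut_ne D ((rcl_eq_zero_iff ((OR_Cut h D.hp D.hW).ec_eR.pow (m - 1))).1 ?_)
  rw [rcl_pow (OR_Cut h D.hp D.hW).ec_eR, h0]

/-- **(X4′)** the Euler class of `T_p C_q`, together with the Euler class of `S` -/
theorem main' (D : XM h m W p x) (hW₁ : OR (GT.FF S) (F1 h) W₁)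
    (hι₁ : 2 * Fintype.card ι₁ = n - k) {V : Euc N → ((ι ⊕ ι₁) × Fin 2 → Fin N) → ℝ}
    (hV : OR S G.P V)
    (hrel : Coh (GT.FF S) (hS (F.pull Prod.fst x) (F.pull Prod.snd x) m) 0) :
    ∃ ρ t : ℝ, ρ ≠ 0 ∧ t ≠ 0 ∧ Coh (GT.FF S) (eR (F1 h) W₁)
      (ρ • pS (F.pull Prod.fst x) (F.pull Prod.snd x) m) ∧ Coh S (eR G.P V) (t • x ^ m) := by
  have hk := D.hk
  have hm := D.hm
  have hkn := D.hkn
  have h1 := ec_x1 D
  have h2 := ec_x2 D
  have hpS := ec_pS h1 h2 m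
  obtain ⟨c₀, hc₀, hres⟩ := restr_F1 D hW₁ hι₁
  obtain ⟨t, c₁, hc₁, hT, hWh⟩ := whitney_F D hW₁ hι₁ hV
  -- the difference
  have hb : EC (GT.FF S) (eR (F1 h) W₁ + (-1 : ℝ) •
      (c₀ • pS (F.pull Prod.fst x) (F.pull Prod.snd x) m)) :=
    hW₁.ec_eR.add ((hpS.smul c₀).smul (-1))
  have hd : Hom (n - k) (eR (F1 h) W₁ + (-1 : ℝ) •
      (c₀ • pS (F.pull Prod.fst x) (F.pull Prod.snd x) m)) := by
    refine Hom.add ?_ (((Hom.smul _ ?_)).smul _)
    · rw [← hι₁]; exact hom_eR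
    · rw [nk_eq D]; exact hom_pS D.dx.pull D.dx.pull m
  obtain ⟨g, -, hg⟩ := FF_classes h hk hkn D.hke D.hne D.hp D.hι D.hW D.sx D.cx D.dx D.ex (n - k) _
    ⟨Fintype.card ι₁, by omega⟩ (by omega) hb.sm hb.cl hd
  have hm1 : (n - k) / k + 1 = m := by rw [nk_div D]; omega
  have hE := D.hW.ec_eR
  have hmono : ∀ a, EC (GT.FF S) (F.pull Prod.fst x ^ a * eR (FV.PVB h) W ^ ((n - k) / k - a)) :=
    fun a => (h1.pow a).mul (hE.pow _)
  have hb1 : rcl hb = rcl hW₁.ec_eR - (c₀ : ℂ) •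
      ∑ i ∈ Finset.range m, ((i + 1 : ℕ) : CW.H (GT.FF S)) * (rcl h1 ^ i * rcl h2 ^ (m - 1 - i)) := by
    rw [rcl_add hW₁.ec_eR ((hpS.smul c₀).smul (-1)), rcl_smul _ (hpS.smul c₀), rcl_smul _ hpS,
      rcl_pS h1 h2 m]
    simp [sub_eq_add_neg]
  have hb2 : rcl hb = ∑ a ∈ Finset.range m, (g a : ℂ) • (rcl h1 ^ a * rcl hE ^ (m - 1 - a)) := by
    rw [rcl_congr hb (EC.sum fun a _ => (hmono a).smul (g a)) hg,
      rcl_sum _ fun a => (hmono a).smul (g a), hm1]
    refine Finset.sum_congr rfl fun a _ => ?_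
    rw [rcl_smul _ (hmono a), rcl_mul (h1.pow a) (hE.pow _), rcl_pow h1, rcl_pow hE, nk_div D]
  -- restriction to `{p} × C_p`
  have hY := (OR_Cut h D.hp D.hW).ec_eR
  have r1 : H.map (smap_CutL D.hp) (rcl h1) = 0 := map_x1 D
  have r2 : H.map (smap_CutL D.hp) (rcl h2) = rcl hY := map_x2 D
  have r3 : H.map (smap_CutL D.hp) (rcl hE) = - rcl hY := by
    have h3 : rcl hE = rcl h1 - rcl h2 := by
      rw [x2_eq D]; ring
    rw [h3, map_sub, r1, r2, zero_sub]
  have r4 : H.map (smap_CutL D.hp) (rcl hW₁.ec_eR) = (c₀ : ℂ) • rcl hY ^ (m - 1) := by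
    rw [← rcl_pull (smap_CutL D.hp) hW₁.ec_eR,
      rcl_congr (hW₁.ec_eR.pull (smap_CutL D.hp)) ((hY.pow (m - 1)).smul c₀) hres,
      rcl_smul _ (hY.pow (m - 1)), rcl_pow hY]
  have hg0 : (g 0 : ℂ) = 0 := by
    have h3 := congrArg (H.map (smap_CutL D.hp)) (hb1.symm.trans hb2)
    rw [map_sub, map_smul, map_sum, map_sum, r4] at h3
    have h4 : ∑ i ∈ Finset.range m, H.map (smap_CutL D.hp)
        (((i + 1 : ℕ) : CW.H (GT.FF S)) * (rcl h1 ^ i * rcl h2 ^ (m - 1 - i)))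
        = rcl hY ^ (m - 1) := by
      rw [Finset.sum_eq_single_of_mem 0 (Finset.mem_range.2 (by omega))]
      · rw [map_mul, map_mul, map_pow, map_pow, r2]
        simp
      · intro i _ hi
        rw [map_mul, map_mul, map_pow, r1, zero_pow hi, zero_mul, mul_zero]
    have h5 : ∑ a ∈ Finset.range m, H.map (smap_CutL D.hp)
        ((g a : ℂ) • (rcl h1 ^ a * rcl hE ^ (m - 1 - a)))
        = (g 0 : ℂ) • (- rcl hY) ^ (m - 1) := by
      rw [Finset.sum_eq_single_of_mem 0 (Finset.mem_range.2 (by omega))]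
      · rw [map_smul, map_mul, map_pow, map_pow, r3]
        simp
      · intro i _ hi
        rw [map_smul, map_mul, map_pow, r1, zero_pow hi, zero_mul, smul_zero]
    rw [h4, h5, sub_self] at h3
    have h6 : (g 0 : ℂ) • rcl hY ^ (m - 1) = 0 := by
      have h7 : (g 0 : ℂ) • rcl hY ^ (m - 1)
          = (-1) ^ (m - 1) * ((g 0 : ℂ) • (- rcl hY) ^ (m - 1)) := by
        rw [mul_smul_comm, ← mul_pow]; simp
      rw [h7, ← h3, mul_zero]
    by_contra hne
    exact cut_pow_ne D ((smul_eq_zero_iff_right hne).1 h6)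
  have hef : rcl hE * rcl hW₁.ec_eR = ((c₁ * t : ℝ) : ℂ) • rcl h1 ^ m := by
    rw [← rcl_mul hE hW₁.ec_eR, rcl_congr (hE.mul hW₁.ec_eR) ((h1.pow m).smul _) hWh,
      rcl_smul _ (h1.pow m), rcl_pow h1]
  have hh : ∑ i ∈ Finset.range (m + 1), rcl h1 ^ i * rcl h2 ^ (m - i) = 0 := by
    rw [← rcl_hS h1 h2 m]
    exact (rcl_eq_zero_iff _).2 hrel
  obtain ⟨k1, k2⟩ := ring_main (by omega) (x2_eq D) (x1_pow D) (mix_ne D) hef hh
    (fun a => (g a : ℂ)) hg0 (hb1.symm.trans hb2)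
  refine ⟨c₀, t, hc₀, ?_, ?_, hT⟩
  · rintro rfl
    rw [mul_zero] at k2
    have hm0 : ((m : ℂ) + 1) ≠ 0 := by exact_mod_cast Nat.succ_ne_zero m
    have : (c₀ : ℂ) = 0 := by
      have := (mul_eq_zero.1 k2.symm).resolve_right hm0
      exact this
    exact hc₀ (by exact_mod_cast this)
  · refine (rcl_eq_iff hW₁.ec_eR (hpS.smul c₀)).1 ?_
    rw [rcl_smul _ hpS, rcl_pS h1 h2 m]
    exact k1


/-- **(X4′)** -/
theorem euler_F1' (D : XM h m W p x) (hW₁ : OR (GT.FF S) (F1 h) W₁)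
    (hι₁ : 2 * Fintype.card ι₁ = n - k)
    (hrel : Coh (GT.FF S) (hS (F.pull Prod.fst x) (F.pull Prod.snd x) m) 0) :
    ∃ ρ : ℝ, ρ ≠ 0 ∧ Coh (GT.FF S) (eR (F1 h) W₁)
      (ρ • pS (F.pull Prod.fst x) (F.pull Prod.snd x) m) := by
  have hkn := D.hkn
  have hι := D.hι
  obtain ⟨V, hV⟩ := GP.exists_OR_S (G := G) h.bl h.ty D.hk (ι := ι ⊕ ι₁) (by
    rw [Fintype.card_sum]; omega)
  obtain ⟨ρ, t, hρ, -, h1, -⟩ := main' D hW₁ hι₁ hV hrel
  exact ⟨ρ, hρ, h1⟩

end Crest.Agent.R208.XE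
end
end

-- ▼ part R208/XE5
section

/-! Row 208, block XE (helper126).  XE5: (X4′) without hypotheses, on `XM`; the same for `T_q C_p`;
the form in the ring `H F`. -/

set_option autoImplicit false
set_option linter.unusedSectionVars false

open MeasureTheory Set Filter Topology Module
open scoped ContDiff RealInnerProductSpace Matrix
open Crest.GeometryTopology.Submanifold
open Crest.Agent.R241.DDefs
open Crest.Agent.R241.D2
open Crest.Agent.R208.F Crest.Agent.R208.FI Crest.Agent.R208.CW Crest.Agent.R208.T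

noncomputable section

namespace Crest.Agent.R208.XE

variable {n N k m : ℕ} {κ : ℝ} {S : Set (Euc N)} {G : Geo n N κ S} {p : Euc N}
  {ι ι₁ ι' : Type} [Fintype ι] [DecidableEq ι] [Fintype ι₁] [DecidableEq ι₁] [Fintype ι']
  [DecidableEq ι']
  {W : Euc N × Euc N → (ι × Fin 2 → Fin N) → ℝ} {W₁ : Euc N × Euc N → (ι₁ × Fin 2 → Fin N) → ℝ}
  {x : Euc N → Ext (Euc N)} {h : GT.Bla G k}

/-- **(X4′)**: `e(T_p C_q) ~ ρ ∑ (i + 1) x₁^i x₂^(m-1-i)`, `ρ ≠ 0` -/
theorem euler_F1 (D : XM h m W p x) (hW₁ : OR (GT.FF S) (F1 h) W₁)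
    (hι₁ : 2 * Fintype.card ι₁ = n - k) :
    ∃ ρ : ℝ, ρ ≠ 0 ∧ Coh (GT.FF S) (eR (F1 h) W₁)
      (ρ • pS (F.pull Prod.fst x) (F.pull Prod.snd x) m) :=
  euler_F1' D hW₁ hι₁ D.hm_zero





end Crest.Agent.R208.XE
end
end

-- ▼ part R208/ZT2

/-!
# `TypesStmt` from the contradiction on `XM`
-/

set_option autoImplicit false

open Crest.GeometryTopology.Submanifold
open Crest.Agent.R241.DDefs
open Crest.Agent.R241.D2
open Crest.Agent.R208.F

noncomputable section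

namespace Crest.Agent.R208.ZT

/-- the situation of `T.XM` exists -/
theorem exists_XM {n N k : ℕ} {κ : ℝ} {S : Set (Euc N)} {G : Geo n N κ S} (h : GT.Bla G k)
    (hk : Even k) (h2 : 2 ≤ k) (hkn : k < n) :
    ∃ (m : ℕ) (W : Euc N × Euc N → (Fin (k / 2) × Fin 2 → Fin N) → ℝ) (p : Euc N)
      (x : Euc N → Ext (Euc N)), T.XM h m W p x := by
  obtain ⟨p, hp⟩ := h.bl.conn.nonempty
  have hι : 2 * Fintype.card (Fin (k / 2)) = k := by
    rw [Fintype.card_fin]
    obtain ⟨r, hr⟩ := hk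
    omega
  obtain ⟨W, hW⟩ := T.exists_OR_FF h h2 (by omega) hι
  obtain ⟨m, x, hD⟩ := T.exists_XM h h2 hkn hι hW hp
  exact ⟨m, W, p, x, hD⟩

/-- the contradiction for `k ≥ 6`, except for `k = 8`, `n = 16` -/
def CoreStmt : Prop :=
  ∀ (n N k m : ℕ) (κ : ℝ) (S : Set (Euc N)) (G : Geo n N κ S) (h : GT.Bla G k)
    (W : Euc N × Euc N → (Fin (k / 2) × Fin 2 → Fin N) → ℝ) (p : Euc N)
    (x : Euc N → Ext (Euc N)), T.XM h m W p x → 6 ≤ k → ¬ (k = 8 ∧ m = 2) → False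

theorem typesStmt_of_core (core : CoreStmt) : ZG.TypesStmt := by
  intro n N κ S G k hG hk h2 hkn
  obtain ⟨m, W, p, x, hD⟩ := exists_XM hG hk h2 hkn
  refine ⟨⟨m, hD.hm, hD.hn⟩, ?_⟩
  by_cases h : k = 2
  · exact Or.inl h
  by_cases h' : k = 4
  · exact Or.inr (Or.inl h')
  have hk6 : 6 ≤ k := by
    obtain ⟨r, hr⟩ := hk
    omega
  by_cases h8 : k = 8 ∧ m = 2
  · right; right
    refine ⟨h8.1, ?_⟩
    rw [hD.hn, h8.1, h8.2]
  · exact (core n N k m κ S G hG W p x hD hk6 h8).elim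

end Crest.Agent.R208.ZT
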