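import Crest.Agent.R208.QV4
import Crest.Agent.R208.TX9
import Crest.Agent.R208.KP4_Mg
import Crest.Agent.R208.PV3_Mg
import Crest.Agent.R208.ZH2
import Crest.Agent.R208.ZH3b
import Crest.Agent.R208.SB5
import Crest.Agent.R208.CBN1
import Crest.Agent.R208.UP2
import Crest.Agent.R208.CG6_Mg
import Crest.Agent.R208.EW8
import Crest.Agent.R208.KP3
import Crest.Agent.R208.CG7
import Crest.Agent.R208.FV3
import Crest.Agent.R208.XM7b
import Crest.Agent.R208.HN2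
import Crest.Agent.R208.TX10
import Crest.Agent.R208.ZT2
import Crest.Agent.R208.KX8
import Crest.Agent.R208.JW3
import Crest.Agent.R208.CG10
import Crest.Agent.R208.JV3b
import Crest.Agent.R208.FM1

-- ▼ part R208/QV5
section

/-! Row 208, block QV (helper105), part QV5: **(V4)** without further hypotheses. -/

set_option autoImplicit false
set_option linter.unusedSectionVars false
set_option linter.unusedVariables false

open Set Filter Topology Module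
open scoped ContDiff RealInnerProductSpace ComplexConjugate
open Crest.GeometryTopology.Submanifold
open Crest.Agent.R241.DDefs
open Crest.Agent.R241.D2
open Crest.Agent.R208.F Crest.Agent.R208.FI
open Crest.Agent.R208.CW (IdF SM el)
open Crest.Agent.R208.GT (mM mV FF ZZ)
open Crest.Agent.R208.T (HD EC rcl Coh Hom Cl Eqv Sm OR ExactIn)
open Crest.Agent.R208.GQ (UV Z1 Q1 v1 Pm LH)

noncomputable section

namespace Crest.Agent.R208.QV

variable {n N k m dF : ℕ} {κ : ℝ} {S : Set (Euc N)} {G : Geo n N κ S} {p : Euc N}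
  {ι : Type} [Fintype ι] [DecidableEq ι] {W : Euc N × Euc N → (ι × Fin 2 → Fin N) → ℝ}
  {x : Euc N → Ext (Euc N)} {h : GT.Bla G 4}

/-- `x_1 + x_2` is not zero on `F` -/
theorem add_ne_zero (M : T.XM h m W p x) (hx : EC S x) {c₀ : ℂ} (hc₀ : c₀ ≠ 0) :
    FG.xp (c₀ • rcl hx) + FG.xq (c₀ • rcl hx) ≠ 0 := by
  intro h0
  have hι2 : Fintype.card ι = 2 := by have := M.hι; omega
  have hn := M.hn
  have hm := M.hm
  have eq : (Unit × Fin 2) ⊕ (Fin 1 × Fin 2) ≃ (ι × Fin 2) := Fintype.equivOfCardEq (by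
    simp [hι2])
  have hL := GQ.lh_UV eq h (by omega) M.hkn ⟨p, M.hp⟩ M.hι M.hW
  have hc1 : 2 * Fintype.card (Fin 1) = 2 := by simp
  rw [hc1] at hL
  refine x_ne_zero M hx hL hc₀ ?_
  have h1 := congrArg (CW.H.map (GT.smap_fst (S := S) (PV := FV.PVB h))) h0
  rw [map_zero, _root_.map_add, ← geod_H] at h1
  have h2 : (2 : ℂ) • CW.H.map (GT.smap_fst (S := S) (PV := FV.PVB h)) (FG.xp (c₀ • rcl hx)) = 0 := by
    rw [two_smul]; exact h1
  exact (smul_eq_zero.1 h2).resolve_left two_ne_zero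

/-- **(V4)**: existence form -/
theorem exists_lt_six (M : T.XM h m W p x) (hF : Sub dF (FF S)) (hx : EC S x) :
    ∃ μ : ℝ, |μ| < 6 ∧
      CW.cc hF (GT.idf_mV (FV.vfield_PVB h)) 2 =
        (μ : ℂ) • (FG.xp (((VX.nE ι : ℝ) : ℂ)⁻¹ • rcl hx) +
          FG.xq (((VX.nE ι : ℝ) : ℂ)⁻¹ • rcl hx)) ∧
      CW.cs hF (GT.idf_mV (FV.vfield_PVB h)) = 1 +
        PowerSeries.C ((μ : ℂ) • (FG.xp (((VX.nE ι : ℝ) : ℂ)⁻¹ • rcl hx) +
          FG.xq (((VX.nE ι : ℝ) : ℂ)⁻¹ • rcl hx))) * PowerSeries.X ^ 2 +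
        PowerSeries.C ((FG.xp (((VX.nE ι : ℝ) : ℂ)⁻¹ • rcl hx) -
          FG.xq (((VX.nE ι : ℝ) : ℂ)⁻¹ • rcl hx)) ^ 2) * PowerSeries.X ^ 4 := by
  obtain ⟨l, W', hl, -, hO⟩ := M.exists_OR_S
  have hι' : 2 * Fintype.card (Fin l) = n := by rw [Fintype.card_fin]; exact hl
  exact V4 M hι' hO (M.eS_ne hι' hO) (FV.sub_S h.bl) hF hx M.hm_zero

/-- **(V4)**: `|μ| < 6` for the `μ` of (X3) (form of 613's `PV.exists_mu_four`) -/
theorem lt_six_of_cc (M : T.XM h m W p x) (hF : Sub dF (FF S)) (hx : EC S x) (μ : ℝ)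
    (hμ : CW.cc hF (GT.idf_mV (FV.vfield_PVB h)) 2 =
        (μ : ℂ) • (FG.xp (((VX.nE ι : ℝ) : ℂ)⁻¹ • rcl hx) +
          FG.xq (((VX.nE ι : ℝ) : ℂ)⁻¹ • rcl hx))) : |μ| < 6 := by
  obtain ⟨ν, h1, h2, -⟩ := exists_lt_six M hF hx
  have hc0 : ((VX.nE ι : ℝ) : ℂ)⁻¹ ≠ 0 := inv_ne_zero (by exact_mod_cast (VX.nE_pos ι).ne')
  have h3 : ((μ : ℂ) - ν) • (FG.xp (((VX.nE ι : ℝ) : ℂ)⁻¹ • rcl hx) +
          FG.xq (((VX.nE ι : ℝ) : ℂ)⁻¹ • rcl hx)) = 0 := by
    rw [sub_smul, ← hμ, ← h2, sub_self]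
  have h4 := (smul_eq_zero.1 h3).resolve_right (add_ne_zero M hx hc0)
  have h5 : μ = ν := by exact_mod_cast sub_eq_zero.1 h4
  rw [h5]; exact h1

theorem lt_six_all (M : T.XM h m W p x) (hF : Sub dF (FF S)) (hx : EC S x) :
    ∀ μ : ℝ, CW.cs hF (GT.idf_mV (FV.vfield_PVB h)) = 1 +
        PowerSeries.C ((μ : ℂ) • (FG.xp (((VX.nE ι : ℝ) : ℂ)⁻¹ • rcl hx) +
          FG.xq (((VX.nE ι : ℝ) : ℂ)⁻¹ • rcl hx))) * PowerSeries.X ^ (4 / 2) +
        PowerSeries.C ((FG.xp (((VX.nE ι : ℝ) : ℂ)⁻¹ • rcl hx) -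
          FG.xq (((VX.nE ι : ℝ) : ℂ)⁻¹ • rcl hx)) ^ 2) * PowerSeries.X ^ 4 → |μ| < 6 := by
  intro μ h3
  refine lt_six_of_cc M hF hx μ ?_
  rw [← CW.coeff_cs, h3, _root_.map_add, _root_.map_add, PowerSeries.coeff_one,
    PowerSeries.coeff_C_mul, PowerSeries.coeff_C_mul, PowerSeries.coeff_X_pow,
    PowerSeries.coeff_X_pow, if_neg (by norm_num), if_pos (by norm_num), if_neg (by norm_num),
    mul_zero, mul_one, zero_add, add_zero]

end Crest.Agent.R208.QV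
end
end

-- ▼ part R208/ZG9
section

/-!
R208, ZG9 (helper385): the instance of `in4_final` over the manifold of geodesics.
-/

set_option autoImplicit false
set_option linter.unusedSectionVars false
set_option linter.unusedVariables false

open MeasureTheory Set Filter Topology Module
open scoped ContDiff RealInnerProductSpace
open Crest.Agent.R208.F Crest.Agent.R208.FI Crest.Agent.R208.CW Crest.Agent.R208.T
open Crest.Agent.R208.RR Crest.Agent.R208.CM Crest.Agent.R208.SO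

noncomputable section

namespace Crest.Agent.R208.ZG

open Crest.GeometryTopology.Submanifold
open Crest.Agent.R241.DDefs
open Crest.Agent.R241.D2
open Crest.Agent.R208.L (US)
open Crest.Agent.R208.LB (oUS al)
open Crest.Agent.R208.NN (Wt Rt nuP)
open Crest.Agent.R208.FL (Af Ph)

variable {n N K m : ℕ} {κ : ℝ} {S : Set (Euc N)} {G : Geo n N κ S}
  {ι : Type} [Fintype ι] [DecidableEq ι]
  {W₀ : Euc N × Euc N → (ι × Fin 2 → Fin N) → ℝ} {p₀ : Euc N} {x : Euc N → Ext (Euc N)}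
  {lg : Euc N → Euc N → Euc N} {ρ : Euc N → Euc N} {r C r' Kr Bb w δ ε E₀ η₀ : ℝ} {J₀ : ℕ}
  {PN : Euc N × Euc N → Wt N K →L[ℝ] Wt N K}

/-- change of orientation -/
theorem abs_J_ori {E : Type*} [NormedAddCommGroup E] [NormedSpace ℝ E] [FiniteDimensional ℝ E]
    {X : Set E} {d : ℕ} {o o' : E → Ext E} (hX : Clo d X) (hc : IsPreconnected X)
    (ho : Ori d X o) (ho' : Ori d X o') (a : E → Ext E) : |J d X o' a| = |J d X o a| := by
  rcases J_ori_connected hX ho ho' hc with h | h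
  · rw [h]
  · rw [h, abs_neg]

/-- the pull-back of `y` (inside `in4_final`) -/
theorem coh_pull_y {EZ EB H F' : Type} [NormedAddCommGroup EZ] [NormedSpace ℝ EZ]
    [FiniteDimensional ℝ EZ] [NormedAddCommGroup EB] [NormedSpace ℝ EB] [FiniteDimensional ℝ EB]
    [NormedAddCommGroup H] [InnerProductSpace ℝ H] [FiniteDimensional ℝ H]
    [NormedAddCommGroup F'] [NormedSpace ℝ F'] [FiniteDimensional ℝ F']
    {Z : Set EZ} {B : Set EB} {P : EB → H →L[ℝ] H} {φ : ℝ → EZ → EZ} {q : EZ → EB × H}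
    {e y : EB → Ext EB} {W : EB × H → Ext (EB × H)} {om : F' → Ext F'} {f : EB × H → F'}
    {a : EZ × ℝ → Ext (EZ × ℝ)} {θ : EZ → Ext EZ} {c : ℝ}
    (hW : CF2 (Sph B P) 2 W) (hq : TP.QM Z φ (Sph B P) q) (sθ : Sm Z θ)
    (hθ : Eqv Z (F.d θ) (F.pull q (F.pull Prod.fst e)))
    (ha : Eqv Z (F.pull (sl 1) a) (F.pull q (F.pull f om)))
    (h3 : Coh (Sph B P) (F.pull f om) (F.pull Prod.fst y + (c / 2) • (F.pull Prod.fst e * W))) :
    Coh Z (F.pull q (F.pull Prod.fst y)) (F.pull (sl 1) a) := by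
  have k1 := h3.pull hq.smap
  rw [pull_add', pull_smul', pull_mul'] at k1
  have sW' : Sm Z (F.pull q W) := hW.sm.pull hq.smap
  have cW' : Cl Z (F.pull q W) := Cl.pull hq.smap hW.sm hW.cl
  have k2 : Coh Z (F.pull q (F.pull Prod.fst e) * F.pull q W) 0 := by
    have k3 : Eqv Z (F.pull q (F.pull Prod.fst e) * F.pull q W) (F.d (θ * F.pull q W)) :=
      (hθ.symm.mul (Eqv.refl _)).trans (d_mul_cl sθ sW' cW').symm
    refine ⟨θ * F.pull q W, sθ.mul sW', ?_⟩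
    rw [sub_zero]
    exact k3
  have k4 := (Coh.refl (X := Z) (F.pull q (F.pull Prod.fst y))).add (k2.smul (c / 2))
  rw [smul_zero, add_zero] at k4
  exact (k4.symm.trans k1.symm).trans (Coh.of_eqv ha.symm)

set_option maxHeartbeats 2000000 in
/-- **the instance** -/
theorem in4_of_D1 (h : FL.D1 G 4 K lg ρ r C r' Kr Bb w δ PN ε J₀ E₀ η₀)
    (D : T.XM h.bla m W₀ p₀ x)
    (hTle : ∀ oS, Ori n S oS → |J n S oS (x ^ m)| ≤ XF.tau ι ^ m)
    (hC : ∀ z ∈ US G, ∀ oV, Ori 2 (Sph (US G) PN ∩ Prod.fst ⁻¹' {z}) oV →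
      |J 2 (Sph (US G) PN ∩ Prod.fst ⁻¹' {z}) oV (Wp (FM.phiF h.bla PN) (F.pull Prod.fst
        (RR.K (E := Euc N × Euc N) (F.pull (RRC.EE G) x))))| = 2 * XF.tau ι)
    (hK : ∀ (mm p' : ℕ) (g : Euc N × Euc N → Fin mm → ℂ) (Fc : MM mm → Ext (MM mm))
      (P' : MM mm → EuclideanSpace ℝ (Fin p') →L[ℝ] EuclideanSpace ℝ (Fin p'))
      (oP' : MM mm → Ext (EuclideanSpace ℝ (Fin p')))
      (hod : SB.OddB (Fin 1) (Quo (US G) g) 2 P' oP') (f : MM mm × EuclideanSpace ℝ (Fin p') → Euc N)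
      (y : MM mm → Ext (MM mm)) (c μ α : ℝ),
      Emb (US G) (gf G) g → Curv (US G) g al Fc → UP.UPr (Quo (US G) g) 3 P' oP' →
      SMap (Sph (Quo (US G) g) P') S f → CF2 (Quo (US G) g) 4 y →
      Coh (US G) (F.pull (jj g) y) (F.pull Prod.fst x) →
      Coh (Sph (Quo (US G) g) P') (F.pull f x)
        (F.pull Prod.fst y + (c / 2) • (F.pull Prod.fst Fc * SB.OddB.eV (Fin 1) hod.hr P' oP')) →
      Coh (Quo (US G) g) (EW.cR 2 P') ((α / 4) • (Fc * Fc) + (μ / 4) • y) →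
      |c| = 4 → |μ| = 2 → α ≠ 0 → 4 ≤ |α|) :
    Nonempty (In4 G m) := by
  have hn : n = 4 * m := D.hn
  have hm : 2 ≤ m := D.hm
  have hkn : 4 < n := by omega
  have hB := h.bla.bl
  have hper : HS.Per G := h.bla.ty.per
  have hH := h.neg
  have hUc := clo_US' hB
  have hcir := cir_US hB hper
  have hal : Conn (US G) (gf G) (al (N := N)) := conn_al (FV.sub_S hB)
  have hUpre : IsPreconnected (US G) := FV.preconn_US hB (by omega)
  obtain ⟨m', g, Fc, hg, hBq, hFc⟩ := exists_CM hB hper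
  obtain ⟨pp, Tr, P', oN, oP', hT, cP', co', uN, oprN, pfP', syP', uP', oprP', hdP, hdo⟩ :=
    UP.exists_N_B h.bla (by norm_num) hkn hper hH hg
  set Z := Sph (US G) PN with hZdef
  set B := Quo (US G) g with hBdef
  set q := CM.Th (jj g) Tr with hqdef
  have pfN : PField (US G) 3 PN := UP.pfield_N hH
  have pfP3 : PField B 3 P' := pfP'
  have hcontP : ContinuousOn P' B := fun y hy => (pfP'.smooth y hy).continuousAt.continuousWithinAt
  -- the circle bundle Z → Y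
  have cb := UP.cb_sph (r := 2) hg hcir hUc (NB.rep_per N K) hT pfN (UP.equi_N hH) pfP3 hdP hal hFc
  have hqm : TP.QM Z (Ph G K) (Sph B P') q :=
    UP.qm_sph ((TP.qm_jj hg hcir hUc).tot hcir (NB.rep_per N K) hT pfN (UP.equi_N hH) hcontP hdP) hT
  have hpB : IsPreconnected B := HY.preconn_Quo hg hUpre
  have hZcir : Cir Z (Ph G K) := CG.cir_Sph h.toD0
  have sj : SMap (US G) B (jj g) := (TP.qm_jj hg hcir hUc).smap
  -- the vertical Euler form
  have hod : SB.OddB (Fin 1) B 2 P' oP' := ⟨pfP3, syP', oprP', by simp⟩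
  set WB := SB.OddB.eV (Fin 1) hod.hr P' oP' with hWB
  set τ₁ := XF.tau (Fin 1) with hτ₁
  have hτ₁0 : 0 < τ₁ := XF.tau_pos _
  have hYc : Clo (2 + 2 * (n - 1)) (Sph B P') := SB.clo_Sph hBq pfP3
  have hZc : Clo (2 + (2 * (n - 1) + 1)) Z := SB.clo_Sph hUc pfN
  have hW : CF2 (Sph B P') 2 WB :=
    ⟨hod.ec_eV.sm, hod.ec_eV.cl, SB.OddB.hom_eV _, by decide⟩
  have hUne : (US G).Nonempty := T.nonempty_UST h.bla D.hp
  have hZpre : IsPreconnected Z := preconn_Sph hUc.compact hUpre pfN (by norm_num)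
  obtain ⟨z₀, hz₀⟩ := id hUne
  have hb₀B : jj g z₀ ∈ B := jj_mem hz₀
  have hL : GQ.LH B P' 2 WB := by
    have := lh_RR hBq.sub hpB ⟨jj g z₀, hb₀B⟩ (ι' := Fin 1) (by simpa using pfP3) syP'
      (by simpa using oprP') hod.orv
    have e : 2 * Fintype.card (Fin 1) = 2 := by simp
    rw [e] at this
    exact this
  have hWX : GQ.LH (US G) PN 2 (F.pull q WB) :=
    HN.lh_eV h.bla rfl hkn hH sj hT hdP hod hUne
  have hnH : ∀ β, Sm Z β → Cl Z β → Hom 2 β → ∃ c : ℝ, Coh Z β (c • F.pull q WB) :=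
    HN.hn_eV D rfl hkn hH sj hT hdP hod
  -- the contraction
  have hAf : KP.Ctr Z S (Ph G K) (KP.ft (N := N) (K := K)) (Af G lg ρ w J₀ ε) := KP.ctr_Z h
  have hfl : KP.Flp Z (Ph G K) (KP.ft (N := N) (K := K)) KC.flp := KP.flp_Z h
  have sfoot : SMap Z S (KP.ft (N := N) (K := K)) := KP.smap_ft
  have sft : SMap (US G) S (Prod.fst : Euc N × Euc N → Euc N) :=
    ⟨fun z _ => contDiffAt_fst, fun z hz => hz.1.1⟩
  obtain ⟨f, sf, hf⟩ := exists_end hqm hAf.smap hAf.one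
  have hom4 : CF2 S 4 x := ⟨D.sx, D.cx, D.dx, by decide⟩
  have hBas : KP.Bas Z (Ph G K) (F.pull q WB) := KP.Bas.pull hZcir hqm.smap hqm.act hW.sm hW.cl
    (KP.ev_of_hom hW.hom hW.even)
  have hflB := hod.flip_eV
  have hflq : Eqv Z (F.pull KC.flp (F.pull q WB)) (-F.pull q WB) := by
    have e1 : Eqv Z (F.pull KC.flp (F.pull q WB)) (F.pull q (F.pull SB.OddB.flip WB)) :=
      eqv_pull_pull' CG.smap_flp hqm.smap hqm.smap SB.OddB.smap_flip (fun z hz => by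
        refine Prod.ext rfl ?_
        change Tr z.1 (-z.2) = -(Tr z.1 z.2)
        rw [map_neg]) WB
    refine e1.trans ((hflB.pull hqm.smap).trans (Eqv.of_eq fun z _ => ?_))
    rw [F.pull, Pi.neg_apply, map_neg]; rfl
  have hconn : Conn Z (Ph G K) (F.pull Prod.fst (al (N := N))) :=
    UP.conn_tot (P := PN) hcir (NB.rep_per N K) (UP.equi_N hH) hal (fun z hz => hz.1) hZcir.maps
  have hThd : KP.Thd Z (Ph G K) (F.pull Prod.fst (al (N := N))) :=
    KP.Thd.of hZcir hconn hqm.smap hqm.act cb.curv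
  -- orientations
  obtain ⟨oS, hoS, soS, doS⟩ := GP.exists_ori hB h.bla.ty (by norm_num)
  set T₀ := J n S oS (x ^ m) with hTdef
  have hT0 : T₀ ≠ 0 := D.J_ne hoS
  set τ := XF.tau ι with hτ
  have hτ0 : 0 < τ := XF.tau_pos ι
  have hι : Fintype.card ι = 2 := by have := D.hι; omega
  have hτv : τ = 32 * Real.pi ^ 2 := by
    rw [hτ, XF.tau, hι]; norm_num [Nat.factorial]; ring
  have hτ₁v : τ₁ = 4 * Real.pi := by
    rw [hτ₁, XF.tau, Fintype.card_fin]; norm_num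
  have hπ := Real.pi_pos
  have hdU' : 2 * n - 1 + 1 = 2 * n := by omega
  have d0 : 2 * (n - 1) + 1 = 2 * n - 1 := by omega
  have hUc' : Clo (2 * n - 1) (US G) := by rw [← d0]; exact hUc
  have hoU : Ori (2 * n - 1) (US G) (dp (2 * n - 1) (oUS n N)) :=
    ori_dpz (LB.ori_US (FV.sub_S hB) hB.cpt (by omega) hdU')
  have hosZ : FG.OSubm 2 (2 * n - 1) Z (US G) Prod.fst (SB.oV oN) (dp (2 * n - 1) (oUS n N)) :=
    SB.osubm_Sph hUc' pfN oprN hoU (fun y => T.hom_dp (2 * n - 1) (oUS n N) y)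
  have horN : Ori 2 (Z ∩ Prod.fst ⁻¹' {z₀}) (SB.oV oN) := hosZ.fib z₀
  -- the family
  obtain ⟨c, η, hc0, hF, hcv, hD, hper2⟩ := KP.four h hm hn hoS D.sx D.cx D.dx D.hm_zero' hBas
    hW.hom.pull hflq hThd hnH hosZ hz₀ hτ0 (hC z₀ hz₀ _ horN) (hTle oS hoS)
  set ω₀ := J 2 (Z ∩ Prod.fst ⁻¹' {z₀}) (SB.oV oN) (F.pull q WB) with hω₀
  -- the fibre value
  have hfibB : J 2 (Sph B P' ∩ Prod.fst ⁻¹' {jj g z₀}) (SB.oV oP') WB = 2 * τ₁ :=
    hod.J_fibre' hb₀B
  have horB : Ori 2 (Sph B P' ∩ Prod.fst ⁻¹' {jj g z₀}) (SB.oV oP') := by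
    rw [SB.OddB.fibre_eq hb₀B]; exact hod.ori_oV hb₀B
  have hfibZ : |ω₀| = 2 * τ₁ := by
    obtain ⟨k1, k2⟩ := HN.J_fib_pull sj hT hdP pfN pfP3 hz₀ horB hW.sm
    rw [hω₀, abs_J_ori (HN.clo_fib pfN hz₀) (preconn_fib_Sph pfN (by norm_num) hz₀) k1 horN, k2,
      hfibB, abs_of_pos (by positivity)]
  have hω0 : ω₀ ≠ 0 := by
    intro h0
    rw [h0, abs_zero] at hfibZ
    linarith
  have hωv : |ω₀| = 8 * Real.pi := by rw [hfibZ, hτ₁v]; ring
  have hca : |c| = 4 := by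
    rw [abs_mul, abs_mul, abs_of_pos hπ, hωv, hτv] at hcv
    have h3 : Real.pi ^ 2 * 8 * (|c| - 4) = 0 := by linear_combination hcv
    have h4 : Real.pi ^ 2 * 8 ≠ 0 := by positivity
    have := (mul_eq_zero.1 h3).resolve_left h4
    linarith
  -- dimensions
  have d1 : 2 + 2 * (n - 1) = 8 * m := by omega
  have d2 : 2 * (n - 1) = 8 * m - 2 := by omega
  have d3 : n - 1 = 4 * m - 1 := by omega
  have d4 : 2 + (2 * (n - 1) + 1) = 8 * m + 1 := by omega
  obtain ⟨hoB, -, hJUS⟩ := J_US hB hper hg hFc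
  have hFcd : Hom (2 * (n - 1)) (fun y => Fc y ^ (n - 1)) := T.Hom.pow hFc.hom (n - 1)
  have hosY : FG.OSubm 2 (2 * (n - 1)) (Sph B P') B Prod.fst (SB.oV oP')
      (fun y => Fc y ^ (n - 1)) := SB.osubm_Sph hBq pfP3 oprP' hoB hFcd
  have hfib := abs_int_Sph hBq hpB pfP3 (by norm_num) oprP' hoB hosY.tot hb₀B horB hW.sm hW.cl
    (ζ := fun y => Fc y ^ (n - 1)) (fun y hy => ((T.Sm.pow hFc.sm (n - 1)) y hy).continuousAt.continuousWithinAt)
    (fun y _ j hj => hFcd y j (by omega))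
  rw [hfibB] at hfib
  -- characteristic classes
  have hFF : FI.Sub (2 * n - 4) (GT.FF S) := FV.sub_FF' h.bla (by omega)
  obtain ⟨μ, hμ2, hMid, hμN, hμB⟩ := PV.exists_mu_four_quo D hH hFF D.ec XM.main
    (fun μ hμ => QV.lt_six_all D hFF D.ec μ hμ) hg hcir hUc (NB.rep_per N K) hT pfP' hdP
  have hEC : EC B (EW.cR 2 P') := EW.ec_cfr hBq.sub (EW.idF_of_pfield hod.pf) 2
  set p4 : MM m' → Ext (MM m') := (VX.nE (Fin 1) ^ 2) • EW.cR 2 P' with hp4
  have hnE : VX.nE (Fin 1) = 2 := by simp [VX.nE]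
  have hp : CF2 B 4 p4 :=
    ⟨(hEC.smul _).sm, (hEC.smul _).cl, T.Hom.smul _ (EW.hom_cR 2), by decide⟩
  have hpU : Coh (US G) (F.pull (jj g) p4) (μ • F.pull Prod.fst x) := by
    have h1 := hμB.smul (VX.nE (Fin 1) ^ 2)
    rw [hp4, pull_smul']
    refine h1.trans (Coh.of_eqv (Eqv.of_eq fun z _ => ?_))
    rw [hnE, smul_smul, show (2 : ℝ) ^ 2 * (μ / 4) = μ by ring]
  have h2 : Coh (Sph B P') (WB * WB) (F.pull Prod.fst p4) := by
    rw [hp4, pull_smul']
    exact hod.sq_eV hBq.sub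
  have he : CF2 B 2 Fc := ⟨hFc.sm, hFc.cl, hFc.hom, by decide⟩
  -- the ends of the family
  have ha := pull_end hqm hAf.smap sf hf x
  have hb : Eqv Z (F.pull (sl 1) (F.pull (fun y => Af G lg ρ w J₀ ε (KP.ff KC.flp y)) x))
      (F.pull q (F.pull (f ∘ flp) x)) :=
    pull_end hqm (hAf.flip hfl).smap (f := f ∘ flp) (sf.comp smap_flp) (fun z hz => by
      have h1 := hf (KC.flp z) (KC.flp_mem hz)
      change f (flp (q z)) = _
      rw [KP.ff, ← h1]
      congr 1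
      refine Prod.ext rfl ?_
      change -(Tr z.1 z.2) = Tr z.1 (-z.2)
      rw [map_neg]) x
  have sW1 : Sm Z (F.pull q WB) := hW.sm.pull hqm.smap
  have hh : Eqv Z (F.pull (sl 1) (F.pull Prod.fst (F.pull q WB))) (F.pull q WB) :=
    Eqv.of_eq fun z hz => RR.pull_sl_fst 1 _ sW1 hz
  -- the numbers
  have hYc' : Clo (8 * m) (Sph B P') := by rw [← d1]; exact hYc
  have hBs' : Sub (8 * m - 2) B := by rw [← d2]; exact hBq.sub
  have hSs : Sub (4 * m) S := by rw [← hn]; exact FV.sub_S hB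
  have hZc' : Clo (8 * m + 1) Z := by rw [← d4]; exact hZc
  have hoY : Ori (8 * m) (Sph B P') (fun z => SB.oV oP' z * F.pull Prod.fst (fun y => Fc y ^ (n - 1)) z) := by
    rw [← d1]; exact hosY.tot
  have hs1 : Subm 1 (8 * m) Z (Sph B P') q := by rw [← d1]; exact cb.subm
  have hpf : ∀ i, F.pull (Prod.fst : MM m' × EuclideanSpace ℝ (Fin pp) → MM m') (fun y => Fc y ^ i) =
      F.pull Prod.fst Fc ^ i := fun i => T.pull_pow' Prod.fst Fc i
  have hfib' : |J (8 * m) (Sph B P') (fun z => SB.oV oP' z * F.pull Prod.fst (fun y => Fc y ^ (n - 1)) z)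
      (WB * F.pull Prod.fst Fc ^ (4 * m - 1))| =
      |ω₀| * |J (8 * m - 2) B (fun y => Fc y ^ (n - 1)) (Fc ^ (4 * m - 1))| := by
    rw [← d2, ← d1, ← d3, hfibZ, ← abs_of_pos (by positivity : (0 : ℝ) < 2 * τ₁),
      ← hpf (n - 1)]
    exact hfib
  have hvol : J (2 * n - 1) (US G) (oUS n N) (oUS n N) ≤
      2 * Real.pi * |J (8 * m - 2) B (fun y => Fc y ^ (n - 1)) (Fc ^ (4 * m - 1))| := by
    rw [← d0, hJUS, ← d2, ← d3]
    exact mul_le_mul_of_nonneg_left (le_abs_self _) (by positivity)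
  refine in4_final (e := Fc) (p := p4) (W := WB) (om := x) (f := f) (q := q)
    (φ := Ph G K) (θ := F.pull Prod.fst (al (N := N))) (c := c) (ω₀ := ω₀) (β := μ) (T := T₀)
    hn (by omega) hYc' hoY hBs' hSs he hp hW hL hflB h2 hom4 sf hZc' hZcir hqm hs1 cb.sm cb.hom
    cb.one cb.curv hF ha hb hh hω0 hc0 hT0 hD hper2 hfib' hvol ?_ ?_ ?_
  · intro y hy hco
    exact low_y D hper hg hFc hy (coh_base hWX hqm.smap (fun _ _ => rfl) sj hAf.smap sft hAf.zero
      hy hom4 hco) hp hpU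
  · intro y α hy h3 h4 hα
    have h3' : Coh Z (F.pull q (F.pull Prod.fst y)) (F.pull (sl 1) (F.pull (Af G lg ρ w J₀ ε) x)) :=
      coh_pull_y hW hqm cb.sm cb.curv ha h3
    have k1 := coh_base hWX hqm.smap (fun _ _ => rfl) sj hAf.smap sft hAf.zero hy hom4 h3'
    have k2 : Coh B (EW.cR 2 P') ((α / 4) • (Fc * Fc) + (μ / 4) • y) := by
      have h5 := h4.smul (1 / 4 : ℝ)
      rw [hp4, hnE, smul_add, smul_smul, smul_smul, smul_smul] at h5
      have e1 : (1 / 4 : ℝ) * 2 ^ 2 = 1 := by norm_num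
      rw [e1, one_smul, show (1 / 4 : ℝ) * α = α / 4 by ring,
        show (1 / 4 : ℝ) * μ = μ / 4 by ring] at h5
      exact h5
    have k3 := hK m' pp g Fc P' oP' hod f y c μ α hg hFc uP' sf hy k1 h3 k2 hca hμ2 hα
    have k4 : (2 / ω₀) ^ 2 * α * (2 * Real.pi) ^ 2 = α / 4 := by
      have h6 : ω₀ ^ 2 = 64 * Real.pi ^ 2 := by rw [← sq_abs, hωv]; ring
      rw [div_pow, h6]
      field_simp
      ring
    rw [k4, abs_div, abs_of_pos (by norm_num : (0 : ℝ) < 4)]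
    linarith
  · rw [abs_div, abs_mul, abs_mul, abs_mul, hμ2, hca, hωv, abs_of_pos hπ, abs_two]
    rw [div_le_iff₀ (by positivity)]
    linarith

end Crest.Agent.R208.ZG
end
end

-- ▼ part R208/ZG10
section

/-!
R208, ZG10 (helper385): `Vol4Stmt` from the three numerical inputs.
-/

set_option autoImplicit false
set_option linter.unusedSectionVars false
set_option linter.unusedVariables false

open MeasureTheory Set Filter Topology Module
open scoped ContDiff RealInnerProductSpace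
open Crest.Agent.R208.F Crest.Agent.R208.FI Crest.Agent.R208.CW Crest.Agent.R208.T
open Crest.Agent.R208.RR Crest.Agent.R208.CM Crest.Agent.R208.SO

noncomputable section

namespace Crest.Agent.R208.ZG

open Crest.GeometryTopology.Submanifold
open Crest.Agent.R241.DDefs
open Crest.Agent.R241.D2
open Crest.Agent.R208.L (US)
open Crest.Agent.R208.LB (oUS al)
open Crest.Agent.R208.NN (Wt Rt nuP)
open Crest.Agent.R208.FL (Af Ph)

/-- `|∫_S x^m| ≤ τ^m` -/
def TleStmt : Prop :=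
  ∀ (n N m : ℕ) (κ : ℝ) (S : Set (Euc N)) (G : Geo n N κ S) (h : GT.Bla G 4)
    (W₀ : Euc N × Euc N → (Fin 2 × Fin 2 → Fin N) → ℝ) (p₀ : Euc N) (x : Euc N → Ext (Euc N)),
    T.XM h m W₀ p₀ x → ∀ oS, Ori n S oS → |J n S oS (x ^ m)| ≤ XF.tau (Fin 2) ^ m

/-- the value of the rotation family on the fibres -/
def RotStmt : Prop :=
  ∀ (n N K m : ℕ) (κ : ℝ) (S : Set (Euc N)) (G : Geo n N κ S) (h : GT.Bla G 4)
    (W₀ : Euc N × Euc N → (Fin 2 × Fin 2 → Fin N) → ℝ) (p₀ : Euc N) (x : Euc N → Ext (Euc N))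
    (δ : ℝ) (PN : Euc N × Euc N → Wt N K →L[ℝ] Wt N K),
    NB.NegB G (4 - 1) (nuP K) δ PN → T.XM h m W₀ p₀ x →
    ∀ z ∈ US G, ∀ oV, Ori 2 (Sph (US G) PN ∩ Prod.fst ⁻¹' {z}) oV →
      |J 2 (Sph (US G) PN ∩ Prod.fst ⁻¹' {z}) oV (Wp (FM.phiF h PN) (F.pull Prod.fst
        (RR.K (E := Euc N × Euc N) (F.pull (RRC.EE G) x))))| = 2 * XF.tau (Fin 2)

/-- **(K10)** -/
def K10Stmt : Prop :=
  ∀ (n N m : ℕ) (κ : ℝ) (S : Set (Euc N)) (G : Geo n N κ S) (h : GT.Bla G 4)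
    (W₀ : Euc N × Euc N → (Fin 2 × Fin 2 → Fin N) → ℝ) (p₀ : Euc N) (x : Euc N → Ext (Euc N)),
    T.XM h m W₀ p₀ x →
    ∀ (mm p' : ℕ) (g : Euc N × Euc N → Fin mm → ℂ) (Fc : MM mm → Ext (MM mm))
      (P' : MM mm → EuclideanSpace ℝ (Fin p') →L[ℝ] EuclideanSpace ℝ (Fin p'))
      (oP' : MM mm → Ext (EuclideanSpace ℝ (Fin p')))
      (hod : SB.OddB (Fin 1) (Quo (US G) g) 2 P' oP') (f : MM mm × EuclideanSpace ℝ (Fin p') → Euc N)
      (y : MM mm → Ext (MM mm)) (c μ α : ℝ),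
      Emb (US G) (gf G) g → Curv (US G) g al Fc → UP.UPr (Quo (US G) g) 3 P' oP' →
      SMap (Sph (Quo (US G) g) P') S f → CF2 (Quo (US G) g) 4 y →
      Coh (US G) (F.pull (jj g) y) (F.pull Prod.fst x) →
      Coh (Sph (Quo (US G) g) P') (F.pull f x)
        (F.pull Prod.fst y + (c / 2) • (F.pull Prod.fst Fc * SB.OddB.eV (Fin 1) hod.hr P' oP')) →
      Coh (Quo (US G) g) (EW.cR 2 P') ((α / 4) • (Fc * Fc) + (μ / 4) • y) →
      |c| = 4 → |μ| = 2 → α ≠ 0 → 4 ≤ |α|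

/-- **`Vol4Stmt` from the three inputs** -/
theorem vol4_of_inputs (h1 : TleStmt) (h2 : RotStmt) (h3 : K10Stmt) : Vol4Stmt := by
  refine vol4_of fun n N κ S G hG m hm hn => ?_
  obtain ⟨m', W, p, x, D⟩ := ZT.exists_XM hG (by decide) (by norm_num) (by omega)
  have hmm : m' = m := by have := D.hn; omega
  subst hmm
  have hπ := Real.pi_pos
  obtain ⟨lg, ρ, r, C, r', Kr, K, δ, PN, w₀, hw₀, hw⟩ :=
    FL.exists_D0 hG le_rfl (by linarith : Real.pi < 4 * Real.pi)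
  obtain ⟨ε₀, hε₀, hε⟩ := (hw w₀ hw₀ le_rfl).exists_D1
  obtain ⟨E₀, η, -, -, J₀, hJ⟩ := hε ε₀ hε₀ le_rfl 0 hπ 1 one_pos
  have hD1 := hJ J₀ le_rfl
  exact in4_of_D1 hD1 D (h1 n N m' κ S G hG W p x D)
    (h2 n N K m' κ S G hG W p x δ PN hD1.neg D)
    (h3 n N m' κ S G hG W p x D)

end Crest.Agent.R208.ZG
end
end

-- ▼ part R208/ZG11
section

/-!
R208, ZG11 (helper385): the inputs of `Vol4Stmt`.
-/

set_option autoImplicit false
set_option linter.unusedSectionVars false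
set_option linter.unusedVariables false

open MeasureTheory Set Filter Topology Module
open scoped ContDiff RealInnerProductSpace
open Crest.Agent.R208.F Crest.Agent.R208.FI Crest.Agent.R208.CW Crest.Agent.R208.T
open Crest.Agent.R208.RR Crest.Agent.R208.CM Crest.Agent.R208.SO

noncomputable section

namespace Crest.Agent.R208.ZG

open Crest.GeometryTopology.Submanifold
open Crest.Agent.R241.DDefs
open Crest.Agent.R241.D2
open Crest.Agent.R208.L (US)
open Crest.Agent.R208.LB (oUS al)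
open Crest.Agent.R208.NN (Wt Rt nuP)
open Crest.Agent.R208.FL (Af Ph)

theorem tle : TleStmt := fun _ _ _ _ _ _ _ _ _ _ D _ hoS => JW.J_S_le D hoS

variable {n N K k m : ℕ} {κ : ℝ} {S : Set (Euc N)} {G : Geo n N κ S} {z : Euc N × Euc N}

/-- the fibres of `US → F` are orientable -/
theorem exists_ori_Fb (h : GT.Bla G k) (hk : 2 ≤ k) (hkn : k < n) (hz : z ∈ US G) :
    ∃ oF, Ori (k - 1) (JX.Fb G z) oF := by
  have hF := FV.phi_mem h.bl hz
  obtain ⟨oP, hoP⟩ := SB.exists_opr_V h hk hkn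
  obtain ⟨r, rfl⟩ : ∃ r, k = r + 1 := ⟨k - 1, by omega⟩
  have h1 := CG.ori_fib (FV.pfield_PVB h) hoP hF
  have hcF := JX.clo_Fb h hk z
  have hcS := JX.clo_Sb h hk hF
  have e0 : JX.Sb h (FV.phi G z) = T.Sph (GT.FF S) (FV.PVB h) ∩
      (Prod.fst : (Euc N × Euc N) × Euc N → Euc N × Euc N) ⁻¹' {FV.phi G z} :=
    JV.Sph_point (P := FV.PVB h) hF
  rw [← e0] at h1
  have hb := JX.bij_up h hz
  refine ⟨F.pull (FV.up G) (SB.oV oP), Ori.pull hcF hcS (fun y hy =>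
    ((SB.dif_US h).fw.smooth y hy.1).of_le (by exact_mod_cast le_top)) hb.mapsTo
    (fun y hy v hv h0 => ?_) h1⟩
  exact (SB.dif_US h).inj hy.1 (Tan_mono_of_subset (fun a ha => ha.1) y hv) h0



end Crest.Agent.R208.ZG
end
end

-- ▼ part R208/ZG12
section

/-!
R208, ZG12 (helper385): the half rotation over a fibre of `Sph (US G) PN` is a sweep of the
fibre of `US → F`.
-/

set_option autoImplicit false
set_option linter.unusedSectionVars false
set_option linter.unusedVariables false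

open MeasureTheory MeasureTheory.Measure Set Filter Topology Module
open scoped ContDiff RealInnerProductSpace
open Crest.Agent.R208.F Crest.Agent.R208.FI Crest.Agent.R208.CW Crest.Agent.R208.T
open Crest.Agent.R208.RR Crest.Agent.R208.SO

noncomputable section

namespace Crest.Agent.R208.ZG

open Crest.GeometryTopology.Submanifold
open Crest.Agent.R241.DDefs
open Crest.Agent.R241.D2
open Crest.Agent.R208.L (US)
open Crest.Agent.R208.NN (Wt Rt nuP)
open Crest.Agent.R208.RRC (Swp)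

section gen
variable {E F : Type} [NormedAddCommGroup E] [NormedSpace ℝ E] [FiniteDimensional ℝ E]
  [NormedAddCommGroup F] [NormedSpace ℝ F] [FiniteDimensional ℝ F]
  {Z : Set E} {X : Set F} {m : ℕ} {H : E × ℝ → F} {Φ : F → E × ℝ}

theorem fderiv_eq_Tan {f g : E → F} {x : E} (hf : DifferentiableAt ℝ f x)
    (hg : DifferentiableAt ℝ g x) (h : ∀ y ∈ Z, f y = g y) {w : E} (hw : w ∈ Tan Z x) :
    fderiv ℝ f x w = fderiv ℝ g x w := by
  refine Submodule.span_induction (p := fun w _ => fderiv ℝ f x w = fderiv ℝ g x w) ?_ ?_ ?_ ?_ hw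
  · rintro w ⟨γ, rfl, hγ, hS⟩
    have h1 := hf.hasFDerivAt.comp_hasDerivAt 0 hγ
    have h2 := hg.hasFDerivAt.comp_hasDerivAt 0 hγ
    have h3 : (f ∘ γ) =ᶠ[𝓝 0] (g ∘ γ) := hS.mono fun t ht => h _ ht
    exact (h1.congr_of_eventuallyEq h3.symm).unique h2
  · simp
  · intro a b _ _ ha hb; simp only [map_add, ha, hb]
  · intro r a _ ha; simp only [map_smul, ha]

/-- a sweep from a smooth left inverse -/
theorem swp_of_inv (cZ : Clo m Z) (cX : Clo (1 + m) X)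
    (sH : ∀ z ∈ Z, ∀ t : ℝ, ContDiffAt ℝ ∞ H (z, t)) (mH : ∀ z ∈ Z, ∀ t : ℝ, H (z, t) ∈ X)
    (dΦ : ∀ z ∈ Z, ∀ t ∈ Ioo (0 : ℝ) 1, DifferentiableAt ℝ Φ (H (z, t)))
    (hΦ : ∀ z ∈ Z, ∀ t ∈ Ioo (0 : ℝ) 1, Φ (H (z, t)) = (z, t))
    (null : μHE[1 + m] (TE F '' (X \ H '' (Z ×ˢ Ioo (0 : ℝ) 1))) = 0) : Swp m Z X H where
  cloZ := cZ
  cloX := cX
  sm := sH
  mem := mH
  inj := by
    intro z hz z' hz' t ht t' ht' h
    have h1 := hΦ z hz t ht
    rw [h, hΦ z' hz' t' ht'] at h1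
    exact ⟨(congrArg Prod.fst h1).symm, (congrArg Prod.snd h1).symm⟩
  dinj := by
    intro z hz t ht w hw s h0
    have hd : DifferentiableAt ℝ H (z, t) := (sH z hz t).differentiableAt (by simp)
    have hc := (dΦ z hz t ht).hasFDerivAt.comp (z, t) hd.hasFDerivAt
    -- the direction of `Z`
    have i1 : HasFDerivAt (fun z' : E => (z', t)) (ContinuousLinearMap.inl ℝ E ℝ) z := by
      exact hasFDerivAt_prodMk_left z t
    have i2 : HasFDerivAt (fun t' : ℝ => (z, t')) (ContinuousLinearMap.inr ℝ E ℝ) t := by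
      exact hasFDerivAt_prodMk_right z t
    have c1 := HasFDerivAt.comp z (g := Φ ∘ H) hc i1
    have c2 := HasFDerivAt.comp t (g := Φ ∘ H) hc i2
    have e1 := fderiv_eq_Tan (Z := Z) c1.differentiableAt i1.differentiableAt
      (fun y hy => hΦ y hy t ht) hw
    rw [c1.fderiv, i1.fderiv] at e1
    have e2 : ((Φ ∘ H) ∘ fun t' : ℝ => (z, t')) =ᶠ[𝓝 t] fun t' => (z, t') := by
      filter_upwards [isOpen_Ioo.mem_nhds ht] with t' ht'
      exact hΦ z hz t' ht'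
    have e3 := congrArg (fun L : ℝ →L[ℝ] E × ℝ => L s) e2.fderiv_eq
    rw [c2.fderiv, i2.fderiv] at e3
    have e4 : (w, s) = (ContinuousLinearMap.inl ℝ E ℝ) w + (ContinuousLinearMap.inr ℝ E ℝ) s := by
      simp
    have e5 : ((0 : E), (0 : ℝ)) = (w, s) := by
      rw [e4, ← e1, ← e3]
      change _ = (fderiv ℝ Φ (H (z, t))) (fderiv ℝ H (z, t) ((ContinuousLinearMap.inl ℝ E ℝ) w)) +
        (fderiv ℝ Φ (H (z, t))) (fderiv ℝ H (z, t) ((ContinuousLinearMap.inr ℝ E ℝ) s))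
      rw [← map_add, ← map_add, ← e4, h0, map_zero]
      rfl
    exact ⟨(congrArg Prod.fst e5).symm, (congrArg Prod.snd e5).symm⟩
  null := null

end gen

section inst
open Crest.Agent.R208.NB Crest.Agent.R208.RK Crest.Agent.R208.FM

variable {n N k K : ℕ} {κ : ℝ} {S : Set (Euc N)} {G : Geo n N κ S} {z : Euc N × Euc N}
  {δ : ℝ} {PN : Euc N × Euc N → Wt N K →L[ℝ] Wt N K}
  {x : (Euc N × Euc N) × Wt N K} {t : ℝ}

/-- the half rotation -/
def Hr (h : GT.Bla G k) (PN : Euc N × Euc N → Wt N K →L[ℝ] Wt N K)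
    (y : ((Euc N × Euc N) × Wt N K) × ℝ) : Euc N × Euc N := (phiF h PN (Real.pi * y.2) y.1).1

theorem Hr_eq (h : GT.Bla G k) (x : (Euc N × Euc N) × Wt N K) (t : ℝ) :
    Hr h PN (x, t) = (x.1.1, Real.cos (Real.pi * t) • x.1.2 + Real.sin (Real.pi * t) • dir h PN x) :=
  rfl

/-- the direction part -/
def br (z u : Euc N × Euc N) : Euc N := u.2 - ⟪z.2, u.2⟫ • z.2

/-- the inverse of the half rotation -/
def Hi (h : GT.Bla G k) (PN : Euc N × Euc N → Wt N K →L[ℝ] Wt N K) (z u : Euc N × Euc N) :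
    ((Euc N × Euc N) × Wt N K) × ℝ :=
  ((z, (‖iO h PN z (br z u)‖⁻¹ : ℝ) • iO h PN z (br z u)), Real.arccos ⟪z.2, u.2⟫ / Real.pi)

variable (h : GT.Bla G k) (H : NegB G (k - 1) (nuP K) δ PN)

theorem smap_Hr (hkn : k < n) (H : NegB G (k - 1) (nuP K) δ PN) :
    SMap (Cyl (Sph (US G) PN)) (US G) (Hr h PN) := by
  refine ⟨fun y hy => ?_, fun y hy => (rz_mem h H hkn (mem_Cyl.1 hy) _).1⟩
  have h1 := (contDiffAt_phiF h H hkn (mem_Cyl.1 hy) (Real.pi * y.2)).fst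
  have h2 : ContDiffAt ℝ ∞ (fun y : ((Euc N × Euc N) × Wt N K) × ℝ =>
      ((Real.pi * y.2, y.1) : ℝ × ((Euc N × Euc N) × Wt N K))) y :=
    ((contDiff_const.mul contDiff_snd).prodMk contDiff_fst).contDiffAt
  exact ContDiffAt.comp (g := fun q : ℝ × ((Euc N × Euc N) × Wt N K) => (phiF h PN q.1 q.2).1) y
    h1 h2

theorem Hr_mem (hkn : k < n) (H : NegB G (k - 1) (nuP K) δ PN)
    (hx : x ∈ Sph (US G) PN ∩ Prod.fst ⁻¹' {z}) (t : ℝ) : Hr h PN (x, t) ∈ JX.Fb G z := by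
  have h1 := rz_mem h H hkn hx.1 (Real.pi * t)
  have h2 : x.1 = z := hx.2
  have hz : z ∈ US G := h2 ▸ hx.1.1.1
  refine ⟨h1.1, ?_⟩
  rw [mem_preimage, mem_singleton_iff]
  change FV.phi G (rz h PN (Real.pi * t) x) = _
  rw [← JX.ph_eq_phi h1.1, ← JX.ph_eq_phi hz]
  refine Prod.ext ?_ ?_
  · change x.1.1 = z.1
    rw [h2]
  · change NN.qq G _ = NN.qq G z
    rw [h1.2, h2]

include H in
theorem inner_Hr (hkn : k < n) (hx : x ∈ Sph (US G) PN ∩ Prod.fst ⁻¹' {z}) (t : ℝ) :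
    ⟪z.2, (Hr h PN (x, t)).2⟫ = Real.cos (Real.pi * t) := by
  have h2 : x.1 = z := hx.2
  have h3 := inner_comb h H hkn hx.1 1 0 (Real.cos (Real.pi * t)) (Real.sin (Real.pi * t))
  rw [one_smul, zero_smul, add_zero, h2] at h3
  rw [Hr_eq, h2, h3]
  ring

include H in
theorem br_Hr (hkn : k < n) (hx : x ∈ Sph (US G) PN ∩ Prod.fst ⁻¹' {z}) (t : ℝ) :
    br z (Hr h PN (x, t)) = Real.sin (Real.pi * t) • dir h PN x := by
  have h2 : x.1 = z := hx.2
  rw [br, inner_Hr h H hkn hx, Hr_eq, h2, add_sub_cancel_left]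

include H in
theorem Hi_Hr (hkn : k < n) (hx : x ∈ Sph (US G) PN ∩ Prod.fst ⁻¹' {z})
    (ht : t ∈ Ioo (0 : ℝ) 1) : Hi h PN z (Hr h PN (x, t)) = (x, t) ∧
      iO h PN z (br z (Hr h PN (x, t))) ≠ 0 := by
  have hπ := Real.pi_pos
  have h2 : x.1 = z := hx.2
  have hz : z ∈ US G := h2 ▸ hx.1.1.1
  have hx2 : PN z x.2 = x.2 := by rw [← h2]; exact hx.1.1.2
  have hx0 : x.2 ≠ 0 := ne_zero_of hx.1
  have hi := isoR h H hkn hz
  have w1 : wL h (nuP K) PN z x.2 ≠ 0 := wL_ne h H hkn hz hx2 hx0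
  have hs : 0 < Real.sin (Real.pi * t) :=
    Real.sin_pos_of_pos_of_lt_pi (mul_pos hπ ht.1) (by nlinarith [ht.2])
  have e1 : iO h PN z (br z (Hr h PN (x, t))) =
      (Real.sin (Real.pi * t) * ‖wL h (nuP K) PN z x.2‖⁻¹) • x.2 := by
    rw [br_Hr h H hkn hx, map_smul]
    have e2 : dir h PN x = (‖wL h (nuP K) PN z x.2‖⁻¹ : ℝ) • wL h (nuP K) PN z x.2 := by
      rw [dir, h2]
    rw [e2, map_smul, smul_smul]
    congr 1
    exact hi.inv_apply hx2
  have hc : 0 < Real.sin (Real.pi * t) * ‖wL h (nuP K) PN z x.2‖⁻¹ :=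
    mul_pos hs (inv_pos.2 (norm_pos_iff.2 w1))
  have hne : iO h PN z (br z (Hr h PN (x, t))) ≠ 0 := by
    rw [e1]; exact smul_ne_zero hc.ne' hx0
  refine ⟨?_, hne⟩
  have hn : ‖x.2‖ = 1 := hx.1.2
  rw [Hi, e1, norm_smul, hn, mul_one, Real.norm_of_nonneg hc.le, smul_smul, inv_mul_cancel₀ hc.ne',
    one_smul, inner_Hr h H hkn hx, Real.arccos_cos (mul_pos hπ ht.1).le (by nlinarith [ht.2]),
    mul_div_cancel_left₀ _ hπ.ne']
  rw [← h2]

theorem contDiffAt_Hi {u : Euc N × Euc N} (h0 : iO h PN z (br z u) ≠ 0)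
    (h1 : ⟪z.2, u.2⟫ ≠ (1 : ℝ)) (h2 : ⟪z.2, u.2⟫ ≠ (-1 : ℝ)) : ContDiffAt ℝ ∞ (Hi h PN z) u := by
  have a1 : ContDiff ℝ ∞ (fun u : Euc N × Euc N => ⟪z.2, u.2⟫) :=
    contDiff_const.inner ℝ contDiff_snd
  have a2 : ContDiff ℝ ∞ (br z) := contDiff_snd.sub (a1.smul contDiff_const)
  have a3 : ContDiff ℝ ∞ (fun u => iO h PN z (br z u)) := (iO h PN z).contDiff.comp a2
  have a4 : ContDiffAt ℝ ∞ (fun u => ‖iO h PN z (br z u)‖⁻¹) u :=
    (a3.contDiffAt.norm ℝ h0).inv (norm_ne_zero_iff.2 h0)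
  have a5 : ContDiffAt ℝ ∞ (fun u : Euc N × Euc N => Real.arccos ⟪z.2, u.2⟫) u :=
    ContDiffAt.comp (g := Real.arccos) (f := fun u : Euc N × Euc N => ⟪z.2, u.2⟫) u
      (Real.contDiffAt_arccos h2 h1) a1.contDiffAt
  exact (contDiffAt_const.prodMk (a4.smul a3.contDiffAt)).prodMk (a5.div_const _)

/-- **the half rotation is a sweep** -/
theorem swp_Hr (hk : 2 ≤ k) (hkn : k < n) (hz : z ∈ US G) (H : NegB G (k - 1) (nuP K) δ PN) :
    Swp (k - 2) (Sph (US G) PN ∩ Prod.fst ⁻¹' {z}) (JX.Fb G z) (Hr h PN) := by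
  have hπ := Real.pi_pos
  have hpf : PField (US G) (k - 2 + 1) PN := by
    have h1 := H.pfield
    rwa [show k - 1 = k - 2 + 1 by omega] at h1
  refine swp_of_inv (HN.clo_fib hpf hz) ?_ (fun x hx t => (smap_Hr h hkn H).smooth _
    (mem_Cyl.2 hx.1)) (fun x hx t => Hr_mem h hkn H hx t) (Φ := Hi h PN z) (fun x hx t ht => ?_)
    (fun x hx t ht => (Hi_Hr h H hkn hx ht).1) ?_
  · rw [show 1 + (k - 2) = k - 1 by omega]
    exact JX.clo_Fb h hk z
  · refine (contDiffAt_Hi h (Hi_Hr h H hkn hx ht).2 ?_ ?_).differentiableAt (by simp)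
    · rw [inner_Hr h H hkn hx]
      have := Real.cos_lt_cos_of_nonneg_of_le_pi le_rfl (by nlinarith [ht.2] : Real.pi * t ≤ Real.pi)
        (mul_pos hπ ht.1)
      rw [Real.cos_zero] at this
      exact this.ne
    · rw [inner_Hr h H hkn hx]
      have := Real.cos_lt_cos_of_nonneg_of_le_pi (mul_pos hπ ht.1).le le_rfl
        (by nlinarith [ht.2] : Real.pi * t < Real.pi)
      rw [Real.cos_pi] at this
      exact this.ne'
  · have hd : 0 < 1 + (k - 2) := by omega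
    have n1 := JV.null_of_sub (F := Euc N × Euc N) (X := {z}) (T.sub_point z) hd
      (f := fun y => y) fun y _ => contDiffAt_id
    have n2 := JV.null_of_sub (F := Euc N × Euc N) (X := {z}) (T.sub_point z) hd
      (f := fun y => (y.1, -y.2)) fun y _ => (contDiff_fst.prodMk contDiff_snd.neg).contDiffAt
    refine measure_mono_null ?_ (measure_union_null n1 n2)
    rw [← image_union]
    refine image_mono ?_
    rintro u ⟨⟨hu, hu2⟩, hu3⟩
    by_contra hcon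
    simp only [image_singleton, mem_union, mem_singleton_iff, not_or] at hcon
    have q1 : NB.ph G u = NB.ph G z := by
      rw [JX.ph_eq_phi hu, JX.ph_eq_phi hz]; exact hu2
    have u1 : u.1 = z.1 := by
      have e := congrArg Prod.fst q1
      exact e
    have q2 : NN.qq G u = NN.qq G z := by
      have e := congrArg Prod.snd q1
      exact e
    have z2 : ‖z.2‖ = 1 := hz.2
    have u2 : ‖u.2‖ = 1 := hu.2
    have hne1 : u.2 ≠ z.2 := fun e => hcon.1 (Prod.ext u1 e)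
    have hne2 : u.2 ≠ -z.2 := fun e => hcon.2 (Prod.ext u1 e)
    set a : ℝ := ⟪z.2, u.2⟫ with ha
    have mz : z.2 ∈ GT.Vs G z.1 (NN.qq G z) := NN.mem_Vs hz
    have mu : u.2 ∈ GT.Vs G z.1 (NN.qq G z) := by
      have := NN.mem_Vs hu
      change u.2 ∈ GT.Vs G u.1 (NN.qq G u) at this
      rwa [q2, u1] at this
    have hzz : ⟪z.2, z.2⟫ = (1 : ℝ) := by rw [real_inner_self_eq_norm_sq, z2]; norm_num
    have huu : ⟪u.2, u.2⟫ = (1 : ℝ) := by rw [real_inner_self_eq_norm_sq, u2]; norm_num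
    have b0 : br z u ∈ NN.V0 G z := by
      refine NN.mem_V0.2 ⟨Submodule.sub_mem _ mu (Submodule.smul_mem _ _ mz), ?_⟩
      rw [br, inner_sub_left, real_inner_smul_left, hzz, mul_one, real_inner_comm, sub_self]
    have bn : ‖br z u‖ ^ 2 = 1 - a ^ 2 := by
      rw [← real_inner_self_eq_norm_sq, br, inner_sub_left, inner_sub_right, inner_sub_right,
        real_inner_smul_left, real_inner_smul_left, real_inner_smul_right, real_inner_smul_right,
        hzz, huu, real_inner_comm z.2 u.2, ← ha]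
      ring
    have bne : br z u ≠ 0 := by
      intro e
      rw [e, norm_zero] at bn
      have e2 : (a - 1) * (a + 1) = 0 := by nlinarith
      have e3 : u.2 = a • z.2 := sub_eq_zero.1 e
      rcases mul_eq_zero.1 e2 with e4 | e4
      · rw [sub_eq_zero.1 e4, one_smul] at e3; exact hne1 e3
      · rw [eq_neg_of_add_eq_zero_left e4, neg_smul, one_smul] at e3; exact hne2 e3
    have bpos : 0 < ‖br z u‖ := norm_pos_iff.2 bne
    have a2 : a ^ 2 < 1 := by nlinarith [sq_pos_of_pos bpos]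
    have hi := isoR h H hkn hz
    set y := iO h PN z (br z u) with hy
    have Ly : wL h (nuP K) PN z y = br z u := by
      have := hi.l_inv (br z u)
      rwa [(V0s_eq_self h hz _).2 b0] at this
    have Py : PN z y = y := hi.p_inv _
    have y0 : y ≠ 0 := by
      intro e
      rw [e, map_zero] at Ly
      exact bne Ly.symm
    have ypos : 0 < ‖y‖ := norm_pos_iff.2 y0
    have amem : -1 < a ∧ a < 1 := abs_lt.1 (by nlinarith [abs_nonneg a, sq_abs a])
    refine hu3 ⟨((z, (‖y‖⁻¹ : ℝ) • y), Real.arccos a / Real.pi), ⟨⟨⟨⟨hz, ?_⟩, ?_⟩, rfl⟩, ?_, ?_⟩, ?_⟩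
    · change PN z ((‖y‖⁻¹ : ℝ) • y) = _
      rw [map_smul, Py]
    · change ‖(‖y‖⁻¹ : ℝ) • y‖ = 1
      rw [norm_smul, norm_inv, norm_norm, inv_mul_cancel₀ ypos.ne']
    · exact div_pos (Real.arccos_pos.2 amem.2) hπ
    · change Real.arccos a / Real.pi < 1
      rw [div_lt_one hπ]
      exact (Real.arccos_le_pi a).lt_of_ne fun e => by
        rw [Real.arccos_eq_pi] at e
        linarith [amem.1]
    · rw [Hr_eq, mul_div_cancel₀ _ hπ.ne', Real.cos_arccos amem.1.le amem.2.le, Real.sin_arccos,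
        dir_smul h (inv_pos.2 ypos)]
      have e5 : dir h PN (z, y) = (‖br z u‖⁻¹ : ℝ) • br z u := by
        change (‖wL h (nuP K) PN z y‖⁻¹ : ℝ) • wL h (nuP K) PN z y = _
        rw [Ly]
      have e6 : Real.sqrt (1 - a ^ 2) = ‖br z u‖ := by
        rw [← bn, Real.sqrt_sq bpos.le]
      rw [e5, e6, smul_smul, mul_inv_cancel₀ bpos.ne', one_smul]
      refine Prod.ext u1.symm ?_
      change a • z.2 + br z u = u.2
      rw [br, add_sub_cancel]

/-- **(S)**: the value of the half rotation -/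
theorem abs_Hr (hk : 3 ≤ k) (hkn : k < n) (hz : z ∈ US G) (H : NegB G (k - 1) (nuP K) δ PN)
    {kap : Euc N × Euc N → Ext (Euc N × Euc N)} (skap : Sm (US G) kap)
    {oF : (Euc N × Euc N) × Wt N K → Ext ((Euc N × Euc N) × Wt N K)}
    {oW : Euc N × Euc N → Ext (Euc N × Euc N)}
    (hoF : Ori (k - 2) (Sph (US G) PN ∩ Prod.fst ⁻¹' {z}) oF)
    (hoW : Ori (k - 1) (JX.Fb G z) oW) :
    |J (k - 2) (Sph (US G) PN ∩ Prod.fst ⁻¹' {z}) oF
      (RR.K (E := (Euc N × Euc N) × Wt N K) (F.pull (Hr h PN) kap))| =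
      |J (k - 1) (JX.Fb G z) oW kap| := by
  have hpf : PField (US G) (k - 2 + 1) PN := by
    have h1 := H.pfield
    rwa [show k - 1 = k - 2 + 1 by omega] at h1
  have hs := swp_Hr h (by omega) hkn hz H
  have hoW' : Ori (1 + (k - 2)) (JX.Fb G z) oW := by
    rw [show 1 + (k - 2) = k - 1 by omega]; exact hoW
  have h1 := hs.J_eq hoW' (w := kap) fun u hu => (skap u hu.1).continuousAt.continuousWithinAt
  have h2 := hs.ori hoW'
  rw [show 1 + (k - 2) = k - 1 by omega] at h1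
  rw [← h1]
  exact abs_J_ori (HN.clo_fib hpf hz) (preconn_fib_Sph hpf (by omega) hz) h2 hoF _

end inst

end Crest.Agent.R208.ZG
end
end

-- ▼ part R208/KP6

/-! Row 208, block RR (helper545), part KP6: **(H)**: the orbit integral of the F action is twice the
half rotation. -/

set_option autoImplicit false
set_option linter.unusedSectionVars false
set_option linter.unusedVariables false

open MeasureTheory MeasureTheory.Measure Set Filter Topology Module Metric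
open scoped ContDiff RealInnerProductSpace
open Crest.GeometryTopology.Submanifold
open Crest.Agent.R241.DDefs
open Crest.Agent.R241.D Crest.Agent.R241.D2
open Crest.Agent.R208.F Crest.Agent.R208.FI Crest.Agent.R208.CW Crest.Agent.R208.T

noncomputable section

namespace Crest.Agent.R208.KP

open Crest.Agent.R208.RR (Cyl mem_Cyl smap_fst sl smap_sl Wp Fl J_eqv J_smul'
  K_eqv K_smul Wp_eqv Wp_smul J_sub' J_add' hom_K hom_Wp)
open Crest.Agent.R208.NN (Wt nuP)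
open Crest.Agent.R208.KC (flp flp_mem flp_flp dir_flp contDiff_flp)
open Crest.Agent.R208.CG (fx fl')

variable {n N K k : ℕ} {κ δ : ℝ} {S : Set (Euc N)} {G : Geo n N κ S}
  {PN : Euc N × Euc N → Wt N K →L[ℝ] Wt N K} {kap : Euc N × Euc N → Ext (Euc N × Euc N)}
  {z : Euc N × Euc N} {oF : (Euc N × Euc N) × Wt N K → Ext ((Euc N × Euc N) × Wt N K)}

/-- the rotation by the angle `a t`, base points -/
def Ra (h : GT.Bla G k) (PN : Euc N × Euc N → Wt N K →L[ℝ] Wt N K) (lam : ℝ → ℝ)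
    (y : ((Euc N × Euc N) × Wt N K) × ℝ) : Euc N × Euc N := (FM.phiF h PN (lam y.2) y.1).1

/-- **the half rotation** -/
def Hr (h : GT.Bla G k) (PN : Euc N × Euc N → Wt N K →L[ℝ] Wt N K)
    (y : ((Euc N × Euc N) × Wt N K) × ℝ) : Euc N × Euc N := (FM.phiF h PN (Real.pi * y.2) y.1).1

theorem smap_Ra (h : GT.Bla G k) (H : NB.NegB G (k - 1) (nuP K) δ PN) (hkn : k < n) {lam : ℝ → ℝ}
    (hl : ContDiff ℝ ∞ lam) :
    SMap (Cyl (T.Sph (L.US G) PN)) (L.US G) (Ra h PN lam) := by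
  refine ⟨fun y hy => ?_, fun y hy => (FM.phiF_mem h H hkn (mem_Cyl.1 hy) _).1.1⟩
  have h1 := FM.contDiffAt_phiF h H hkn (mem_Cyl.1 hy) (lam y.2)
  have h2 : ContDiffAt ℝ ∞ (fun y : ((Euc N × Euc N) × Wt N K) × ℝ => (lam y.2, y.1)) y :=
    ((hl.comp contDiff_snd).prodMk contDiff_fst).contDiffAt
  have h3 : ContDiffAt ℝ ∞ (fun y : ((Euc N × Euc N) × Wt N K) × ℝ =>
      FM.phiF h PN (lam y.2) y.1) y :=
    ContDiffAt.comp y (g := fun q : ℝ × ((Euc N × Euc N) × Wt N K) => FM.phiF h PN q.1 q.2) h1 h2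
  exact contDiffAt_fst.comp y h3

theorem smap_Hr (h : GT.Bla G k) (H : NB.NegB G (k - 1) (nuP K) δ PN) (hkn : k < n) :
    SMap (Cyl (T.Sph (L.US G) PN)) (L.US G) (Hr h PN) :=
  smap_Ra h H hkn (lam := fun t => Real.pi * t) (contDiff_const.mul contDiff_id)

theorem smap_flp : SMap (T.Sph (L.US G) PN) (T.Sph (L.US G) PN) (flp (N := N) (K := K)) :=
  ⟨fun x _ => contDiff_flp.contDiffAt, fun x hx => flp_mem hx⟩

/-- **the F orbit is the union of two half rotations** -/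
theorem Wp_phiF (h : GT.Bla G k) (H : NB.NegB G (k - 1) (nuP K) δ PN) (hkn : k < n)
    (sk : Sm (L.US G) kap) :
    Eqv (T.Sph (L.US G) PN) (Wp (FM.phiF h PN) (F.pull Prod.fst kap))
      (RR.K (E := (Euc N × Euc N) × Wt N K) (F.pull (Hr h PN) kap) -
        F.pull flp (RR.K (E := (Euc N × Euc N) × Wt N K) (F.pull (Hr h PN) kap))) := by
  set Z := T.Sph (L.US G) PN with hZ
  have hc := FM.cir_phiF h H hkn
  have hP : SMap Z (L.US G) (Prod.fst : (Euc N × Euc N) × Wt N K → Euc N × Euc N) :=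
    ⟨fun q _ => contDiffAt_fst, fun q hq => hq.1.1⟩
  have hFl := smap_Fl hc
  set Fr : ((Euc N × Euc N) × Wt N K) × ℝ → Euc N × Euc N := Ra h PN fun t => 2 * Real.pi * t
    with hFr
  have sFr : SMap (Cyl Z) (L.US G) Fr :=
    smap_Ra h H hkn (lam := fun t => 2 * Real.pi * t) (contDiff_const.mul contDiff_id)
  have sHr := smap_Hr h H hkn (K := K)
  have s1 : Sm (Cyl Z) (F.pull Fr kap) := sk.pull sFr
  have s2 : Sm (Cyl Z) (F.pull (Hr h PN) kap) := sk.pull sHr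
  -- the full rotation
  have e1 : Eqv (Cyl Z) (F.pull (Fl (FM.phiF h PN)) (F.pull Prod.fst kap)) (F.pull Fr kap) :=
    eqv_pull_pull hFl hP sFr (fun _ _ => rfl) kap
  have e2 : Eqv Z (Wp (FM.phiF h PN) (F.pull Prod.fst kap))
      (RR.K (E := (Euc N × Euc N) × Wt N K) (F.pull Fr kap)) :=
    K_eqv ((sk.pull hP).pull hFl) s1 e1
  refine e2.trans ?_
  -- reparametrisations
  have hl1 : ContDiff ℝ ∞ (fun t : ℝ => t / 2) := contDiff_id.div_const 2
  have hl2 : ContDiff ℝ ∞ (fun t : ℝ => 1 - t / 2) := contDiff_const.sub hl1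
  have hf1 : SMap (Cyl Z) (Cyl Z) (fx (fun y : (Euc N × Euc N) × Wt N K => y) fun t => t / 2) :=
    ⟨fun y hy => (contDiff_fst.prodMk (hl1.comp contDiff_snd)).contDiffAt,
      fun y hy => mem_Cyl.2 (mem_Cyl.1 hy)⟩
  have hf2 : SMap (Cyl Z) (Cyl Z) (fx (fun y : (Euc N × Euc N) × Wt N K => y) fun t => 1 - t / 2) :=
    ⟨fun y hy => (contDiff_fst.prodMk (hl2.comp contDiff_snd)).contDiffAt,
      fun y hy => mem_Cyl.2 (mem_Cyl.1 hy)⟩
  have hff := smap_ff (smap_flp (G := G) (PN := PN))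
  have a1 : Eqv (Cyl Z) (F.pull (fx (fun y : (Euc N × Euc N) × Wt N K => y) fun t => t / 2)
      (F.pull Fr kap)) (F.pull (Hr h PN) kap) :=
    eqv_pull_pull hf1 sFr sHr (fun y hy => by
      change (FM.phiF h PN (2 * Real.pi * (y.2 / 2)) y.1).1 = (FM.phiF h PN (Real.pi * y.2) y.1).1
      congr 2
      ring) kap
  have a2 : Eqv (Cyl Z) (F.pull (fx (fun y : (Euc N × Euc N) × Wt N K => y) fun t => 1 - t / 2)
      (F.pull Fr kap)) (F.pull (fun y => Hr h PN (ff flp y)) kap) :=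
    eqv_pull_pull hf2 sFr (sHr.comp hff) (fun y hy => by
      change (FM.phiF h PN (2 * Real.pi * (1 - y.2 / 2)) y.1).1 =
        (FM.phiF h PN (Real.pi * y.2) (flp y.1)).1
      rw [FM.phiF_fst, FM.phiF_fst, dir_flp]
      have e3 : 2 * Real.pi * (1 - y.2 / 2) = 2 * Real.pi - Real.pi * y.2 := by ring
      rw [e3, Real.cos_two_pi_sub, Real.sin_two_pi_sub, neg_smul, smul_neg]
      rfl) kap
  have a3 : Eqv (Cyl Z) (F.pull (ff flp) (F.pull (Hr h PN) kap))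
      (F.pull (fun y => Hr h PN (ff flp y)) kap) :=
    eqv_pull_pull hff sHr (sHr.comp hff) (fun _ _ => rfl) kap
  have b1 := K_eqv (s1.pull hf1) s2 a1
  have b2 := K_eqv (s1.pull hf2) (sk.pull (sHr.comp hff)) a2
  have b3 := K_eqv (s2.pull hff) (sk.pull (sHr.comp hff)) a3
  have b4 : Eqv Z (F.pull flp (RR.K (E := (Euc N × Euc N) × Wt N K) (F.pull (Hr h PN) kap)))
      (RR.K (E := (Euc N × Euc N) × Wt N K) (F.pull (ff flp) (F.pull (Hr h PN) kap))) :=
    k_flip (smap_flp (G := G) (PN := PN)) s2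
  have c1 : Eqv Z (RR.K (E := (Euc N × Euc N) × Wt N K) (F.pull Fr kap))
      (RR.K (E := (Euc N × Euc N) × Wt N K)
        (F.pull (fx (fun y : (Euc N × Euc N) × Wt N K => y) fun t => t / 2) (F.pull Fr kap)) -
      RR.K (E := (Euc N × Euc N) × Wt N K)
        (F.pull (fx (fun y : (Euc N × Euc N) × Wt N K => y) fun t => 1 - t / 2)
          (F.pull Fr kap))) := by
    refine Eqv.of_eq fun x hx => ?_
    rw [Pi.sub_apply, CG.K_repar hl1 s1 hx, CG.K_repar hl2 s1 hx]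
    have d1 : (0 : ℝ) / 2 = 0 := by norm_num
    have d2 : (1 : ℝ) - 0 / 2 = 1 := by norm_num
    have d3 : (1 : ℝ) - 1 / 2 = 1 / 2 := by norm_num
    rw [d2, d3, d1, CG.Kab_symm 1 (1 / 2), sub_neg_eq_add, CG.Kab_add s1 hx]
    exact CG.K_eq_Kab
  exact c1.trans (b1.sub (b2.trans (b3.symm.trans b4.symm)))

/-- **(H)**: the fibre integral of the orbit integral is twice the one of the half rotation -/
theorem two_half (h : GT.Bla G k) (H : NB.NegB G (k - 1) (nuP K) δ PN) (hk : Even k)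
    (hk4 : 4 ≤ k) (hkn : k < n) (sk : Sm (L.US G) kap) (hz : z ∈ L.US G)
    (hF : Ori (k - 2) (T.Sph (L.US G) PN ∩ Prod.fst ⁻¹' {z}) oF) :
    J (k - 2) (T.Sph (L.US G) PN ∩ Prod.fst ⁻¹' {z}) oF
      (Wp (FM.phiF h PN) (F.pull Prod.fst kap)) =
      2 * J (k - 2) (T.Sph (L.US G) PN ∩ Prod.fst ⁻¹' {z}) oF
        (RR.K (E := (Euc N × Euc N) × Wt N K) (F.pull (Hr h PN) kap)) := by
  obtain ⟨r, rfl⟩ : ∃ r, k = r + 2 := ⟨k - 2, by omega⟩
  rw [show r + 2 - 2 = r by omega] at *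
  have hP : PField (L.US G) (r + 1) PN := UP.pfield_N H
  obtain ⟨oN, hoN⟩ := SB.exists_opr_N h (by omega) hkn H
  have c := HN.clo_fib hP hz
  have s2 : Sm (Cyl (T.Sph (L.US G) PN)) (F.pull (Hr h PN) kap) := sk.pull (smap_Hr h H hkn)
  have s3 := RR.Sm.K s2
  have s4 : Sm (T.Sph (L.US G) PN) (F.pull flp (RR.K (E := (Euc N × Euc N) × Wt N K)
      (F.pull (Hr h PN) kap))) := s3.pull smap_flp
  have hr : Even r := by
    obtain ⟨i, hi⟩ := hk
    exact ⟨i - 1, by omega⟩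
  have h1 := CG.J_fl'_any hP hoN hr (by omega) hz hF s3
  rw [J_eqv c ((Wp_phiF h H hkn sk).mono_tan inter_subset_left)]
  rw [J_sub' c hF (fun x hx => (s3 x hx.1)) (fun x hx => (s4 x hx.1))]
  have h2 : J r (T.Sph (L.US G) PN ∩ Prod.fst ⁻¹' {z}) oF (F.pull flp
      (RR.K (E := (Euc N × Euc N) × Wt N K) (F.pull (Hr h PN) kap))) =
      -J r (T.Sph (L.US G) PN ∩ Prod.fst ⁻¹' {z}) oF
        (RR.K (E := (Euc N × Euc N) × Wt N K) (F.pull (Hr h PN) kap)) := h1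
  rw [h2]
  ring

/-- absolute values -/
theorem abs_two_half (h : GT.Bla G k) (H : NB.NegB G (k - 1) (nuP K) δ PN) (hk : Even k)
    (hk4 : 4 ≤ k) (hkn : k < n) (sk : Sm (L.US G) kap) (hz : z ∈ L.US G)
    (hF : Ori (k - 2) (T.Sph (L.US G) PN ∩ Prod.fst ⁻¹' {z}) oF) :
    |J (k - 2) (T.Sph (L.US G) PN ∩ Prod.fst ⁻¹' {z}) oF
      (Wp (FM.phiF h PN) (F.pull Prod.fst kap))| =
      2 * |J (k - 2) (T.Sph (L.US G) PN ∩ Prod.fst ⁻¹' {z}) oF
        (RR.K (E := (Euc N × Euc N) × Wt N K) (F.pull (Hr h PN) kap))| := by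
  rw [two_half h H hk hk4 hkn sk hz hF, abs_mul, abs_two]

end Crest.Agent.R208.KP
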