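import Crest.Agent.R208.L1
import Crest.Agent.R241.AF3
import Crest.Agent.R241.D1
import Crest.Agent.R208.G1

-- ▼ part R208/L2
section

/-!
R208, block G4b, part 2 (helper971): Gaussian measures `gam V = exp(-π|v|²) dv`, their images under
orthogonal projections, Lebesgue measure on a subspace.
-/

set_option autoImplicit false
set_option linter.unusedSectionVars false

open MeasureTheory Measure Set Filter Topology Module
open scoped ContDiff RealInnerProductSpace ENNReal
open Crest.GeometryTopology.Submanifold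
open Crest.Agent.R241.DDefs
open Crest.Agent.R241.D2
open Crest.Agent.R241
open Crest.Agent.R241.AF (jac jac_nonneg jac_sq_gram finrank_Euc)

noncomputable section

namespace Crest.Agent.R208.L

section gauss

variable (V : Type*) [NormedAddCommGroup V] [InnerProductSpace ℝ V] [FiniteDimensional ℝ V]
  [MeasurableSpace V] [BorelSpace V]

/-- the Gaussian density -/
def gd {V : Type*} [NormedAddCommGroup V] (v : V) : ℝ≥0∞ :=
  ENNReal.ofReal (Real.exp (-Real.pi * ‖v‖ ^ 2))

omit [InnerProductSpace ℝ V] [FiniteDimensional ℝ V] in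
lemma measurable_gd : Measurable (gd : V → ℝ≥0∞) := by
  unfold gd
  fun_prop

/-- the Gaussian measure `exp(-π|v|²) dv` -/
def gam : Measure V := volume.withDensity gd

variable {V}

lemma integrable_gauss : Integrable (fun v : V => Real.exp (-Real.pi * ‖v‖ ^ 2)) := by
  by_contra h
  have h1 := integral_undef h
  rw [GaussianFourier.integral_rexp_neg_mul_sq_norm Real.pi_pos, div_self Real.pi_ne_zero,
    Real.one_rpow] at h1
  exact one_ne_zero h1

lemma lintegral_gd : ∫⁻ v : V, gd v = 1 := by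
  unfold gd
  rw [← ofReal_integral_eq_lintegral_ofReal integrable_gauss
    (Eventually.of_forall fun v => (Real.exp_pos _).le),
    GaussianFourier.integral_rexp_neg_mul_sq_norm Real.pi_pos, div_self Real.pi_ne_zero,
    Real.one_rpow, ENNReal.ofReal_one]

instance : IsProbabilityMeasure (gam V) := ⟨by
  unfold gam
  rw [withDensity_apply _ MeasurableSet.univ, setLIntegral_univ, lintegral_gd]⟩

lemma charFun_gam (t : V) : charFun (gam V) t = Complex.exp (-(‖t‖ ^ 2 : ℝ) / (4 * Real.pi)) := by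
  have h1 := GaussianFourier.integral_cexp_neg_mul_sq_norm_add (V := V) (b := (Real.pi : ℂ))
    (by simpa using Real.pi_pos) Complex.I t
  rw [div_self (by exact_mod_cast Real.pi_ne_zero), Complex.one_cpow, one_mul, Complex.I_sq] at h1
  rw [charFun_apply, gam, integral_withDensity_eq_integral_toReal_smul (measurable_gd V)
    (Eventually.of_forall fun v => by simp [gd])]
  have h2 : ∀ v : V, (gd v).toReal • Complex.exp ((⟪v, t⟫ : ℝ) * Complex.I) =
      Complex.exp (-(Real.pi : ℂ) * (‖v‖ : ℂ) ^ 2 + Complex.I * ((⟪t, v⟫ : ℝ) : ℂ)) := by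
    intro v
    unfold gd
    rw [ENNReal.toReal_ofReal (Real.exp_pos _).le, Complex.exp_add, Complex.real_smul,
      Complex.ofReal_exp, real_inner_comm]
    push_cast
    ring_nf
  calc ∫ v : V, (gd v).toReal • Complex.exp ((⟪v, t⟫ : ℝ) * Complex.I)
      = ∫ v : V, Complex.exp (-(Real.pi : ℂ) * (‖v‖ : ℂ) ^ 2 + Complex.I * ((⟪t, v⟫ : ℝ) : ℂ)) :=
        integral_congr_ae (Eventually.of_forall h2)
    _ = Complex.exp (-1 * (‖t‖ : ℂ) ^ 2 / (4 * (Real.pi : ℂ))) := h1
    _ = _ := by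
      congr 1
      push_cast
      ring

variable {W : Type*} [NormedAddCommGroup W] [InnerProductSpace ℝ W] [FiniteDimensional ℝ W]
  [MeasurableSpace W] [BorelSpace W]

lemma charFun_map_gam (A : V →L[ℝ] W) {A' : W → V} (hA : ∀ x t, ⟪A x, t⟫ = ⟪x, A' t⟫) (t : W) :
    charFun (Measure.map A (gam V)) t = charFun (gam V) (A' t) := by
  rw [charFun_apply, charFun_apply, integral_map A.continuous.aemeasurable]
  · simp only [hA]
  · apply Continuous.aestronglyMeasurable
    fun_prop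

/-- images of Gaussian measures under linear maps are determined by the norms of the adjoints -/
lemma map_gam_eq {V' : Type*} [NormedAddCommGroup V'] [InnerProductSpace ℝ V']
    [FiniteDimensional ℝ V'] [MeasurableSpace V'] [BorelSpace V'] (A : V →L[ℝ] W) (B : V' →L[ℝ] W)
    {A' : W → V} {B' : W → V'} (hA : ∀ x t, ⟪A x, t⟫ = ⟪x, A' t⟫)
    (hB : ∀ x t, ⟪B x, t⟫ = ⟪x, B' t⟫) (h : ∀ t, ‖A' t‖ = ‖B' t‖) :
    Measure.map A (gam V) = Measure.map B (gam V') := by
  have : IsFiniteMeasure (Measure.map A (gam V)) := isFiniteMeasure_map _ _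
  have : IsFiniteMeasure (Measure.map B (gam V')) := isFiniteMeasure_map _ _
  apply Measure.ext_of_charFun
  funext t
  rw [charFun_map_gam A hA, charFun_map_gam B hB, charFun_gam, charFun_gam, h]

end gauss

section linear

variable {U V : Type*} [NormedAddCommGroup U] [InnerProductSpace ℝ U] [FiniteDimensional ℝ U]
  [NormedAddCommGroup V] [InnerProductSpace ℝ V] [FiniteDimensional ℝ V]
  [MeasurableSpace U] [BorelSpace U] [MeasurableSpace V] [BorelSpace V]

omit [MeasurableSpace U] [BorelSpace U] [MeasurableSpace V] [BorelSpace V] in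
lemma jac_isometry (A : U →L[ℝ] V) (hA : ∀ v w, ⟪A v, A w⟫ = ⟪v, w⟫) : jac A = 1 := by
  have h := jac_sq_gram A (stdOrthonormalBasis ℝ U)
  have h1 : (Matrix.of fun i j => inner ℝ (A (stdOrthonormalBasis ℝ U i))
      (A (stdOrthonormalBasis ℝ U j))) = 1 := by
    ext i j
    rw [Matrix.of_apply, hA, Matrix.one_apply]
    exact orthonormal_iff_ite.1 (stdOrthonormalBasis ℝ U).orthonormal i j
  rw [h1, Matrix.det_one] at h
  exact (pow_eq_one_iff_of_nonneg (jac_nonneg A) two_ne_zero).1 h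

/-- image of Lebesgue measure under a linear map -/
lemma map_smul_volume (B : U →L[ℝ] V) :
    Measure.map B (ENNReal.ofReal (jac B) • (volume : Measure U)) =
      μHE[finrank ℝ U].restrict (range B) := by
  ext s hs
  rw [map_apply B.continuous.measurable hs, Measure.smul_apply, smul_eq_mul,
    ← AF.muHE_linear_image, restrict_apply hs, image_preimage_eq_inter_range]

/-- image of a weighted Lebesgue measure under a linear map -/
lemma map_withDensity_linear (B : U →L[ℝ] V) {h : V → ℝ≥0∞} (hh : Measurable h) :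
    Measure.map B ((volume : Measure U).withDensity fun y => ENNReal.ofReal (jac B) * h (B y)) =
      (μHE[finrank ℝ U].restrict (range B)).withDensity h := by
  rw [← map_smul_volume]
  ext s hs
  rw [map_apply B.continuous.measurable hs, withDensity_apply _ (B.continuous.measurable hs),
    withDensity_apply _ hs, setLIntegral_map hs hh B.continuous.measurable,
    lintegral_const_mul' _ _ ENNReal.ofReal_ne_top, Measure.restrict_smul,
    lintegral_smul_measure]
  rfl

end linear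

section fibre

variable {n N : ℕ}

/-- Lebesgue measure on the image of a linear map, Gaussian version -/
lemma map_starProjection_gam (T : Submodule ℝ (Euc N)) (B : Euc n →L[ℝ] Euc N)
    (hB : range B = (T : Set (Euc N))) (A : Euc n →L[ℝ] Euc N)
    (hA : ∀ v w, ⟪A v, A w⟫ = ⟪v, w⟫) (hAT : range A = (T : Set (Euc N))) :
    Measure.map T.starProjection (gam (Euc N)) =
      Measure.map B ((volume : Measure (Euc n)).withDensity fun y =>
        ENNReal.ofReal (jac B) * gd (B y)) := by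
  have h1 : Measure.map T.starProjection (gam (Euc N)) = Measure.map A (gam (Euc n)) := by
    refine map_gam_eq T.starProjection A (A' := T.starProjection)
      (B' := ContinuousLinearMap.adjoint A)
      (fun x t => Submodule.inner_starProjection_left_eq_right _ _ _)
      (fun x t => (ContinuousLinearMap.adjoint_inner_right A x t).symm) fun t => ?_
    have h2 : T.starProjection t = A (ContinuousLinearMap.adjoint A t) := by
      apply Submodule.eq_starProjection_of_mem_of_inner_eq_zero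
      · have : A (ContinuousLinearMap.adjoint A t) ∈ (T : Set (Euc N)) := by
          rw [← hAT]; exact ⟨_, rfl⟩
        exact this
      · intro w hw
        have hw' : w ∈ (T : Set (Euc N)) := hw
        rw [← hAT] at hw'
        obtain ⟨y, rfl⟩ := hw'
        rw [inner_sub_left, hA, ← ContinuousLinearMap.adjoint_inner_left, sub_self]
    rw [h2]
    have h3 : ‖A (ContinuousLinearMap.adjoint A t)‖ ^ 2 =
        ‖ContinuousLinearMap.adjoint A t‖ ^ 2 := by
      rw [← real_inner_self_eq_norm_sq, ← real_inner_self_eq_norm_sq, hA]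
    exact (sq_eq_sq₀ (norm_nonneg _) (norm_nonneg _)).1 h3
  have h4 : gam (Euc n) = (volume : Measure (Euc n)).withDensity fun y =>
        ENNReal.ofReal (jac A) * gd (A y) := by
    unfold gam
    congr 1
    funext y
    have h5 : ‖A y‖ = ‖y‖ := by
      have h3 : ‖A y‖ ^ 2 = ‖y‖ ^ 2 := by
        rw [← real_inner_self_eq_norm_sq, ← real_inner_self_eq_norm_sq, hA]
      exact (sq_eq_sq₀ (norm_nonneg _) (norm_nonneg _)).1 h3
    unfold gd
    rw [jac_isometry A hA, ENNReal.ofReal_one, one_mul, h5]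
  rw [h1, h4, map_withDensity_linear A (measurable_gd _), map_withDensity_linear B
    (measurable_gd _), hB, hAT]

end fibre

end Crest.Agent.R208.L
end
end

-- ▼ part R208/L3
section

/-!
R208, block G4b, part 3 (helper971): the Gaussian Liouville measure `Lg` on the tangent bundle and its
density in charts.
-/

set_option autoImplicit false
set_option linter.unusedSectionVars false

open MeasureTheory Measure Set Filter Topology Module
open scoped ContDiff RealInnerProductSpace ENNReal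
open Crest.GeometryTopology.Submanifold
open Crest.Agent.R241.DDefs
open Crest.Agent.R241.D2
open Crest.Agent.R241
open Crest.Agent.R241.AF (jac jac_nonneg jac_sq_gram finrank_Euc)

noncomputable section

namespace Crest.Agent.R208.L

variable {n N : ℕ} {κ : ℝ} {S : Set (Euc N)} (G : Geo n N κ S)

/-- Lebesgue measure on `S` -/
def volS (n N : ℕ) (S : Set (Euc N)) : Measure (Euc N) := μHE[n].restrict S

/-- the map `(p, z) ↦ (p, P_p z)` -/
def prj (z : Euc N × Euc N) : Euc N × Euc N := (z.1, G.P z.1 z.2)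

lemma continuous_prj : Continuous (prj G) :=
  continuous_fst.prodMk ((G.contDiff_P.continuous.comp continuous_fst).clm_apply continuous_snd)

lemma measurable_prj : Measurable (prj G) := (continuous_prj G).measurable

lemma prj_mem {z : Euc N × Euc N} (hz : z.1 ∈ S) : prj G z ∈ TS G := ⟨hz, P_mem G hz⟩

/-- **the Gaussian Liouville measure** on the tangent bundle, as a measure on `ℝ^N × ℝ^N` -/
def Lg : Measure (Euc N × Euc N) := Measure.map (prj G) ((volS n N S).prod (gam (Euc N)))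


lemma Lg_apply {A : Set (Euc N × Euc N)} (hA : MeasurableSet A) :
    Lg G A = ∫⁻ p in S, gam (Euc N) {z | (p, G.P p z) ∈ A} ∂μHE[n] := by
  unfold Lg
  rw [map_apply (measurable_prj G) hA, prod_apply (measurable_prj G hA)]
  rfl

/-- the Gaussian measure of a fibre, in terms of a linear parametrisation of the fibre -/
lemma lintegral_fibre {p : Euc N} (hp : p ∈ S) (B : Euc n →L[ℝ] Euc N)
    (hB : range B = (G.T p : Set (Euc N))) {F : Euc N → ℝ≥0∞} (hF : Measurable F) :
    ∫⁻ z, F (G.P p z) ∂(gam (Euc N)) =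
      ∫⁻ y, ENNReal.ofReal (jac B) * gd (B y) * F (B y) := by
  -- an isometric frame
  let e : Euc n ≃ₗᵢ[ℝ] G.T p :=
    ((stdOrthonormalBasis ℝ (G.T p)).reindex (finCongr (G.finrank_T p hp))).repr.symm
  let A : Euc n →L[ℝ] Euc N := (G.T p).subtypeL.comp e.toContinuousLinearEquiv.toContinuousLinearMap
  have hA : ∀ v w, ⟪A v, A w⟫ = ⟪v, w⟫ := fun v w => e.inner_map_map v w
  have hAT : range A = (G.T p : Set (Euc N)) := by
    ext u
    constructor
    · rintro ⟨y, rfl⟩
      exact (e y).2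
    · intro hu
      refine ⟨e.symm ⟨u, hu⟩, ?_⟩
      show ((e (e.symm ⟨u, hu⟩) : G.T p) : Euc N) = u
      rw [LinearIsometryEquiv.apply_symm_apply]
  have h1 := map_starProjection_gam (G.T p) B hB A hA hAT
  rw [← G.P_eq p hp] at h1
  have h2 : ∫⁻ z, F (G.P p z) ∂(gam (Euc N)) = ∫⁻ u, F u ∂(Measure.map (G.P p) (gam (Euc N))) :=
    (lintegral_map hF (G.P p).continuous.measurable).symm
  rw [h2, h1, lintegral_map hF B.continuous.measurable]
  exact lintegral_withDensity_eq_lintegral_mul _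
    (((measurable_gd _).comp B.continuous.measurable).const_mul _)
    (hF.comp B.continuous.measurable)

section chart

variable {p0 : Euc N} {f : Euc n → Euc N} {V : Set (Euc n)}

/-- the chart of the tangent bundle -/
def Fc (f : Euc n → Euc N) (z : Euc n × Euc n) : Euc N × Euc N := (f z.1, fderiv ℝ f z.1 z.2)

/-- the density of `Lg` in a chart -/
def rho (f : Euc n → Euc N) (z : Euc n × Euc n) : ℝ≥0∞ :=
  ENNReal.ofReal (jac (fderiv ℝ f z.1) ^ 2) * gd (fderiv ℝ f z.1 z.2)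

lemma measurable_fderiv_apply (f : Euc n → Euc N) :
    Measurable (fun z : Euc n × Euc n => fderiv ℝ f z.1 z.2) := by
  have h1 : Measurable (fun z : Euc n × Euc n => (fderiv ℝ f z.1, z.2)) :=
    ((measurable_fderiv ℝ f).comp measurable_fst).prodMk measurable_snd
  have h2 : Continuous (fun y : (Euc n →L[ℝ] Euc N) × Euc n => y.1 y.2) := by fun_prop
  exact h2.measurable.comp h1

lemma measurable_jac (f : Euc n → Euc N) : Measurable (fun x => jac (fderiv ℝ f x)) :=
  AF.continuous_jac.measurable.comp (measurable_fderiv ℝ f)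

lemma measurable_rho (f : Euc n → Euc N) : Measurable (rho f) := by
  unfold rho
  refine Measurable.mul ?_ ((measurable_gd _).comp (measurable_fderiv_apply f))
  exact ENNReal.measurable_ofReal.comp (((measurable_jac f).comp measurable_fst).pow_const 2)

lemma range_T (G : Geo n N κ S) (hT : ∀ p ∈ S, G.T p = D.Tan S p)
    (hf : IsLocalParam n N S p0 f V) {x : Euc n} (hx : x ∈ V) (hxS : f x ∈ S) :
    range (fderiv ℝ f x) = (G.T (f x) : Set (Euc N)) := by
  rw [hT _ hxS, ← D.range_fderiv_eq_Tan hf hx]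
  rfl

lemma contDiffOn_Fc (hf : IsLocalParam n N S p0 f V) : ContDiffOn ℝ ∞ (Fc f) (V ×ˢ univ) := by
  have h1 : ContDiffOn ℝ ∞ (fderiv ℝ f) V := hf.contDiffOn.fderiv_of_isOpen hf.isOpen (by simp)
  have h2 : ContDiffOn ℝ ∞ (fun z : Euc n × Euc n => f z.1) (V ×ˢ univ) :=
    ContDiffOn.comp (g := f) hf.contDiffOn contDiffOn_fst fun z hz => hz.1
  have h3 : ContDiffOn ℝ ∞ (fun z : Euc n × Euc n => fderiv ℝ f z.1) (V ×ˢ univ) :=
    ContDiffOn.comp (g := fderiv ℝ f) h1 contDiffOn_fst fun z hz => hz.1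
  exact h2.prodMk (h3.clm_apply contDiffOn_snd)

lemma measurableSet_preimage_Fc (hf : IsLocalParam n N S p0 f V) {A : Set (Euc N × Euc N)}
    (hA : MeasurableSet A) : MeasurableSet (Fc f ⁻¹' A ∩ V ×ˢ univ) := by
  classical
  have hV : MeasurableSet (V ×ˢ (univ : Set (Euc n))) := hf.isOpen.measurableSet.prod .univ
  obtain ⟨u, u_meas, uf⟩ : ∃ u, Measurable u ∧ EqOn u (Fc f) (V ×ˢ univ) := by
    refine ⟨piecewise (V ×ˢ univ) (Fc f) 0, ?_, piecewise_eqOn _ _ _⟩
    exact ContinuousOn.measurable_piecewise (contDiffOn_Fc hf).continuousOn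
      continuous_zero.continuousOn hV
  have h1 : Fc f ⁻¹' A ∩ V ×ˢ univ = u ⁻¹' A ∩ V ×ˢ univ := by
    ext x
    constructor
    · rintro ⟨h1, h2⟩; exact ⟨by rw [mem_preimage, uf h2]; exact h1, h2⟩
    · rintro ⟨h1, h2⟩; exact ⟨by rw [mem_preimage, ← uf h2]; exact h1, h2⟩
  rw [h1]
  exact (u_meas hA).inter hV

/-- **density of `Lg` in a chart** -/
theorem Lg_chart (hT : ∀ p ∈ S, G.T p = D.Tan S p) (hf : IsLocalParam n N S p0 f V)
    (hfS : ∀ x ∈ V, f x ∈ S) {A : Set (Euc N × Euc N)} (hA : MeasurableSet A)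
    (hAV : ∀ q ∈ A, q ∈ TS G → q.1 ∈ f '' V) :
    Lg G A = ∫⁻ z in Fc f ⁻¹' A ∩ V ×ˢ univ, rho f z := by
  classical
  have hVm : MeasurableSet V := hf.isOpen.measurableSet
  have hder : ∀ x ∈ V, HasFDerivWithinAt f (fderiv ℝ f x) V x := fun x hx =>
    ((hf.contDiffOn.contDiffAt (hf.isOpen.mem_nhds hx)).differentiableAt
      (by simp)).hasFDerivAt.hasFDerivWithinAt
  have hm : MeasurableSet (f '' V) := AF.measurable_image hVm hder hf.injOn
  have hsub : f '' V ⊆ S := by rintro _ ⟨x, hx, rfl⟩; exact hfS x hx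
  rw [Lg_apply G hA]
  -- reduce to `f '' V`
  have h1 : ∫⁻ p in S, gam (Euc N) {z | (p, G.P p z) ∈ A} ∂μHE[n] =
      ∫⁻ p in f '' V, gam (Euc N) {z | (p, G.P p z) ∈ A} ∂μHE[n] := by
    rw [← lintegral_inter_add_sdiff (fun p => gam (Euc N) {z | (p, G.P p z) ∈ A}) S hm,
      inter_eq_self_of_subset_right hsub]
    have h2 : ∫⁻ p in S \ f '' V, gam (Euc N) {z | (p, G.P p z) ∈ A} ∂μHE[n] = 0 := by
      rw [setLIntegral_congr_fun (g := fun _ => 0) (G.isClosed.measurableSet.diff hm)]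
      · simp
      · intro p hp
        have : {z | (p, G.P p z) ∈ A} = ∅ := by
          ext z
          simp only [mem_ofPred_eq, mem_empty_iff_false, iff_false]
          intro hz
          exact hp.2 (hAV _ hz ⟨hp.1, P_mem G hp.1⟩)
        simp only [this, measure_empty]
    rw [h2, add_zero]
  rw [h1]
  have h3 := AF.lintegral_image_eq hVm hder hf.injOn
    (fun p => gam (Euc N) {z | (p, G.P p z) ∈ A})
  rw [finrank_Euc] at h3
  rw [h3]
  -- the fibres
  set A' : Set (Euc n × Euc n) := Fc f ⁻¹' A ∩ V ×ˢ univ with hA'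
  have hA'm : MeasurableSet A' := measurableSet_preimage_Fc hf hA
  have h4 : ∀ x ∈ V, ENNReal.ofReal (jac (fderiv ℝ f x)) *
      gam (Euc N) {z | (f x, G.P (f x) z) ∈ A} =
      ∫⁻ y, A'.indicator (rho f) (x, y) := by
    intro x hx
    have hxm : Measurable (fun v : Euc N => A.indicator (fun _ => (1 : ℝ≥0∞)) (f x, v)) :=
      (measurable_const.indicator hA).comp measurable_prodMk_left
    have h5 := lintegral_fibre G (hfS x hx) (fderiv ℝ f x) (range_T G hT hf hx (hfS x hx)) hxm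
    have h6 : ∫⁻ z, A.indicator (fun _ => (1 : ℝ≥0∞)) (f x, G.P (f x) z) ∂(gam (Euc N)) =
        gam (Euc N) {z | (f x, G.P (f x) z) ∈ A} := by
      have h7 : (fun z => A.indicator (fun _ => (1 : ℝ≥0∞)) (f x, G.P (f x) z)) =
          {z | (f x, G.P (f x) z) ∈ A}.indicator 1 := by
        ext z
        simp only [indicator, mem_ofPred_eq, Pi.one_apply]
      rw [h7, lintegral_indicator_one]
      exact (measurable_prodMk_left.comp (G.P (f x)).continuous.measurable) hA
    rw [← h6, h5, ← lintegral_const_mul' _ _ ENNReal.ofReal_ne_top]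
    refine lintegral_congr fun y => ?_
    by_cases hy : Fc f (x, y) ∈ A
    · have h8 : (x, y) ∈ A' := ⟨hy, hx, mem_univ _⟩
      rw [indicator_of_mem h8, indicator_of_mem (by exact hy : (f x, fderiv ℝ f x y) ∈ A),
        mul_one, ← mul_assoc]
      unfold rho
      rw [sq, ENNReal.ofReal_mul (jac_nonneg _)]
    · have h8 : (x, y) ∉ A' := fun h => hy h.1
      rw [indicator_of_notMem h8, indicator_of_notMem
        (by exact hy : (f x, fderiv ℝ f x y) ∉ A), mul_zero, mul_zero]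
  rw [setLIntegral_congr_fun hVm h4, ← lintegral_indicator hA'm]
  rw [volume_eq_prod, lintegral_prod _ ((measurable_rho f).indicator hA'm).aemeasurable,
    ← lintegral_indicator hVm]
  refine lintegral_congr fun x => ?_
  by_cases hx : x ∈ V
  · rw [indicator_of_mem hx]
  · rw [indicator_of_notMem hx]
    symm
    rw [← lintegral_zero (μ := (volume : Measure (Euc n)))]
    refine lintegral_congr fun y => ?_
    exact indicator_of_notMem (fun h => hx h.2.1) _

end chart

end Crest.Agent.R208.L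
end
end

-- ▼ part R208/L4
section

/-!
R208, block G4b, part 4 (helper971): maps which preserve `om` and the norm preserve the Gaussian
Liouville measure (local version).
-/

set_option autoImplicit false
set_option linter.unusedSectionVars false

open MeasureTheory Measure Set Filter Topology Module
open scoped ContDiff RealInnerProductSpace ENNReal
open Crest.GeometryTopology.Submanifold
open Crest.Agent.R241.DDefs
open Crest.Agent.R241.D2
open Crest.Agent.R241
open Crest.Agent.R241.AF (jac jac_nonneg jac_sq_gram finrank_Euc)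

noncomputable section

namespace Crest.Agent.R208.L

section alg

variable {n N : ℕ}

/-- the pullback of `om` under a linear map -/
def omL (L : Euc n × Euc n →L[ℝ] Euc N × Euc N) :
    (Euc n × Euc n) →ₗ[ℝ] (Euc n × Euc n) →ₗ[ℝ] ℝ :=
  LinearMap.mk₂ ℝ (fun ξ η => om (L ξ) (L η))
    (fun _ _ _ => by simp only [map_add, om_add_left])
    (fun _ _ _ => by simp only [map_smul, om_smul_left, smul_eq_mul])
    (fun _ _ _ => by simp only [map_add, om_add_right])
    (fun _ _ _ => by simp only [map_smul, om_smul_right, smul_eq_mul])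

/-- the standard basis of `ℝ^n × ℝ^n` -/
def bb (n : ℕ) : Basis (Fin n ⊕ Fin n) ℝ (Euc n × Euc n) :=
  (EuclideanSpace.basisFun (Fin n) ℝ).toBasis.prod (EuclideanSpace.basisFun (Fin n) ℝ).toBasis

lemma bb_inl (i : Fin n) : bb n (Sum.inl i) = (EuclideanSpace.basisFun (Fin n) ℝ i, 0) := by
  unfold bb
  ext1 <;> simp

lemma bb_inr (i : Fin n) : bb n (Sum.inr i) = (0, EuclideanSpace.basisFun (Fin n) ℝ i) := by
  unfold bb
  ext1 <;> simp

/-- Gram determinant of `om` in a chart -/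
lemma det_omL (L : Euc n × Euc n →L[ℝ] Euc N × Euc N) (B C : Euc n →L[ℝ] Euc N)
    (h1 : ∀ b, L (0, b) = (0, B b)) (h2 : ∀ a, L (a, 0) = (B a, C a)) :
    (LinearMap.toMatrix₂ (bb n) (bb n) (omL L)).det ^ 2 = jac B ^ 8 := by
  set e := EuclideanSpace.basisFun (Fin n) ℝ with he
  set g : Matrix (Fin n) (Fin n) ℝ := Matrix.of fun i j => ⟪B (e i), B (e j)⟫ with hg
  set c : Matrix (Fin n) (Fin n) ℝ :=
    Matrix.of fun i j => om (B (e i), C (e i)) (B (e j), C (e j)) with hc
  have hm : LinearMap.toMatrix₂ (bb n) (bb n) (omL L) = Matrix.fromBlocks c (-g) g 0 := by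
    ext i j
    rw [LinearMap.toMatrix₂_apply]
    change om (L (bb n i)) (L (bb n j)) = _
    rcases i with i | i <;> rcases j with j | j
    · rw [bb_inl, bb_inl, h2, h2]; rfl
    · rw [bb_inl, bb_inr, h2, h1]
      simp [om, hg, he]
      exact real_inner_comm _ _
    · rw [bb_inr, bb_inl, h2, h1]
      simp [om, hg, he]
    · rw [bb_inr, bb_inr, h1, h1]
      simp [om]
  have hJ := Matrix.J_det_mul_J_det (Fin n) ℝ
  have hprod : Matrix.fromBlocks c (-g) g 0 * Matrix.J (Fin n) ℝ =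
      Matrix.fromBlocks (-g) (-c) 0 (-g) := by
    rw [Matrix.J, Matrix.fromBlocks_multiply]
    simp
  have h3 : (Matrix.fromBlocks c (-g) g 0).det * (Matrix.J (Fin n) ℝ).det =
      (-g).det * (-g).det := by
    rw [← Matrix.det_mul, hprod, Matrix.det_fromBlocks_zero₂₁]
  have h4 : (-g).det ^ 2 = g.det ^ 2 := by
    rw [Matrix.det_neg, mul_pow, ← pow_mul, mul_comm (Fintype.card (Fin n)) 2, pow_mul]
    norm_num
  have h5 : jac B ^ 2 = g.det := jac_sq_gram B e
  rw [hm]
  calc (Matrix.fromBlocks c (-g) g 0).det ^ 2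
      = ((Matrix.fromBlocks c (-g) g 0).det * (Matrix.J (Fin n) ℝ).det) ^ 2 := by
        rw [mul_pow, sq (Matrix.J (Fin n) ℝ).det, hJ, mul_one]
    _ = ((-g).det ^ 2) ^ 2 := by rw [h3]; ring
    _ = (g.det ^ 2) ^ 2 := by rw [h4]
    _ = jac B ^ 8 := by rw [← h5]; ring

/-- the determinant of a map preserving the pullbacks of `om` -/
lemma abs_det_mul {L₁ L₂ : Euc n × Euc n →L[ℝ] Euc N × Euc N} {B₁ C₁ B₂ C₂ : Euc n →L[ℝ] Euc N}
    (h11 : ∀ b, L₁ (0, b) = (0, B₁ b)) (h12 : ∀ a, L₁ (a, 0) = (B₁ a, C₁ a))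
    (h21 : ∀ b, L₂ (0, b) = (0, B₂ b)) (h22 : ∀ a, L₂ (a, 0) = (B₂ a, C₂ a))
    {M : Euc n × Euc n →L[ℝ] Euc n × Euc n}
    (hM : ∀ ξ η, om (L₂ (M ξ)) (L₂ (M η)) = om (L₁ ξ) (L₁ η)) :
    |M.det| * jac B₂ ^ 2 = jac B₁ ^ 2 := by
  have h1 : omL L₁ = (omL L₂).compl₁₂ M.toLinearMap M.toLinearMap := by
    ext ξ η <;> exact (hM _ _).symm
  have h2 := det_omL L₁ B₁ C₁ h11 h12
  have h3 := det_omL L₂ B₂ C₂ h21 h22
  rw [h1, LinearMap.toMatrix₂_compl₁₂ (bb n) (bb n), Matrix.det_mul, Matrix.det_mul,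
    Matrix.det_transpose, LinearMap.det_toMatrix] at h2
  have h4 : M.det = LinearMap.det M.toLinearMap := rfl
  rw [← h4] at h2
  have h5 : (|M.det| * jac B₂ ^ 2) ^ 4 = (jac B₁ ^ 2) ^ 4 := by
    have h6 : |M.det| ^ 4 = M.det ^ 4 := by
      rw [show (4 : ℕ) = 2 * 2 from rfl, pow_mul, pow_mul, sq_abs]
    calc (|M.det| * jac B₂ ^ 2) ^ 4 = M.det ^ 4 * jac B₂ ^ 8 := by rw [mul_pow, h6]; ring
      _ = (M.det * (LinearMap.toMatrix₂ (bb n) (bb n) (omL L₂)).det * M.det) ^ 2 := by
        rw [← h3]; ring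
      _ = jac B₁ ^ 8 := h2
      _ = (jac B₁ ^ 2) ^ 4 := by ring
  exact (pow_left_inj₀ (by positivity) (by positivity) four_ne_zero).1 h5

end alg

variable {n N : ℕ} {κ : ℝ} {S : Set (Euc N)} {G : Geo n N κ S}

/-- transformations of the tangent bundle (without zero section) preserving `om` and the norm -/
structure Symp (G : Geo n N κ S) (Ψ : Euc N × Euc N → Euc N × Euc N) : Prop where
  diff : ∀ q ∈ TS0 G, DifferentiableAt ℝ Ψ q
  mem : ∀ q ∈ TS0 G, Ψ q ∈ TS G
  norm : ∀ q ∈ TS0 G, ‖(Ψ q).2‖ = ‖q.2‖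
  inj : InjOn Ψ (TS0 G)
  om : ∀ q ∈ TS0 G, ∀ ξ η, TanTS G q ξ → TanTS G q η →
    om (fderiv ℝ Ψ q ξ) (fderiv ℝ Ψ q η) = om ξ η

section chart

variable {p0 : Euc N} {f : Euc n → Euc N} {V : Set (Euc n)}

lemma hasFDerivAt_Fc (hf : IsLocalParam n N S p0 f V) {z : Euc n × Euc n} (hz : z.1 ∈ V) :
    HasFDerivAt (Fc f) (fderiv ℝ (Fc f) z) z := by
  have hV : IsOpen (V ×ˢ (univ : Set (Euc n))) := hf.isOpen.prod isOpen_univ
  exact (((contDiffOn_Fc hf).contDiffAt (hV.mem_nhds ⟨hz, mem_univ _⟩)).differentiableAt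
    (by simp)).hasFDerivAt

lemma fderiv_Fc_apply (hf : IsLocalParam n N S p0 f V) {z : Euc n × Euc n} (hz : z.1 ∈ V)
    (a b : Euc n) : fderiv ℝ (Fc f) z (a, b) =
      (fderiv ℝ f z.1 a, fderiv ℝ (fderiv ℝ f) z.1 a z.2 + fderiv ℝ f z.1 b) := by
  have hcd : ContDiffAt ℝ ∞ f z.1 := hf.contDiffOn.contDiffAt (hf.isOpen.mem_nhds hz)
  have h1 : HasFDerivAt f (fderiv ℝ f z.1) z.1 := (hcd.differentiableAt (by simp)).hasFDerivAt
  have h2 : HasFDerivAt (fderiv ℝ f) (fderiv ℝ (fderiv ℝ f) z.1) z.1 :=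
    ((hcd.fderiv_right (m := ∞) (by simp)).differentiableAt (by simp)).hasFDerivAt
  have h3 : HasFDerivAt (fun z : Euc n × Euc n => f z.1)
      ((fderiv ℝ f z.1).comp (ContinuousLinearMap.fst ℝ (Euc n) (Euc n))) z :=
    h1.comp z hasFDerivAt_fst
  have h4 : HasFDerivAt (fun z : Euc n × Euc n => fderiv ℝ f z.1)
      ((fderiv ℝ (fderiv ℝ f) z.1).comp (ContinuousLinearMap.fst ℝ (Euc n) (Euc n))) z :=
    h2.comp z hasFDerivAt_fst
  have h5 := h3.prodMk (h4.clm_apply (hasFDerivAt_snd (𝕜 := ℝ) (p := z)))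
  have h6 := (hasFDerivAt_Fc hf hz).unique h5
  rw [h6]
  simp [add_comm]

lemma Fc_mem (hT : ∀ p ∈ S, G.T p = D.Tan S p) (hf : IsLocalParam n N S p0 f V)
    (hfS : ∀ x ∈ V, f x ∈ S) {z : Euc n × Euc n} (hz : z.1 ∈ V) : Fc f z ∈ TS G := by
  refine ⟨hfS _ hz, ?_⟩
  have h1 := range_T G hT hf hz (hfS _ hz)
  have h2 : fderiv ℝ f z.1 z.2 ∈ (G.T (f z.1) : Set (Euc N)) := by
    rw [← h1]; exact ⟨_, rfl⟩
  exact h2

lemma tanTS_Fc (hT : ∀ p ∈ S, G.T p = D.Tan S p) (hf : IsLocalParam n N S p0 f V)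
    (hfS : ∀ x ∈ V, f x ∈ S) {z : Euc n × Euc n} (hz : z.1 ∈ V) (ξ : Euc n × Euc n) :
    TanTS G (Fc f z) (fderiv ℝ (Fc f) z ξ) := by
  have h0 : HasDerivAt (fun s : ℝ => z + s • ξ) ξ 0 := by
    simpa using ((hasDerivAt_id (0 : ℝ)).smul_const ξ).const_add z
  refine ⟨fun s => Fc f (z + s • ξ), by simp, ?_, ?_⟩
  · have h1 : HasFDerivAt (Fc f) (fderiv ℝ (Fc f) z) (z + (0 : ℝ) • ξ) := by
      simpa using hasFDerivAt_Fc hf hz
    exact h1.comp_hasDerivAt (0 : ℝ) h0
  · have h2 : Tendsto (fun s : ℝ => (z + s • ξ).1) (𝓝 0) (𝓝 z.1) := by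
      have h3 : Continuous (fun s : ℝ => (z + s • ξ).1) := by fun_prop
      simpa using h3.tendsto 0
    filter_upwards [h2.eventually (hf.isOpen.mem_nhds hz)] with s hs
    exact Fc_mem hT hf hfS hs

lemma injOn_Fc (hf : IsLocalParam n N S p0 f V) : InjOn (Fc f) (V ×ˢ univ) := by
  rintro ⟨x, y⟩ ⟨hx, -⟩ ⟨x', y'⟩ ⟨hx', -⟩ h
  have h1 : f x = f x' := congrArg Prod.fst h
  have h2 := hf.injOn hx hx' h1
  subst h2
  have h3 : fderiv ℝ f x y = fderiv ℝ f x y' := congrArg Prod.snd h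
  rw [hf.injective_fderiv x hx h3]

lemma exists_Fc_eq (hT : ∀ p ∈ S, G.T p = D.Tan S p) (hf : IsLocalParam n N S p0 f V)
    (hfS : ∀ x ∈ V, f x ∈ S) {q : Euc N × Euc N} (hq : q ∈ TS G) (h : q.1 ∈ f '' V) :
    ∃ z ∈ V ×ˢ (univ : Set (Euc n)), Fc f z = q := by
  obtain ⟨x, hx, hxq⟩ := h
  have h1 := range_T G hT hf hx (hfS _ hx)
  have h2 : q.2 ∈ (G.T (f x) : Set (Euc N)) := by rw [hxq]; exact hq.2
  rw [← h1] at h2
  obtain ⟨y, hy⟩ := h2
  exact ⟨(x, y), ⟨hx, mem_univ _⟩, Prod.ext hxq hy⟩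

/-- the local inverse of `Fc` -/
def Lc (ℓ : Euc N → Euc n) (q : Euc N × Euc N) : Euc n × Euc n := (ℓ q.1, fderiv ℝ ℓ q.1 q.2)

lemma Fc_Lc (hf : IsLocalParam n N S p0 f V) {O : Set (Euc N)} {ℓ : Euc N → Euc n}
    (hO : IsOpen O) (hℓ : ContDiffOn ℝ ∞ ℓ O) (hℓV : ∀ q ∈ O, ℓ q ∈ V)
    (hℓS : ∀ q ∈ O, q ∈ S → f (ℓ q) = q) {q : Euc N × Euc N} (hq : q ∈ TS G) (hqO : q.1 ∈ O) :
    Fc f (Lc ℓ q) = q := by
  have h0 := hℓS _ hqO hq.1
  refine Prod.ext h0 ?_
  change fderiv ℝ f (ℓ q.1) (fderiv ℝ ℓ q.1 q.2) = q.2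
  obtain ⟨c, hc0, hc, hcS⟩ := exists_curve G hq.1 hq.2
  have h1 : HasFDerivAt ℓ (fderiv ℝ ℓ q.1) (c 0) := by
    rw [hc0]
    exact ((hℓ.contDiffAt (hO.mem_nhds hqO)).differentiableAt (by simp)).hasFDerivAt
  have h2 : HasDerivAt (fun t => ℓ (c t)) (fderiv ℝ ℓ q.1 q.2) 0 := h1.comp_hasDerivAt 0 hc
  have h3 : HasFDerivAt f (fderiv ℝ f (ℓ q.1)) (ℓ (c 0)) := by
    rw [hc0]
    exact ((hf.contDiffOn.contDiffAt (hf.isOpen.mem_nhds (hℓV _ hqO))).differentiableAt
      (by simp)).hasFDerivAt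
  have h4 : HasDerivAt (fun t => f (ℓ (c t))) (fderiv ℝ f (ℓ q.1) (fderiv ℝ ℓ q.1 q.2)) 0 :=
    h3.comp_hasDerivAt 0 h2
  have h5 : c =ᶠ[𝓝 0] fun t => f (ℓ (c t)) := by
    have h6 : Tendsto c (𝓝 0) (𝓝 q.1) := by rw [← hc0]; exact hc.continuousAt
    filter_upwards [hcS, h6.eventually (hO.mem_nhds hqO)] with t h1 h2
    exact (hℓS _ h2 h1).symm
  exact (h4.congr_of_eventuallyEq h5).unique hc

lemma differentiableAt_Lc {O : Set (Euc N)} {ℓ : Euc N → Euc n}
    (hO : IsOpen O) (hℓ : ContDiffOn ℝ ∞ ℓ O) {q : Euc N × Euc N} (hqO : q.1 ∈ O) :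
    DifferentiableAt ℝ (Lc ℓ) q := by
  have hcd : ContDiffAt ℝ ∞ ℓ q.1 := hℓ.contDiffAt (hO.mem_nhds hqO)
  have h1 : DifferentiableAt ℝ ℓ q.1 := hcd.differentiableAt (by simp)
  have h2 : DifferentiableAt ℝ (fderiv ℝ ℓ) q.1 :=
    (hcd.fderiv_right (m := ∞) (by simp)).differentiableAt (by simp)
  have h3 : DifferentiableAt ℝ (fun q : Euc N × Euc N => ℓ q.1) q :=
    DifferentiableAt.comp q h1 differentiableAt_fst
  have h4 : DifferentiableAt ℝ (fun q : Euc N × Euc N => fderiv ℝ ℓ q.1) q :=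
    DifferentiableAt.comp q h2 differentiableAt_fst
  exact h3.prodMk (h4.clm_apply differentiableAt_snd)

end chart

/-- **local invariance of the Gaussian Liouville measure** -/
theorem Symp.local_image (hS : IsSubmanifold n N S) (hT : ∀ p ∈ S, G.T p = D.Tan S p)
    (hfS : ∀ (p : Euc N) (f : Euc n → Euc N) (V : Set (Euc n)), IsLocalParam n N S p f V →
      ∀ x ∈ V, f x ∈ S)
    {Ψ : Euc N × Euc N → Euc N × Euc N} (h : Symp G Ψ) {q₀ : Euc N × Euc N} (hq₀ : q₀ ∈ TS0 G) :
    ∃ O : Set (Euc N × Euc N), IsOpen O ∧ q₀ ∈ O ∧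
      ∀ A ⊆ O ∩ TS0 G, MeasurableSet A → Lg G (Ψ '' A) = Lg G A := by
  obtain ⟨f₁, V₁, hf₁⟩ := hS q₀.1 hq₀.1.1
  obtain ⟨f₂, V₂, hf₂⟩ := hS (Ψ q₀).1 (h.mem _ hq₀).1
  obtain ⟨U₁, hU₁, hUS₁⟩ := hf₁.image_open V₁ le_rfl hf₁.isOpen
  obtain ⟨O₂, ℓ, hO₂, h0O₂, hℓ, hℓV, -, hℓS⟩ := D.exists_coord hf₂ hf₂.zero_mem
  rw [hf₂.map_zero] at h0O₂
  have hfS₁ := hfS _ _ _ hf₁
  have hfS₂ := hfS _ _ _ hf₂
  have hq₀U : q₀.1 ∈ U₁ := by
    have h1 : q₀.1 ∈ f₁ '' V₁ := ⟨0, hf₁.zero_mem, hf₁.map_zero⟩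
    rw [hUS₁] at h1
    exact h1.2
  -- the open set
  have hc : ContinuousAt (fun q => (Ψ q).1) q₀ :=
    continuous_fst.continuousAt.comp (h.diff _ hq₀).continuousAt
  obtain ⟨O, hOsub, hO, hq₀O⟩ : ∃ O ⊆ {q : Euc N × Euc N | (Ψ q).1 ∈ O₂}, IsOpen O ∧ q₀ ∈ O := by
    have h1 : {q : Euc N × Euc N | (Ψ q).1 ∈ O₂} ∈ 𝓝 q₀ := hc (hO₂.mem_nhds h0O₂)
    obtain ⟨O, h2, h3, h4⟩ := mem_nhds_iff.1 h1
    exact ⟨O, h2, h3, h4⟩
  refine ⟨O ∩ {q | q.1 ∈ U₁}, hO.inter (hU₁.preimage continuous_fst), ⟨hq₀O, hq₀U⟩, ?_⟩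
  intro A hA hAm
  have hA0 : ∀ q ∈ A, q ∈ TS0 G := fun q hq => (hA hq).2
  have hAV : ∀ q ∈ A, q.1 ∈ f₁ '' V₁ := fun q hq => by
    rw [hUS₁]; exact ⟨(hA hq).2.1.1, (hA hq).1.2⟩
  have hAO : ∀ q ∈ A, (Ψ q).1 ∈ O₂ := fun q hq => hOsub (hA hq).1.1
  have hΨm : MeasurableSet (Ψ '' A) :=
    hAm.image_of_continuousOn_injOn
      (fun q hq => (h.diff q (hA0 q hq)).continuousAt.continuousWithinAt)
      (h.inj.mono hA0)
  -- both sides in charts
  rw [Lg_chart G hT hf₁ hfS₁ hAm (fun q hq _ => hAV q hq),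
    Lg_chart G hT hf₂ hfS₂ hΨm (by
      rintro _ ⟨q, hq, rfl⟩ _
      exact ⟨ℓ (Ψ q).1, hℓV _ (hAO q hq), hℓS _ (hAO q hq) (h.mem q (hA0 q hq)).1⟩)]
  set A₁ : Set (Euc n × Euc n) := Fc f₁ ⁻¹' A ∩ V₁ ×ˢ univ with hA₁
  set A₂ : Set (Euc n × Euc n) := Fc f₂ ⁻¹' (Ψ '' A) ∩ V₂ ×ˢ univ with hA₂
  have hA₁m : MeasurableSet A₁ := measurableSet_preimage_Fc hf₁ hAm
  set Φ : Euc n × Euc n → Euc n × Euc n := fun z => Lc ℓ (Ψ (Fc f₁ z)) with hΦ
  have hFΦ : ∀ z ∈ A₁, Fc f₂ (Φ z) = Ψ (Fc f₁ z) := fun z hz =>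
    Fc_Lc (G := G) hf₂ hO₂ hℓ hℓV hℓS (h.mem _ (hA0 _ hz.1)) (hAO _ hz.1)
  have hΦV : ∀ z ∈ A₁, Φ z ∈ V₂ ×ˢ (univ : Set (Euc n)) := fun z hz =>
    ⟨hℓV _ (hAO _ hz.1), mem_univ _⟩
  have himg : Φ '' A₁ = A₂ := by
    apply Subset.antisymm
    · rintro _ ⟨z, hz, rfl⟩
      exact ⟨by rw [mem_preimage, hFΦ z hz]; exact ⟨_, hz.1, rfl⟩, hΦV z hz⟩
    · rintro w ⟨⟨q, hq, hqw⟩, hw⟩
      obtain ⟨z, hz, hzq⟩ := exists_Fc_eq (G := G) hT hf₁ hfS₁ (hA0 q hq).1 (hAV q hq)
      have hzA : z ∈ A₁ := ⟨by rw [mem_preimage, hzq]; exact hq, hz⟩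
      refine ⟨z, hzA, ?_⟩
      apply injOn_Fc hf₂ (hΦV z hzA) hw
      rw [hFΦ z hzA, hzq, hqw]
  have hΦinj : InjOn Φ A₁ := by
    intro z hz z' hz' hzz
    have h1 : Ψ (Fc f₁ z) = Ψ (Fc f₁ z') := by rw [← hFΦ z hz, ← hFΦ z' hz', hzz]
    exact injOn_Fc hf₁ hz.2 hz'.2 (h.inj (hA0 _ hz.1) (hA0 _ hz'.1) h1)
  have hΦd : ∀ z ∈ A₁, DifferentiableAt ℝ Φ z := by
    intro z hz
    have h1 : DifferentiableAt ℝ (Fc f₁) z := (hasFDerivAt_Fc hf₁ hz.2.1).differentiableAt
    have h2 : DifferentiableAt ℝ Ψ (Fc f₁ z) := h.diff _ (hA0 _ hz.1)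
    have h3 : DifferentiableAt ℝ (Lc ℓ) (Ψ (Fc f₁ z)) := differentiableAt_Lc hO₂ hℓ (hAO _ hz.1)
    exact DifferentiableAt.comp z h3 (DifferentiableAt.comp z h2 h1)
  have key : ∀ z ∈ A₁, |(fderiv ℝ Φ z).det| * jac (fderiv ℝ f₂ (Φ z).1) ^ 2 =
      jac (fderiv ℝ f₁ z.1) ^ 2 := by
    intro z hz
    have hz1 : z.1 ∈ V₁ := hz.2.1
    have hw1 : (Φ z).1 ∈ V₂ := (hΦV z hz).1
    -- eventually `Fc f₂ ∘ Φ = Ψ ∘ Fc f₁`
    have hcz : ContinuousAt (Fc f₁) z := (hasFDerivAt_Fc hf₁ hz1).continuousAt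
    have hcΨ : ContinuousAt (fun z => Ψ (Fc f₁ z)) z :=
      ContinuousAt.comp (g := Ψ) (h.diff _ (hA0 _ hz.1)).continuousAt hcz
    have hev : (fun z => Fc f₂ (Φ z)) =ᶠ[𝓝 z] fun z => Ψ (Fc f₁ z) := by
      have e1 : ∀ᶠ z' in 𝓝 z, z'.1 ∈ V₁ :=
        continuous_fst.continuousAt.eventually (hf₁.isOpen.mem_nhds hz1)
      have e2 : ∀ᶠ z' in 𝓝 z, (Fc f₁ z').2 ≠ 0 :=
        (continuous_snd.continuousAt.comp hcz).eventually_ne (hA0 _ hz.1).2
      have e3 : ∀ᶠ z' in 𝓝 z, (Ψ (Fc f₁ z')).1 ∈ O₂ :=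
        (continuous_fst.continuousAt.comp hcΨ).eventually (hO₂.mem_nhds (hAO _ hz.1))
      filter_upwards [e1, e2, e3] with z' h1 h2 h3
      have h4 : Fc f₁ z' ∈ TS0 G := ⟨Fc_mem hT hf₁ hfS₁ h1, h2⟩
      exact Fc_Lc (G := G) hf₂ hO₂ hℓ hℓV hℓS (h.mem _ h4) h3
    have hd1 : HasFDerivAt (fun z => Fc f₂ (Φ z))
        ((fderiv ℝ (Fc f₂) (Φ z)).comp (fderiv ℝ Φ z)) z :=
      (hasFDerivAt_Fc hf₂ hw1).comp z (hΦd z hz).hasFDerivAt
    have hd2 : HasFDerivAt (fun z => Ψ (Fc f₁ z))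
        ((fderiv ℝ Ψ (Fc f₁ z)).comp (fderiv ℝ (Fc f₁) z)) z :=
      (h.diff _ (hA0 _ hz.1)).hasFDerivAt.comp z (hasFDerivAt_Fc hf₁ hz1)
    have hd3 := (hd1.congr_of_eventuallyEq hev.symm).unique hd2
    refine abs_det_mul (L₁ := fderiv ℝ (Fc f₁) z) (L₂ := fderiv ℝ (Fc f₂) (Φ z))
      (C₁ := (fderiv ℝ (fderiv ℝ f₁) z.1).flip z.2)
      (C₂ := (fderiv ℝ (fderiv ℝ f₂) (Φ z).1).flip (Φ z).2) ?_ ?_ ?_ ?_ ?_
    · intro b; rw [fderiv_Fc_apply hf₁ hz1]; simp
    · intro a; rw [fderiv_Fc_apply hf₁ hz1]; simp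
    · intro b; rw [fderiv_Fc_apply hf₂ hw1]; simp
    · intro a; rw [fderiv_Fc_apply hf₂ hw1]; simp
    · intro ξ η
      have e1 : ∀ ξ, fderiv ℝ (Fc f₂) (Φ z) (fderiv ℝ Φ z ξ) =
          fderiv ℝ Ψ (Fc f₁ z) (fderiv ℝ (Fc f₁) z ξ) := fun ξ =>
        congrArg (fun L => L ξ) hd3
      rw [e1, e1]
      exact h.om _ (hA0 _ hz.1) _ _ (tanTS_Fc hT hf₁ hfS₁ hz1 ξ) (tanTS_Fc hT hf₁ hfS₁ hz1 η)
  have hHaar : IsAddHaarMeasure (volume : Measure (Euc n × Euc n)) :=
    prod.instIsAddHaarMeasure volume volume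
  rw [← himg, lintegral_image_eq_lintegral_abs_det_fderiv_mul volume hA₁m
    (fun z hz => (hΦd z hz).hasFDerivAt.hasFDerivWithinAt) hΦinj]
  refine setLIntegral_congr_fun hA₁m fun z hz => ?_
  have h1 : fderiv ℝ f₂ (Φ z).1 (Φ z).2 = (Ψ (Fc f₁ z)).2 := congrArg Prod.snd (hFΦ z hz)
  have h2 : ‖(Ψ (Fc f₁ z)).2‖ = ‖fderiv ℝ f₁ z.1 z.2‖ := h.norm _ (hA0 _ hz.1)
  simp only [rho]
  rw [h1, ← mul_assoc, ← ENNReal.ofReal_mul (abs_nonneg _), key z hz]
  congr 1
  unfold gd
  rw [h2]

end Crest.Agent.R208.L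
end
end

-- ▼ part R208/L5
section

/-!
R208, block G4b, part 5 (helper971): the geodesic flow and the unit speed geodesic flow preserve the
Gaussian Liouville measure.
-/

set_option autoImplicit false
set_option linter.unusedSectionVars false

open MeasureTheory Measure Set Filter Topology Module
open scoped ContDiff RealInnerProductSpace ENNReal
open Crest.GeometryTopology.Submanifold
open Crest.Agent.R241.DDefs
open Crest.Agent.R241.D2
open Crest.Agent.R241
open Crest.Agent.R241.AF (jac jac_nonneg jac_sq_gram finrank_Euc)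

noncomputable section

namespace Crest.Agent.R208.L

variable {n N : ℕ} {κ : ℝ} {S : Set (Euc N)} {G : Geo n N κ S}

lemma measurableSet_TS (G : Geo n N κ S) : MeasurableSet (TS G) := (isClosed_TS G).measurableSet

lemma TS0_eq (G : Geo n N κ S) : TS0 G = TS G ∩ {q | q.2 ≠ 0} := rfl

lemma measurableSet_TS0 (G : Geo n N κ S) : MeasurableSet (TS0 G) := by
  rw [TS0_eq]
  refine (measurableSet_TS G).inter ?_
  exact (isOpen_ne.preimage continuous_snd).measurableSet

/-- **invariance of the Gaussian Liouville measure** (images of sets) -/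
theorem Symp.Lg_image (hS : IsSubmanifold n N S) {Ψ : Euc N × Euc N → Euc N × Euc N}
    (h : Symp G Ψ) {A : Set (Euc N × Euc N)} (hAm : MeasurableSet A) (hA : A ⊆ TS0 G) :
    Lg G (Ψ '' A) = Lg G A := by
  classical
  rcases (TS0 G).eq_empty_or_nonempty with h0 | h0
  · rw [h0, subset_empty_iff] at hA
    rw [hA, image_empty]
  have hloc : ∀ q ∈ TS0 G, ∃ O : Set (Euc N × Euc N), IsOpen O ∧ q ∈ O ∧
      ∀ A ⊆ O ∩ TS0 G, MeasurableSet A → Lg G (Ψ '' A) = Lg G A := fun q hq =>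
    h.local_image hS (fun p hp => T_eq_Tan G hp) (fun p f V hf x hx => D.mem_S hf hx) hq
  choose! O hO hqO hOA using hloc
  obtain ⟨t, hts, htc, ht⟩ := TopologicalSpace.countable_cover_nhdsWithin (s := TS0 G) (f := O)
    (fun q hq => mem_nhdsWithin_of_mem_nhds ((hO q hq).mem_nhds (hqO q hq)))
  have htne : t.Nonempty := by
    obtain ⟨q, hq⟩ := h0
    obtain ⟨x, hx, -⟩ := mem_iUnion₂.1 (ht hq)
    exact ⟨x, hx⟩
  obtain ⟨e, he⟩ := htc.exists_eq_range htne
  have hmem : ∀ i, e i ∈ TS0 G := fun i => hts (by rw [he]; exact ⟨i, rfl⟩)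
  set B : ℕ → Set (Euc N × Euc N) := fun i => O (e i) with hB
  have hcov : TS0 G ⊆ ⋃ i, B i := by
    intro q hq
    obtain ⟨x, hx, hqx⟩ := mem_iUnion₂.1 (ht hq)
    rw [he] at hx
    obtain ⟨i, rfl⟩ := hx
    exact mem_iUnion.2 ⟨i, hqx⟩
  have hBm : ∀ i, MeasurableSet (B i) := fun i => (hO _ (hmem i)).measurableSet
  have hDm : ∀ i, MeasurableSet (disjointed B i) := fun i => MeasurableSet.disjointed hBm i
  have hAeq : A = ⋃ i, A ∩ disjointed B i := by
    rw [← inter_iUnion, iUnion_disjointed]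
    exact (inter_eq_left.2 (hA.trans hcov)).symm
  have hdis : Pairwise (Function.onFun Disjoint fun i => A ∩ disjointed B i) :=
    pairwise_disjoint_mono (disjoint_disjointed B) fun i => inter_subset_right
  have hcont : ContinuousOn Ψ (TS0 G) := fun q hq =>
    (h.diff q hq).continuousAt.continuousWithinAt
  have h1 : ∀ i, Lg G (Ψ '' (A ∩ disjointed B i)) = Lg G (A ∩ disjointed B i) := fun i =>
    hOA (e i) (hmem i) _ (fun q hq => ⟨disjointed_subset B i hq.2, hA hq.1⟩) (hAm.inter (hDm i))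
  conv_lhs => rw [hAeq, image_iUnion]
  conv_rhs => rw [hAeq]
  rw [measure_iUnion, measure_iUnion hdis fun i => hAm.inter (hDm i)]
  · exact tsum_congr h1
  · intro i j hij
    exact Disjoint.image (hdis hij) h.inj (fun q hq => hA hq.1) (fun q hq => hA hq.1)
  · intro i
    exact (hAm.inter (hDm i)).image_of_continuousOn_injOn
      (hcont.mono fun q hq => hA hq.1) (h.inj.mono fun q hq => hA hq.1)

/-- **invariance of the Gaussian Liouville measure** -/
theorem Symp.map_Lg (hS : IsSubmanifold n N S) {Ψ : Euc N × Euc N → Euc N × Euc N}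
    (h : Symp G Ψ) (hm : Measurable Ψ) (himg : Ψ '' (TS0 G) = TS0 G) :
    Measure.map Ψ ((Lg G).restrict (TS0 G)) = (Lg G).restrict (TS0 G) := by
  ext A hA
  rw [map_apply hm hA, restrict_apply (hm hA), restrict_apply hA]
  have h1 := h.Lg_image hS ((hm hA).inter (measurableSet_TS0 G)) inter_subset_right
  rw [← h1, image_preimage_inter, himg]

/-! ### the flows -/

lemma measurable_fl (G : Geo n N κ S) : Measurable (fl G) := by
  classical
  have h1 : fl G = (fd G).piecewise (fl G) Prod.fst := by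
    ext1 q
    by_cases hq : q ∈ fd G
    · rw [piecewise_eq_of_mem _ _ _ hq]
    · rw [piecewise_eq_of_notMem _ _ _ hq]
      exact dif_neg hq
  rw [h1]
  exact ContinuousOn.measurable_piecewise (contDiffOn_fl G).continuousOn
    continuous_fst.continuousOn (isOpen_fd G).measurableSet

lemma measurable_fl_left (G : Geo n N κ S) (t : ℝ) : Measurable (fun q => fl G (q, t)) :=
  (measurable_fl G).comp (measurable_id.prodMk measurable_const)

lemma measurable_ufl (G : Geo n N κ S) (t : ℝ) : Measurable (ufl G t) := by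
  unfold ufl
  refine (measurable_fl G).comp (measurable_id.prodMk ?_)
  exact measurable_const.div measurable_snd.norm


/-- the unit speed geodesic flow -/
theorem symp_ufl (G : Geo n N κ S) (t : ℝ) : Symp G (ufl G t) where
  diff q hq := by
    obtain ⟨a, ha, -⟩ := hasFDerivAt_ufl hq t
    exact ha.differentiableAt
  mem q hq := ufl_mem hq.1 t
  norm q hq := norm_ufl hq.1 t
  inj := by
    intro q hq q' hq' h
    have h1 := ufl_add hq.1 t (-t)
    have h2 := ufl_add hq'.1 t (-t)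
    rw [add_neg_cancel, ufl_zero] at h1 h2
    rw [← h1, ← h2, h]
  om q hq ξ η hξ hη := om_dufl hq hξ hη t



lemma image_ufl (G : Geo n N κ S) (t : ℝ) : ufl G t '' (TS0 G) = TS0 G := by
  apply Subset.antisymm
  · rintro _ ⟨q, hq, rfl⟩
    exact ufl_mem0 hq t
  · intro q hq
    refine ⟨ufl G (-t) q, ufl_mem0 hq (-t), ?_⟩
    have h1 := ufl_add hq.1 (-t) t
    rw [neg_add_cancel, ufl_zero] at h1
    exact h1


/-- **the unit speed geodesic flow preserves the Gaussian Liouville measure** -/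
theorem map_ufl_Lg (hS : IsSubmanifold n N S) (G : Geo n N κ S) (t : ℝ) :
    Measure.map (ufl G t) ((Lg G).restrict (TS0 G)) = (Lg G).restrict (TS0 G) :=
  (symp_ufl G t).map_Lg hS (measurable_ufl G t) (image_ufl G t)

/-! ### the complement of the set of non-zero tangent vectors is a null set -/

lemma gam_ac (V : Type*) [NormedAddCommGroup V] [InnerProductSpace ℝ V] [FiniteDimensional ℝ V]
    [MeasurableSpace V] [BorelSpace V] : gam V ≪ (volume : Measure V) :=
  withDensity_absolutelyContinuous _ _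

lemma gam_P_zero (hn : 1 ≤ n) (G : Geo n N κ S) {p : Euc N} (hp : p ∈ S) :
    gam (Euc N) {z | G.P p z = 0} = 0 := by
  apply gam_ac
  have h1 : {z | G.P p z = 0} = (LinearMap.ker (G.P p).toLinearMap : Set (Euc N)) := by
    ext z; rfl
  rw [h1]
  apply Measure.addHaar_submodule
  intro h2
  have h3 : G.T p = ⊥ := by
    rw [eq_bot_iff]
    intro v hv
    have h4 : v ∈ LinearMap.ker (G.P p).toLinearMap := by rw [h2]; trivial
    have h5 : G.P p v = 0 := h4
    rw [(P_eq_self G hp).1 hv] at h5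
    exact h5
  have h4 := G.finrank_T p hp
  rw [h3, finrank_bot] at h4
  omega

theorem Lg_compl_TS0 (hn : 1 ≤ n) (G : Geo n N κ S) : Lg G (TS0 G)ᶜ = 0 := by
  rw [Lg_apply G (measurableSet_TS0 G).compl,
    setLIntegral_congr_fun (g := fun _ => 0) G.isClosed.measurableSet]
  · simp
  · intro p hp
    have h1 : {z | (p, G.P p z) ∈ (TS0 G)ᶜ} = {z | G.P p z = 0} := by
      ext z
      simp only [mem_compl_iff, TS0, mem_ofPred_eq, not_and, not_not]
      exact ⟨fun h => h ⟨hp, P_mem G hp⟩, fun h _ => h⟩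
    simp only [h1]
    exact gam_P_zero hn G hp

theorem Lg_restrict_TS0 (hn : 1 ≤ n) (G : Geo n N κ S) : (Lg G).restrict (TS0 G) = Lg G :=
  Measure.restrict_eq_self_of_ae_mem (by
    rw [ae_iff]
    exact Lg_compl_TS0 hn G)

end Crest.Agent.R208.L
end
end

-- ▼ part R208/L6

/-!
R208, block G4b, part 6 (helper971): polar coordinates, the Liouville measure `nu` on the unit tangent
bundle, its disintegration and its invariance under the geodesic flow.
-/

set_option autoImplicit false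
set_option linter.unusedSectionVars false

open MeasureTheory Measure Set Filter Topology Module Metric
open scoped ContDiff RealInnerProductSpace ENNReal
open Crest.GeometryTopology.Submanifold
open Crest.Agent.R241.DDefs
open Crest.Agent.R241.D2
open Crest.Agent.R241
open Crest.Agent.R241.AF (jac jac_nonneg jac_sq_gram finrank_Euc)

noncomputable section

namespace Crest.Agent.R208.L

section polar

variable {V : Type*} [NormedAddCommGroup V] [InnerProductSpace ℝ V] [FiniteDimensional ℝ V]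
  [MeasurableSpace V] [BorelSpace V]

/-- **polar coordinates** -/
theorem lintegral_polar {F : V → ℝ≥0∞} (hF : Measurable F) (hV : Nontrivial V) :
    ∫⁻ v, F v = ∫⁻ u, ∫⁻ r in Ioi (0 : ℝ), ENNReal.ofReal (r ^ (finrank ℝ V - 1)) *
      F (r • (u : V)) ∂volume ∂(volume : Measure V).toSphere := by
  have hm : Measurable fun x : sphere (0 : V) 1 × Ioi (0 : ℝ) => F (x.2.1 • x.1.1) := by
    refine hF.comp ?_
    exact (measurable_subtype_coe.comp measurable_snd).smul
      (measurable_subtype_coe.comp measurable_fst)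
  calc ∫⁻ v, F v = ∫⁻ v in ({0}ᶜ : Set V), F v := by rw [restrict_compl_singleton]
    _ = ∫⁻ v : ({0}ᶜ : Set V), F v ∂(Measure.comap (↑) (volume : Measure V)) :=
      (lintegral_subtype_comap (measurableSet_singleton _).compl F).symm
    _ = ∫⁻ v : ({0}ᶜ : Set V), (fun x : sphere (0 : V) 1 × Ioi (0 : ℝ) => F (x.2.1 • x.1.1))
          (homeomorphUnitSphereProd V v) ∂(Measure.comap (↑) (volume : Measure V)) := by
      refine lintegral_congr fun v => ?_
      have h1 : (((homeomorphUnitSphereProd V).symm (homeomorphUnitSphereProd V v) :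
          ({0}ᶜ : Set V)) : V) = v := by rw [Homeomorph.symm_apply_apply]
      have h2 : ∀ x : sphere (0 : V) 1 × Ioi (0 : ℝ),
          (((homeomorphUnitSphereProd V).symm x : ({0}ᶜ : Set V)) : V) = x.2.1 • x.1.1 :=
        fun x => by simp
      simp only
      rw [← h2, h1]
    _ = ∫⁻ x, F (x.2.1 • x.1.1) ∂((volume : Measure V).toSphere.prod
          (volumeIoiPow (finrank ℝ V - 1))) :=
      (volume : Measure V).measurePreserving_homeomorphUnitSphereProd.lintegral_comp hm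
    _ = ∫⁻ u, ∫⁻ r : Ioi (0 : ℝ), F (r.1 • (u : V)) ∂(volumeIoiPow (finrank ℝ V - 1))
          ∂(volume : Measure V).toSphere := lintegral_prod _ hm.aemeasurable
    _ = _ := by
      refine lintegral_congr fun u => ?_
      have hu : Measurable fun r : Ioi (0 : ℝ) => F (r.1 • (u : V)) :=
        hF.comp (measurable_subtype_coe.smul_const _)
      have hp : Measurable fun r : Ioi (0 : ℝ) => ENNReal.ofReal (r.1 ^ (finrank ℝ V - 1)) :=
        ENNReal.measurable_ofReal.comp (measurable_subtype_coe.pow_const _)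
      rw [volumeIoiPow, lintegral_withDensity_eq_lintegral_mul _ hp hu]
      exact lintegral_subtype_comap measurableSet_Ioi
        (fun r : ℝ => ENNReal.ofReal (r ^ (finrank ℝ V - 1)) * F (r • (u : V)))

/-- normalisation of vectors -/
def nrm (v : V) : V := ‖v‖⁻¹ • v

lemma measurable_nrm : Measurable (nrm : V → V) := by
  unfold nrm
  exact measurable_norm.inv.smul measurable_id

lemma nrm_smul {r : ℝ} (hr : 0 < r) {u : V} (hu : ‖u‖ = 1) : nrm (r • u) = u := by
  unfold nrm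
  rw [norm_smul, hu, mul_one, Real.norm_of_nonneg hr.le, smul_smul, inv_mul_cancel₀ hr.ne', one_smul]

lemma norm_nrm {v : V} (hv : v ≠ 0) : ‖nrm v‖ = 1 := by
  unfold nrm
  rw [norm_smul, norm_inv, norm_norm, inv_mul_cancel₀ (norm_ne_zero_iff.2 hv)]

/-- directions of a Gaussian vector are uniformly distributed on the sphere -/
theorem map_nrm_gam (hV : Nontrivial V) :
    (volume : Measure V).toSphere univ • Measure.map nrm (gam V) =
      Measure.map (↑) (volume : Measure V).toSphere := by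
  set K : ℝ≥0∞ := ∫⁻ r in Ioi (0 : ℝ), ENNReal.ofReal (r ^ (finrank ℝ V - 1)) *
    ENNReal.ofReal (Real.exp (-Real.pi * r ^ 2)) with hK
  have h1 : ∀ B : Set V, MeasurableSet B →
      Measure.map nrm (gam V) B = Measure.map (↑) (volume : Measure V).toSphere B * K := by
    intro B hB
    have hBi : Measurable (B.indicator 1 : V → ℝ≥0∞) := measurable_one.indicator hB
    have hBu : Measurable fun u : sphere (0 : V) 1 => (B.indicator 1 (u : V) : ℝ≥0∞) :=
      hBi.comp measurable_subtype_coe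
    have hm : Measurable fun v : V => gd v * (B.indicator 1 (nrm v) : ℝ≥0∞) :=
      (measurable_gd V).mul (hBi.comp measurable_nrm)
    have e1 : Measure.map nrm (gam V) B =
        ∫⁻ v : V, gd v * (B.indicator 1 (nrm v) : ℝ≥0∞) := by
      rw [← lintegral_indicator_one hB, lintegral_map hBi measurable_nrm]
      exact lintegral_withDensity_eq_lintegral_mul _ (measurable_gd V) (hBi.comp measurable_nrm)
    have e2 : Measure.map (↑) (volume : Measure V).toSphere B =
        ∫⁻ u : sphere (0 : V) 1, (B.indicator 1 (u : V) : ℝ≥0∞)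
          ∂(volume : Measure V).toSphere := by
      rw [← lintegral_indicator_one hB, lintegral_map hBi measurable_subtype_coe]
    have e3 : (∫⁻ u : sphere (0 : V) 1, (B.indicator 1 (u : V) : ℝ≥0∞) * K
          ∂(volume : Measure V).toSphere) = (∫⁻ u : sphere (0 : V) 1,
          (B.indicator 1 (u : V) : ℝ≥0∞) ∂(volume : Measure V).toSphere) * K :=
      lintegral_mul_const K hBu
    rw [e1, e2, lintegral_polar hm hV, ← e3]
    refine lintegral_congr fun u => ?_
    have hu : ‖(u : V)‖ = 1 := mem_sphere_zero_iff_norm.1 u.2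
    rw [hK, ← lintegral_const_mul' _ _ (by
      by_cases h : (u : V) ∈ B
      · rw [indicator_of_mem h]; exact ENNReal.one_ne_top
      · rw [indicator_of_notMem h]; exact ENNReal.zero_ne_top)]
    refine setLIntegral_congr_fun measurableSet_Ioi fun r hr => ?_
    have hr' : (0 : ℝ) < r := hr
    rw [nrm_smul hr' hu, gd, norm_smul, hu, mul_one, Real.norm_of_nonneg hr'.le]
    ring
  have h2 : (volume : Measure V).toSphere univ * K = 1 := by
    have h3 := h1 univ MeasurableSet.univ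
    rw [map_apply measurable_nrm MeasurableSet.univ, preimage_univ, measure_univ,
      map_apply measurable_subtype_coe MeasurableSet.univ, preimage_univ] at h3
    exact h3.symm
  ext B hB
  rw [Measure.smul_apply, smul_eq_mul, h1 B hB, mul_comm, mul_assoc, mul_comm K, h2, mul_one]

end polar

variable {n N : ℕ} {κ : ℝ} {S : Set (Euc N)} (G : Geo n N κ S)

/-- the area of the unit sphere of `ℝ^n` -/
def cst (n : ℕ) : ℝ≥0∞ := (volume : Measure (Euc n)).toSphere univ

lemma cst_ne_top (n : ℕ) : cst n ≠ ⊤ := measure_ne_top _ _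

lemma nontrivial_Euc (hn : 1 ≤ n) : Nontrivial (Euc n) := by
  have : Nonempty (Fin n) := ⟨⟨0, hn⟩⟩
  infer_instance

lemma cst_ne_zero (hn : 1 ≤ n) : cst n ≠ 0 := by
  have := nontrivial_Euc hn
  unfold cst
  rw [Ne, Measure.measure_univ_eq_zero]
  exact toSphere_ne_zero _

/-- the measure on the unit sphere of the tangent space `T_p` (total mass `cst n`), as a measure on
`ℝ^N` -/
def nuF (p : Euc N) : Measure (Euc N) :=
  cst n • Measure.map (fun z => nrm (G.P p z)) (gam (Euc N))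

/-- **the Liouville measure** on the unit tangent bundle, as a measure on `ℝ^N × ℝ^N` -/
def nu : Measure (Euc N × Euc N) :=
  cst n • Measure.map (fun z => (z.1, nrm (G.P z.1 z.2))) ((volS n N S).prod (gam (Euc N)))

/-- the unit tangent bundle -/
def US : Set (Euc N × Euc N) := {q | q ∈ TS G ∧ ‖q.2‖ = 1}

lemma isClosed_US : IsClosed (US G) :=
  (isClosed_TS G).inter (isClosed_eq continuous_snd.norm continuous_const)

lemma US_subset_TS0 : US G ⊆ TS0 G := fun q hq =>
  ⟨hq.1, fun h => by have := hq.2; rw [h, norm_zero] at this; exact zero_ne_one this⟩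

lemma measurable_nP : Measurable fun z : Euc N × Euc N => nrm (G.P z.1 z.2) :=
  measurable_nrm.comp (measurable_snd.comp (measurable_prj G))

lemma measurable_nP' (p : Euc N) : Measurable fun z : Euc N => nrm (G.P p z) :=
  measurable_nrm.comp (G.P p).continuous.measurable

instance (p : Euc N) : IsFiniteMeasure (nuF G p) := by
  unfold nuF
  have : IsFiniteMeasure (Measure.map (fun z => nrm (G.P p z)) (gam (Euc N))) :=
    isFiniteMeasure_map _ _
  exact Measure.smul_finite _ (cst_ne_top n)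

lemma nuF_univ (p : Euc N) : nuF G p univ = cst n := by
  unfold nuF
  rw [Measure.smul_apply, map_apply (measurable_nP' G p) MeasurableSet.univ, preimage_univ,
    measure_univ, smul_eq_mul, mul_one]

lemma lintegral_nuF (p : Euc N) {F : Euc N → ℝ≥0∞} (hF : Measurable F) :
    ∫⁻ u, F u ∂(nuF G p) = cst n * ∫⁻ z, F (nrm (G.P p z)) ∂(gam (Euc N)) := by
  unfold nuF
  rw [lintegral_smul_measure, lintegral_map hF (measurable_nP' G p), smul_eq_mul]

/-- **disintegration of the Liouville measure** -/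
theorem lintegral_nu {F : Euc N × Euc N → ℝ≥0∞} (hF : Measurable F) :
    ∫⁻ q, F q ∂(nu G) = ∫⁻ p in S, ∫⁻ u, F (p, u) ∂(nuF G p) ∂μHE[n] := by
  have h1 : ∀ p, ∫⁻ u, F (p, u) ∂(nuF G p) =
      cst n * ∫⁻ z, F (p, nrm (G.P p z)) ∂(gam (Euc N)) := fun p =>
    lintegral_nuF G p (hF.comp measurable_prodMk_left)
  simp only [h1]
  rw [lintegral_const_mul' _ _ (cst_ne_top n)]
  unfold nu
  rw [lintegral_smul_measure, lintegral_map hF (measurable_fst.prodMk (measurable_nP G)),
    smul_eq_mul]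
  congr 1
  exact lintegral_prod _ (hF.comp (measurable_fst.prodMk (measurable_nP G))).aemeasurable

/-- the Liouville measure through an isometric frame -/
theorem nuF_eq (hn : 1 ≤ n) {p : Euc N} (hp : p ∈ S) (A : Euc n →L[ℝ] Euc N)
    (hA : ∀ v w, ⟪A v, A w⟫ = ⟪v, w⟫) (hAT : range A = (G.T p : Set (Euc N))) :
    nuF G p = Measure.map (fun u : sphere (0 : Euc n) 1 => A u)
      (volume : Measure (Euc n)).toSphere := by
  have h1 := map_starProjection_gam (G.T p) A hAT A hA hAT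
  have hnA : ∀ y, ‖A y‖ = ‖y‖ := by
    intro y
    have h3 : ‖A y‖ ^ 2 = ‖y‖ ^ 2 := by
      rw [← real_inner_self_eq_norm_sq, ← real_inner_self_eq_norm_sq, hA]
    exact (sq_eq_sq₀ (norm_nonneg _) (norm_nonneg _)).1 h3
  have h4 : (volume : Measure (Euc n)).withDensity (fun y =>
        ENNReal.ofReal (jac A) * gd (A y)) = gam (Euc n) := by
    unfold gam
    congr 1
    funext y
    unfold gd
    rw [jac_isometry A hA, ENNReal.ofReal_one, one_mul, hnA]
  rw [h4, ← G.P_eq p hp] at h1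
  have h5 := map_nrm_gam (V := Euc n) (nontrivial_Euc hn)
  unfold nuF
  have h6 : Measure.map (fun z => nrm (G.P p z)) (gam (Euc N)) =
      Measure.map nrm (Measure.map (G.P p) (gam (Euc N))) :=
    (Measure.map_map measurable_nrm (G.P p).continuous.measurable).symm
  have h7 : Measure.map nrm (Measure.map A (gam (Euc n))) =
      Measure.map A (Measure.map nrm (gam (Euc n))) := by
    rw [Measure.map_map measurable_nrm A.continuous.measurable,
      Measure.map_map A.continuous.measurable measurable_nrm]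
    congr 1
    funext y
    simp only [Function.comp_apply, nrm, map_smul, hnA]
  rw [h6, h1, h7, ← Measure.map_smul]
  have h8 : cst n • Measure.map nrm (gam (Euc n)) = _ := h5
  rw [h8, Measure.map_map A.continuous.measurable measurable_subtype_coe]
  rfl

/-! ### relation with the Gaussian Liouville measure -/

/-- normalisation of tangent vectors -/
def dir (q : Euc N × Euc N) : Euc N × Euc N := (q.1, nrm q.2)

lemma measurable_dir : Measurable (dir : Euc N × Euc N → Euc N × Euc N) :=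
  measurable_fst.prodMk (measurable_nrm.comp measurable_snd)

lemma nu_eq : nu G = cst n • Measure.map dir (Lg G) := by
  unfold nu Lg
  rw [Measure.map_map measurable_dir (measurable_prj G)]
  rfl

variable {G}

lemma dir_mem {q : Euc N × Euc N} (hq : q ∈ TS0 G) : dir q ∈ US G :=
  ⟨⟨hq.1.1, (G.T q.1).smul_mem _ hq.1.2⟩, norm_nrm hq.2⟩

lemma fl_dir {q : Euc N × Euc N} (hq : q ∈ TS0 G) (t : ℝ) :
    fl G (dir q, t) = dir (ufl G t q) := by
  have hr : ‖q.2‖ ≠ 0 := norm_ne_zero_iff.2 hq.2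
  have h1 := fl_scale G (x := q.1) (v := nrm q.2) (dir_mem hq).1 ‖q.2‖ (t / ‖q.2‖)
  have h2 : ‖q.2‖ • nrm q.2 = q.2 := by
    unfold nrm
    rw [smul_smul, mul_inv_cancel₀ hr, one_smul]
  rw [h2, mul_div_cancel₀ t hr] at h1
  have h3 : ufl G t q = ((fl G (dir q, t)).1, ‖q.2‖ • (fl G (dir q, t)).2) := h1
  have h4 : ‖(fl G (dir q, t)).2‖ = 1 := by
    rw [norm_fl G (dir_mem hq).1 t]
    exact (dir_mem hq).2
  have h5 : dir (ufl G t q) =
      ((fl G (dir q, t)).1, nrm (‖q.2‖ • (fl G (dir q, t)).2)) := by rw [h3]; rfl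
  rw [h5, nrm_smul (lt_of_le_of_ne (norm_nonneg _) hr.symm) h4]

variable (G)

/-- `nu` is carried by the unit tangent bundle -/
theorem nu_compl_US (hn : 1 ≤ n) : nu G (US G)ᶜ = 0 := by
  rw [nu_eq, Measure.smul_apply, map_apply measurable_dir (isClosed_US G).measurableSet.compl]
  have h1 : Lg G (dir ⁻¹' (US G)ᶜ) = 0 := by
    refine measure_mono_null ?_ (Lg_compl_TS0 hn G)
    intro q hq hq'
    exact hq (dir_mem hq')
  rw [h1, smul_zero]

lemma ae_nu (hn : 1 ≤ n) : ∀ᵐ q ∂(nu G), q ∈ US G := by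
  rw [ae_iff]
  exact nu_compl_US G hn

/-- **the geodesic flow preserves the Liouville measure** -/
theorem map_fl_nu (hn : 1 ≤ n) (hS : IsSubmanifold n N S) (t : ℝ) :
    Measure.map (fun q => fl G (q, t)) (nu G) = nu G := by
  rw [nu_eq, Measure.map_smul, Measure.map_map (measurable_fl_left G t) measurable_dir,
    ← Lg_restrict_TS0 hn G]
  congr 1
  have h1 : Measure.map ((fun q => fl G (q, t)) ∘ dir) ((Lg G).restrict (TS0 G)) =
      Measure.map (dir ∘ ufl G t) ((Lg G).restrict (TS0 G)) := by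
    apply Measure.map_congr
    filter_upwards [ae_restrict_mem (measurableSet_TS0 G)] with q hq
    exact fl_dir hq t
  rw [h1, ← Measure.map_map measurable_dir (measurable_ufl G t), map_ufl_Lg hS G t]

theorem measurePreserving_fl (hn : 1 ≤ n) (hS : IsSubmanifold n N S) (t : ℝ) :
    MeasurePreserving (fun q => fl G (q, t)) (nu G) (nu G) :=
  ⟨measurable_fl_left G t, map_fl_nu G hn hS t⟩

/-! ### finiteness -/

/-- compact submanifolds have finite volume -/
theorem muHE_lt_top (hS : IsSubmanifold n N S) (hc : IsCompact S) : μHE[n] S < ⊤ := by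
  apply hc.measure_lt_top_of_nhdsWithin
  intro p hp
  obtain ⟨f, V, hf⟩ := hS p hp
  obtain ⟨r, hr, hrV⟩ := Metric.isOpen_iff.1 hf.isOpen 0 hf.zero_mem
  have hB : closedBall (0 : Euc n) (r / 2) ⊆ V :=
    (closedBall_subset_ball (by linarith)).trans hrV
  obtain ⟨U, hU, hUS⟩ := hf.image_open (ball 0 (r / 2)) (ball_subset_closedBall.trans hB)
    isOpen_ball
  refine ⟨S ∩ U, ?_, ?_⟩
  · refine inter_mem self_mem_nhdsWithin (mem_nhdsWithin_of_mem_nhds (hU.mem_nhds ?_))
    have h1 : p ∈ f '' ball 0 (r / 2) := ⟨0, mem_ball_self (by linarith), hf.map_zero⟩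
    rw [hUS] at h1
    exact h1.2
  · rw [← hUS]
    refine lt_of_le_of_lt (measure_mono (image_mono ball_subset_closedBall)) ?_
    have hder : ∀ x ∈ closedBall (0 : Euc n) (r / 2),
        HasFDerivWithinAt f (fderiv ℝ f x) (closedBall (0 : Euc n) (r / 2)) x := fun x hx =>
      ((hf.contDiffOn.contDiffAt (hf.isOpen.mem_nhds (hB hx))).differentiableAt
        (by simp)).hasFDerivAt.hasFDerivWithinAt
    have h1 := AF.muHE_image_le_lintegral (f := f) measurableSet_closedBall hder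
    rw [finrank_Euc] at h1
    refine lt_of_le_of_lt h1 ?_
    have hcont : ContinuousOn (fun x => jac (fderiv ℝ f x)) (closedBall (0 : Euc n) (r / 2)) := by
      have h2 : ContinuousOn (fderiv ℝ f) V :=
        hf.contDiffOn.continuousOn_fderiv_of_isOpen hf.isOpen (by simp)
      exact AF.continuous_jac.comp_continuousOn (h2.mono hB)
    obtain ⟨C, hC⟩ := (isCompact_closedBall (0 : Euc n) (r / 2)).bddAbove_image hcont
    calc ∫⁻ x in closedBall (0 : Euc n) (r / 2), ENNReal.ofReal (jac (fderiv ℝ f x))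
        ≤ ∫⁻ x in closedBall (0 : Euc n) (r / 2), ENNReal.ofReal C :=
          setLIntegral_mono' measurableSet_closedBall fun x hx =>
            ENNReal.ofReal_le_ofReal (hC ⟨x, hx, rfl⟩)
      _ = ENNReal.ofReal C * volume (closedBall (0 : Euc n) (r / 2)) := setLIntegral_const _ _
      _ < ⊤ := ENNReal.mul_lt_top ENNReal.ofReal_lt_top
          (isCompact_closedBall (0 : Euc n) (r / 2)).measure_lt_top

theorem nu_univ : nu G univ = cst n * μHE[n] S := by
  have h1 := lintegral_nu G (F := fun _ => 1) measurable_const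
  simp only [lintegral_const, one_mul, nuF_univ, Measure.restrict_apply MeasurableSet.univ,
    univ_inter] at h1
  exact h1

theorem isFiniteMeasure_nu (hS : IsSubmanifold n N S) (hc : IsCompact S) :
    IsFiniteMeasure (nu G) := ⟨by
  rw [nu_univ]
  exact ENNReal.mul_lt_top (cst_ne_top n).lt_top (muHE_lt_top hS hc)⟩

end Crest.Agent.R208.L
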