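import Crest.Agent.R208.FV4
import Crest.Agent.R208.SV1

/-!
Row 208, block [N] (helper589, 336, 537, 631): the negative bundles of the closed geodesics.
Part NN0: definitions.
* `Wt N K` : the fixed Euclidean space of coefficients of trigonometric polynomials with values in
  `Euc N`; frequencies `ν : Fin K → ℝ` (`ν i = i` periodic, `ν i = i + 1/2` antiperiodic);
  `ev ν t : Wt N K →L[ℝ] Euc N` the value at time `t`, `ev' ν t` its derivative;
  `Rt ν s` the isometric one-parameter group with `ev ν t (Rt ν s w) = ev ν (t + s) w`.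
* `fd G z ν w`, `fd' G z ν w` : the tangent field `t ↦ P_{c(t)} (ev ν t w)` along the geodesic `c`
  of `z` and its derivative; `fld_fd : SV.Fld G z a b (fd ..) (fd' ..)`.
The index form is `SV.ix` (helper336).
-/

set_option autoImplicit false

open MeasureTheory Measure Set Filter Topology Module Metric
open scoped ContDiff RealInnerProductSpace
open Crest.GeometryTopology.Submanifold
open Crest.Agent.R241.DDefs
open Crest.Agent.R241.D2
open Crest.Agent.R208.L (om TanTS dfl om_dfl)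

noncomputable section

namespace Crest.Agent.R208.NN

variable {n N K : ℕ} {κ : ℝ} {S : Set (Euc N)}

/-! ### the space of coefficients -/

/-- coefficients of trigonometric polynomials with values in `Euc N` -/
abbrev Wt (N K : ℕ) : Type := EuclideanSpace ℝ ((Fin K × Fin 2) × Fin N)

/-- the coefficient of `cos (ν i t)` (`e = 0`) or `sin (ν i t)` (`e = 1`) -/
def pr (i : Fin K) (e : Fin 2) : Wt N K →L[ℝ] Euc N :=
  LinearMap.toContinuousLinearMap
    { toFun := fun w => WithLp.toLp 2 fun j => w ((i, e), j)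
      map_add' := fun w w' => by ext j; rfl
      map_smul' := fun c w => by ext j; rfl }

@[simp] theorem pr_apply (i : Fin K) (e : Fin 2) (w : Wt N K) (j : Fin N) :
    pr i e w j = w ((i, e), j) := rfl

/-- value at time `t` of the trigonometric polynomial with coefficients `w` -/
def ev (ν : Fin K → ℝ) (t : ℝ) : Wt N K →L[ℝ] Euc N :=
  ∑ i, (Real.cos (ν i * t) • pr i 0 + Real.sin (ν i * t) • pr i 1)

/-- derivative in `t` of `ev` -/
def ev' (ν : Fin K → ℝ) (t : ℝ) : Wt N K →L[ℝ] Euc N :=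
  ∑ i, ((-(ν i * Real.sin (ν i * t))) • pr i 0 + (ν i * Real.cos (ν i * t)) • pr i 1)

theorem ev_apply (ν : Fin K → ℝ) (t : ℝ) (w : Wt N K) :
    ev ν t w = ∑ i, (Real.cos (ν i * t) • pr i 0 w + Real.sin (ν i * t) • pr i 1 w) := by
  simp [ev]

theorem ev'_apply (ν : Fin K → ℝ) (t : ℝ) (w : Wt N K) :
    ev' ν t w = ∑ i, ((-(ν i * Real.sin (ν i * t))) • pr i 0 w +
      (ν i * Real.cos (ν i * t)) • pr i 1 w) := by
  simp [ev']

theorem hasDerivAt_ev (ν : Fin K → ℝ) (t : ℝ) :
    HasDerivAt (fun t => (ev ν t : Wt N K →L[ℝ] Euc N)) (ev' ν t) t := by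
  unfold ev ev'
  refine HasDerivAt.fun_sum fun i _ => ?_
  have h0 : HasDerivAt (fun t : ℝ => ν i * t) (ν i) t := by
    simpa using (hasDerivAt_id t).const_mul (ν i)
  have h1 : HasDerivAt (fun t => Real.cos (ν i * t)) (-(ν i * Real.sin (ν i * t))) t := by
    refine h0.cos.congr_deriv ?_; ring
  have h2 : HasDerivAt (fun t => Real.sin (ν i * t)) (ν i * Real.cos (ν i * t)) t := by
    refine h0.sin.congr_deriv ?_; ring
  exact HasDerivAt.add (HasDerivAt.smul_const h1 (pr i 0 : Wt N K →L[ℝ] Euc N))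
    (HasDerivAt.smul_const h2 (pr i 1 : Wt N K →L[ℝ] Euc N))

theorem contDiff_ev (ν : Fin K → ℝ) : ContDiff ℝ ∞ (fun t => (ev ν t : Wt N K →L[ℝ] Euc N)) := by
  unfold ev
  refine ContDiff.sum fun i _ => ?_
  have h0 : ContDiff ℝ ∞ (fun t : ℝ => ν i * t) := contDiff_const.mul contDiff_id
  exact ((Real.contDiff_cos.comp h0).smul contDiff_const).add
    ((Real.contDiff_sin.comp h0).smul contDiff_const)

theorem contDiff_ev' (ν : Fin K → ℝ) : ContDiff ℝ ∞ (fun t => (ev' ν t : Wt N K →L[ℝ] Euc N)) := by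
  unfold ev'
  refine ContDiff.sum fun i _ => ?_
  have h0 : ContDiff ℝ ∞ (fun t : ℝ => ν i * t) := contDiff_const.mul contDiff_id
  exact (((contDiff_const.mul (Real.contDiff_sin.comp h0)).neg).smul contDiff_const).add
    ((contDiff_const.mul (Real.contDiff_cos.comp h0)).smul contDiff_const)

/-- the rotation by the time `s` -/
def Rt (ν : Fin K → ℝ) (s : ℝ) : Wt N K →L[ℝ] Wt N K :=
  LinearMap.toContinuousLinearMap
    { toFun := fun w => WithLp.toLp 2 fun x =>
        if x.1.2 = 0 then Real.cos (ν x.1.1 * s) * w ((x.1.1, 0), x.2) +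
            Real.sin (ν x.1.1 * s) * w ((x.1.1, 1), x.2)
          else -(Real.sin (ν x.1.1 * s) * w ((x.1.1, 0), x.2)) +
            Real.cos (ν x.1.1 * s) * w ((x.1.1, 1), x.2)
      map_add' := fun w w' => by
        ext x
        by_cases hx : x.1.2 = 0
        · simp only [hx, if_true, PiLp.add_apply]; ring
        · simp only [hx, if_false, PiLp.add_apply]; ring
      map_smul' := fun c w => by
        ext x
        by_cases hx : x.1.2 = 0
        · simp only [hx, if_true, PiLp.smul_apply, smul_eq_mul, RingHom.id_apply]; ring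
        · simp only [hx, if_false, PiLp.smul_apply, smul_eq_mul, RingHom.id_apply]; ring }

theorem pr_Rt_zero (ν : Fin K → ℝ) (s : ℝ) (i : Fin K) (w : Wt N K) :
    pr i 0 (Rt ν s w) = Real.cos (ν i * s) • pr i 0 w + Real.sin (ν i * s) • pr i 1 w := by
  ext j; simp [Rt]

theorem pr_Rt_one (ν : Fin K → ℝ) (s : ℝ) (i : Fin K) (w : Wt N K) :
    pr i 1 (Rt ν s w) = -(Real.sin (ν i * s) • pr i 0 w) + Real.cos (ν i * s) • pr i 1 w := by
  ext j; simp [Rt]

theorem ev_Rt (ν : Fin K → ℝ) (t s : ℝ) (w : Wt N K) : ev ν t (Rt ν s w) = ev ν (t + s) w := by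
  simp only [ev_apply, pr_Rt_zero, pr_Rt_one, mul_add, Real.cos_add, Real.sin_add]
  refine Finset.sum_congr rfl fun i _ => ?_
  module

theorem ev'_Rt (ν : Fin K → ℝ) (t s : ℝ) (w : Wt N K) : ev' ν t (Rt ν s w) = ev' ν (t + s) w := by
  simp only [ev'_apply, pr_Rt_zero, pr_Rt_one, mul_add, Real.cos_add, Real.sin_add]
  refine Finset.sum_congr rfl fun i _ => ?_
  module

theorem ext_pr {w w' : Wt N K} (h : ∀ i e, pr i e w = pr i e w') : w = w' := by
  ext x
  have := congrArg (fun v : Euc N => v x.2) (h x.1.1 x.1.2)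
  simpa using this

theorem Rt_add (ν : Fin K → ℝ) (s t : ℝ) (w : Wt N K) : Rt ν (s + t) w = Rt ν s (Rt ν t w) := by
  refine ext_pr fun i e => ?_
  fin_cases e
  · simp only [Fin.zero_eta, pr_Rt_zero, pr_Rt_one, mul_add, Real.cos_add, Real.sin_add]
    module
  · simp only [Fin.mk_one, pr_Rt_zero, pr_Rt_one, mul_add, Real.cos_add, Real.sin_add]
    module

@[simp] theorem Rt_zero (ν : Fin K → ℝ) (w : Wt N K) : Rt ν 0 w = w := by
  refine ext_pr fun i e => ?_
  fin_cases e
  · simp [pr_Rt_zero]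
  · simp [pr_Rt_one]

theorem inner_eq_sum (w w' : Wt N K) :
    ⟪w, w'⟫ = ∑ i, (⟪pr i 0 w, pr i 0 w'⟫ + ⟪pr i 1 w, pr i 1 w'⟫) := by
  simp only [PiLp.inner_apply, pr_apply, Fintype.sum_prod_type, Fin.sum_univ_two]

theorem inner_Rt (ν : Fin K → ℝ) (s : ℝ) (w w' : Wt N K) :
    ⟪Rt ν s w, Rt ν s w'⟫ = ⟪w, w'⟫ := by
  rw [inner_eq_sum, inner_eq_sum]
  refine Finset.sum_congr rfl fun i _ => ?_
  rw [pr_Rt_zero, pr_Rt_one, pr_Rt_zero, pr_Rt_one]
  simp only [inner_add_left, inner_add_right, inner_neg_left, inner_neg_right,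
    real_inner_smul_left, real_inner_smul_right]
  have h := Real.sin_sq_add_cos_sq (ν i * s)
  linear_combination (⟪pr i 0 w, pr i 0 w'⟫ + ⟪pr i 1 w, pr i 1 w'⟫) * h

theorem norm_Rt (ν : Fin K → ℝ) (s : ℝ) (w : Wt N K) : ‖Rt ν s w‖ = ‖w‖ := by
  have h := inner_Rt ν s w w
  rw [real_inner_self_eq_norm_sq, real_inner_self_eq_norm_sq] at h
  exact (sq_eq_sq₀ (norm_nonneg _) (norm_nonneg _)).1 h

/-- periodic frequencies -/
def nuP (K : ℕ) (i : Fin K) : ℝ := (i : ℕ)


theorem Rt_per (w : Wt N K) : Rt (nuP K) (2 * Real.pi) w = w := by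
  refine ext_pr fun i e => ?_
  have h1 : Real.cos (nuP K i * (2 * Real.pi)) = 1 := Real.cos_nat_mul_two_pi _
  have h2 : Real.sin (nuP K i * (2 * Real.pi)) = 0 := by
    have := Real.sin_nat_mul_pi (2 * (i : ℕ))
    rw [← this, nuP]; congr 1; push_cast; ring
  fin_cases e
  · simp [pr_Rt_zero, h1, h2]
  · simp [pr_Rt_one, h1, h2]


/-! ### the tangent fields -/

/-- the tangent field `t ↦ P_{c(t)} (ev ν t w)` along the geodesic `c` of `z` -/
def fd (G : Geo n N κ S) (z : Euc N × Euc N) (ν : Fin K → ℝ) (w : Wt N K) (t : ℝ) : Euc N :=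
  G.P (fl G (z, t)).1 (ev ν t w)

/-- its derivative -/
def fd' (G : Geo n N κ S) (z : Euc N × Euc N) (ν : Fin K → ℝ) (w : Wt N K) (t : ℝ) : Euc N :=
  fderiv ℝ G.P (fl G (z, t)).1 (fl G (z, t)).2 (ev ν t w) + G.P (fl G (z, t)).1 (ev' ν t w)

variable {G : Geo n N κ S} {z : Euc N × Euc N}

theorem hasDerivAt_fd (hz : z ∈ TS G) (ν : Fin K → ℝ) (w : Wt N K) (t : ℝ) :
    HasDerivAt (fd G z ν w) (fd' G z ν w t) t := by
  have h1 : HasDerivAt (fun t => (fl G (z, t)).1) (fl G (z, t)).2 t := by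
    have := hda_fst (hasDerivAt_fl G (complete G hz t))
    exact this
  have h2 : HasDerivAt (fun t => G.P (fl G (z, t)).1)
      (fderiv ℝ G.P (fl G (z, t)).1 (fl G (z, t)).2) t :=
    ((G.contDiff_P.differentiable (by simp)).differentiableAt.hasFDerivAt).comp_hasDerivAt t h1
  have h3 : HasDerivAt (fun t => ev ν t w) (ev' ν t w) t := by
    have := (hasDerivAt_ev (N := N) ν t).clm_apply (hasDerivAt_const t w)
    simpa using this
  exact h2.clm_apply h3

theorem continuous_fd' (hz : z ∈ TS G) (ν : Fin K → ℝ) (w : Wt N K) :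
    Continuous (fd' G z ν w) := by
  have h1 := SV.continuous_fl (G := G) hz
  have h3 : Continuous (fderiv ℝ G.P) := G.contDiff_P.continuous_fderiv (by simp)
  have h4 : Continuous (fun t => ev ν t w) := (contDiff_ev ν).continuous.clm_apply continuous_const
  have h5 : Continuous (fun t => ev' ν t w) :=
    (contDiff_ev' ν).continuous.clm_apply continuous_const
  exact (((h3.comp h1.fst).clm_apply h1.snd).clm_apply h4).add
    ((G.contDiff_P.continuous.comp h1.fst).clm_apply h5)

theorem fd_mem (hz : z ∈ TS G) (ν : Fin K → ℝ) (w : Wt N K) (t : ℝ) :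
    fd G z ν w t ∈ G.T (fl G (z, t)).1 := P_mem G (fl_mem G hz t).1

theorem fld_fd (hz : z ∈ TS G) (ν : Fin K → ℝ) (w : Wt N K) (a b : ℝ) :
    SV.Fld G z a b (fd G z ν w) (fd' G z ν w) where
  der t _ := (hasDerivAt_fd hz ν w t).hasDerivWithinAt
  cont := (continuous_fd' hz ν w).continuousOn
  mem t _ := fd_mem hz ν w t

end Crest.Agent.R208.NN
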