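import Crest.Agent.R208.KR8
import Crest.Agent.R208.AK6

-- ▼ part R208/NW1
section

/-! Row 208, block NW (helper537), part NW1: the antiperiodic part of helper952's junction
(AK9): the corner field `Q` attached to a pair `(a, b)` of elements of `N`, built from the
linearised rounded chains with four arcs. -/

set_option autoImplicit false
set_option linter.unusedSectionVars false
set_option linter.unusedVariables false

open MeasureTheory Set Filter Topology Module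
open scoped ContDiff RealInnerProductSpace Real
open Crest.GeometryTopology.Submanifold
open Crest.Agent.R241.DDefs
open Crest.Agent.R241.D2
open Crest.Agent.R208.NN (Wt nuP V0 qf Rt)
open Crest.Agent.R208.KG (idx gT OK)
open Crest.Agent.R208.SV (ix jf jf')

noncomputable section

namespace Crest.Agent.R208.NW

/-! ### uniform lower bounds -/

/-- compactness: a positive homogeneous function on the range of a field of projections -/
theorem exists_lower {E V : Type*} [NormedAddCommGroup E] [NormedAddCommGroup V] [NormedSpace ℝ V]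
    [FiniteDimensional ℝ V] {C : Set E} (hC : IsCompact C) {P : E → V →L[ℝ] V}
    (hP : ContinuousOn P C) {f : E → V → ℝ} (hf : ContinuousOn (Function.uncurry f) (C ×ˢ univ))
    (hom : ∀ x ∈ C, ∀ (s : ℝ) (v : V), f x (s • v) = s ^ 2 * f x v)
    (pos : ∀ x ∈ C, ∀ v, P x v = v → v ≠ 0 → 0 < f x v) :
    ∃ c, 0 < c ∧ ∀ x ∈ C, ∀ v, P x v = v → c * ‖v‖ ^ 2 ≤ f x v := by
  have hs : IsCompact (Metric.sphere (0:V) 1) := isCompact_sphere _ _
  have hCS : IsCompact (C ×ˢ Metric.sphere (0:V) 1) := hC.prod hs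
  set M : Set (E × V) := {p ∈ C ×ˢ Metric.sphere (0:V) 1 | P p.1 p.2 = p.2} with hM
  have hMc : IsCompact M := by
    have h1 : ContinuousOn (fun p : E × V => P p.1 p.2 - p.2) (C ×ˢ Metric.sphere (0:V) 1) := by
      refine ContinuousOn.sub (ContinuousOn.clm_apply ?_ continuousOn_snd) continuousOn_snd
      exact hP.comp continuousOn_fst fun p hp => hp.1
    have h2 : M = (C ×ˢ Metric.sphere (0:V) 1) ∩ (fun p : E × V => P p.1 p.2 - p.2) ⁻¹' {0} := by
      ext p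
      simp [hM, sub_eq_zero]
    obtain ⟨t, ht, he⟩ := (continuousOn_iff_isClosed.1 h1) {0} isClosed_singleton
    rw [h2, inter_comm, he, inter_comm]
    exact hCS.inter_right ht
  have key : ∃ c, 0 < c ∧ ∀ p ∈ M, c ≤ f p.1 p.2 := by
    rcases M.eq_empty_or_nonempty with h0 | h0
    · exact ⟨1, one_pos, fun p hp => by rw [h0] at hp; exact hp.elim⟩
    · obtain ⟨q, hq, hmin⟩ := hMc.exists_isMinOn h0
        (hf.mono fun p hp => (⟨hp.1.1, mem_univ _⟩ : p ∈ C ×ˢ (univ : Set V)))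
      refine ⟨f q.1 q.2, pos q.1 hq.1.1 q.2 hq.2 ?_, fun p hp => hmin hp⟩
      intro h1
      have h2 := hq.1.2
      rw [mem_sphere_zero_iff_norm, h1, norm_zero] at h2
      exact zero_ne_one h2
  obtain ⟨c, hc, hb⟩ := key
  refine ⟨c, hc, fun x hx v hv => ?_⟩
  by_cases h0 : v = 0
  · have h1 := hom x hx 0 (0 : V)
    rw [smul_zero] at h1
    rw [h0, norm_zero, h1]
    simp
  · have hn : 0 < ‖v‖ := norm_pos_iff.2 h0
    have h1 := hb (x, ‖v‖⁻¹ • v) ⟨⟨hx, by
      rw [mem_sphere_zero_iff_norm, norm_smul, norm_inv, norm_norm, inv_mul_cancel₀ hn.ne']⟩, by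
      change P x (‖v‖⁻¹ • v) = ‖v‖⁻¹ • v
      rw [map_smul, hv]⟩
    change c ≤ f x (‖v‖⁻¹ • v) at h1
    rw [hom x hx] at h1
    calc c * ‖v‖ ^ 2 ≤ (‖v‖⁻¹ ^ 2 * f x v) * ‖v‖ ^ 2 := by gcongr
      _ = f x v := by field_simp

variable {n N k K : ℕ} {κ : ℝ} {S : Set (Euc N)} {G : Geo n N κ S} {z : Euc N × Euc N}
  {h : GT.Bla G k} {P : Euc N × Euc N → Wt N K →L[ℝ] Wt N K} {ε : ℝ}

/-- the four variations of the arcs -/
def Zab (h : GT.Bla G k) (P : Euc N × Euc N → Wt N K →L[ℝ] Wt N K) (z : Euc N × Euc N)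
    (a b : Wt N K) : Fin 4 → Euc N :=
  ![KR.uu h P z a, -KR.uu h P z b, -KR.uu h P z a, KR.uu h P z b]

/-- **the corner field** -/
def Qf (h : GT.Bla G k) (P : Euc N × Euc N → Wt N K →L[ℝ] Wt N K) (ε : ℝ) (z : Euc N × Euc N)
    (a b : Wt N K) (t : ℝ) : Euc N := AK.AZ G ε z (Zab h P z a b) t

theorem Zab_mem (hP : KR.NegB h K P) (hz : z ∈ L.US G) (a b : Wt N K) (i : Fin 4) :
    Zab h P z a b i ∈ V0 G z := by
  have ha := hP.uu_mem hz a
  have hb := hP.uu_mem hz b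
  unfold Zab
  fin_cases i
  · exact ha
  · exact (V0 G z).neg_mem hb
  · exact (V0 G z).neg_mem ha
  · exact hb

theorem Zab_smul (s : ℝ) (a b : Wt N K) : Zab h P z (s • a) (s • b) = s • Zab h P z a b := by
  funext i
  unfold Zab
  rw [map_smul, map_smul]
  fin_cases i <;> simp

theorem Zab_shf (a b : Wt N K) : AK.shf (Zab h P z a b) = -Zab h P z a b := by
  funext i
  unfold AK.shf Zab KG.idx
  fin_cases i <;> simp

theorem contDiffAt_Zab (hP : KR.NegB h K P) (hz : z ∈ L.US G) (a b : Wt N K) :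
    ContDiffAt ℝ ∞ (fun p : (Euc N × Euc N) × (Wt N K × Wt N K) => Zab h P p.1 p.2.1 p.2.2)
      (z, (a, b)) := by
  have h1 : ContDiffAt ℝ ∞ (fun p : (Euc N × Euc N) × (Wt N K × Wt N K) => KR.uu h P p.1)
      (z, (a, b)) :=
    ContDiffAt.comp (g := KR.uu h P)
      (f := fun p : (Euc N × Euc N) × (Wt N K × Wt N K) => p.1) (z, (a, b))
      (hP.contDiffAt_uu hz) (by fun_prop)
  have ha : ContDiffAt ℝ ∞ (fun p : (Euc N × Euc N) × (Wt N K × Wt N K) =>
      KR.uu h P p.1 p.2.1) (z, (a, b)) := h1.clm_apply (by fun_prop)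
  have hb : ContDiffAt ℝ ∞ (fun p : (Euc N × Euc N) × (Wt N K × Wt N K) =>
      KR.uu h P p.1 p.2.2) (z, (a, b)) := h1.clm_apply (by fun_prop)
  rw [contDiffAt_pi]
  intro i
  unfold Zab
  fin_cases i
  · exact ha
  · exact hb.neg
  · exact ha.neg
  · exact hb

theorem contDiffAt_Qf (hO : OK G 4 ε) (hP : KR.NegB h K P) (hz : z ∈ L.US G) (a b : Wt N K)
    (t : ℝ) : ContDiffAt ℝ ∞ (fun p : ((Euc N × Euc N) × (Wt N K × Wt N K)) × ℝ =>
      Qf h P ε p.1.1 p.1.2.1 p.1.2.2 p.2) ((z, (a, b)), t) := by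
  have h1 : ContDiffAt ℝ ∞ (fun p : ((Euc N × Euc N) × (Wt N K × Wt N K)) × ℝ =>
      Zab h P p.1.1 p.1.2.1 p.1.2.2) ((z, (a, b)), t) :=
    ContDiffAt.comp
      (g := fun p : (Euc N × Euc N) × (Wt N K × Wt N K) => Zab h P p.1 p.2.1 p.2.2)
      (f := fun p : ((Euc N × Euc N) × (Wt N K × Wt N K)) × ℝ => p.1) ((z, (a, b)), t)
      (contDiffAt_Zab hP hz a b) (by fun_prop)
  exact ContDiffAt.comp
    (g := fun p : ((Euc N × Euc N) × (Fin 4 → Euc N)) × ℝ => AK.AZ G ε p.1.1 p.1.2 p.2)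
    (f := fun p : ((Euc N × Euc N) × (Wt N K × Wt N K)) × ℝ =>
      ((p.1.1, Zab h P p.1.1 p.1.2.1 p.1.2.2), p.2)) ((z, (a, b)), t)
    (AK.contDiffAt_AZ hO h hz _ t)
    (((by fun_prop : ContDiffAt ℝ ∞ (fun p : ((Euc N × Euc N) × (Wt N K × Wt N K)) × ℝ =>
      p.1.1) ((z, (a, b)), t)).prodMk h1).prodMk (by fun_prop))

theorem Qf_smul (s : ℝ) (a b : Wt N K) (t : ℝ) :
    Qf h P ε z (s • a) (s • b) t = s • Qf h P ε z a b t := by
  unfold Qf
  rw [Zab_smul, AK.AZ_smul]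

theorem Qf_mem (hO : OK G 4 ε) (hP : KR.NegB h K P) (hz : z ∈ L.US G) (a b : Wt N K) (t : ℝ) :
    Qf h P ε z a b t ∈ G.T (fl G (z, t)).1 := AK.AZ_mem hO h hz (Zab_mem hP hz a b) t

theorem Qf_per (hO : OK G 4 ε) (hP : KR.NegB h K P) (hz : z ∈ L.US G) (a b : Wt N K) (t : ℝ) :
    Qf h P ε z a b (t + 2 * π) = -Qf h P ε z a b t := by
  unfold Qf
  rw [AK.AZ_shift hO h hz (Zab_mem hP hz a b), Zab_shf, AK.AZ_neg]


/-! ### corner values -/

theorem Qf_zero (hO : OK G 4 ε) (hP : KR.NegB h K P) (hz : z ∈ L.US G) (a b : Wt N K) :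
    Qf h P ε z a b 0 = gT ε 0 0 • (KR.uu h P z a - KR.uu h P z b) := by
  have h1 := AK.AZ_corner hO h hz (Zab_mem hP hz a b) 0
  have h2 : ∀ u : Euc N, jf' G z (0, u) 0 = u := fun u => by
    unfold SV.jf'
    rw [L.dfl_zero hz.1]
  simp only [Int.cast_zero, zero_mul, h2] at h1
  exact h1

theorem Qf_pi (hO : OK G 4 ε) (hP : KR.NegB h K P) (hz : z ∈ L.US G) (a b : Wt N K) :
    Qf h P ε z a b π = -(gT ε 0 0 • KR.De G z (KR.uu h P z a + KR.uu h P z b)) := by
  have h1 := AK.AZ_corner hO h hz (Zab_mem hP hz a b) 1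
  have h2 : ∀ u : Euc N, jf' G z (0, u) π = KR.De G z u := fun u => rfl
  simp only [Int.cast_one, one_mul, h2] at h1
  change AK.AZ G ε z (Zab h P z a b) π = _
  rw [h1]
  change gT ε 0 0 • (KR.De G z (-KR.uu h P z b) - KR.De G z (KR.uu h P z a)) = _
  rw [map_neg, map_add, ← smul_neg]
  congr 1
  abel

theorem gT_pos (hO : OK G 4 ε) : 0 < gT ε 0 0 := by
  rw [KG.gT_zero, zero_div]
  exact mul_pos hO.pos KG.th_zero_pos

/-! ### injectivity -/

theorem De_ne (hz : z ∈ L.US G) {u : Euc N} (hu : u ∈ V0 G z) (h0 : KR.De G z u = 0) (h : GT.Bla G k) :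
    u = 0 := by
  have h1 : (L.dfl G z π (0, u)).1 = 0 := KR.dfl_V0_fst h hz hu
  have h2 : (L.dfl G z π (0, u)).2 = 0 := h0
  have h3 : L.dfl G z π (0, u) = 0 := Prod.ext h1 h2
  have h4 := KR.dfl_add hz.1 π (-π) (0, u)
  rw [h3, map_zero, add_neg_cancel, L.dfl_zero hz.1] at h4
  exact congrArg Prod.snd h4

end Crest.Agent.R208.NW
end
end

-- ▼ part R208/NW2

/-! Row 208, block NW (helper537), part NW2: negativity of the corner field and its two corner
values (the inequality needed by helper589's KF4). -/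

set_option autoImplicit false
set_option linter.unusedSectionVars false
set_option linter.unusedVariables false

open MeasureTheory Set Filter Topology Module
open scoped ContDiff RealInnerProductSpace Real
open Crest.GeometryTopology.Submanifold
open Crest.Agent.R241.DDefs
open Crest.Agent.R241.D2
open Crest.Agent.R208.NN (Wt nuP V0 qf Rt)
open Crest.Agent.R208.KG (idx gT OK Km)
open Crest.Agent.R208.SV (ix jf jf')

noncomputable section

namespace Crest.Agent.R208.NW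

variable {n N k K : ℕ} {κ : ℝ} {S : Set (Euc N)} {G : Geo n N κ S} {z : Euc N × Euc N}
  {h : GT.Bla G k} {P : Euc N × Euc N → Wt N K →L[ℝ] Wt N K} {ε : ℝ}




/-- `De` preserves the norm up to a factor: it is injective on `V₀` -/
def fc (h : GT.Bla G k) (P : Euc N × Euc N → Wt N K →L[ℝ] Wt N K) (z : Euc N × Euc N)
    (w : Wt N K × Wt N K) : ℝ :=
  ‖KR.uu h P z (w.1 - w.2)‖ ^ 2 + ‖KR.De G z (KR.uu h P z (w.1 + w.2))‖ ^ 2


theorem continuousOn_PP (hP : KR.NegB h K P) :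
    ContinuousOn (fun z => (P z).prodMap (P z)) (L.US G) := by
  intro z hz
  have h1 : ContinuousAt P z := (hP.smooth z hz).continuousAt
  have h2 : ContinuousAt (fun z => (P z).prodMap (P z)) z :=
    (ContinuousLinearMap.prodMapL ℝ (Wt N K) (Wt N K) (Wt N K) (Wt N K)).continuous.continuousAt.comp
      (f := fun z => (P z, P z)) (h1.prodMk h1)
  exact h2.continuousWithinAt

theorem continuousOn_fc (hP : KR.NegB h K P) :
    ContinuousOn (Function.uncurry (fc h P)) (L.US G ×ˢ (univ : Set (Wt N K × Wt N K))) := by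
  rintro ⟨z, w⟩ ⟨hz, -⟩
  have h1 : ContinuousAt (fun p : (Euc N × Euc N) × (Wt N K × Wt N K) => KR.uu h P p.1) (z, w) :=
    ContinuousAt.comp (g := KR.uu h P) (f := fun p : (Euc N × Euc N) × (Wt N K × Wt N K) => p.1)
      (hP.contDiffAt_uu hz).continuousAt continuousAt_fst
  have h2 : ContinuousAt (fun p : (Euc N × Euc N) × (Wt N K × Wt N K) => KR.De G p.1) (z, w) :=
    ContinuousAt.comp (g := KR.De G) (f := fun p : (Euc N × Euc N) × (Wt N K × Wt N K) => p.1)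
      (KR.contDiffAt_De hz.1).continuousAt continuousAt_fst
  have h3 : ContinuousAt (fun p : (Euc N × Euc N) × (Wt N K × Wt N K) => p.2.1 - p.2.2) (z, w) := by
    fun_prop
  have h4 : ContinuousAt (fun p : (Euc N × Euc N) × (Wt N K × Wt N K) => p.2.1 + p.2.2) (z, w) := by
    fun_prop
  have h5 : ContinuousAt (Function.uncurry (fc h P)) (z, w) :=
    ((h1.clm_apply h3).norm.pow 2).add ((h2.clm_apply (h1.clm_apply h4)).norm.pow 2)
  exact h5.continuousWithinAt


theorem fc_smul (s : ℝ) (w : Wt N K × Wt N K) : fc h P z (s • w) = s ^ 2 * fc h P z w := by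
  unfold fc
  have e1 : (s • w).1 - (s • w).2 = s • (w.1 - w.2) := by simp [smul_sub]
  have e2 : (s • w).1 + (s • w).2 = s • (w.1 + w.2) := by simp [smul_add]
  rw [e1, e2, map_smul, map_smul, map_smul, norm_smul, norm_smul, mul_pow, mul_pow,
    Real.norm_eq_abs, sq_abs]
  ring


theorem fc_pos (hP : KR.NegB h K P) (hz : z ∈ L.US G) {w : Wt N K × Wt N K}
    (hw : (P z).prodMap (P z) w = w) (hw0 : w ≠ 0) : 0 < fc h P z w := by
  have h1 : P z w.1 = w.1 := congrArg Prod.fst hw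
  have h2 : P z w.2 = w.2 := congrArg Prod.snd hw
  by_contra hcon
  have h3 : fc h P z w = 0 := le_antisymm (not_lt.1 hcon) (by unfold fc; positivity)
  unfold fc at h3
  have h4 : ‖KR.uu h P z (w.1 - w.2)‖ ^ 2 = 0 := by
    nlinarith [sq_nonneg ‖KR.uu h P z (w.1 - w.2)‖,
      sq_nonneg ‖KR.De G z (KR.uu h P z (w.1 + w.2))‖]
  have h5 : ‖KR.De G z (KR.uu h P z (w.1 + w.2))‖ ^ 2 = 0 := by
    nlinarith [sq_nonneg ‖KR.uu h P z (w.1 - w.2)‖,
      sq_nonneg ‖KR.De G z (KR.uu h P z (w.1 + w.2))‖]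
  have h6 : KR.uu h P z (w.1 - w.2) = 0 := norm_eq_zero.1 (pow_eq_zero_iff two_ne_zero |>.1 h4)
  have h7 : KR.De G z (KR.uu h P z (w.1 + w.2)) = 0 :=
    norm_eq_zero.1 (pow_eq_zero_iff two_ne_zero |>.1 h5)
  have h8 : KR.uu h P z (w.1 + w.2) = 0 := De_ne hz (hP.uu_mem hz _) h7 h
  have h9 : w.1 - w.2 = 0 := by
    by_contra hne
    exact hP.uu_ne hz (by rw [map_sub, h1, h2]) hne h6
  have h10 : w.1 + w.2 = 0 := by
    by_contra hne
    exact hP.uu_ne hz (by rw [map_add, h1, h2]) hne h8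
  have h11 : w.1 = w.2 := sub_eq_zero.1 h9
  rw [h11] at h10
  have h12 : (2:ℝ) • w.2 = 0 := by rw [two_smul]; exact h10
  have h13 : w.2 = 0 := (smul_eq_zero.1 h12).resolve_left two_ne_zero
  exact hw0 (Prod.ext (h11.trans h13) h13)


theorem sq_le_prod (w : Wt N K × Wt N K) : ‖w.1‖ ^ 2 + ‖w.2‖ ^ 2 ≤ 2 * ‖w‖ ^ 2 := by
  have h1 : ‖w.1‖ ≤ ‖w‖ := norm_fst_le w
  have h2 : ‖w.2‖ ≤ ‖w‖ := norm_snd_le w
  have h3 := pow_le_pow_left₀ (norm_nonneg _) h1 2
  have h4 := pow_le_pow_left₀ (norm_nonneg _) h2 2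
  linarith

theorem exists_fc (hS : IsCompact (L.US G)) (hP : KR.NegB h K P) :
    ∃ c, 0 < c ∧ ∀ z ∈ L.US G, ∀ a b : Wt N K, P z a = a → P z b = b →
      c * (‖a‖ ^ 2 + ‖b‖ ^ 2) ≤ fc h P z (a, b) := by
  obtain ⟨c, hc, hb⟩ := exists_lower hS (continuousOn_PP hP) (continuousOn_fc hP)
    (fun z hz s w => fc_smul s w) (fun z hz w hw hw0 => fc_pos hP hz hw hw0)
  refine ⟨c / 2, by positivity, fun z hz a b h1 h2 => ?_⟩
  have h3 := hb z hz (a, b) (Prod.ext h1 h2)
  have h4 := sq_le_prod (a, b)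
  simp only at h4
  nlinarith


/-- **the corner inequality** (hypothesis of KF4) -/
theorem corner (hO : OK G 4 ε) (hP : KR.NegB h K P) (hz : z ∈ L.US G) (a b : Wt N K) :
    -⟪jf' G z (KR.Jr h P z 0 a - KR.Jr h P z 0 b) 0, Qf h P ε z a b 0⟫ +
      ⟪jf' G z (KR.Jr h P z 0 a + KR.Jr h P z 0 b) π, Qf h P ε z a b π⟫ =
      -(gT ε 0 0 * fc h P z (a, b)) := by
  have e0 : ∀ w, KR.Jr h P z 0 w = (0, KR.uu h P z w) := by
    intro w
    rw [KR.Jr_apply, fl_zero, neg_zero, L.dfl_zero hz.1]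
    rw [NN.Rt_zero]
  have e1 : ∀ x y : Euc N, ((0 : Euc N), x) - ((0 : Euc N), y) = (0, x - y) := fun x y => by simp
  have e2 : ∀ x y : Euc N, ((0 : Euc N), x) + ((0 : Euc N), y) = (0, x + y) := fun x y => by simp
  have h2 : ∀ u : Euc N, jf' G z (0, u) 0 = u := fun u => by
    unfold SV.jf'
    rw [L.dfl_zero hz.1]
  have h3 : ∀ u : Euc N, jf' G z (0, u) π = KR.De G z u := fun u => rfl
  rw [Qf_zero hO hP hz, Qf_pi hO hP hz, e0, e0, e1, e2, h2, h3, ← map_sub, ← map_add]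
  unfold fc
  rw [inner_neg_right, real_inner_smul_right, real_inner_smul_right, real_inner_self_eq_norm_sq,
    real_inner_self_eq_norm_sq]
  ring

end Crest.Agent.R208.NW
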