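import Crest.Agent.R208.CM3
import Crest.Agent.R208.E4a
import Crest.Agent.R208.T2

/-! Row 208, block OE (helper997), part OE1: open embeddings `Ψ : Y → K` into a compact manifold of
the same dimension; extension by zero of forms with compact support. -/

set_option autoImplicit false
set_option linter.unusedSectionVars false

open Set Filter Topology Module
open scoped ContDiff
open Crest.Agent.R208.F Crest.Agent.R208.FI Crest.Agent.R208.CW Crest.Agent.R208.T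

noncomputable section

namespace Crest.Agent.R208.OE

variable {A E' : Type*} [NormedAddCommGroup A] [NormedSpace ℝ A] [FiniteDimensional ℝ A]
  [NormedAddCommGroup E'] [NormedSpace ℝ E'] [FiniteDimensional ℝ E']
  {m : ℕ} {Y : Set A} {K : Set E'} {Ψ : A → E'}

/-- `Ψ : Y → K` is a smooth injective immersion between manifolds of the same dimension. -/
structure OE (m : ℕ) (Y : Set A) (K : Set E') (Ψ : A → E') : Prop where
  sub : Sub m Y
  clo : Clo m K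
  smap : SMap Y K Ψ
  inj : InjOn Ψ Y
  imm : ∀ z ∈ Y, ∀ v ∈ Tan Y z, fderiv ℝ Ψ z v = 0 → v = 0

/-- a smooth retraction onto a compact manifold, in a normed space -/
theorem exists_ret {K : Set E'} (hK : Clo m K) : ∃ (r : E' → E') (O : Set E'), IsOpen O ∧ K ⊆ O ∧
    ContDiffOn ℝ ∞ r O ∧ MapsTo r O K ∧ ∀ x ∈ K, r x = x := by
  set e := (toEuclidean : E' ≃L[ℝ] EuclideanSpace ℝ (Fin (finrank ℝ E'))) with he
  have hK' : Clo m (e '' K) := by
    refine CM.clo_image_of_inj hK (fun x _ => e.contDiff.contDiffAt) e.injective.injOn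
      (fun x _ v _ hv => ?_)
    rw [e.fderiv] at hv
    exact (map_eq_zero_iff e e.injective).1 hv
  obtain ⟨r, O, hO, hKO, hr, hm, h1⟩ := E.exists_retract hK'
  refine ⟨fun x => e.symm (r (e x)), e ⁻¹' O, hO.preimage e.continuous,
    fun x hx => hKO ⟨x, hx, rfl⟩, ?_, ?_, ?_⟩
  · exact e.symm.contDiff.comp_contDiffOn (hr.comp e.contDiff.contDiffOn fun x hx => hx)
  · intro x hx
    obtain ⟨y, hy, hy'⟩ := hm hx
    change e.symm (r (e x)) ∈ K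
    rw [← hy', e.symm_apply_apply]
    exact hy
  · intro x hx
    change e.symm (r (e x)) = x
    rw [h1 _ ⟨x, hx, rfl⟩, e.symm_apply_apply]

namespace OE

/-- local inverses -/
theorem loc_inv (h : OE m Y K Ψ) {z₀ : A} (hz₀ : z₀ ∈ Y) {O₀ : Set A} (hO₀ : IsOpen O₀)
    (hzO : z₀ ∈ O₀) : ∃ (O : Set E') (g : E' → A), IsOpen O ∧ Ψ z₀ ∈ O ∧
      (∀ y ∈ O, ContDiffAt ℝ ∞ g y) ∧ (∀ y ∈ O, g y ∈ Y ∩ O₀) ∧ ∀ y ∈ K ∩ O, Ψ (g y) = y := by
  obtain ⟨f, W, O1, ℓ, hl, hz1⟩ := h.sub.exists_loc hz₀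
  obtain ⟨f', W', O', ℓ', hl', hk'⟩ := h.clo.sub.exists_loc (h.smap.maps hz₀)
  set u₀ := ℓ z₀ with hu₀
  have hfu : f u₀ = z₀ := hl.right_inv hz₀ hz1
  have hu₀W : u₀ ∈ W := hl.maps _ hz1
  have hfY : ∀ u ∈ W, f u ∈ Y := fun u hu => (hl.mem hu).1
  set W₂ : Set (Eu m) := W ∩ f ⁻¹' O₀ ∩ {u | Ψ (f u) ∈ O'} with hW₂
  have hc1 : ContinuousOn (fun u => Ψ (f u)) W := fun u hu =>
    ((h.smap.smooth _ (hfY u hu)).continuousAt.comp (hl.fC' hu).continuousAt).continuousWithinAt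
  have hW₂o : IsOpen W₂ := by
    have a1 := hl.fC.continuousOn.isOpen_inter_preimage hl.oW hO₀
    have a2 := hc1.isOpen_inter_preimage hl.oW hl'.oO
    have : W₂ = (W ∩ f ⁻¹' O₀) ∩ (W ∩ (fun u => Ψ (f u)) ⁻¹' O') := by
      ext u; simp only [hW₂, mem_inter_iff, mem_preimage, mem_setOf_eq]; tauto
    rw [this]
    exact a1.inter a2
  set T : Eu m → Eu m := fun u => ℓ' (Ψ (f u)) with hT
  have hTs : ∀ u ∈ W₂, ContDiffAt ℝ ∞ T u := fun u hu =>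
    (hl'.lC' hu.2).comp u ((h.smap.smooth _ (hfY u hu.1.1)).comp u (hl.fC' hu.1.1))
  have hu₀2 : u₀ ∈ W₂ := by
    refine ⟨⟨hu₀W, ?_⟩, ?_⟩
    · rw [mem_preimage, hfu]; exact hzO
    · rw [mem_setOf_eq, hfu]; exact hk'
  have hΨd : HasFDerivAt (fun u => Ψ (f u)) ((fderiv ℝ Ψ z₀).comp (fderiv ℝ f u₀)) u₀ := by
    have a1 : HasFDerivAt Ψ (fderiv ℝ Ψ z₀) (f u₀) := by
      rw [hfu]; exact (h.smap.diff hz₀).hasFDerivAt
    exact a1.comp u₀ ((hl.fC' hu₀W).differentiableAt (by simp)).hasFDerivAt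
  have hinj : Function.Injective (fderiv ℝ T u₀) := by
    rw [injective_iff_map_eq_zero]
    intro v hv
    have hTW' : T u₀ ∈ W' := hl'.maps _ hu₀2.2
    have b1 : HasFDerivAt (fun u => f' (T u)) ((fderiv ℝ f' (T u₀)).comp (fderiv ℝ T u₀)) u₀ :=
      (((hl'.fC' hTW').differentiableAt (by simp)).hasFDerivAt).comp u₀
        (((hTs u₀ hu₀2).differentiableAt (by simp)).hasFDerivAt)
    have b2 : HasFDerivAt (fun u => Ψ (f u)) ((fderiv ℝ f' (T u₀)).comp (fderiv ℝ T u₀)) u₀ := by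
      refine b1.congr_of_eventuallyEq ?_
      filter_upwards [hW₂o.mem_nhds hu₀2] with u hu
      exact (hl'.right_inv (h.smap.maps (hfY u hu.1.1)) hu.2).symm
    have b3 := hΨd.unique b2
    have b4 : fderiv ℝ Ψ z₀ (fderiv ℝ f u₀ v) = 0 := by
      have := congrArg (fun L => L v) b3
      simpa [hv] using this
    have b5 : fderiv ℝ f u₀ v ∈ Tan Y z₀ := by
      have := hl.chart.fderiv_mem hu₀W v
      rwa [hfu] at this
    have b6 := h.imm z₀ hz₀ _ b5 b4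
    exact hl.chart.inj u₀ hu₀W (b6.trans (map_zero _).symm)
  obtain ⟨τ, W₁, hW₁, hTu, -, hmaps, hTτ, hτs, -, -, -⟩ := exists_local_inverse hW₂o hTs hu₀2 hinj
  refine ⟨O' ∩ ℓ' ⁻¹' W₁, fun y => f (τ (ℓ' y)), hl'.lC.continuousOn.isOpen_inter_preimage hl'.oO hW₁,
    ⟨hk', ?_⟩, ?_, ?_, ?_⟩
  · have : ℓ' (Ψ z₀) = T u₀ := by rw [hT]; simp only [hfu]
    rw [mem_preimage, this]; exact hTu
  · rintro y ⟨hy, hy'⟩
    exact (hl.fC' (hmaps hy').1.1).comp y ((hτs _ hy').comp y (hl'.lC' hy))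
  · rintro y ⟨hy, hy'⟩
    exact ⟨hfY _ (hmaps hy').1.1, (hmaps hy').1.2⟩
  · rintro y ⟨hyK, hy, hy'⟩
    have hu := hmaps hy'
    have c1 : ℓ' (Ψ (f (τ (ℓ' y)))) = ℓ' y := hTτ _ hy'
    rw [← hl'.right_inv (h.smap.maps (hfY _ hu.1.1)) hu.2, c1, hl'.right_inv hyK hy]

/-- images of open sets are open -/
theorem image_open (h : OE m Y K Ψ) {O₀ : Set A} (hO₀ : IsOpen O₀) :
    ∃ O : Set E', IsOpen O ∧ Ψ '' (Y ∩ O₀) = K ∩ O := by
  classical
  choose! O g hO hzO hg hgm hgi using fun z (hz : z ∈ Y ∩ O₀) => h.loc_inv hz.1 hO₀ hz.2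
  refine ⟨⋃ z ∈ Y ∩ O₀, O z, isOpen_biUnion fun z hz => hO z hz, ?_⟩
  apply Subset.antisymm
  · rintro _ ⟨z, hz, rfl⟩
    exact ⟨h.smap.maps hz.1, mem_iUnion₂.2 ⟨z, hz, hzO z hz⟩⟩
  · rintro y ⟨hy, hy'⟩
    obtain ⟨z, hz, hyz⟩ := mem_iUnion₂.1 hy'
    exact ⟨g z y, hgm z hz y hyz, hgi z hz y ⟨hy, hyz⟩⟩

end OE

/-- inverse data of an open embedding: `G` is a smooth left inverse of `Ψ`, `U ⊇ Ψ(Y)` is open,
`r` a retraction. -/
structure Inv (Y : Set A) (K : Set E') (Ψ : A → E') (G : E' → A) (U : Set E') : Prop where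
  open_U : IsOpen U
  mem_U : ∀ z ∈ Y, Ψ z ∈ U
  smooth : ∀ z ∈ Y, ContDiffAt ℝ ∞ G (Ψ z)
  left : ∀ z ∈ Y, G (Ψ z) = z
  out : ∀ C ⊆ Y, IsCompact C → ∀ k ∈ K, k ∉ Ψ '' C → ∀ᶠ y in 𝓝 k, y ∈ U → G y ∈ Y \ C

theorem OE.exists_inv (h : OE m Y K Ψ) : ∃ (G : E' → A) (U : Set E'), Inv Y K Ψ G U := by
  classical
  obtain ⟨r, O, hO, hKO, hr, hm, h1⟩ := exists_ret h.clo
  obtain ⟨O₂, hO₂, he⟩ := h.image_open (isOpen_univ (X := A))
  rw [inter_univ] at he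
  set g : E' → A := Function.invFunOn Ψ Y with hg
  have hgm : ∀ y ∈ Ψ '' Y, g y ∈ Y := fun y hy => Function.invFunOn_mem hy
  have hge : ∀ y ∈ Ψ '' Y, Ψ (g y) = y := fun y hy => Function.invFunOn_eq hy
  have hgl : ∀ z ∈ Y, g (Ψ z) = z := fun z hz =>
    h.inj (hgm _ ⟨z, hz, rfl⟩) hz (hge _ ⟨z, hz, rfl⟩)
  have hU : IsOpen (O ∩ r ⁻¹' O₂) := hr.continuousOn.isOpen_inter_preimage hO hO₂
  have hrU : ∀ y ∈ O ∩ r ⁻¹' O₂, r y ∈ Ψ '' Y := fun y hy => by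
    rw [he]; exact ⟨hm hy.1, hy.2⟩
  have hrs : ∀ y ∈ K, ContDiffAt ℝ ∞ r y := fun y hy => hr.contDiffAt (hO.mem_nhds (hKO hy))
  refine ⟨fun y => g (r y), O ∩ r ⁻¹' O₂, hU, ?_, ?_, ?_, ?_⟩
  · intro z hz
    refine ⟨hKO (h.smap.maps hz), ?_⟩
    have : Ψ z ∈ K ∩ O₂ := by rw [← he]; exact ⟨z, hz, rfl⟩
    rw [mem_preimage, h1 _ (h.smap.maps hz)]
    exact this.2
  · intro z hz
    have hk := h.smap.maps hz
    obtain ⟨O₁, g₁, hO₁, hz₁, hs₁, hm₁, hi₁⟩ := h.loc_inv hz isOpen_univ (mem_univ z)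
    have hrz : r (Ψ z) = Ψ z := h1 _ hk
    have a1 : ContDiffAt ℝ ∞ (fun y => g₁ (r y)) (Ψ z) := by
      have : ContDiffAt ℝ ∞ g₁ (r (Ψ z)) := by rw [hrz]; exact hs₁ _ hz₁
      exact this.comp (Ψ z) (hrs _ hk)
    refine a1.congr_of_eventuallyEq ?_
    have a2 : ∀ᶠ y in 𝓝 (Ψ z), r y ∈ O₁ := (hrs _ hk).continuousAt.eventually
      (hO₁.mem_nhds (by rw [hrz]; exact hz₁))
    filter_upwards [a2, hO.mem_nhds (hKO hk)] with y hy hyO
    have hyK : r y ∈ K := hm hyO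
    have a3 := hi₁ _ ⟨hyK, hy⟩
    have a4 := (hm₁ _ hy).1
    calc g (r y) = g (Ψ (g₁ (r y))) := by rw [a3]
      _ = g₁ (r y) := hgl _ a4
  · intro z hz
    change g (r (Ψ z)) = z
    rw [h1 _ (h.smap.maps hz), hgl z hz]
  · intro C hCY hC k hk hkC
    have hcl : IsClosed (Ψ '' C) := (hC.image_of_continuousOn fun z hz =>
      (h.smap.smooth z (hCY hz)).continuousAt.continuousWithinAt).isClosed
    have a1 : ∀ᶠ y in 𝓝 k, r y ∉ Ψ '' C := (hrs _ hk).continuousAt.eventually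
      (hcl.isOpen_compl.mem_nhds (by rw [h1 _ hk]; exact hkC))
    filter_upwards [a1] with y hy hyU
    have hy2 := hrU y hyU
    refine ⟨hgm _ hy2, fun hgC => hy ⟨g (r y), hgC, hge _ hy2⟩⟩

/-- extension by zero of the form `W` on `Y` to `K` -/
def ex (G : E' → A) (U : Set E') (W : A → Ext A) : E' → Ext E' :=
  open Classical in fun y => if y ∈ U then F.pull G W y else 0

section ex
variable {G : E' → A} {U : Set E'} {a b W : A → Ext A} {C : Set A}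











end ex

/-- forms on `K` are compared on `Y` and off `Ψ '' C` -/
theorem OE.eqv (h : OE m Y K Ψ) {C : Set A} (hCY : C ⊆ Y) {a b : E' → Ext E'}
    (h1 : Eqv Y (F.pull Ψ a) (F.pull Ψ b))
    (h2 : ∀ k ∈ K, k ∉ Ψ '' C → pb (Tan K k).subtype (a k) = pb (Tan K k).subtype (b k)) :
    Eqv K a b := by
  rw [eqv_iff] at h1 ⊢
  intro k hk
  by_cases hkC : k ∈ Ψ '' C
  swap
  · exact h2 k hk hkC
  obtain ⟨z, hz, rfl⟩ := hkC
  have hzY := hCY hz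
  have hmem : ∀ v : Tan Y z, fderiv ℝ Ψ z v ∈ Tan K (Ψ z) := fun v =>
    fderiv_mapsTo_Tan (h.smap.diff hzY) (fun z hz => h.smap.maps hz) v.2
  let L : Tan Y z →ₗ[ℝ] Tan K (Ψ z) :=
    (((fderiv ℝ Ψ z : A →L[ℝ] E') : A →ₗ[ℝ] E') ∘ₗ (Tan Y z).subtype).codRestrict _ hmem
  have hLi : Function.Injective L := by
    rw [injective_iff_map_eq_zero]
    intro v hv
    have hv' : fderiv ℝ Ψ z v = 0 := congrArg Subtype.val hv
    exact Subtype.ext (h.imm z hzY _ v.2 hv')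
  have hfr : finrank ℝ (Tan Y z) = finrank ℝ (Tan K (Ψ z)) := by
    rw [h.sub.finrank_Tan hzY, h.clo.finrank_Tan hk]
  have hLs : Function.Surjective L :=
    (LinearMap.injective_iff_surjective_of_finrank_eq_finrank hfr).1 hLi
  apply CM.pb_injective hLs
  have h3 := h1 z hzY
  rw [F.pull, F.pull, pb_comp, pb_comp] at h3
  rw [pb_comp, pb_comp]
  exact h3

section ex2
variable {G : E' → A} {U : Set E'} {a b W : A → Ext A} {C : Set A}





end ex2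

end Crest.Agent.R208.OE
end
namespace Crest.Agent.R208.OE.Inv
end Crest.Agent.R208.OE.Inv
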