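import Crest.Agent.R208.KP6_Mg
import Crest.Agent.R208.KD1
import Crest.Agent.R208.CG1
import Crest.Agent.R208.SO4
import Crest.Agent.R208.DEG2
import Crest.Agent.R208.T3a
import Crest.Agent.R208.JV3b
import Crest.Agent.R208.TX9
import Crest.Agent.R208.SB2
import Crest.Agent.R208.SB3
import Crest.Agent.R208.CQ3
import Crest.Agent.R208.CQ2
import Crest.Agent.R208.ZH2
import Crest.Agent.R208.ZH3b
import Crest.Agent.R208.AF9
import Crest.Agent.R208.TX7b

-- ▼ part R208/ZG13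
section

/-!
R208, ZG13 (helper385): 316's (C) (from 545's (H) and ZG12), and `Vol4Stmt` from `K10Stmt`.
-/

set_option autoImplicit false
set_option linter.unusedSectionVars false
set_option linter.unusedVariables false

open MeasureTheory MeasureTheory.Measure Set Filter Topology Module
open scoped ContDiff RealInnerProductSpace
open Crest.Agent.R208.F Crest.Agent.R208.FI Crest.Agent.R208.CW Crest.Agent.R208.T
open Crest.Agent.R208.RR Crest.Agent.R208.SO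

noncomputable section

namespace Crest.Agent.R208.ZG

open Crest.GeometryTopology.Submanifold
open Crest.Agent.R241.DDefs
open Crest.Agent.R241.D2
open Crest.Agent.R208.L (US)
open Crest.Agent.R208.NN (Wt Rt nuP)

variable {n N k K m : ℕ} {κ : ℝ} {S : Set (Euc N)} {G : Geo n N κ S} {z : Euc N × Euc N}
  {δ : ℝ} {PN : Euc N × Euc N → Wt N K →L[ℝ] Wt N K}
  {ι : Type} [Fintype ι] [DecidableEq ι]
  {W₀ : Euc N × Euc N → (ι × Fin 2 → Fin N) → ℝ} {p₀ : Euc N} {x : Euc N → Ext (Euc N)}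

/-- **(C)** -/
theorem two_fib (h : GT.Bla G k) (H : NB.NegB G (k - 1) (nuP K) δ PN) (hk : Even k) (hk4 : 4 ≤ k)
    (hkn : k < n) {kap : Euc N × Euc N → Ext (Euc N × Euc N)} (skap : Sm (US G) kap)
    (hz : z ∈ US G) {oF : (Euc N × Euc N) × Wt N K → Ext ((Euc N × Euc N) × Wt N K)}
    {oW : Euc N × Euc N → Ext (Euc N × Euc N)}
    (hoF : Ori (k - 2) (Sph (US G) PN ∩ Prod.fst ⁻¹' {z}) oF)
    (hoW : Ori (k - 1) (JX.Fb G z) oW) :
    |J (k - 2) (Sph (US G) PN ∩ Prod.fst ⁻¹' {z}) oF (Wp (FM.phiF h PN) (F.pull Prod.fst kap))| =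
      2 * |J (k - 1) (JX.Fb G z) oW kap| := by
  rw [← abs_Hr h (by omega) hkn hz H skap hoF hoW]
  exact KP.abs_two_half h H hk hk4 hkn skap hz hoF

/-- **(C) for `kap = K(E^* x)`** -/
theorem two_tau {h : GT.Bla G k} (D : T.XM h m W₀ p₀ x) (H : NB.NegB G (k - 1) (nuP K) δ PN)
    (hk : Even k) (hk4 : 4 ≤ k) (hkn : k < n) (hz : z ∈ US G)
    {oF : (Euc N × Euc N) × Wt N K → Ext ((Euc N × Euc N) × Wt N K)}
    (hoF : Ori (k - 2) (Sph (US G) PN ∩ Prod.fst ⁻¹' {z}) oF) :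
    |J (k - 2) (Sph (US G) PN ∩ Prod.fst ⁻¹' {z}) oF (Wp (FM.phiF h PN) (F.pull Prod.fst
      (RR.K (E := Euc N × Euc N) (F.pull (RRC.EE G) x))))| = 2 * XF.tau ι := by
  obtain ⟨oW, hoW⟩ := exists_ori_Fb h (by omega) hkn hz
  rw [two_fib h H hk hk4 hkn (JX.sm_KE D.sx) hz hoF hoW]
  congr 1
  exact KX.valF D hz hoW

theorem rot : RotStmt := by
  intro n N K m κ S G h W₀ p₀ x δ PN hN D z hz oV ho
  have hn := D.hn
  have hm := D.hm
  exact two_tau D hN (by decide) le_rfl (by omega) hz ho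

/-- **`Vol4Stmt` up to (K10)** -/
theorem vol4_of_K10 (h3 : K10Stmt) : Vol4Stmt := vol4_of_inputs tle rot h3

end Crest.Agent.R208.ZG
end
end

-- ▼ part R208/JV4
section

/-! Row 208, block JV (helper638).  JV4: the value `(∫_S ξ^m)^2 = |∫_US K(E^*ξ) φ^*(x₂^(m-1) x₁^m)|`. -/

set_option autoImplicit false
set_option linter.unusedSectionVars false

open MeasureTheory MeasureTheory.Measure Set Filter Topology Module Metric
open scoped ContDiff RealInnerProductSpace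
open Crest.GeometryTopology.Submanifold
open Crest.Agent.R241.DDefs
open Crest.Agent.R241.D2
open Crest.Agent.R208.F Crest.Agent.R208.FI Crest.Agent.R208.CW Crest.Agent.R208.T
open Crest.Agent.R208.RR Crest.Agent.R208.RRC
open Crest.Agent.R208.L (US)

noncomputable section

namespace Crest.Agent.R208.JV

universe u v

section homot
variable {E : Type u} [NormedAddCommGroup E] [NormedSpace ℝ E] [FiniteDimensional ℝ E]
  {Z : Set E} {a : E × ℝ → Ext (E × ℝ)} {x : E}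

/-- `((z,t),s) ↦ (z, t s)` -/
def mu (q : (E × ℝ) × ℝ) : E × ℝ := (q.1.1, q.1.2 * q.2)

theorem contDiff_mu : ContDiff ℝ ∞ (mu : (E × ℝ) × ℝ → E × ℝ) :=
  contDiff_fst.fst.prodMk (contDiff_fst.snd.mul contDiff_snd)

theorem smap_mu : SMap (Cyl (Cyl Z)) (Cyl Z) (mu : (E × ℝ) × ℝ → E × ℝ) :=
  ⟨fun _ _ => contDiff_mu.contDiffAt, fun _ hq => ⟨hq.1.1, trivial⟩⟩

/-- `(z,t) ↦ (z,0)` -/
def c0 (q : E × ℝ) : E × ℝ := (q.1, 0)

theorem contDiff_c0 : ContDiff ℝ ∞ (c0 : E × ℝ → E × ℝ) := contDiff_fst.prodMk contDiff_const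

theorem smap_c0 : SMap (Cyl Z) (Cyl Z) (c0 : E × ℝ → E × ℝ) :=
  ⟨fun _ _ => contDiff_c0.contDiffAt, fun _ hq => ⟨hq.1, trivial⟩⟩

/-- the primitive of `a - a|₀` along the cylinder -/
def hp (a : E × ℝ → Ext (E × ℝ)) : E × ℝ → Ext (E × ℝ) := K (E := E × ℝ) (F.pull mu a)

theorem sm_hp (ha : Sm (Cyl Z) a) : Sm (Cyl Z) (hp a) :=
  RR.Sm.K (E := E × ℝ) (T.Sm.pull smap_mu ha)

theorem mu_sl (s : ℝ) : (mu ∘ sl (E := E × ℝ) s : E × ℝ → E × ℝ) = fun q => (q.1, q.2 * s) := rfl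

theorem pull_mu_sl (s : ℝ) (a : E × ℝ → Ext (E × ℝ)) (q : E × ℝ) :
    F.pull (sl (E := E × ℝ) s) (F.pull mu a) q = F.pull (mu ∘ sl (E := E × ℝ) s) a q :=
  F.pull_comp ((contDiff_sl s).contDiffAt.differentiableAt (by simp))
    (contDiff_mu.contDiffAt.differentiableAt (by simp))

theorem pull_mu_one (a : E × ℝ → Ext (E × ℝ)) (q : E × ℝ) :
    F.pull (sl (E := E × ℝ) 1) (F.pull mu a) q = a q := by
  rw [pull_mu_sl]
  have h1 : (mu ∘ sl (E := E × ℝ) 1 : E × ℝ → E × ℝ) = id := by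
    funext q
    rw [mu_sl]
    simp
  rw [h1, F.pull, fderiv_id, ContinuousLinearMap.coe_id]
  exact pb_id _

theorem pull_mu_zero (a : E × ℝ → Ext (E × ℝ)) (q : E × ℝ) :
    F.pull (sl (E := E × ℝ) 0) (F.pull mu a) q = F.pull c0 a q := by
  rw [pull_mu_sl]
  have h1 : (mu ∘ sl (E := E × ℝ) 0 : E × ℝ → E × ℝ) = c0 := by
    funext q
    rw [mu_sl]
    simp [c0]
  rw [h1]

theorem d_hp (hs : Sm (Cyl Z) a) (hc : Cl (Cyl Z) a) :
    Eqv (Cyl Z) (F.d (hp a)) (a - F.pull c0 a) := by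
  have h1 : Sm (Cyl (Cyl Z)) (F.pull mu a) := T.Sm.pull smap_mu hs
  have h2 := RR.K_d_eqv (E := E × ℝ) (Z := Cyl Z) h1
  have h3 : Eqv (Cyl Z) (K (E := E × ℝ) (F.d (F.pull mu a))) 0 :=
    resZero_iff.1 (RR.K_eqv0 (E := E × ℝ) (Sm.d h1) (T.Cl.pull smap_mu hs hc))
  have h4 : F.pull (sl (E := E × ℝ) 1) (F.pull mu a) - F.pull (sl (E := E × ℝ) 0) (F.pull mu a) =
      a - F.pull c0 a := by
    funext q
    rw [Pi.sub_apply, Pi.sub_apply, pull_mu_one, pull_mu_zero]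
  rw [h4] at h2
  have h5 := h2.sub h3
  exact (Eqv.of_eq fun q _ => by simp [hp]).trans (h5.trans (Eqv.of_eq fun q _ => by simp))

theorem sl1_hp (hs : Sm (Cyl Z) a) (hx : x ∈ Z) : F.pull (sl 1) (hp a) x = K a x := by
  have h1 := CG.pull_K (E' := E × ℝ) (f := sl (E := E) 1) (v := F.pull mu a) (Y := Cyl Z) (x := x)
    ((contDiff_sl 1).contDiffAt.differentiableAt (by simp)) (T.Sm.pull smap_mu hs) ⟨hx, trivial⟩
  have h2 : F.pull (CG.fx (sl (E := E) 1) fun t => t) (F.pull mu a) = a := by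
    funext q
    have hd : ContDiff ℝ ∞ (CG.fx (sl (E := E) 1) fun t => t) :=
      (contDiff_fst.prodMk contDiff_const).prodMk contDiff_snd
    rw [F.pull_comp (hd.contDiffAt.differentiableAt (by simp))
      (contDiff_mu.contDiffAt.differentiableAt (by simp))]
    have h3 : (mu ∘ (CG.fx (sl (E := E) 1) fun t => t) : E × ℝ → E × ℝ) = id := by
      funext q
      show (q.1, 1 * q.2) = q
      rw [one_mul]
    rw [h3, F.pull, fderiv_id, ContinuousLinearMap.coe_id]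
    exact pb_id _
  rw [h2] at h1
  exact h1

theorem sl0_hp (hs : Sm (Cyl Z) a) (hx : x ∈ Z) : F.pull (sl 0) (hp a) x = 0 := by
  have h1 := CG.pull_K (E' := E × ℝ) (f := sl (E := E) 0) (v := F.pull mu a) (Y := Cyl Z) (x := x)
    ((contDiff_sl 0).contDiffAt.differentiableAt (by simp)) (T.Sm.pull smap_mu hs) ⟨hx, trivial⟩
  have h2 : F.pull (CG.fx (sl (E := E) 0) fun t => t) (F.pull mu a) =
      F.pull (fun y : E × ℝ => sl (E := E) 0 y.1) a := by
    funext q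
    have hd : ContDiff ℝ ∞ (CG.fx (sl (E := E) 0) fun t => t) :=
      (contDiff_fst.prodMk contDiff_const).prodMk contDiff_snd
    rw [F.pull_comp (hd.contDiffAt.differentiableAt (by simp))
      (contDiff_mu.contDiffAt.differentiableAt (by simp))]
    have h3 : (mu ∘ (CG.fx (sl (E := E) 0) fun t => t) : E × ℝ → E × ℝ) =
        fun y : E × ℝ => sl (E := E) 0 y.1 := by
      funext q
      show (q.1, 0 * q.2) = (q.1, 0)
      rw [zero_mul]
    rw [h3]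
  rw [h2, CG.K_fst ((contDiff_sl 0).contDiffAt.differentiableAt (by simp))] at h1
  exact h1

end homot

section us
variable {n N k : ℕ} {κ : ℝ} {S : Set (Euc N)} {G : Geo n N κ S}
  {oS ξ : Euc N → Ext (Euc N)} {m d : ℕ}

theorem sm_EEx (hξ : Sm S ξ) : Sm (Cyl (US G)) (F.pull (EE G) ξ) := hξ.pull smap_EE
theorem sm_PPx (hξ : Sm S ξ) : Sm (Cyl (US G)) (F.pull PP ξ) := hξ.pull smap_PP

theorem c0_EEx : Eqv (Cyl (US G)) (F.pull c0 (F.pull (EE G) ξ)) (F.pull PP ξ) :=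
  eqv_pull_pull smap_c0 smap_EE smap_PP (fun q hq => by
    show Exp G q.1.1 ((Real.pi * 0) • q.1.2) = q.1.1
    rw [mul_zero, zero_smul]
    exact Crest.Agent.R241.D2.Exp_zero G hq.1.1.1) ξ

theorem ev_of (hk : Even k) (dξ : Hom k ξ) : Ev S ξ := Eqv.of_eq fun x _ => by
  obtain ⟨j, rfl⟩ := hk.two_dvd
  exact inv_of_isDeg (dξ x)

variable (G ξ) in
/-- `η a^m b^(m+1)` -/
def hc (m : ℕ) : (Euc N × Euc N) × ℝ → Ext ((Euc N × Euc N) × ℝ) :=
  hp (F.pull (EE G) ξ) * (F.pull (EE G) ξ ^ m * F.pull (PP (N := N)) ξ ^ (m + 1))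

theorem sm_pw (sξ : Sm S ξ) (i j : ℕ) :
    Sm (Cyl (US G)) (F.pull (EE G) ξ ^ i * F.pull (PP (N := N)) ξ ^ j) :=
  (RR.Sm.pow (sm_EEx sξ) i).mul (RR.Sm.pow (sm_PPx sξ) j)

theorem cl_pw (sξ : Sm S ξ) (cξ : Cl S ξ) (i j : ℕ) :
    Cl (Cyl (US G)) (F.pull (EE G) ξ ^ i * F.pull (PP (N := N)) ξ ^ j) :=
  T.Cl.mul (RR.Sm.pow (sm_EEx sξ) i) (RR.Sm.pow (sm_PPx sξ) j)
    (T.Cl.pow (sm_EEx sξ) (T.Cl.pull smap_EE sξ cξ) i)
    (T.Cl.pow (sm_PPx sξ) (T.Cl.pull smap_PP sξ cξ) j)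

theorem sm_hc (sξ : Sm S ξ) : Sm (Cyl (US G)) (hc G ξ m) :=
  (sm_hp (sm_EEx sξ)).mul (sm_pw sξ m (m + 1))

theorem top_PP (hB : Bl n N κ S G Real.pi) (hn : n < k * m) (dξ : Hom k ξ) :
    Eqv (Cyl (US G)) (F.pull (PP (N := N)) ξ ^ m) 0 := by
  have h1 : Eqv S (ξ ^ m) 0 := resZero_iff.1
    (SO.resZero_of_gt (GP.clo_S hB).sub (KD.hom_pow' dξ m) hn)
  have h2 := h1.pull (smap_PP (G := G))
  rwa [RR.pull_pow', pull_zero'] at h2

theorem comm_alg {C : Type*} [Ring C] {A B : C} (hc : Commute A B) (m : ℕ)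
    (h0 : B ^ (m + 2) = 0) :
    (A - B) * (A ^ m * B ^ (m + 1)) = A ^ (m + 1) * B ^ (m + 1) := by
  have e1 : (A - B) * (A ^ m * B ^ (m + 1)) = A ^ (m + 1) * B ^ (m + 1) -
      A ^ m * (B * B ^ (m + 1)) := by
    rw [sub_mul, ← mul_assoc, ← pow_succ', ← mul_assoc, ← mul_assoc, (hc.pow_left m).eq]
  rw [e1, ← pow_succ', h0, mul_zero, sub_zero]

theorem key_eqv (hB : Bl n N κ S G Real.pi) (hk : Even k) (hn : n < k * (m + 2))
    (sξ : Sm S ξ) (cξ : Cl S ξ) (dξ : Hom k ξ) :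
    Eqv (Cyl (US G)) (F.pull (EE G) ξ ^ (m + 1) * F.pull (PP (N := N)) ξ ^ (m + 1))
      (F.d (hc G ξ m)) := by
  have ea : Ev (Cyl (US G)) (F.pull (EE G) ξ) := Ev.pull smap_EE (ev_of hk dξ)
  have hdη := (d_hp (sm_EEx sξ) (T.Cl.pull smap_EE sξ cξ)).trans
    ((Eqv.refl (F.pull (EE G) ξ)).sub c0_EEx)
  have htop := top_PP hB hn dξ (G := G)
  refine Eqv.symm ((d_mul_cl (sm_hp (sm_EEx sξ)) (sm_pw sξ m (m + 1))
    (cl_pw sξ cξ m (m + 1))).trans ((hdη.mul (Eqv.refl _)).trans ?_))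
  refine eqv_iff.2 fun x hx => ?_
  have h0 := eqv_iff.1 htop x hx
  have hcom := ea.comm hx (Rs (Cyl (US G)) x (F.pull (PP (N := N)) ξ x))
  change Rs (Cyl (US G)) x ((F.pull (PP (N := N)) ξ ^ (m + 2)) x) = Rs (Cyl (US G)) x 0 at h0
  change Rs (Cyl (US G)) x _ = Rs (Cyl (US G)) x _
  simp only [Pi.mul_apply, Pi.pow_apply, Pi.sub_apply, map_mul, map_pow, map_sub,
    map_zero] at h0 hcom ⊢
  exact comm_alg hcom m h0

theorem J_red1 (hB : Bl n N κ S G Real.pi) (hk : Even k) (hn : n < k * (m + 2))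
    (hU : Clo d (US G))
    {o : Euc N × Euc N → Ext (Euc N × Euc N)} (ho : Ori d (US G) o)
    (sξ : Sm S ξ) (cξ : Cl S ξ) (dξ : Hom k ξ) :
    J d (US G) o (K (F.pull (EE G) ξ ^ (m + 1) * F.pull PP ξ ^ (m + 1))) =
      J d (US G) o (F.pull (sl 1) (hc G ξ m)) := by
  have h0 : J d (US G) o (F.pull (sl 0) (hc G ξ m)) = 0 := by
    have : Eqv (US G) (F.pull (sl 0) (hc G ξ m)) 0 := Eqv.of_eq fun x hx => by
      rw [hc, pull_mul', Pi.mul_apply, sl0_hp (sm_EEx sξ) hx, zero_mul, Pi.zero_apply]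
    rw [J_eqv hU this]
    exact J_zero
  have h1 := JK_congr (o := o) hU (sm_pw sξ (m + 1) (m + 1)) (Sm.d (sm_hc sξ))
    (key_eqv hB hk hn sξ cξ dξ)
  have h2 := JK_d hU ho (sm_hc (m := m) sξ)
  rw [h0, sub_zero] at h2
  exact h1.trans h2

theorem sl1_hc (hB : Bl n N κ S G Real.pi) (sξ : Sm S ξ) :
    Eqv (US G) (F.pull (sl 1) (hc G ξ m)) (K (F.pull (EE G) ξ) *
        F.pull (FV.phi G) (F.pull Prod.snd (ξ ^ m) * F.pull Prod.fst (ξ ^ (m + 1)))) := by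
  rw [hc, pull_mul', pull_mul', RR.pull_pow', RR.pull_pow', RR.pull_pow', RR.pull_pow', pull_mul',
    RR.pull_pow', RR.pull_pow']
  refine (Eqv.of_eq fun x hx => sl1_hp (sm_EEx sξ) hx).mul ((Eqv.pow (KD.sl_EE_one hB) m).mul
    (Eqv.pow ((KD.sl_PP 1 sξ).trans ?_) (m + 1)))
  exact (eqv_pull_pull (KD.smap_phi hB) KD.smap_fst_FF KD.smap_fst_US (fun _ _ => rfl) ξ).symm

/-- **the reduction**: `(∫_S ξ^(m+1))^2 = |∫ K(a) φ^*(x₂^m x₁^(m+1))|` -/
theorem sq_eq (hB : Bl n N κ S G Real.pi) (hn2 : 2 ≤ n) (hk : Even k) (hn : n = k * (m + 1))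
    (hk0 : 0 < k) (hd : d + 1 = 2 * n)
    {o : Euc N × Euc N → Ext (Euc N × Euc N)} (ho : Ori d (US G) o) (hoS : Ori n S oS)
    (sξ : Sm S ξ) (cξ : Cl S ξ) (dξ : Hom k ξ) :
    |J d (US G) o (K (F.pull (EE G) ξ) *
        F.pull (FV.phi G) (F.pull Prod.snd (ξ ^ m) * F.pull Prod.fst (ξ ^ (m + 1))))| =
      (J n S oS (ξ ^ (m + 1))) ^ 2 := by
  have hU : Clo d (US G) := by
    obtain ⟨l, rfl⟩ : ∃ l, n = 1 + l := ⟨n - 1, by omega⟩
    have := (subm_US hB).cloZ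
    rwa [show l + (1 + l) = d by omega] at this
  have hdeg : Hom n (ξ ^ (m + 1)) := by
    rw [hn]
    exact KD.hom_pow' dξ (m + 1)
  rw [← DF_two (m := m + 1) hB hn2 hd ho hoS sξ
    (fun x _ q hq => SO.evA_lt_of_hom hdeg x q hq), one_mul,
    J_red1 hB hk (by rw [hn]; nlinarith) hU ho sξ cξ dξ, J_eqv hU (sl1_hc hB sξ)]

end us

end Crest.Agent.R208.JV
end
end

-- ▼ part R208/JV5
section

/-! Row 208, block JV (helper638).  JV5: on `US` the form `K(E^*x)` is cohomologous to the angular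
form of `V` (plus a form pulled back from `F`); its integral over the spheres of `V` is `± τ`. -/

set_option autoImplicit false
set_option linter.unusedSectionVars false

open MeasureTheory MeasureTheory.Measure Set Filter Topology Module Metric
open scoped ContDiff RealInnerProductSpace
open Crest.GeometryTopology.Submanifold
open Crest.Agent.R241.DDefs
open Crest.Agent.R241.D2
open Crest.Agent.R208.F Crest.Agent.R208.FI Crest.Agent.R208.CW Crest.Agent.R208.T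
open Crest.Agent.R208.RR (Cyl sl K)
open Crest.Agent.R208.RRC (EE PP smap_EE smap_PP)
open Crest.Agent.R208.L (US)

noncomputable section

namespace Crest.Agent.R208.JV

universe u v

section dif
variable {E : Type u} {E' : Type v} [NormedAddCommGroup E] [NormedSpace ℝ E]
  [FiniteDimensional ℝ E] [NormedAddCommGroup E'] [NormedSpace ℝ E'] [FiniteDimensional ℝ E']
  {X : Set E} {Z : Set E'} {g : E' → E} {g' : E → E'} {n : ℕ} {o : E' → Ext E'}
  {oX om : E → Ext E}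

/-- change of variables, up to sign -/
theorem abs_J_dif (h : SB.Dif Z X g g') (hZ : Clo n Z) (hX : Clo n X) (hZc : IsPreconnected Z)
    (ho : Ori n Z o) (hoX : Ori n X oX) (hom : ContinuousOn om X) :
    |J n Z o (F.pull g om)| = |J n X oX om| := by
  have hb : BijOn g Z X := by
    refine ⟨h.fw.maps, fun z hz z' hz' he => ?_, fun y hy => ⟨g' y, h.inv.maps hy, h.right y hy⟩⟩
    rw [← h.left z hz, ← h.left z' hz', he]
  have h1 := J_pull hZ hX (fun z hz => h.fw.diff hz) hb hoX hom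
  have h2 : Ori n Z (F.pull g oX) := Ori.pull hZ hX
    (fun z hz => (h.fw.smooth z hz).of_le (by simp)) h.fw.maps
    (fun z hz v hv h0 => h.inj hz hv h0) hoX
  rw [← h1]
  exact abs_J_ori hZ hZc h2 ho _

end dif

variable {n N k m : ℕ} {κ : ℝ} {S : Set (Euc N)} {G : Geo n N κ S} {p : Euc N}
  {ι : Type} [Fintype ι] [DecidableEq ι] {W : Euc N × Euc N → (ι × Fin 2 → Fin N) → ℝ}
  {x : Euc N → Ext (Euc N)}

theorem smap_up (h : GT.Bla G k) : SMap (US G) (Sph (GT.FF S) (FV.PVB h)) (FV.up G) :=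
  (SB.dif_US h).fw

variable (G) in
/-- the angular form on `US` -/
def kU (h : GT.Bla G k) (W : Euc N × Euc N → (ι × Fin 2 → Fin N) → ℝ) :
    Euc N × Euc N → Ext (Euc N × Euc N) := F.pull (FV.up G) (ang (FV.PVB h) W)

theorem d_KX (h : GT.Bla G k) (sx : Sm S x) (cx : Cl S x) :
    Eqv (US G) (F.d (K (F.pull (EE G) x)))
      (F.pull (FV.phi G) (F.pull Prod.snd x) - F.pull Prod.fst x) := by
  have h1 := RR.K_d_eqv (Z := US G) (sm_EEx sx)
  have h2 : Eqv (US G) (K (F.d (F.pull (EE G) x))) 0 :=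
    resZero_iff.1 (RR.K_eqv0 (Sm.d (sm_EEx sx)) (T.Cl.pull smap_EE sx cx))
  have h4 : Eqv (US G) (F.pull (sl 1) (F.pull (EE G) x) - F.pull (sl 0) (F.pull (EE G) x))
      (F.pull (FV.phi G) (F.pull Prod.snd x) - F.pull Prod.fst x) :=
    (KD.sl_EE_one (ξ := x) h.bl).sub (KD.sl_EE_zero (ξ := x))
  have h3 := (h1.sub h2).trans ((Eqv.of_eq fun z _ => by rw [Pi.sub_apply, Pi.zero_apply,
    sub_zero]).trans h4)
  exact (Eqv.of_eq fun z _ => by rw [Pi.sub_apply, Pi.add_apply, add_sub_cancel_right]).trans h3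

theorem d_kU [Nonempty ι] {dF : ℕ} (h : GT.Bla G k) (hdF : dF + k = 2 * n)
    (hW : OR (GT.FF S) (FV.PVB h) W) :
    Eqv (US G) (F.d (kU G h W)) (-(F.pull (FV.phi G) (eR (FV.PVB h) W))) := by
  have hF := FV.sub_FF' h hdF
  have h1 := d_pull_eqv (smap_up h) (sm_ang hF hW)
  have h2 := (d_ang hF hW).pull (smap_up h)
  rw [pull_neg'] at h2
  exact (h1.trans h2).trans (eqv_pull_pull (smap_up h) smap_fstS (KD.smap_phi h.bl)
    (fun _ _ => rfl) _).neg

theorem XM.ne {h : GT.Bla G k} (D : XM h m W p x) : Nonempty ι :=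
  Fintype.card_pos_iff.1 (by have := D.hι; have := D.hk; omega)

theorem XM.eF {h : GT.Bla G k} (D : XM h m W p x) : (2 * n - k) + k = 2 * n := by
  have := D.hkn
  omega

/-- `x₂ - (x₁ - ε) ~ dμ` -/
theorem exists_mu {h : GT.Bla G k} (D : XM h m W p x) :
    ∃ μ : Euc N × Euc N → Ext (Euc N × Euc N), Sm (GT.FF S) μ ∧ Hom (k - 1) μ ∧
      Eqv (GT.FF S) (F.pull Prod.snd x - (F.pull Prod.fst x - eR (FV.PVB h) W)) (F.d μ) := by
  have hk := D.hk
  have e1 : k - 1 + 1 = k := by omega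
  have e2 : Coh (GT.FF S) (F.pull Prod.snd x - (F.pull Prod.fst x - eR (FV.PVB h) W)) 0 := by
    have := D.snd_class.sub (Coh.refl (F.pull Prod.fst x - eR (FV.PVB h) W))
    rwa [sub_self] at this
  have e4 : Hom k (eR (FV.PVB h) W) := by
    have := SN.eR_hom (P := FV.PVB h) (W := W)
    rwa [D.hι] at this
  have e3 : Hom (k - 1 + 1) (F.pull Prod.snd x - (F.pull Prod.fst x - eR (FV.PVB h) W)) := by
    rw [e1]
    exact (D.dx.pull).sub ((D.dx.pull).sub e4)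
  exact e2.prim e3

theorem d_phi_mu (h : GT.Bla G k) {μ : Euc N × Euc N → Ext (Euc N × Euc N)}
    (sμ : Sm (GT.FF S) μ)
    (eμ : Eqv (GT.FF S) (F.pull Prod.snd x - (F.pull Prod.fst x - eR (FV.PVB h) W)) (F.d μ)) :
    Eqv (US G) (F.d (F.pull (FV.phi G) μ)) (F.pull (FV.phi G) (F.pull Prod.snd x) -
      (F.pull (FV.phi G) (F.pull Prod.fst x) - F.pull (FV.phi G) (eR (FV.PVB h) W))) := by
  have := (d_pull_eqv (KD.smap_phi h.bl) sμ).trans (eμ.symm.pull (KD.smap_phi h.bl))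
  rwa [pull_sub', pull_sub'] at this

theorem alg_eqv {E : Type*} [NormedAddCommGroup E] [NormedSpace ℝ E] [FiniteDimensional ℝ E]
    {X : Set E} {A B D' e : E → Ext E} (h : Eqv X D' B) :
    Eqv X ((A - B) - (-e + (A - (D' - e)))) 0 := by
  refine eqv_iff.2 fun z hz => ?_
  have g4 := eqv_iff.1 h z hz
  simp only [Pi.sub_apply, Pi.add_apply, Pi.neg_apply, map_sub, map_add, map_neg,
    Pi.zero_apply, map_zero, g4]
  abel

theorem sm_KX (sx : Sm S x) : Sm (US G) (K (F.pull (EE G) x)) := RR.Sm.K (sm_EEx sx)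

theorem sm_kU [Nonempty ι] (h : GT.Bla G k) {dF : ℕ} (hdF : dF + k = 2 * n)
    (hW : OR (GT.FF S) (FV.PVB h) W) : Sm (US G) (kU G h W) :=
  (sm_ang (FV.sub_FF' h hdF) hW).pull (smap_up h)

theorem cl_diff {h : GT.Bla G k} (D : XM h m W p x) {μ : Euc N × Euc N → Ext (Euc N × Euc N)}
    (sμ : Sm (GT.FF S) μ)
    (eμ : Eqv (GT.FF S) (F.pull Prod.snd x - (F.pull Prod.fst x - eR (FV.PVB h) W)) (F.d μ)) :
    Cl (US G) (K (F.pull (EE G) x) - (kU G h W + F.pull (FV.phi G) μ)) := by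
  have := XM.ne D
  have sK : Sm (US G) (K (F.pull (EE G) x)) := sm_KX D.sx
  have sU : Sm (US G) (kU G h W) := sm_kU h (XM.eF D) D.hW
  have sφ : Sm (US G) (F.pull (FV.phi G) μ) := sμ.pull (KD.smap_phi h.bl)
  have d4 : Eqv (US G) (F.pull (FV.phi G) (F.pull Prod.fst x)) (F.pull Prod.fst x) :=
    eqv_pull_pull (KD.smap_phi h.bl) KD.smap_fst_FF KD.smap_fst_US (fun _ _ => rfl) x
  refine resZero_iff.2 ?_
  have f1 := d_KX h D.sx D.cx
  have f2 := d_kU h (XM.eF D) D.hW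
  have f3 : Eqv (US G) (F.d (K (F.pull (EE G) x) - (kU G h W + F.pull (FV.phi G) μ)))
      (F.d (K (F.pull (EE G) x)) - (F.d (kU G h W) + F.d (F.pull (FV.phi G) μ))) :=
    (d_sub_eqv sK (sU.add sφ)).trans ((Eqv.refl _).sub (d_add_eqv sU sφ))
  exact f3.trans ((f1.sub (f2.add (d_phi_mu h sμ eμ))).trans (alg_eqv d4))

theorem hom_diff {h : GT.Bla G k} (D : XM h m W p x) {μ : Euc N × Euc N → Ext (Euc N × Euc N)}
    (dμ : Hom (k - 1) μ) :
    Hom (k - 1) (K (F.pull (EE G) x) - (kU G h W + F.pull (FV.phi G) μ)) := by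
  have := XM.ne D
  have hk := D.hk
  have g1 : ∀ y, IsDeg (k - 1 + 1) (F.pull (EE G) x y) := fun y => by
    rw [show k - 1 + 1 = k by omega]
    exact (D.dx _).pb _
  have g2 : k - 1 + 1 = Fintype.card ι * 2 := by have := D.hι; omega
  have g3 : Hom (k - 1) (ang (FV.PVB h) W) := hom_ang g2
  exact Hom.sub (fun z => RRC.isDeg_K g1 z) (Hom.add g3.pull dμ.pull)

/-- **the primitives `K(E^*x)` and the angular form** -/
theorem exists_kappa {h : GT.Bla G k} (D : XM h m W p x) :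
    ∃ μ : Euc N × Euc N → Ext (Euc N × Euc N), Sm (GT.FF S) μ ∧ Hom (k - 1) μ ∧
      Coh (US G) (K (F.pull (EE G) x)) (kU G h W + F.pull (FV.phi G) μ) := by
  have := XM.ne D
  obtain ⟨μ, sμ, dμ, eμ⟩ := exists_mu D
  refine ⟨μ, sμ, dμ, ?_⟩
  have ex := D.exactIn_US
  rw [FV.Sph_S] at ex
  have sK : Sm (US G) (K (F.pull (EE G) x)) := sm_KX D.sx
  have sU : Sm (US G) (kU G h W) := sm_kU h (XM.eF D) D.hW
  have sφ : Sm (US G) (F.pull (FV.phi G) μ) := sμ.pull (KD.smap_phi h.bl)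
  have c := ex _ (sK.sub (sU.add sφ)) (cl_diff D sμ eμ) (hom_diff D dμ)
  have := c.add (Coh.refl (kU G h W + F.pull (FV.phi G) μ))
  rwa [sub_add_cancel, zero_add] at this

end Crest.Agent.R208.JV
end
end

-- ▼ part R208/JV6
section

/-! Row 208, block JV (helper638).  JV6: `|∫_US K(E^*x) φ^*b| = τ |∫_F b|`, the integral of
`K(E^*x)` over the spheres of `V` is `± τ`, and `|∫_S x^m| = τ |∫_{C_p} x^(m-1)|`. -/

set_option autoImplicit false
set_option linter.unusedSectionVars false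

open MeasureTheory MeasureTheory.Measure Set Filter Topology Module Metric
open scoped ContDiff RealInnerProductSpace
open Crest.GeometryTopology.Submanifold
open Crest.Agent.R241.DDefs
open Crest.Agent.R241.D2
open Crest.Agent.R208.F Crest.Agent.R208.FI Crest.Agent.R208.CW Crest.Agent.R208.T
open Crest.Agent.R208.RR (Cyl sl K)
open Crest.Agent.R208.RRC (EE PP smap_EE smap_PP)
open Crest.Agent.R208.L (US)

noncomputable section

namespace Crest.Agent.R208.JV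

variable {n N k m : ℕ} {κ : ℝ} {S : Set (Euc N)} {G : Geo n N κ S} {p : Euc N}
  {ι : Type} [Fintype ι] [DecidableEq ι] {W : Euc N × Euc N → (ι × Fin 2 → Fin N) → ℝ}
  {x : Euc N → Ext (Euc N)} {d dF : ℕ} {oU oF b : Euc N × Euc N → Ext (Euc N × Euc N)}

theorem cl_top {E : Type*} [NormedAddCommGroup E] [NormedSpace ℝ E] [FiniteDimensional ℝ E]
    {X : Set E} {b : E → Ext E} (hX : FI.Sub d X) (sb : Sm X b) (db : Hom d b) : Cl X b := by
  have h1 : Eqv X (F.d b) (T.dp (d + 1) (F.d b)) := Eqv.of_eq fun x hx => by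
    have h2 := dp_d d (sb.diff hx)
    have h3 : T.dp d b = b := db.dp_eq
    rw [h3] at h2
    exact h2.symm
  exact resZero_iff.2 (h1.trans (resZero_iff.1 (SO.resZero_of_gt hX (hom_dp (d + 1) (F.d b))
    (Nat.lt_succ_self d))))

/-- **total integrals** -/
theorem abs_J_KX {h : GT.Bla G k} (D : XM h m W p x) (hdF : dF + k = 2 * n)
    (hd : d + 1 = 2 * n) (hoU : Ori d (US G) oU) (hoF : Ori dF (GT.FF S) oF)
    (sb : Sm (GT.FF S) b) (db : Hom dF b) :
    |J d (US G) oU (K (F.pull (EE G) x) * F.pull (FV.phi G) b)| =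
      XF.tau ι * |J dF (GT.FF S) oF b| := by
  have := XM.ne D
  have hk := D.hk
  have hkn := D.hkn
  obtain ⟨μ, sμ, dμ, hc⟩ := exists_kappa D
  have hU := SB.clo_US h hd
  have hFc := FV.clo_FF' h hdF
  have cb : Cl (GT.FF S) b := cl_top hFc.sub sb db
  have sB : Sm (US G) (F.pull (FV.phi G) b) := sb.pull (KD.smap_phi h.bl)
  have cB : Cl (US G) (F.pull (FV.phi G) b) := T.Cl.pull (KD.smap_phi h.bl) sb cb
  have sK : Sm (US G) (K (F.pull (EE G) x)) := sm_KX D.sx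
  have sU : Sm (US G) (kU G h W) := sm_kU h hdF D.hW
  have sφ : Sm (US G) (F.pull (FV.phi G) μ) := sμ.pull (KD.smap_phi h.bl)
  have h1 : J d (US G) oU (K (F.pull (EE G) x) * F.pull (FV.phi G) b) =
      J d (US G) oU ((kU G h W + F.pull (FV.phi G) μ) * F.pull (FV.phi G) b) :=
    SO.J_coh hU hoU (sK.mul sB) ((sU.add sφ).mul sB) (Coh.mul_right sB cB hc)
  have h2 : Eqv (US G) ((kU G h W + F.pull (FV.phi G) μ) * F.pull (FV.phi G) b)
      (F.pull (FV.up G) (ang (FV.PVB h) W * F.pull Prod.fst b)) := by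
    have e1 : Eqv (US G) (F.pull (FV.phi G) μ * F.pull (FV.phi G) b) 0 := by
      rw [← pull_mul', ← pull_zero' (FV.phi G)]
      refine Eqv.pull (KD.smap_phi h.bl) (resZero_iff.1 (SO.resZero_of_gt hFc.sub
        (p := k - 1 + dF) (fun z => isDeg_mul (dμ z) (db z)) (by omega)))
    have e2 : Eqv (US G) (F.pull (FV.up G) (F.pull Prod.fst b)) (F.pull (FV.phi G) b) :=
      eqv_pull_pull (smap_up h) smap_fstS (KD.smap_phi h.bl) (fun _ _ => rfl) b
    rw [add_mul, pull_mul']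
    exact ((Eqv.refl _).add e1).trans ((Eqv.of_eq fun z _ => by
      rw [Pi.add_apply, Pi.zero_apply, add_zero]).trans ((Eqv.refl (kU G h W)).mul e2.symm))
  have hr : k - 1 + 1 = Fintype.card ι * 2 := by have := D.hι; omega
  have hP := pfr D.hW hr
  have hcl : Clo (k - 1 + dF) (Sph (GT.FF S) (FV.PVB h)) := SB.clo_Sph hFc hP
  have hd' : k - 1 + dF = d := by omega
  have hoX : Ori (k - 1 + dF) (Sph (GT.FF S) (FV.PVB h))
      (Hop (ER (E := Euc N × Euc N) (H := Euc N)) (oSB W (dp dF oF))) :=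
    (swp hFc hP).ori (ori_oSB hFc (ori_dp hoF) (fun x => isDeg_dpl _ _) D.hW hr)
  have h3 := abs_J_ang hFc (FV.preconn_FF' h (by omega)) hoF D.hW hr sb db
    ⟨FV.phi G (Classical.choose (nonempty_UST h D.hp)),
      (KD.smap_phi h.bl).maps (Classical.choose_spec (nonempty_UST h D.hp))⟩ hoX
  rw [h1, SO.J_eqv hU h2, ← h3]
  rw [hd'] at hcl hoX ⊢
  refine abs_J_dif (SB.dif_US h) hU hcl (FV.preconn_US h.bl (by omega)) hoU hoX ?_
  exact RR.Sm.cont ((sm_ang hFc.sub D.hW).mul (sb.pull smap_fstS))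

end Crest.Agent.R208.JV
end
end

-- ▼ part R208/JV7
section

/-! Row 208, block JV (helper638).  JV7: the fibre integrals; **`|∫_S x^m| = τ |∫_{C_q} x^(m-1)|`**. -/

set_option autoImplicit false
set_option linter.unusedSectionVars false

open MeasureTheory MeasureTheory.Measure Set Filter Topology Module Metric
open scoped ContDiff RealInnerProductSpace
open Crest.GeometryTopology.Submanifold
open Crest.Agent.R241.DDefs
open Crest.Agent.R241.D2
open Crest.Agent.R208.F Crest.Agent.R208.FI Crest.Agent.R208.CW Crest.Agent.R208.T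
open Crest.Agent.R208.RR (Cyl sl K)
open Crest.Agent.R208.RRC (EE PP smap_EE smap_PP)
open Crest.Agent.R208.L (US)

noncomputable section

namespace Crest.Agent.R208.JV

variable {n N k m : ℕ} {κ : ℝ} {S : Set (Euc N)} {G : Geo n N κ S} {p q : Euc N}
  {ι : Type} [Fintype ι] [DecidableEq ι] {W : Euc N × Euc N → (ι × Fin 2 → Fin N) → ℝ}
  {x oS oC : Euc N → Ext (Euc N)} {d dF : ℕ} {oU oF b : Euc N × Euc N → Ext (Euc N × Euc N)}

theorem dif_cut (hq : q ∈ S) : SB.Dif (GT.FF S ∩ (Prod.fst : Euc N × Euc N → Euc N) ⁻¹' {q})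
    (GP.Cut S q) Prod.snd (fun y => (q, y)) where
  fw := ⟨fun _ _ => contDiffAt_snd, fun z hz => (FG.bij_fib q hq).mapsTo hz⟩
  inv := ⟨fun _ _ => contDiffAt_const.prodMk contDiffAt_id, fun y hy => by
    obtain ⟨z, hz, he⟩ := (FG.bij_fib q hq).surjOn hy
    have h1 : z.1 = q := hz.2
    have : (q, y) = z := Prod.ext h1.symm he.symm
    show (q, y) ∈ _
    rw [this]
    exact hz⟩
  left z hz := by
    have h1 : z.1 = q := hz.2
    exact Prod.ext h1.symm rfl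
  right _ _ := rfl

/-- **integration over `F → S`** -/
theorem abs_J_FF (h : GT.Bla G k) (hk : 2 ≤ k) (hkn : k < n) (hq : q ∈ S)
    (hdF : dF + k = 2 * n) (hoF : Ori dF (GT.FF S) oF) (hoS : Ori n S oS)
    {c b' : Euc N → Ext (Euc N)} (sc : Sm S c) (cc : Cl S c) (sb : Sm S b') (db : Hom n b')
    (hoC : Ori (n - k) (GP.Cut S q) oC) :
    |J dF (GT.FF S) oF (F.pull Prod.snd c * F.pull Prod.fst b')| =
      |J (n - k) (GP.Cut S q) oC c| * |J n S oS b'| := by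
  obtain ⟨w, sw, dw, hC, hos⟩ := SB.exists_osubm_F h hk hkn (ori_dp hoS)
    (fun x => isDeg_dpl _ _)
  obtain rfl : dF = n - k + n := by omega
  have hcl := hos.subm.cloZ
  have h1 := SO.fib rfl hos.subm (preconn_S h) hos.base (fun x => isDeg_dpl _ _) hos.cV hos.tot
    (sc.pull KD.smap_snd_FF) (T.Cl.pull KD.smap_snd_FF sc cc) sb db hq
  have h2 := abs_J_ori hcl (FV.preconn_FF' h (by omega)) hos.tot hoF
    (F.pull Prod.snd c * F.pull Prod.fst b')
  have h3 := abs_J_dif (dif_cut hq) (hos.subm.clo_fibre q) (FV.clo_Cut h hq)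
    (FG.preconn_fib h (by omega) hq) (hos.fib q) hoC (om := c)
    (RR.Sm.cont (sc.mono fun y hy => (FG.smap_cut q).maps hy))
  rw [h2]
  have h4 : |J (n - k + n) (GT.FF S) (fun z => pb (ContinuousLinearMap.snd ℝ (Euc N) (Euc N) :
      Euc N × Euc N →ₗ[ℝ] Euc N) (w z) * F.pull Prod.fst (T.dp n oS) z)
      (F.pull Prod.snd c * F.pull Prod.fst b')| = _ := congrArg abs h1
  rw [h4, abs_mul, h3, abs_J_ori (GP.clo_S h.bl) (preconn_S h) hoS (ori_dp hoS)]






/-- **THE VALUE**: `|∫_S x^m| = τ |∫_{C_q} x^(m-1)|` -/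
theorem abs_J_S {h : GT.Bla G k} (D : XM h m W p x) (hoS : Ori n S oS) (hq : q ∈ S)
    (hoC : Ori (n - k) (GP.Cut S q) oC) :
    |J n S oS (x ^ m)| = XF.tau ι * |J (n - k) (GP.Cut S q) oC (x ^ (m - 1))| := by
  have hk := D.hk
  have hkn := D.hkn
  have hm := D.hm
  obtain ⟨m', rfl⟩ : ∃ m', m = m' + 1 := ⟨m - 1, by omega⟩
  have hdF := XM.eF D
  have hd : 2 * n - 1 + 1 = 2 * n := by omega
  obtain ⟨w, -, -, -, hos⟩ := SB.exists_osubm_F h hk hkn (ori_dp hoS) (fun x => isDeg_dpl _ _)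
  have hoF := hos.tot
  rw [show n - k + n = 2 * n - k by omega] at hoF
  obtain ⟨oV, -, -, hos'⟩ := SB.exists_osubm_phi h hk hkn hdF (ori_dp hoF)
    (fun x => isDeg_dpl _ _)
  have hoU := hos'.tot
  rw [show k - 1 + (2 * n - k) = 2 * n - 1 by omega] at hoU
  have dm : Hom n (x ^ (m' + 1)) := by
    have := KD.hom_pow' D.dx (m' + 1)
    rwa [← D.hn] at this
  have h1 := sq_eq h.bl (by omega) D.hke D.hn (by omega) hd hoU hoS D.sx D.cx D.dx
  have sb : Sm (GT.FF S) (F.pull Prod.snd (x ^ m') * F.pull Prod.fst (x ^ (m' + 1))) :=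
    ((RR.Sm.pow D.sx m').pull KD.smap_snd_FF).mul ((RR.Sm.pow D.sx (m' + 1)).pull KD.smap_fst_FF)
  have db : Hom (2 * n - k) (F.pull Prod.snd (x ^ m') * F.pull Prod.fst (x ^ (m' + 1))) := by
    have e : 2 * n - k = k * m' + n := by
      have := D.hn
      rw [mul_add, mul_one] at this
      omega
    rw [e]
    exact fun z => isDeg_mul ((KD.hom_pow' D.dx m' _).pb _) ((dm _).pb _)
  have h2 := abs_J_KX D hdF hd hoU hoF sb db
  have h3 := abs_J_FF h hk hkn hq hdF hoF hoS (RR.Sm.pow D.sx m')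
    (T.Cl.pow D.sx D.cx m') (RR.Sm.pow D.sx (m' + 1)) dm hoC
  rw [h1, h3] at h2
  have hne : |J n S oS (x ^ (m' + 1))| ≠ 0 := abs_ne_zero.2 (D.J_ne hoS)
  rw [← sq_abs, sq, ← mul_assoc] at h2
  exact mul_right_cancel₀ hne h2

end Crest.Agent.R208.JV
end
end

-- ▼ part R208/QK1

/-! Row 208, (K10) (helper305), part QK1: **the integrality of `α` for `k = 4`** on the manifold of
geodesics: `4 ≤ |α|`. -/

set_option autoImplicit false
set_option linter.unusedSectionVars false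
set_option linter.unusedVariables false

open MeasureTheory Set Filter Topology Module
open scoped ContDiff RealInnerProductSpace
open Crest.GeometryTopology.Submanifold
open Crest.Agent.R241.DDefs
open Crest.Agent.R241.D2
open Crest.Agent.R208.F Crest.Agent.R208.FI Crest.Agent.R208.CW Crest.Agent.R208.FG
open Crest.Agent.R208.T (Sm Cl Hom Coh Eqv eR OR Sph)
open Crest.Agent.R208.SO (CF2)
open Crest.Agent.R208.L (US)
open Crest.Agent.R208.LB (al)
open Crest.Agent.R208.CM (gf MM jj Quo Emb Curv)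
open Crest.Agent.R208.EW (cR)
open Crest.Agent.R208.EP (NLp WNp CPk)

noncomputable section

namespace Crest.Agent.R208.QK

section fib
variable {n N k : ℕ} {κ : ℝ} {S : Set (Euc N)} {G : Geo n N κ S} {p : Euc N}

/-- the fibre over `p` of `F → S` is the cut locus of `p` -/
theorem J_fib_FF (h : GT.Bla G k) (hp : p ∈ S)
    {w : Euc N × Euc N → Ext (Euc N)} (hF : Clo (n - k) (GT.FF S ∩ Prod.fst ⁻¹' {p}))
    (hw : Ori (n - k) (GP.Cut S p) (fun q => w (p, q))) {a : Euc N → Ext (Euc N)} (sa : Sm S a) :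
    J (n - k) (GT.FF S ∩ Prod.fst ⁻¹' {p})
      (fun z => pb (ContinuousLinearMap.snd ℝ (Euc N) (Euc N) : Euc N × Euc N →ₗ[ℝ] Euc N) (w z))
      (F.pull Prod.snd a) = J (n - k) (GP.Cut S p) (fun q => w (p, q)) a := by
  have hb : BijOn (Prod.snd : Euc N × Euc N → Euc N) (GT.FF S ∩ Prod.fst ⁻¹' {p}) (GP.Cut S p) := by
    refine ⟨?_, ?_, ?_⟩
    · rintro ⟨p', q⟩ ⟨⟨h1, h2, h3⟩, h4⟩
      obtain rfl : p' = p := h4
      exact ⟨h2, h3⟩
    · rintro ⟨p', q⟩ ⟨_, h4⟩ ⟨p'', q'⟩ ⟨_, h5⟩ h6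
      have h4' : p' = p := h4
      have h5' : p'' = p := h5
      have h6' : q = q' := h6
      rw [h4', h5', h6']
    · intro q hq
      exact ⟨(p, q), ⟨⟨hp, hq.1, hq.2⟩, rfl⟩, rfl⟩
  have h1 := J_pull (om := a) hF (FV.clo_Cut h hp) (fun z _ => differentiableAt_snd) hb hw
    (fun q hq => (sa q hq.1).continuousAt.continuousWithinAt)
  rw [← h1]
  refine AF.J_ori_eq hF fun z hz => ?_
  have h2 : z.1 = p := hz.2
  rw [FG.pull_snd_apply, ← h2]

end fib

/-- the arithmetic -/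
theorem arith {α μ X P : ℝ} (hP : 0 < P) (hμ : |μ| = 2) {z₁ z₂ : ℤ}
    (h1 : (2 * P) ^ 2 * z₁ = α / 4 * (2 * P) ^ 2 + μ / 4 * X) (h2 : 2 * X = 32 * P ^ 2 * z₂)
    (hα : α ≠ 0) : 4 ≤ |α| := by
  have hP0 : P ≠ 0 := hP.ne'
  have hX : X = 16 * P ^ 2 * z₂ := by linarith
  have key : ∃ w : ℤ, α = 4 * w := by
    rcases abs_eq_abs.1 (show |μ| = |(2 : ℝ)| by rw [hμ, abs_two]) with hb | hb
    · refine ⟨z₁ - 2 * z₂, ?_⟩
      rw [hX, hb] at h1
      have h3 : α * P ^ 2 = (4 * (z₁ - 2 * z₂)) * P ^ 2 := by linear_combination -h1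
      have h4 := mul_right_cancel₀ (pow_ne_zero 2 hP0) h3
      push_cast
      linarith
    · refine ⟨z₁ + 2 * z₂, ?_⟩
      rw [hX, hb] at h1
      have h3 : α * P ^ 2 = (4 * (z₁ + 2 * z₂)) * P ^ 2 := by linear_combination -h1
      have h4 := mul_right_cancel₀ (pow_ne_zero 2 hP0) h3
      push_cast
      linarith
  obtain ⟨w, rfl⟩ := key
  have hw0 : w ≠ 0 := by
    rintro rfl
    exact hα (by simp)
  have h5 : (1 : ℝ) ≤ |(w : ℝ)| := by exact_mod_cast Int.one_le_abs hw0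
  rw [abs_mul, abs_of_pos (by norm_num : (0 : ℝ) < 4)]
  linarith

variable {n N m mB : ℕ} {κ : ℝ} {S : Set (Euc N)} {G : Geo n N κ S} {p₀ : Euc N}
  {ι₂ : Type} [Fintype ι₂] [DecidableEq ι₂] {W₂ : Euc N × Euc N → (ι₂ × Fin 2 → Fin N) → ℝ}
  {x : Euc N → Ext (Euc N)}
  {g : Euc N × Euc N → Fin mB → ℂ} {Fc y : MM mB → Ext (MM mB)}
  {pt : Type} [Fintype pt] [DecidableEq pt] {ι : Type} [Fintype ι] [DecidableEq ι] [Nonempty ι]
  {P' : MM mB → EuclideanSpace ℝ pt →L[ℝ] EuclideanSpace ℝ pt}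
  {oP : MM mB → Ext (EuclideanSpace ℝ pt)} {f : MM mB × EuclideanSpace ℝ pt → Euc N}
  {c μ α : ℝ}

/-- **(K10)** -/
theorem four_le {h : GT.Bla G 4} (M : T.XM h m W₂ p₀ x)
    (hg : Emb (US G) (gf G) g) (hc : Curv (US G) g (al (N := N)) Fc)
    (hO : SB.OddB ι (Quo (US G) g) 2 P' oP)
    (sf : SMap (Sph (Quo (US G) g) P') S f) (hy : CF2 (Quo (US G) g) 4 y)
    (hA : Coh (Sph (Quo (US G) g) P') (F.pull f x)
        (F.pull Prod.fst y + (c / 2) • (F.pull Prod.fst Fc * SB.OddB.eV ι hO.hr P' oP)))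
    (hp : Coh (Quo (US G) g) (cR 2 P') ((α / 4) • (Fc * Fc) + (μ / 4) • y))
    (hμ : |μ| = 2) (hα : α ≠ 0) : 4 ≤ |α| := by
  have h2k := M.two_k
  have hn2 : 2 ≤ n := by omega
  have hper : HS.Per G := h.ty.per
  have hB := ZG.clo_B h hper hg
  have hBc := ZG.preconn_B h hn2 hg
  have hne : (Quo (US G) g).Nonempty := by
    obtain ⟨z, hz⟩ := T.nonempty_UST h M.hp
    exact ⟨jj g z, z, hz, rfl⟩
  have hoB := (CM.J_US h.bl hper hg hc).1
  have hdB : ∀ y, IsDeg (2 * (n - 1)) (Fc y ^ (n - 1)) := fun y => (T.Hom.pow hc.hom (n - 1)) y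
  have heF : CF2 (Quo (US G) g) 2 Fc := ⟨hc.sm, hc.cl, hc.hom, ⟨1, rfl⟩⟩
  have hYc : IsPreconnected (Sph (Quo (US G) g) P') :=
    ZG.preconn_Sph hB.compact hBc hO.pf (by norm_num)
  have e4 : T.EC (Quo (US G) g) (cR 2 P') := EW.ec_cfr hB.sub (EW.idF_of_pfield hO.pf) 2
  have sp : Sm (Quo (US G) g) (cR 2 P') := e4.sm
  have hp0 : CF2 (Quo (US G) g) 4 (cR 2 P') := ⟨e4.sm, e4.cl, EW.hom_cfr 2, ⟨2, rfl⟩⟩
  -- the chain
  obtain ⟨c₄, hc₄⟩ := CS.start_in h (CS.cb_US h.bl hper hg hc) hc.cl hc.hom hne 2 (by norm_num)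
    (by omega)
  -- (n0)
  obtain ⟨oS, hoS, soS, hdS⟩ := GP.exists_ori (G := G) h.bl h.ty (by norm_num : 2 ≤ 4)
  obtain ⟨w, hws, hwd, hwo, hos⟩ := SB.exists_osubm_F h (by norm_num) M.hkn hoS hdS
  have hV : ∀ z, IsDeg (n - 4) (pb (ContinuousLinearMap.snd ℝ (Euc N) (Euc N) :
      Euc N × Euc N →ₗ[ℝ] Euc N) (w z)) := fun z => (hwd z).pb _
  have e7 : J (n - 4) (GT.FF S ∩ Prod.fst ⁻¹' {p₀}) (fun z => pb (ContinuousLinearMap.snd ℝ
      (Euc N) (Euc N) : Euc N × Euc N →ₗ[ℝ] Euc N) (w z)) (F.pull Prod.snd x ^ (m - 1)) =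
      J (n - 4) (GP.Cut S p₀) (fun q => w (p₀, q)) (x ^ (m - 1)) := by
    rw [← T.pull_pow']
    exact J_fib_FF h M.hp (hos.subm.clo_fibre p₀) (hwo p₀ M.hp) (T.Sm.pow M.sx _)
  have h3 := JV.abs_J_S M hoS M.hp (hwo p₀ M.hp)
  have h4 := M.J_ne hoS
  rw [← e7] at h3
  obtain ⟨z₂, hz₂⟩ := QT.n0 (l := c / 2) CQ.intM M hos hV (fun h0 => h4 (by
      rw [h0, abs_zero, mul_zero] at h3
      exact abs_eq_zero.1 h3)) h3 hO (by norm_num) hB hBc hne hYc hoB hdB heF hy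
    (p3 := VX.nE ι ^ 2 • cR 2 P') (hp0.smul (VX.nE ι ^ 2))
    (by rw [T.pull_smul']; exact hO.sq_eV hB.sub) sf hA c₄
  -- integrality of the Chern number
  obtain ⟨z₁, hz₁⟩ := QS.int_cR (s := 1) (ι := Fin 3) hB hBc hO.pf hO.sy rfl (by norm_num) c₄
    (CQ.IT_of hB hBc hO.pf hO.sy rfl (by norm_num) c₄)
  have sF : Sm (Quo (US G) g) Fc := hc.sm
  have e1 : c₄.I (cR 2 P') = c₄.I ((α / 4) • (Fc * Fc) + (μ / 4) • y) :=
    c₄.I_coh sp (((sF.mul sF).smul _).add (hy.sm.smul _)) hp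
  rw [c₄.I_add ((sF.mul sF).smul _) (hy.sm.smul _), c₄.I_smul, c₄.I_smul, ← sq Fc, hc₄] at e1
  have hz₁' : c₄.I (cR 2 P') = (2 * Real.pi) ^ 2 * z₁ := hz₁
  rw [hz₁'] at e1
  have hcard₂ : Fintype.card ι₂ = 2 := by have := M.hι; omega
  have ht : XF.tau ι₂ = 32 * Real.pi ^ 2 := by
    rw [XF.tau, hcard₂]; norm_num [Nat.factorial]; ring
  rw [ht] at hz₂
  exact arith Real.pi_pos hμ e1 hz₂ hα

end Crest.Agent.R208.QK
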