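import Crest.Agent.R208.QT3

/-! Row 208, block Q (helper586), part QT4: three pushes through the cut loci: integrality of
`∫_Y A² B v` for a closed manifold `Y` with two maps `A, B : Y → S`. -/

set_option autoImplicit false
set_option linter.unusedSectionVars false

open MeasureTheory Set Filter Topology Module
open scoped ContDiff RealInnerProductSpace
open Crest.GeometryTopology.Submanifold
open Crest.Agent.R241.DDefs
open Crest.Agent.R241.D2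
open Crest.Agent.R208.F Crest.Agent.R208.FI Crest.Agent.R208.CW Crest.Agent.R208.FG
open Crest.Agent.R208.T (Sm Cl Hom Coh Eqv eR OR Sph)
open Crest.Agent.R208.SO (CF2)
open Crest.Agent.R208.SB (OddB)

noncomputable section

namespace Crest.Agent.R208.QT

attribute [local irreducible] bcC mapC sphC

section push
variable {n N k m : ℕ} {κ : ℝ} {S : Set (Euc N)} {G : Geo n N κ S} {p : Euc N}
  {ι : Type} [Fintype ι] [DecidableEq ι] {W : Euc N × Euc N → (ι × Fin 2 → Fin N) → ℝ}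
  {x : Euc N → Ext (Euc N)} {h : GT.Bla G k} {oS : Euc N → Ext (Euc N)}
  {oV : Euc N × Euc N → Ext (Euc N × Euc N)}
  {E' : Type} [NormedAddCommGroup E'] [NormedSpace ℝ E'] [FiniteDimensional ℝ E']
  {K : Set E'} {u u' : E' → Euc N} {t d q ka : ℕ} {w a a' : E' → Ext E'}

/-- `N_p` -/
def Np (S : Set (Euc N)) (m k n : ℕ) (p : Euc N) (oV : Euc N × Euc N → Ext (Euc N × Euc N))
    (x : Euc N → Ext (Euc N)) : ℝ :=
  J (n - k) (GT.FF S ∩ Prod.fst ⁻¹' {p}) oV (F.pull Prod.snd x ^ (m - 1))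

/-- the form `q^*(x^m) snd^* w` -/
def Px (m : ℕ) (x : Euc N → Ext (Euc N)) (w : E' → Ext E') :
    (Euc N × Euc N) × E' → Ext ((Euc N × Euc N) × E') :=
  F.pull Prod.fst (F.pull Prod.snd (x ^ m)) * F.pull Prod.snd w

theorem cf2_xm (M : T.XM h m W p x) : CF2 S n (x ^ m) :=
  ⟨M.sx.pow m, T.Cl.pow M.sx M.cx m, by rw [M.hn]; exact M.dx.pow m, M.hne⟩

theorem smap_F2 : SMap (FP (GT.FF S) K Prod.fst u) S
    (fun z : (Euc N × Euc N) × E' => z.1.2) := FG.smap_snd.comp smap_FP_fst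

theorem cf2_Q (M : T.XM h m W p x) : CF2 (FP (GT.FF S) K Prod.fst u) n
    (F.pull (Prod.fst : (Euc N × Euc N) × E' → _) (F.pull Prod.snd (x ^ m))) :=
  ((cf2_xm M).pull FG.smap_snd).pull smap_FP_fst

theorem cf2_Px (M : T.XM h m W p x) (hw : CF2 K q w) :
    CF2 (FP (GT.FF S) K Prod.fst u) (n + q) (Px m x w) :=
  (cf2_Q M).mul (hw.pull smap_FP_snd)


theorem Px_mul_even (M : T.XM h m W p x)
    {b : (Euc N × Euc N) × E' → Ext ((Euc N × Euc N) × E')}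
    (hb : Eqv (FP (GT.FF S) K Prod.fst u) b (F.pull Prod.snd a)) :
    Eqv (FP (GT.FF S) K Prod.fst u) (b * Px m x w) (Px m x (a * w)) := by
  have h1 : F.pull (Prod.snd : (Euc N × Euc N) × E' → E') a * Px m x w = Px m x (a * w) := by
    have h2 : CF2 (FP (GT.FF S) K Prod.fst u) n
      (F.pull (Prod.fst : (Euc N × Euc N) × E' → _) (F.pull Prod.snd (x ^ m))) := cf2_Q M
    rw [Px, Px, T.pull_mul', ← mul_assoc, ← mul_assoc, h2.comm]
  rw [← h1]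
  exact hb.mul (Eqv.refl _)

theorem push' (M : T.XM h m W p x) (hO : OSubm (n - k) n (GT.FF S) S Prod.fst oV oS)
    (hV : ∀ z, IsDeg (n - k) (oV z)) (hK : Clo t K) (hu : SMap K S u) (c : CH.Chn K d)
    (hw : CF2 K q w) (hq : q + k = d) :
    (bcC hO hV hK hu c).I (Px m x w) = -(Np S m k n p oV x * c.I (F.pull u x * w)) :=
  push M hO hV hK hu c hw.sm hw.cl hw.hom hq

/-- the target of the base change along `u` -/
abbrev K1 (S : Set (Euc N)) (K : Set E') (u : E' → Euc N) : Set ((Euc N × Euc N) × E') :=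
  FP (GT.FF S) K Prod.fst u

theorem clo_K1 (hO : OSubm (n - k) n (GT.FF S) S Prod.fst oV oS) (hK : Clo t K)
    (hu : SMap K S u) : Clo (n - k + t) (K1 S K u) :=
  bc_clo hO.subm ⟨hK, hu.smooth, hu.maps⟩

theorem smap_K1 (hu' : SMap K S u') : SMap (K1 S K u) S (fun z => u' z.2) :=
  hu'.comp smap_FP_snd

theorem pull_K1 (hu' : SMap K S u') : Eqv (K1 S K u)
    (F.pull (fun z : (Euc N × Euc N) × E' => u' z.2) x) (F.pull Prod.snd (F.pull u' x)) :=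
  (T.eqv_pull_pull smap_FP_snd hu' (smap_K1 hu') (fun _ _ => rfl) x).symm

theorem carry (M : T.XM h m W p x) (hO : OSubm (n - k) n (GT.FF S) S Prod.fst oV oS)
    (hV : ∀ z, IsDeg (n - k) (oV z)) (hK : Clo t K) (hu : SMap K S u) (c : CH.Chn K d)
    (hu' : SMap K S u') (hw : CF2 K q w) (hq : q + k + k = d) :
    (bcC hO hV hK hu c).I (F.pull (fun z : (Euc N × Euc N) × E' => u' z.2) x * Px m x w) =
      -(Np S m k n p oV x * c.I (F.pull u x * (F.pull u' x * w))) := by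
  have eu' : CF2 K k (F.pull u' x) := (cf2_x M).pull hu'
  rw [I_eqv _ (Px_mul_even (u := u) M (w := w) (pull_K1 hu'))]
  exact push' M hO hV hK hu c (eu'.mul hw) (by omega)

theorem carry2 {u₂ : E' → Euc N} (M : T.XM h m W p x)
    (hO : OSubm (n - k) n (GT.FF S) S Prod.fst oV oS)
    (hV : ∀ z, IsDeg (n - k) (oV z)) (hK : Clo t K) (hu : SMap K S u) (c : CH.Chn K d)
    (hu' : SMap K S u') (hu₂ : SMap K S u₂) (hw : CF2 K q w) (hq : q + k + k + k = d) :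
    (bcC hO hV hK hu c).I (F.pull (fun z : (Euc N × Euc N) × E' => u' z.2) x *
      (F.pull (fun z : (Euc N × Euc N) × E' => u₂ z.2) x * Px m x w)) =
      -(Np S m k n p oV x * c.I (F.pull u x * (F.pull u' x * (F.pull u₂ x * w)))) := by
  have eu₂ : CF2 K k (F.pull u₂ x) := (cf2_x M).pull hu₂
  rw [I_eqv _ ((Eqv.refl (X := K1 S K u) (F.pull (fun z : (Euc N × Euc N) × E' => u' z.2) x)).mul
    (Px_mul_even (u := u) M (w := w) (pull_K1 hu₂)))]
  exact carry M hO hV hK hu c hu' (eu₂.mul hw) (by omega)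

end push

section three
variable {n N k m : ℕ} {κ : ℝ} {S : Set (Euc N)} {G : Geo n N κ S} {p : Euc N}
  {ι : Type} [Fintype ι] [DecidableEq ι] {W : Euc N × Euc N → (ι × Fin 2 → Fin N) → ℝ}
  {x : Euc N → Ext (Euc N)} {h : GT.Bla G k} {oS : Euc N → Ext (Euc N)}
  {oV : Euc N × Euc N → Ext (Euc N × Euc N)}
  {E' : Type} [NormedAddCommGroup E'] [NormedSpace ℝ E'] [FiniteDimensional ℝ E']
  {Y : Set E'} {u u' : E' → Euc N} {t d q : ℕ} {v : E' → Ext E'}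

/-- the chain `Y ×_S F ×_S F ×_S F` -/
def c3 (hO : OSubm (n - k) n (GT.FF S) S Prod.fst oV oS) (hV : ∀ z, IsDeg (n - k) (oV z))
    (hY : Clo t Y) (hu : SMap Y S u) (hu' : SMap Y S u') (c : CH.Chn Y d) :
    CH.Chn (K1 S (K1 S (K1 S Y u) (fun z => u z.2)) (fun z => u' z.2.2))
      (n - k + (n - k + (n - k + d))) :=
  bcC hO hV (clo_K1 hO (clo_K1 hO hY hu) (smap_K1 hu)) (smap_K1 (smap_K1 hu'))
    (bcC hO hV (clo_K1 hO hY hu) (smap_K1 hu) (bcC hO hV hY hu c))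

/-- **three pushes** -/
theorem c3_I (M : T.XM h m W p x) (hO : OSubm (n - k) n (GT.FF S) S Prod.fst oV oS)
    (hV : ∀ z, IsDeg (n - k) (oV z)) (hY : Clo t Y) (hu : SMap Y S u) (hu' : SMap Y S u')
    (c : CH.Chn Y d) (hv : CF2 Y q v) (hq : q + k + k + k = d) :
    (c3 hO hV hY hu hu' c).I (Px m x (Px m x (Px m x v))) =
      -(Np S m k n p oV x ^ 3 * c.I (F.pull u x * (F.pull u x * (F.pull u' x * v)))) := by
  have hkn := M.hkn
  have v1 : CF2 (K1 S Y u) (n + q) (Px m x v) := cf2_Px M hv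
  have v2 : CF2 (K1 S (K1 S Y u) (fun z => u z.2)) (n + (n + q)) (Px m x (Px m x v)) :=
    cf2_Px M v1
  have b1 := carry2 M hO hV hY hu c hu hu' hv hq
  have b2 := carry M hO hV (clo_K1 hO hY hu) (smap_K1 (S := S) (u := u) hu)
    (bcC hO hV hY hu c) (smap_K1 (S := S) (u := u) hu') v1 (by omega)
  have b3 := push' M hO hV (clo_K1 hO (clo_K1 hO hY hu) (smap_K1 hu))
    (smap_K1 (u := fun z : (Euc N × Euc N) × E' => u z.2) (smap_K1 (S := S) (u := u) hu'))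
    (bcC hO hV (clo_K1 hO hY hu) (smap_K1 hu) (bcC hO hV hY hu c)) v2 (by omega)
  unfold c3
  rw [b3, b2, b1]
  ring

end three

/-! ### the target `S × S × S` -/
section SSS
variable {F₁ : Type} [NormedAddCommGroup F₁] [NormedSpace ℝ F₁] [FiniteDimensional ℝ F₁]
  {S : Set F₁} {oS μ₀ : F₁ → Ext F₁} {n : ℕ}

/-- `pr₁^* a * pr₂^* b` -/
def bx {F₂ : Type} [NormedAddCommGroup F₂] [NormedSpace ℝ F₂] [FiniteDimensional ℝ F₂]
    (a : F₁ → Ext F₁) (b : F₂ → Ext F₂) : F₁ × F₂ → Ext (F₁ × F₂) :=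
  F.pull Prod.fst a * F.pull Prod.snd b

theorem hom_bx {F₂ : Type} [NormedAddCommGroup F₂] [NormedSpace ℝ F₂] [FiniteDimensional ℝ F₂]
    {a : F₁ → Ext F₁} {b : F₂ → Ext F₂} {i j : ℕ} (ha : Hom i a) (hb : Hom j b) :
    Hom (i + j) (bx a b) := (T.Hom.pull ha).mul (T.Hom.pull hb)

theorem sm_bx {F₂ : Type} [NormedAddCommGroup F₂] [NormedSpace ℝ F₂] [FiniteDimensional ℝ F₂]
    {a : F₁ → Ext F₁} {b : F₂ → Ext F₂} {X₁ : Set F₁} {X₂ : Set F₂} (ha : Sm X₁ a)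
    (hb : Sm X₂ b) : Sm (X₁ ×ˢ X₂) (bx a b) :=
  (ha.pull ⟨fun _ _ => contDiffAt_fst, fun _ hz => hz.1⟩).mul
    (hb.pull ⟨fun _ _ => contDiffAt_snd, fun _ hz => hz.2⟩)

theorem J_bx {F₂ : Type} [NormedAddCommGroup F₂] [NormedSpace ℝ F₂] [FiniteDimensional ℝ F₂]
    {X₁ : Set F₁} {X₂ : Set F₂} {o₁ a : F₁ → Ext F₁} {o₂ b : F₂ → Ext F₂} {i j : ℕ}
    (h₁ : Clo i X₁) (ho₁ : Ori i X₁ o₁) (h₂ : Clo j X₂) (ho₂ : Ori j X₂ o₂) (hd : Hom j o₂)
    (hc : IsPreconnected X₂) (hn : X₂.Nonempty) (sa : Sm X₁ a) (ha : Hom i a) (sb : Sm X₂ b)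
    (hb : Hom j b) : J (i + j) (X₁ ×ˢ X₂) (bx o₁ o₂) (bx a b) = J i X₁ o₁ a * J j X₂ o₂ b :=
  QS.J_prod h₁ ho₁ h₂ ho₂ hd hc hn (fun z hz => (sa z hz).of_le (by simp)) ha
    (fun z hz => (sb z hz).continuousAt.continuousWithinAt)
    (fun z _ q hq => hb z q (by omega))

theorem ori_bx {F₂ : Type} [NormedAddCommGroup F₂] [NormedSpace ℝ F₂] [FiniteDimensional ℝ F₂]
    {X₁ : Set F₁} {X₂ : Set F₂} {o₁ : F₁ → Ext F₁} {o₂ : F₂ → Ext F₂} {i j : ℕ}
    (h₁ : Clo i X₁) (ho₁ : Ori i X₁ o₁) (h₂ : Clo j X₂) (ho₂ : Ori j X₂ o₂) (hd : Hom j o₂) :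
    Ori (i + j) (X₁ ×ˢ X₂) (bx o₁ o₂) := QS.ori_prod h₁ ho₁ h₂ ho₂ hd

theorem J_SSS (hS : Clo n S) (hoS : Ori n S oS) (dS : Hom n oS) (hSc : IsPreconnected S)
    (hSn : S.Nonempty) (sμ : Sm S μ₀) (dμ : Hom n μ₀) :
    J (n + (n + n)) (S ×ˢ (S ×ˢ S)) (bx oS (bx oS oS)) (bx μ₀ (bx μ₀ μ₀)) =
      J n S oS μ₀ ^ 3 := by
  rw [J_bx hS hoS (hS.prod hS) (ori_bx hS hoS hS hoS dS) (hom_bx dS dS) (hSc.prod hSc)
    (hSn.prod hSn) sμ dμ (sm_bx sμ sμ) (hom_bx dμ dμ), J_bx hS hoS hS hoS dS hSc hSn sμ dμ sμ dμ]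
  ring

end SSS

section int3
variable {n N k m : ℕ} {κ : ℝ} {S : Set (Euc N)} {G : Geo n N κ S} {p : Euc N}
  {ι : Type} [Fintype ι] [DecidableEq ι] {W : Euc N × Euc N → (ι × Fin 2 → Fin N) → ℝ}
  {x : Euc N → Ext (Euc N)} {h : GT.Bla G k} {oS : Euc N → Ext (Euc N)}
  {oV : Euc N × Euc N → Ext (Euc N × Euc N)}
  {E' E₁ : Type} [NormedAddCommGroup E'] [NormedSpace ℝ E'] [FiniteDimensional ℝ E']
  [NormedAddCommGroup E₁] [NormedSpace ℝ E₁] [FiniteDimensional ℝ E₁]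
  {n₁ ι₁ : Type} [Fintype n₁] [DecidableEq n₁] [Fintype ι₁] [DecidableEq ι₁] [Nonempty ι₁]
  {B : Set E₁} {PL : E₁ → EuclideanSpace ℝ n₁ →L[ℝ] EuclideanSpace ℝ n₁}
  {WL : E₁ → (ι₁ × Fin 2 → n₁) → ℝ} {ρ : E' → E₁}
  {Y : Set E'} {u u' : E' → Euc N} {t d b : ℕ}

omit [FiniteDimensional ℝ E₁] in
theorem tw_snd [FiniteDimensional ℝ E₁] {K : Set E'} {X₁ : Set E₁} {f : E' → E₁}
    (hf : SMap K X₁ f) (w : E₁ → Ext E₁) :
    Eqv (K1 S K u) (F.pull (Prod.snd : (Euc N × Euc N) × E' → E') (F.pull f w))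
      (F.pull (fun z : (Euc N × Euc N) × E' => f z.2) w) :=
  T.eqv_pull_pull smap_FP_snd hf (hf.comp smap_FP_snd) (fun _ _ => rfl) w

theorem tw_fst {K : Set E'} (w : Euc N → Ext (Euc N)) :
    Eqv (K1 S K u) (F.pull (Prod.fst : (Euc N × Euc N) × E' → _) (F.pull Prod.snd w))
      (F.pull (fun z : (Euc N × Euc N) × E' => z.1.2) w) :=
  T.eqv_pull_pull smap_FP_fst FG.smap_snd smap_F2 (fun _ _ => rfl) w

set_option maxHeartbeats 1000000 in
/-- **integrality of `∫_c A² A' e(L)`** -/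
theorem int3 (IT : IntM) (M : T.XM h m W p x) (hO : OSubm (n - k) n (GT.FF S) S Prod.fst oV oS)
    (hV : ∀ z, IsDeg (n - k) (oV z)) (hY : Clo t Y) (hu : SMap Y S u) (hu' : SMap Y S u')
    (hB : Sub b B) (hBc : IsPreconnected B) (hL : OR B PL WL) (hρ : SMap Y B ρ)
    (c : CH.Chn Y d) (hd : d = 2 * Fintype.card ι₁ + k + k + k) :
    ∃ z : ℤ, Np S m k n p oV x ^ 3 * c.I (F.pull u x * (F.pull u x * (F.pull u' x *
      F.pull ρ (eR PL WL)))) = XF.tau ι₁ * z * J n S oS (x ^ m) ^ 3 := by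
  have hkn := M.hkn
  set v : E' → Ext E' := F.pull ρ (eR PL WL) with hv
  have hS : Clo n S := GP.clo_S h.bl
  have hSc : IsPreconnected S := h.bl.conn.isPreconnected
  have hSn : S.Nonempty := ⟨p, M.hp⟩
  have eμ : CF2 S n (x ^ m) := cf2_xm M
  have ecL := hL.ec_eR
  have ev : CF2 Y (2 * Fintype.card ι₁) v := (⟨ecL.sm, ecL.cl, VX.hom_eR, even_two_mul _⟩ :
    CF2 B (2 * Fintype.card ι₁) (eR PL WL)).pull hρ
  -- the spaces
  set Y₁ := K1 S Y u with hY₁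
  set Y₂ := K1 S Y₁ (fun z => u z.2) with hY₂
  set Y₃ := K1 S Y₂ (fun z => u' z.2.2) with hY₃
  have s31 : SMap Y₃ (GT.FF S) (Prod.fst :
    (Euc N × Euc N) × (Euc N × Euc N) × (Euc N × Euc N) × E' → _) := smap_FP_fst
  have s32 : SMap Y₃ Y₂ (Prod.snd :
    (Euc N × Euc N) × (Euc N × Euc N) × (Euc N × Euc N) × E' → _) := smap_FP_snd
  have s21 : SMap Y₂ (GT.FF S) (Prod.fst : (Euc N × Euc N) × (Euc N × Euc N) × E' → _) :=
    smap_FP_fst
  have s22 : SMap Y₂ Y₁ (Prod.snd : (Euc N × Euc N) × (Euc N × Euc N) × E' → _) := smap_FP_snd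
  have s11 : SMap Y₁ (GT.FF S) (Prod.fst : (Euc N × Euc N) × E' → _) := smap_FP_fst
  have s12 : SMap Y₁ Y (Prod.snd : (Euc N × Euc N) × E' → _) := smap_FP_snd
  have sq : SMap (GT.FF S) S (Prod.snd : Euc N × Euc N → Euc N) := FG.smap_snd
  have g1 : SMap Y₃ S (fun z : (Euc N × Euc N) × (Euc N × Euc N) × (Euc N × Euc N) × E' =>
    z.1.2) := sq.comp s31
  have g2' : SMap Y₂ S (fun z : (Euc N × Euc N) × (Euc N × Euc N) × E' => z.1.2) := sq.comp s21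
  have g2 : SMap Y₃ S (fun z : (Euc N × Euc N) × (Euc N × Euc N) × (Euc N × Euc N) × E' =>
    z.2.1.2) := g2'.comp s32
  have g3' : SMap Y₁ S (fun z : (Euc N × Euc N) × E' => z.1.2) := sq.comp s11
  have g3'' : SMap Y₂ S (fun z : (Euc N × Euc N) × (Euc N × Euc N) × E' => z.2.1.2) :=
    g3'.comp s22
  have g3 : SMap Y₃ S (fun z : (Euc N × Euc N) × (Euc N × Euc N) × (Euc N × Euc N) × E' =>
    z.2.2.1.2) := g3''.comp s32
  have gρ' : SMap Y₁ B (fun z : (Euc N × Euc N) × E' => ρ z.2) := hρ.comp s12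
  have gρ'' : SMap Y₂ B (fun z : (Euc N × Euc N) × (Euc N × Euc N) × E' => ρ z.2.2) :=
    gρ'.comp s22
  have gρ : SMap Y₃ B (fun z : (Euc N × Euc N) × (Euc N × Euc N) × (Euc N × Euc N) × E' =>
    ρ z.2.2.2) := gρ''.comp s32
  have g23 : SMap Y₃ (S ×ˢ S)
      (fun z : (Euc N × Euc N) × (Euc N × Euc N) × (Euc N × Euc N) × E' =>
        (z.2.1.2, z.2.2.1.2)) :=
    ⟨fun z hz => (g2.smooth z hz).prodMk (g3.smooth z hz), fun z hz => ⟨g2.maps hz, g3.maps hz⟩⟩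
  have gg : SMap Y₃ (S ×ˢ (S ×ˢ S))
      (fun z : (Euc N × Euc N) × (Euc N × Euc N) × (Euc N × Euc N) × E' =>
        (z.1.2, (z.2.1.2, z.2.2.1.2))) :=
    ⟨fun z hz => (g1.smooth z hz).prodMk (g23.smooth z hz),
      fun z hz => ⟨g1.maps hz, g23.maps hz⟩⟩
  obtain ⟨z, hz⟩ := int_chain IT hB hBc hL (m := n + (n + n))
    (show n - k + (n - k + (n - k + d)) = 2 * Fintype.card ι₁ + (n + (n + n)) by omega)
    (c3 hO hV hY hu hu' c) gρ (hS.prod (hS.prod hS)) (hSc.prod (hSc.prod hSc))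
    (ori_bx hS hO.base (hS.prod hS) (ori_bx hS hO.base hS hO.base hO.dY)
      (hom_bx hO.dY hO.dY)) gg
  have hz' := hz (bx (x ^ m) (bx (x ^ m) (x ^ m))) (sm_bx eμ.sm (sm_bx eμ.sm eμ.sm))
    (hom_bx eμ.hom (hom_bx eμ.hom eμ.hom))
  rw [J_SSS hS hO.base hO.dY hSc hSn eμ.sm eμ.hom] at hz'
  have key : Eqv Y₃ (F.pull (fun z : (Euc N × Euc N) × (Euc N × Euc N) × (Euc N × Euc N) × E' =>
        ρ z.2.2.2) (eR PL WL) * F.pull (fun z : (Euc N × Euc N) × (Euc N × Euc N) ×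
          (Euc N × Euc N) × E' => (z.1.2, (z.2.1.2, z.2.2.1.2)))
        (bx (x ^ m) (bx (x ^ m) (x ^ m)))) (Px m x (Px m x (Px m x v))) := by
    -- the right hand side
    have r3 : Eqv Y₁ (Px m x v) (F.pull (fun z : (Euc N × Euc N) × E' => z.1.2) (x ^ m) *
        F.pull (fun z : (Euc N × Euc N) × E' => ρ z.2) (eR PL WL)) :=
      (tw_fst _).mul (tw_snd hρ _)
    have r2 : Eqv Y₂ (Px m x (Px m x v))
        (F.pull (fun z : (Euc N × Euc N) × (Euc N × Euc N) × E' => z.1.2) (x ^ m) *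
        (F.pull (fun z : (Euc N × Euc N) × (Euc N × Euc N) × E' => z.2.1.2) (x ^ m) *
        F.pull (fun z : (Euc N × Euc N) × (Euc N × Euc N) × E' => ρ z.2.2) (eR PL WL))) := by
      have q1 := r3.pull s22
      rw [T.pull_mul'] at q1
      exact (tw_fst _).mul (q1.trans ((tw_snd g3' _).mul (tw_snd gρ' _)))
    have r1 : Eqv Y₃ (Px m x (Px m x (Px m x v)))
        (F.pull (fun z : (Euc N × Euc N) × (Euc N × Euc N) × (Euc N × Euc N) × E' => z.1.2)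
          (x ^ m) * (F.pull (fun z : (Euc N × Euc N) × (Euc N × Euc N) × (Euc N × Euc N) × E' =>
          z.2.1.2) (x ^ m) * (F.pull (fun z : (Euc N × Euc N) × (Euc N × Euc N) ×
          (Euc N × Euc N) × E' => z.2.2.1.2) (x ^ m) * F.pull (fun z : (Euc N × Euc N) ×
          (Euc N × Euc N) × (Euc N × Euc N) × E' => ρ z.2.2.2) (eR PL WL)))) := by
      have q1 := r2.pull s32
      rw [T.pull_mul', T.pull_mul'] at q1
      exact (tw_fst _).mul (q1.trans ((tw_snd g2' _).mul ((tw_snd g3'' _).mul (tw_snd gρ'' _))))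
    refine Eqv.trans ?_ r1.symm
    -- the left hand side
    have p1 : SMap (S ×ˢ (S ×ˢ S)) S (Prod.fst : Euc N × Euc N × Euc N → Euc N) :=
      ⟨fun _ _ => contDiffAt_fst, fun _ hz => hz.1⟩
    have p2 : SMap (S ×ˢ (S ×ˢ S)) (S ×ˢ S) (Prod.snd : Euc N × Euc N × Euc N → _) :=
      ⟨fun _ _ => contDiffAt_snd, fun _ hz => hz.2⟩
    have p3 : SMap (S ×ˢ S) S (Prod.fst : Euc N × Euc N → Euc N) :=
      ⟨fun _ _ => contDiffAt_fst, fun _ hz => hz.1⟩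
    have p4 : SMap (S ×ˢ S) S (Prod.snd : Euc N × Euc N → Euc N) :=
      ⟨fun _ _ => contDiffAt_snd, fun _ hz => hz.2⟩
    have l1 := T.eqv_pull_pull gg p1 g1 (fun _ _ => rfl) (x ^ m)
    have l2 := T.eqv_pull_pull gg p2 g23 (fun _ _ => rfl) (bx (x ^ m) (x ^ m))
    have l3 := T.eqv_pull_pull g23 p3 g2 (fun _ _ => rfl) (x ^ m)
    have l4 := T.eqv_pull_pull g23 p4 g3 (fun _ _ => rfl) (x ^ m)
    have l5 : Eqv Y₃ (F.pull (fun z : (Euc N × Euc N) × (Euc N × Euc N) ×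
          (Euc N × Euc N) × E' => (z.1.2, (z.2.1.2, z.2.2.1.2)))
        (bx (x ^ m) (bx (x ^ m) (x ^ m)))) (F.pull (fun z : (Euc N × Euc N) × (Euc N × Euc N) ×
          (Euc N × Euc N) × E' => z.1.2)
          (x ^ m) * (F.pull (fun z : (Euc N × Euc N) × (Euc N × Euc N) × (Euc N × Euc N) × E' =>
          z.2.1.2) (x ^ m) * F.pull (fun z : (Euc N × Euc N) × (Euc N × Euc N) ×
          (Euc N × Euc N) × E' => z.2.2.1.2) (x ^ m))) := by
      have l6 := l3.mul l4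
      rw [← T.pull_mul'] at l6
      have l7 := l1.mul (l2.trans l6)
      rwa [← T.pull_mul'] at l7
    have eρ : CF2 Y₃ (2 * Fintype.card ι₁) (F.pull (fun z : (Euc N × Euc N) ×
          (Euc N × Euc N) × (Euc N × Euc N) × E' => ρ z.2.2.2) (eR PL WL)) :=
      (⟨ecL.sm, ecL.cl, VX.hom_eR, even_two_mul _⟩ :
        CF2 B (2 * Fintype.card ι₁) (eR PL WL)).pull gρ
    rw [eρ.comm]
    refine (l5.mul (Eqv.refl _)).trans ?_
    rw [mul_assoc, mul_assoc]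
    exact Eqv.refl _
  refine ⟨-z, ?_⟩
  have h1 := c3_I M hO hV hY hu hu' c ev (by omega)
  rw [I_eqv _ key] at hz'
  push_cast
  linear_combination -hz' + h1

end int3

end Crest.Agent.R208.QT
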