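import Crest.Agent.R208.RR0

-- ▼ part R208/RR1
section

/-! Row 208, block RR (helper427), part RR1: the number `J_Z (θ (dθ)^(2m-1) h^(2m+1))`. -/

set_option autoImplicit false
set_option linter.unusedSectionVars false
set_option linter.unusedVariables false

open MeasureTheory Set Filter Topology Module
open scoped ContDiff
open Crest.Agent.R208.F Crest.Agent.R208.FI Crest.Agent.R208.CW Crest.Agent.R208.T

noncomputable section

namespace Crest.Agent.R208.RR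

universe u
variable {E : Type u} [NormedAddCommGroup E] [NormedSpace ℝ E] [FiniteDimensional ℝ E]
  {d : ℕ} {Z : Set E} {o : E → Ext E} {x : E}

/-- middle binomial coefficient -/
theorem binom_mid {A : Type*} [Ring A] [Algebra ℝ A] {m : ℕ} {p q : A} (hc : Commute p q)
    (hp : p ^ (m + 1) = 0) (hq : q ^ (m + 1) = 0) :
    (p - q) ^ (2 * m) = ((-1) ^ m * ((2 * m).choose m : ℝ)) • (p ^ m * q ^ m) := by
  rw [sub_eq_add_neg, (hc.neg_right).add_pow]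
  rw [Finset.sum_eq_single m]
  · rw [show 2 * m - m = m by omega, neg_pow, mul_smul, Algebra.smul_def, Algebra.smul_def,
      map_pow, map_neg, map_one, map_natCast]
    rw [← mul_assoc (p ^ m), ((Commute.neg_one_right (p ^ m)).pow_right m).eq, mul_assoc,
      mul_assoc, (Nat.cast_commute ((2 * m).choose m) (p ^ m * q ^ m)).eq, ← mul_assoc (p ^ m)]
  · intro i hi him
    rcases lt_or_gt_of_ne him with h | h
    · have h1 : (-q) ^ (2 * m - i) = 0 := by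
        rw [neg_pow, show 2 * m - i = (m + 1) + (2 * m - i - (m + 1)) by omega, pow_add q, hq,
          zero_mul, mul_zero]
      rw [h1, mul_zero, zero_mul]
    · have h1 : p ^ i = 0 := by
        rw [show i = (m + 1) + (i - (m + 1)) by omega, pow_add, hp, zero_mul]
      rw [h1, zero_mul, zero_mul]
  · intro h
    exact absurd (Finset.mem_range.2 (by omega)) h

/-- `s θ` on the cylinder -/
def cyl (θ : E → Ext E) : E × ℝ → Ext (E × ℝ) := fun y => y.2 • F.pull Prod.fst θ y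

theorem sm_cyl {θ : E → Ext E} (hθ : Sm Z θ) : Sm (Cyl Z) (cyl θ) := fun y hy =>
  contDiff_snd.contDiffAt.smul ((hθ.pull smap_fst) y hy)

theorem pull_sl_fst (s : ℝ) (θ : E → Ext E) (hθ : Sm Z θ) (hx : x ∈ Z) :
    F.pull (sl s) (F.pull Prod.fst θ) x = θ x := by
  rw [pull_comp ((contDiff_sl s).differentiable (by simp) x) differentiableAt_fst]
  exact pull_id θ x

theorem pull_sl_cyl (s : ℝ) {θ : E → Ext E} (hθ : Sm Z θ) (hx : x ∈ Z) :
    F.pull (sl s) (cyl θ) x = s • θ x := by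
  have h1 : F.pull (sl s) (cyl θ) x = s • F.pull (sl s) (F.pull Prod.fst θ) x := by
    rw [F.pull, cyl, map_smul]; rfl
  rw [h1, pull_sl_fst s θ hθ hx]

theorem pull_sl_d (s : ℝ) {w : E × ℝ → Ext (E × ℝ)} (hw : Sm (Cyl Z) w) :
    Eqv Z (F.pull (sl s) (F.d w)) (F.d (F.pull (sl s) w)) := (d_pull_eqv (smap_sl s) hw).symm

theorem pull_sl_dcyl {n : ℕ} (hZ : Sub n Z) (s : ℝ) {θ : E → Ext E} (hθ : Sm Z θ) :
    Eqv Z (F.pull (sl s) (F.d (cyl θ))) (s • F.d θ) := by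
  refine (pull_sl_d s (sm_cyl hθ)).trans ?_
  have h1 : Eqv Z (F.pull (sl s) (cyl θ)) (s • θ) := Eqv.of_eq fun x hx => pull_sl_cyl s hθ hx
  exact (h1.d hZ ((sm_cyl hθ).pull (smap_sl s)) (hθ.smul s)).trans (d_smul_eqv s hθ)

/-- the data on the cylinder -/
structure Fam (Z : Set E) (V : E → E) (m : ℕ) (a b h η : E × ℝ → Ext (E × ℝ)) (θ : E → Ext E)
    (c : ℝ) : Prop where
  Vt : ∀ x ∈ Z, V x ∈ Tan Z x
  V0 : ∀ x ∈ Z, V x ≠ 0
  sa : Sm (Cyl Z) a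
  sb : Sm (Cyl Z) b
  sh : Sm (Cyl Z) h
  sη : Sm (Cyl Z) η
  sθ : Sm Z θ
  ca : Cl (Cyl Z) a
  cb : Cl (Cyl Z) b
  ch : Cl (Cyl Z) h
  ea : Ev (Cyl Z) a
  eb : Ev (Cyl Z) b
  eh : Ev (Cyl Z) h
  a0 : Eqv (Cyl Z) (a ^ (m + 1)) 0
  b0 : Eqv (Cyl Z) (b ^ (m + 1)) 0
  rel : Eqv (Cyl Z) (a - b) (F.d (cyl θ) * h + F.d η)
  η0 : Eqv Z (F.pull (sl 0) η) 0
  η1 : Hz Z V (F.pull (sl 1) η)
  a1 : Hz Z V (F.pull (sl 1) a)
  b1 : Hz Z V (F.pull (sl 1) b)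
  h1 : Hz Z V (F.pull (sl 1) h)
  θ1 : ∀ x ∈ Z, Rs Z x (ii (V x) (θ x)) = algebraMap ℝ _ c
  dθ : Hz Z V (F.d θ)

variable {V : E → E} {m : ℕ} {a b h η : E × ℝ → Ext (E × ℝ)} {θ : E → Ext E} {c : ℝ}

theorem rs_mul {F' : Type*} [NormedAddCommGroup F'] [NormedSpace ℝ F'] [FiniteDimensional ℝ F']
    (X : Set F') (y : F') (p q : F' → Ext F') :
    Rs X y ((p * q) y) = Rs X y (p y) * Rs X y (q y) := by rw [Pi.mul_apply, map_mul]
theorem rs_add {F' : Type*} [NormedAddCommGroup F'] [NormedSpace ℝ F'] [FiniteDimensional ℝ F']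
    (X : Set F') (y : F') (p q : F' → Ext F') :
    Rs X y ((p + q) y) = Rs X y (p y) + Rs X y (q y) := by rw [Pi.add_apply, map_add]
theorem rs_sub {F' : Type*} [NormedAddCommGroup F'] [NormedSpace ℝ F'] [FiniteDimensional ℝ F']
    (X : Set F') (y : F') (p q : F' → Ext F') :
    Rs X y ((p - q) y) = Rs X y (p y) - Rs X y (q y) := by rw [Pi.sub_apply, map_sub]
theorem rs_pow {F' : Type*} [NormedAddCommGroup F'] [NormedSpace ℝ F'] [FiniteDimensional ℝ F']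
    (X : Set F') (y : F') (p : F' → Ext F') (n : ℕ) :
    Rs X y ((p ^ n) y) = Rs X y (p y) ^ n := by rw [Pi.pow_apply, map_pow]
theorem rs_smul {F' : Type*} [NormedAddCommGroup F'] [NormedSpace ℝ F'] [FiniteDimensional ℝ F']
    (X : Set F') (y : F') (r : ℝ) (p : F' → Ext F') :
    Rs X y ((r • p) y) = r • Rs X y (p y) := by rw [Pi.smul_apply, map_smul]
theorem rs_sum {F' : Type*} [NormedAddCommGroup F'] [NormedSpace ℝ F'] [FiniteDimensional ℝ F']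
    (X : Set F') (y : F') {ι : Type*} (s : Finset ι) (p : ι → F' → Ext F') :
    Rs X y ((∑ i ∈ s, p i) y) = ∑ i ∈ s, Rs X y (p i y) := by
  rw [Finset.sum_apply, map_sum]

/-- `u = d(sθ) h`, the quotient polynomial `Q = Σ ρ^i u^(n-1-i)` -/
def QQ (a b h : E × ℝ → Ext (E × ℝ)) (θ : E → Ext E) (n : ℕ) : E × ℝ → Ext (E × ℝ) :=
  ∑ i ∈ Finset.range n, (a - b) ^ i * (F.d (cyl θ) * h) ^ (n - 1 - i)

namespace Fam

theorem su (H : Fam Z V m a b h η θ c) : Sm (Cyl Z) (F.d (cyl θ) * h) := (sm_cyl H.sθ).d.mul H.sh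
theorem cu (H : Fam Z V m a b h η θ c) : Cl (Cyl Z) (F.d (cyl θ) * h) :=
  Cl.mul (sm_cyl H.sθ).d H.sh (d_d' (sm_cyl H.sθ)) H.ch
theorem sρ (H : Fam Z V m a b h η θ c) : Sm (Cyl Z) (a - b) := H.sa.sub H.sb
theorem cρ (H : Fam Z V m a b h η θ c) : Cl (Cyl Z) (a - b) := Cl.sub H.sa H.sb H.ca H.cb
theorem eρ (H : Fam Z V m a b h η θ c) : Ev (Cyl Z) (a - b) := H.ea.sub H.eb

theorem sQ (H : Fam Z V m a b h η θ c) (n : ℕ) : Sm (Cyl Z) (QQ a b h θ n) :=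
  Sm.sum _ fun i _ => (Sm.pow H.sρ i).mul (Sm.pow H.su _)
theorem cQ (H : Fam Z V m a b h η θ c) (n : ℕ) : Cl (Cyl Z) (QQ a b h θ n) :=
  Cl.sum _ (fun i _ => (Sm.pow H.sρ i).mul (Sm.pow H.su _)) fun i _ =>
    Cl.mul (Sm.pow H.sρ i) (Sm.pow H.su _) (Cl.pow H.sρ H.cρ i) (Cl.pow H.su H.cu _)

/-- the primitive of `ρ^(2m) h` -/
def Psi (a b h η : E × ℝ → Ext (E × ℝ)) (θ : E → Ext E) (m : ℕ) : E × ℝ → Ext (E × ℝ) :=
  cyl θ * (F.d (cyl θ) ^ (2 * m - 1) * h ^ (2 * m) * h) + η * (QQ a b h θ (2 * m) * h)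

theorem sPsi1 (H : Fam Z V m a b h η θ c) :
    Sm (Cyl Z) (F.d (cyl θ) ^ (2 * m - 1) * h ^ (2 * m) * h) :=
  ((Sm.pow (sm_cyl H.sθ).d _).mul (Sm.pow H.sh _)).mul H.sh
theorem cPsi1 (H : Fam Z V m a b h η θ c) :
    Cl (Cyl Z) (F.d (cyl θ) ^ (2 * m - 1) * h ^ (2 * m) * h) :=
  Cl.mul ((Sm.pow (sm_cyl H.sθ).d _).mul (Sm.pow H.sh _)) H.sh
    (Cl.mul (Sm.pow (sm_cyl H.sθ).d _) (Sm.pow H.sh _)
      (Cl.pow (sm_cyl H.sθ).d (d_d' (sm_cyl H.sθ)) _) (Cl.pow H.sh H.ch _)) H.ch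

theorem sPsi (H : Fam Z V m a b h η θ c) : Sm (Cyl Z) (Psi a b h η θ m) :=
  ((sm_cyl H.sθ).mul H.sPsi1).add (H.sη.mul ((H.sQ _).mul H.sh))

theorem dPsi (H : Fam Z V m a b h η θ c) (hm : 1 ≤ m) :
    Eqv (Cyl Z) (F.d (Psi a b h η θ m))
      (((-1) ^ m * ((2 * m).choose m : ℝ)) • (h * a ^ m * b ^ m)) := by
  have h1 : Eqv (Cyl Z) (F.d (Psi a b h η θ m))
      (F.d (cyl θ) * (F.d (cyl θ) ^ (2 * m - 1) * h ^ (2 * m) * h) +
        F.d η * (QQ a b h θ (2 * m) * h)) := by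
    refine (d_add_eqv ((sm_cyl H.sθ).mul H.sPsi1) (H.sη.mul ((H.sQ _).mul H.sh))).trans ?_
    exact (d_mul_cl (sm_cyl H.sθ) H.sPsi1 H.cPsi1).add
      (d_mul_cl H.sη ((H.sQ _).mul H.sh) (Cl.mul (H.sQ _) H.sh (H.cQ _) H.ch))
  refine h1.trans (eqv_iff.2 fun y hy => ?_)
  have hrel := eqv_iff.1 H.rel y hy
  have e1 := eqv_iff.1 H.a0 y hy
  have e2 := eqv_iff.1 H.b0 y hy
  have ca := fun q => H.ea.comm hy q
  have ch := fun q => H.eh.comm hy q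
  have cρ := fun q => H.eρ.comm hy q
  simp only [QQ, rs_mul, rs_add, rs_sub, rs_pow, rs_smul, rs_sum, Pi.zero_apply, map_zero] at *
  set A := Rs (Cyl Z) y (a y)
  set B := Rs (Cyl Z) y (b y)
  set Hh := Rs (Cyl Z) y (h y)
  set U := Rs (Cyl Z) y (F.d (cyl θ) y)
  set W := Rs (Cyl Z) y (F.d η y)
  have hW : W = (A - B) - U * Hh := by rw [hrel]; abel
  have hgeo := ((cρ (U * Hh)).mul_geom_sum₂ (2 * m))
  have hmid := binom_mid (ca B) e1 e2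
  have hU : U * (U ^ (2 * m - 1) * Hh ^ (2 * m) * Hh) = (U * Hh) ^ (2 * m) * Hh := by
    rw [((ch U).symm).mul_pow, ← mul_assoc, ← mul_assoc, ← pow_succ',
      show 2 * m - 1 + 1 = 2 * m by omega]
  rw [hU, hW, ← mul_assoc (A - B - U * Hh), hgeo, ← add_mul, add_sub_cancel, hmid,
    smul_mul_assoc, ← ((ch (A ^ m * B ^ m))).eq, mul_assoc Hh]

/-- slices of `d(sθ) h` and of `Q` are horizontal at `s = 1` -/
theorem hz_dcyl (H : Fam Z V m a b h η θ c) {n : ℕ} (hZ : Sub n Z) :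
    Hz Z V (F.pull (sl 1) (F.d (cyl θ))) :=
  Hz.eqv H.Vt (pull_sl_dcyl hZ 1 H.sθ) (H.dθ.smul 1)

theorem hz_u (H : Fam Z V m a b h η θ c) {n : ℕ} (hZ : Sub n Z) :
    Hz Z V (F.pull (sl 1) (F.d (cyl θ) * h)) := by
  rw [pull_mul']; exact (H.hz_dcyl hZ).mul H.h1

theorem hz_ρ (H : Fam Z V m a b h η θ c) : Hz Z V (F.pull (sl 1) (a - b)) := by
  rw [pull_sub']; exact H.a1.sub H.b1

theorem hz_Q (H : Fam Z V m a b h η θ c) {n : ℕ} (hZ : Sub n Z) (N : ℕ) :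
    Hz Z V (F.pull (sl 1) (QQ a b h θ N)) := by
  rw [QQ, pull_sum']
  refine Hz.sum _ fun i _ => ?_
  rw [pull_mul', pull_pow', pull_pow']
  exact (H.hz_ρ.pow i).mul ((H.hz_u hZ).pow _)

theorem Psi_zero (H : Fam Z V m a b h η θ c) :
    Eqv Z (F.pull (sl 0) (Psi a b h η θ m)) 0 := by
  rw [Psi, pull_add', pull_mul' _ (cyl θ), pull_mul' _ η]
  have h1 : Eqv Z (F.pull (sl 0) (cyl θ)) 0 := Eqv.of_eq fun x hx => by
    rw [pull_sl_cyl 0 H.sθ hx, zero_smul]; rfl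
  have h2 := (h1.mul (Eqv.refl (F.pull (sl 0) (F.d (cyl θ) ^ (2 * m - 1) * h ^ (2 * m) * h)))).add
    (H.η0.mul (Eqv.refl (F.pull (sl 0) (QQ a b h θ (2 * m) * h))))
  rwa [zero_mul, zero_mul, add_zero] at h2

theorem Psi_one (H : Fam Z V m a b h η θ c) {n : ℕ} (hZ : Sub n Z) :
    Eqv Z (F.pull (sl 1) (Psi a b h η θ m))
      (θ * (F.d θ ^ (2 * m - 1) * F.pull (sl 1) h ^ (2 * m + 1)) +
        F.pull (sl 1) η * (F.pull (sl 1) (QQ a b h θ (2 * m)) * F.pull (sl 1) h)) := by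
  rw [Psi, pull_add', pull_mul', pull_mul', pull_mul', pull_mul', pull_mul', pull_pow', pull_pow']
  have h1 : Eqv Z (F.pull (sl 1) (cyl θ)) θ := Eqv.of_eq fun x hx => by
    rw [pull_sl_cyl 1 H.sθ hx, one_smul]
  refine Eqv.add (h1.mul ?_) (Eqv.refl _)
  refine eqv_iff.2 fun x hx => ?_
  have h2 := eqv_iff.1 (pull_sl_dcyl hZ 1 H.sθ) x hx
  rw [one_smul] at h2
  simp only [rs_mul, rs_pow] at *
  rw [h2, pow_succ, mul_assoc]

/-- **(RR1)** -/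
theorem rr1 (H : Fam Z V m a b h η θ c) (hZ : Clo d Z) (ho : Ori d Z o) (hm : 1 ≤ m) :
    J d Z o (θ * (F.d θ ^ (2 * m - 1) * F.pull (sl 1) h ^ (2 * m + 1))) =
      ((-1) ^ m * ((2 * m).choose m : ℝ)) * J d Z o (K (h * a ^ m * b ^ m)) := by
  have hs : Sm (Cyl Z) (h * a ^ m * b ^ m) := (H.sh.mul (Sm.pow H.sa m)).mul (Sm.pow H.sb m)
  have h1 := JK_congr (o := o) hZ H.sPsi.d (hs.smul _) (H.dPsi hm)
  rw [JK_smul, JK_d hZ ho H.sPsi, J_eqv hZ H.Psi_zero, J_eqv hZ (H.Psi_one hZ.sub),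
    J_add' hZ ho] at h1
  · have h2 : J d Z o (F.pull (sl 1) η *
        (F.pull (sl 1) (QQ a b h θ (2 * m)) * F.pull (sl 1) h)) = 0 :=
      J_hz hZ H.Vt H.V0 (H.η1.mul ((H.hz_Q hZ.sub _).mul H.h1))
    have h3 : J d Z o (0 : E → Ext E) = 0 := J_hz hZ H.Vt H.V0 Hz.zero
    rw [h2, h3, add_zero, sub_zero] at h1
    exact h1
  · exact H.sθ.mul ((Sm.pow H.sθ.d _).mul (Sm.pow (H.sh.pull (smap_sl 1)) _))
  · exact (H.sη.pull (smap_sl 1)).mul (((H.sQ _).pull (smap_sl 1)).mul (H.sh.pull (smap_sl 1)))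

end Fam

end Crest.Agent.R208.RR
end
end

-- ▼ part R208/RR2

/-! Row 208, block RR (helper427), part RR2: integration along the orbits, the division lemma,
primitives on the cylinder, and the value of `D`. -/

set_option autoImplicit false
set_option linter.unusedSectionVars false
set_option linter.unusedVariables false

open MeasureTheory Set Filter Topology Module
open scoped ContDiff
open Crest.Agent.R208.F Crest.Agent.R208.FI Crest.Agent.R208.CW Crest.Agent.R208.T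

noncomputable section

namespace Crest.Agent.R208.RR

universe u
variable {E : Type u} [NormedAddCommGroup E] [NormedSpace ℝ E] [FiniteDimensional ℝ E]
  {d : ℕ} {Z : Set E} {o : E → Ext E} {x : E} {φ : ℝ → E → E} {μ μ' γ β : E → Ext E}

/-- the flow map `(x, t) ↦ φ (2π t) x` -/
def Fl (φ : ℝ → E → E) (q : E × ℝ) : E := φ (2 * Real.pi * q.2) q.1

theorem contDiffAt_Fl (hφ : CM.Cir Z φ) (hx : x ∈ Z) (t : ℝ) : ContDiffAt ℝ ∞ (Fl φ) (x, t) := by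
  have h1 := hφ.smooth (2 * Real.pi * t) x hx
  have h2 : ContDiffAt ℝ ∞ (fun q : E × ℝ => ((2 * Real.pi * q.2, q.1) : ℝ × E)) (x, t) :=
    ((contDiff_const.mul contDiff_snd).prodMk contDiff_fst).contDiffAt
  exact ContDiffAt.comp (g := fun q : ℝ × E => φ q.1 q.2) (x, t) h1 h2

theorem Fl_mem (hφ : CM.Cir Z φ) (hx : x ∈ Z) (t : ℝ) : Fl φ (x, t) ∈ Z := hφ.maps _ hx

/-- integration along the orbits -/
def Wp (φ : ℝ → E → E) (μ : E → Ext E) : E → Ext E := Hop (Fl φ) μ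

theorem Sm.Wp (hφ : CM.Cir Z φ) (hμ : Sm Z μ) : Sm Z (Wp φ μ) := fun x hx =>
  contDiffAt_Hop (fun t _ => contDiffAt_Fl hφ hx t) fun t _ => hμ _ (Fl_mem hφ hx t)

theorem fderiv_Fl_inl (hφ : CM.Cir Z φ) (hx : x ∈ Z) (t : ℝ) :
    (fderiv ℝ (Fl φ) (x, t)).comp (ContinuousLinearMap.inl ℝ E ℝ) =
      fderiv ℝ (φ (2 * Real.pi * t)) x := by
  have h1 : HasFDerivAt (Fl φ) (fderiv ℝ (Fl φ) (x, t)) (x, t) :=
    ((contDiffAt_Fl hφ hx t).differentiableAt (by simp)).hasFDerivAt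
  have hj : HasFDerivAt (fun y : E => (y, t)) (ContinuousLinearMap.inl ℝ E ℝ) x :=
    (hasFDerivAt_id x).prodMk (hasFDerivAt_const t x)
  exact (h1.comp x hj).fderiv.symm

theorem fderiv_Fl_inr (hφ : CM.Cir Z φ) (hx : x ∈ Z) (t : ℝ) :
    fderiv ℝ (Fl φ) (x, t) ((0, 1) : E × ℝ) =
      (2 * Real.pi) • CM.gen φ (φ (2 * Real.pi * t) x) := by
  have h1 : HasFDerivAt (Fl φ) (fderiv ℝ (Fl φ) (x, t)) (x, t) :=
    ((contDiffAt_Fl hφ hx t).differentiableAt (by simp)).hasFDerivAt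
  have h2 : HasDerivAt (fun s : ℝ => ((x, s) : E × ℝ)) ((0, 1) : E × ℝ) t :=
    (hasDerivAt_const t x).prodMk (hasDerivAt_id t)
  have h3 := h1.comp_hasDerivAt t h2
  have h4 := hφ.hasDerivAt hx (2 * Real.pi * t)
  have h5 : HasDerivAt (fun s : ℝ => 2 * Real.pi * s) (2 * Real.pi) t := by
    simpa using (hasDerivAt_id t).const_mul (2 * Real.pi)
  have h6 := h4.scomp t h5
  exact h3.unique h6

/-- the integrand -/
theorem hopL_Fl (hφ : CM.Cir Z φ) (hx : x ∈ Z) (t : ℝ) :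
    hopL (ContinuousLinearMap.inl ℝ E ℝ) ((0, 1) : E × ℝ) (F.pull (Fl φ) μ (x, t)) =
      (2 * Real.pi) • pb ((fderiv ℝ (φ (2 * Real.pi * t)) x : E →L[ℝ] E) : E →ₗ[ℝ] E)
        (ii (CM.gen φ (φ (2 * Real.pi * t) x)) (μ (φ (2 * Real.pi * t) x))) := by
  rw [hopL_apply, F.pull, ii_pb]
  change pb _ (pb _ (ii (fderiv ℝ (Fl φ) (x, t) ((0, 1) : E × ℝ)) _)) = _
  rw [fderiv_Fl_inr hφ hx, pb_comp]
  have h1 : ((fderiv ℝ (Fl φ) (x, t) : E × ℝ →L[ℝ] E) : E × ℝ →ₗ[ℝ] E) ∘ₗ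
      ((ContinuousLinearMap.inl ℝ E ℝ : E →L[ℝ] E × ℝ) : E →ₗ[ℝ] E × ℝ) =
      ((fderiv ℝ (φ (2 * Real.pi * t)) x : E →L[ℝ] E) : E →ₗ[ℝ] E) := by
    rw [← fderiv_Fl_inl hφ hx t]; rfl
  rw [h1, map_smul, LinearMap.smul_apply, map_smul]
  rfl

theorem Wp_apply (x : E) : Wp φ μ x = ∫ t in (0 : ℝ)..1,
    hopL (ContinuousLinearMap.inl ℝ E ℝ) ((0, 1) : E × ℝ) (F.pull (Fl φ) μ (x, t)) := by
  rw [Wp, Hop, hop, I1]
  simp only [hopg, jv_inl]

theorem integrable_Wp (hφ : CM.Cir Z φ) (hμ : Sm Z μ) (hx : x ∈ Z) :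
    IntervalIntegrable (fun t => hopL (ContinuousLinearMap.inl ℝ E ℝ) ((0, 1) : E × ℝ)
      (F.pull (Fl φ) μ (x, t))) volume 0 1 := by
  refine Continuous.intervalIntegrable ?_ _ _
  refine (hopL _ _).continuous.comp ?_
  rw [continuous_iff_continuousAt]
  intro t
  have h1 : ContinuousAt (F.pull (Fl φ) μ) ((fun s : ℝ => ((x, s) : E × ℝ)) t) :=
    (contDiffAt_pull (m := ∞) (contDiffAt_Fl hφ hx t) (by simp)
      (hμ _ (Fl_mem hφ hx t))).continuousAt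
  exact h1.comp (f := fun s : ℝ => ((x, s) : E × ℝ)) (by fun_prop : Continuous
    (fun s : ℝ => ((x, s) : E × ℝ))).continuousAt

/-- integration along the orbits gives horizontal forms -/
theorem Wp_hz (hφ : CM.Cir Z φ) (hμ : Sm Z μ) : Hz Z (CM.gen φ) (Wp φ μ) := by
  intro x hx
  have h0 : ii (CM.gen φ x) (Wp φ μ x) = 0 := by
    have h1 : ii (CM.gen φ x) (Wp φ μ x) = iiL (CM.gen φ x) (Wp φ μ x) := rfl
    rw [h1, Wp_apply, ← ContinuousLinearMap.intervalIntegral_comp_comm _ (integrable_Wp hφ hμ hx)]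
    have h2 : ∀ t : ℝ, iiL (CM.gen φ x) (hopL (ContinuousLinearMap.inl ℝ E ℝ) ((0, 1) : E × ℝ)
        (F.pull (Fl φ) μ (x, t))) = 0 := by
      intro t
      rw [hopL_Fl hφ hx, iiL_apply, map_smul, ii_pb]
      change _ • pb _ (ii (fderiv ℝ (φ (2 * Real.pi * t)) x (CM.gen φ x)) _) = _
      rw [hφ.fderiv_gen hx, ii_ii, map_zero, smul_zero]
    simp only [h2, intervalIntegral.integral_zero]
  rw [h0, map_zero]

theorem Wp_eqv0 (hφ : CM.Cir Z φ) (hμ : Sm Z μ) (h : ResZero Z μ) : ResZero Z (Wp φ μ) :=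
  resZero_hop (fun x hx t _ => by
      rw [jv_inl]; exact (contDiffAt_Fl hφ hx t).of_le two_le)
    (fun x hx t _ => by rw [jv_inl]; exact Fl_mem hφ hx t)
    (fun x hx t _ => by rw [jv_inl]; exact (hμ _ (Fl_mem hφ hx t)).continuousAt) h

theorem Wp_sub (hφ : CM.Cir Z φ) (hμ : Sm Z μ) (hμ' : Sm Z μ') (hx : x ∈ Z) :
    Wp φ (μ - μ') x = Wp φ μ x - Wp φ μ' x := by
  simp only [Wp_apply]
  rw [← intervalIntegral.integral_sub (integrable_Wp hφ hμ hx) (integrable_Wp hφ hμ' hx)]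
  simp only [pull_sub', Pi.sub_apply, map_sub]

theorem Wp_eqv (hφ : CM.Cir Z φ) (hμ : Sm Z μ) (hμ' : Sm Z μ') (h : Eqv Z μ μ') :
    Eqv Z (Wp φ μ) (Wp φ μ') := by
  have h1 := Wp_eqv0 hφ (hμ.sub hμ') h
  refine eqv_iff.2 fun x hx => ?_
  have h2 := h1 x hx
  rw [Wp_sub hφ hμ hμ' hx, map_sub, sub_eq_zero] at h2
  exact h2

/-- `d W + W d = 0` on `Z` -/
theorem d_Wp (hφ : CM.Cir Z φ) (hμ : Sm Z μ) : Eqv Z (F.d (Wp φ μ)) (-(Wp φ (F.d μ))) := by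
  have h1 : ∀ x ∈ Z, F.d (Wp φ μ) x + Wp φ (F.d μ) x =
      F.pull (fun y => Fl φ (y, 1)) μ x - F.pull (fun y => Fl φ (y, 0)) μ x := by
    intro x hx
    have := d_hop_pull (j := ContinuousLinearMap.inl ℝ E ℝ) (v := ((0, 1) : E × ℝ)) (Fh := Fl φ)
      (om := μ) (x := x) (fun t _ => by
        rw [jv_inl]; exact (contDiffAt_Fl hφ hx t).of_le two_le)
      (fun t _ => by
        rw [jv_inl]; exact (hμ _ (Fl_mem hφ hx t)).of_le (by exact_mod_cast le_top))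
    simp only [jv_inl] at this
    exact this
  have hs : ∀ t : ℝ, ∀ x ∈ Z, DifferentiableAt ℝ (fun y => Fl φ (y, t)) x := fun t x hx =>
    show DifferentiableAt ℝ (φ (2 * Real.pi * t)) x from
      (hφ.smooth_right _ hx).differentiableAt (by simp)
  have h2 : Eqv Z (F.pull (fun y => Fl φ (y, 1)) μ) (F.pull (fun y => Fl φ (y, 0)) μ) :=
    eqv_pull_of_eq μ (hs 1) (hs 0) fun y hy => by
      simp only [Fl]
      rw [mul_one, mul_zero, hφ.per y hy, hφ.zero y hy]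
  refine eqv_iff.2 fun x hx => ?_
  have h3 := congrArg (Rs Z x) (h1 x hx)
  rw [map_add, map_sub, eqv_iff.1 h2 x hx, sub_self] at h3
  rw [Pi.neg_apply, map_neg]
  exact eq_neg_of_add_eq_zero_left h3

/-- `γ` is invariant -/
def Inv (Z : Set E) (φ : ℝ → E → E) (γ : E → Ext E) : Prop := ∀ t, Eqv Z (F.pull (φ t) γ) γ

theorem Inv.mul (h : Inv Z φ γ) (h' : Inv Z φ β) : Inv Z φ (γ * β) := fun t => by
  rw [pull_mul']; exact (h t).mul (h' t)
theorem Inv.add (h : Inv Z φ γ) (h' : Inv Z φ β) : Inv Z φ (γ + β) := fun t => by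
  rw [pull_add']; exact (h t).add (h' t)
theorem Inv.sub (h : Inv Z φ γ) (h' : Inv Z φ β) : Inv Z φ (γ - β) := fun t => by
  rw [pull_sub']; exact (h t).sub (h' t)
theorem Inv.smul (r : ℝ) (h : Inv Z φ γ) : Inv Z φ (r • γ) := fun t => by
  rw [pull_smul']; exact (h t).smul r
theorem Inv.one : Inv Z φ (1 : E → Ext E) := fun t => by rw [pull_one']; exact Eqv.refl _
theorem Inv.pow (h : Inv Z φ γ) (n : ℕ) : Inv Z φ (γ ^ n) := by
  induction n with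
  | zero => rw [pow_zero]; exact Inv.one
  | succ n ih => rw [pow_succ]; exact ih.mul h
theorem Inv.sum {ι : Type*} (s : Finset ι) {f : ι → E → Ext E} (h : ∀ i ∈ s, Inv Z φ (f i)) :
    Inv Z φ (∑ i ∈ s, f i) := by
  classical
  induction s using Finset.induction_on with
  | empty => rw [Finset.sum_empty]; intro t; rw [pull_zero']; exact Eqv.refl _
  | insert i s hi ih =>
    rw [Finset.sum_insert hi]
    exact (h i (Finset.mem_insert_self _ _)).add (ih fun j hj => h j (Finset.mem_insert_of_mem hj))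

/-- the integral over the orbits of `μ` with `ι_V μ = r γ`, `γ` invariant -/
theorem Wp_inv (hφ : CM.Cir Z φ) (hμ : Sm Z μ) (r : ℝ) (hγ : Inv Z φ γ)
    (h : ∀ x ∈ Z, Rs Z x (ii (CM.gen φ x) (μ x)) = r • Rs Z x (γ x)) :
    Eqv Z (Wp φ μ) ((2 * Real.pi * r) • γ) := by
  refine eqv_iff.2 fun x hx => ?_
  let R : Ext E →L[ℝ] Ext (Tan Z x) :=
    LinearMap.toContinuousLinearMap (pb (Tan Z x).subtype).toLinearMap
  have h1 : Rs Z x (Wp φ μ x) = R (Wp φ μ x) := rfl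
  change Rs Z x (Wp φ μ x) = _
  rw [h1, Wp_apply, ← ContinuousLinearMap.intervalIntegral_comp_comm _ (integrable_Wp hφ hμ hx)]
  have h2 : ∀ t : ℝ, R (hopL (ContinuousLinearMap.inl ℝ E ℝ) ((0, 1) : E × ℝ)
      (F.pull (Fl φ) μ (x, t))) = (2 * Real.pi * r) • Rs Z x (γ x) := by
    intro t
    rw [hopL_Fl hφ hx]
    set s := 2 * Real.pi * t
    have h3 : Rs Z (φ s x) (ii (CM.gen φ (φ s x)) (μ (φ s x)) - r • γ (φ s x)) = 0 := by
      rw [map_sub, h _ (hφ.maps s hx), map_smul, sub_self]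
    have h4 := pb_pull_eq_zero (X := Z) (Y := Z) (f := φ s) (x := x)
      ((hφ.smooth_right s hx).differentiableAt (by simp)) (hφ.maps s) h3
    rw [map_sub, map_sub, sub_eq_zero, map_smul, map_smul] at h4
    have h5 := eqv_iff.1 (hγ s) x hx
    rw [F.pull] at h5
    rw [h5] at h4
    change Rs Z x ((2 * Real.pi) • _) = _
    rw [map_smul, mul_smul (2 * Real.pi) r]
    exact congrArg _ h4
  simp only [h2, intervalIntegral.integral_const, sub_zero, one_smul]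
  rw [Pi.smul_apply, map_smul]

/-- **division lemma** -/
theorem division (hφ : CM.Cir Z φ) {θ : E → Ext E} {c : ℝ} (hc : c ≠ 0)
    (hθ : ∀ x ∈ Z, Rs Z x (ii (CM.gen φ x) (θ x)) = algebraMap ℝ _ c) (sμ : Sm Z μ)
    (sθ : Sm Z θ) (sγ : Sm Z γ) (sβ : Sm Z β)
    (hγ : Inv Z φ γ) (hγz : Hz Z (CM.gen φ) γ) (hβz : Hz Z (CM.gen φ) β)
    (h : Eqv Z (F.d μ) (θ * γ + β)) :
    ∃ ν : E → Ext E, Sm Z ν ∧ Hz Z (CM.gen φ) ν ∧ Eqv Z (F.d ν) γ := by
  have hπ : (2 * Real.pi * c) ≠ 0 := mul_ne_zero (by positivity) hc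
  have s1 : Sm Z (θ * γ + β) := (sθ.mul sγ).add sβ
  have h1 : Eqv Z (Wp φ (θ * γ + β)) ((2 * Real.pi * c) • γ) := by
    refine Wp_inv hφ s1 c hγ fun x hx => ?_
    rw [Pi.add_apply, Pi.mul_apply, map_add, map_add, ii_mul, map_add, map_mul, map_mul, hθ x hx,
      hγz x hx, hβz x hx, mul_zero, add_zero, add_zero, Algebra.smul_def]
  refine ⟨(-(2 * Real.pi * c)⁻¹) • Wp φ μ, (Sm.Wp hφ sμ).smul _, (Wp_hz hφ sμ).smul _, ?_⟩
  have h2 := ((d_Wp hφ sμ).trans ((Wp_eqv hφ sμ.d s1 h).neg)).trans h1.neg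
  refine (d_smul_eqv _ (Sm.Wp hφ sμ)).trans ((h2.smul _).trans (Eqv.of_eq fun x hx => ?_))
  simp only [Pi.smul_apply, Pi.neg_apply]
  rw [smul_neg, neg_smul, neg_neg, smul_smul, inv_mul_cancel₀ hπ, one_smul]

end Crest.Agent.R208.RR
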