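import Crest.Agent.R208.FH10
import Crest.Agent.R208.CM5

/-! Row 208, block RR (helper365), piece [RRc], part A: **the fibre integral of a `k`-parameter
family of curves sweeping out `X`**.  If `EE : Z × (0,1) → X` is a diffeomorphism onto the
complement of a null set then `∫_Z K(EE^*w) = ∫_X w`, `Z` being oriented by `K(EE^* oX)`. -/

set_option autoImplicit false
set_option linter.unusedSectionVars false

open MeasureTheory MeasureTheory.Measure Set Filter Topology Module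
open scoped ContDiff
open Crest.Agent.R208.F Crest.Agent.R208.FI

noncomputable section

namespace Crest.Agent.R208.RRC

/-! ### the splitting `ℝ^(1+m) = ℝ × ℝ^m` -/
section k1
variable (m : ℕ)

/-- `ℝ^1 = ℝ` -/
def e1 : Eu 1 ≃L[ℝ] ℝ :=
  (EuclideanSpace.equiv (Fin 1) ℝ).trans (ContinuousLinearEquiv.funUnique (Fin 1) ℝ ℝ)

theorem e1_apply (u : Eu 1) : e1 u = u 0 := rfl

theorem measurePreserving_e1 : MeasurePreserving (e1 : Eu 1 → ℝ) volume volume := by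
  have h2 := (PiLp.volume_preserving_ofLp (Fin 1))
  have h3 := (volume_preserving_funUnique (Fin 1) ℝ)
  exact h3.comp h2

/-- `ℝ^(1+m) = ℝ × ℝ^m` -/
def k1 : Eu (1 + m) ≃L[ℝ] ℝ × Eu m :=
  (kap 1 m).trans (e1.prodCongr (ContinuousLinearEquiv.refl ℝ (Eu m)))

theorem k1_apply (x : Eu (1 + m)) : k1 m x = (e1 (kap 1 m x).1, (kap 1 m x).2) := rfl

theorem measurePreserving_k1 : MeasurePreserving (k1 m : Eu (1 + m) → ℝ × Eu m)
    volume volume := by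
  have h1 : MeasurePreserving (Prod.map (e1 : Eu 1 → ℝ) (id : Eu m → Eu m))
      ((volume : Measure (Eu 1)).prod volume) ((volume : Measure ℝ).prod volume) :=
    measurePreserving_e1.prod (MeasurePreserving.id _)
  exact h1.comp (measurePreserving_kap 1 m)

theorem k1_castAdd (i : Fin 1) : k1 m (sb (1 + m) (Fin.castAdd m i)) = (1, 0) := by
  rw [k1_apply, kap_castAdd]
  have h : i = 0 := Fin.fin_one_eq_zero i
  subst h
  simp [e1_apply]

theorem k1_natAdd (j : Fin m) : k1 m (sb (1 + m) (Fin.natAdd 1 j)) = (0, sb m j) := by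
  rw [k1_apply, kap_natAdd]
  simp

theorem measurableEmbedding_k1 : MeasurableEmbedding (k1 m : Eu (1 + m) → ℝ × Eu m) :=
  (k1 m).toHomeomorph.measurableEmbedding

end k1

/-! ### algebra -/
universe u
variable {E : Type u} [NormedAddCommGroup E] [NormedSpace ℝ E] [FiniteDimensional ℝ E]
  {F : Type*} [NormedAddCommGroup F] [NormedSpace ℝ F] [FiniteDimensional ℝ F]
  {m : ℕ} {EE : E × ℝ → F} {Z : Set E} {X : Set F} {om : F → Ext F}

/-- the parametrisation induced by a parametrisation `Φ` of `Z` -/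
def hh (EE : E × ℝ → F) (Φ : Eu m → E) (x : Eu (1 + m)) : F := EE (Φ (k1 m x).2, (k1 m x).1)

theorem hasFDerivAt_hh {Φ : Eu m → E} {x : Eu (1 + m)} (hΦ : DifferentiableAt ℝ Φ (k1 m x).2)
    (hE : DifferentiableAt ℝ EE (Φ (k1 m x).2, (k1 m x).1)) :
    HasFDerivAt (hh EE Φ) ((fderiv ℝ EE (Φ (k1 m x).2, (k1 m x).1)).comp
      (((fderiv ℝ Φ (k1 m x).2).comp ((ContinuousLinearMap.snd ℝ ℝ (Eu m)).comp
        (k1 m : Eu (1 + m) →L[ℝ] ℝ × Eu m))).prod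
        ((ContinuousLinearMap.fst ℝ ℝ (Eu m)).comp (k1 m : Eu (1 + m) →L[ℝ] ℝ × Eu m)))) x := by
  have h1 : HasFDerivAt (fun x : Eu (1 + m) => (k1 m x).2)
      ((ContinuousLinearMap.snd ℝ ℝ (Eu m)).comp (k1 m : Eu (1 + m) →L[ℝ] ℝ × Eu m)) x :=
    ((ContinuousLinearMap.snd ℝ ℝ (Eu m)).comp (k1 m : Eu (1 + m) →L[ℝ] ℝ × Eu m)).hasFDerivAt
  have h2 : HasFDerivAt (fun x : Eu (1 + m) => (k1 m x).1)
      ((ContinuousLinearMap.fst ℝ ℝ (Eu m)).comp (k1 m : Eu (1 + m) →L[ℝ] ℝ × Eu m)) x :=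
    ((ContinuousLinearMap.fst ℝ ℝ (Eu m)).comp (k1 m : Eu (1 + m) →L[ℝ] ℝ × Eu m)).hasFDerivAt
  have h3 := HasFDerivAt.comp x (g := Φ) (f := fun x : Eu (1 + m) => (k1 m x).2) hΦ.hasFDerivAt h1
  exact HasFDerivAt.comp x (g := EE) (f := fun x : Eu (1 + m) => (Φ (k1 m x).2, (k1 m x).1))
    hE.hasFDerivAt (h3.prodMk h2)

/-- the vectors `(0,1), (a_j, 0)` -/
def vc (a : Fin m → E) : Fin (m + 1) → E × ℝ :=
  Matrix.vecCons ((0, 1) : E × ℝ) fun j => (a j, 0)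

theorem fderiv_hh_sb {Φ : Eu m → E} {x : Eu (1 + m)} (hΦ : DifferentiableAt ℝ Φ (k1 m x).2)
    (hE : DifferentiableAt ℝ EE (Φ (k1 m x).2, (k1 m x).1)) (i : Fin (1 + m)) :
    fderiv ℝ (hh EE Φ) x (sb (1 + m) i) = fderiv ℝ EE (Φ (k1 m x).2, (k1 m x).1)
      (vc (fun j => fderiv ℝ Φ (k1 m x).2 (sb m j)) (Fin.cast (by omega) i)) := by
  rw [(hasFDerivAt_hh hΦ hE).fderiv]
  refine Fin.addCases (fun i => ?_) (fun j => ?_) i
  · have h1 : (Fin.cast (by omega : 1 + m = m + 1) (Fin.castAdd m i)) = 0 := by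
      ext; simp
    rw [h1]
    have h2 := k1_castAdd m i
    simp only [ContinuousLinearMap.comp_apply, ContinuousLinearMap.prod_apply,
      ContinuousLinearEquiv.coe_coe, h2, vc, Matrix.cons_val_zero]
    simp
  · have h1 : (Fin.cast (by omega : 1 + m = m + 1) (Fin.natAdd 1 j)) = j.succ := by
      ext; simp
    rw [h1]
    have h2 := k1_natAdd m j
    simp only [ContinuousLinearMap.comp_apply, ContinuousLinearMap.prod_apply,
      ContinuousLinearEquiv.coe_coe, h2, vc, Matrix.cons_val_succ]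
    simp

/-- `∂_t` first: the top coefficient of `hh^* om` -/
theorem top_pull_hh {Φ : Eu m → E} {x : Eu (1 + m)} (hΦ : DifferentiableAt ℝ Φ (k1 m x).2)
    (hE : DifferentiableAt ℝ EE (Φ (k1 m x).2, (k1 m x).1)) :
    top (1 + m) (pull (hh EE Φ) om x) =
      top m (pb ((fderiv ℝ Φ (k1 m x).2 : Eu m →L[ℝ] E) : Eu m →ₗ[ℝ] E)
        (hopL (ContinuousLinearMap.inl ℝ E ℝ) ((0, 1) : E × ℝ)
          (pull EE om (Φ (k1 m x).2, (k1 m x).1)))) := by
  rw [pull, top_pb, top_pb, hopL_apply, evA_pb, ← evA_ii, pull, evA_pb]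
  have h1 : (fun i => ((fderiv ℝ (hh EE Φ) x : Eu (1 + m) →L[ℝ] F) : Eu (1 + m) →ₗ[ℝ] F)
      (sb (1 + m) i)) = (fun i => ((fderiv ℝ EE (Φ (k1 m x).2, (k1 m x).1) : E × ℝ →L[ℝ] F) :
        E × ℝ →ₗ[ℝ] F) (vc (fun j => fderiv ℝ Φ (k1 m x).2 (sb m j)) i)) ∘
        Fin.cast (by omega : 1 + m = m + 1) := by
    funext i
    exact fderiv_hh_sb hΦ hE i
  rw [h1, evA_cast]
  rfl

/-! ### continuity -/

theorem continuousOn_pull_EE (hsm : ∀ z ∈ Z, ∀ t : ℝ, ContDiffAt ℝ ∞ EE (z, t))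
    (hm : ∀ z ∈ Z, ∀ t : ℝ, EE (z, t) ∈ X) (hom : ContinuousOn om X) :
    ContinuousOn (pull EE om) (Z ×ˢ (univ : Set ℝ)) := by
  refine FI.continuousOn_pull ?_ ?_ ?_ hom
  · rintro ⟨z, t⟩ ⟨hz, -⟩
    exact (hsm z hz t).continuousAt.continuousWithinAt
  · rintro ⟨z, t⟩ ⟨hz, -⟩
    exact ((hsm z hz t).fderiv_right (m := 0) (by simp)).continuousAt.continuousWithinAt
  · rintro ⟨z, t⟩ ⟨hz, -⟩
    exact hm z hz t

/-- the integrand of the fibre integral -/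
def Kg (EE : E × ℝ → F) (om : F → Ext F) (p : E × ℝ) : Ext E :=
  hopL (ContinuousLinearMap.inl ℝ E ℝ) ((0, 1) : E × ℝ) (pull EE om p)

theorem Hop_eq (om : F → Ext F) (z : E) : Hop EE om z = ∫ t in (0 : ℝ)..1, Kg EE om (z, t) := by
  show ∫ t in (0 : ℝ)..1, hopg _ _ _ _ = _
  refine intervalIntegral.integral_congr fun t _ => ?_
  simp only [hopg, jv_inl, Kg]

theorem continuousOn_Kg (hsm : ∀ z ∈ Z, ∀ t : ℝ, ContDiffAt ℝ ∞ EE (z, t))
    (hm : ∀ z ∈ Z, ∀ t : ℝ, EE (z, t) ∈ X) (hom : ContinuousOn om X) :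
    ContinuousOn (Kg EE om) (Z ×ˢ (univ : Set ℝ)) :=
  (hopL _ _).continuous.comp_continuousOn (continuousOn_pull_EE hsm hm hom)

theorem continuous_Kg_slice (hsm : ∀ z ∈ Z, ∀ t : ℝ, ContDiffAt ℝ ∞ EE (z, t))
    (hm : ∀ z ∈ Z, ∀ t : ℝ, EE (z, t) ∈ X) (hom : ContinuousOn om X) {z : E} (hz : z ∈ Z) :
    Continuous fun t => Kg EE om (z, t) := by
  rw [← continuousOn_univ]
  exact (continuousOn_Kg hsm hm hom).comp (by fun_prop) fun t _ => ⟨hz, mem_univ _⟩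

/-- continuity of the fibre integral -/
theorem continuousOn_Hop (hsm : ∀ z ∈ Z, ∀ t : ℝ, ContDiffAt ℝ ∞ EE (z, t))
    (hm : ∀ z ∈ Z, ∀ t : ℝ, EE (z, t) ∈ X) (hom : ContinuousOn om X) :
    ContinuousOn (Hop EE om) Z := by
  rw [continuousOn_iff_continuous_domRestrict]
  have h1 : Z.domRestrict (Hop EE om) = fun z : Z => ∫ t in (0 : ℝ)..1, Kg EE om ((z : E), t) := by
    funext z
    rw [Set.domRestrict_apply]
    exact Hop_eq (EE := EE) om (z : E)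
  have h2 : Continuous fun p : Z × ℝ => (((p.1 : E), p.2) : E × ℝ) := by fun_prop
  have h3 : Continuous fun p : Z × ℝ => Kg EE om ((p.1 : E), p.2) :=
    ContinuousOn.comp_continuous (g := Kg EE om) (f := fun p : Z × ℝ => (((p.1 : E), p.2) : E × ℝ))
      (continuousOn_Kg hsm hm hom) h2 fun p => ⟨p.1.2, mem_univ _⟩
  have h4 : Continuous (Function.uncurry fun (z : Z) (t : ℝ) => Kg EE om ((z : E), t)) := h3
  rw [h1]
  exact intervalIntegral.continuous_parametric_intervalIntegral_of_continuous'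
    (f := fun (z : Z) (t : ℝ) => Kg EE om ((z : E), t)) h4 0 1

/-! ### sweeps -/

/-- `EE : Z × (0,1) → X` is a diffeomorphism onto the complement of a null set. -/
structure Swp (m : ℕ) (Z : Set E) (X : Set F) (EE : E × ℝ → F) : Prop where
  cloZ : Clo m Z
  cloX : Clo (1 + m) X
  sm : ∀ z ∈ Z, ∀ t : ℝ, ContDiffAt ℝ ∞ EE (z, t)
  mem : ∀ z ∈ Z, ∀ t : ℝ, EE (z, t) ∈ X
  inj : ∀ z ∈ Z, ∀ z' ∈ Z, ∀ t ∈ Ioo (0 : ℝ) 1, ∀ t' ∈ Ioo (0 : ℝ) 1,
    EE (z, t) = EE (z', t') → z = z' ∧ t = t'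
  dinj : ∀ z ∈ Z, ∀ t ∈ Ioo (0 : ℝ) 1, ∀ w ∈ Tan Z z, ∀ s : ℝ,
    fderiv ℝ EE (z, t) (w, s) = 0 → w = 0 ∧ s = 0
  null : μHE[1 + m] (TE F '' (X \ EE '' (Z ×ˢ Ioo (0 : ℝ) 1))) = 0

/-- the top coefficient, as a continuous linear map -/
def Tu (A : Eu m →L[ℝ] E) : Ext E →L[ℝ] ℝ :=
  LinearMap.toContinuousLinearMap ((top m) ∘ₗ (pb (A : Eu m →ₗ[ℝ] E)).toLinearMap)

theorem Tu_apply (A : Eu m →L[ℝ] E) (c : Ext E) : Tu A c = top m (pb (A : Eu m →ₗ[ℝ] E) c) := rfl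

/-- an elementary sign lemma -/
theorem sign_int {f g : ℝ → ℝ} (hf : Continuous f) (h0 : ∀ t ∈ Ioo (0 : ℝ) 1, f t ≠ 0) :
    (∫ t in (0 : ℝ)..1, f t) ≠ 0 ∧ (∫ t in (0 : ℝ)..1, g t) * Real.sign (∫ t in (0 : ℝ)..1, f t) =
      ∫ t in Ioo (0 : ℝ) 1, g t * Real.sign (f t) := by
  have hI : ∀ h : ℝ → ℝ, ∫ t in (0 : ℝ)..1, h t = ∫ t in Ioo (0 : ℝ) 1, h t := fun h => by
    rw [intervalIntegral.integral_of_le zero_le_one, integral_Ioc_eq_integral_Ioo]
  have hcase : (∀ t ∈ Ioo (0 : ℝ) 1, 0 < f t) ∨ (∀ t ∈ Ioo (0 : ℝ) 1, f t < 0) := by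
    by_contra hcon
    push Not at hcon
    obtain ⟨⟨a, ha, ha'⟩, b, hb, hb'⟩ := hcon
    obtain ⟨c, hc, hc'⟩ := isPreconnected_Ioo.intermediate_value ha hb hf.continuousOn ⟨ha', hb'⟩
    exact h0 c hc hc'
  rcases hcase with h | h
  · have hp : 0 < ∫ t in (0 : ℝ)..1, f t :=
      intervalIntegral.intervalIntegral_pos_of_pos_on (hf.intervalIntegrable _ _) h one_pos
    refine ⟨hp.ne', ?_⟩
    rw [Real.sign_of_pos hp, mul_one, hI]
    refine setIntegral_congr_fun measurableSet_Ioo fun t ht => ?_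
    simp only [Real.sign_of_pos (h t ht), mul_one]
  · have hp : 0 < ∫ t in (0 : ℝ)..1, - f t :=
      intervalIntegral.intervalIntegral_pos_of_pos_on (hf.neg.intervalIntegrable _ _)
        (fun t ht => neg_pos.2 (h t ht)) one_pos
    rw [intervalIntegral.integral_neg] at hp
    have hp' : (∫ t in (0 : ℝ)..1, f t) < 0 := by linarith
    refine ⟨hp'.ne, ?_⟩
    rw [Real.sign_of_neg hp', hI g]
    rw [show (∫ t in Ioo (0 : ℝ) 1, g t) * -1 = ∫ t in Ioo (0 : ℝ) 1, g t * -1 from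
      (integral_mul_const _ _).symm]
    refine setIntegral_congr_fun measurableSet_Ioo fun t ht => ?_
    simp only [Real.sign_of_neg (h t ht)]

namespace Swp
variable (h : Swp m Z X EE) {Φ : Eu m → E} {D : Set (Eu m)} {oX w : F → Ext F}

include h in
theorem diff_EE {z : E} (hz : z ∈ Z) (t : ℝ) : DifferentiableAt ℝ EE (z, t) :=
  (h.sm z hz t).differentiableAt (by simp)

include h in
theorem diff_hh (hΦ : Chart m Z Φ D) {x : Eu (1 + m)} (hx : (k1 m x).2 ∈ D) :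
    DifferentiableAt ℝ (hh EE Φ) x :=
  (hasFDerivAt_hh (hΦ.differentiableAt hx) (h.diff_EE (hΦ.mem hx) _)).differentiableAt

include h in
theorem hh_mem (hΦ : Chart m Z Φ D) {x : Eu (1 + m)} (hx : (k1 m x).2 ∈ D) : hh EE Φ x ∈ X :=
  h.mem _ (hΦ.mem hx) _

include h in
theorem fderiv_hh_mem (hΦ : Chart m Z Φ D) {x : Eu (1 + m)} (hx : (k1 m x).2 ∈ D)
    (v : Eu (1 + m)) : fderiv ℝ (hh EE Φ) x v ∈ Tan X (hh EE Φ x) := by
  refine fderiv_mem_Tan (h.diff_hh hΦ hx) ?_ v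
  have h1 : ContinuousAt (fun y : Eu (1 + m) => (k1 m y).2) x :=
    ((k1 m).continuous.snd).continuousAt
  filter_upwards [h1.eventually (hΦ.isOpen.mem_nhds hx)] with y hy using h.hh_mem hΦ hy

include h in
theorem inj_fderiv_hh (hΦ : Chart m Z Φ D) {x : Eu (1 + m)} (hx : (k1 m x).2 ∈ D)
    (ht : (k1 m x).1 ∈ Ioo (0 : ℝ) 1) : Function.Injective (fderiv ℝ (hh EE Φ) x) := by
  rw [injective_iff_map_eq_zero]
  intro v hv
  rw [(hasFDerivAt_hh (hΦ.differentiableAt hx) (h.diff_EE (hΦ.mem hx) _)).fderiv] at hv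
  have h1 : fderiv ℝ EE (Φ (k1 m x).2, (k1 m x).1)
      (fderiv ℝ Φ (k1 m x).2 (k1 m v).2, (k1 m v).1) = 0 := hv
  obtain ⟨h2, h3⟩ := h.dinj _ (hΦ.mem hx) _ ht _ (hΦ.fderiv_mem hx _) _ h1
  have h4 : (k1 m v).2 = 0 := hΦ.inj _ hx (by rw [h2, map_zero])
  have h5 : k1 m v = 0 := Prod.ext h3 h4
  exact (k1 m).injective (by rw [h5, map_zero])

include h in
theorem top_ne_zero (hΦ : Chart m Z Φ D) (ho : Ori (1 + m) X oX) {x : Eu (1 + m)}
    (hx : (k1 m x).2 ∈ D) (ht : (k1 m x).1 ∈ Ioo (0 : ℝ) 1) :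
    top (1 + m) (pull (hh EE Φ) oX x) ≠ 0 :=
  (FI.top_ne_zero (h.cloX.finrank_Tan (h.hh_mem hΦ hx)) (fun v => h.fderiv_hh_mem hΦ hx v)
    (h.inj_fderiv_hh hΦ hx ht)).2 (ho.ne _ (h.hh_mem hΦ hx))

include h in
theorem top_hh (hΦ : Chart m Z Φ D) (om : F → Ext F) {t : ℝ} {u : Eu m} (hu : u ∈ D) :
    top (1 + m) (pull (hh EE Φ) om ((k1 m).symm (t, u))) =
      Tu (fderiv ℝ Φ u) (Kg EE om (Φ u, t)) := by
  have e : k1 m ((k1 m).symm (t, u)) = (t, u) := (k1 m).apply_symm_apply _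
  have h1 := top_pull_hh (EE := EE) (om := om) (Φ := Φ) (x := (k1 m).symm (t, u))
    (by rw [e]; exact hΦ.differentiableAt hu) (by rw [e]; exact h.diff_EE (hΦ.mem hu) _)
  rw [e] at h1
  exact h1

include h in
theorem top_Hop (hΦ : Chart m Z Φ D) {om : F → Ext F} (hom : ContinuousOn om X) {u : Eu m}
    (hu : u ∈ D) : top m (pull Φ (Hop EE om) u) =
      ∫ t in (0 : ℝ)..1, Tu (fderiv ℝ Φ u) (Kg EE om (Φ u, t)) := by
  have h1 := continuous_Kg_slice h.sm h.mem hom (hΦ.mem hu)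
  have h2 := (Tu (fderiv ℝ Φ u)).intervalIntegral_comp_comm (h1.intervalIntegrable 0 1)
    (μ := volume)
  rw [h2, ← Hop_eq, Tu_apply]
  rfl

include h in
/-- the integrands match -/
theorem match_int (hΦ : Chart m Z Φ D) (ho : Ori (1 + m) X oX) (hw : ContinuousOn w X) {u : Eu m}
    (hu : u ∈ D) : top m (pull Φ (Hop EE oX) u) ≠ 0 ∧
      top m (pull Φ (Hop EE w) u) * Real.sign (top m (pull Φ (Hop EE oX) u)) =
      ∫ t in Ioo (0 : ℝ) 1, top (1 + m) (pull (hh EE Φ) w ((k1 m).symm (t, u))) *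
        Real.sign (top (1 + m) (pull (hh EE Φ) oX ((k1 m).symm (t, u)))) := by
  rw [h.top_Hop hΦ ho.cont hu, h.top_Hop hΦ hw hu]
  have e : ∀ t, k1 m ((k1 m).symm (t, u)) = (t, u) := fun t => (k1 m).apply_symm_apply _
  have h1 := sign_int (f := fun t => Tu (fderiv ℝ Φ u) (Kg EE oX (Φ u, t)))
    (g := fun t => Tu (fderiv ℝ Φ u) (Kg EE w (Φ u, t)))
    ((Tu (fderiv ℝ Φ u)).continuous.comp (continuous_Kg_slice h.sm h.mem ho.cont (hΦ.mem hu)))
    (fun t ht => by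
      rw [← h.top_hh hΦ oX hu]
      exact h.top_ne_zero hΦ ho (by rw [e]; exact hu) (by rw [e]; exact ht))
  refine ⟨h1.1, ?_⟩
  rw [h1.2]
  refine setIntegral_congr_fun measurableSet_Ioo fun t _ => ?_
  simp only [h.top_hh hΦ _ hu]

include h in
/-- **`Z` is oriented by `K(EE^* oX)`** -/
theorem ori (ho : Ori (1 + m) X oX) : Ori m Z (Hop EE oX) where
  cont := continuousOn_Hop h.sm h.mem ho.cont
  ne := by
    intro z hz
    obtain ⟨Φ, D, hΦ, u, hu, rfl⟩ := h.cloZ.chart z hz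
    exact (FI.top_ne_zero (finrank_Tan_chart hΦ hu) (fun w => hΦ.fderiv_mem hu w)
      (hΦ.inj _ hu)).1 (h.match_int hΦ ho ho.cont hu).1

/-- the part of the parameter domain -/
def dom (P : Set (Eu m)) : Set (Eu (1 + m)) := k1 m ⁻¹' (Ioo (0 : ℝ) 1 ×ˢ P)

theorem measurableSet_dom {P : Set (Eu m)} (hP : MeasurableSet P) : MeasurableSet (dom P) :=
  (k1 m).continuous.measurable (measurableSet_Ioo.prod hP)

theorem image_dom (Φ : Eu m → E) (P : Set (Eu m)) :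
    hh EE Φ '' dom P = EE '' ((Φ '' P) ×ˢ Ioo (0 : ℝ) 1) := by
  ext y
  constructor
  · rintro ⟨x, hx, rfl⟩
    exact ⟨(Φ (k1 m x).2, (k1 m x).1), ⟨⟨_, hx.2, rfl⟩, hx.1⟩, rfl⟩
  · rintro ⟨⟨z, t⟩, ⟨⟨u, hu, hz⟩, ht⟩, rfl⟩
    have hz' : Φ u = z := hz
    have e : k1 m ((k1 m).symm (t, u)) = (t, u) := (k1 m).apply_symm_apply _
    refine ⟨(k1 m).symm (t, u), ?_, ?_⟩
    · show k1 m ((k1 m).symm (t, u)) ∈ Ioo (0 : ℝ) 1 ×ˢ P
      rw [e]; exact ⟨ht, hu⟩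
    · show EE (Φ (k1 m ((k1 m).symm (t, u))).2, (k1 m ((k1 m).symm (t, u))).1) = _
      rw [e, ← hz']

include h in
theorem injOn_dom (hΦ : Chart m Z Φ D) {P : Set (Eu m)} (hPD : P ⊆ D) :
    InjOn (hh EE Φ) (dom P) := by
  intro x hx y hy hxy
  obtain ⟨h1, h2⟩ := h.inj _ (hΦ.mem (hPD hx.2)) _ (hΦ.mem (hPD hy.2)) _ hx.1 _ hy.1 hxy
  have h3 := hΦ.injOn (hPD hx.2) (hPD hy.2) h1
  exact (k1 m).injective (Prod.ext h2 h3)

include h in
theorem measurableSet_image (hΦ : Chart m Z Φ D) {P : Set (Eu m)} (hP : MeasurableSet P)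
    (hPD : P ⊆ D) : MeasurableSet (TE F '' (hh EE Φ '' dom P)) := by
  rw [image_image]
  refine (measurableSet_dom hP).image_of_continuousOn_injOn ?_ ?_
  · exact (TE F).continuous.comp_continuousOn fun x hx =>
      (h.diff_hh hΦ (hPD hx.2)).continuousAt.continuousWithinAt
  · intro u hu v hv huv
    exact h.injOn_dom hΦ hPD hu hv ((TE F).injective huv)

include h in
/-- one piece -/
theorem piece (hΦ : Chart m Z Φ D) (ho : Ori (1 + m) X oX) (hw : ContinuousOn w X)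
    {P : Set (Eu m)} (hP : MeasurableSet P) (hPD : P ⊆ D) :
    JS m Z (Hop EE oX) (Hop EE w) (Φ '' P) = JS (1 + m) X oX w (hh EE Φ '' dom P) := by
  have hsub : hh EE Φ '' dom P ⊆ X := by
    rintro _ ⟨x, hx, rfl⟩; exact h.hh_mem hΦ (hPD hx.2)
  have hint : IntegrableOn (fun y => dens (1 + m) X oX w ((TE F).symm y))
      (TE F '' (hh EE Φ '' dom P)) μHE[1 + m] :=
    (integrableOn_dens h.cloX ho hw).mono_set (image_mono hsub)
  have hint2 := (integrableOn_param (X := X) (o := oX) (om := w) (f := hh EE Φ)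
    (measurableSet_dom hP) (fun x hx => h.diff_hh hΦ (hPD hx.2)) (h.injOn_dom hΦ hPD)
    (fun x hx => h.cloX.finrank_Tan (h.hh_mem hΦ (hPD hx.2)))
    (fun x hx v => h.fderiv_hh_mem hΦ (hPD hx.2) v)).1 hint
  have hval := integral_param (X := X) (o := oX) (om := w) (f := hh EE Φ)
    (measurableSet_dom hP) (fun x hx => h.diff_hh hΦ (hPD hx.2)) (h.injOn_dom hΦ hPD)
    (fun x hx => h.cloX.finrank_Tan (h.hh_mem hΦ (hPD hx.2)))
    (fun x hx v => h.fderiv_hh_mem hΦ (hPD hx.2) v)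
  rw [JS, JS, hval, integral_chart hΦ hP hPD]
  set g : Eu (1 + m) → ℝ := fun x => top (1 + m) (pull (hh EE Φ) w x) *
    Real.sign (top (1 + m) (pull (hh EE Φ) oX x)) with hg
  set G : ℝ × Eu m → ℝ := fun q => g ((k1 m).symm q) with hG
  have hGk : (fun x => G (k1 m x)) = g := by
    funext x; simp only [hG, ContinuousLinearEquiv.symm_apply_apply]
  have hemb := measurableEmbedding_k1 m
  have hGint : IntegrableOn G (Ioo (0 : ℝ) 1 ×ˢ P) (volume : Measure (ℝ × Eu m)) := by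
    rw [← (measurePreserving_k1 m).integrableOn_comp_preimage hemb]
    show IntegrableOn (fun x => G (k1 m x)) _ _
    rw [hGk]
    exact hint2
  have hGval : ∫ x in dom P, g x = ∫ q in Ioo (0 : ℝ) 1 ×ˢ P, G q := by
    rw [← (measurePreserving_k1 m).setIntegral_preimage_emb hemb]
    show _ = ∫ x in dom P, G (k1 m x)
    rw [hGk]
  rw [hGval]
  have hres : (volume : Measure (ℝ × Eu m)).restrict (Ioo (0 : ℝ) 1 ×ˢ P) =
      ((volume : Measure ℝ).restrict (Ioo (0 : ℝ) 1)).prod ((volume : Measure (Eu m)).restrict P) := by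
    rw [Measure.volume_eq_prod, Measure.prod_restrict]
  rw [IntegrableOn, hres] at hGint
  rw [hres, integral_prod_symm _ hGint]
  refine setIntegral_congr_fun hP fun u hu => ?_
  exact (h.match_int hΦ ho hw (hPD hu)).2

include h in
/-- **THE SWEEP FORMULA**: `∫_Z K(EE^* w) = ∫_X w`. -/
theorem J_eq (ho : Ori (1 + m) X oX) (hw : ContinuousOn w X) :
    J m Z (Hop EE oX) (Hop EE w) = J (1 + m) X oX w := by
  classical
  obtain ⟨N, Φ, D, P, -, hC, hPD, hPm, hdisj, hU⟩ := exists_decomp h.cloZ.compact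
    (fun (_ : Eu m → E) (_ : Set (Eu m)) => True) (fun z hz => by
      obtain ⟨Φ, D, hΦ, hz'⟩ := h.cloZ.chart z hz
      exact ⟨Φ, D, trivial, hΦ, hz'⟩)
  have hoZ := h.ori ho
  have hwZ : ContinuousOn (Hop EE w) Z := continuousOn_Hop h.sm h.mem hw
  have hL : J m Z (Hop EE oX) (Hop EE w) =
      ∑ i, JS m Z (Hop EE oX) (Hop EE w) (Φ i '' P i) := by
    rw [← JS_iUnion _ (fun i => (hC i).measurableSet_image (hPm i) (hPD i)) hdisj
      (by rw [hU]; exact integrableOn_dens h.cloZ hoZ hwZ), hU]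
    rfl
  have himg : ∀ i, hh EE (Φ i) '' dom (P i) = EE '' ((Φ i '' P i) ×ˢ Ioo (0 : ℝ) 1) := fun i =>
    image_dom (Φ i) (P i)
  have hsub : ⋃ i, hh EE (Φ i) '' dom (P i) = EE '' (Z ×ˢ Ioo (0 : ℝ) 1) := by
    simp only [himg]
    rw [← image_iUnion, ← iUnion_prod_const, hU]
  have hsubX : EE '' (Z ×ˢ Ioo (0 : ℝ) 1) ⊆ X := by
    rintro _ ⟨⟨z, t⟩, ⟨hz, -⟩, rfl⟩
    exact h.mem z hz t
  have hint := integrableOn_dens h.cloX ho hw
  have hR : JS (1 + m) X oX w (⋃ i, hh EE (Φ i) '' dom (P i)) =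
      ∑ i, JS (1 + m) X oX w (hh EE (Φ i) '' dom (P i)) := by
    refine JS_iUnion _ (fun i => h.measurableSet_image (hC i) (hPm i) (hPD i)) ?_
      (hint.mono_set (image_mono (by rw [hsub]; exact hsubX)))
    intro i j hij
    show Disjoint (hh EE (Φ i) '' dom (P i)) (hh EE (Φ j) '' dom (P j))
    rw [himg, himg, Set.disjoint_left]
    rintro _ ⟨⟨z, t⟩, ⟨hz, ht⟩, rfl⟩ ⟨⟨z', t'⟩, ⟨hz', ht'⟩, he⟩
    have hzZ : z ∈ Z := hU ▸ mem_iUnion_of_mem i hz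
    have hzZ' : z' ∈ Z := hU ▸ mem_iUnion_of_mem j hz'
    obtain ⟨h1, -⟩ := h.inj _ hzZ' _ hzZ _ ht' _ ht he
    rw [h1] at hz'
    exact Set.disjoint_left.1 (hdisj hij) hz hz'
  rw [hL, Finset.sum_congr rfl fun i _ => h.piece (hC i) ho hw (hPm i) (hPD i), ← hR, hsub, ← JS_self]
  unfold JS
  have hms : MeasurableSet (TE F '' (EE '' (Z ×ˢ Ioo (0 : ℝ) 1))) := by
    rw [← hsub, image_iUnion]
    exact MeasurableSet.iUnion fun i => h.measurableSet_image (hC i) (hPm i) (hPD i)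
  refine (setIntegral_congr_set ?_)
  refine LE.le.eventuallyLE (image_mono hsubX) |>.antisymm ?_
  rw [ae_le_set, ← image_sdiff (TE F).injective]
  exact h.null

end Swp

end Crest.Agent.R208.RRC
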