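import Crest.Agent.R208.VE4

-- ▼ part R208/VE5
section

/-! Row 208, block VE (helper812).  VE5: the Thom lemma in odd rank. -/

set_option autoImplicit false
set_option linter.unusedSectionVars false
set_option linter.unusedVariables false

open MeasureTheory Set Filter Topology Module
open scoped ContDiff
open Crest.Agent.R208.F Crest.Agent.R208.FI Crest.Agent.R208.CW Crest.Agent.R208.T

noncomputable section

namespace Crest.Agent.R208.VE

universe u w

section inv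
variable {E H : Type*} [NormedAddCommGroup E] [NormedSpace ℝ E] [FiniteDimensional ℝ E]
  [NormedAddCommGroup H] [NormedSpace ℝ H] [FiniteDimensional ℝ H]
  [MeasurableSpace H] [BorelSpace H] (μ : Measure H) [μ.IsAddHaarMeasure]
  {a : E × H → Ext (E × H)} {X : Set E} {R : ℝ}

theorem inv_iis {G : Type*} [NormedAddCommGroup G] [NormedSpace ℝ G] [FiniteDimensional ℝ G]
    (vs : List G) (c : Ext G) :
    F.inv (iis vs c) = (-1 : ℝ) ^ vs.length • iis vs (F.inv c) := by
  induction vs generalizing c with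
  | nil => simp
  | cons v vs ih =>
    rw [iis_cons, ih, F.inv_ii, map_neg, iis_cons, List.length_cons, pow_succ, mul_neg_one,
      neg_smul, smul_neg]

theorem inv_cH {G : Type*} [NormedAddCommGroup G] [NormedSpace ℝ G] [FiniteDimensional ℝ G]
    (j : E →L[ℝ] G) (i : H →L[ℝ] G) (c : Ext G) :
    F.inv (cH j i c) = (-1 : ℝ) ^ finrank ℝ H • cH j i (F.inv c) := by
  rw [cH_apply, cH_apply, ← pb_inv, inv_iis, map_smul, length_vfr]

theorem pI_iv (hv : Vt R a) (ha : Sm (X ×ˢ (univ : Set H)) a) {x : E} (hx : x ∈ X) :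
    F.inv (pI μ a x) = (-1 : ℝ) ^ finrank ℝ H • pI μ (iv a) x := by
  have hint : Integrable (fun h => cH (ContinuousLinearMap.inl ℝ E H)
      (ContinuousLinearMap.inr ℝ E H) (a (x, h))) μ := by
    have := integrable_cH μ (hv.vg x) (fun h => (ha.slice hx h).continuousAt)
    simpa only [ji] using this
  rw [pI_eq, pI_eq, ← integral_smul]
  have h1 := (invL (E := E)).integral_comp_comm hint
  rw [← invL_apply, ← h1]
  refine integral_congr_ae (Eventually.of_forall fun h => ?_)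
  change F.inv (cH _ _ (a (x, h))) = _
  rw [inv_cH]
  rfl

end inv

/-- odd forms -/
def Od {E : Type*} [NormedAddCommGroup E] [NormedSpace ℝ E] (a : E → Ext E) : Prop :=
  ∀ x, F.inv (a x) = - a x

variable {E : Type u} {H : Type w} [NormedAddCommGroup E] [NormedSpace ℝ E] [FiniteDimensional ℝ E]
  [NormedAddCommGroup H] [InnerProductSpace ℝ H] [FiniteDimensional ℝ H]
  {X : Set E} {P : E → H →L[ℝ] H} {r d : ℕ} {R R' R₁ c₀ : ℝ} {e : E → Ext E}
  {τ τ' om : E × H → Ext (E × H)}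

theorem pull_iv {E' : Type*} [NormedAddCommGroup E'] [NormedSpace ℝ E'] [FiniteDimensional ℝ E']
    {E'' : Type*} [NormedAddCommGroup E''] [NormedSpace ℝ E''] [FiniteDimensional ℝ E'']
    (f : E' → E'') (a : E'' → Ext E'') : F.pull f (iv a) = iv (F.pull f a) :=
  funext fun x => by rw [F.pull, iv, iv, pb_inv, F.pull]

/-- the form at the end of the rotation, odd case -/
theorem rot1_eqv_odd (hP : PField X r P) (ho : Od τ) :
    Eqv (Tot X P ×ˢ (univ : Set H)) (F.pull (fun z => rot P (z, 1)) (Tht P τ' τ om))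
      (F.pull rho (thE' P τ' (iv om)) * F.pull Prod.fst τ) := by
  have hr := smap_rot1 hP
  have hrho := smap_rho (X := X) (P := P)
  have hfst := smap_fst (X := X) (P := P)
  have hid := hP.idem
  have e1 : Eqv (Tot X P ×ˢ (univ : Set H))
      (F.pull (fun z => rot P (z, 1)) (F.pull rho (F.pull (gam P) τ')))
      (F.pull rho (F.pull (gam P) τ')) := by
    refine (Eqv.pull hr (eqv_pull_pull hrho (smap_gam hP) ((smap_gam hP).comp hrho)
      (fun _ _ => rfl) τ')).trans ?_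
    refine (eqv_pull_pull hr ((smap_gam hP).comp hrho) ((smap_gam hP).comp hrho) ?_ τ').trans
      (eqv_pull_pull hrho (smap_gam hP) ((smap_gam hP).comp hrho) (fun _ _ => rfl) τ').symm
    rintro ⟨⟨x, v⟩, k⟩ ⟨⟨hx, hv⟩, -⟩
    change P x v = v at hv
    simp only [rot_one, rho, gam]
    refine Prod.ext rfl ?_
    change k + P x (v - k) - P x (k + P x (v - k)) = k - P x k
    rw [map_add, hid x hx]
    abel
  have e2 : Eqv (Tot X P ×ˢ (univ : Set H))
      (F.pull (fun z => rot P (z, 1)) (F.pull rho (F.pull (bet P) τ))) (F.pull Prod.fst τ) := by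
    refine (Eqv.pull hr (eqv_pull_pull hrho (smap_bet hP) ((smap_bet hP).comp hrho)
      (fun _ _ => rfl) τ)).trans ?_
    refine eqv_pull_pull hr ((smap_bet hP).comp hrho) hfst ?_ τ
    rintro ⟨⟨x, v⟩, k⟩ ⟨⟨hx, hv⟩, -⟩
    change P x v = v at hv
    simp only [rot_one, rho, bet]
    refine Prod.ext rfl ?_
    change P x (k + P x (v - k)) = v
    rw [map_add, hid x hx, map_sub, hv]
    abel
  have e3 : Eqv (Tot X P ×ˢ (univ : Set H))
      (F.pull (fun z => rot P (z, 1)) (F.pull Prod.fst om)) (F.pull rho (F.pull (nbet P) om)) := by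
    refine (eqv_pull_pull hr hfst ((smap_nbet hP).comp hrho) ?_ om).trans
      (eqv_pull_pull hrho (smap_nbet hP) ((smap_nbet hP).comp hrho) (fun _ _ => rfl) om).symm
    rintro ⟨⟨x, v⟩, k⟩ ⟨⟨hx, hv⟩, -⟩
    change P x v = v at hv
    simp only [rot_one, rho, nbet]
    refine Prod.ext rfl ?_
    change v + P x (-v - k) = -P x k
    rw [map_sub, map_neg, hv]
    abel
  have e4 : F.pull (fun z => rot P (z, 1)) (Tht P τ' τ om) =
      (F.pull (fun z => rot P (z, 1)) (F.pull rho (F.pull (gam P) τ')) *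
        F.pull (fun z => rot P (z, 1)) (F.pull rho (F.pull (bet P) τ))) *
        F.pull (fun z => rot P (z, 1)) (F.pull Prod.fst om) := by
    rw [Tht, thE, pull_mul', pull_mul', pull_mul']
  rw [e4]
  refine ((e1.mul e2).mul e3).trans (Eqv.of_eq fun z _ => ?_)
  have hc : F.inv (F.pull (Prod.fst : (E × H) × H → E × H) τ z) = - F.pull Prod.fst τ z := by
    rw [F.pull, ← pb_inv, ho, map_neg]
  rw [thE', pull_mul', pull_iv, pull_iv]
  simp only [Pi.mul_apply]
  rw [mul_assoc, odd_comm hc, ← mul_assoc, iv]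

variable [MeasurableSpace H] [BorelSpace H]

set_option maxHeartbeats 1000000 in
/-- **THE THOM LEMMA IN ODD RANK** (rotation). -/
theorem thom_odd (μ : Measure H) [μ.IsAddHaarMeasure]
    (hX : Sub d X) (hP : PField X r P) (hτ' : CSF X (fun x => 1 - P x) R τ')
    (hτ : CSF X P R τ) (ho : Od τ) (hR : 0 ≤ R) (hω : CSF X P R om) :
    ∃ L : E × H → Ext (E × H), Sm (Tot X P) L ∧ (∀ z, 2 * R + 1 < ‖z.2‖ → L z = 0) ∧
        Eqv (Tot X P) (pf (pI μ (thE P τ' τ)) * om - pf (pI μ (thE' P τ' (iv om))) * τ)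
          (F.d L) := by
  set N := finrank ℝ H with hN
  set c' := pI μ (thE' P τ' (iv om)) with hc'
  have hωi : CSF X P R (iv om) := by
    refine ⟨VE.Sm.iv hω.smooth, fun z hz => ?_, VE.Cl.iv hω.smooth hω.closed⟩
    rw [iv, hω.supp z hz, map_zero]
  have hsub : Sub (d + r) (Tot X P) := hP.sub_tot hX
  have hsubH : Sub N (univ : Set H) := sub_open rfl isOpen_univ
  have hY : Sub (d + r + N) (Tot X P ×ˢ (univ : Set H)) := hsub.prod hsubH
  have hXH : Sub (d + N) (X ×ˢ (univ : Set H)) := hX.prod hsubH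
  have v1 : Vt (2 * R) (thE P τ' τ) := vt_eta hτ'.supp hτ.supp
  have v2 : Vt (2 * R) (thE' P τ' (iv om)) := vt_eta' hτ'.supp hωi.supp
  have s1 := sm_eta hP hτ'.smooth hτ.smooth
  have s2 := sm_eta' hP hτ'.smooth hωi.smooth
  -- the rotated form
  set Th := Tht P τ' τ om with hTh
  set T2 := F.pull rho (thE' P τ' (iv om)) * F.pull (Prod.fst : (E × H) × H → E × H) τ with hT2
  have sTh : Sm (Tot X P ×ˢ (univ : Set H)) Th :=
    (s1.pull smap_rho).mul (hω.smooth.pull smap_fst)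
  have cTh : Cl (Tot X P ×ˢ (univ : Set H)) Th :=
    Cl.mul (s1.pull smap_rho) (hω.smooth.pull smap_fst)
      ((cl_eta hP hτ'.smooth hτ.smooth hτ'.closed hτ.closed).pull smap_rho s1)
      (hω.closed.pull smap_fst hω.smooth)
  have sT2 : Sm (Tot X P ×ˢ (univ : Set H)) T2 :=
    (s2.pull smap_rho).mul (hτ.smooth.pull smap_fst)
  have vTh : Vt (2 * R) Th := (vt_rho v1).mul_right _
  have vT2 : Vt (2 * R) T2 := (vt_rho v2).mul_right _
  -- the homotopy
  set K := Hop (rot P) Th with hK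
  have sK : Sm (Tot X P ×ˢ (univ : Set H)) K := fun z hz =>
    contDiffAt_Hop (fun t _ => contDiffAt_rot (p := (z, t)) hP hz.1.1)
      (fun t _ => sTh _ (rot_mem hP hz t))
  have k1 : Eqv (Tot X P ×ˢ (univ : Set H)) (F.pull (fun z => rot P (z, 1)) Th -
      F.pull (fun z => rot P (z, 0)) Th) (F.d K) :=
    resZero_Hop (fun z hz t _ => (contDiffAt_rot (p := (z, t)) hP hz.1.1).of_le two_le)
      (fun z hz t _ => rot_mem hP hz t)
      (fun z hz => (sTh z hz).of_le (by exact_mod_cast le_top)) cTh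
  have k2 : F.pull (fun z => rot P (z, 0)) Th = Th := by
    have : (fun z => rot P (z, 0)) = fun z => z := funext fun z => rot_zero P z
    rw [this]
    exact funext fun z => F.pull_id Th z
  have k3 := rot1_eqv_odd (τ' := τ') (om := om) hP ho
  rw [k2] at k1
  have k4 : Eqv (Tot X P ×ˢ (univ : Set H)) (F.d K) (T2 - Th) :=
    k1.symm.trans (k3.sub (Eqv.refl Th))
  have k5 : ∀ z ∈ Tot X P ×ˢ (univ : Set H), (2 * R < ‖z.1.2‖ ∨ 3 * R < ‖z.2‖) → K z = 0 :=
    fun z hz h => Hop_eq_zero fun t => rot_supp hP hτ'.supp hτ.supp hω.supp hz h t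
  have h3R : 0 ≤ 3 * R := by linarith
  set Kc := cutH (3 * R) K with hKc
  have sKc : Sm (Tot X P ×ˢ (univ : Set H)) Kc := sK.cutH
  have k6 : Eqv (Tot X P ×ˢ (univ : Set H)) Kc K := eqv_cutH h3R fun z hz h => k5 z hz (Or.inr h)
  have k7 : Eqv (Tot X P ×ˢ (univ : Set H)) (F.d Kc) (T2 - Th) :=
    (T.Eqv.d hY sKc sK k6).trans k4
  have vKc : Vt (3 * R + 1) Kc := Vt.cutH h3R
  have hle : 2 * R ≤ 3 * R + 1 := by linarith
  have k8 := eqv_pI μ vKc.d sKc.d ((vT2.sub vTh).mono hle) (sT2.sub sTh) k7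
  -- evaluation of the integrals
  have i1 : ∀ z ∈ Tot X P, pI μ (F.d Kc) z = (-1 : ℝ) ^ N • F.d (pI μ Kc) z := fun z hz =>
    d_pI μ vKc sKc hz
  have i2 : ∀ z ∈ Tot X P, pI μ (T2 - Th) z = pI μ T2 z - pI μ Th z := fun z hz =>
    pI_sub μ vT2 sT2 vTh sTh hz
  have i3 : ∀ z ∈ Tot X P, pI μ T2 z = F.pull Prod.fst c' z * τ z := fun z hz => by
    rw [hT2, pI_mul_fst μ (vt_rho v2) (s2.pull smap_rho) hz]
    congr 1
    exact pI_pull μ (f := (Prod.fst : E × H → E)) (y := z) differentiableAt_fst v2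
      (fun h => (s2 (z.1, h) ⟨hz.1, mem_univ _⟩).continuousAt)
  have i4 : ∀ z ∈ Tot X P, pI μ Th z = F.pull Prod.fst (pI μ (thE P τ' τ)) z * om z :=
    fun z hz => by
    rw [hTh, Tht, pI_mul_fst μ (vt_rho v1) (s1.pull smap_rho) hz]
    congr 1
    exact pI_pull μ (f := (Prod.fst : E × H → E)) (y := z) differentiableAt_fst v1
      (fun h => (s1 (z.1, h) ⟨hz.1, mem_univ _⟩).continuousAt)
  -- conclusion
  set L0 := pI μ Kc with hL0
  have sL0 : Sm (Tot X P) L0 := sm_pI μ vKc sKc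
  have j1 : Eqv (Tot X P) ((-1 : ℝ) ^ N • F.d L0)
      (pf c' * τ - pf (pI μ (thE P τ' τ)) * om) := by
    refine (Eqv.of_eq fun z hz => (i1 z hz).symm).trans (k8.trans ?_)
    refine Eqv.of_eq fun z hz => ?_
    rw [i2 z hz, i3 z hz, i4 z hz]; rfl
  have l0 : ∀ z ∈ Tot X P, 2 * R < ‖z.2‖ → L0 z = 0 := by
    intro z hz h
    rw [hL0, pI_eq]
    have h2 : ∀ h' : H, Kc (z, h') = 0 := fun h' => by
      have h3 : K (z, h') = 0 := k5 (z, h') ⟨hz, mem_univ _⟩ (Or.inl h)
      exact (congrArg (fun c => chi (3 * R) h' • c) h3).trans (smul_zero _)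
    refine (integral_congr_ae (g := fun _ : H => (0 : Ext (E × H)))
      (Eventually.of_forall fun h' => ?_)).trans (integral_zero _ _)
    exact (congrArg _ (h2 h')).trans (map_zero _)
  have h2R : 0 ≤ 2 * R := by linarith
  refine ⟨(-((-1 : ℝ) ^ N)) • cutH (2 * R) L0, (sL0.cutH).smul _, (Vt.cutH h2R).smul _, ?_⟩
  have j2 : Eqv (Tot X P) (cutH (2 * R) L0) L0 := eqv_cutH h2R l0
  have j3 := T.Eqv.d hsub sL0.cutH sL0 j2
  have j4 : Eqv (Tot X P) (F.d ((-((-1 : ℝ) ^ N)) • cutH (2 * R) L0))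
      ((-((-1 : ℝ) ^ N)) • F.d L0) :=
    (d_smul_eqv _ sL0.cutH).trans (j3.smul _)
  refine (j4.trans ?_).symm
  have j5 := j1.neg
  rw [neg_sub] at j5
  rw [neg_smul]
  exact j5

end Crest.Agent.R208.VE
end
end

-- ▼ part R208/VE6
section

/-! Row 208, block VE (helper812).  VE6: injectivity of the fibre integral in odd rank. -/

set_option autoImplicit false
set_option linter.unusedSectionVars false
set_option linter.unusedVariables false

open MeasureTheory Set Filter Topology Module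
open scoped ContDiff
open Crest.Agent.R208.F Crest.Agent.R208.FI Crest.Agent.R208.CW Crest.Agent.R208.T

noncomputable section

namespace Crest.Agent.R208.VE

universe u w

section gen
variable {E : Type*} [NormedAddCommGroup E] [NormedSpace ℝ E] [FiniteDimensional ℝ E]
  {X : Set E} {κ o o' U q L : E → Ext E} {c₀ : ℝ}

theorem d_mul_cl (hκ : Sm X κ) (ho : Sm X o) (hc : Cl X o) :
    Eqv X (F.d (κ * o)) (F.d κ * o) := by
  refine (d_mul' hκ ho).trans ?_
  have := (Eqv.refl (X := X) (F.d κ * o)).add ((Eqv.refl (iv κ)).mul (resZero_iff.1 hc))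
  rwa [mul_zero, add_zero] at this

theorem fin_aux (sL : Sm X L) (sκ : Sm X κ) (so : Sm X o) (co : Cl X o)
    (eL : Eqv X (U * o - q) (F.d L)) (hU : Eqv X U (c₀ • (1 : E → Ext E) + F.d κ))
    (eo : Eqv X o o') : Eqv X (c₀ • o' - q) (F.d (L - κ * o)) := by
  have d2 : Eqv X (F.d (L - κ * o)) (F.d L - F.d κ * o) :=
    (d_sub_eqv sL (sκ.mul so)).trans ((Eqv.refl _).sub (d_mul_cl sκ so co))
  refine Eqv.symm (d2.trans ?_)
  have d3 := (eL.symm.trans ((hU.mul (Eqv.refl o)).sub (Eqv.refl q))).sub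
    (Eqv.refl (X := X) (F.d κ * o))
  refine d3.trans ?_
  have d4 : (c₀ • (1 : E → Ext E) + F.d κ) * o - q - F.d κ * o = c₀ • o - q := by
    rw [add_mul, smul_mul_assoc, one_mul]; abel
  rw [d4]
  exact (eo.smul c₀).sub (Eqv.refl _)

theorem pull_unit {E' : Type*} [NormedAddCommGroup E'] [NormedSpace ℝ E'] [FiniteDimensional ℝ E']
    {Y : Set E'} {f : E' → E} (hf : SMap Y X f) (sκ : Sm X κ)
    (hU : Eqv X U (c₀ • (1 : E → Ext E) + F.d κ)) :
    Eqv Y (F.pull f U) (c₀ • (1 : E' → Ext E') + F.d (F.pull f κ)) := by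
  refine (Eqv.pull hf hU).trans ?_
  rw [pull_add']
  refine Eqv.add (Eqv.of_eq fun z _ => ?_) (d_pull_eqv hf sκ).symm
  change pb _ (c₀ • (1 : Ext E)) = c₀ • (1 : Ext E')
  rw [map_smul, map_one]

end gen

variable {E : Type u} {H : Type w} [NormedAddCommGroup E] [NormedSpace ℝ E] [FiniteDimensional ℝ E]
  [NormedAddCommGroup H] [InnerProductSpace ℝ H] [FiniteDimensional ℝ H]
  {X : Set E} {P : E → H →L[ℝ] H} {r d : ℕ} {R R' R₁ c₀ : ℝ} {e : E → Ext E}
  {τ τ' om : E × H → Ext (E × H)}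

theorem thE'_iv (he : Ev τ') :
    (thE' P τ' (iv om) : E × H → Ext (E × H)) = (iv (thE' P τ' om) : E × H → Ext (E × H)) := by
  funext z
  have h1 : F.inv (F.pull (gam P) τ' z) = F.pull (gam P) τ' z := by
    rw [F.pull, ← pb_inv, he]
  have h2 : F.pull (nbet P) (iv om) z = F.inv (F.pull (nbet P) om z) := by
    rw [pull_iv]; rfl
  have h3 : (iv (thE' P τ' om) : E × H → Ext (E × H)) z =
      F.inv (F.pull (gam P) τ' z * F.pull (nbet P) om z) := rfl
  rw [h3, map_mul, h1, ← h2]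
  rfl

theorem cutH_iv (a : E × H → Ext (E × H)) :
    (cutH R (iv a) : E × H → Ext (E × H)) = (iv (cutH R a) : E × H → Ext (E × H)) := by
  funext z
  exact (map_smul (F.inv (E := E × H)) (chi R z.2) (a z)).symm

/-- `(x,h) ↦ (x,-h)` -/
def ngg (z : E × H) : E × H := (z.1, -z.2)

theorem smap_ngg : SMap (Tot X P) (Tot X P) (ngg (E := E) (H := H)) :=
  ⟨fun z _ => contDiffAt_fst.prodMk contDiffAt_snd.neg, fun z hz => ⟨hz.1, by
    change P z.1 (-z.2) = -z.2
    rw [map_neg, hz.2]⟩⟩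


/-- `β^* (neg^* τ) = nbet^* τ` -/
theorem thE_ngg (hP : PField X r P) (τ' τ : E × H → Ext (E × H)) :
    Eqv (X ×ˢ (univ : Set H)) (thE P τ' (F.pull ngg τ)) (thE' P τ' τ) := by
  refine (Eqv.refl _).mul ?_
  exact eqv_pull_pull (smap_bet hP) smap_ngg (smap_nbet hP) (fun _ _ => rfl) τ

theorem Od.pull {E' : Type*} [NormedAddCommGroup E'] [NormedSpace ℝ E'] [FiniteDimensional ℝ E']
    {f : E' → E} {a : E → Ext E} (h : Od a) : Od (F.pull f a) := fun x => by
  rw [F.pull, ← pb_inv, h, map_neg]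

theorem Od.cutH {a : E × H → Ext (E × H)} (h : Od a) : Od (cutH R a) := fun z => by
  have h1 : F.inv (a z) = - a z := h z
  have h2 : F.inv ((T.cutH R a : E × H → Ext (E × H)) z) = chi R z.2 • F.inv (a z) :=
    map_smul (F.inv (E := E × H)) (chi R z.2) (a z)
  rw [h2, h1, smul_neg]; rfl

variable [MeasurableSpace H] [BorelSpace H] (μ : Measure H) [μ.IsAddHaarMeasure]

theorem pu_iv (hR : 0 ≤ R) (hP : PField X r P)
    (hC : Co X P R₁ τ') (hs : Sm (Tot X P) om) :
    Eqv X (pu μ P τ' R (iv om)) ((-1 : ℝ) ^ finrank ℝ H • iv (pu μ P τ' R om)) := by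
  refine Eqv.of_eq fun x hx => ?_
  have h1 := pI_iv μ (vt_th hR hP hC om) (sm_th hR hP hC hs) hx
  have h2 : pu μ P τ' R (iv om) = pI μ (iv (thE' P τ' (cutH R om))) := by
    rw [pu, cutH_iv, thE'_iv hC.even]
  rw [h2]
  change _ = (-1 : ℝ) ^ finrank ℝ H • F.inv (pI μ (thE' P τ' (cutH R om)) x)
  rw [h1, smul_smul, ← mul_pow, neg_one_mul, neg_neg, one_pow, one_smul]

/-- Thom data in odd rank: `τ` closed, odd, compact vertical support, fibre integral `c₀ ≠ 0` -/
structure Th1 (μ : Measure H) (X : Set E) (P : E → H →L[ℝ] H) (τ' : E × H → Ext (E × H))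
    (R c₀ : ℝ) (τ : E × H → Ext (E × H)) : Prop where
  sm : Sm (Tot X P) τ
  cl : Cl (Tot X P) τ
  cs : Cs X P R τ
  od : Od τ
  one : Coh X (pu μ P τ' R τ) (c₀ • (1 : E → Ext E))
  ne : c₀ ≠ 0


set_option maxHeartbeats 1000000 in
/-- **closed forms with compact vertical support on the total space are determined by their fibre
integral** (odd rank) -/
theorem thom_cs_odd (hX : Sub d X) (hP : PField X r P) (hC : Co X P R₁ τ') (hR : 0 ≤ R)
    (hT : Th1 μ X P τ' R c₀ τ) (so : Sm (Tot X P) om) (co : Cl (Tot X P) om)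
    (ko : Cs X P R om) :
    ∃ R', 0 ≤ R' ∧ ∃ L : E × H → Ext (E × H), Sm (Tot X P) L ∧ (∀ z, R' < ‖z.2‖ → L z = 0) ∧
      Eqv (Tot X P) (c₀ • om - pf (pu μ P τ' R (iv om)) * F.pull ngg (cutH R τ)) (F.d L) := by
  have hY := hP.sub_tot hX
  set R₂ := max R₁ (R + 1) with hR₂
  have hR₂0 : 0 ≤ R₂ := le_trans (by linarith) (le_max_right _ _)
  set τc : E × H → Ext (E × H) := cutH R τ with hτc
  set oc : E × H → Ext (E × H) := cutH R om with hoc
  have eτ : Eqv (Tot X P) τc τ := Cs.cut hR hT.cs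
  have eo : Eqv (Tot X P) oc om := Cs.cut hR ko
  have sτc : Sm (Tot X P) τc := hT.sm.cutH
  have soc : Sm (Tot X P) oc := so.cutH
  have cτc : Cl (Tot X P) τc := Cl.of_eqv hY sτc hT.sm eτ hT.cl
  have coc : Cl (Tot X P) oc := Cl.of_eqv hY soc so eo co
  set τn : E × H → Ext (E × H) := F.pull ngg τc with hτn
  have vτ : ∀ z : E × H, R₂ < ‖z.2‖ → τn z = 0 := by
    intro z hz
    refine pull_of_zero (f := ngg) (Vt.cutH hR (ngg z) ?_)
    change R + 1 < ‖-z.2‖
    rw [norm_neg]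
    exact lt_of_le_of_lt (le_max_right _ _) hz
  have vo : ∀ z : E × H, R₂ < ‖z.2‖ → oc z = 0 := fun z hz =>
    Vt.cutH hR z (lt_of_le_of_lt (le_max_right _ _) hz)
  have hτ' : CSF X (fun x => 1 - P x) R₂ τ' :=
    ⟨hC.csf.smooth, fun z hz => hC.csf.supp z (lt_of_le_of_lt (le_max_left _ _) hz), hC.csf.closed⟩
  have hτ : CSF X P R₂ τn := ⟨sτc.pull smap_ngg, vτ, cτc.pull smap_ngg sτc⟩
  have hω : CSF X P R₂ oc := ⟨soc, vo, coc⟩
  obtain ⟨L, sL, vL, eL⟩ := thom_odd μ hX hP hτ' hτ (Od.pull (Od.cutH hT.od)) hR₂0 hω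
  -- the unit
  have v1 : Vt (2 * R₂) (thE P τ' τn) := vt_eta hτ'.supp hτ.supp
  have s1 := sm_eta hP hτ'.smooth hτ.smooth
  have u1 : Eqv X (pI μ (thE P τ' τn)) (pu μ P τ' R τ) :=
    eqv_pI μ v1 s1 (vt_th hR hP hC τ) (sm_th hR hP hC hT.sm) (thE_ngg hP τ' τc)
  have u2 : pI μ (thE' P τ' (iv oc)) = pu μ P τ' R (iv om) := by
    rw [pu, cutH_iv]
  obtain ⟨κ, sκ, eκ⟩ := hT.one
  have u3 : Eqv X (pI μ (thE P τ' τn)) (c₀ • (1 : E → Ext E) + F.d κ) := by
    have := (Eqv.refl (X := X) (c₀ • (1 : E → Ext E))).add eκ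
    rw [add_sub_cancel] at this
    exact u1.trans this
  have u4 := pull_unit (smap_fst' (X := X) (P := P)) sκ u3
  have sκ' : Sm (Tot X P) (pf κ : E × H → Ext (E × H)) := sκ.pull smap_fst'
  -- conclusion
  refine ⟨max (2 * R₂ + 1) (R + 1), le_max_of_le_left (by linarith),
    L - pf κ * oc, sL.sub (sκ'.mul soc), fun z hz => ?_, ?_⟩
  · have z1 : L z = 0 := vL z (lt_of_le_of_lt (le_max_left _ _) hz)
    have z2 : oc z = 0 := Vt.cutH hR z (lt_of_le_of_lt (le_max_right _ _) hz)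
    change L z - F.pull Prod.fst κ z * oc z = 0
    rw [z1, z2, mul_zero, sub_zero]
  · exact fin_aux sL sκ' soc coc (by rw [← u2]; exact eL) u4 eo

end Crest.Agent.R208.VE
end
end

-- ▼ part R208/VE7

/-! Row 208, block VE (helper812).  VE7: injectivity of the fibre integral in odd rank. -/

set_option autoImplicit false
set_option linter.unusedSectionVars false
set_option linter.unusedVariables false

open MeasureTheory Set Filter Topology Module
open scoped ContDiff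
open Crest.Agent.R208.F Crest.Agent.R208.FI Crest.Agent.R208.CW Crest.Agent.R208.T

noncomputable section

namespace Crest.Agent.R208.VE

universe u w

section gen
variable {E : Type*} [NormedAddCommGroup E] [NormedSpace ℝ E] [FiniteDimensional ℝ E]
  {X : Set E} {κ o t V L : E → Ext E} {c₀ : ℝ}

theorem fin2_aux (sL : Sm X L) (sκ : Sm X κ) (st : Sm X t) (ct : Cl X t)
    (e : Eqv X (c₀ • o - V * t) (F.d L)) (hV : Eqv X V (F.d κ)) (ne : c₀ ≠ 0) :
    Eqv X o (F.d (c₀⁻¹ • (L + κ * t))) := by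
  have s1 : Sm X (L + κ * t) := sL.add (sκ.mul st)
  refine Eqv.symm ((d_smul_eqv _ s1).trans ?_)
  have h1 : Eqv X (F.d (L + κ * t)) (F.d L + F.d κ * t) :=
    (d_add_eqv sL (sκ.mul st)).trans ((Eqv.refl _).add (d_mul_cl sκ st ct))
  have h2 := h1.trans ((e.symm).add (hV.symm.mul (Eqv.refl t)))
  rw [sub_add_cancel] at h2
  have h3 := h2.smul c₀⁻¹
  rwa [smul_smul, inv_mul_cancel₀ ne, one_smul] at h3

/-- sign of the grade involution and exactness -/
theorem iv_exact (s : ℝ) (sκ : Sm X κ) (h : Eqv X V (F.d κ)) :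
    Eqv X (s • iv V) (F.d ((-s) • iv κ)) := by
  have h1 : Eqv X (iv V) (iv (F.d κ)) := VE.Eqv.iv h
  have h2 : Eqv X (iv (F.d κ)) (-F.d (iv κ)) := by
    have := (d_iv sκ).neg
    rw [neg_neg] at this
    exact this.symm
  have h3 := (h1.trans h2).smul s
  refine h3.trans (Eqv.symm ((d_smul_eqv _ (VE.Sm.iv sκ)).trans ?_))
  rw [smul_neg, neg_smul]
  exact Eqv.refl _

theorem zero_aux {x : E} (h : L x = 0) (h' : t x = 0) : (c₀⁻¹ • (L + κ * t)) x = 0 := by
  change c₀⁻¹ • (L x + κ x * t x) = 0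
  rw [h, h', mul_zero, add_zero, smul_zero]

end gen

variable {E : Type u} {H : Type w} [NormedAddCommGroup E] [NormedSpace ℝ E] [FiniteDimensional ℝ E]
  [NormedAddCommGroup H] [InnerProductSpace ℝ H] [FiniteDimensional ℝ H]
  {X : Set E} {P : E → H →L[ℝ] H} {r d : ℕ} {R R' R₁ c₀ : ℝ} {e : E → Ext E}
  {τ τ' om : E × H → Ext (E × H)}
  [MeasurableSpace H] [BorelSpace H] (μ : Measure H) [μ.IsAddHaarMeasure]

/-- **a closed form with compact vertical support and exact fibre integral is exact with compact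
vertical support** (odd rank) -/
theorem thom_inj_odd (hX : Sub d X) (hP : PField X r P) (hC : Co X P R₁ τ') (hR : 0 ≤ R)
    (hT : Th1 μ X P τ' R c₀ τ) (so : Sm (Tot X P) om) (co : Cl (Tot X P) om)
    (ko : Cs X P R om) (h : Coh X (pu μ P τ' R om) 0) :
    ∃ R', 0 ≤ R' ∧ ∃ L : E × H → Ext (E × H), Sm (Tot X P) L ∧ (∀ z, R' < ‖z.2‖ → L z = 0) ∧
      Eqv (Tot X P) om (F.d L) := by
  obtain ⟨R₂, hR₂, L, sL, vL, eL⟩ := thom_cs_odd μ hX hP hC hR hT so co ko
  obtain ⟨κ, sκ, eκ⟩ := h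
  rw [sub_zero] at eκ
  have h1 := (pu_iv μ hR hP hC so).trans (iv_exact ((-1 : ℝ) ^ finrank ℝ H) sκ eκ)
  have sκ1 : Sm X ((-((-1 : ℝ) ^ finrank ℝ H)) • iv κ) := (VE.Sm.iv sκ).smul _
  have h2 := (Eqv.pull (smap_fst' (X := X) (P := P)) h1).trans
    (d_pull_eqv smap_fst' sκ1).symm
  have hY := hP.sub_tot hX
  have eτ : Eqv (Tot X P) (cutH R τ) τ := Cs.cut hR hT.cs
  have sτc : Sm (Tot X P) (cutH R τ) := hT.sm.cutH
  have cτc : Cl (Tot X P) (cutH R τ) := Cl.of_eqv hY sτc hT.sm eτ hT.cl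
  have h3 := fin2_aux sL (sκ1.pull smap_fst') (sτc.pull smap_ngg) (cτc.pull smap_ngg sτc) eL h2
    hT.ne
  refine ⟨max R₂ (R + 1), le_max_of_le_left hR₂, _, ?_, fun z hz => ?_, h3⟩
  · exact (sL.add ((sκ1.pull smap_fst').mul (sτc.pull smap_ngg))).smul _
  · refine zero_aux (vL z (lt_of_le_of_lt (le_max_left _ _) hz)) ?_
    refine pull_of_zero (f := ngg) (Vt.cutH hR (ngg z) ?_)
    change R + 1 < ‖-z.2‖
    rw [norm_neg]
    exact lt_of_le_of_lt (le_max_right _ _) hz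

end Crest.Agent.R208.VE
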