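import Crest.Agent.R208.ZA3
import Crest.Agent.R208.EX14
import Crest.Agent.R208.EA7
import Crest.Agent.R208.SB5
import Crest.Agent.R208.LC6
import Crest.Agent.R208.LC2
import Crest.Agent.R208.VE7
import Crest.Agent.R208.LC3
import Crest.Agent.R208.SN9
import Crest.Agent.R208.TP7

-- ▼ part R208/ZA5
section

/-!
R208, ZA5 (helper221): exactness of `v` from the half on `B` (`ve_one'`), and **the interface of
the class side** (`Cls82`) of the final composition of `(k, n) = (8, 16)`.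
-/

set_option autoImplicit false
set_option linter.unusedSectionVars false
set_option linter.unusedVariables false

open MeasureTheory Set Filter Topology Module
open scoped ContDiff RealInnerProductSpace Real
open Crest.GeometryTopology.Submanifold
open Crest.Agent.R241.DDefs Crest.Agent.R241.D Crest.Agent.R241.D2
open Crest.Agent.R208.F Crest.Agent.R208.FI Crest.Agent.R208.CW Crest.Agent.R208.T
open Crest.Agent.R208.CM (Cir gen Rep Triv Qd phR Th gf Emb Quo MM jj Curv)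
open Crest.Agent.R208.LB (al)
open Crest.Agent.R208.VC hiding Wt
open Crest.Agent.R208.EX
open Crest.Agent.R208.FT (D2 XI RN xiN gp lev)
open Crest.Agent.R208.FL (D0 D1 Ph)
open Crest.Agent.R208.NN (Wt Rt nuP)
open Crest.Agent.R208.TP (QM TT CV pu₁ pu₂ push up)
open Crest.Agent.R208.MS (Fam oc En)
open Crest.Agent.R208.EW (cR)
open Crest.Agent.R208.EP (topr)
open Crest.Agent.R208.SN (kGG)

noncomputable section

namespace Crest.Agent.R208.ZA

/-! ### `v` is exact, from the half on `B` -/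
section ve
variable {EB : Type} [NormedAddCommGroup EB] [NormedSpace ℝ EB] [FiniteDimensional ℝ EB]
  {B : Set EB} {e x p3 : EB → Ext EB}

theorem ve_one' (Ee : EC B e) (Ex : EC B x) (Ep : EC B p3) {α β₁ l t3 : ℝ}
    (h1 : Coh B ((3 : ℝ) • (x * x) + (l ^ 2) • (p3 * (e * e))) 0)
    (h3 : Coh B p3 (t3 • (α • e ^ 6 + β₁ • (x * e ^ 2)))) (n₁ : ℝ) :
    Coh B (ve l n₁ 1 (r1 l t3 α β₁) (r2 l t3 α β₁) p3 x e) 0 := by
  have q1 := rcl_rel Ee Ex Ep h1
  have q2 := rcl_p3 Ee Ex Ep h3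
  have k3 : EC B ((-(1 * (2 * l ^ 2 * n₁))) • (p3 * x * e)) := ((Ep.mul Ex).mul Ee).smul _
  have k4 : EC B ((r1 l t3 α β₁ * n₁) • e ^ 11) := (Ee.pow 11).smul _
  have k5 : EC B ((r2 l t3 α β₁ * n₁) • (x * e ^ 7)) := (Ex.mul (Ee.pow 7)).smul _
  have k6 : EC B ((-(1 * (2 * l ^ 2 * n₁))) • (p3 * x * e) - (r1 l t3 α β₁ * n₁) • e ^ 11) := by
    have := k3.add (k4.smul (-1))
    rwa [neg_one_smul, ← sub_eq_add_neg] at this
  have k7 : EC B (ve l n₁ 1 (r1 l t3 α β₁) (r2 l t3 α β₁) p3 x e) := by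
    have := k6.add (k5.smul (-1))
    rwa [neg_one_smul, ← sub_eq_add_neg] at this
  refine (rcl_eq_zero_iff k7).1 ?_
  have e1 : rcl k7 = (-(1 * (2 * l ^ 2 * n₁))) • (rcl Ep * rcl Ex * rcl Ee)
      - (r1 l t3 α β₁ * n₁) • rcl Ee ^ 11 - (r2 l t3 α β₁ * n₁) • (rcl Ex * rcl Ee ^ 7) := by
    rw [← rcl_pow Ee, ← rcl_pow Ee, ← rcl_mul Ep Ex, ← rcl_mul (Ep.mul Ex) Ee,
      ← rcl_mul Ex (Ee.pow 7), ← ZG.rcl_smul' _ ((Ep.mul Ex).mul Ee),
      ← ZG.rcl_smul' _ (Ee.pow 11), ← ZG.rcl_smul' _ (Ex.mul (Ee.pow 7)),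
      ← ZG.rcl_sub k3 k4 k6, ← ZG.rcl_sub k6 k5 k7]
    rfl
  rw [e1, q2]
  generalize rcl Ee = E at q1 q2 ⊢
  generalize rcl Ex = X at q1 q2 ⊢
  rw [q2] at q1
  unfold r1 r2
  have r0 : (3 : CW.H B) * algebraMap ℝ (CW.H B) (2 / 3) = 2 := by
    rw [← map_ofNat (algebraMap ℝ (CW.H B)) 3, ← map_mul]
    norm_num [map_ofNat]
  simp only [Algebra.smul_def, map_mul, map_pow, map_neg, map_sub, map_ofNat, map_one] at q1 ⊢
  generalize algebraMap ℝ (CW.H B) (2 / 3) = r at r0 ⊢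
  generalize algebraMap ℝ (CW.H B) n₁ = n
  generalize algebraMap ℝ (CW.H B) l = L at q1 ⊢
  generalize algebraMap ℝ (CW.H B) t3 = t at q1 ⊢
  generalize algebraMap ℝ (CW.H B) α = a at q1 ⊢
  generalize algebraMap ℝ (CW.H B) β₁ = b at q1 ⊢
  linear_combination (-(r * L ^ 2 * n * t * b * E ^ 3)) * q1 +
    (L ^ 2 * n * t * b * E ^ 3 * X ^ 2) * r0

end ve

/-! ### the class side -/
section cls
variable {N K m m' c s' c₂ : ℕ} {κ : ℝ} {S : Set (Euc N)} {G : Geo 16 N κ S}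
  {lg : Euc N → Euc N → Euc N} {ρ : Euc N → Euc N} {r C r' Kr B w δ δ₂ : ℝ}
  {PN : Euc N × Euc N → Wt N K →L[ℝ] Wt N K}
  {h : GT.Bla G (2 * 3 + 2)} {g : Euc N × Euc N → Fin m → ℂ} {Fc : MM m → Ext (MM m)}
  {g' : (Euc N × Euc N) × HW.U 15 → Fin m' → ℂ} {p : MM m' → MM m}
  {T : Euc N × Euc N → Wt N K →L[ℝ] EuclideanSpace ℝ (Fin (2 * c + 1))}
  {P' : MM m → EuclideanSpace ℝ (Fin (2 * c + 1)) →L[ℝ] EuclideanSpace ℝ (Fin (2 * c + 1))}
  {o' : MM m → Ext (EuclideanSpace ℝ (Fin (2 * c + 1)))}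
  {W' : MM m → (Fin (s' + 1) × Fin 2 → Fin (2 * c + 1)) → ℝ}
  {oN : Euc N × Euc N → Ext (Wt N K)}
  {T₂ : (Euc N × Euc N) × HW.U 15 →
    EuclideanSpace ℝ (((Fin K × Fin 2) × Fin N) ⊕ ((Fin K × Fin 2) × Fin N)) →L[ℝ]
      EuclideanSpace ℝ (Fin (2 * c₂))}
  {P₂' : MM m' → EuclideanSpace ℝ (Fin (2 * c₂)) →L[ℝ] EuclideanSpace ℝ (Fin (2 * c₂))}
  {W₂' : MM m' → (Fin (2 * 3 + 1) × Fin 2 → Fin (2 * c₂)) → ℝ}
  {ι : Type} [Fintype ι] [DecidableEq ι] {W₀ : Euc N × Euc N → (ι × Fin 2 → Fin N) → ℝ}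
  {p₀ : Euc N} {x : Euc N → Ext (Euc N)} {x0 : MM m → Ext (MM m)} {l n₁ : ℝ}
  {ε ε₂ : ℝ}

/-- **the class side** (helper812's VE8-VE12, helper378's UN*) over the package for
`(k, n) = (8, 16)`; `p₃ = 48² cR 6 P'` -/
structure Cls82 (G : Geo 16 N κ S) (K : ℕ) (lg : Euc N → Euc N → Euc N) (ρ : Euc N → Euc N) (w : ℝ)
    (J : ℕ) (ε : ℝ) (PN : Euc N × Euc N → Wt N K →L[ℝ] Wt N K) (g : Euc N × Euc N → Fin m → ℂ)
    (Fc : MM m → Ext (MM m))
    (T : Euc N × Euc N → Wt N K →L[ℝ] EuclideanSpace ℝ (Fin (2 * c + 1)))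
    (P' : MM m → EuclideanSpace ℝ (Fin (2 * c + 1)) →L[ℝ] EuclideanSpace ℝ (Fin (2 * c + 1)))
    (o' : MM m → Ext (EuclideanSpace ℝ (Fin (2 * c + 1))))
    (W' : MM m → (Fin (s' + 1) × Fin 2 → Fin (2 * c + 1)) → ℝ) (x : Euc N → Ext (Euc N)) (τ : ℝ)
    (x0 : MM m → Ext (MM m)) (fY : MM m × EuclideanSpace ℝ (Fin (2 * c + 1)) → Euc N)
    (l n₁ : ℝ) : Prop where
  sx : Sm (Quo (L.US G) g) x0
  cx : Cl (Quo (L.US G) g) x0
  dx : Hom 8 x0
  hx : Coh (L.US G) (F.pull Prod.fst x) (F.pull (jj g) x0)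
  hl : l ^ 2 = 16
  hrel : Coh (Quo (L.US G) g)
    ((3 : ℝ) • (x0 * x0) + (l ^ 2) • (((2304 : ℝ) • cR 6 P') * (Fc * Fc))) 0
  sfY : SMap (Sph (Quo (L.US G) g) P') S fY
  efY : ∀ z ∈ Sph (L.US G) PN, fY (Th (jj g) T z) = FL.f1 G lg ρ w J ε (z.1, (2 : ℝ) • z.2)
  hfY : Coh (Sph (Quo (L.US G) g) P') (F.pull fY x) (F.pull Prod.fst x0 +
      l • (F.pull Prod.fst Fc * SB.OddB.eV (Fin 3) (r := 6) rfl P' o'))
  hn : 2 * Real.pi * |n₁| = LC.del (EuclideanSpace ℝ (Fin (2 * c + 1))) * kGG (Fin (s' + 1)) * τ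
  v1 : ∀ (rr ss : ℝ) (V' : MM m × EuclideanSpace ℝ (Fin (2 * c + 1)) →
      Ext (MM m × EuclideanSpace ℝ (Fin (2 * c + 1)))),
    ContDiff ℝ ∞ V' → Cl (Tot (Quo (L.US G) g) P') V' → VE.Cs (Quo (L.US G) g) P' (3 / 2) V' →
    Eqv (Tot (L.US G) PN) (F.pull (Th (jj g) T) V') (vf1 G K lg ρ w J ε x (al (N := N)) 11 7 rr ss) →
    Coh (Quo (L.US G) g)
      (VE.pu (volume : Measure (EuclideanSpace ℝ (Fin (2 * c + 1)))) P'
        (thomF (fun y => 1 - P' y) W') (3 / 2) V')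
      (ve l n₁ 1 rr ss ((2304 : ℝ) • cR 6 P') x0 Fc)
  v2 : ∀ D : ED N, D.om = x → D.p = 11 → D.q = 7 → EA.Cls2 G K lg ρ w J ε PN g T P' W' D
    (rhsE l n₁ D.r D.s ((2304 : ℝ) • cR 6 P') x0 Fc)

end cls

end Crest.Agent.R208.ZA
end
end

-- ▼ part R208/VEd589a
section

/-! Row 208, block VD (helper589).  VEd589a: the fibre integral `VE.pu` at a point, against the Thom
form of the complement, as an integral over `Eu r` in an orthonormal frame of the fibre. -/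

set_option autoImplicit false
set_option linter.unusedSectionVars false
set_option linter.unusedVariables false

open MeasureTheory Set Filter Topology Module Matrix
open scoped ContDiff
open Crest.Agent.R208.F Crest.Agent.R208.FI Crest.Agent.R208.CW Crest.Agent.R208.T
open Crest.Agent.R208.SN (kGG)

noncomputable section

namespace Crest.Agent.R208.VD

section A
variable {n ι' : Type*} [Fintype n] [DecidableEq n] [Fintype ι'] [DecidableEq ι']
  {E E' : Type*} [NormedAddCommGroup E] [NormedSpace ℝ E] [FiniteDimensional ℝ E]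
  [NormedAddCommGroup E'] [NormedSpace ℝ E'] [FiniteDimensional ℝ E']
  {X : Set E} {P : E → EuclideanSpace ℝ n →L[ℝ] EuclideanSpace ℝ n}
  {W' : E → (ι' × Fin 2 → n) → ℝ} {x : E} {g : Matrix n (ι' × Fin 2) ℝ} {r d : ℕ}
  {f : Fin r → EuclideanSpace ℝ n} {R R₁ : ℝ}

theorem hasFDerivAt_cst (x : E) (z : E' × EuclideanSpace ℝ n) :
    HasFDerivAt (LC.cst E' x : E' × EuclideanSpace ℝ n → E × EuclideanSpace ℝ n)
      ((0 : E' × EuclideanSpace ℝ n →L[ℝ] E).prod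
        (ContinuousLinearMap.snd ℝ E' (EuclideanSpace ℝ n))) z :=
  (hasFDerivAt_const x z).prodMk hasFDerivAt_snd

theorem diff_cst (x : E) (z : E' × EuclideanSpace ℝ n) :
    DifferentiableAt ℝ (LC.cst E' x : E' × EuclideanSpace ℝ n → E × EuclideanSpace ℝ n) z :=
  (hasFDerivAt_cst x z).differentiableAt

theorem diff_P {z : E × EuclideanSpace ℝ n} (hP : DifferentiableAt ℝ P z.1) :
    DifferentiableAt ℝ (fun z : E × EuclideanSpace ℝ n => P z.1 z.2) z := by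
  have h1 : DifferentiableAt ℝ (fun z : E × EuclideanSpace ℝ n => P z.1) z :=
    DifferentiableAt.comp (g := P) (f := fun z : E × EuclideanSpace ℝ n => z.1) z hP
      differentiableAt_fst
  exact h1.clm_apply differentiableAt_snd

theorem diff_gam {z : E × EuclideanSpace ℝ n} (hP : DifferentiableAt ℝ P z.1) :
    DifferentiableAt ℝ (gam P) z :=
  differentiableAt_fst.prodMk (differentiableAt_snd.sub (diff_P hP))

theorem diff_nbet {z : E × EuclideanSpace ℝ n} (hP : DifferentiableAt ℝ P z.1) :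
    DifferentiableAt ℝ (nbet P) z :=
  differentiableAt_fst.prodMk (diff_P hP).neg

set_option maxHeartbeats 1000000 in
theorem pull_cst_thE' (hP : DifferentiableAt ℝ P x)
    (τ' om : E × EuclideanSpace ℝ n → Ext (E × EuclideanSpace ℝ n)) (z : E' × EuclideanSpace ℝ n) :
    F.pull (LC.cst E' x) (thE' P τ' om) z =
      thE' (fun _ : E' => P x) (F.pull (LC.cst E' x) τ') (F.pull (LC.cst E' x) om) z := by
  have d0 := diff_cst x z
  have hP' : DifferentiableAt ℝ P (LC.cst E' x z).1 := hP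
  have hc : DifferentiableAt ℝ (fun _ : E' => P x) z.1 := differentiableAt_const _
  have g1 : (gam P ∘ LC.cst E' x : E' × EuclideanSpace ℝ n → E × EuclideanSpace ℝ n) =
      LC.cst E' x ∘ gam (fun _ : E' => P x) := funext fun z => rfl
  have g2 : (nbet P ∘ LC.cst E' x : E' × EuclideanSpace ℝ n → E × EuclideanSpace ℝ n) =
      LC.cst E' x ∘ nbet (fun _ : E' => P x) := funext fun z => rfl
  have e1 : F.pull (LC.cst E' x) (F.pull (gam P) τ') z =
      F.pull (gam (fun _ : E' => P x)) (F.pull (LC.cst E' x) τ') z := by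
    rw [F.pull_comp d0 (diff_gam hP'), F.pull_comp (diff_gam hc) (diff_cst x _), g1]
  have e2 : F.pull (LC.cst E' x) (F.pull (nbet P) om) z =
      F.pull (nbet (fun _ : E' => P x)) (F.pull (LC.cst E' x) om) z := by
    rw [F.pull_comp d0 (diff_nbet hP'), F.pull_comp (diff_nbet hc) (diff_cst x _), g2]
  rw [thE', thE', pull_mul', Pi.mul_apply, Pi.mul_apply, e1, e2]

theorem isDeg_cF {c : Ext (E × EuclideanSpace ℝ n)} (hc : IsDeg r c) : IsDeg 0 (LC.cF E f c) := by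
  rw [LC.cF_apply]
  exact (isDeg_iisF (q := 0) _ (by rwa [zero_add])).pb _

theorem cF_eq {c : Ext (E × EuclideanSpace ℝ n)} (hc : IsDeg r c) : LC.cF E f c =
    (evA (E × EuclideanSpace ℝ n) r c (fun k => ((0 : E), f k))) • (1 : Ext E) := by
  rw [eq_algebraMap_of_isDeg (isDeg_cF hc) ![], LC.evA_cF, Algebra.algebraMap_eq_smul_one]
  congr 1
  have h1 : Fin.append (fun k => ((0 : E), f k)) (fun k : Fin 0 => ((![] k : E),
      (0 : EuclideanSpace ℝ n))) = fun k => ((0 : E), f k) := by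
    rw [Fin.append_right_nil _ _ rfl]
    rfl
  exact congrArg _ h1

theorem evA_pull_cst {q : ℕ} (w : E × EuclideanSpace ℝ n → Ext (E × EuclideanSpace ℝ n))
    (z : E' × EuclideanSpace ℝ n) (v : Fin q → EuclideanSpace ℝ n) :
    evA (E' × EuclideanSpace ℝ n) q (F.pull (LC.cst E' x) w z) (fun k => ((0 : E'), v k)) =
      evA (E × EuclideanSpace ℝ n) q (w (x, z.2)) (fun k => ((0 : E), v k)) := by
  rw [F.pull, evA_pb, (hasFDerivAt_cst x z).fderiv]
  rfl

/-- **the fibre integral at a point** -/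
theorem pu_val [Nonempty ι'] (hD : LC.Dat P W' x g f) (hx : x ∈ X) (hR : 0 ≤ R)
    (hP : PField X r P) (hC : VE.Co X P R₁ (thomF (fun x => 1 - P x) W'))
    {om : E × EuclideanSpace ℝ n → Ext (E × EuclideanSpace ℝ n)} (hs : Sm (Tot X P) om)
    (hom : T.Hom r om) :
    VE.pu volume P (thomF (fun x => 1 - P x) W') R om x = algebraMap ℝ (Ext E)
      (kGG ι' * (hD.adp.mat.det * (-1) ^ r) * ∫ b : Eu r, evA (E × EuclideanSpace ℝ n) r
        (cutH R om (x, LC.cmb f b)) (fun k => ((0 : E), f k))) := by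
  set τ' : E × EuclideanSpace ℝ n → Ext (E × EuclideanSpace ℝ n) :=
    thomF (fun x => 1 - P x) W' with hτ'
  set w := cutH R om with hw
  have homw : T.Hom r w := T.Hom.cutH hom
  have hPd : DifferentiableAt ℝ P x := hD.cd.differentiableAt (by simp)
  have v1 := VE.vt_th hR hP hC om
  have s1 := VE.sm_th hR hP hC hs
  -- degrees
  have hfr : finrank ℝ (EuclideanSpace ℝ n) = 2 * Fintype.card ι' + r := by
    rw [hD.adp.finrank]; ring
  have hdeg : ∀ z, IsDeg (0 + finrank ℝ (EuclideanSpace ℝ n)) (thE' P τ' w z) := by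
    intro z
    rw [zero_add, hfr]
    exact IsDeg.mul ((thomF_deg _).pb _) ((homw _).pb _)
  have h0 := eq_algebraMap_of_isDeg (isDeg_pI (volume : Measure (EuclideanSpace ℝ n)) hdeg x) ![]
  set s := evA E 0 (pI (volume : Measure (EuclideanSpace ℝ n)) (thE' P τ' w) x) ![] with hs'
  have h1 := pI_pull (volume : Measure (EuclideanSpace ℝ n)) (E' := E) (f := fun _ : E => x)
    (y := x) (differentiableAt_const x) v1 (fun v => (s1 (x, v) ⟨hx, mem_univ _⟩).continuousAt)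
  have h2 : F.pull (fun _ : E => x) (pI (volume : Measure (EuclideanSpace ℝ n)) (thE' P τ' w)) x =
      algebraMap ℝ (Ext E) s := by
    change pb _ (pI (volume : Measure (EuclideanSpace ℝ n)) (thE' P τ' w) x) = _
    rw [h0, AlgHom.commutes]
  have h3 : pI (volume : Measure (EuclideanSpace ℝ n))
      (F.pull (fun z : E × EuclideanSpace ℝ n => (x, z.2)) (thE' P τ' w)) x =
      TP.push volume (fun _ : E => P x) (F.pull (LC.cst E x) τ') (F.pull (LC.cst E x) w) x := by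
    rw [TP.push, pI_eq, pI_eq]
    refine integral_congr_ae (Eventually.of_forall fun v => ?_)
    exact congrArg _ (pull_cst_thE' hPd τ' w (x, v))
  have h4 := LC.push_const hD (F.pull (LC.cst E x) w) x
  have h5 : ∀ b : Eu r, LC.cF E f (F.pull (LC.cst E x) w (x, LC.cmb f b)) =
      (evA (E × EuclideanSpace ℝ n) r (w (x, LC.cmb f b)) (fun k => ((0 : E), f k))) •
        (1 : Ext E) := by
    intro b
    have h6 : IsDeg r (F.pull (LC.cst E x) w (x, LC.cmb f b)) := (homw _).pb _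
    rw [cF_eq h6, evA_pull_cst]
  simp only [h5] at h4
  rw [integral_smul_const, smul_smul] at h4
  change pI volume (thE' P τ' w) x = _
  rw [h0, ← h2, ← h1, h3, h4, Algebra.algebraMap_eq_smul_one]

end A

end Crest.Agent.R208.VD
end
end

-- ▼ part R208/VEd589b
section

/-! Row 208, block VD (helper589).  VEd589b: the value of `d (rx b)` on adapted frames of the fibre,
the polar integral. -/

set_option autoImplicit false
set_option linter.unusedSectionVars false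
set_option linter.unusedVariables false

open MeasureTheory Set Filter Topology Module Matrix
open scoped ContDiff RealInnerProductSpace Nat
open Crest.Agent.R208.F Crest.Agent.R208.FI Crest.Agent.R208.CW Crest.Agent.R208.T
open Crest.Agent.R208.SN (kGG)

noncomputable section

namespace Crest.Agent.R208.VD

/-! ### the radial profile -/

/-- `4 ks t * t` is the derivative of the radial profile -/
def ks (t : ℝ) : ℝ := deriv Real.smoothTransition (2 * t ^ 2 - 1)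

theorem hasDerivAt_st (s : ℝ) :
    HasDerivAt Real.smoothTransition (deriv Real.smoothTransition s) s :=
  ((Real.smoothTransition.contDiff (n := 1)).differentiable (by norm_num) s).hasDerivAt

theorem hasDerivAt_kap (t : ℝ) :
    HasDerivAt (fun t : ℝ => Real.smoothTransition (2 * t ^ 2 - 1)) (4 * ks t * t) t := by
  have h1 : HasDerivAt (fun t : ℝ => 2 * t ^ 2 - 1) (2 * (2 * t)) t := by
    have := ((hasDerivAt_pow 2 t).const_mul 2).sub_const 1
    simpa using this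
  have h2 := (hasDerivAt_st (2 * t ^ 2 - 1)).comp t h1
  refine h2.congr_deriv ?_
  rw [ks]
  ring

theorem ks_big {t : ℝ} (ht : 1 < t) : ks t = 0 := by
  have h1 : Real.smoothTransition =ᶠ[𝓝 (2 * t ^ 2 - 1)] fun _ => 1 := by
    have h2 : (1 : ℝ) < 2 * t ^ 2 - 1 := by nlinarith
    filter_upwards [lt_mem_nhds h2] with s hs
    exact Real.smoothTransition.one_of_one_le hs.le
  rw [ks, h1.deriv_eq, deriv_const]

theorem continuous_ks : Continuous ks := by
  have h1 : Continuous (deriv Real.smoothTransition) :=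
    (Real.smoothTransition.contDiff (n := 1)).continuous_deriv le_rfl
  exact h1.comp (by fun_prop)

/-- `∫_0^∞ (4 ks t t) = 1` -/
theorem int_ks : ∫ t in Ioi (0 : ℝ), 4 * ks t * t = 1 := by
  have h1 : ∫ t in Ioi (0 : ℝ), 4 * ks t * t = ∫ t in (0 : ℝ)..1, 4 * ks t * t := by
    rw [intervalIntegral.integral_of_le zero_le_one]
    refine (setIntegral_eq_of_subset_of_forall_sdiff_eq_zero measurableSet_Ioi
      Ioc_subset_Ioi_self fun t ht => ?_)
    have h2 : 1 < t := by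
      by_contra h
      exact ht.2 ⟨ht.1, not_lt.1 h⟩
    rw [ks_big h2]; ring
  rw [h1, intervalIntegral.integral_eq_sub_of_hasDerivAt (fun t _ => hasDerivAt_kap t)
    (((continuous_const.mul continuous_ks).mul continuous_id).intervalIntegrable 0 1)]
  rw [Real.smoothTransition.one_of_one_le (by norm_num),
    Real.smoothTransition.zero_of_nonpos (by norm_num), sub_zero]

/-- the polar integral -/
theorem int_polar (l : ℕ) :
    ∫ b : Eu (2 * l + 1), 4 * ks ‖b‖ * ‖b‖ * ((‖b‖⁻¹) ^ (2 * l) * (((2 * l)! : ℕ) : ℝ)) =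
      2 * ((4 * Real.pi) ^ l * (l ! : ℝ)) := by
  have h1 := integral_fun_norm_addHaar (volume : Measure (Eu (2 * l + 1)))
    (fun t : ℝ => 4 * ks t * t * ((t⁻¹) ^ (2 * l) * (((2 * l)! : ℕ) : ℝ)))
  have hfr : finrank ℝ (Eu (2 * l + 1)) = 2 * l + 1 := finrank_euclideanSpace_fin
  have h2 : ∫ y in Ioi (0 : ℝ), y ^ (finrank ℝ (Eu (2 * l + 1)) - 1) •
      (4 * ks y * y * ((y⁻¹) ^ (2 * l) * (((2 * l)! : ℕ) : ℝ))) = (((2 * l)! : ℕ) : ℝ) := by
    have h3 : ∀ y ∈ Ioi (0 : ℝ), y ^ (finrank ℝ (Eu (2 * l + 1)) - 1) •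
        (4 * ks y * y * ((y⁻¹) ^ (2 * l) * (((2 * l)! : ℕ) : ℝ))) =
        (4 * ks y * y) * (((2 * l)! : ℕ) : ℝ) := by
      intro y hy
      have hy0 : y ≠ 0 := ne_of_gt hy
      rw [hfr, Nat.add_sub_cancel, smul_eq_mul]
      have h4 : y ^ (2 * l) * (y⁻¹) ^ (2 * l) = 1 := by
        rw [← mul_pow, mul_inv_cancel₀ hy0, one_pow]
      linear_combination (4 * ks y * y * (((2 * l)! : ℕ) : ℝ)) * h4
    rw [setIntegral_congr_fun measurableSet_Ioi h3, integral_mul_const, int_ks, one_mul]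
  rw [h2] at h1
  rw [h1, hfr]
  have h5 : (volume : Measure (Eu (2 * l + 1))).real (Metric.ball 0 1) =
      Real.pi ^ l * 2 ^ (l + 1) / (((2 * l + 1)‼ : ℕ) : ℝ) := by
    rw [Measure.real, InnerProductSpace.volume_ball_of_dim_odd hfr, ENNReal.ofReal_one, one_pow,
      one_mul, ENNReal.toReal_ofReal (by positivity), hfr]
  rw [h5, nsmul_eq_mul, smul_eq_mul]
  have h6 : (((2 * l + 1)! : ℕ) : ℝ) = (((2 * l + 1)‼ : ℕ) : ℝ) * (2 ^ l * (l ! : ℝ)) := by
    rw [Nat.factorial_eq_mul_doubleFactorial, Nat.doubleFactorial_two_mul]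
    push_cast
    ring
  have h7 : (((2 * l + 1)! : ℕ) : ℝ) = ((2 * l + 1 : ℕ) : ℝ) * (((2 * l)! : ℕ) : ℝ) := by
    rw [Nat.factorial_succ]; push_cast; ring
  have h8 : (((2 * l + 1)‼ : ℕ) : ℝ) ≠ 0 := by
    have := Nat.doubleFactorial_pos (2 * l + 1)
    positivity
  have h9 : (4 : ℝ) ^ l = 2 ^ l * 2 ^ l := by rw [← mul_pow]; norm_num
  field_simp
  rw [mul_pow, h9]
  rw [h6] at h7
  linear_combination (-(Real.pi ^ l * 2 ^ (l + 1))) * h7

/-! ### adapted frames of the fibre -/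
section fr
variable {E H : Type*} [NormedAddCommGroup E] [NormedSpace ℝ E] [FiniteDimensional ℝ E]
  [NormedAddCommGroup H] [InnerProductSpace ℝ H] [FiniteDimensional ℝ H]
  {X : Set E} {P : E → H →L[ℝ] H} {r d : ℕ} {b : E × H → Ext (E × H)}

theorem diff_nrm {z : E × H} (hz : z.2 ≠ 0) :
    DifferentiableAt ℝ (fun z : E × H => ‖z.2‖) z := by
  have h1 : DifferentiableAt ℝ (fun h : H => ‖h‖) z.2 :=
    (contDiffAt_norm ℝ hz (n := 1)).differentiableAt (by norm_num)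
  exact DifferentiableAt.comp (g := fun h : H => ‖h‖) (f := fun z : E × H => z.2) z h1
    differentiableAt_snd

theorem hasFDerivAt_nsq (z : E × H) : HasFDerivAt (fun z : E × H => ‖z.2‖ ^ 2)
    (2 • ((innerSL ℝ z.2).comp (ContinuousLinearMap.snd ℝ E H))) z :=
  (hasFDerivAt_snd (𝕜 := ℝ) (p := z)).norm_sq

theorem fderiv_nrm {z : E × H} (hz : z.2 ≠ 0) {w : E × H} (hw : ⟪z.2, w.2⟫ = 0) :
    fderiv ℝ (fun z : E × H => ‖z.2‖) z w = 0 := by
  have h1 : HasFDerivAt (fun z : E × H => ‖z.2‖ ^ 2) _ z := (diff_nrm hz).hasFDerivAt.pow 2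
  have h3 := congrArg (fun L : E × H →L[ℝ] ℝ => L w) (h1.unique (hasFDerivAt_nsq z))
  have h4 : (2 * ‖z.2‖) * fderiv ℝ (fun z : E × H => ‖z.2‖) z w = 2 * ⟪z.2, w.2⟫ := by
    simpa using h3
  rw [hw, mul_zero] at h4
  exact (mul_eq_zero.1 h4).resolve_left (mul_ne_zero two_ne_zero (norm_ne_zero_iff.2 hz))

theorem fderiv_rh {z : E × H} (hz : z.2 ≠ 0) {w : H} (hw : ⟪z.2, w⟫ = 0) :
    fderiv ℝ (rh (E := E) (H := H)) z (0, w) = (0, ‖z.2‖⁻¹ • w) := by
  have hn := (diff_nrm hz).hasFDerivAt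
  have h0 : ‖z.2‖ ≠ 0 := norm_ne_zero_iff.2 hz
  have h1 : HasFDerivAt (fun z : E × H => ‖z.2‖⁻¹)
      ((-(‖z.2‖ ^ 2)⁻¹) • fderiv ℝ (fun z : E × H => ‖z.2‖) z) z :=
    HasDerivAt.comp_hasFDerivAt z (hasDerivAt_inv h0) hn
  have h2 : HasFDerivAt (fun z : E × H => ‖z.2‖⁻¹ • z.2) _ z :=
    h1.fun_smul (hasFDerivAt_snd (𝕜 := ℝ) (p := z))
  have h3 : HasFDerivAt (rh (E := E) (H := H)) _ z :=
    (hasFDerivAt_fst (𝕜 := ℝ) (p := z)).prodMk h2
  rw [h3.fderiv]
  have h4 : fderiv ℝ (fun z : E × H => ‖z.2‖) z ((0 : E), w) = 0 := fderiv_nrm hz hw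
  simp [h4]

theorem hasFDerivAt_kp (z : E × H) : HasFDerivAt (fun z : E × H => kp z.2)
    ((4 * ks ‖z.2‖) • ((innerSL ℝ z.2).comp (ContinuousLinearMap.snd ℝ E H))) z := by
  have h1 := ((hasFDerivAt_nsq z).const_mul (2 : ℝ)).sub_const (1 : ℝ)
  have h2 : HasFDerivAt (fun z : E × H => kp z.2) _ z :=
    HasDerivAt.comp_hasFDerivAt z (hasDerivAt_st (2 * ‖z.2‖ ^ 2 - 1)) h1
  refine h2.congr_fderiv ?_
  ext w
  · simp [ks]
  · simp [ks]; ring

theorem fderiv_kp (z : E × H) (w : H) : fderiv ℝ (fun z : E × H => kp z.2) z ((0 : E), w) =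
    4 * ks ‖z.2‖ * ⟪z.2, w⟫ := by
  rw [(hasFDerivAt_kp z).fderiv]
  simp

/-- **`d (rx b)` on an adapted frame of the fibre** -/
theorem evA_drx (hX : Sub d X) (hP : PField X (r + 1) P) (hb : Sm (Sph X P) b)
    (hc : Cl (Sph X P) b) {z : E × H} (hz : z ∈ Tot X P) (hz0 : z.2 ≠ 0) {e : Fin r → H}
    (hPe : ∀ i, P z.1 (e i) = e i) (hin : ∀ i, ⟪z.2, e i⟫ = 0) :
    evA (E × H) (r + 1) (F.d (rx b) z)
      (Matrix.vecCons ((0 : E), ‖z.2‖⁻¹ • z.2) (fun i => ((0 : E), e i))) =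
      4 * ks ‖z.2‖ * ‖z.2‖ * ((‖z.2‖⁻¹) ^ r * evA (E × H) r (b (rh z)) (fun i => ((0 : E), e i))) := by
  have hn0 : ‖z.2‖ ≠ 0 := norm_ne_zero_iff.2 hz0
  have hzr := smap_rh (X := X) (P := P) |>.maps ⟨hz, hz0⟩
  have sp := (hb.pull smap_rh) z ⟨hz, hz0⟩
  have e1 : F.d (rx b) z = io ((fderiv ℝ (fun z : E × H => kp z.2) z : E × H →L[ℝ] ℝ) :
      Module.Dual ℝ (E × H)) * F.pull rh b z + kp z.2 • F.pull rh (F.d b) z := by
    have h1 := F.d_smul (hasFDerivAt_kp z).differentiableAt (sp.differentiableAt (by simp))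
    have h2 : F.d (F.pull rh b) z = F.pull rh (F.d b) z :=
      F.d_pull (smap_rh.c2 ⟨hz, hz0⟩) (hb.diff hzr)
    rw [h2] at h1
    exact h1
  -- the second term vanishes on tangent vectors
  have e2 : Eqv (Tot X P ∩ {z | z.2 ≠ 0}) (F.pull rh (F.d b)) 0 := by
    have := Eqv.pull smap_rh (resZero_iff.1 hc)
    rwa [pull_zero'] at this
  have e3 := eqv_of_open T.isOpen_ne e2 hz hz0
  have ht : ∀ w : H, P z.1 w = w → ((0 : E), w) ∈ Tan (Tot X P) z := fun w hw =>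
    SB.vert_mem hX hP hz.1 hz.2 hw
  set A : Fin (r + 1) → E × H := Matrix.vecCons ((0 : E), ‖z.2‖⁻¹ • z.2) (fun i => ((0 : E), e i))
    with hA
  have hAt : ∀ i, A i ∈ Tan (Tot X P) z := by
    intro i
    refine Fin.cases ?_ (fun i => ?_) i
    · exact ht _ (by rw [map_smul]; exact congrArg _ hz.2)
    · exact ht _ (hPe i)
  have e4 : evA (E × H) (r + 1) (F.pull rh (F.d b) z) A = 0 := by
    have h1 := evA_pb (r + 1) (Tan (Tot X P) z).subtype (F.pull rh (F.d b) z)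
      (fun i => (⟨A i, hAt i⟩ : Tan (Tot X P) z))
    rw [e3, Pi.zero_apply, map_zero, map_zero] at h1
    exact h1.symm
  rw [e1, map_add, AlternatingMap.add_apply, map_smul, AlternatingMap.smul_apply, e4, smul_zero,
    add_zero, evA_io_mul, Fin.sum_univ_succ, Finset.sum_eq_zero, add_zero]
  · have h0 : (fun j => A (Fin.succAbove 0 j)) = fun i => ((0 : E), e i) := by
      funext j
      rw [Fin.succAbove_zero]
      rfl
    have h1 : (((fderiv ℝ (fun z : E × H => kp z.2) z : E × H →L[ℝ] ℝ) :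
      Module.Dual ℝ (E × H)) (A 0)) = 4 * ks ‖z.2‖ * ‖z.2‖ := by
      refine (fderiv_kp z (‖z.2‖⁻¹ • z.2)).trans ?_
      rw [inner_smul_right, real_inner_self_eq_norm_sq]
      field_simp
    have h2 : evA (E × H) r (F.pull rh b z) (fun i => ((0 : E), e i)) =
        (‖z.2‖⁻¹) ^ r * evA (E × H) r (b (rh z)) (fun i => ((0 : E), e i)) := by
      rw [F.pull, evA_pb]
      have h3 : (fun i => ((fderiv ℝ (rh (E := E) (H := H)) z : E × H →L[ℝ] E × H) :
          E × H →ₗ[ℝ] E × H) ((0 : E), e i)) = fun i => ‖z.2‖⁻¹ • ((0 : E), e i) := by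
        funext i
        refine (fderiv_rh hz0 (hin i)).trans ?_
        rw [Prod.smul_mk, smul_zero]
      rw [h3]
      have h4 := (evA (E × H) r (b (rh z))).map_smul_univ (fun _ => ‖z.2‖⁻¹)
        (fun i => ((0 : E), e i))
      rw [h4]
      simp
    rw [h0, h1, h2]
    simp
  · intro i _
    have h5 : (((fderiv ℝ (fun z : E × H => kp z.2) z : E × H →L[ℝ] ℝ) :
      Module.Dual ℝ (E × H)) (A i.succ)) = 0 := by
      refine (fderiv_kp z (e i)).trans ?_
      rw [hin i, mul_zero]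
    rw [h5, mul_zero, zero_mul]

end fr

end Crest.Agent.R208.VD
end
end

-- ▼ part R208/VEd589c
section

/-! Row 208, block VD (helper589).  VEd589c: **W0**: the fibre integral of the vertical Euler form of
an oriented field of odd rank, in the normalisation of `VE.de`, and the Thom data `d (rx eV)`. -/

set_option autoImplicit false
set_option linter.unusedSectionVars false
set_option linter.unusedVariables false

open MeasureTheory Set Filter Topology Module Matrix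
open scoped ContDiff RealInnerProductSpace Nat
open Crest.Agent.R208.F Crest.Agent.R208.FI Crest.Agent.R208.CW Crest.Agent.R208.T
open Crest.Agent.R208.SN (kGG)
open Crest.Agent.R208.SB (oV)
open Crest.Agent.R208.SB.OddB (eV)

noncomputable section

namespace Crest.Agent.R208.VD

/-! ### change of orthonormal frames -/
section ch
variable {H : Type*} [NormedAddCommGroup H] [InnerProductSpace ℝ H] [FiniteDimensional ℝ H]
  {m : ℕ} {Q : H →L[ℝ] H} {A f : Fin m → H}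

theorem frame_change (hs : ∀ v w, ⟪Q v, w⟫ = ⟪v, Q w⟫)
    (hr : finrank ℝ (LinearMap.range (Q : H →ₗ[ℝ] H)) = m) (hA : Orthonormal ℝ A)
    (hQA : ∀ i, Q (A i) = A i) (hf : Orthonormal ℝ f) (hQf : ∀ i, Q (f i) = f i) :
    ∃ M : Matrix (Fin m) (Fin m) ℝ, (∀ k, f k = ∑ l, M k l • A l) ∧ (M.det = 1 ∨ M.det = -1) := by
  set M : Matrix (Fin m) (Fin m) ℝ := Matrix.of fun k l => ⟪A l, f k⟫ with hM
  have h1 : ∀ k, f k = ∑ l, M k l • A l := fun k =>
    (hQf k).symm.trans (UP.expand hs hr hA hQA (f k))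
  refine ⟨M, h1, ?_⟩
  have h2 : M * M.transpose = 1 := by
    ext k k'
    rw [Matrix.mul_apply, Matrix.one_apply]
    have h3 := (orthonormal_iff_ite.1 hf) k' k
    conv_lhs at h3 => rw [h1 k]
    rw [inner_sum] at h3
    simp only [inner_smul_right] at h3
    have h4 : ∑ l, M k l * ⟪f k', A l⟫ = ∑ j, M k j * M.transpose j k' := by
      refine Finset.sum_congr rfl fun l _ => ?_
      rw [Matrix.transpose_apply, hM, Matrix.of_apply, Matrix.of_apply, real_inner_comm (A l)]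
    rw [← h4, h3]
    by_cases h : k = k'
    · rw [if_pos h, if_pos h.symm]
    · rw [if_neg h, if_neg fun h' => h h'.symm]
  have h5 := congrArg Matrix.det h2
  rw [Matrix.det_mul, Matrix.det_transpose, Matrix.det_one] at h5
  exact mul_self_eq_one_iff.1 h5

end ch

section gen
variable {E H : Type*} [NormedAddCommGroup E] [NormedSpace ℝ E] [FiniteDimensional ℝ E]
  [NormedAddCommGroup H] [InnerProductSpace ℝ H] [FiniteDimensional ℝ H]
  {X : Set E} {P : E → H →L[ℝ] H} {r d : ℕ} {b : E × H → Ext (E × H)} {oP : E → Ext H} {c : ℝ}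

theorem sum_mk {m : ℕ} (a : Fin m → ℝ) (A : Fin m → H) :
    (∑ l, a l • ((0 : E), A l)) = ((0 : E), ∑ l, a l • A l) := by
  refine Prod.ext ?_ ?_
  · rw [Prod.fst_sum]; simp
  · rw [Prod.snd_sum]; rfl

/-- the orthonormal frame `(u, e)` -/
theorem on_cons {u : H} {e : Fin r → H} (hu : ‖u‖ = 1) (h2 : ∀ i, ⟪u, e i⟫ = 0)
    (h3 : Orthonormal ℝ e) : Orthonormal ℝ (Matrix.vecCons u e) := by
  classical
  rw [orthonormal_iff_ite]
  intro i j
  refine Fin.cases ?_ (fun i => ?_) i <;> refine Fin.cases ?_ (fun j => ?_) j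
  · change ⟪u, u⟫ = _
    rw [real_inner_self_eq_norm_sq, hu]; simp
  · change ⟪u, e j⟫ = _
    rw [h2 j, if_neg]
    exact fun h => (Fin.succ_ne_zero j) h.symm
  · change ⟪e i, u⟫ = _
    rw [real_inner_comm, h2 i, if_neg]
    exact Fin.succ_ne_zero i
  · change ⟪e i, e j⟫ = _
    rw [(orthonormal_iff_ite.1 h3) i j]
    simp [Fin.succ_inj]

theorem evA_fr_pt (hX : Sub d X) (hP : PField X (r + 1) P)
    (hs : ∀ x ∈ X, ∀ v w, ⟪P x v, w⟫ = ⟪v, P x w⟫) (hb : Sm (Sph X P) b) (hc : Cl (Sph X P) b)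
    (hfr : ∀ z ∈ Sph X P, ∃ e : Fin r → H, (∀ i, P z.1 (e i) = e i) ∧ (∀ i, ⟪z.2, e i⟫ = 0) ∧
      Orthonormal ℝ e ∧ evA (E × H) r (b z) (fun i => ((0 : E), e i)) = c ∧
      0 < evA (E × H) r (oV oP z) (fun i => ((0 : E), e i))) {x : E} (hx : x ∈ X)
    {f : Fin (r + 1) → H} (hf : Orthonormal ℝ f) (hPf : ∀ i, P x (f i) = f i) {v : H}
    (hv : P x v = v) (hv0 : v ≠ 0) :
    ∃ δ : ℝ, (δ = 1 ∨ δ = -1) ∧ 0 < δ * evA H (r + 1) (oP x) f ∧
      evA (E × H) (r + 1) (F.d (rx b) (x, v)) (fun k => ((0 : E), f k)) =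
        δ * (4 * ks ‖v‖ * ‖v‖ * ((‖v‖⁻¹) ^ r * c)) := by
  have hn0 : ‖v‖ ≠ 0 := norm_ne_zero_iff.2 hv0
  have hz : ((x, v) : E × H) ∈ Tot X P := ⟨hx, hv⟩
  have hz0 : ((x, v) : E × H).2 ≠ 0 := hv0
  have hzr : rh ((x, v) : E × H) ∈ Sph X P := (smap_rh (X := X) (P := P)).maps ⟨hz, hz0⟩
  obtain ⟨e, h1, h2, h3, h4, h5⟩ := hfr _ hzr
  have h1' : ∀ i, P x (e i) = e i := h1
  have h2u : ∀ i, ⟪‖v‖⁻¹ • v, e i⟫ = 0 := h2
  have h2' : ∀ i, ⟪v, e i⟫ = 0 := fun i => by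
    have h6 := h2u i
    rw [real_inner_smul_left] at h6
    exact (mul_eq_zero.1 h6).resolve_left (inv_ne_zero hn0)
  have hPu : P x (‖v‖⁻¹ • v) = ‖v‖⁻¹ • v := by rw [map_smul, hv]
  have hun : ‖‖v‖⁻¹ • v‖ = 1 := by
    rw [norm_smul, norm_inv, norm_norm, inv_mul_cancel₀ hn0]
  have hAP : ∀ i, P x (Matrix.vecCons (‖v‖⁻¹ • v) e i) = Matrix.vecCons (‖v‖⁻¹ • v) e i := by
    intro i
    refine Fin.cases ?_ (fun i => ?_) i
    · exact hPu
    · exact h1' i
  have hAo := on_cons hun h2u h3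
  obtain ⟨M, hM1, hM2⟩ := frame_change (hs x hx) (hP.rank x hx) hAo hAP hf hPf
  refine ⟨M.det, hM2, ?_, ?_⟩
  · have e1 := evA_comb (r + 1) (oP x) _ f M hM1
    have e2 : evA H (r + 1) (oP x) (Matrix.vecCons (‖v‖⁻¹ • v) e) =
        evA (E × H) r (oV oP (rh ((x, v) : E × H))) (fun i => ((0 : E), e i)) := by
      rw [evA_ii, oV, evA_pb]
      rfl
    rw [e1, e2, ← mul_assoc]
    have h7 : 0 < M.det * M.det := by
      rcases hM2 with h | h <;> rw [h] <;> norm_num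
    exact mul_pos h7 h5
  · have e1 := evA_comb (r + 1) (F.d (rx b) (x, v))
      (Matrix.vecCons ((0 : E), ‖v‖⁻¹ • v) (fun i => ((0 : E), e i)))
      (fun k => ((0 : E), f k)) M (fun k => by
        have e2 : (Matrix.vecCons ((0 : E), ‖v‖⁻¹ • v) (fun i => ((0 : E), e i)) :
            Fin (r + 1) → E × H) = fun l => ((0 : E), Matrix.vecCons (‖v‖⁻¹ • v) e l) := by
          funext l
          refine Fin.cases ?_ (fun l => ?_) l <;> rfl
        rw [e2, sum_mk, ← hM1 k])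
    have e3 := evA_drx hX hP hb hc hz hz0 h1' h2'
    rw [h4] at e3
    rw [e1]
    exact congrArg _ e3

theorem evA_fr_gen (hX : Sub d X) (hP : PField X (r + 1) P)
    (hs : ∀ x ∈ X, ∀ v w, ⟪P x v, w⟫ = ⟪v, P x w⟫) (hb : Sm (Sph X P) b) (hc : Cl (Sph X P) b)
    (hfr : ∀ z ∈ Sph X P, ∃ e : Fin r → H, (∀ i, P z.1 (e i) = e i) ∧ (∀ i, ⟪z.2, e i⟫ = 0) ∧
      Orthonormal ℝ e ∧ evA (E × H) r (b z) (fun i => ((0 : E), e i)) = c ∧
      0 < evA (E × H) r (oV oP z) (fun i => ((0 : E), e i))) {x : E} (hx : x ∈ X)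
    {f : Fin (r + 1) → H} (hf : Orthonormal ℝ f) (hPf : ∀ i, P x (f i) = f i) :
    ∃ sg : ℝ, (sg = 1 ∨ sg = -1) ∧ ∀ v, P x v = v →
      evA (E × H) (r + 1) (F.d (rx b) (x, v)) (fun k => ((0 : E), f k)) =
        sg * (4 * ks ‖v‖ * ‖v‖ * ((‖v‖⁻¹) ^ r * c)) := by
  classical
  refine ⟨if 0 < evA H (r + 1) (oP x) f then 1 else -1, by split_ifs <;> simp, fun v hv => ?_⟩
  by_cases hv0 : v = 0
  · subst hv0
    have h2 := rx_near_zero b (z := ((x, (0 : H)) : E × H)) (by simp)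
    have h1 : F.d (rx b) (x, (0 : H)) = 0 := by
      rw [F.d_congr h2, F.d_const]
    rw [h1, map_zero]
    simp
  · obtain ⟨δ, hM, hp, he⟩ := evA_fr_pt hX hP hs hb hc hfr hx hf hPf hv hv0
    rw [he]
    congr 1
    rcases hM with h | h
    · rw [h, one_mul] at hp
      rw [h, if_pos hp]
    · rw [h] at hp
      rw [h, if_neg (by linarith)]

end gen

section C
variable {E : Type} [NormedAddCommGroup E] [NormedSpace ℝ E] [FiniteDimensional ℝ E]
  {n ι ι' : Type} [Fintype n] [DecidableEq n] [Fintype ι] [DecidableEq ι]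
  [Fintype ι'] [DecidableEq ι']
  {X : Set E} {P : E → EuclideanSpace ℝ n →L[ℝ] EuclideanSpace ℝ n} {r d : ℕ}
  {oP : E → Ext (EuclideanSpace ℝ n)} {W' : E → (ι' × Fin 2 → n) → ℝ} {R : ℝ}


theorem co_thomF [Nonempty ι'] (hX : Sub d X) (h' : OR X (fun x => 1 - P x) W') :
    VE.Co X P 3 (thomF (fun x => 1 - P x) W') :=
  ⟨csf_thomF hX h', fun z => thomF_even z⟩

/-- the integrand -/
theorem cut_val {E H : Type*} [NormedAddCommGroup E] [NormedSpace ℝ E] [FiniteDimensional ℝ E]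
    [NormedAddCommGroup H] [InnerProductSpace ℝ H] [FiniteDimensional ℝ H]
    {w : E × H → Ext (E × H)} {q : ℕ} {x : E} {v : H} {F : Fin q → E × H} {sg c : ℝ}
    (hR : 1 ≤ R) (h : evA (E × H) q (w (x, v)) F =
      sg * (4 * ks ‖v‖ * ‖v‖ * ((‖v‖⁻¹) ^ r * c))) :
    evA (E × H) q (cutH R w (x, v)) F = sg * (4 * ks ‖v‖ * ‖v‖ * ((‖v‖⁻¹) ^ r * c)) := by
  have hR0 := zero_le_one.trans hR
  have h4 : evA (E × H) q (cutH R w (x, v)) F = chi R v * evA (E × H) q (w (x, v)) F := by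
    rw [cutH, map_smul, AlternatingMap.smul_apply, smul_eq_mul]
  rw [h4, h]
  rcases le_or_gt ‖v‖ R with h5 | h5
  · rw [chi_one hR0 h5, one_mul]
  · rw [ks_big (lt_of_le_of_lt hR h5)]; ring

theorem kGG_pos [Nonempty ι'] : 0 < kGG ι' := by rw [SN.kGG_eq]; positivity

theorem int_val {k δ sg : ℝ} {l : ℕ} (hk : 0 ≤ k) (hsg : sg = 1 ∨ sg = -1) {D : ℝ} (hD : |δ| = D)
    {F : Eu (2 * l + 1) → ℝ} (hF : ∀ b, F b =
      sg * (4 * ks ‖b‖ * ‖b‖ * ((‖b‖⁻¹) ^ (2 * l) * (((2 * l)! : ℕ) : ℝ)))) (q : ℕ) :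
    |k * (δ * (-1) ^ q) * ∫ b : Eu (2 * l + 1), F b| =
      D * k * (2 * ((4 * Real.pi) ^ l * (l ! : ℝ))) := by
  simp only [hF]
  rw [integral_const_mul, int_polar]
  have hsga : |sg| = 1 := by rcases hsg with h | h <;> rw [h] <;> simp
  have h0 : (0 : ℝ) ≤ 2 * ((4 * Real.pi) ^ l * (l ! : ℝ)) := by positivity
  rw [abs_mul, abs_mul, abs_mul, abs_mul, hD, abs_pow, abs_neg, abs_one, one_pow, mul_one, hsga,
    one_mul, abs_of_nonneg hk, abs_of_nonneg h0]
  ring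

/-- **W0 at a point** -/
theorem W0_pt_gen [Nonempty ι'] {l : ℕ} {b : E × EuclideanSpace ℝ n → Ext (E × EuclideanSpace ℝ n)}
    (h' : OR X (fun x => 1 - P x) W') (hX : Sub d X) (hP : PField X (2 * l + 1) P)
    (hs : ∀ x ∈ X, ∀ v w, ⟪P x v, w⟫ = ⟪v, P x w⟫) (hb : Sm (Sph X P) b) (hc : Cl (Sph X P) b)
    (hbh : T.Hom (2 * l) b)
    (hfr : ∀ z ∈ Sph X P, ∃ e : Fin (2 * l) → EuclideanSpace ℝ n, (∀ i, P z.1 (e i) = e i) ∧
      (∀ i, ⟪z.2, e i⟫ = 0) ∧ Orthonormal ℝ e ∧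
      evA (E × EuclideanSpace ℝ n) (2 * l) (b z) (fun i => ((0 : E), e i)) =
        (((2 * l)! : ℕ) : ℝ) ∧
      0 < evA (E × EuclideanSpace ℝ n) (2 * l) (oV oP z) (fun i => ((0 : E), e i)))
    (hR : 1 ≤ R) {x : E} (hx : x ∈ X) :
    ∃ s : ℝ, |s| = LC.del (EuclideanSpace ℝ n) * kGG ι' * (2 * ((4 * Real.pi) ^ l * (l ! : ℝ))) ∧
      VE.de volume P (thomF (fun x => 1 - P x) W') R b x = algebraMap ℝ (Ext E) s := by
  have hR0 := zero_le_one.trans hR
  have hC := co_thomF hX h'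
  obtain ⟨g, f, hD⟩ := LC.exists_dat h' hP hx
  obtain ⟨sg, hsg, hv⟩ := evA_fr_gen hX hP hs hb hc hfr hx hD.adp.on'' hD.pf
  have h1 := pu_val hD hx hR0 hP hC (T.Sm.rx hb).d (T.Hom.rx hbh).d
  refine ⟨_, ?_, h1⟩
  refine int_val kGG_pos.le hsg hD.adp.abs_det (fun b' => ?_) _
  have h3 := cut_val hR (hv (LC.cmb f b') (hD.P_f b'))
  rw [LC.norm_cmb hD.adp.on''] at h3
  exact h3

theorem W0_pt [Nonempty ι] [Nonempty ι'] (h : SB.OddB ι X r P oP)
    (h' : OR X (fun x => 1 - P x) W') (hX : Sub d X) (hR : 1 ≤ R) {x : E} (hx : x ∈ X) :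
    ∃ s : ℝ, |s| = LC.del (EuclideanSpace ℝ n) * kGG ι' * (2 * XF.tau ι) ∧
      VE.de volume P (thomF (fun x => 1 - P x) W') R (eV ι h.hr P oP) x =
        algebraMap ℝ (Ext E) s := by
  obtain rfl := h.hr
  exact W0_pt_gen h' hX h.pf h.sy h.ec_eV.sm h.ec_eV.cl (SB.OddB.hom_eV h.hr)
    (fun z hz => h.exists_fr hz) hR hx

/-- **W0** -/
theorem W0 [Nonempty ι] [Nonempty ι'] (h : SB.OddB ι X r P oP)
    (h' : OR X (fun x => 1 - P x) W') (hX : Sub d X) (hXc : IsPreconnected X) (hR : 1 ≤ R) :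
    ∃ ε : ℝ, (ε = 1 ∨ ε = -1) ∧ ∀ x ∈ X,
      VE.de volume P (thomF (fun x => 1 - P x) W') R (eV ι h.hr P oP) x =
        ((ε * (LC.del (EuclideanSpace ℝ n) * kGG ι' * (2 * XF.tau ι))) •
          (1 : E → Ext E)) x := by
  have hR0 := zero_le_one.trans hR
  have hC := co_thomF hX h'
  set D := VE.de volume P (thomF (fun x => 1 - P x) W') R (eV ι h.hr P oP) with hDd
  have sD : Sm X D := VE.de_sm volume hX hR h.pf hC h.ec_eV.sm
  set c := LC.del (EuclideanSpace ℝ n) * kGG ι' * (2 * XF.tau ι) with hc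
  have hcp : 0 < c := by
    have h1 : 0 < kGG ι' := by rw [SN.kGG_eq]; positivity
    have h2 := LC.del_pos (EuclideanSpace ℝ n)
    have h3 := XF.tau_pos ι
    positivity
  have hpt : ∀ x ∈ X, |evA E 0 (D x) ![]| = c ∧
      D x = algebraMap ℝ (Ext E) (evA E 0 (D x) ![]) := by
    intro x hx
    obtain ⟨s, h1, h2⟩ := W0_pt h h' hX hR hx
    have h3 : D x = algebraMap ℝ (Ext E) s := h2
    rw [h3, evA_zero_algebraMap]
    exact ⟨h1, rfl⟩
  have hcont : ContinuousOn (fun x => evA E 0 (D x) ![]) X := by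
    intro x hx
    let Lm : Ext E →ₗ[ℝ] ℝ :=
      { toFun := fun c => evA E 0 c ![]
        map_add' := fun a b => by simp
        map_smul' := fun r a => by simp }
    exact ((LinearMap.toContinuousLinearMap Lm).continuous.continuousAt.comp
      (sD x hx).continuousAt).continuousWithinAt
  obtain ⟨ε, hε, hεp⟩ := LC.sign_const hXc hcont (fun x hx h0 => by
    have := (hpt x hx).1
    rw [h0, abs_zero] at this
    exact hcp.ne this)
  refine ⟨ε, hε, fun x hx => ?_⟩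
  obtain ⟨h1, h2⟩ := hpt x hx
  have h3 := hεp x hx
  have h4 : evA E 0 (D x) ![] = ε * c := by
    rcases hε with h | h
    · rw [h, one_mul] at h3 ⊢
      rw [← h1, abs_of_pos h3]
    · rw [h] at h3 ⊢
      have h5 : evA E 0 (D x) ![] < 0 := by linarith
      rw [← h1, abs_of_neg h5]; ring
  rw [h2, h4, Algebra.algebraMap_eq_smul_one]
  rfl

/-- the exterior derivative of an even form is odd, everywhere -/
theorem od_d {b : E → Ext E} (hb : VE.Ev b) : VE.Od (F.d b) := by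
  intro x
  by_cases hd : DifferentiableAt ℝ b x
  · have h1 := d_inv hd
    have h2 : (fun y => F.inv (b y)) = b := funext hb
    rw [h2] at h1
    rw [eq_comm, neg_eq_iff_eq_neg]
    exact h1
  · rw [F.d, fderiv_zero_of_not_differentiableAt hd]
    simp

theorem ev_rx {b : E × EuclideanSpace ℝ n → Ext (E × EuclideanSpace ℝ n)} (hb : VE.Ev b) :
    VE.Ev (rx b) := by
  intro z
  rw [rx, map_smul, F.pull, ← pb_inv, hb]

/-- the positive number `|w₀|` -/
def w0 (n ι ι' : Type) [Fintype n] [Fintype ι] [Fintype ι'] : ℝ :=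
  LC.del (EuclideanSpace ℝ n) * kGG ι' * (2 * XF.tau ι)

theorem w0_pos [Nonempty ι'] : 0 < w0 n ι ι' := by
  have h1 : 0 < kGG ι' := by rw [SN.kGG_eq]; positivity
  have h2 := LC.del_pos (EuclideanSpace ℝ n)
  have h3 := XF.tau_pos ι
  rw [w0]
  positivity

/-- **W0 and the Thom data**: one constant for `de (eV)` and `pu (d (rx eV))`, every radius -/
theorem th1 [Nonempty ι] [Nonempty ι'] (h : SB.OddB ι X r P oP)
    (h' : OR X (fun x => 1 - P x) W') (hX : Sub d X) (hXc : IsPreconnected X) (hR : 1 ≤ R) :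
    ∃ w₀ : ℝ, |w₀| = w0 n ι ι' ∧ w₀ ≠ 0 ∧
      Coh X (VE.de volume P (thomF (fun x => 1 - P x) W') R (eV ι h.hr P oP))
        (w₀ • (1 : E → Ext E)) ∧
      VE.Th1 volume X P (thomF (fun x => 1 - P x) W') R w₀ (F.d (rx (eV ι h.hr P oP))) := by
  obtain ⟨ε, hε, h1⟩ := W0 h h' hX hXc hR
  have hw := w0_pos (n := n) (ι := ι) (ι' := ι')
  have hc : Coh X (VE.de volume P (thomF (fun x => 1 - P x) W') R (eV ι h.hr P oP))
      ((ε * w0 n ι ι') • (1 : E → Ext E)) := Coh.of_eqv (Eqv.of_eq h1)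
  have hne : ε * w0 n ι ι' ≠ 0 := by
    rcases hε with h | h <;> rw [h] <;> simp [hw.ne']
  refine ⟨ε * w0 n ι ι', ?_, hne, hc, ?_⟩
  · rcases hε with h | h <;> rw [h] <;> simp [abs_of_pos hw]
  · exact ⟨(T.Sm.rx h.ec_eV.sm).d, d_d' (T.Sm.rx h.ec_eV.sm),
      (VE.cs_drx h.ec_eV.sm h.ec_eV.cl).mono hR, od_d (ev_rx h.ec_eV.inv), hc, hne⟩

end C

end Crest.Agent.R208.VD
end
end

-- ▼ part R208/VEd589d

/-! Row 208, block VD (helper589).  VEd589d: one constant `w₀` for every radius; the instance for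
descended oriented fields of odd rank (`TP.DscO`). -/

set_option autoImplicit false
set_option linter.unusedSectionVars false
set_option linter.unusedVariables false

open MeasureTheory Set Filter Topology Module
open scoped ContDiff RealInnerProductSpace
open Crest.Agent.R208.F Crest.Agent.R208.FI Crest.Agent.R208.CW Crest.Agent.R208.T
open Crest.Agent.R208.CM
open Crest.Agent.R208.SB.OddB (eV)

noncomputable section

namespace Crest.Agent.R208.VD

section all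
variable {E : Type} [NormedAddCommGroup E] [NormedSpace ℝ E] [FiniteDimensional ℝ E]
  {n ι ι' : Type} [Fintype n] [DecidableEq n] [Fintype ι] [DecidableEq ι]
  [Fintype ι'] [DecidableEq ι']
  {X : Set E} {P : E → EuclideanSpace ℝ n →L[ℝ] EuclideanSpace ℝ n} {r d : ℕ}
  {oP : E → Ext (EuclideanSpace ℝ n)} {W' : E → (ι' × Fin 2 → n) → ℝ} {R : ℝ}

/-- **W0 and the Thom data, with one constant for all radii** -/
theorem th1_all [Nonempty ι] [Nonempty ι'] (h : SB.OddB ι X r P oP)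
    (h' : OR X (fun x => 1 - P x) W') (hX : Sub d X) (hXc : IsPreconnected X) :
    ∃ w₀ : ℝ, |w₀| = w0 n ι ι' ∧ w₀ ≠ 0 ∧ ∀ R : ℝ, 1 ≤ R →
      Coh X (VE.de volume P (thomF (fun x => 1 - P x) W') R (eV ι h.hr P oP))
        (w₀ • (1 : E → Ext E)) ∧
      VE.Th1 volume X P (thomF (fun x => 1 - P x) W') R w₀ (F.d (rx (eV ι h.hr P oP))) := by
  obtain ⟨w₀, h1, h2, h3, h4⟩ := th1 h h' hX hXc le_rfl
  refine ⟨w₀, h1, h2, fun R hR => ?_⟩
  have e1 : Eqv X (VE.de volume P (thomF (fun x => 1 - P x) W') 1 (eV ι h.hr P oP))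
      (VE.de volume P (thomF (fun x => 1 - P x) W') R (eV ι h.hr P oP)) :=
    VE.pu_radius volume zero_le_one h.pf (co_thomF hX h') hR h4.sm h4.cs
  have h5 := (Coh.of_eqv e1.symm).trans h3
  exact ⟨h5, ⟨h4.sm, h4.cl, h4.cs.mono hR, h4.od, h5, h2⟩⟩

end all

section dsc
variable {E : Type} [NormedAddCommGroup E] [NormedSpace ℝ E] [FiniteDimensional ℝ E]
  {W : Type} [NormedAddCommGroup W] [InnerProductSpace ℝ W] [FiniteDimensional ℝ W]
  {X : Set E} {φ : ℝ → E → E} {m s c s' d : ℕ} {g : E → Fin m → ℂ} {R : ℝ → W →L[ℝ] W}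
  {P : E → W →L[ℝ] W} {T : E → W →L[ℝ] EuclideanSpace ℝ (Fin (2 * c + 1))}
  {P' : MM m → EuclideanSpace ℝ (Fin (2 * c + 1)) →L[ℝ] EuclideanSpace ℝ (Fin (2 * c + 1))}
  {o' : MM m → Ext (EuclideanSpace ℝ (Fin (2 * c + 1)))}
  {W' : MM m → (Fin (s' + 1) × Fin 2 → Fin (2 * c + 1)) → ℝ}

theorem hr_fin (s : ℕ) : 2 * s = 2 * Fintype.card (Fin s) := by rw [Fintype.card_fin]

/-- the descended field as `OddB` -/
theorem oddB (h : TP.DscO X φ g R s P c s' T P' o' W') :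
    SB.OddB (Fin s) (Quo X g) (2 * s) P' o' := ⟨h.pf, h.sy, h.opr, hr_fin s⟩

/-- **W0 and the Thom data for descended fields** -/
theorem dsc_th1 (hs : 0 < s) (h : TP.DscO X φ g R s P c s' T P' o' W') (hY : Sub d (Quo X g))
    (hYc : IsPreconnected (Quo X g)) :
    ∃ w₀ : ℝ, |w₀| = w0 (Fin (2 * c + 1)) (Fin s) (Fin (s' + 1)) ∧ w₀ ≠ 0 ∧ ∀ R' : ℝ, 1 ≤ R' →
      Coh (Quo X g) (VE.de volume P' (thomF (fun y => 1 - P' y) W') R'
        (eV (Fin s) (hr_fin s) P' o')) (w₀ • (1 : MM m → Ext (MM m))) ∧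
      VE.Th1 volume (Quo X g) P' (thomF (fun y => 1 - P' y) W') R' w₀
        (F.d (rx (eV (Fin s) (hr_fin s) P' o'))) := by
  have : Nonempty (Fin s) := ⟨⟨0, hs⟩⟩
  exact th1_all (oddB h) h.or hY hYc

/-- the input `hT1` of `EX.exists_ED` -/
theorem dsc_hT1 (hs : 0 < s) (h : TP.DscO X φ g R s P c s' T P' o' W') (hY : Sub d (Quo X g))
    (hYc : IsPreconnected (Quo X g)) :
    ∃ (c₀ : ℝ) (τ : _), VE.Th1 (volume : Measure (EuclideanSpace ℝ (Fin (2 * c + 1))))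
      (Quo X g) P' (thomF (fun y => 1 - P' y) W') (3 / 2) c₀ τ := by
  obtain ⟨w₀, -, -, h3⟩ := dsc_th1 hs h hY hYc
  exact ⟨w₀, _, (h3 (3 / 2) (by norm_num)).2⟩

end dsc

end Crest.Agent.R208.VD
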