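import Crest.Agent.R208.ZA3
import Crest.Agent.R208.CG10
import Crest.Agent.R208.VE7
import Crest.Agent.R208.EX7
import Crest.Agent.R208.CBN1
import Crest.Agent.R208.KP6_Mg
import Crest.Agent.R208.KX8
import Crest.Agent.R208.TP6
import Crest.Agent.R208.EA3
import Crest.Agent.R208.T2b
import Crest.Agent.R208.VE3
import Crest.Agent.R208.RR0
import Crest.Agent.R208.SB1
import Crest.Agent.R208.SN8
import Crest.Agent.R208.HN2
import Crest.Agent.R208.CG1
import Crest.Agent.R208.ZH2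
import Crest.Agent.R208.VEd589d_Mg
import Crest.Agent.R208.GQ4a

-- ▼ part R208/CG11
section

/-! Row 208, block RR, piece (CG) (helper99), part CG11: **(L7)** the fibre value of the family
`Af`; the ray integral of `xi (f1^* om)`. -/

set_option autoImplicit false
set_option linter.unusedSectionVars false
set_option linter.unusedVariables false

open MeasureTheory Set Filter Topology Module
open scoped ContDiff RealInnerProductSpace
open Crest.GeometryTopology.Submanifold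
open Crest.Agent.R241.DDefs
open Crest.Agent.R241.D2
open Crest.Agent.R208.GT
open Crest.Agent.R208.F Crest.Agent.R208.FI Crest.Agent.R208.CW Crest.Agent.R208.T
open Crest.Agent.R208.RR Crest.Agent.R208.FL Crest.Agent.R208.NN Crest.Agent.R208.NB

noncomputable section

namespace Crest.Agent.R208.CG

open Crest.Agent.R208.KC (flp flp_mem flp_flp Ph_flp)
open Crest.Agent.R208.SB (OPr oV)

variable {n N K k : ℕ} {κ : ℝ} {S : Set (Euc N)} {G : Geo n N κ S} {lg : Euc N → Euc N → Euc N}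
  {ρ : Euc N → Euc N} {r C r' Kr B w δ : ℝ} {PN : Euc N × Euc N → Wt N K →L[ℝ] Wt N K}
  {ε E₀ η : ℝ} {J₀ : ℕ} {om : Euc N → Ext (Euc N)} {z : Euc N × Euc N}

/-- the ray map -/
def rs (y : ((Euc N × Euc N) × Wt N K) × ℝ) : (Euc N × Euc N) × Wt N K := FL.sc y.2 y.1

theorem smap_rs : SMap (Cyl (T.Sph (L.US G) PN)) (FI.Tot (L.US G) PN) (rs (N := N) (K := K)) := by
  refine ⟨fun y _ => ?_, fun y hy => sc_mem (mem_Cyl.1 hy).1⟩
  have h2 : ContDiff ℝ ∞ (fun p : ((Euc N × Euc N) × Wt N K) × ℝ => p.1.1) := by fun_prop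
  have h3 : ContDiff ℝ ∞ (fun p : ((Euc N × Euc N) × Wt N K) × ℝ => p.1.2) := by fun_prop
  exact (h2.prodMk ((contDiff_gs.comp contDiff_snd).smul h3)).contDiffAt

theorem smap_f1 (h : D1 G k K lg ρ r C r' Kr B w δ PN ε J₀ E₀ η) :
    SMap (FI.Tot (L.US G) PN) S (f1 G lg ρ w J₀ ε) := ⟨h.fam.smooth, h.fam.maps⟩

/-- **the ray integral of `xi`**: `2π ∫_ray ξ ~ -(Wp (K (Af^* om)))` -/
theorem ray_xi (h : D1 G k K lg ρ r C r' Kr B w δ PN ε J₀ E₀ η) (so : Sm S om) :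
    Eqv (T.Sph (L.US G) PN)
      ((2 * Real.pi) • RR.K (E := (Euc N × Euc N) × Wt N K)
        (F.pull (rs (N := N) (K := K)) (VC.xi (Ph G K) (F.pull (f1 G lg ρ w J₀ ε) om))))
      (-(Wp (Ph G K) (RR.K (E := (Euc N × Euc N) × Wt N K) (F.pull (Af G lg ρ w J₀ ε) om)))) := by
  have sf : Sm (FI.Tot (L.US G) PN) (F.pull (f1 G lg ρ w J₀ ε) om) := so.pull (smap_f1 h)
  have h1 := K_sc_xi (cir_Sph h.toD0) h.cir (smap_rs (G := G) (PN := PN))
    (fun x hx t s => (Ph_sc s t x).symm) sf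
  refine h1.trans (Eqv.neg ?_)
  have e1 : Eqv (Cyl (T.Sph (L.US G) PN))
      (F.pull (rs (N := N) (K := K)) (F.pull (f1 G lg ρ w J₀ ε) om))
      (F.pull (Af G lg ρ w J₀ ε) om) := eqv_pull_pull smap_rs (smap_f1 h) (smap_Af h)
        (fun _ _ => rfl) om
  have e2 := K_eqv (E := (Euc N × Euc N) × Wt N K) (sf.pull smap_rs) (so.pull (smap_Af h)) e1
  exact Wp_eqv (cir_Sph h.toD0) (Sm.K (sf.pull smap_rs)) (Sm.K (so.pull (smap_Af h))) e2

/-- the flipped family -/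
theorem flip_Af (h : D1 G k K lg ρ r C r' Kr B w δ PN ε J₀ E₀ η) (so : Sm S om) :
    Eqv (T.Sph (L.US G) PN)
      (F.pull flp (Wp (Ph G K) (RR.K (E := (Euc N × Euc N) × Wt N K)
        (F.pull (Af G lg ρ w J₀ ε) om))))
      (Wp (Ph G K) (RR.K (E := (Euc N × Euc N) × Wt N K)
        (F.pull (fun y => Af G lg ρ w J₀ ε (flp y.1, y.2)) om))) := by
  have hφ := cir_Sph h.toD0
  have hA := smap_Af h
  have hf : SMap (T.Sph (L.US G) PN) (T.Sph (L.US G) PN) (flp (N := N) (K := K)) := smap_flp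
  have hff := KP.smap_ff hf
  have hB : SMap (Cyl (T.Sph (L.US G) PN)) S
      (fun y : ((Euc N × Euc N) × Wt N K) × ℝ => Af G lg ρ w J₀ ε (flp y.1, y.2)) :=
    hA.comp hff
  have sA : Sm (Cyl (T.Sph (L.US G) PN)) (F.pull (Af G lg ρ w J₀ ε) om) := so.pull hA
  refine (KP.wp_flip hφ hf (fun x hx t => (Ph_flp t x).symm) (Sm.K sA)).trans ?_
  have e1 := KP.k_flip hf sA
  have e2 : Eqv (Cyl (T.Sph (L.US G) PN)) (F.pull (KP.ff flp) (F.pull (Af G lg ρ w J₀ ε) om))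
      (F.pull (fun y : ((Euc N × Euc N) × Wt N K) × ℝ => Af G lg ρ w J₀ ε (flp y.1, y.2)) om) :=
    eqv_pull_pull hff hA hB (fun _ _ => rfl) om
  have e3 := K_eqv (E := (Euc N × Euc N) × Wt N K) (sA.pull hff) (so.pull hB) e2
  exact Wp_eqv hφ ((Sm.K sA).pull hf) (Sm.K (so.pull hB)) (e1.trans e3)

/-- **(L7), orientation `oV oN`, any even `k`**: twice the fibre integral of the family is the
fibre integral of the rotation -/
theorem two_J (h : D1 G k K lg ρ r C r' Kr B w δ PN ε J₀ E₀ η) (hk : Even k) (h2 : 2 ≤ k)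
    (hkn : k < n) (so : Sm S om) (co : Cl S om) (hz : z ∈ L.US G)
    {oF : (Euc N × Euc N) × Wt N K → Ext ((Euc N × Euc N) × Wt N K)}
    (hF : Ori (k - 2) (T.Sph (L.US G) PN ∩ (Prod.fst : (Euc N × Euc N) × Wt N K → Euc N × Euc N) ⁻¹' {z}) oF)
    (hflip : ∀ β, Sm (T.Sph (L.US G) PN) β →
      FI.J (k - 2) (T.Sph (L.US G) PN ∩ Prod.fst ⁻¹' {z}) oF (F.pull flp β) =
        - FI.J (k - 2) (T.Sph (L.US G) PN ∩ Prod.fst ⁻¹' {z}) oF β) :
    2 * FI.J (k - 2) (T.Sph (L.US G) PN ∩ Prod.fst ⁻¹' {z}) oF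
        (Wp (Ph G K) (RR.K (E := (Euc N × Euc N) × Wt N K) (F.pull (Af G lg ρ w J₀ ε) om))) =
      - FI.J (k - 2) (T.Sph (L.US G) PN ∩ Prod.fst ⁻¹' {z}) oF
        (Wp (FM.phiF h.bla PN) (F.pull (Prod.fst : (Euc N × Euc N) × Wt N K → Euc N × Euc N)
          (RR.K (F.pull (RRC.EE G) om)))) := by
  have hP : PField (L.US G) (k - 2 + 1) PN := by
    have := UP.pfield_N h.neg
    rwa [show k - 1 = k - 2 + 1 by omega] at this
  have hφ := cir_Sph h.toD0
  have hφ' : CM.Cir (T.Sph (L.US G) PN) (FM.phiF h.bla PN) := FM.cir_phiF h.bla h.neg hkn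
  have c := HN.clo_fib hP hz
  have hA := smap_Af h
  have hff := KP.smap_ff (smap_flp (G := G) (PN := PN))
  have hB : SMap (Cyl (T.Sph (L.US G) PN)) S
      (fun y : ((Euc N × Euc N) × Wt N K) × ℝ => Af G lg ρ w J₀ ε (flp y.1, y.2)) :=
    hA.comp hff
  set Z := T.Sph (L.US G) PN with hZ
  set a := Wp (Ph G K) (RR.K (E := (Euc N × Euc N) × Wt N K) (F.pull (Af G lg ρ w J₀ ε) om)) with ha
  set b := Wp (Ph G K) (RR.K (E := (Euc N × Euc N) × Wt N K)
    (F.pull (fun y => Af G lg ρ w J₀ ε (flp y.1, y.2)) om)) with hb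
  set cc := Wp (FM.phiF h.bla PN) (F.pull (Prod.fst : (Euc N × Euc N) × Wt N K → Euc N × Euc N)
    (RR.K (F.pull (RRC.EE G) om))) with hcc
  have sa : Sm Z a := Sm.Wp hφ (Sm.K (so.pull hA))
  have sb : Sm Z b := Sm.Wp hφ (Sm.K (so.pull hB))
  have sc : Sm Z cc := Sm.Wp hφ' ((Sm.K (so.pull smap_EE)).pull smap_fst_Sph)
  have hsub : Z ∩ (Prod.fst : (Euc N × Euc N) × Wt N K → Euc N × Euc N) ⁻¹' {z} ⊆ Z :=
    inter_subset_left
  have main := (inst h hkn so co).mono hsub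
  have h1 := RI.J_coh c hF (fun x hx => (sa.sub sb) x hx.1) (fun x hx => sc.neg x hx.1) main
  have h3 : FI.J (k - 2) (Z ∩ Prod.fst ⁻¹' {z}) oF (F.pull flp a) =
      FI.J (k - 2) (Z ∩ Prod.fst ⁻¹' {z}) oF b :=
    J_eqv c (Eqv.mono_tan hsub (flip_Af h so))
  have h4 : FI.J (k - 2) (Z ∩ Prod.fst ⁻¹' {z}) oF (a - b) =
      FI.J (k - 2) (Z ∩ Prod.fst ⁻¹' {z}) oF a - FI.J (k - 2) (Z ∩ Prod.fst ⁻¹' {z}) oF b :=
    J_sub' c hF (fun x hx => sa x hx.1) fun x hx => sb x hx.1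
  have h5 : FI.J (k - 2) (Z ∩ Prod.fst ⁻¹' {z}) oF (-cc) =
      -FI.J (k - 2) (Z ∩ Prod.fst ⁻¹' {z}) oF cc := AF.J_neg'
  rw [h4, ← h3, hflip a sa, h5] at h1
  linarith


/-- the flip hypothesis for any orientation, `4 ≤ k` -/
theorem flip_any (h : D1 G k K lg ρ r C r' Kr B w δ PN ε J₀ E₀ η) (hk : Even k) (h4 : 4 ≤ k)
    (hkn : k < n) (hz : z ∈ L.US G)
    {oF β : (Euc N × Euc N) × Wt N K → Ext ((Euc N × Euc N) × Wt N K)}
    (hF : Ori (k - 2) (T.Sph (L.US G) PN ∩ (Prod.fst : (Euc N × Euc N) × Wt N K → Euc N × Euc N) ⁻¹' {z}) oF)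
    (hβ : Sm (T.Sph (L.US G) PN) β) :
    FI.J (k - 2) (T.Sph (L.US G) PN ∩ Prod.fst ⁻¹' {z}) oF (F.pull flp β) =
      - FI.J (k - 2) (T.Sph (L.US G) PN ∩ Prod.fst ⁻¹' {z}) oF β := by
  have hP : PField (L.US G) (k - 2 + 1) PN := by
    have := UP.pfield_N h.neg
    rwa [show k - 1 = k - 2 + 1 by omega] at this
  obtain ⟨oN, hN⟩ := SB.exists_opr_N h.bla (by omega : 2 ≤ k) hkn h.neg
  have hN' : OPr (L.US G) (k - 2 + 1) PN oN := by rwa [show k - 2 + 1 = k - 1 by omega]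
  have he : Even (k - 2) := by
    rw [Nat.even_sub (by omega : 2 ≤ k)]
    exact ⟨fun _ => even_two, fun _ => hk⟩
  exact J_fl'_any hP hN' he (by omega) hz hF hβ

/-- **(L7)**: the fibre integral of the family, for any orientations (`k` even, `4 ≤ k`); `hC` is
(C) of helper316 -/
theorem L7_of (h : D1 G k K lg ρ r C r' Kr B w δ PN ε J₀ E₀ η) (hk : Even k) (h4 : 4 ≤ k)
    (hkn : k < n) (so : Sm S om) (co : Cl S om) (hz : z ∈ L.US G)
    {oF : (Euc N × Euc N) × Wt N K → Ext ((Euc N × Euc N) × Wt N K)}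
    (hF : Ori (k - 2) (T.Sph (L.US G) PN ∩ (Prod.fst : (Euc N × Euc N) × Wt N K → Euc N × Euc N) ⁻¹' {z}) oF)
    {t : ℝ} (hC : |FI.J (k - 2) (T.Sph (L.US G) PN ∩ Prod.fst ⁻¹' {z}) oF
        (Wp (FM.phiF h.bla PN) (F.pull (Prod.fst : (Euc N × Euc N) × Wt N K → Euc N × Euc N)
          (RR.K (F.pull (RRC.EE G) om))))| = 2 * t) :
    |FI.J (k - 2) (T.Sph (L.US G) PN ∩ Prod.fst ⁻¹' {z}) oF
      (Wp (Ph G K) (RR.K (E := (Euc N × Euc N) × Wt N K) (F.pull (Af G lg ρ w J₀ ε) om)))| = t := by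
  have h1 := two_J h hk (by omega) hkn so co hz hF fun β hβ => flip_any h hk h4 hkn hz hF hβ
  have h2 := congrArg abs h1
  rw [abs_neg, hC, abs_mul, abs_two] at h2
  linarith

/-- the ray integral of `xi`: its fibre integral -/
theorem L7_xi (h : D1 G k K lg ρ r C r' Kr B w δ PN ε J₀ E₀ η) (hk : Even k) (h4 : 4 ≤ k)
    (hkn : k < n) (so : Sm S om) (co : Cl S om) (hz : z ∈ L.US G)
    {oF : (Euc N × Euc N) × Wt N K → Ext ((Euc N × Euc N) × Wt N K)}
    (hF : Ori (k - 2) (T.Sph (L.US G) PN ∩ (Prod.fst : (Euc N × Euc N) × Wt N K → Euc N × Euc N) ⁻¹' {z}) oF)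
    {t : ℝ} (hC : |FI.J (k - 2) (T.Sph (L.US G) PN ∩ Prod.fst ⁻¹' {z}) oF
        (Wp (FM.phiF h.bla PN) (F.pull (Prod.fst : (Euc N × Euc N) × Wt N K → Euc N × Euc N)
          (RR.K (F.pull (RRC.EE G) om))))| = 2 * t) :
    2 * Real.pi * |FI.J (k - 2) (T.Sph (L.US G) PN ∩ Prod.fst ⁻¹' {z}) oF
      (RR.K (E := (Euc N × Euc N) × Wt N K)
        (F.pull (rs (N := N) (K := K)) (VC.xi (Ph G K) (F.pull (f1 G lg ρ w J₀ ε) om))))| = t := by
  have hP : PField (L.US G) (k - 2 + 1) PN := by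
    have := UP.pfield_N h.neg
    rwa [show k - 1 = k - 2 + 1 by omega] at this
  have c := HN.clo_fib hP hz
  have h1 := J_eqv c (o := oF) (Eqv.mono_tan (inter_subset_left :
    T.Sph (L.US G) PN ∩ (Prod.fst : (Euc N × Euc N) × Wt N K → Euc N × Euc N) ⁻¹' {z} ⊆ _)
    (ray_xi h so))
  have h2 : ∀ a : (Euc N × Euc N) × Wt N K → Ext ((Euc N × Euc N) × Wt N K),
      FI.J (k - 2) (T.Sph (L.US G) PN ∩ (Prod.fst : (Euc N × Euc N) × Wt N K → Euc N × Euc N) ⁻¹' {z})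
        oF (-a) = -FI.J (k - 2) (T.Sph (L.US G) PN ∩ (Prod.fst : (Euc N × Euc N) × Wt N K →
          Euc N × Euc N) ⁻¹' {z}) oF a := fun a => AF.J_neg'
  rw [h2, J_smul'] at h1
  have h3 := congrArg abs h1
  rw [abs_neg, L7_of h hk h4 hkn so co hz hF hC, abs_mul, abs_of_pos (by positivity)] at h3
  exact h3

end Crest.Agent.R208.CG
end
end

-- ▼ part R208/VE8
section

/-! Row 208, block VE (helper812).  VE8: the horizontal form `aH = Av b - θ ξ` and the forms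
`ξ`, `ι YY` upstairs. -/

set_option autoImplicit false
set_option linter.unusedSectionVars false
set_option linter.unusedVariables false

open MeasureTheory Set Filter Topology Module
open scoped ContDiff
open Crest.Agent.R208.F Crest.Agent.R208.FI Crest.Agent.R208.CW Crest.Agent.R208.T
open Crest.Agent.R208.CM (Cir gen)
open Crest.Agent.R208.VC
open Crest.Agent.R208.EX (Cn)

noncomputable section

namespace Crest.Agent.R208.VE

universe u v

section up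
variable {E : Type u} [NormedAddCommGroup E] [NormedSpace ℝ E] [FiniteDimensional ℝ E]
  {F' : Type v} [NormedAddCommGroup F'] [NormedSpace ℝ F'] [FiniteDimensional ℝ F']
  {m : ℕ} {X : Set E} {φ : ℝ → E → E} {a b θ e : E → Ext E} {x : E} {p q : ℕ} {l r s : ℝ}

/-- horizontal part of the average -/
def aH (φ : ℝ → E → E) (θ b : E → Ext E) : E → Ext E := Av φ b - θ * xi φ b

theorem sm_aH (h : Act X φ) (hθ : Cn X φ θ) (hb : Sm X b) : Sm X (aH φ θ b) :=
  (sm_Av h hb).sub (hθ.sm.mul (sm_xi h hb))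

theorem inv_aH (h : Act X φ) (hθ : Cn X φ θ) (hb : Sm X b) : Inv X φ (aH φ θ b) :=
  (inv_Av h hb).sub (hθ.inv.mul (inv_xi h hb))

theorem th_odd (hθ : Cn X φ θ) (x : E) : F.inv (θ x) = - θ x := EX.inv_of_hom1 hθ.hom x

theorem ev_aH (h : Act X φ) (hθ : Cn X φ θ) (hb : Sm X b) (he : ∀ x ∈ X, F.inv (b x) = b x)
    (hx : x ∈ X) : F.inv (aH φ θ b x) = aH φ θ b x := by
  have h1 := Av_even h hb he hx
  have h2 := xi_odd h hb he hx
  change F.inv (Av φ b x - θ x * xi φ b x) = Av φ b x - θ x * xi φ b x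
  rw [map_sub, map_mul, h1, h2, th_odd hθ x, neg_mul_neg]

theorem hz_aH (h : Act X φ) (hθ : Cn X φ θ) (hb : Sm X b) (he : ∀ x ∈ X, F.inv (b x) = b x) :
    Hz X φ (aH φ θ b) := by
  refine Eqv.of_eq fun x hx => ?_
  change ii (gen φ x) (Av φ b x - θ x * xi φ b x) = 0
  have h1 : ii (gen φ x) (Av φ b x) = xi φ b x := rfl
  have h2 : ii (gen φ x) (xi φ b x) = 0 := ii_ii _ _
  rw [map_sub, ii_mul, hθ.unit x hx, one_mul, h1, h2, mul_zero, add_zero, sub_self]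

theorem d_aH (h : Act X φ) (hX : Sub m X) (hθ : Cn X φ θ) (hb : Sm X b) (hc : Cl X b) :
    Eqv X (F.d (aH φ θ b)) (-(F.d θ * xi φ b)) := by
  refine (d_sub_eqv (sm_Av h hb) (hθ.sm.mul (sm_xi h hb))).trans ?_
  have h1 : Eqv X (F.d (Av φ b)) 0 := resZero_iff.1 (cl_Av h hX hb hc)
  have h2 : Eqv X (F.d (θ * xi φ b)) (F.d θ * xi φ b) := d_mul_cl hθ.sm (sm_xi h hb)
    (cl_xi h hX hb hc)
  have := h1.sub h2
  rwa [zero_sub] at this

theorem aH_mul_xi (h : Act X φ) (hθ : Cn X φ θ) (hb : Sm X b) (he : ∀ x ∈ X, F.inv (b x) = b x)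
    (hx : x ∈ X) : aH φ θ b x * xi φ b x = Av φ b x * xi φ b x := by
  change (Av φ b x - θ x * xi φ b x) * xi φ b x = _
  rw [sub_mul, mul_assoc, xi_sq h hb he hx, mul_zero, sub_zero]

/-- the form `ι YY` -/
def Qf (φ : ℝ → E → E) (b : E → Ext E) : E → Ext E := iV φ (YY φ b)

theorem sm_Qf (h : Act X φ) (hb : Sm X b) : Sm X (Qf φ b) := sm_iYY h hb
theorem inv_Qf (h : Act X φ) (hb : Sm X b) : Inv X φ (Qf φ b) := Inv.iV h (inv_YY h hb)
theorem hz_Qf (φ : ℝ → E → E) (b : E → Ext E) : Hz X φ (Qf φ b) := hz_iV φ _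

theorem d_Qf (h : Act X φ) (hX : Sub m X) (hθ : Cn X φ θ) (hb : Dat X b) :
    Eqv X (F.d (Qf φ b)) (-((3 : ℝ) • (aH φ θ b * aH φ θ b * xi φ b))) := by
  refine (d_iYY h hX hb.sm hb.cl hb.ev hb.cube).trans (Eqv.of_eq fun x hx => ?_)
  have h1 := aH_mul_xi h hθ hb.sm hb.ev hx
  have h2 := ev_aH h hθ hb.sm hb.ev hx
  have h3 := Av_even h hb.sm hb.ev hx
  change -((3 : ℝ) • (Av φ b x * Av φ b x * xi φ b x)) =
    -((3 : ℝ) • (aH φ θ b x * aH φ θ b x * xi φ b x))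
  have h4 : aH φ θ b x * aH φ θ b x * xi φ b x = Av φ b x * Av φ b x * xi φ b x := by
    rw [mul_assoc (aH φ θ b x), h1, ← mul_assoc (aH φ θ b x), even_comm h2 (Av φ b x),
      mul_assoc (Av φ b x), h1, mul_assoc]
  rw [h4]

/-- vanishing of `ι YY` at the points with constant orbit loops -/
theorem rs_Qf_eq_zero (h : Act X φ) (hb : Sm X b) (he : ∀ x ∈ X, F.inv (b x) = b x) (hx : x ∈ X)
    (h0 : ∀ s, ii (tg h hx) (cv X φ b x s) = 0) : rsL X x (Qf φ b x) = 0 := by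
  have h1 : ii (tg h hx) (MM (cv X φ b x)) = 0 := by
    rw [← rs_xi h hb hx]; exact rs_xi_eq_zero h hb hx h0
  rw [Qf, rs_iYY h hb he hx]
  simp [h0, h1]

/-- the general form -/
def vl (φ : ℝ → E → E) (e : E → Ext E) (p q : ℕ) (l r s : ℝ) (b : E → Ext E) : E → Ext E :=
  l • psi φ b - r • (e ^ p * xi φ b) - s • (e ^ q * (Av φ b * xi φ b))

theorem vl_one : vl φ e p q 1 r s b = vv φ e p q r s b := by rw [vl, vv, one_smul]

theorem vl_two (h : Act X φ) (hb : Dat X b) :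
    Eqv X (vv (dbl φ) ((1 / 2 : ℝ) • e) p q r s b)
      (vl φ e p q 4 (r * 2 * (1 / 2) ^ p) (s * 2 * (1 / 2) ^ q) b) := vv_dbl h hb

theorem vl_eqv (h : Act X φ) (hθ : Cn X φ θ) (hb : Dat X b) :
    Eqv X (vl φ e p q l r s b) (l • (xi φ b * Qf φ b) - r • (e ^ p * xi φ b) -
      s • (e ^ q * (aH φ θ b * xi φ b))) := by
  refine Eqv.of_eq fun x hx => ?_
  have h1 := aH_mul_xi h hθ hb.sm hb.ev hx
  change l • (xi φ b x * Qf φ b x) - r • ((e ^ p) x * xi φ b x) -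
    s • ((e ^ q) x * (Av φ b x * xi φ b x)) = l • (xi φ b x * Qf φ b x) -
    r • ((e ^ p) x * xi φ b x) - s • ((e ^ q) x * (aH φ θ b x * xi φ b x))
  rw [h1]

/-- at the points with constant orbit loops the average is the form itself -/
theorem rs_aH_const {f : E → F'} {om : F' → Ext F'} {U : Set E} (hU : IsOpen U) (h : Act X φ)
    (hθ : Cn X φ θ) (hf : ∀ x ∈ X, DifferentiableAt ℝ f x) (hb : Sm X (F.pull f om))
    (hc : ∀ x ∈ X ∩ U, ∀ t, f (φ t x) = f x) (hx : x ∈ X ∩ U) :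
    rsL X x (aH φ θ (F.pull f om) x) = rsL X x (F.pull f om x) := by
  have h0 : ∀ s, ii (tg h hx.1) (cv X φ (F.pull f om) x s) = 0 :=
    ii_cv_pull h hx.1 (fun t => hf _ (h.maps t hx.1)) (hc x hx)
  have h1 := rs_xi_eq_zero h hb hx.1 h0
  have h2 : ∀ s, cv X φ (F.pull f om) x s = rsL X x (F.pull f om x) := by
    intro s
    rw [cv, Wn_eq h hx.1]
    have e1 : F.pull (φ (2 * Real.pi * s)) (F.pull f om) x =
        F.pull (fun z => f (φ (2 * Real.pi * s) z)) om x :=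
      F.pull_comp ((smap h _).diff hx.1) (hf _ (h.maps _ hx.1))
    rw [e1, rsL_apply, rsL_apply]
    have e3 : Eqv (X ∩ U) (F.pull (fun z => f (φ (2 * Real.pi * s) z)) om) (F.pull f om) :=
      eqv_pull_of_eq om (fun z hz => (hf _ (h.maps _ hz.1)).comp z ((smap h _).diff hz.1))
        (fun z hz => hf z hz.1) fun z hz => hc z hz _
    have e4 := T.eqv_of_open hU e3 hx.1 hx.2
    exact e4
  have h3 : rsL X x (Av φ (F.pull f om) x) = rsL X x (F.pull f om x) := by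
    rw [rs_Av h hb hx.1, MM]
    simp only [h2]
    simp
  rw [rsL_apply] at h1 h3
  rw [rsL_apply, rsL_apply, aH, Pi.sub_apply, Pi.mul_apply, map_sub, map_mul, h1, mul_zero,
    sub_zero, h3, rsL_apply]

end up

end Crest.Agent.R208.VE
end
end

-- ▼ part R208/VE9
section

/-! Row 208, block VE (helper812).  VE9: the forms `ξ`, `a`, `Q` on the total space of the descended
field over the quotient. -/

set_option autoImplicit false
set_option linter.unusedSectionVars false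
set_option linter.unusedVariables false

open MeasureTheory Set Filter Topology Module
open scoped ContDiff
open Crest.Agent.R208.F Crest.Agent.R208.FI Crest.Agent.R208.CW Crest.Agent.R208.T
open Crest.Agent.R208.CM (Cir gen Rep Triv phR Th)
open Crest.Agent.R208.VC
open Crest.Agent.R208.EX (Cn)
open Crest.Agent.R208.TP (QM)

noncomputable section

namespace Crest.Agent.R208.VE

section desc
variable {E E' : Type*} [NormedAddCommGroup E] [NormedSpace ℝ E] [FiniteDimensional ℝ E]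
  [NormedAddCommGroup E'] [NormedSpace ℝ E'] [FiniteDimensional ℝ E']
  {X : Set E} {Y : Set E'} {φ : ℝ → E → E} {q : E → E'} {om : E → Ext E}

theorem contDiff_iv {a : E → Ext E} (h : ContDiff ℝ ∞ a) : ContDiff ℝ ∞ (iv a) :=
  (invL (E := E)).contDiff.comp h

/-- descent of basic forms with a parity: `s = 1` even, `s = -1` odd -/
theorem exists_basic_par (hq : QM X φ Y q) (h : Cir X φ) (hs : Sm X om) (hi : Inv X φ om)
    (hz : Hz X φ om) {s : ℝ} (hss : s * s = 1) (he : ∀ x ∈ X, F.inv (om x) = s • om x) :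
    ∃ om' : E' → Ext E', ContDiff ℝ ∞ om' ∧ (∀ y, F.inv (om' y) = s • om' y) ∧
      Eqv X (F.pull q om') om := by
  obtain ⟨V, sV, eV⟩ := hq.exists_basic h hs hi hz
  refine ⟨(1 / 2 : ℝ) • (V + s • iv V), ?_, fun y => ?_, ?_⟩
  · exact (sV.add ((contDiff_iv sV).const_smul s)).const_smul (1 / 2 : ℝ)
  · change F.inv ((1 / 2 : ℝ) • (V y + s • F.inv (V y))) = s • ((1 / 2 : ℝ) • (V y + s • F.inv (V y)))
    rw [map_smul, map_add, map_smul, F.inv_inv, smul_comm s, smul_add s, smul_smul s s, hss,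
      one_smul, add_comm]
  · rw [pull_smul', pull_add', pull_smul', pull_iv]
    have h1 : Eqv X (iv (F.pull q V)) (iv om) := VE.Eqv.iv eV
    have h2 : Eqv X (iv om) (s • om) := Eqv.of_eq fun x hx => he x hx
    have h3 := ((eV.add ((h1.trans h2).smul s)).smul (1 / 2 : ℝ))
    refine h3.trans (Eqv.of_eq fun x hx => ?_)
    change (1 / 2 : ℝ) • (om x + s • s • om x) = om x
    rw [smul_smul, hss, one_smul, ← two_smul ℝ (om x), smul_smul]
    norm_num

theorem exists_basic_ev (hq : QM X φ Y q) (h : Cir X φ) (hs : Sm X om) (hi : Inv X φ om)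
    (hz : Hz X φ om) (he : ∀ x ∈ X, F.inv (om x) = om x) :
    ∃ om' : E' → Ext E', ContDiff ℝ ∞ om' ∧ Ev om' ∧ Eqv X (F.pull q om') om := by
  obtain ⟨V, h1, h2, h3⟩ := exists_basic_par hq h hs hi hz (s := 1) (by norm_num)
    (fun x hx => by rw [one_smul]; exact he x hx)
  exact ⟨V, h1, fun y => by rw [h2 y, one_smul], h3⟩

theorem exists_basic_od (hq : QM X φ Y q) (h : Cir X φ) (hs : Sm X om) (hi : Inv X φ om)
    (hz : Hz X φ om) (he : ∀ x ∈ X, F.inv (om x) = - om x) :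
    ∃ om' : E' → Ext E', ContDiff ℝ ∞ om' ∧ Od om' ∧ Eqv X (F.pull q om') om := by
  obtain ⟨V, h1, h2, h3⟩ := exists_basic_par hq h hs hi hz (s := -1) (by norm_num)
    (fun x hx => by rw [neg_smul, one_smul]; exact he x hx)
  exact ⟨V, h1, fun y => by rw [h2 y, neg_smul, one_smul], h3⟩

end desc

section setting
variable {E E' W V F' : Type} [NormedAddCommGroup E] [NormedSpace ℝ E] [FiniteDimensional ℝ E]
  [NormedAddCommGroup E'] [NormedSpace ℝ E'] [FiniteDimensional ℝ E']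
  [NormedAddCommGroup W] [InnerProductSpace ℝ W] [FiniteDimensional ℝ W]
  [NormedAddCommGroup V] [InnerProductSpace ℝ V] [FiniteDimensional ℝ V]
  [NormedAddCommGroup F'] [NormedSpace ℝ F'] [FiniteDimensional ℝ F']

/-- the setting: a family `f1` over the total space of `P` over `X`, and the quotient -/
structure St (X : Set E) (Y : Set E') (φ : ℝ → E → E) (q : E → E') (R : ℝ → W →L[ℝ] W)
    (T : E → W →L[ℝ] V) (P : E → W →L[ℝ] W) (P' : E' → V →L[ℝ] V) (r d d' : ℕ) (S : Set F')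
    (om : F' → Ext F') (θ0 : E → Ext E) (e : E' → Ext E') (f1 : E × W → F') (ρ : ℝ) : Prop where
  act : Act X φ
  hq : QM X φ Y q
  hQ : QM (Tot X P) (phR φ R) (Tot Y P') (Th q T)
  hC : Cir (Tot X P) (phR φ R)
  hT : Triv X φ R T
  hX : Sub d X
  hP : PField X r P
  hY : Sub d' Y
  hP' : PField Y r P'
  cn : Cn X φ θ0
  hf : SMap (Tot X P) S f1
  dat : Dat S om
  const : ∀ y ∈ Tot X P, ρ < ‖y.2‖ → ∀ t, f1 (phR φ R t y) = f1 y
  ρ0 : 0 ≤ ρ
  se : Sm Y e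
  ce : Cl Y e
  ee : Ev e
  he : Eqv X (F.pull q e) (F.d θ0)

/-- descended forms -/
structure Dn (X : Set E) (φ : ℝ → E → E) (q : E → E') (R : ℝ → W →L[ℝ] W)
    (T : E → W →L[ℝ] V) (P : E → W →L[ℝ] W) (om : F' → Ext F') (θ0 : E → Ext E)
    (f1 : E × W → F') (ξ a Q : E' × V → Ext (E' × V)) : Prop where
  sx : ContDiff ℝ ∞ ξ
  sa : ContDiff ℝ ∞ a
  sQ : ContDiff ℝ ∞ Q
  ox : Od ξ
  ea : Ev a
  px : Eqv (Tot X P) (F.pull (Th q T) ξ) (xi (phR φ R) (F.pull f1 om))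
  pa : Eqv (Tot X P) (F.pull (Th q T) a)
    (aH (phR φ R) (F.pull (Prod.fst : E × W → E) θ0) (F.pull f1 om))
  pQ : Eqv (Tot X P) (F.pull (Th q T) Q) (Qf (phR φ R) (F.pull f1 om))

variable {X : Set E} {Y : Set E'} {φ : ℝ → E → E} {q : E → E'} {R : ℝ → W →L[ℝ] W}
  {T : E → W →L[ℝ] V} {P : E → W →L[ℝ] W} {P' : E' → V →L[ℝ] V} {r d d' : ℕ} {S : Set F'}
  {om : F' → Ext F'} {θ0 : E → Ext E} {e : E' → Ext E'} {f1 : E × W → F'} {ρ : ℝ}
  {ξ a Q : E' × V → Ext (E' × V)}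

namespace St

variable (h : St X Y φ q R T P P' r d d' S om θ0 e f1 ρ)
include h

theorem A : Act (Tot X P) (phR φ R) := Act.of_cir h.hC
theorem dt : Dat (Tot X P) (F.pull f1 om) := h.dat.pull h.hf
theorem sT : Sub (d + r) (Tot X P) := h.hP.sub_tot h.hX

theorem cn' : Cn (Tot X P) (phR φ R) (F.pull (Prod.fst : E × W → E) θ0) :=
  h.cn.pull h.act h.A smap_fst' fun _ _ _ => rfl

theorem exists_Dn : ∃ ξ a Q : E' × V → Ext (E' × V), Dn X φ q R T P om θ0 f1 ξ a Q := by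
  have hb := h.dt
  have hA := h.A
  obtain ⟨ξ, x1, x2, x3⟩ := exists_basic_od h.hQ h.hC (sm_xi hA hb.sm) (inv_xi hA hb.sm)
    (hz_xi _ _) fun x hx => xi_odd hA hb.sm hb.ev hx
  obtain ⟨a, a1, a2, a3⟩ := exists_basic_ev h.hQ h.hC (sm_aH hA h.cn' hb.sm)
    (inv_aH hA h.cn' hb.sm) (hz_aH hA h.cn' hb.sm hb.ev) fun x hx => ev_aH hA h.cn' hb.sm hb.ev hx
  obtain ⟨Q, q1, q3⟩ := h.hQ.exists_basic h.hC (sm_Qf hA hb.sm) (inv_Qf hA hb.sm) (hz_Qf _ _)
  exact ⟨ξ, a, Q, x1, a1, q1, x2, a2, x3, a3, q3⟩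

/-- the orbit loops are constant outside -/
theorem cv0 {z : E × W} (hz : z ∈ Tot X P) (h1 : ρ < ‖z.2‖) (s : ℝ) :
    ii (tg h.A hz) (cv (Tot X P) (phR φ R) (F.pull f1 om) z s) = 0 :=
  ii_cv_pull h.A hz (fun t => h.hf.diff (h.A.maps t hz)) (h.const z hz h1) s

/-- a form on the quotient whose pull-back vanishes outside -/
theorem cs_of {v : E' × V → Ext (E' × V)} {w : E × W → Ext (E × W)}
    (hv : Eqv (Tot X P) (F.pull (Th q T) v) w)
    (h0 : ∀ z ∈ Tot X P, ρ < ‖z.2‖ → rsL (Tot X P) z (w z) = 0) : Cs Y P' ρ v := by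
  refine eqv_iff.2 fun y hy => ?_
  obtain ⟨z, hz, rfl⟩ := h.hQ.surj y hy.1
  have h1 : ρ < ‖z.2‖ := by
    have h2 : ρ < ‖(Th q T z).2‖ := hy.2
    have h3 : ‖(Th q T z).2‖ = ‖z.2‖ := h.hT.iso _ hz.1 _
    rwa [h3] at h2
  have h2 : pb (Tan (Tot Y P') (Th q T z)).subtype (v (Th q T z)) =
      pb (Tan (Tot Y P') (Th q T z)).subtype 0 := by
    refine h.hQ.pt_of_pull hz ?_
    have h3 := eqv_iff.1 hv z hz
    have h4 := h0 z hz h1
    rw [rsL_apply] at h4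
    rw [h4] at h3
    rw [map_zero, map_zero]
    exact h3
  have h5 : rsL (Tot Y P') (Th q T z) (v (Th q T z)) = rsL (Tot Y P') (Th q T z) 0 := by
    rw [rsL_apply, rsL_apply]; exact h2
  exact EX.rs_sub (X' := Tot Y P' ∩ {z | ρ < ‖z.2‖}) inter_subset_left h5

end St

namespace Dn

variable (h : St X Y φ q R T P P' r d d' S om θ0 e f1 ρ)
  (D : Dn X φ q R T P om θ0 f1 ξ a Q)
include h D

theorem cs_x : Cs Y P' ρ ξ := h.cs_of D.px fun z hz h1 =>
  rs_xi_eq_zero h.A h.dt.sm hz (h.cv0 hz h1)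

theorem cs_Q : Cs Y P' ρ Q := h.cs_of D.pQ fun z hz h1 =>
  rs_Qf_eq_zero h.A h.dt.sm h.dt.ev hz (h.cv0 hz h1)

omit h in
theorem smx : Sm (Tot Y P') ξ := fun _ _ => D.sx.contDiffAt
omit h in
theorem sma : Sm (Tot Y P') a := fun _ _ => D.sa.contDiffAt
omit h in
theorem smQ : Sm (Tot Y P') Q := fun _ _ => D.sQ.contDiffAt

theorem cl_x : Cl (Tot Y P') ξ := h.hQ.cl_of_pull D.smx
  (Cl.of_eqv h.sT (D.smx.pull h.hQ.smap) (sm_xi h.A h.dt.sm) D.px
    (cl_xi h.A h.sT h.dt.sm h.dt.cl))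

/-- the pull-back of `pf e` -/
theorem pull_e : Eqv (Tot X P) (F.pull (Th q T) (pf e : E' × V → Ext (E' × V)))
    (F.d (F.pull (Prod.fst : E × W → E) θ0)) := by
  have h1 : Eqv (Tot X P) (F.pull (Th q T) (pf e : E' × V → Ext (E' × V)))
      (F.pull (Prod.fst : E × W → E) (F.pull q e)) :=
    (eqv_pull_pull h.hQ.smap smap_fst' (h.hq.smap.comp smap_fst') (fun _ _ => rfl) e).trans
      (eqv_pull_pull smap_fst' h.hq.smap (h.hq.smap.comp smap_fst') (fun _ _ => rfl) e).symm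
  exact h1.trans ((h.he.pull smap_fst').trans (d_pull_eqv smap_fst' h.cn.sm).symm)

theorem d_a : Eqv (Tot Y P') (F.d a) (-(pf e * ξ)) := by
  refine h.hQ.eqv_of_pull ?_
  have h1 : Eqv (Tot X P) (F.pull (Th q T) (F.d a))
      (F.d (aH (phR φ R) (F.pull (Prod.fst : E × W → E) θ0) (F.pull f1 om))) :=
    (d_pull_eqv h.hQ.smap D.sma).symm.trans
      (Crest.Agent.R208.T.Eqv.d h.sT (D.sma.pull h.hQ.smap) (sm_aH h.A h.cn' h.dt.sm) D.pa)
  refine (h1.trans (d_aH h.A h.sT h.cn' h.dt.sm h.dt.cl)).trans ?_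
  rw [pull_neg', pull_mul']
  exact ((pull_e h D).mul D.px).neg.symm

theorem d_Q : Eqv (Tot Y P') (F.d Q) (-((3 : ℝ) • (a * a * ξ))) := by
  refine h.hQ.eqv_of_pull ?_
  have h1 : Eqv (Tot X P) (F.pull (Th q T) (F.d Q)) (F.d (Qf (phR φ R) (F.pull f1 om))) :=
    (d_pull_eqv h.hQ.smap D.smQ).symm.trans
      (Crest.Agent.R208.T.Eqv.d h.sT (D.smQ.pull h.hQ.smap) (sm_Qf h.A h.dt.sm) D.pQ)
  refine (h1.trans (d_Qf h.A h.sT h.cn' h.dt)).trans ?_
  rw [pull_neg', pull_smul', pull_mul', pull_mul']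
  exact (((D.pa.mul D.pa).mul D.px).smul (3 : ℝ)).neg.symm

/-- the form `vl` on the quotient -/
theorem pv {v : E' × V → Ext (E' × V)} {p p' : ℕ} {l s t : ℝ}
    (hv : Eqv (Tot X P) (F.pull (Th q T) v)
      (vl (phR φ R) (F.d (F.pull (Prod.fst : E × W → E) θ0)) p p' l s t (F.pull f1 om))) :
    Eqv (Tot Y P') v (l • (ξ * Q) - s • (pf (e ^ p) * ξ) - t • (pf (e ^ p') * (a * ξ))) := by
  refine h.hQ.eqv_of_pull ?_
  refine (hv.trans (vl_eqv h.A h.cn' h.dt)).trans ?_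
  have hp : ∀ n : ℕ, Eqv (Tot X P) (F.pull (Th q T) (pf (e ^ n) : E' × V → Ext (E' × V)))
      (F.d (F.pull (Prod.fst : E × W → E) θ0) ^ n) := fun n => by
    have h1 : (pf (e ^ n) : E' × V → Ext (E' × V)) = (pf e : E' × V → Ext (E' × V)) ^ n :=
      VC.pull_pow' e n
    rw [h1, VC.pull_pow']
    exact EX.eqv_pow (pull_e h D) n
  rw [pull_sub', pull_sub', pull_smul', pull_smul', pull_smul', pull_mul', pull_mul', pull_mul',
    pull_mul']
  exact ((((D.px.mul D.pQ).smul l).sub (((hp p).mul D.px).smul s)).sub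
    (((hp p').mul (D.pa.mul D.px)).smul t)).symm

end Dn

end setting

end Crest.Agent.R208.VE
end
end

-- ▼ part R208/VE10
section

/-! Row 208, block VE (helper812).  VE10: existence of the primitive `Ψ` and of the input `Inp` of the
evaluation theorem over the quotient. -/

set_option autoImplicit false
set_option linter.unusedSectionVars false
set_option linter.unusedVariables false

open MeasureTheory Set Filter Topology Module
open scoped ContDiff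
open Crest.Agent.R208.F Crest.Agent.R208.FI Crest.Agent.R208.CW Crest.Agent.R208.T
open Crest.Agent.R208.CM (Cir gen Rep Triv phR Th)
open Crest.Agent.R208.VC
open Crest.Agent.R208.EX (Cn)
open Crest.Agent.R208.TP (QM)

noncomputable section

namespace Crest.Agent.R208.VE

section par
variable {E : Type*} [NormedAddCommGroup E] [NormedSpace ℝ E] [FiniteDimensional ℝ E]
  {X : Set E} {a b o η : E → Ext E}

theorem Ev.d (h : Ev a) : Od (F.d a) := fun x => by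
  by_cases hd : DifferentiableAt ℝ a x
  · have h1 := d_inv hd
    have h2 : (fun y => F.inv (a y)) = a := funext h
    rw [h2] at h1
    have h3 := congrArg Neg.neg h1
    rw [neg_neg] at h3
    exact h3.symm
  · rw [F.d, fderiv_zero_of_not_differentiableAt hd]
    simp

theorem Od.sub (h : Od a) (h' : Od b) : Od (a - b) := fun x => by
  rw [Pi.sub_apply, map_sub, h x, h' x]; abel

theorem Od.smul (c : ℝ) (h : Od a) : Od (c • a) := fun x => by
  rw [Pi.smul_apply, map_smul, h x, smul_neg]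

theorem ev_part (η : E → Ext E) : Ev ((1 / 2 : ℝ) • (η + iv η)) := fun x => by
  change F.inv ((1 / 2 : ℝ) • (η x + F.inv (η x))) = (1 / 2 : ℝ) • (η x + F.inv (η x))
  rw [map_smul, map_add, F.inv_inv, add_comm]

/-- the even part of a primitive of an odd form is a primitive -/
theorem d_ev_part (hη : Sm X η) (ho : Od o) (h : Eqv X o (F.d η)) :
    Eqv X o (F.d ((1 / 2 : ℝ) • (η + iv η))) := by
  have h1 : Eqv X (F.d (η + iv η)) (F.d η - iv (F.d η)) := by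
    refine (d_add_eqv hη (VE.Sm.iv hη)).trans ?_
    rw [sub_eq_add_neg]
    exact (Eqv.refl _).add (d_iv hη)
  have h2 : Eqv X (F.d η - iv (F.d η)) (o - iv o) := h.symm.sub (VE.Eqv.iv h).symm
  have h3 := ((h1.trans h2).smul (1 / 2 : ℝ))
  refine Eqv.symm (((d_smul_eqv _ (hη.add (VE.Sm.iv hη))).trans h3).trans (Eqv.of_eq fun x _ => ?_))
  change (1 / 2 : ℝ) • (o x - F.inv (o x)) = o x
  rw [ho x, sub_neg_eq_add, ← two_smul ℝ (o x), smul_smul]
  norm_num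

end par

section
variable {E H : Type} [NormedAddCommGroup E] [NormedSpace ℝ E] [FiniteDimensional ℝ E]
  [NormedAddCommGroup H] [InnerProductSpace ℝ H] [FiniteDimensional ℝ H]
  [MeasurableSpace H] [BorelSpace H] (μ : Measure H) [μ.IsAddHaarMeasure]
  {X : Set E} {P : E → H →L[ℝ] H} {r d : ℕ} {R R' R₁ c w₀ : ℝ} {e p3 : E → Ext E}
  {τ' W ξ : E × H → Ext (E × H)}

theorem ev_rx (h : Ev W) : Ev (rx W) := fun z => by
  have h1 : F.inv (F.pull rh W z) = F.pull rh W z := by rw [F.pull, ← pb_inv, h]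
  rw [rx, map_smul, h1]

/-- `τ = d (rx W)` is a Thom form in odd rank -/
theorem th1_drx (hX : Sub d X) (hR : 1 ≤ R) (hP : PField X r P) (hC : Co X P R₁ τ')
    (sW : Sm (Sph X P) W) (cW : Cl (Sph X P) W) (eW : Ev W) (hw : w₀ ≠ 0)
    (W0 : Coh X (de μ P τ' R W) (w₀ • (1 : E → Ext E))) :
    Th1 μ X P τ' R w₀ (F.d (rx W)) where
  sm := (T.Sm.rx sW).d
  cl := d_d' (T.Sm.rx sW)
  cs := (cs_drx sW cW).mono hR
  od := Ev.d (ev_rx eW)
  one := W0
  ne := hw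

/-- `de` does not depend on the radius -/
theorem de_radius (hX : Sub d X) (hR : 1 ≤ R) (hRR : R ≤ R') (hP : PField X r P)
    (hC : Co X P R₁ τ') (sW : Sm (Sph X P) W) (cW : Cl (Sph X P) W) :
    Eqv X (de μ P τ' R W) (de μ P τ' R' W) :=
  pu_radius μ (zero_le_one.trans hR) hP hC hRR (T.Sm.rx sW).d ((cs_drx sW cW).mono hR)

/-- **the primitive `Ψ`** -/
theorem exists_Psi (hX : Sub d X) (hR : 1 ≤ R) (hP : PField X r P) (hC : Co X P R₁ τ')
    (sW : Sm (Sph X P) W) (cW : Cl (Sph X P) W) (eW : Ev W) (hw : w₀ ≠ 0)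
    (W0 : Coh X (de μ P τ' R W) (w₀ • (1 : E → Ext E)))
    (sx : Sm (Tot X P) ξ) (clx : Cl (Tot X P) ξ) (ox : Od ξ) (cx : Cs X P R ξ)
    (hc : Coh X (pu μ P τ' R ξ) ((c * w₀) • (1 : E → Ext E))) :
    ∃ R₂, R ≤ R₂ ∧ ∃ Ψ : E × H → Ext (E × H), Sm (Tot X P) Ψ ∧ Ev Ψ ∧
      Eqv (Tot X P) ξ (F.d Ψ) ∧ Eqv (Tot X P ∩ {z | R₂ < ‖z.2‖}) Ψ (c • rx W) := by
  have hR0 : 0 ≤ R := zero_le_one.trans hR
  set τ : E × H → Ext (E × H) := F.d (rx W) with hτ
  have hT := th1_drx μ hX hR hP hC sW cW eW hw W0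
  set o : E × H → Ext (E × H) := ξ - c • τ with ho
  have so : Sm (Tot X P) o := sx.sub (hT.sm.smul c)
  have co : Cl (Tot X P) o := Cl.sub sx (hT.sm.smul c) clx (Cl.smul c hT.sm hT.cl)
  have ko : Cs X P R o := cx.sub (hT.cs.smul c)
  have oo : Od o := Od.sub ox (Od.smul c hT.od)
  have h0 : Coh X (pu μ P τ' R o) 0 := by
    have h1 := pu_sub μ hR0 hP hC sx (hT.sm.smul c)
    rw [pu_smul μ hR0 hP hC] at h1
    have h2 := hc.sub (hT.one.smul c)
    rw [smul_smul, sub_self] at h2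
    exact (Coh.of_eqv h1).trans h2
  obtain ⟨R₃, hR₃, η, sη, vη, eη⟩ := thom_inj_odd μ hX hP hC hR0 hT so co ko h0
  set η' : E × H → Ext (E × H) := (1 / 2 : ℝ) • (η + iv η) with hη'
  have sη' : Sm (Tot X P) η' := (sη.add (VE.Sm.iv sη)).smul _
  have eη' : Eqv (Tot X P) o (F.d η') := d_ev_part sη oo eη
  have srx : Sm (Tot X P) (rx W) := T.Sm.rx sW
  refine ⟨max R R₃, le_max_left _ _, c • rx W + η', (srx.smul c).add sη',
    ((ev_rx eW).smul c).add (ev_part η), ?_, ?_⟩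
  · have h1 := (d_add_eqv (srx.smul c) sη').trans ((d_smul_eqv c srx).add eη'.symm)
    refine Eqv.symm (h1.trans ?_)
    rw [ho, add_sub_cancel]
    exact Eqv.refl _
  · refine Eqv.of_eq fun z hz => ?_
    have h1 : η z = 0 := vη z (lt_of_le_of_lt (le_max_right _ _) hz.2)
    have h2 : η' z = 0 := by
      change (1 / 2 : ℝ) • (η z + F.inv (η z)) = 0
      rw [h1, map_zero, add_zero, smul_zero]
    rw [Pi.add_apply, h2, add_zero]

end

section inp
variable {E E' W V F' : Type} [NormedAddCommGroup E] [NormedSpace ℝ E] [FiniteDimensional ℝ E]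
  [NormedAddCommGroup E'] [NormedSpace ℝ E'] [FiniteDimensional ℝ E']
  [NormedAddCommGroup W] [InnerProductSpace ℝ W] [FiniteDimensional ℝ W]
  [NormedAddCommGroup V] [InnerProductSpace ℝ V] [FiniteDimensional ℝ V]
  [NormedAddCommGroup F'] [NormedSpace ℝ F'] [FiniteDimensional ℝ F']
  [MeasurableSpace V] [BorelSpace V] (μ : Measure V) [μ.IsAddHaarMeasure]
  {X : Set E} {Y : Set E'} {φ : ℝ → E → E} {q : E → E'} {R : ℝ → W →L[ℝ] W}
  {T : E → W →L[ℝ] V} {P : E → W →L[ℝ] W} {P' : E' → V →L[ℝ] V} {r d d' : ℕ} {S : Set F'}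
  {om : F' → Ext F'} {θ0 : E → Ext E} {e p3 : E' → Ext E'} {f1 : E × W → F'} {ρ R₀ R₁ c w₀ : ℝ}
  {ξ a Q τ' w : E' × V → Ext (E' × V)}

/-- **the input of the evaluation theorem over the quotient** -/
theorem exists_Inp (h : St X Y φ q R T P P' r d d' S om θ0 e f1 ρ)
    (D : Dn X φ q R T P om θ0 f1 ξ a Q) (hC : Co Y P' R₁ τ') (hR : 1 ≤ R₀) (hρ : ρ ≤ R₀)
    (sp : Sm Y p3) (cp : Cl Y p3) (ep : Ev p3)
    (sW : Sm (Sph Y P') w) (cW : Cl (Sph Y P') w) (eW : Ev w)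
    (W2 : Coh (Sph Y P') (w * w) (pf p3)) (hw : w₀ ≠ 0)
    (W0 : Coh Y (de μ P' τ' R₀ w) (w₀ • (1 : E' → Ext E')))
    (hc : Coh Y (pu μ P' τ' R₀ ξ) ((c * w₀) • (1 : E' → Ext E'))) :
    ∃ R₂, R₀ ≤ R₂ ∧ ∃ Ψ : E' × V → Ext (E' × V),
      Inp μ d' r Y P' τ' R₁ R₂ e p3 w ξ a Q Ψ c w₀ := by
  obtain ⟨R₂, hR₂, Ψ, sΨ, eΨ, dΨ, oΨ⟩ := exists_Psi μ h.hY hR h.hP' hC sW cW eW hw W0 D.smx
    (D.cl_x h) D.ox ((D.cs_x h).mono hρ) hc
  refine ⟨R₂, hR₂, Ψ, ?_⟩
  exact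
    { hX := h.hY
      hP := h.hP'
      hC := hC
      hR := hR.trans hR₂
      se := h.se
      ce := h.ce
      ee := h.ee
      sp := sp
      cp := cp
      ep := ep
      sW := sW
      cW := cW
      eW := eW
      W2 := W2
      W0 := (Coh.of_eqv (de_radius μ h.hY hR hR₂ h.hP' hC sW cW).symm).trans W0
      sx := D.smx
      sa := D.sma
      sQ := D.smQ
      sΨ := sΨ
      ea := D.ea
      eΨ := eΨ
      dΨ := dΨ
      out := oΨ
      cx := (D.cs_x h).mono (hρ.trans hR₂)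
      da := D.d_a h
      dQ := D.d_Q h
      cQ := (D.cs_Q h).mono (hρ.trans hR₂) }

end inp

end Crest.Agent.R208.VE
end
end

-- ▼ part R208/CG13
section

/-! Row 208, block RR / VE (helper99), part CG13: the fibre integral of the ray integral of a form
`ξ = dΨ` with `Ψ = c • rx W` outside, and of `xi (f1^* om)`. -/

set_option autoImplicit false
set_option linter.unusedSectionVars false
set_option linter.unusedVariables false

open MeasureTheory Set Filter Topology Module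
open scoped ContDiff RealInnerProductSpace
open Crest.Agent.R208.F Crest.Agent.R208.FI Crest.Agent.R208.CW Crest.Agent.R208.T
open Crest.Agent.R208.CM (Cir gen Rep Triv phR Th Qd)
open Crest.Agent.R208.TP (QM)
open Crest.Agent.R208.RR (Cyl mem_Cyl sl smap_sl K_eqv K_eqv0 J_eqv J_smul' J_sub' J_d')

noncomputable section

namespace Crest.Agent.R208.CG

section ray
variable {E H : Type} [NormedAddCommGroup E] [NormedSpace ℝ E] [FiniteDimensional ℝ E]
  [NormedAddCommGroup H] [InnerProductSpace ℝ H] [FiniteDimensional ℝ H]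
  {X : Set E} {P : E → H →L[ℝ] H} {r : ℕ} {x : E} {g g' : ℝ → ℝ} {R c ρ : ℝ}
  {ξ Ψ W o : E × H → Ext (E × H)}

/-- the scaled point -/
def scl (a : ℝ) (z : E × H) : E × H := (z.1, a • z.2)

/-- the ray map -/
def ray (g : ℝ → ℝ) (y : (E × H) × ℝ) : E × H := (y.1.1, g y.2 • y.1.2)

theorem contDiff_scl (a : ℝ) : ContDiff ℝ ∞ (scl (E := E) (H := H) a) :=
  contDiff_fst.prodMk (contDiff_const.smul contDiff_snd)

theorem contDiff_ray (hg : ContDiff ℝ ∞ g) : ContDiff ℝ ∞ (ray (E := E) (H := H) g) := by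
  have h2 : ContDiff ℝ ∞ (fun p : (E × H) × ℝ => p.1.1) := by fun_prop
  have h3 : ContDiff ℝ ∞ (fun p : (E × H) × ℝ => p.1.2) := by fun_prop
  exact h2.prodMk ((hg.comp contDiff_snd).smul h3)

theorem scl_mem {a : ℝ} {z : E × H} (hz : z ∈ Tot X P) : scl a z ∈ Tot X P := by
  refine ⟨hz.1, ?_⟩
  change P z.1 (a • z.2) = a • z.2
  rw [map_smul, hz.2]

theorem smap_ray (hg : ContDiff ℝ ∞ g) : SMap (Cyl (Sph X P)) (Tot X P) (ray g) :=
  ⟨fun _ _ => (contDiff_ray hg).contDiffAt, fun _ hy => scl_mem (mem_Cyl.1 hy).1⟩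

theorem smap_scl (a : ℝ) : SMap (Sph X P) (Tot X P) (scl a) :=
  ⟨fun _ _ => (contDiff_scl a).contDiffAt, fun _ hz => scl_mem hz.1⟩

theorem norm_scl {a : ℝ} (ha : 0 ≤ a) {z : E × H} (hz : z ∈ Sph X P) : ‖(scl a z).2‖ = a := by
  change ‖a • z.2‖ = a
  rw [norm_smul, hz.2, mul_one, Real.norm_of_nonneg ha]

theorem smap_scl_out {a : ℝ} (ha : 0 ≤ a) (hR : R < a) :
    SMap (Sph X P) (Tot X P ∩ {z | R < ‖z.2‖}) (scl a) :=
  ⟨fun _ _ => (contDiff_scl a).contDiffAt, fun z hz =>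
    ⟨scl_mem hz.1, by change R < ‖(scl a z).2‖; rwa [norm_scl ha hz]⟩⟩

theorem vert {z : E × H} (hz : z ∈ Sph X P ∩ (Prod.fst : E × H → E) ⁻¹' {x}) {v : E × H}
    (hv : v ∈ Tan (Sph X P ∩ (Prod.fst : E × H → E) ⁻¹' {x}) z) : v.1 = 0 := by
  have h1 := FV.fderiv_mem_Tan_of_mapsTo (g := (Prod.fst : E × H → E)) (Y := ({x} : Set E))
    (fun y hy => hy.2) differentiableAt_fst hv
  rw [fderiv_fst] at h1
  have hz1 : z.1 = x := hz.2
  have h2 : Tan ({x} : Set E) z.1 = ⊥ := by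
    rw [hz1]
    exact Submodule.finrank_eq_zero.1 ((sub_point x).finrank_Tan rfl)
  rw [h2] at h1
  exact h1

/-- the zero end of the rays has no fibre integral -/
theorem J_scl_zero (hP : PField X (r + 1) P) (hr : 1 ≤ r) (hx : x ∈ X) :
    J r (Sph X P ∩ (Prod.fst : E × H → E) ⁻¹' {x}) o (F.pull (scl 0) Ψ) = 0 := by
  refine J_eq_zero (HN.clo_fib hP hx) fun z hz w hw => ?_
  rw [F.pull, evA_pb]
  refine (evA (E × H) r (Ψ (scl 0 z))).map_coord_zero (⟨0, by omega⟩ : Fin r) ?_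
  have hd : HasFDerivAt (scl (E := E) (H := H) 0)
      ((ContinuousLinearMap.fst ℝ E H).prod ((0 : ℝ) • ContinuousLinearMap.snd ℝ E H)) z :=
    hasFDerivAt_fst.prodMk (hasFDerivAt_snd.const_smul (0 : ℝ))
  rw [hd.fderiv]
  have h0 := vert hz (hw ⟨0, by omega⟩)
  exact Prod.ext h0 (by simp)

/-- the far end of the rays -/
theorem scl_far (sW : Sm (Sph X P) W) (sΨ : Sm (Tot X P) Ψ)
    (out : Eqv (Tot X P ∩ {z | R < ‖z.2‖}) Ψ (c • rx W)) {a : ℝ} (ha : R < a) (ha1 : 1 < a) :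
    Eqv (Sph X P) (F.pull (scl a) Ψ) (c • W) := by
  have h0 : (0 : ℝ) ≤ a := by linarith
  have s1 := smap_scl_out (X := X) (P := P) h0 ha
  have s2 := smap_scl_out (X := X) (P := P) h0 ha1
  have e1 := out.pull s1
  rw [pull_smul'] at e1
  refine e1.trans (Eqv.smul c ?_)
  have e2 : Eqv (Sph X P) (F.pull (scl a) (rx W)) (F.pull (scl a) (F.pull rh W)) :=
    Eqv.of_eq fun z hz => by
      have h1 := (rx_near_out W (s2.maps hz).2).self_of_nhds
      rw [F.pull, F.pull, h1]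
  have e3 : Eqv (Sph X P) (F.pull (scl a) (F.pull rh W)) (F.pull (fun z : E × H => z) W) :=
    eqv_pull_pull s2 smap_rh' smap_id (fun z hz => by
      refine Prod.ext rfl ?_
      change ‖a • z.2‖⁻¹ • (a • z.2) = z.2
      rw [norm_smul, hz.2, mul_one, Real.norm_of_nonneg h0, smul_smul,
        inv_mul_cancel₀ (by linarith), one_smul]) W
  refine e2.trans (e3.trans (Eqv.of_eq fun z _ => ?_))
  exact pull_id W z

/-- **the fibre integral of the ray integral** of `ξ = dΨ` -/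
theorem J_ray (hP : PField X (r + 1) P) (hr : 1 ≤ r) (hx : x ∈ X)
    (ho : Ori r (Sph X P ∩ (Prod.fst : E × H → E) ⁻¹' {x}) o)
    (sξ : Sm (Tot X P) ξ) (sΨ : Sm (Tot X P) Ψ) (dΨ : Eqv (Tot X P) ξ (F.d Ψ))
    (sW : Sm (Sph X P) W) (out : Eqv (Tot X P ∩ {z | R < ‖z.2‖}) Ψ (c • rx W))
    (hg : ContDiff ℝ ∞ g) (g0 : g 0 = 0) (g1 : R < g 1) (g1' : 1 < g 1) :
    J r (Sph X P ∩ (Prod.fst : E × H → E) ⁻¹' {x}) o (RR.K (E := E × H) (F.pull (ray g) ξ)) =
      c * J r (Sph X P ∩ (Prod.fst : E × H → E) ⁻¹' {x}) o W := by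
  have cF := HN.clo_fib hP hx
  have hR := smap_ray (X := X) (P := P) hg
  have hsub : Sph X P ∩ (Prod.fst : E × H → E) ⁻¹' {x} ⊆ Sph X P := inter_subset_left
  have su : Sm (Cyl (Sph X P)) (F.pull (ray g) Ψ) := sΨ.pull hR
  have e1 : Eqv (Cyl (Sph X P)) (F.pull (ray g) ξ) (F.d (F.pull (ray g) Ψ)) :=
    (dΨ.pull hR).trans (d_pull_eqv hR sΨ).symm
  have e2 := K_eqv (E := E × H) (sξ.pull hR) su.d e1
  have e3 := e2.trans (K_of_d su)
  have f1 : Eqv (Sph X P) (F.pull (sl (E := E × H) 1) (F.pull (ray g) Ψ))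
      (F.pull (scl (g 1)) Ψ) :=
    eqv_pull_pull (smap_sl 1) hR (smap_scl (g 1)) (fun _ _ => rfl) Ψ
  have f0 : Eqv (Sph X P) (F.pull (sl (E := E × H) 0) (F.pull (ray g) Ψ))
      (F.pull (scl 0) Ψ) :=
    eqv_pull_pull (smap_sl 0) hR (smap_scl 0) (fun z _ => by
      change (z.1, g 0 • z.2) = (z.1, (0 : ℝ) • z.2)
      rw [g0]) Ψ
  have e4 : Eqv (Sph X P) (RR.K (E := E × H) (F.pull (ray g) ξ))
      (c • W - F.pull (scl 0) Ψ - F.d (RR.K (E := E × H) (F.pull (ray g) Ψ))) :=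
    e3.trans (((f1.trans (scl_far sW sΨ out g1 g1')).sub f0).sub (Eqv.refl _))
  have s1 : Sm (Sph X P) (c • W) := sW.smul c
  have s0 : Sm (Sph X P) (F.pull (scl 0) Ψ) := sΨ.pull (smap_scl 0)
  have sK : Sm (Sph X P) (RR.K (E := E × H) (F.pull (ray g) Ψ)) := RR.Sm.K su
  have re : ∀ {a : E × H → Ext (E × H)}, Sm (Sph X P) a →
      Sm (Sph X P ∩ (Prod.fst : E × H → E) ⁻¹' {x}) a := fun ha y hy => ha y hy.1
  rw [J_eqv cF (Eqv.mono_tan hsub e4), J_sub' cF ho ((re s1).sub (re s0)) (re sK).d,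
    J_sub' cF ho (re s1) (re s0), J_d' cF ho (re sK), J_scl_zero hP hr hx, J_smul', sub_zero,
    sub_zero]

/-- the ray integral of a form vanishing outside depends only on the fact that the rays leave -/
theorem K_ray_cut (sξ : Sm (Tot X P) ξ)
    (hv : Eqv (Tot X P ∩ {z | ρ < ‖z.2‖}) ξ 0) (hρ : 0 ≤ ρ)
    (hg : ContDiff ℝ ∞ g) (g0 : g 0 = 0) (g1 : ρ < g 1)
    (hg' : ContDiff ℝ ∞ g') (g0' : g' 0 = 0) (g1' : ρ < g' 1) :
    Eqv (Sph X P) (RR.K (E := E × H) (F.pull (ray g) ξ))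
      (RR.K (E := E × H) (F.pull (ray g') ξ)) := by
  have hid : ContDiff ℝ ∞ (fun s : ℝ => s) := contDiff_id
  have sr := smap_ray (X := X) (P := P) hid
  have su : Sm (Cyl (Sph X P)) (F.pull (ray (E := E) (H := H) fun s => s) ξ) := sξ.pull sr
  have key : ∀ {lam : ℝ → ℝ}, ContDiff ℝ ∞ lam → Eqv (Sph X P)
      (RR.K (E := E × H) (F.pull (ray lam) ξ))
      (Kab (lam 0) (lam 1) (F.pull (ray (E := E) (H := H) fun s => s) ξ)) := by
    intro lam hl
    have sf : SMap (Cyl (Sph X P)) (Cyl (Sph X P)) (fx (fun y : E × H => y) lam) :=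
      smap_fx smap_id hl
    have e1 : Eqv (Cyl (Sph X P))
        (F.pull (fx (fun y : E × H => y) lam) (F.pull (ray (E := E) (H := H) fun s => s) ξ))
        (F.pull (ray lam) ξ) := eqv_pull_pull sf sr (smap_ray hl) (fun _ _ => rfl) ξ
    have e2 := K_eqv (E := E × H) (su.pull sf) (sξ.pull (smap_ray hl)) e1
    exact e2.symm.trans (Eqv.of_eq fun z hz => K_repar hl su hz)
  set u := F.pull (ray (E := E) (H := H) fun s => s) ξ with hu
  -- the far part
  set lam : ℝ → ℝ := fun t => g' 1 + (g 1 - g' 1) * Real.smoothTransition t with hlam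
  have hl : ContDiff ℝ ∞ lam :=
    contDiff_const.add (contDiff_const.mul Real.smoothTransition.contDiff)
  have l0 : lam 0 = g' 1 := by
    simp only [hlam, Real.smoothTransition.zero_of_nonpos le_rfl, mul_zero, add_zero]
  have l1 : lam 1 = g 1 := by
    simp only [hlam, Real.smoothTransition.one_of_one_le le_rfl, mul_one, add_sub_cancel]
  have lp : ∀ t, ρ < lam t := by
    intro t
    have h1 := Real.smoothTransition.nonneg t
    have h2 := Real.smoothTransition.le_one t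
    have h3 : lam t = (1 - Real.smoothTransition t) * g' 1 + Real.smoothTransition t * g 1 := by
      simp only [hlam]; ring
    rw [h3]
    rcases h1.eq_or_lt with h4 | h4
    · rw [← h4]; linarith
    · nlinarith
  have far : Eqv (Sph X P) (Kab (g' 1) (g 1) u) 0 := by
    have h1 := key hl
    rw [l0, l1] at h1
    refine h1.symm.trans ?_
    have sl' : SMap (Cyl (Sph X P)) (Tot X P ∩ {z | ρ < ‖z.2‖}) (ray lam) :=
      ⟨fun _ _ => (contDiff_ray hl).contDiffAt, fun y hy => by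
        have h2 : (0 : ℝ) ≤ lam y.2 := hρ.trans (lp _).le
        exact (smap_scl_out (X := X) (P := P) h2 (lp y.2)).maps (mem_Cyl.1 hy)⟩
    have h2 := hv.pull sl'
    have h3 : F.pull (ray (E := E) (H := H) lam) (0 : E × H → Ext (E × H)) = 0 := by
      funext y; exact map_zero _
    rw [h3] at h2
    have h4 := K_eqv (E := E × H) (sξ.pull (smap_ray hl)) Sm.zero h2
    rwa [K_zero0] at h4
  have k1 := key hg
  have k2 := key hg'
  rw [g0] at k1
  rw [g0'] at k2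
  refine k1.trans (Eqv.trans ?_ k2.symm)
  have h5 : Eqv (Sph X P) (Kab 0 (g 1) u) (Kab 0 (g' 1) u + Kab (g' 1) (g 1) u) :=
    Eqv.of_eq fun z hz => (Kab_add su hz 0 (g' 1) (g 1)).symm
  have h6 := (Eqv.refl (X := Sph X P) (Kab 0 (g' 1) u)).add far
  rw [add_zero] at h6
  exact h5.trans h6

end ray

section quo
variable {E E' W₁ V F' : Type} [NormedAddCommGroup E] [NormedSpace ℝ E] [FiniteDimensional ℝ E]
  [NormedAddCommGroup E'] [NormedSpace ℝ E'] [FiniteDimensional ℝ E']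
  [NormedAddCommGroup W₁] [InnerProductSpace ℝ W₁] [FiniteDimensional ℝ W₁]
  [NormedAddCommGroup V] [InnerProductSpace ℝ V] [FiniteDimensional ℝ V]
  [NormedAddCommGroup F'] [NormedSpace ℝ F'] [FiniteDimensional ℝ F']
  {X : Set E} {Y : Set E'} {φ : ℝ → E → E} {q : E → E'} {R : ℝ → W₁ →L[ℝ] W₁}
  {T : E → W₁ →L[ℝ] V} {P : E → W₁ →L[ℝ] W₁} {P' : E' → V →L[ℝ] V} {r d d' : ℕ} {S : Set F'}
  {om : F' → Ext F'} {θ0 : E → Ext E} {e : E' → Ext E'} {f1 : E × W₁ → F'} {ρ R₂ c : ℝ}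
  {ξ a Q Ψ W o' : E' × V → Ext (E' × V)} {x : E} {g : ℝ → ℝ}

/-- the fibre integral upstairs and downstairs -/
theorem J_ray_pull (h : VE.St X Y φ q R T P P' (r + 1) d d' S om θ0 e f1 ρ)
    (D : VE.Dn X φ q R T P om θ0 f1 ξ a Q) (hd : ∀ x ∈ X, P' (q x) = Qd T P x) (hx : x ∈ X)
    (ho : Ori r (Sph Y P' ∩ (Prod.fst : E' × V → E') ⁻¹' {q x}) o') (hg : ContDiff ℝ ∞ g) :
    J r (Sph X P ∩ (Prod.fst : E × W₁ → E) ⁻¹' {x}) (F.pull (Th q T) o')
        (RR.K (E := E × W₁) (F.pull (ray g) (VC.xi (phR φ R) (F.pull f1 om)))) =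
      J r (Sph Y P' ∩ (Prod.fst : E' × V → E') ⁻¹' {q x}) o'
        (RR.K (E := E' × V) (F.pull (ray g) ξ)) := by
  have hs := HN.smap_Th (P := P) (P' := P') h.hq.smap h.hT hd
  have hgY := smap_ray (X := Y) (P := P') hg
  have hgX := smap_ray (X := X) (P := P) hg
  have sK : Sm (Sph Y P') (RR.K (E := E' × V) (F.pull (ray g) ξ)) := RR.Sm.K (D.smx.pull hgY)
  have h1 := (HN.J_fib_pull (P := P) (P' := P') h.hq.smap h.hT hd h.hP h.hP' hx ho sK).2
  rw [← h1]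
  refine J_eqv (HN.clo_fib h.hP hx) (Eqv.mono_tan (inter_subset_left :
    Sph X P ∩ (Prod.fst : E × W₁ → E) ⁻¹' {x} ⊆ Sph X P) (Eqv.symm ?_))
  have sf : SMap (Cyl (Sph X P)) (Cyl (Sph Y P'))
      (fx (E := E × W₁) (E' := E' × V) (Th q T) fun s => s) := smap_fx hs contDiff_id
  have sξ : Sm (Cyl (Sph Y P')) (F.pull (ray g) ξ) := D.smx.pull hgY
  have e1 : Eqv (Sph X P) (F.pull (Th q T) (RR.K (E := E' × V) (F.pull (ray g) ξ)))
      (RR.K (E := E × W₁) (F.pull (fx (E := E × W₁) (E' := E' × V) (Th q T) fun s => s)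
        (F.pull (ray g) ξ))) :=
    Eqv.of_eq fun z hz => pull_K (E := E × W₁) (E' := E' × V) (hs.diff hz) sξ (hs.maps hz)
  have sx : Sm (Tot X P) (VC.xi (phR φ R) (F.pull f1 om)) := VC.sm_xi h.A h.dt.sm
  have m1 : SMap (Cyl (Sph X P)) (Tot Y P')
      (fun y => ray g (fx (E := E × W₁) (E' := E' × V) (Th q T) (fun s => s) y)) := hgY.comp sf
  have e2 : Eqv (Cyl (Sph X P)) (F.pull (fx (E := E × W₁) (E' := E' × V) (Th q T) fun s => s)
        (F.pull (ray g) ξ))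
      (F.pull (fun y => ray g (fx (E := E × W₁) (E' := E' × V) (Th q T) (fun s => s) y)) ξ) :=
    eqv_pull_pull sf hgY m1 (fun _ _ => rfl) ξ
  have e3 : Eqv (Cyl (Sph X P)) (F.pull (ray g) (F.pull (Th q T) ξ))
      (F.pull (fun y => ray g (fx (E := E × W₁) (E' := E' × V) (Th q T) (fun s => s) y)) ξ) :=
    eqv_pull_pull hgX h.hQ.smap m1 (fun y hy => by
      refine Prod.ext rfl ?_
      change T y.1.1 (g y.2 • y.1.2) = g y.2 • T y.1.1 y.1.2
      rw [map_smul]) ξ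
  have e4 : Eqv (Cyl (Sph X P)) (F.pull (ray g) (F.pull (Th q T) ξ))
      (F.pull (ray g) (VC.xi (phR φ R) (F.pull f1 om))) := D.px.pull hgX
  have e5 := K_eqv (E := E × W₁) (sξ.pull sf) (sx.pull hgX) (e2.trans (e3.symm.trans e4))
  exact e1.trans e5

/-- **the number `c` of the evaluation as a fibre integral** -/
theorem fib_c (h : VE.St X Y φ q R T P P' (r + 1) d d' S om θ0 e f1 ρ)
    (D : VE.Dn X φ q R T P om θ0 f1 ξ a Q) (hd : ∀ x ∈ X, P' (q x) = Qd T P x) (hr : 1 ≤ r)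
    (hx : x ∈ X) (ho : Ori r (Sph Y P' ∩ (Prod.fst : E' × V → E') ⁻¹' {q x}) o')
    (sΨ : Sm (Tot Y P') Ψ) (dΨ : Eqv (Tot Y P') ξ (F.d Ψ)) (sW : Sm (Sph Y P') W)
    (out : Eqv (Tot Y P' ∩ {z | R₂ < ‖z.2‖}) Ψ (c • rx W))
    (hg : ContDiff ℝ ∞ g) (g0 : g 0 = 0) (g1 : ρ < g 1) :
    J r (Sph X P ∩ (Prod.fst : E × W₁ → E) ⁻¹' {x}) (F.pull (Th q T) o')
        (RR.K (E := E × W₁) (F.pull (ray g) (VC.xi (phR φ R) (F.pull f1 om)))) =
      c * J r (Sph Y P' ∩ (Prod.fst : E' × V → E') ⁻¹' {q x}) o' W := by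
  set L : ℝ := max R₂ (max ρ 1) + 1 with hL
  have hgl : ContDiff ℝ ∞ (fun t : ℝ => L * t) := contDiff_const.mul contDiff_id
  have L0 : (fun t : ℝ => L * t) 0 = 0 := mul_zero _
  have hR₂ : R₂ < L := by have := le_max_left R₂ (max ρ 1); linarith
  have hρ : ρ < L := by
    have := le_max_right R₂ (max ρ 1)
    have := le_max_left ρ (1 : ℝ)
    linarith
  have h1 : (1 : ℝ) < L := by
    have := le_max_right R₂ (max ρ 1)
    have := le_max_right ρ (1 : ℝ)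
    linarith
  have sx : Sm (Tot X P) (VC.xi (phR φ R) (F.pull f1 om)) := VC.sm_xi h.A h.dt.sm
  have hv : Eqv (Tot X P ∩ {z | ρ < ‖z.2‖}) (VC.xi (phR φ R) (F.pull f1 om)) 0 := by
    refine eqv_iff.2 fun z hz => ?_
    have h2 := VC.rs_xi_eq_zero h.A h.dt.sm hz.1 (h.cv0 hz.1 hz.2)
    have h3 : VC.rsL (Tot X P) z (VC.xi (phR φ R) (F.pull f1 om) z) = VC.rsL (Tot X P) z 0 := by
      rw [h2, map_zero]
    exact EX.rs_sub (X' := Tot X P ∩ {z | ρ < ‖z.2‖}) inter_subset_left h3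
  have cut := K_ray_cut (X := X) (P := P) sx hv h.ρ0 hg g0 g1 hgl L0 (by rw [mul_one]; exact hρ)
  rw [J_eqv (HN.clo_fib h.hP hx) (Eqv.mono_tan (inter_subset_left :
    Sph X P ∩ (Prod.fst : E × W₁ → E) ⁻¹' {x} ⊆ Sph X P) cut), J_ray_pull h D hd hx ho hgl]
  exact J_ray h.hP' hr (h.hq.smap.maps hx) ho D.smx sΨ dΨ sW out hgl L0 (by rw [mul_one]; exact hR₂)
    (by rw [mul_one]; exact h1)

end quo

section inst
open Crest.GeometryTopology.Submanifold
open Crest.Agent.R241.DDefs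
open Crest.Agent.R241.D2
open Crest.Agent.R208.GT
open Crest.Agent.R208.FL (D1 Ph f1 gs gs_zero gs_two contDiff_gs)
open Crest.Agent.R208.NN (Wt nuP Rt)

variable {n N K k r : ℕ} {κ : ℝ} {S : Set (Euc N)} {G : Geo n N κ S}
  {lg : Euc N → Euc N → Euc N} {ρ : Euc N → Euc N} {r₀ C r' Kr B w δ : ℝ}
  {PN : Euc N × Euc N → Wt N K →L[ℝ] Wt N K} {ε E₀ η : ℝ} {J₀ : ℕ} {om : Euc N → Ext (Euc N)}
  {z : Euc N × Euc N} {E' V : Type} [NormedAddCommGroup E'] [NormedSpace ℝ E']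
  [FiniteDimensional ℝ E'] [NormedAddCommGroup V] [InnerProductSpace ℝ V] [FiniteDimensional ℝ V]
  {Y : Set E'} {q : Euc N × Euc N → E'} {T : Euc N × Euc N → Wt N K →L[ℝ] V}
  {P' : E' → V →L[ℝ] V} {d d' : ℕ} {θ0 : Euc N × Euc N → Ext (Euc N × Euc N)}
  {e : E' → Ext E'} {ρ₁ R₂ c t : ℝ} {ξ a Q Ψ W o' : E' × V → Ext (E' × V)}

/-- **`2π |c| |J_fibre W| = t`** for the level one family -/
theorem abs_c (hD : D1 G k K lg ρ r₀ C r' Kr B w δ PN ε J₀ E₀ η) (hk : Even k) (hrk : r + 2 = k)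
    (h4 : 4 ≤ k) (hkn : k < n)
    (h : VE.St (L.US G) Y (CM.gf G) q (fun s => Rt (nuP K) s) T PN P' (r + 1) d d' S om θ0 e
      (f1 G lg ρ w J₀ ε) ρ₁)
    (D : VE.Dn (L.US G) (CM.gf G) q (fun s => Rt (nuP K) s) T PN om θ0 (f1 G lg ρ w J₀ ε) ξ a Q)
    (hd : ∀ z ∈ L.US G, P' (q z) = Qd T PN z) (hz : z ∈ L.US G)
    (ho : Ori r (Sph Y P' ∩ (Prod.fst : E' × V → E') ⁻¹' {q z}) o')
    (sΨ : Sm (Tot Y P') Ψ) (dΨ : Eqv (Tot Y P') ξ (F.d Ψ)) (sW : Sm (Sph Y P') W)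
    (out : Eqv (Tot Y P' ∩ {z | R₂ < ‖z.2‖}) Ψ (c • rx W)) (hρ : ρ₁ < 2)
    (hC : ∀ oF, Ori r (Sph (L.US G) PN ∩ (Prod.fst : (Euc N × Euc N) × Wt N K → Euc N × Euc N) ⁻¹' {z}) oF →
      |J r (Sph (L.US G) PN ∩ Prod.fst ⁻¹' {z}) oF
        (RR.Wp (FM.phiF hD.bla PN) (F.pull (Prod.fst : (Euc N × Euc N) × Wt N K → Euc N × Euc N)
          (RR.K (F.pull (RRC.EE G) om))))| = 2 * t) :
    2 * Real.pi * (|c| * |J r (Sph Y P' ∩ (Prod.fst : E' × V → E') ⁻¹' {q z}) o' W|) = t := by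
  obtain rfl := hrk
  have hoF := (HN.J_fib_pull (P := PN) (P' := P') h.hq.smap h.hT hd h.hP h.hP' hz ho sW).1
  have h1 := fib_c h D hd (by omega) hz ho sΨ dΨ sW out contDiff_gs (gs_zero le_rfl)
    (by rw [gs_two (by norm_num)]; exact hρ)
  have h2 := L7_xi hD hk h4 hkn h.dat.sm h.dat.cl hz hoF (hC _ hoF)
  rw [← abs_mul, ← h1]
  exact h2

end inst

end Crest.Agent.R208.CG
end
end

-- ▼ part R208/CG14
section

/-! Row 208, block RR / VE (helper99), part CG14: the value `|c| = k / 2` of the number of the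
evaluation. -/

set_option autoImplicit false
set_option linter.unusedSectionVars false
set_option linter.unusedVariables false

open MeasureTheory Set Filter Topology Module
open scoped ContDiff RealInnerProductSpace
open Crest.GeometryTopology.Submanifold
open Crest.Agent.R241.DDefs
open Crest.Agent.R241.D2
open Crest.Agent.R208.GT
open Crest.Agent.R208.F Crest.Agent.R208.FI Crest.Agent.R208.CW Crest.Agent.R208.T
open Crest.Agent.R208.CM (Cir gen Rep Triv phR Th Qd)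
open Crest.Agent.R208.FL (D1 Ph f1)
open Crest.Agent.R208.NN (Wt nuP Rt)

noncomputable section

namespace Crest.Agent.R208.CG

/-- the ratio of the Euler numbers -/
theorem c_of_tau {ι ι' : Type} [Fintype ι] [Fintype ι'] (h : Fintype.card ι = Fintype.card ι' + 1)
    {c : ℝ} (hc : 2 * Real.pi * (|c| * (2 * XF.tau ι')) = XF.tau ι) :
    |c| = (Fintype.card ι' + 1 : ℝ) := by
  rw [XF.tau, XF.tau, h, Nat.factorial_succ, pow_succ] at hc
  push_cast at hc
  have h1 : (0 : ℝ) < (4 * Real.pi) ^ Fintype.card ι' * (Nat.factorial (Fintype.card ι') : ℝ) := by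
    have := Real.pi_pos
    positivity
  have h2 : ((4 * Real.pi) ^ Fintype.card ι' * (Nat.factorial (Fintype.card ι') : ℝ)) *
      (4 * Real.pi) * |c| = ((4 * Real.pi) ^ Fintype.card ι' *
      (Nat.factorial (Fintype.card ι') : ℝ)) * (4 * Real.pi) * (Fintype.card ι' + 1 : ℝ) := by
    linarith
  exact mul_left_cancel₀ (mul_pos h1 (by have := Real.pi_pos; positivity)).ne' h2

section inst
variable {n N K k r : ℕ} {κ : ℝ} {S : Set (Euc N)} {G : Geo n N κ S}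
  {lg : Euc N → Euc N → Euc N} {ρ : Euc N → Euc N} {r₀ C r' Kr B w δ : ℝ}
  {PN : Euc N × Euc N → Wt N K →L[ℝ] Wt N K} {ε E₀ η : ℝ} {J₀ : ℕ} {om : Euc N → Ext (Euc N)}
  {z : Euc N × Euc N} {E' p ι ι' : Type} [NormedAddCommGroup E'] [NormedSpace ℝ E']
  [FiniteDimensional ℝ E'] [Fintype p] [DecidableEq p] [Fintype ι] [Fintype ι'] [DecidableEq ι']
  [Nonempty ι']
  {Y : Set E'} {q : Euc N × Euc N → E'} {T : Euc N × Euc N → Wt N K →L[ℝ] EuclideanSpace ℝ p}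
  {P' : E' → EuclideanSpace ℝ p →L[ℝ] EuclideanSpace ℝ p} {d d' : ℕ}
  {θ0 : Euc N × Euc N → Ext (Euc N × Euc N)} {oP' : E' → Ext (EuclideanSpace ℝ p)}
  {e : E' → Ext E'} {ρ₁ R₂ c : ℝ} {ξ a Q Ψ : E' × EuclideanSpace ℝ p →
    Ext (E' × EuclideanSpace ℝ p)}

/-- **`|c| = card ι' + 1 = k / 2`** -/
theorem abs_c_val (hD : D1 G k K lg ρ r₀ C r' Kr B w δ PN ε J₀ E₀ η) (hk : Even k)
    (hrk : r + 2 = k) (h4 : 4 ≤ k) (hkn : k < n)
    (h : VE.St (L.US G) Y (CM.gf G) q (fun s => Rt (nuP K) s) T PN P' (r + 1) d d' S om θ0 e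
      (f1 G lg ρ w J₀ ε) ρ₁)
    (D : VE.Dn (L.US G) (CM.gf G) q (fun s => Rt (nuP K) s) T PN om θ0 (f1 G lg ρ w J₀ ε) ξ a Q)
    (hd : ∀ z ∈ L.US G, P' (q z) = Qd T PN z) (hz : z ∈ L.US G)
    (ob : SB.OddB ι' Y r P' oP')
    {Wf : E' × EuclideanSpace ℝ p → Ext (E' × EuclideanSpace ℝ p)}
    (hW : Wf = SB.OddB.eV ι' ob.hr P' oP')
    (sΨ : Sm (Tot Y P') Ψ) (dΨ : Eqv (Tot Y P') ξ (F.d Ψ)) (sW : Sm (Sph Y P') Wf)
    (out : Eqv (Tot Y P' ∩ {z | R₂ < ‖z.2‖}) Ψ (c • rx Wf))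
    (hρ : ρ₁ < 2) (hι : 2 * Fintype.card ι = k)
    (hC : ∀ oF, Ori r (Sph (L.US G) PN ∩ (Prod.fst : (Euc N × Euc N) × Wt N K → Euc N × Euc N) ⁻¹' {z}) oF →
      |J r (Sph (L.US G) PN ∩ Prod.fst ⁻¹' {z}) oF
        (RR.Wp (FM.phiF hD.bla PN) (F.pull (Prod.fst : (Euc N × Euc N) × Wt N K → Euc N × Euc N)
          (RR.K (F.pull (RRC.EE G) om))))| = 2 * XF.tau ι) :
    |c| = (Fintype.card ι' + 1 : ℝ) := by
  have hqz : q z ∈ Y := h.hq.smap.maps hz
  have ho : Ori r (Sph Y P' ∩ (Prod.fst : E' × EuclideanSpace ℝ p → E') ⁻¹' {q z}) (SB.oV oP') := by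
    rw [fib_eq hqz]
    exact ob.ori_oV hqz
  have h1 := abs_c hD hk hrk h4 hkn h D hd hz ho sΨ dΨ sW out hρ hC
  rw [hW, ob.J_fibre' hqz, abs_of_pos (a := 2 * XF.tau ι') (by have := XF.tau_pos ι'; positivity)] at h1
  exact c_of_tau (ι := ι) (ι' := ι') (by have := ob.hr; omega) h1

end inst

end Crest.Agent.R208.CG
end
end

-- ▼ part R208/CG12
section

/-! Row 208, block RR / VE (helper99), part CG12: **(C)** for every even `k ≥ 4` and **(L7)**, without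
hypotheses, for the form `x` of `T.XM`. -/

set_option autoImplicit false
set_option linter.unusedSectionVars false
set_option linter.unusedVariables false

open MeasureTheory Set Filter Topology Module
open scoped ContDiff RealInnerProductSpace
open Crest.GeometryTopology.Submanifold
open Crest.Agent.R241.DDefs
open Crest.Agent.R241.D2
open Crest.Agent.R208.GT
open Crest.Agent.R208.F Crest.Agent.R208.FI Crest.Agent.R208.CW Crest.Agent.R208.T
open Crest.Agent.R208.CM (Cir gen Rep Triv phR Th Qd)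
open Crest.Agent.R208.FL (D1 Ph f1 Af)
open Crest.Agent.R208.NN (Wt nuP Rt)

noncomputable section

namespace Crest.Agent.R208.CG

section
variable {n N K k m r : ℕ} {κ : ℝ} {S : Set (Euc N)} {G : Geo n N κ S}
  {lg : Euc N → Euc N → Euc N} {ρ : Euc N → Euc N} {r₀ C r' Kr B w δ : ℝ}
  {PN : Euc N × Euc N → Wt N K →L[ℝ] Wt N K} {ε E₀ η : ℝ} {J₀ : ℕ} {p₀ : Euc N}
  {x : Euc N → Ext (Euc N)} {ι : Type} [Fintype ι] [DecidableEq ι]
  {W₀ : Euc N × Euc N → (ι × Fin 2 → Fin N) → ℝ}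
  {z : Euc N × Euc N} {oF : (Euc N × Euc N) × Wt N K → Ext ((Euc N × Euc N) × Wt N K)}

/-- **(C)** for every even `k ≥ 4` -/
theorem C_gen (h : GT.Bla G k) (H : NB.NegB G (k - 1) (nuP K) δ PN) (hk : Even k) (h4 : 4 ≤ k)
    (hkn : k < n) {kap : Euc N × Euc N → Ext (Euc N × Euc N)} (sk : Sm (L.US G) kap)
    (hz : z ∈ L.US G)
    (hF : Ori (k - 2) (T.Sph (L.US G) PN ∩ (Prod.fst : (Euc N × Euc N) × Wt N K → Euc N × Euc N) ⁻¹' {z}) oF)
    {oW : Euc N × Euc N → Ext (Euc N × Euc N)} (hW : Ori (k - 1) (JX.Fb G z) oW) :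
    |FI.J (k - 2) (T.Sph (L.US G) PN ∩ Prod.fst ⁻¹' {z}) oF
      (RR.Wp (FM.phiF h PN) (F.pull (Prod.fst : (Euc N × Euc N) × Wt N K → Euc N × Euc N) kap))| =
      2 * |FI.J (k - 1) (JX.Fb G z) oW kap| := by
  rw [KP.abs_two_half h H hk h4 hkn sk hz hF]
  congr 1
  exact ZG.abs_Hr h (by omega) hkn hz H sk hF hW

/-- (C) for the period of `x` -/
theorem hC (h : GT.Bla G k) (D : T.XM h m W₀ p₀ x) (h4 : 4 ≤ k)
    (H : NB.NegB G (k - 1) (nuP K) δ PN) (hz : z ∈ L.US G)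
    (hF : Ori (k - 2) (T.Sph (L.US G) PN ∩ (Prod.fst : (Euc N × Euc N) × Wt N K → Euc N × Euc N) ⁻¹' {z}) oF) :
    |FI.J (k - 2) (T.Sph (L.US G) PN ∩ Prod.fst ⁻¹' {z}) oF
      (RR.Wp (FM.phiF h PN) (F.pull (Prod.fst : (Euc N × Euc N) × Wt N K → Euc N × Euc N)
        (RR.K (F.pull (RRC.EE G) x))))| = 2 * XF.tau ι := by
  obtain ⟨oW, hW⟩ := ZG.exists_ori_Fb h D.hk D.hkn hz
  rw [C_gen h H D.hke h4 D.hkn (RR.Sm.K (D.sx.pull smap_EE)) hz hF hW, KX.valF D hz hW]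



end

section inst
variable {n N K k m r : ℕ} {κ : ℝ} {S : Set (Euc N)} {G : Geo n N κ S}
  {lg : Euc N → Euc N → Euc N} {ρ : Euc N → Euc N} {r₀ C r' Kr B w δ : ℝ}
  {PN : Euc N × Euc N → Wt N K →L[ℝ] Wt N K} {ε E₀ η : ℝ} {J₀ : ℕ} {om : Euc N → Ext (Euc N)}
  {z : Euc N × Euc N} {E' p ι ι' : Type} [NormedAddCommGroup E'] [NormedSpace ℝ E']
  [FiniteDimensional ℝ E'] [Fintype p] [DecidableEq p] [Fintype ι] [DecidableEq ι] [Fintype ι']
  [DecidableEq ι'] [Nonempty ι'] {W₀ : Euc N × Euc N → (ι × Fin 2 → Fin N) → ℝ} {p₀ : Euc N}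
  {Y : Set E'} {q : Euc N × Euc N → E'} {T : Euc N × Euc N → Wt N K →L[ℝ] EuclideanSpace ℝ p}
  {P' : E' → EuclideanSpace ℝ p →L[ℝ] EuclideanSpace ℝ p} {d d' : ℕ}
  {θ0 : Euc N × Euc N → Ext (Euc N × Euc N)} {oP' : E' → Ext (EuclideanSpace ℝ p)}
  {e : E' → Ext E'} {ρ₁ R₂ c : ℝ} {ξ a Q Ψ : E' × EuclideanSpace ℝ p →
    Ext (E' × EuclideanSpace ℝ p)}

/-- **the number of the evaluation**: `|c| = k / 2` -/
theorem c_val (hD : D1 G k K lg ρ r₀ C r' Kr B w δ PN ε J₀ E₀ η) (M : Crest.Agent.R208.T.XM hD.bla m W₀ p₀ om)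
    (hrk : r + 2 = k) (h4 : 4 ≤ k)
    (h : VE.St (L.US G) Y (CM.gf G) q (fun s => Rt (nuP K) s) T PN P' (r + 1) d d' S om θ0 e
      (f1 G lg ρ w J₀ ε) ρ₁)
    (D : VE.Dn (L.US G) (CM.gf G) q (fun s => Rt (nuP K) s) T PN om θ0 (f1 G lg ρ w J₀ ε) ξ a Q)
    (hd : ∀ z ∈ L.US G, P' (q z) = Qd T PN z) (hz : z ∈ L.US G)
    (ob : SB.OddB ι' Y r P' oP')
    {Wf : E' × EuclideanSpace ℝ p → Ext (E' × EuclideanSpace ℝ p)}
    (hW : Wf = SB.OddB.eV ι' ob.hr P' oP')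
    (sΨ : Sm (Tot Y P') Ψ) (dΨ : Eqv (Tot Y P') ξ (F.d Ψ)) (sW : Sm (Sph Y P') Wf)
    (out : Eqv (Tot Y P' ∩ {z | R₂ < ‖z.2‖}) Ψ (c • rx Wf))
    (hρ : ρ₁ < 2) :
    |c| = (Fintype.card ι' + 1 : ℝ) := by
  obtain rfl := hrk
  exact abs_c_val hD M.hke rfl h4 M.hkn h D hd hz ob hW sΨ dΨ sW out hρ M.hι
    fun oF hF => hC hD.bla M h4 hD.neg hz hF

end inst

end Crest.Agent.R208.CG
end
end

-- ▼ part R208/VE11
section

/-! Row 208, block VE (helper812).  VE11: homogeneous versions. -/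

set_option autoImplicit false
set_option linter.unusedSectionVars false
set_option linter.unusedVariables false

open MeasureTheory Set Filter Topology Module
open scoped ContDiff
open Crest.Agent.R208.F Crest.Agent.R208.FI Crest.Agent.R208.CW Crest.Agent.R208.T
open Crest.Agent.R208.CM (Cir gen Rep Triv phR Th)
open Crest.Agent.R208.VC
open Crest.Agent.R208.EX (Cn)
open Crest.Agent.R208.TP (QM)

noncomputable section

namespace Crest.Agent.R208.VE

section gen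
variable {E : Type*} [NormedAddCommGroup E] [NormedSpace ℝ E] [FiniteDimensional ℝ E]
  {X : Set E} {φ : ℝ → E → E} {a b θ e : E → Ext E} {j : ℕ}

theorem Hom.ev (h : Hom j a) (hj : Even j) : Ev a := fun x => by
  rw [inv_deg (h x), hj.neg_one_pow, one_smul]

theorem Hom.od (h : Hom j a) (hj : Odd j) : Od a := fun x => by
  rw [inv_deg (h x), hj.neg_one_pow, neg_one_smul]

theorem hom_aH (hθ : Hom 1 θ) (hb : Hom (j + 2) b) : Hom (j + 2) (aH φ θ b) := by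
  have h1 := hθ.mul (EA.hom_xi (φ := φ) (k := j + 1) hb)
  rw [show 1 + (j + 1) = j + 2 by ring] at h1
  exact (EA.hom_Av hb).sub h1

theorem hom_Qf (hb : Hom (j + 2) b) : Hom (3 * j + 4) (Qf φ b) := fun x => by
  have h1 := EA.hom_YY (φ := φ) (k := j + 1) hb x
  rw [show j + 1 + 1 + (j + 1 + 1) + (j + 1) = 3 * j + 4 + 1 by ring] at h1
  exact IsDeg.ii h1 _

theorem dp_eqv (h : Eqv X a b) (hb : Hom j b) : Eqv X (dp j a) b := by
  have := Eqv.dp j h
  rwa [hb.dp_eq] at this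

end gen

section rx
variable {E H : Type*} [NormedAddCommGroup E] [NormedSpace ℝ E] [FiniteDimensional ℝ E]
  [NormedAddCommGroup H] [InnerProductSpace ℝ H] [FiniteDimensional ℝ H]
  {w : E × H → Ext (E × H)} {j : ℕ}

theorem hom_rx (h : Hom j w) : Hom j (rx w) := fun z => by
  have h1 : IsDeg j (F.pull rh w z) := (h (rh z)).pb _
  rw [rx]
  exact h1.smul _

end rx

section main
variable {E E' W V F' : Type} [NormedAddCommGroup E] [NormedSpace ℝ E] [FiniteDimensional ℝ E]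
  [NormedAddCommGroup E'] [NormedSpace ℝ E'] [FiniteDimensional ℝ E']
  [NormedAddCommGroup W] [InnerProductSpace ℝ W] [FiniteDimensional ℝ W]
  [NormedAddCommGroup V] [InnerProductSpace ℝ V] [FiniteDimensional ℝ V]
  [NormedAddCommGroup F'] [NormedSpace ℝ F'] [FiniteDimensional ℝ F']
  {X : Set E} {Y : Set E'} {φ : ℝ → E → E} {q : E → E'} {R : ℝ → W →L[ℝ] W}
  {T : E → W →L[ℝ] V} {P : E → W →L[ℝ] W} {P' : E' → V →L[ℝ] V} {r d d' j : ℕ} {S : Set F'}
  {om : F' → Ext F'} {θ0 : E → Ext E} {e p3 : E' → Ext E'} {f1 : E × W → F'} {ρ R₀ R₁ c w₀ : ℝ}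
  {ξ a Q τ' w Ψ : E' × V → Ext (E' × V)}

theorem Dn.hom (h : St X Y φ q R T P P' r d d' S om θ0 e f1 ρ)
    (D : Dn X φ q R T P om θ0 f1 ξ a Q) (hb : Hom (j + 2) om) (hj : Even j) :
    Dn X φ q R T P om θ0 f1 (dp (j + 1) ξ) (dp (j + 2) a) (dp (3 * j + 4) Q) where
  sx := TP.contDiff_dp _ D.sx
  sa := TP.contDiff_dp _ D.sa
  sQ := TP.contDiff_dp _ D.sQ
  ox := Hom.od (hom_dp _ _) hj.add_one
  ea := Hom.ev (hom_dp _ _) (by
    obtain ⟨k, hk⟩ := hj; exact ⟨k + 1, by omega⟩)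
  px := by
    rw [← dp_pull]
    exact dp_eqv D.px (EA.hom_xi (k := j + 1) hb.pull)
  pa := by
    rw [← dp_pull]
    exact dp_eqv D.pa (hom_aH h.cn.hom.pull hb.pull)
  pQ := by
    rw [← dp_pull]
    exact dp_eqv D.pQ (hom_Qf hb.pull)

theorem St.exists_Dn_hom (h : St X Y φ q R T P P' r d d' S om θ0 e f1 ρ)
    (hb : Hom (j + 2) om) (hj : Even j) :
    ∃ ξ a Q : E' × V → Ext (E' × V), Dn X φ q R T P om θ0 f1 ξ a Q ∧ Hom (j + 1) ξ ∧
      Hom (j + 2) a ∧ Hom (3 * j + 4) Q := by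
  obtain ⟨ξ, a, Q, D⟩ := h.exists_Dn
  exact ⟨_, _, _, D.hom h hb hj, hom_dp _ _, hom_dp _ _, hom_dp _ _⟩

variable [MeasurableSpace V] [BorelSpace V] (μ : Measure V) [μ.IsAddHaarMeasure]

theorem Inp.hom {μ : Measure V} (I : Inp μ d' r Y P' τ' R₁ R₀ e p3 w ξ a Q Ψ c w₀)
    (hx : Hom (j + 1) ξ) (hw : Hom j w) (hj : Even j) :
    Inp μ d' r Y P' τ' R₁ R₀ e p3 w ξ a Q (dp j Ψ) c w₀ :=
  { I with
    sΨ := T.Sm.dp j I.sΨ
    eΨ := Hom.ev (hom_dp _ _) hj
    dΨ := by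
      have h1 := Eqv.dp (j + 1) I.dΨ
      rw [hx.dp_eq] at h1
      exact h1.trans (Eqv.of_eq fun z hz => dp_d j (I.sΨ.diff hz))
    out := by
      have h1 := Eqv.dp j I.out
      rwa [((hom_rx hw).smul c).dp_eq] at h1 }

theorem Inp.hom_x0 {μ : Measure V} (I : Inp μ d' r Y P' τ' R₁ R₀ e p3 w ξ a Q Ψ c w₀)
    (ha : Hom (j + 2) a) (hΨ : Hom j Ψ) (he : Hom 2 e) : Hom (j + 2) I.x0 := by
  have h1 : Hom (2 + j) (pf e * Ψ : E' × V → Ext (E' × V)) := Hom.mul he.pull hΨ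
  rw [add_comm] at h1
  exact (ha.add h1).pull

end main

end Crest.Agent.R208.VE
end
end

-- ▼ part R208/VE12
section

/-! Row 208, block VE (helper812).  VE12: the outputs over the quotient: fibre integrals of the forms
`vv`, the class of the family on the far sphere bundle, the restriction of `x₀`. -/

set_option autoImplicit false
set_option linter.unusedSectionVars false
set_option linter.unusedVariables false

open MeasureTheory Set Filter Topology Module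
open scoped ContDiff
open Crest.Agent.R208.F Crest.Agent.R208.FI Crest.Agent.R208.CW Crest.Agent.R208.T
open Crest.Agent.R208.CM (Cir gen Rep Triv phR Th)
open Crest.Agent.R208.VC
open Crest.Agent.R208.EX (Cn)
open Crest.Agent.R208.TP (QM)

noncomputable section

namespace Crest.Agent.R208.VE

section sc
variable {E H : Type*} [NormedAddCommGroup E] [NormedSpace ℝ E] [FiniteDimensional ℝ E]
  [NormedAddCommGroup H] [InnerProductSpace ℝ H] [FiniteDimensional ℝ H]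
  {X : Set E} {P : E → H →L[ℝ] H} {ρ t : ℝ}

/-- scaling of the fibres -/
def sc (t : ℝ) (z : E × H) : E × H := (z.1, t • z.2)

theorem smap_sc (ht : 0 < t) (h : ρ < t) :
    SMap (Sph X P) (Tot X P ∩ {z | ρ < ‖z.2‖}) (sc (E := E) (H := H) t) := by
  refine ⟨fun z _ => contDiffAt_fst.prodMk (contDiffAt_snd.const_smul t), fun z hz =>
    ⟨⟨hz.1.1, ?_⟩, ?_⟩⟩
  · change P z.1 (t • z.2) = t • z.2
    rw [map_smul, hz.1.2]
  · change ρ < ‖t • z.2‖
    have h1 : ‖z.2‖ = 1 := hz.2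
    rw [norm_smul, h1, mul_one, Real.norm_of_nonneg ht.le]
    exact h

theorem smap_sc' (t : ℝ) : SMap (Sph X P) (Tot X P) (sc (E := E) (H := H) t) := by
  refine ⟨fun z _ => contDiffAt_fst.prodMk (contDiffAt_snd.const_smul t), fun z hz =>
    ⟨hz.1.1, ?_⟩⟩
  change P z.1 (t • z.2) = t • z.2
  rw [map_smul, hz.1.2]

theorem rh_sc (ht : 0 < t) {z : E × H} (hz : z ∈ Sph X P) : rh (sc t z) = z := by
  have h1 : ‖z.2‖ = 1 := hz.2
  change (z.1, ‖t • z.2‖⁻¹ • (t • z.2)) = z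
  rw [norm_smul, h1, mul_one, Real.norm_of_nonneg ht.le, smul_smul, inv_mul_cancel₀ ht.ne',
    one_smul]

/-- restriction of a radial extension to a far sphere bundle -/
theorem pull_sc_rx (w : E × H → Ext (E × H)) (ht : 1 < t) :
    Eqv (Sph X P) (F.pull (sc t) (rx w)) w := by
  have ht0 : 0 < t := zero_lt_one.trans ht
  have h1 : Eqv (Sph X P) (F.pull (sc t) (rx w)) (F.pull (sc t) (F.pull rh w)) :=
    Eqv.pull (smap_sc ht0 ht) (eqv_rx w)
  refine h1.trans ((eqv_pull_pull (smap_sc ht0 ht) smap_rh' (SMap.id (Sph X P)) (fun z hz =>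
    rh_sc ht0 hz) w).trans (Eqv.of_eq fun z _ => F.pull_id w z))

/-- far out on the total space, restriction to the sphere bundle of radius `t` -/
theorem pull_sc_out {w Ψ : E × H → Ext (E × H)} {c R : ℝ} (hR : 1 ≤ R) (ht : R < t)
    (h : Eqv (Tot X P ∩ {z | R < ‖z.2‖}) Ψ (c • rx w)) :
    Eqv (Sph X P) (F.pull (sc t) Ψ) (c • w) := by
  have ht1 : 1 < t := lt_of_le_of_lt hR ht
  have h1 := Eqv.pull (smap_sc (X := X) (P := P) (zero_lt_one.trans ht1) ht) h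
  rw [pull_smul'] at h1
  exact h1.trans ((pull_sc_rx w ht1).smul c)

/-- the pull-back of a form of the base -/
theorem pull_sc_pf (β : E → Ext E) (t : ℝ) :
    Eqv (Sph X P) (F.pull (sc t) (pf β : E × H → Ext (E × H))) (pf β) :=
  eqv_pull_pull (smap_sc' t) smap_fst' smap_fstS (fun _ _ => rfl) β

end sc

section inp
variable {E H : Type} [NormedAddCommGroup E] [NormedSpace ℝ E] [FiniteDimensional ℝ E]
  [NormedAddCommGroup H] [InnerProductSpace ℝ H] [FiniteDimensional ℝ H]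
  [MeasurableSpace H] [BorelSpace H] {μ : Measure H} [μ.IsAddHaarMeasure]
  {d r : ℕ} {X : Set E} {P : E → H →L[ℝ] H} {τ' : E × H → Ext (E × H)} {R₁ R ρ s t : ℝ}
  {e p3 : E → Ext E} {w ξ a Q Ψ : E × H → Ext (E × H)} {c w₀ : ℝ}

/-- the class of `a` on a far sphere bundle -/
theorem Inp.sph_a (h : Inp μ d r X P τ' R₁ R e p3 w ξ a Q Ψ c w₀) (ht : R < t) :
    Coh (Sph X P) (F.pull (sc t) a)
      ((pf h.x0 : E × H → Ext (E × H)) - c • ((pf e : E × H → Ext (E × H)) * w)) := by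
  have h1 : (F.pull (sc t) a : E × H → Ext (E × H)) =
      F.pull (sc t) h.A0 - F.pull (sc t) (pf e : E × H → Ext (E × H)) * F.pull (sc t) Ψ := by
    conv_lhs => rw [h.a_eq]
    rw [pull_sub', pull_mul']
  rw [h1]
  refine Coh.sub ?_ (Coh.of_eqv ?_)
  · exact (h.coh_A0.pull (smap_sc' t)).trans (Coh.of_eqv (pull_sc_pf h.x0 t))
  · have h2 := (pull_sc_pf (X := X) (P := P) e t).mul (pull_sc_out h.hR ht h.out)
    rwa [mul_smul_comm] at h2

/-- far sphere bundles of different radii -/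
theorem coh_radii (hρ : 0 ≤ ρ) (hs : ρ < s) (ht : ρ < t)
    (sa : Sm (Tot X P) a) (ca : Cl (Tot X P ∩ {z | ρ < ‖z.2‖}) a) :
    Coh (Sph X P) (F.pull (sc s) a) (F.pull (sc t) a) := by
  have h1 := coh_homotopy (X := Sph X P) (Y := Tot X P ∩ {z | ρ < ‖z.2‖})
    (Fh := fun p : (E × H) × ℝ => sc (t + p.2 * (s - t)) p.1) (w := a)
    (fun z _ u _ => by unfold sc; fun_prop) (fun z hz u hu => by
      have h2 : ρ < t + u * (s - t) := by
        rcases le_total s t with h | h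
        · nlinarith [hu.1, hu.2]
        · nlinarith [hu.1, hu.2]
      exact (smap_sc (lt_of_le_of_lt hρ h2) h2).maps hz)
    (sa.mono inter_subset_left) ca
  have e1 : (fun y : E × H => sc (t + 1 * (s - t)) y) = sc s := by
    funext y; congr 1; ring
  have e2 : (fun y : E × H => sc (t + 0 * (s - t)) y) = sc t := by
    funext y; congr 1; ring
  rw [e1, e2] at h1
  exact h1

end inp

section main
variable {E E' W V F' : Type} [NormedAddCommGroup E] [NormedSpace ℝ E] [FiniteDimensional ℝ E]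
  [NormedAddCommGroup E'] [NormedSpace ℝ E'] [FiniteDimensional ℝ E']
  [NormedAddCommGroup W] [InnerProductSpace ℝ W] [FiniteDimensional ℝ W]
  [NormedAddCommGroup V] [InnerProductSpace ℝ V] [FiniteDimensional ℝ V]
  [NormedAddCommGroup F'] [NormedSpace ℝ F'] [FiniteDimensional ℝ F']
  {X : Set E} {Y : Set E'} {φ : ℝ → E → E} {q : E → E'} {R : ℝ → W →L[ℝ] W}
  {T : E → W →L[ℝ] V} {P : E → W →L[ℝ] W} {P' : E' → V →L[ℝ] V} {r d d' j : ℕ} {S : Set F'}
  {om : F' → Ext F'} {θ0 : E → Ext E} {e p3 : E' → Ext E'} {f1 : E × W → F'} {ρ R₂ R₁ c w₀ : ℝ}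
  {ξ a Q τ' w Ψ : E' × V → Ext (E' × V)}

/-- far out `a` is the form of the family -/
theorem St.aH_out (h : St X Y φ q R T P P' r d d' S om θ0 e f1 ρ) :
    Eqv (Tot X P ∩ {z | ρ < ‖z.2‖})
      (aH (phR φ R) (F.pull (Prod.fst : E × W → E) θ0) (F.pull f1 om)) (F.pull f1 om) := by
  refine eqv_iff.2 fun z hz => ?_
  have ho : IsOpen {z : E × W | ρ < ‖z.2‖} := isOpen_lt continuous_const (by fun_prop)
  have h1 := rs_aH_const ho h.A h.cn' (fun x hx => h.hf.diff hx) h.dt.sm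
    (fun x hx => h.const x hx.1 hx.2) hz
  exact EX.rs_sub (X' := Tot X P ∩ {z | ρ < ‖z.2‖}) inter_subset_left h1

theorem St.cl_out (h : St X Y φ q R T P P' r d d' S om θ0 e f1 ρ)
    (D : Dn X φ q R T P om θ0 f1 ξ a Q) : Cl (Tot Y P' ∩ {z | ρ < ‖z.2‖}) a := by
  rw [Cl, resZero_iff]
  have h1 := (D.d_a h).mono_tan (X' := Tot Y P' ∩ {z | ρ < ‖z.2‖}) inter_subset_left
  have h2 := ((Eqv.refl (pf e : E' × V → Ext (E' × V))).mul (D.cs_x h)).neg
  rw [mul_zero, neg_zero] at h2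
  exact h1.trans h2

/-- **the family on the far sphere bundle** -/
theorem Dn.sph_fY (h : St X Y φ q R T P P' r d d' S om θ0 e f1 ρ)
    (D : Dn X φ q R T P om θ0 f1 ξ a Q) {t : ℝ} (ht : ρ < t) {fY : E' × V → F'}
    (sf : SMap (Sph Y P') S fY) (hf : ∀ z ∈ Sph X P, fY (Th q T z) = f1 (sc t z)) :
    Eqv (Sph Y P') (F.pull (sc t) a) (F.pull fY om) := by
  have ht0 : 0 < t := lt_of_le_of_lt h.ρ0 ht
  have hQs := UP.qm_sph h.hQ h.hT
  refine hQs.eqv_of_pull ?_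
  have sTs : SMap (Sph X P) (Tot Y P') (fun z => sc t (Th q T z)) :=
    (smap_sc' t).comp hQs.smap
  have h1 : Eqv (Sph X P) (F.pull (Th q T) (F.pull (sc t) a)) (F.pull (fun z => sc t (Th q T z)) a) :=
    eqv_pull_pull hQs.smap (smap_sc' t) sTs (fun _ _ => rfl) a
  have h2 : Eqv (Sph X P) (F.pull (sc t) (F.pull (Th q T) a)) (F.pull (fun z => sc t (Th q T z)) a) :=
    eqv_pull_pull (smap_sc' t) h.hQ.smap sTs (fun z hz => by
      change (q z.1, T z.1 (t • z.2)) = (q z.1, t • T z.1 z.2)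
      rw [map_smul]) a
  have h3 : Eqv (Sph X P) (F.pull (sc t) (F.pull (Th q T) a)) (F.pull (sc t) (F.pull f1 om)) :=
    (Eqv.pull (smap_sc' t) D.pa).trans (Eqv.pull (smap_sc ht0 ht) h.aH_out)
  have h4 : Eqv (Sph X P) (F.pull (sc t) (F.pull f1 om)) (F.pull (fun z => f1 (sc t z)) om) :=
    eqv_pull_pull (smap_sc' t) h.hf (h.hf.comp (smap_sc' t)) (fun _ _ => rfl) om
  have h5 : Eqv (Sph X P) (F.pull (Th q T) (F.pull fY om)) (F.pull (fun z => f1 (sc t z)) om) :=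
    eqv_pull_pull hQs.smap sf (h.hf.comp (smap_sc' t)) hf om
  exact (h1.trans h2.symm).trans ((h3.trans h4).trans h5.symm)

/-- the class upstairs -/
theorem Inp.coh_up [MeasurableSpace V] [BorelSpace V] {μ : Measure V} [μ.IsAddHaarMeasure]
    (h : St X Y φ q R T P P' r d d' S om θ0 e f1 ρ)
    (D : Dn X φ q R T P om θ0 f1 ξ a Q)
    (I : Inp μ d' r Y P' τ' R₁ R₂ e p3 w ξ a Q Ψ c w₀) :
    Coh (Tot X P) (F.pull (Th q T) I.A0) (F.pull f1 om) := by
  set φ' := phR φ R with hφ'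
  set b := F.pull f1 om with hb
  set θ : E × W → Ext (E × W) := F.pull (Prod.fst : E × W → E) θ0 with hθ
  have hA := h.A
  have hcn : Cn (Tot X P) φ' θ := h.cn'
  set Ψ' := F.pull (Th q T) Ψ with hΨ'
  have sΨ' : Sm (Tot X P) Ψ' := I.sΨ.pull h.hQ.smap
  have e1 : Eqv (Tot X P) (F.d Ψ') (xi φ' b) :=
    (d_pull_eqv h.hQ.smap I.sΨ).trans ((I.dΨ.symm.pull h.hQ.smap).trans D.px)
  have e2 : Eqv (Tot X P) (F.pull (Th q T) I.A0) (aH φ' θ b + F.d θ * Ψ') := by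
    have h1 : F.pull (Th q T) I.A0 = F.pull (Th q T) a + F.pull (Th q T) (pf e) * Ψ' := by
      rw [Inp.A0, pull_add', pull_mul']
    rw [h1]
    exact D.pa.add ((D.pull_e h).mul (Eqv.refl Ψ'))
  have sθ : Sm (Tot X P) θ := hcn.sm
  have e3 : Eqv (Tot X P) (F.d (θ * Ψ')) (F.d θ * Ψ' - θ * xi φ' b) := by
    refine (d_mul' sθ sΨ').trans ?_
    have h2 : iv θ = -θ := funext fun z => th_odd hcn z
    rw [h2, neg_mul, ← sub_eq_add_neg]
    exact (Eqv.refl _).sub ((Eqv.refl θ).mul e1)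
  have e4 : Eqv (Tot X P) (aH φ' θ b + F.d θ * Ψ') (Av φ' b + F.d (θ * Ψ')) := by
    refine Eqv.trans (Eqv.of_eq fun z _ => ?_) ((Eqv.refl (Av φ' b)).add e3.symm)
    change Av φ' b z - θ z * xi φ' b z + F.d θ z * Ψ' z =
      Av φ' b z + (F.d θ z * Ψ' z - θ z * xi φ' b z)
    abel
  have e5 : Coh (Tot X P) (Av φ' b + F.d (θ * Ψ')) (b + 0) :=
    Coh.add (coh_Av hA h.sT h.dt.sm h.dt.cl) ⟨θ * Ψ', sθ.mul sΨ', by
      rw [sub_zero]; exact Eqv.refl _⟩
  rw [add_zero] at e5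
  exact (Coh.of_eqv (e2.trans e4)).trans e5

end main

end Crest.Agent.R208.VE
end
end

-- ▼ part R208/UN5
section

/-! Row 208, block UN (helper378).  UN5: the outputs of the evaluation over the quotient (helper812's
VE8-VE12) in the form used by the assembly: constant `n₁`, relation, classes of `vl` and of `x₀`. -/

set_option autoImplicit false
set_option linter.unusedSectionVars false
set_option linter.unusedVariables false

open MeasureTheory Set Filter Topology Module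
open scoped ContDiff
open Crest.Agent.R208.F Crest.Agent.R208.FI Crest.Agent.R208.CW Crest.Agent.R208.T
open Crest.Agent.R208.CM (Cir gen Rep Triv phR Th)
open Crest.Agent.R208.VC
open Crest.Agent.R208.EX (Cn)
open Crest.Agent.R208.TP (QM)
open Crest.Agent.R208.VE

noncomputable section

namespace Crest.Agent.R208.UN

section one
variable {E H : Type} [NormedAddCommGroup E] [NormedSpace ℝ E] [FiniteDimensional ℝ E]
  [NormedAddCommGroup H] [InnerProductSpace ℝ H] [FiniteDimensional ℝ H]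
  [MeasurableSpace H] [BorelSpace H] (μ : Measure H) [μ.IsAddHaarMeasure]
  {X : Set E} {P : E → H →L[ℝ] H} {r d : ℕ} {R R₁ : ℝ} {τ' ξ : E × H → Ext (E × H)}

theorem hom_cut {j : ℕ} (h : Hom j ξ) : Hom j (cutH R ξ) := fun z => by
  rw [cutH]; exact (h z).smul _

/-- the fibre integral of a closed form of degree `r` is a constant -/
theorem exists_n1 (hX : Sub d X) (hXc : IsPreconnected X) (hR : 0 ≤ R) (hP : PField X r P)
    (hC : Co X P R₁ τ') {q' : ℕ} (hτ : Hom q' τ') (hq : q' + r = finrank ℝ H)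
    (sx : Sm (Tot X P) ξ) (cl : Cl (Tot X P) ξ) (kx : Cs X P R ξ) (hx : Hom r ξ) :
    ∃ n₁ : ℝ, Coh X (pu μ P τ' R ξ) (n₁ • (1 : E → Ext E)) := by
  have s1 : Sm X (pu μ P τ' R ξ) := pu_sm μ hR hP hC sx
  have c1 : Cl X (pu μ P τ' R ξ) := pu_cl μ hR hP hC hX sx kx cl
  have h0 : Hom 0 (pu μ P τ' R ξ) := by
    have hx' : Hom (0 + r) (cutH R ξ) := by rw [zero_add]; exact hom_cut hx
    exact TP.hom_push μ (P := P) hτ hx' hq
  obtain ⟨c, hc⟩ := const_of_closed hX hXc s1 c1 h0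
  refine ⟨c, Coh.of_eqv (Eqv.of_eq fun x hx => ?_)⟩
  rw [hc x hx, Algebra.algebraMap_eq_smul_one]
  rfl

end one

section main
variable {E E' W V F' : Type} [NormedAddCommGroup E] [NormedSpace ℝ E] [FiniteDimensional ℝ E]
  [NormedAddCommGroup E'] [NormedSpace ℝ E'] [FiniteDimensional ℝ E']
  [NormedAddCommGroup W] [InnerProductSpace ℝ W] [FiniteDimensional ℝ W]
  [NormedAddCommGroup V] [InnerProductSpace ℝ V] [FiniteDimensional ℝ V]
  [NormedAddCommGroup F'] [NormedSpace ℝ F'] [FiniteDimensional ℝ F']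
  [MeasurableSpace V] [BorelSpace V] {μ : Measure V} [μ.IsAddHaarMeasure]
  {X : Set E} {Y : Set E'} {φ : ℝ → E → E} {q : E → E'} {R : ℝ → W →L[ℝ] W}
  {T : E → W →L[ℝ] V} {P : E → W →L[ℝ] W} {P' : E' → V →L[ℝ] V} {r d d' j : ℕ} {S : Set F'}
  {om : F' → Ext F'} {θ0 : E → Ext E} {e p3 : E' → Ext E'} {f1 : E × W → F'} {ρ R₂ R₁ c w₀ : ℝ}
  {ξ a Q τ' w Ψ : E' × V → Ext (E' × V)}

theorem ev_pow {e : E' → Ext E'} (h : Ev e) : ∀ n : ℕ, Ev (e ^ n)
  | 0 => fun x => by rw [pow_zero, Pi.one_apply, map_one]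
  | n + 1 => by rw [pow_succ]; exact (ev_pow h n).mul h

/-- **evaluation of `vl` over the quotient** -/
theorem eval_vl (h : St X Y φ q R T P P' r d d' S om θ0 e f1 ρ)
    (D : Dn X φ q R T P om θ0 f1 ξ a Q)
    (I : Inp μ d' r Y P' τ' R₁ R₂ e p3 w ξ a Q Ψ c w₀)
    {v : E' × V → Ext (E' × V)} (sv : Sm (Tot Y P') v) {R' : ℝ} (hR' : 0 ≤ R') (hRR : R' ≤ R₂)
    (kv : Cs Y P' R' v) {p p' : ℕ} {l s t : ℝ}
    (hv : Eqv (Tot X P) (F.pull (Th q T) v)
      (vl (phR φ R) (F.d (F.pull (Prod.fst : E × W → E) θ0)) p p' l s t (F.pull f1 om))) :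
    Coh Y (pu μ P' τ' R' v)
      (-(l * (2 * c ^ 3 * w₀)) • (p3 * I.x0 * e) - (s * (c * w₀)) • e ^ p
        - (t * (c * w₀)) • (I.x0 * e ^ p')) := by
  have h1 := pu_radius μ hR' I.hP I.hC hRR sv kv
  have se : ∀ n : ℕ, Sm Y (e ^ n) := fun n => I.se.pow n
  have s2 : Sm (Tot Y P')
      (l • (ξ * Q) - s • (pf (e ^ p) * ξ) - t • (pf (e ^ p') * (a * ξ)) : E' × V → Ext (E' × V)) :=
    (((I.sx.mul I.sQ).smul l).sub ((((se p).pull smap_fst').mul I.sx).smul s)).sub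
      ((((se p').pull smap_fst').mul (I.sa.mul I.sx)).smul t)
  have h2 := pu_eqv μ I.R0 I.hP I.hC sv s2 (D.pv h hv)
  exact (Coh.of_eqv (h1.trans h2)).trans (I.main (se p) (Cl.pow I.se I.ce p) (ev_pow I.ee p)
    (se p') (Cl.pow I.se I.ce p') (ev_pow I.ee p') l s t)

/-- the relation, divided -/
theorem rel_div (I : Inp μ d' r Y P' τ' R₁ R₂ e p3 w ξ a Q Ψ c w₀) (hc : c ≠ 0) (hw : w₀ ≠ 0) :
    Coh Y ((3 : ℝ) • (I.x0 * I.x0) + (c ^ 2) • (p3 * (e * e))) 0 := by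
  have h1 := Coh.smul_zero' (3 / (c * w₀)) I.relation
  rw [smul_add, smul_smul, smul_smul] at h1
  convert h1 using 3
  · field_simp
  · field_simp

/-- restriction of `x₀` -/
theorem coh_zs (h : St X Y φ q R T P P' r d d' S om θ0 e f1 ρ)
    (D : Dn X φ q R T P om θ0 f1 ξ a Q)
    (I : Inp μ d' r Y P' τ' R₁ R₂ e p3 w ξ a Q Ψ c w₀) :
    Coh X (F.pull q I.x0) (F.pull (fun x => f1 (x, 0)) om) := by
  have h1 := (Inp.coh_up h D I).pull (smap_zs (X := X) (P := P))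
  have e1 : Eqv X (F.pull (zs (E := E) (H := W)) (F.pull (Th q T) I.A0)) (F.pull q I.x0) := by
    have hz : SMap Y (Tot Y P') (zs (E := E') (H := V)) := smap_zs
    have sk : SMap X (Tot Y P') (fun x => zs (q x)) := hz.comp h.hq.smap
    refine (eqv_pull_pull smap_zs h.hQ.smap sk (fun x hx => ?_) I.A0).trans
      (eqv_pull_pull h.hq.smap hz sk (fun _ _ => rfl) I.A0).symm
    change (q x, T x 0) = (q x, 0)
    rw [map_zero]
  have e2 : Eqv X (F.pull (zs (E := E) (H := W)) (F.pull f1 om))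
      (F.pull (fun x => f1 (x, 0)) om) :=
    eqv_pull_pull smap_zs h.hf (h.hf.comp smap_zs) (fun _ _ => rfl) om
  exact (Coh.of_eqv e1.symm).trans (h1.trans (Coh.of_eqv e2))

end main

end Crest.Agent.R208.UN
end
end

-- ▼ part R208/UN1
section

/-! Row 208, block UN (helper378).  UN1: the radial integral of an exact form over the sphere of a
fibre. -/

set_option autoImplicit false
set_option linter.unusedSectionVars false
set_option linter.unusedVariables false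

open MeasureTheory Set Filter Topology Module
open scoped ContDiff
open Crest.Agent.R208.F Crest.Agent.R208.FI Crest.Agent.R208.CW Crest.Agent.R208.T

noncomputable section

namespace Crest.Agent.R208.UN

universe u w

variable {E : Type u} {H : Type w} [NormedAddCommGroup E] [NormedSpace ℝ E] [FiniteDimensional ℝ E]
  [NormedAddCommGroup H] [InnerProductSpace ℝ H] [FiniteDimensional ℝ H]
  {X : Set E} {P : E → H →L[ℝ] H} {r d : ℕ} {R c : ℝ}
  {W ξ Ψ o : E × H → Ext (E × H)} {lam : ℝ → ℝ} {Z : Set (E × H)} {x : E}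

/-- the dilation by `t` in the fibres -/
def dl (t : ℝ) (q : E × H) : E × H := (q.1, t • q.2)












end Crest.Agent.R208.UN
end
end

-- ▼ part R208/UN3
section

/-! Row 208, block UN (helper378).  UN3: the value of the coefficient `c` and of `n₁ = c w₀`. -/

set_option autoImplicit false
set_option linter.unusedSectionVars false
set_option linter.unusedVariables false

open MeasureTheory Set Filter Topology Module
open scoped ContDiff RealInnerProductSpace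
open Crest.Agent.R208.F Crest.Agent.R208.FI Crest.Agent.R208.CW Crest.Agent.R208.T
open Crest.Agent.R208.CM (Cir Rep Triv Emb Quo Qd MM jj Th)
open Crest.Agent.R208.SB (OPr OddB oV clo_Sph)
open Crest.Agent.R208.UP (SyOn UPr)

noncomputable section

namespace Crest.Agent.R208.UN

section fib
variable {E E' H n ι : Type} [NormedAddCommGroup E] [NormedSpace ℝ E] [FiniteDimensional ℝ E]
  [NormedAddCommGroup E'] [NormedSpace ℝ E'] [FiniteDimensional ℝ E']
  [NormedAddCommGroup H] [InnerProductSpace ℝ H] [FiniteDimensional ℝ H]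
  [Fintype n] [DecidableEq n] [Fintype ι] [DecidableEq ι]
  {X : Set E} {Y : Set E'} {φ : ℝ → E → E} {R : ℝ → H →L[ℝ] H} {q : E → E'}
  {T : E → H →L[ℝ] EuclideanSpace ℝ n} {P : E → H →L[ℝ] H}
  {P' : E' → EuclideanSpace ℝ n →L[ℝ] EuclideanSpace ℝ n} {oP' : E' → Ext (EuclideanSpace ℝ n)}
  {r : ℕ} {x : E}


end fib

/-! ### numbers -/

section num
variable {ι ι' : Type*} [Fintype ι] [Fintype ι'] {c w₀ Δ : ℝ}

theorem tau_succ (h : Fintype.card ι = Fintype.card ι' + 1) :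
    XF.tau ι = 4 * Real.pi * (Fintype.card ι' + 1 : ℝ) * XF.tau ι' := by
  unfold XF.tau
  rw [h, Nat.factorial_succ, pow_succ]
  push_cast
  ring


/-- **(n1)** -/
theorem abs_n1 (hc : 2 * Real.pi * (|c| * (2 * XF.tau ι')) = XF.tau ι)
    (hw : |w₀| = Δ * (2 * XF.tau ι')) : |c * w₀| = Δ * XF.tau ι / (2 * Real.pi) := by
  have h2 := Real.pi_pos
  rw [abs_mul, hw, eq_div_iff (by positivity)]
  linear_combination Δ * hc

end num

end Crest.Agent.R208.UN
end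
end

-- ▼ part R208/SC1

/-! Row 208, block SC (helper349): the class side `Cls82` over the package `Gm82`. -/

set_option autoImplicit false
set_option linter.unusedSectionVars false
set_option linter.unusedVariables false

open MeasureTheory Set Filter Topology Module
open scoped ContDiff RealInnerProductSpace Real
open Crest.GeometryTopology.Submanifold
open Crest.Agent.R241.DDefs Crest.Agent.R241.D Crest.Agent.R241.D2
open Crest.Agent.R208.F Crest.Agent.R208.FI Crest.Agent.R208.CW Crest.Agent.R208.T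
open Crest.Agent.R208.CM (Cir gen Rep Triv Qd phR Th gf Emb Quo MM jj Curv)
open Crest.Agent.R208.LB (al)
open Crest.Agent.R208.VC hiding Wt
open Crest.Agent.R208.EX
open Crest.Agent.R208.FT (D2 XI RN xiN gp lev)
open Crest.Agent.R208.FL (D0 D1 Ph)
open Crest.Agent.R208.NN (Wt Rt nuP)
open Crest.Agent.R208.TP (QM TT CV pu₁ pu₂ push up)
open Crest.Agent.R208.MS (Fam oc En)
open Crest.Agent.R208.EW (cR)
open Crest.Agent.R208.EP (topr)
open Crest.Agent.R208.SN (kGG)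

noncomputable section

namespace Crest.Agent.R208.SC

section cls
variable {N K m m' c s' c₂ l₀ : ℕ} {κ : ℝ} {S : Set (Euc N)} {G : Geo 16 N κ S}
  {lg : Euc N → Euc N → Euc N} {ρ : Euc N → Euc N} {r C r' Kr B w δ δ₂ : ℝ}
  {PN : Euc N × Euc N → Wt N K →L[ℝ] Wt N K}
  {h : GT.Bla G (2 * 3 + 2)} {g : Euc N × Euc N → Fin m → ℂ} {Fc : MM m → Ext (MM m)}
  {g' : (Euc N × Euc N) × HW.U l₀ → Fin m' → ℂ} {p : MM m' → MM m}
  {T : Euc N × Euc N → Wt N K →L[ℝ] EuclideanSpace ℝ (Fin (2 * c + 1))}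
  {P' : MM m → EuclideanSpace ℝ (Fin (2 * c + 1)) →L[ℝ] EuclideanSpace ℝ (Fin (2 * c + 1))}
  {o' : MM m → Ext (EuclideanSpace ℝ (Fin (2 * c + 1)))}
  {W' : MM m → (Fin (s' + 1) × Fin 2 → Fin (2 * c + 1)) → ℝ}
  {oN : Euc N × Euc N → Ext (Wt N K)}
  {T₂ : (Euc N × Euc N) × HW.U l₀ →
    EuclideanSpace ℝ (((Fin K × Fin 2) × Fin N) ⊕ ((Fin K × Fin 2) × Fin N)) →L[ℝ]
      EuclideanSpace ℝ (Fin (2 * c₂))}
  {P₂' : MM m' → EuclideanSpace ℝ (Fin (2 * c₂)) →L[ℝ] EuclideanSpace ℝ (Fin (2 * c₂))}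
  {W₂' : MM m' → (Fin (2 * 3 + 1) × Fin 2 → Fin (2 * c₂)) → ℝ}
  {W₀ : Euc N × Euc N → (Fin 4 × Fin 2 → Fin N) → ℝ}
  {p₀ : Euc N} {x : Euc N → Ext (Euc N)} {ε E₀ η : ℝ} {J : ℕ}

/-- the setting of VE over the package -/
theorem st (Q : Gm82 h K l₀ lg ρ r C r' Kr B w δ δ₂ PN g Fc g' p T P' o' W' oN T₂ P₂' W₂')
    (M : Crest.Agent.R208.T.XM (k := 8) h 2 W₀ p₀ x)
    (h1 : D1 G (2 * 3 + 2) K lg ρ r C r' Kr B w δ PN ε J E₀ η) :
    VE.St (L.US G) (Quo (L.US G) g) (gf G) (jj g) (fun t => Rt (nuP K) t) T PN P' (2 * 3 + 1)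
      (2 * (16 - 1) + 1) (2 * (16 - 1)) S x (al (N := N)) Fc (FL.f1 G lg ρ w J ε) (3 / 2) where
  act := Act.of_cir Q.cir
  hq := TP.qm_jj Q.emb Q.cir Q.clo
  hQ := (TP.qm_jj Q.emb Q.cir Q.clo).tot Q.cir FL.rep_Rt Q.dsc.triv (pfield_PN Q.d0)
    (fun x hx t w => Q.d0.neg.equi x hx t w) Q.dsc.smP.continuous.continuousOn Q.dsc.eqP
  hC := Q.d0.cir
  hT := Q.dsc.triv
  hX := Q.clo.sub
  hP := pfield_PN Q.d0
  hY := (Q.emb.clo_Quo Q.cir Q.clo).sub
  hP' := Q.dsc.pf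
  cn := Q.cn
  hf := ⟨h1.fam.smooth, h1.fam.maps⟩
  dat := ⟨M.sx, M.cx, fun z _ => SO.inv_of_hom_even M.dx ⟨4, rfl⟩ z,
      SO.eqv_zero_of_gt (FV.sub_S h.bl) ((M.dx.mul M.dx).mul M.dx) (by norm_num)⟩
  const := fun y hy h2 t => h1.f1_const hy (by nlinarith [norm_nonneg y.2]) t
  ρ0 := by norm_num
  se := Q.curv.sm
  ce := Q.curv.cl
  ee := VE.Hom.ev Q.curv.hom (by decide)
  he := Q.curv.pull

/-- the closed even forms `p₃` -/
theorem ec_p3 {d : ℕ} {Y : Set (MM m)} (hY : Sub d Y) (hP : PField Y (2 * 3 + 1) P') (t : ℝ) :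
    EC Y (t • cR 6 P') := (EW.ec_cfr hY (EW.idF_of_pfield hP) 6).smul t

set_option maxHeartbeats 1600000 in
/-- **the class side** -/
theorem exists_Cls82
    (Q : Gm82 h K l₀ lg ρ r C r' Kr B w δ δ₂ PN g Fc g' p T P' o' W' oN T₂ P₂' W₂')
    (M : Crest.Agent.R208.T.XM (k := 8) h 2 W₀ p₀ x)
    (h1 : D1 G (2 * 3 + 2) K lg ρ r C r' Kr B w δ PN ε J E₀ η) :
    ∃ (x0 : MM m → Ext (MM m)) (fY : MM m × EuclideanSpace ℝ (Fin (2 * c + 1)) → Euc N)
      (l n₁ : ℝ), ZA.Cls82 G K lg ρ w J ε PN g Fc T P' o' W' x (XF.tau (Fin 4)) x0 fY l n₁ := by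
  have hst := st Q M h1
  have hY := hst.hY
  have hYc : IsPreconnected (Quo (L.US G) g) :=
    GQ.preconn_Quo Q.emb (FV.preconn_US h.bl (by norm_num))
  obtain ⟨z₀, hz₀⟩ : (L.US G).Nonempty := Crest.Agent.R208.T.nonempty_UST h M.hp
  -- the descended forms
  obtain ⟨ξ, a, Qf', D, dξ, da, dQ⟩ := hst.exists_Dn_hom (j := 6) M.dx (by decide)
  -- the vertical Euler form and its constant
  have ob : SB.OddB (Fin 3) (Quo (L.US G) g) (2 * 3) P' o' := VD.oddB Q.dsc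
  obtain ⟨w₀, hw1, hw0, hw⟩ := VD.dsc_th1 (by norm_num) Q.dsc hY hYc
  have hCo := Q.dsc.co hY
  have hec : EC (Sph (Quo (L.US G) g) P') (SB.OddB.eV (Fin 3) (VD.hr_fin 3) P' o') := ob.ec_eV
  have hwh : Hom 6 (SB.OddB.eV (Fin 3) (VD.hr_fin 3) P' o') := SB.OddB.hom_eV _
  have hp3 := ec_p3 hY hst.hP' 2304
  have hp3h : Hom 12 ((2304 : ℝ) • cR 6 P') :=
    Hom.smul _ (fun y => EW.hom_cfr 6 y)
  have W2 : Coh (Sph (Quo (L.US G) g) P')
      (SB.OddB.eV (Fin 3) (VD.hr_fin 3) P' o' * SB.OddB.eV (Fin 3) (VD.hr_fin 3) P' o')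
      (VE.pf ((2304 : ℝ) • cR 6 P')) := by
    have h2 := ob.sq_eV hY
    have hnE : VX.nE (Fin 3) ^ 2 = 2304 := by norm_num [VX.nE, Nat.factorial]
    rwa [hnE, ← pull_smul'] at h2
  -- the number `n₁`
  have hτ : Hom (2 * (s' + 1)) (thomF (fun y => 1 - P' y) W') := fun z => by
    have h2 := thomF_deg (P := fun y => 1 - P' y) (W := W') z
    rwa [Fintype.card_fin] at h2
  obtain ⟨n₁, hn₁⟩ := UN.exists_n1 (volume : Measure (EuclideanSpace ℝ (Fin (2 * c + 1)))) hY hYc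
    (R := 3) (by norm_num) hst.hP' hCo hτ (by rw [finrank_euclideanSpace_fin, Q.dsc.dim]) D.smx
    (D.cl_x hst) ((D.cs_x hst).mono (by norm_num)) dξ
  have hcw : n₁ / w₀ * w₀ = n₁ := div_mul_cancel₀ _ hw0
  -- the input of the evaluation theorem
  obtain ⟨R₂, hR₂, Ψ, I0⟩ := VE.exists_Inp (volume : Measure (EuclideanSpace ℝ (Fin (2 * c + 1))))
    (c := n₁ / w₀) hst D hCo (R₀ := 3) (by norm_num) (by norm_num) hp3.sm hp3.cl
    (VE.Hom.ev hp3h (by decide)) hec.sm hec.cl (VE.Hom.ev hwh (by decide)) W2 hw0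
    (hw 3 (by norm_num)).1 (by rw [hcw]; exact hn₁)
  have I := I0.hom dξ hwh (by decide)
  have hc4 : |n₁ / w₀| = 4 := by
    have h2 := CG.c_val h1 (M := M) (r := 6) rfl (by norm_num) hst D Q.dsc.eqP hz₀ ob rfl I.sΨ I.dΨ
      I.sW I.out (by norm_num)
    rw [h2, Fintype.card_fin]
    norm_num
  have hτ4 : 2 * Real.pi * (|n₁ / w₀| * (2 * XF.tau (Fin 3))) = XF.tau (Fin 4) := by
    rw [hc4, UN.tau_succ (ι := Fin 4) (ι' := Fin 3) (by simp), Fintype.card_fin]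
    push_cast
    ring
  have hne : n₁ / w₀ ≠ 0 := fun h0 => by
    rw [h0, abs_zero] at hc4
    norm_num at hc4
  -- the end map
  have hQs := UP.qm_sph hst.hQ hst.hT
  have s2 : SMap (Sph (L.US G) PN) (Tot (L.US G) PN) (VE.sc (2 : ℝ)) := VE.smap_sc' 2
  obtain ⟨fY, sfY, efY⟩ := ZG.exists_fun hQs (f := fun z => FL.f1 G lg ρ w J ε (VE.sc 2 z))
    (hst.hf.comp s2).smooth (fun z hz t => by
      have hz2 := s2.maps hz
      have h3 : VE.sc 2 (phR (gf G) (fun t => Rt (nuP K) t) t z) =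
          phR (gf G) (fun t => Rt (nuP K) t) t (VE.sc 2 z) := by
        change (_, (2 : ℝ) • Rt (nuP K) t z.2) = (_, Rt (nuP K) t ((2 : ℝ) • z.2))
        rw [map_smul]
        rfl
      change FL.f1 G lg ρ w J ε (VE.sc 2 (phR (gf G) (fun t => Rt (nuP K) t) t z)) = _
      rw [h3]
      refine hst.const _ hz2 ?_ t
      change 3 / 2 < ‖(2 : ℝ) • z.2‖
      have h4 : ‖z.2‖ = 1 := hz.2
      rw [norm_smul, h4]
      norm_num)
  have smfY : SMap (Sph (Quo (L.US G) g) P') S fY := ⟨fun y _ => sfY.contDiffAt, fun y hy => by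
    obtain ⟨z, hz, rfl⟩ := hQs.surj y hy
    rw [efY z hz]
    exact (hst.hf.comp s2).maps hz⟩
  -- the classes
  have k1 : Coh (Sph (Quo (L.US G) g) P') (F.pull fY x) (F.pull Prod.fst I.x0 +
      (-(n₁ / w₀)) • (F.pull Prod.fst Fc * SB.OddB.eV (Fin 3) (VD.hr_fin 3) P' o')) := by
    have e1 := D.sph_fY hst (t := 2) (by norm_num) smfY efY
    have e2 := VE.coh_radii (X := Quo (L.US G) g) (P := P') (s := 2) (t := R₂ + 1) (a := a)
      hst.ρ0 (by norm_num) (by linarith) I.sa (hst.cl_out D)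
    have e3 := I.sph_a (t := R₂ + 1) (by linarith)
    have e4 := (Coh.of_eqv e1.symm).trans (e2.trans e3)
    rwa [sub_eq_add_neg, ← neg_smul] at e4
  have k2 : Coh (L.US G) (F.pull Prod.fst x) (F.pull (jj g) I.x0) := by
    have e1 := UN.coh_zs hst D I
    have hz0 : SMap (L.US G) (Tot (L.US G) PN) (zs (E := Euc N × Euc N) (H := Wt N K)) :=
      smap_zs
    have e2 : Eqv (L.US G) (F.pull (fun z => FL.f1 G lg ρ w J ε (z, (0 : Wt N K))) x)
        (F.pull Prod.fst x) :=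
      eqv_pull_of_eq x (fun z hz => (hst.hf.comp hz0).diff hz) (fun z hz => differentiableAt_fst)
        fun z hz => h1.f1_zero hz
    exact (e1.trans (Coh.of_eqv e2)).symm
  refine ⟨I.x0, fY, -(n₁ / w₀), n₁, ?_⟩
  exact
    { sx := I.sx0
      cx := I.cx0
      dx := I.hom_x0 da (hom_dp _ _) Q.curv.hom
      hx := k2
      hl := by rw [neg_sq, ← sq_abs, hc4]; norm_num
      hrel := by
        rw [neg_sq]
        exact UN.rel_div I hne hw0
      sfY := smfY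
      efY := efY
      hfY := k1
      hn := by
        have h2 := UN.abs_n1 hτ4 hw1
        rw [hcw] at h2
        rw [h2]
        field_simp
      v1 := fun rr ss V' v1 v2 v3 v4 => by
        have h2 := UN.eval_vl hst D I (v := V') (fun z _ => v1.contDiffAt) (R' := 3 / 2)
          (by norm_num) (by linarith) v3 (p := 11) (p' := 7) (l := 1) (s := rr) (t := ss)
          (by rw [VE.vl_one]; exact v4)
        rw [hcw] at h2
        have h3 : (-(1 * (2 * (n₁ / w₀) ^ 3 * w₀)) : ℝ) = -(1 * (2 * (-(n₁ / w₀)) ^ 2 * n₁)) := by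
          rw [neg_sq]
          nth_rewrite 3 [← hcw]
          ring
        rw [ZA.ve, ← h3]
        exact h2
      v2 := fun E hE1 hE2 hE3 V' v1 v2 v3 v4 => by
        have h2 := UN.eval_vl hst D I (v := V') v1 (R' := 2)
          (by norm_num) (by linarith) v3 (p := 11) (p' := 7) (l := 4) (s := E.r * 2 * (1 / 2) ^ 11)
          (t := E.s * 2 * (1 / 2) ^ 7) (by
            refine v4.trans ?_
            rw [hE1, hE2, hE3]
            exact VE.vl_two hst.A hst.dt)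
        rw [hcw] at h2
        have h3 : (-(4 * (2 * (n₁ / w₀) ^ 3 * w₀)) : ℝ) = -(4 * (2 * (-(n₁ / w₀)) ^ 2 * n₁)) := by
          rw [neg_sq]
          nth_rewrite 3 [← hcw]
          ring
        have h4 : E.r * 2 * (1 / 2) ^ 11 * n₁ = E.r / 1024 * n₁ := by ring
        have h5 : E.s * 2 * (1 / 2) ^ 7 * n₁ = E.s / 64 * n₁ := by ring
        rw [h3, h4, h5, sub_eq_add_neg, sub_eq_add_neg, ← neg_smul, ← neg_smul] at h2
        exact h2 }

end cls

end Crest.Agent.R208.SC
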