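import Crest.Agent.R208.KG8
import Crest.Agent.R208.AK2
import Crest.Agent.R208.AK5
import Crest.Agent.R208.TP2
import Crest.Agent.R208.SB3
import Crest.Agent.R208.OE1

-- ▼ part R208/KG9
section

/-!
Row 208, block KG (helper10), part KG9: the family of rounded chains near the diagonal in
helper952's format `AK.LFam`, its linearisation, and the negativity of the index form on it.
-/

set_option autoImplicit false

open Set Filter Topology MeasureTheory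
open scoped ContDiff RealInnerProductSpace Interval
open Crest.GeometryTopology.Submanifold
open Crest.Agent.R241.DDefs
open Crest.Agent.R241.D2
open Crest.Agent.R241.D3c
open Crest.Agent.R208.L (dfl)
open Crest.Agent.R208.FV

noncomputable section

namespace Crest.Agent.R208.KG

variable {n N : ℕ} {κ : ℝ} {S : Set (Euc N)} {G : Geo n N κ S} {m k : ℕ} [NeZero m] {ε : ℝ}
  {x : Euc N × Euc N} {ζ : Fin m → Euc N}

/-! ### the field of null directions -/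



lemma mem_Vs_self (hx : x ∈ L.US G) : x.2 ∈ GT.Vs G x.1 (Exp G x.1 (Real.pi • x.2)) :=
  GT.mem_Vs hx.1.2 hx.2

lemma PVB_eq_self (h : GT.Bla G k) (hx : x ∈ L.US G) {a : Euc N} :
    PVB h (phi G x) a = a ↔ a ∈ GT.Vs G x.1 (Exp G x.1 (Real.pi • x.2)) :=
  PV_eq_self h.bl h.ty (sub_S h.bl) (phi_mem h.bl hx)



/-! ### the family over the tube, period `mπ` -/

/-- period `mπ`, unit speed on the diagonal -/
def FT (G : Geo n N κ S) (m : ℕ) [NeZero m] (ε : ℝ)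
    (q : ((Euc N × Euc N) × (Fin m → Euc N)) × ℝ) : Euc N :=
  F G m ε (tub q.1.1 q.1.2) 0 (2 / m * q.2)







/-! ### negativity -/




end Crest.Agent.R208.KG
end
end

-- ▼ part R208/TU1
section

/-!
Row 208, block TU (helper10), part TU1: the tube `Psi` from the total space of `P₂ ⊕ P₁` over `US`
into the nested sphere bundle `N4 h` (and the two-arc version): smoothness, values, injectivity,
injectivity of the derivative on the tangent spaces.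
-/

set_option autoImplicit false
set_option linter.unusedSectionVars false

open Set Filter Topology MeasureTheory
open scoped ContDiff RealInnerProductSpace Interval
open Crest.GeometryTopology.Submanifold
open Crest.Agent.R241.DDefs
open Crest.Agent.R241.D2
open Crest.Agent.R241.D3c
open Crest.Agent.R208.NN (V0 qq)
open Crest.Agent.R208.FV (PVB phi phi_mem PV_eq_self)
open Crest.Agent.R208.FI (Tan Sub Clo PField Tot)
open Crest.Agent.R208.KG (N2 N3 N4 nest4 nest2)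
open Crest.Agent.R208.AK (nrm norm_nrm nrm_self contDiffAt_nrm norm_sq_add add_ne_zero' kap V0_inner)

noncomputable section

namespace Crest.Agent.R208.TU

variable {n N k : ℕ} {κ : ℝ} {S : Set (Euc N)} {G : Geo n N κ S}

/-! ### the inverse of `u ↦ nrm (v + u)` -/

/-- inverse of `u ↦ nrm (v + u)` -/
def inv1 (v x : Euc N) : Euc N := (⟪x, v⟫ : ℝ)⁻¹ • x - v

lemma inner_nrm {v u : Euc N} (hv : ‖v‖ = 1) (hu : ⟪u, v⟫ = 0) :
    (⟪nrm (v + u), v⟫ : ℝ) = ‖v + u‖⁻¹ := by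
  rw [nrm, real_inner_smul_left, inner_add_left, hu, real_inner_self_eq_norm_sq, hv]
  ring

lemma inner_nrm_pos {v u : Euc N} (hv : ‖v‖ = 1) (hu : ⟪u, v⟫ = 0) :
    (0 : ℝ) < ⟪nrm (v + u), v⟫ := by
  rw [inner_nrm hv hu]
  exact inv_pos.2 (norm_pos_iff.2 (add_ne_zero' hv hu))

lemma inv1_nrm {v u : Euc N} (hv : ‖v‖ = 1) (hu : ⟪u, v⟫ = 0) : inv1 v (nrm (v + u)) = u := by
  have h0 : ‖v + u‖ ≠ 0 := norm_ne_zero_iff.2 (add_ne_zero' hv hu)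
  rw [inv1, inner_nrm hv hu, inv_inv, nrm, smul_smul, mul_inv_cancel₀ h0, one_smul,
    add_sub_cancel_left]

lemma contDiffAt_inv1 {v x : Euc N} (h : (⟪x, v⟫ : ℝ) ≠ 0) :
    ContDiffAt ℝ ∞ (fun p : Euc N × Euc N => inv1 p.1 p.2) (v, x) := by
  have h1 : ContDiffAt ℝ ∞ (fun p : Euc N × Euc N => (⟪p.2, p.1⟫ : ℝ)) (v, x) :=
    contDiffAt_snd.inner ℝ contDiffAt_fst
  exact ((h1.inv h).smul contDiffAt_snd).sub contDiffAt_fst

/-- functions which agree on `X` have the same derivative on the tangent space -/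
theorem fderiv_eq_on {E F : Type*} [NormedAddCommGroup E] [NormedSpace ℝ E]
    [NormedAddCommGroup F] [NormedSpace ℝ F] {X : Set E} {f g : E → F} {x : E}
    (hf : DifferentiableAt ℝ f x) (hg : DifferentiableAt ℝ g x) (h : ∀ y ∈ X, f y = g y) {v : E}
    (hv : v ∈ Tan X x) : fderiv ℝ f x v = fderiv ℝ g x v := by
  induction hv using Submodule.span_induction with
  | mem v hv =>
    obtain ⟨γ, h0, hγ, hX⟩ := hv
    subst h0
    have h1 : HasDerivAt (fun t => f (γ t)) (fderiv ℝ f (γ 0) v) 0 :=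
      hf.hasFDerivAt.comp_hasDerivAt 0 hγ
    have h2 : HasDerivAt (fun t => g (γ t)) (fderiv ℝ g (γ 0) v) 0 :=
      hg.hasFDerivAt.comp_hasDerivAt 0 hγ
    have h3 : (fun t => f (γ t)) =ᶠ[𝓝 0] fun t => g (γ t) := by
      filter_upwards [hX] with t h3 using h _ h3
    exact (h1.congr_of_eventuallyEq h3.symm).unique h2
  | zero => rw [map_zero, map_zero]
  | add x y _ _ hx hy => rw [map_add, map_add, hx, hy]
  | smul a x _ hx => rw [map_smul, map_smul, hx]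

variable {H₁ H₂ : Type*} [NormedAddCommGroup H₁] [InnerProductSpace ℝ H₁] [FiniteDimensional ℝ H₁]
  [NormedAddCommGroup H₂] [InnerProductSpace ℝ H₂] [FiniteDimensional ℝ H₂]
  {P₁ : Euc N × Euc N → H₁ →L[ℝ] H₁} {P₂ : Euc N × Euc N → H₂ →L[ℝ] H₂}

/-- linear map from the fibres of `P₂ ⊕ P₁` to `V₀³` (first entry zero), injective. -/
structure LinK (h : GT.Bla G k) (P₂ : Euc N × Euc N → H₂ →L[ℝ] H₂)
    (P₁ : Euc N × Euc N → H₁ →L[ℝ] H₁)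
    (Lz : Euc N × Euc N → (H₂ × H₁) →L[ℝ] (Fin 4 → Euc N)) : Prop where
  smooth : ∀ z ∈ L.US G, ContDiffAt ℝ ∞ Lz z
  mem : ∀ z ∈ L.US G, ∀ ζ : H₂ × H₁, P₂ z ζ.1 = ζ.1 → P₁ z ζ.2 = ζ.2 → ∀ i, Lz z ζ i ∈ V0 G z
  zero : ∀ z ∈ L.US G, ∀ ζ : H₂ × H₁, P₂ z ζ.1 = ζ.1 → P₁ z ζ.2 = ζ.2 → Lz z ζ 0 = 0
  inj : ∀ z ∈ L.US G, ∀ ζ : H₂ × H₁, P₂ z ζ.1 = ζ.1 → P₁ z ζ.2 = ζ.2 → Lz z ζ = 0 → ζ = 0

/-- the two-arc version, one field -/
structure LinK2 (h : GT.Bla G k) (P₁ : Euc N × Euc N → H₁ →L[ℝ] H₁)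
    (Lz : Euc N × Euc N → H₁ →L[ℝ] (Fin 2 → Euc N)) : Prop where
  smooth : ∀ z ∈ L.US G, ContDiffAt ℝ ∞ Lz z
  mem : ∀ z ∈ L.US G, ∀ ζ : H₁, P₁ z ζ = ζ → ∀ i, Lz z ζ i ∈ V0 G z
  zero : ∀ z ∈ L.US G, ∀ ζ : H₁, P₁ z ζ = ζ → Lz z ζ 0 = 0
  inj : ∀ z ∈ L.US G, ∀ ζ : H₁, P₁ z ζ = ζ → Lz z ζ = 0 → ζ = 0

variable {h : GT.Bla G k} {Lz : Euc N × Euc N → (H₂ × H₁) →L[ℝ] (Fin 4 → Euc N)}
  {L2 : Euc N × Euc N → H₁ →L[ℝ] (Fin 2 → Euc N)}

/-- entries of the linear map -/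
def Li (Lz : Euc N × Euc N → (H₂ × H₁) →L[ℝ] (Fin 4 → Euc N))
    (x : ((Euc N × Euc N) × H₂) × H₁) (i : Fin 4) : Euc N := Lz x.1.1 (x.1.2, x.2) i

/-- the tube around the diagonal -/
def Psi (Lz : Euc N × Euc N → (H₂ × H₁) →L[ℝ] (Fin 4 → Euc N))
    (x : ((Euc N × Euc N) × H₂) × H₁) : (((Euc N × Euc N) × Euc N) × Euc N) × Euc N :=
  (((x.1.1, nrm (x.1.1.2 + Li Lz x 1)), nrm (x.1.1.2 + Li Lz x 2)), nrm (x.1.1.2 + Li Lz x 3))

/-- the two-arc tube -/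
def Psi2 (L2 : Euc N × Euc N → H₁ →L[ℝ] (Fin 2 → Euc N)) (x : (Euc N × Euc N) × H₁) :
    (Euc N × Euc N) × Euc N := (x.1, nrm (x.1.2 + L2 x.1 x.2 1))

@[simp] lemma Psi_base (x : ((Euc N × Euc N) × H₂) × H₁) : (Psi Lz x).1.1.1 = x.1.1 := rfl

@[simp] lemma Psi2_base (x : (Euc N × Euc N) × H₁) : (Psi2 L2 x).1 = x.1 := rfl

lemma mem_TT {x : ((Euc N × Euc N) × H₂) × H₁} : x ∈ TP.TT (L.US G) P₂ P₁ ↔
    x.1.1 ∈ L.US G ∧ P₂ x.1.1 x.1.2 = x.1.2 ∧ P₁ x.1.1 x.2 = x.2 := by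
  constructor
  · rintro ⟨⟨h1, h2⟩, h3⟩
    exact ⟨h1, h2, h3⟩
  · rintro ⟨h1, h2, h3⟩
    exact ⟨⟨h1, h2⟩, h3⟩

namespace LinK

variable {x : ((Euc N × Euc N) × H₂) × H₁}

lemma Li_mem (hL : LinK h P₂ P₁ Lz) (hx : x ∈ TP.TT (L.US G) P₂ P₁) (i : Fin 4) :
    Li Lz x i ∈ V0 G x.1.1 := by
  rw [mem_TT] at hx
  exact hL.mem _ hx.1 (x.1.2, x.2) hx.2.1 hx.2.2 i

lemma Li_zero (hL : LinK h P₂ P₁ Lz) (hx : x ∈ TP.TT (L.US G) P₂ P₁) : Li Lz x 0 = 0 := by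
  rw [mem_TT] at hx
  exact hL.zero _ hx.1 (x.1.2, x.2) hx.2.1 hx.2.2

lemma smooth_Lz (hL : LinK h P₂ P₁ Lz) (hx : x.1.1 ∈ L.US G) :
    ContDiffAt ℝ ∞ (fun x : ((Euc N × Euc N) × H₂) × H₁ => Lz x.1.1 (x.1.2, x.2)) x := by
  have h1 : ContDiffAt ℝ ∞ (fun x : ((Euc N × Euc N) × H₂) × H₁ => Lz x.1.1) x :=
    ContDiffAt.comp (g := Lz) (f := fun x : ((Euc N × Euc N) × H₂) × H₁ => x.1.1) x
      (hL.smooth _ hx) (by fun_prop)
  exact h1.clm_apply (by fun_prop)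

lemma smooth_Li (hL : LinK h P₂ P₁ Lz) (hx : x.1.1 ∈ L.US G) (i : Fin 4) :
    ContDiffAt ℝ ∞ (fun x => Li Lz x i) x :=
  contDiffAt_pi.1 (hL.smooth_Lz hx) i

/-- **(1)** smoothness -/
theorem smooth_Psi (hL : LinK h P₂ P₁ Lz) (hx : x ∈ TP.TT (L.US G) P₂ P₁) :
    ContDiffAt ℝ ∞ (Psi Lz) x := by
  have hz := (mem_TT.1 hx).1
  have key : ∀ i, ContDiffAt ℝ ∞ (fun x : ((Euc N × Euc N) × H₂) × H₁ =>
      nrm (x.1.1.2 + Li Lz x i)) x := fun i =>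
    ContDiffAt.comp (g := (nrm : Euc N → Euc N))
      (f := fun x : ((Euc N × Euc N) × H₂) × H₁ => x.1.1.2 + Li Lz x i) x
      (contDiffAt_nrm (add_ne_zero' hz.2 (V0_inner (hL.Li_mem hx i))))
      (ContDiffAt.add (by fun_prop) (hL.smooth_Li hz i))
  exact ((ContDiffAt.prodMk (by fun_prop) (key 1)).prodMk (key 2)).prodMk (key 3)

lemma qq_eq {z : Euc N × Euc N} (hz : z ∈ L.US G) : qq G z = Exp G z.1 (Real.pi • z.2) :=
  (Exp_smul G hz.1.1 hz.1.2 _).symm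

/-- the link condition in the form of `N4` -/
lemma nrm_link (h : GT.Bla G k) {z : Euc N × Euc N} (hz : z ∈ L.US G) {u : Euc N}
    (hu : u ∈ V0 G z) :
    PVB h (phi G z) (nrm (z.2 + u)) = nrm (z.2 + u) ∧ ‖nrm (z.2 + u)‖ = 1 := by
  refine ⟨?_, norm_nrm (add_ne_zero' hz.2 (V0_inner hu))⟩
  refine (KG.PVB_eq_self h hz).2 ?_
  have h1 := (NN.mem_V0.1 hu).1
  rw [qq_eq hz] at h1
  exact Submodule.smul_mem _ _ (Submodule.add_mem _ (KG.mem_Vs_self hz) h1)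

/-- **(1)** values -/
theorem Psi_mem (hL : LinK h P₂ P₁ Lz) (hx : x ∈ TP.TT (L.US G) P₂ P₁) : Psi Lz x ∈ N4 h := by
  have hz := (mem_TT.1 hx).1
  have key := fun i => nrm_link h hz (hL.Li_mem hx i)
  exact ⟨⟨⟨⟨⟨⟨hz, (key 1).1⟩, (key 1).2⟩, (key 2).1⟩, (key 2).2⟩, (key 3).1⟩, (key 3).2⟩

theorem smap_Psi (hL : LinK h P₂ P₁ Lz) : CW.SMap (TP.TT (L.US G) P₂ P₁) (N4 h) (Psi Lz) :=
  ⟨fun _ hx => hL.smooth_Psi hx, fun _ hx => hL.Psi_mem hx⟩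

/-- relation with 952's chains -/
theorem nest4_Psi (hL : LinK h P₂ P₁ Lz) (hx : x ∈ TP.TT (L.US G) P₂ P₁) :
    nest4 (Psi Lz x) = kap x.1.1 (Lz x.1.1 (x.1.2, x.2)) := by
  have hz := (mem_TT.1 hx).1
  have h0 : Lz x.1.1 (x.1.2, x.2) 0 = 0 := hL.Li_zero hx
  unfold nest4 kap Psi
  refine Prod.ext rfl ?_
  funext i
  fin_cases i
  · change x.1.1.2 = nrm (x.1.1.2 + Lz x.1.1 (x.1.2, x.2) 0)
    rw [h0, add_zero, nrm_self hz.2]
  · rfl
  · rfl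
  · rfl


end LinK

/-- the smooth left inverse up to the linear map -/
def gi (κ : (((Euc N × Euc N) × Euc N) × Euc N) × Euc N) :
    (Euc N × Euc N) × Euc N × Euc N × Euc N :=
  (κ.1.1.1, inv1 κ.1.1.1.2 κ.1.1.2, inv1 κ.1.1.1.2 κ.1.2, inv1 κ.1.1.1.2 κ.2)

/-- the same on the source -/
def gl (Lz : Euc N × Euc N → (H₂ × H₁) →L[ℝ] (Fin 4 → Euc N))
    (x : ((Euc N × Euc N) × H₂) × H₁) : (Euc N × Euc N) × Euc N × Euc N × Euc N :=
  (x.1.1, Li Lz x 1, Li Lz x 2, Li Lz x 3)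

namespace LinK

variable {x : ((Euc N × Euc N) × H₂) × H₁}

lemma gi_Psi (hL : LinK h P₂ P₁ Lz) (hx : x ∈ TP.TT (L.US G) P₂ P₁) :
    gi (Psi Lz x) = gl Lz x := by
  have hz := (mem_TT.1 hx).1
  have key := fun i => inv1_nrm hz.2 (V0_inner (hL.Li_mem hx i))
  unfold gi gl Psi
  simp only [key]

lemma smooth_gi (hL : LinK h P₂ P₁ Lz) (hx : x ∈ TP.TT (L.US G) P₂ P₁) :
    ContDiffAt ℝ ∞ gi (Psi Lz x) := by
  have hz := (mem_TT.1 hx).1
  have key := fun i => (inner_nrm_pos hz.2 (V0_inner (hL.Li_mem hx i))).ne'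
  unfold gi
  refine ContDiffAt.prodMk (by fun_prop) (ContDiffAt.prodMk ?_ (ContDiffAt.prodMk ?_ ?_))
  · exact ContDiffAt.comp (g := fun p : Euc N × Euc N => inv1 p.1 p.2)
      (f := fun κ : (((Euc N × Euc N) × Euc N) × Euc N) × Euc N => (κ.1.1.1.2, κ.1.1.2)) (Psi Lz x)
      (contDiffAt_inv1 (key 1)) (by fun_prop)
  · exact ContDiffAt.comp (g := fun p : Euc N × Euc N => inv1 p.1 p.2)
      (f := fun κ : (((Euc N × Euc N) × Euc N) × Euc N) × Euc N => (κ.1.1.1.2, κ.1.2)) (Psi Lz x)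
      (contDiffAt_inv1 (key 2)) (by fun_prop)
  · exact ContDiffAt.comp (g := fun p : Euc N × Euc N => inv1 p.1 p.2)
      (f := fun κ : (((Euc N × Euc N) × Euc N) × Euc N) × Euc N => (κ.1.1.1.2, κ.2)) (Psi Lz x)
      (contDiffAt_inv1 (key 3)) (by fun_prop)

lemma Lz_eq_zero (hL : LinK h P₂ P₁ Lz) {z : Euc N × Euc N} (hz : z ∈ L.US G) {ζ : H₂ × H₁}
    (h2 : P₂ z ζ.1 = ζ.1) (h1 : P₁ z ζ.2 = ζ.2) (e1 : Lz z ζ 1 = 0) (e2 : Lz z ζ 2 = 0)
    (e3 : Lz z ζ 3 = 0) : ζ = 0 := by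
  refine hL.inj z hz ζ h2 h1 (funext fun i => ?_)
  fin_cases i
  · exact hL.zero z hz ζ h2 h1
  · exact e1
  · exact e2
  · exact e3

/-- **(2)** the tube is injective -/
theorem injOn (hL : LinK h P₂ P₁ Lz) : InjOn (Psi Lz) (TP.TT (L.US G) P₂ P₁) := by
  intro x hx y hy hxy
  have h1 : gl Lz x = gl Lz y := by rw [← hL.gi_Psi hx, ← hL.gi_Psi hy, hxy]
  obtain ⟨⟨z, ν⟩, w⟩ := x
  obtain ⟨⟨z', ν'⟩, w'⟩ := y
  simp only [gl, Li, Prod.mk.injEq] at h1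
  obtain ⟨rfl, e1, e2, e3⟩ := h1
  obtain ⟨hz, a2, a1⟩ := mem_TT.1 hx
  obtain ⟨-, b2, b1⟩ := mem_TT.1 hy
  simp only at hz a2 a1 b2 b1
  have h3 : ((ν, w) - (ν', w') : H₂ × H₁) = 0 := by
    refine hL.Lz_eq_zero hz ?_ ?_ ?_ ?_ ?_
    · change P₂ z (ν - ν') = ν - ν'
      rw [map_sub, a2, b2]
    · change P₁ z (w - w') = w - w'
      rw [map_sub, a1, b1]
    · rw [map_sub, Pi.sub_apply, e1, sub_self]
    · rw [map_sub, Pi.sub_apply, e2, sub_self]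
    · rw [map_sub, Pi.sub_apply, e3, sub_self]
  have h4 := sub_eq_zero.1 h3
  simp only [Prod.mk.injEq] at h4
  rw [h4.1, h4.2]

/-- derivative of the entries -/
lemma hasFDerivAt_Li (hL : LinK h P₂ P₁ Lz) (hx : x.1.1 ∈ L.US G) (ξ : ((Euc N × Euc N) × H₂) × H₁)
    (i : Fin 4) : fderiv ℝ (fun x => Li Lz x i) x ξ =
      fderiv ℝ Lz x.1.1 ξ.1.1 (x.1.2, x.2) i + Lz x.1.1 (ξ.1.2, ξ.2) i := by
  have h1 : HasFDerivAt (fun x : ((Euc N × Euc N) × H₂) × H₁ => x.1.1)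
      ((ContinuousLinearMap.fst ℝ (Euc N × Euc N) H₂).comp
        (ContinuousLinearMap.fst ℝ ((Euc N × Euc N) × H₂) H₁)) x :=
    HasFDerivAt.comp (g := (Prod.fst : (Euc N × Euc N) × H₂ → Euc N × Euc N)) x
      hasFDerivAt_fst hasFDerivAt_fst
  have h2' : HasFDerivAt (fun x : ((Euc N × Euc N) × H₂) × H₁ => x.1.2)
      ((ContinuousLinearMap.snd ℝ (Euc N × Euc N) H₂).comp
        (ContinuousLinearMap.fst ℝ ((Euc N × Euc N) × H₂) H₁)) x :=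
    HasFDerivAt.comp (g := (Prod.snd : (Euc N × Euc N) × H₂ → H₂)) x
      hasFDerivAt_snd hasFDerivAt_fst
  have h2'' : HasFDerivAt (fun x : ((Euc N × Euc N) × H₂) × H₁ => x.2)
      (ContinuousLinearMap.snd ℝ ((Euc N × Euc N) × H₂) H₁) x := hasFDerivAt_snd
  have h2 := h2'.prodMk h2''
  have h3 : HasFDerivAt Lz (fderiv ℝ Lz x.1.1) x.1.1 :=
    ((hL.smooth _ hx).differentiableAt (by simp)).hasFDerivAt
  have h4 := (HasFDerivAt.comp (g := Lz) x h3 h1).clm_apply h2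
  have h5 := (hasFDerivAt_pi'.1 h4) i
  have h6 : HasFDerivAt (fun x : ((Euc N × Euc N) × H₂) × H₁ => Li Lz x i) _ x := h5
  rw [h6.fderiv]
  simp [add_comm]

/-- **(2)** the derivative of the tube is injective on the tangent spaces -/
theorem fderiv_inj (hL : LinK h P₂ P₁ Lz) {r₁ r₂ : ℕ} (hP₂ : PField (L.US G) r₂ P₂)
    (hP₁ : PField (L.US G) r₁ P₁)
    (hx : x ∈ TP.TT (L.US G) P₂ P₁) {ξ : ((Euc N × Euc N) × H₂) × H₁}
    (hξ : ξ ∈ Tan (TP.TT (L.US G) P₂ P₁) x) (h0 : fderiv ℝ (Psi Lz) x ξ = 0) : ξ = 0 := by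
  have hz := (mem_TT.1 hx).1
  have d1 : DifferentiableAt ℝ (Psi Lz) x := (hL.smooth_Psi hx).differentiableAt (by simp)
  have d2 : DifferentiableAt ℝ gi (Psi Lz x) := (hL.smooth_gi hx).differentiableAt (by simp)
  have d3 : ∀ i, DifferentiableAt ℝ (fun x => Li Lz x i) x := fun i =>
    (hL.smooth_Li hz i).differentiableAt (by simp)
  have hgl : HasFDerivAt (gl Lz) (((ContinuousLinearMap.fst ℝ (Euc N × Euc N) H₂).comp
        (ContinuousLinearMap.fst ℝ ((Euc N × Euc N) × H₂) H₁)).prod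
      ((fderiv ℝ (fun x => Li Lz x 1) x).prod ((fderiv ℝ (fun x => Li Lz x 2) x).prod
        (fderiv ℝ (fun x => Li Lz x 3) x)))) x := by
    have h1 : HasFDerivAt (fun x : ((Euc N × Euc N) × H₂) × H₁ => x.1.1)
      ((ContinuousLinearMap.fst ℝ (Euc N × Euc N) H₂).comp
        (ContinuousLinearMap.fst ℝ ((Euc N × Euc N) × H₂) H₁)) x :=
      HasFDerivAt.comp (g := (Prod.fst : (Euc N × Euc N) × H₂ → Euc N × Euc N)) x
        hasFDerivAt_fst hasFDerivAt_fst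
    exact h1.prodMk ((d3 1).hasFDerivAt.prodMk ((d3 2).hasFDerivAt.prodMk (d3 3).hasFDerivAt))
  have h1 : fderiv ℝ (gi ∘ Psi Lz) x ξ = fderiv ℝ (gl Lz) x ξ :=
    fderiv_eq_on (X := TP.TT (L.US G) P₂ P₁) (d2.comp x d1) hgl.differentiableAt
      (fun y hy => hL.gi_Psi hy) hξ
  rw [fderiv_comp x d2 d1, ContinuousLinearMap.comp_apply, h0, map_zero, hgl.fderiv] at h1
  have h2 := h1.symm
  simp only [ContinuousLinearMap.prod_apply, ContinuousLinearMap.comp_apply,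
    ContinuousLinearMap.coe_fst', Prod.mk_eq_zero] at h2
  obtain ⟨e0, e1, e2, e3⟩ := h2
  rw [hL.hasFDerivAt_Li hz, e0, map_zero] at e1 e2 e3
  simp only [zero_apply, Pi.zero_apply, zero_add] at e1 e2 e3
  obtain ⟨⟨a, b⟩, c⟩ := ξ
  simp only at e0 e1 e2 e3
  subst e0
  have hξ' : (((0 : Euc N × Euc N), b), c) ∈ Tan (Tot (Tot (L.US G) P₂) (fun z => P₁ z.1))
    (x.1, x.2) := hξ
  have hP₁' : PField (Tot (L.US G) P₂) r₁ (fun z : (Euc N × Euc N) × H₂ => P₁ z.1) :=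
    ⟨fun z hz => ContDiffAt.comp (g := P₁) (f := fun z : (Euc N × Euc N) × H₂ => z.1) z
      (hP₁.smooth _ hz.1) contDiffAt_fst, fun z hz => hP₁.idem _ hz.1, fun z hz => hP₁.rank _ hz.1⟩
  have t1 := hP₁'.deriv_mem (x := x.1) ⟨hz, (mem_TT.1 hx).2.1⟩ hξ'
  have t2 := hP₂.deriv_mem (x := x.1.1) (v := x.1.2) hz t1.1
  have hb : P₂ x.1.1 b = b := by
    have := t2.2
    rw [map_zero] at this
    simp only [zero_apply] at this
    exact (sub_eq_zero.1 this).symm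
  have hc : P₁ x.1.1 c = c := by
    have h3 : fderiv ℝ (fun z : (Euc N × Euc N) × H₂ => P₁ z.1) x.1 ((0 : Euc N × Euc N), b) = 0 := by
      have h4 : HasFDerivAt (fun z : (Euc N × Euc N) × H₂ => P₁ z.1)
          ((fderiv ℝ P₁ x.1.1).comp (ContinuousLinearMap.fst ℝ (Euc N × Euc N) H₂)) x.1 := by
        exact HasFDerivAt.comp x.1
          (((hP₁.smooth _ hz).differentiableAt (by simp)).hasFDerivAt) hasFDerivAt_fst
      rw [h4.fderiv]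
      simp
    have := t1.2
    rw [h3] at this
    simp only [zero_apply] at this
    exact (sub_eq_zero.1 this).symm
  have h5 : ((b, c) : H₂ × H₁) = 0 := hL.Lz_eq_zero hz (ζ := (b, c)) hb hc e1 e2 e3
  simp only [Prod.mk_eq_zero] at h5
  rw [h5.1, h5.2]
  rfl

end LinK

end Crest.Agent.R208.TU
end
end

-- ▼ part R208/TU1b
section

/-!
Row 208, block TU (helper10), part TU1b: the two-arc version of TU1 (one field of projections).
-/

set_option autoImplicit false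
set_option linter.unusedSectionVars false

open Set Filter Topology MeasureTheory
open scoped ContDiff RealInnerProductSpace Interval
open Crest.GeometryTopology.Submanifold
open Crest.Agent.R241.DDefs
open Crest.Agent.R241.D2
open Crest.Agent.R241.D3c
open Crest.Agent.R208.NN (V0 qq)
open Crest.Agent.R208.FV (PVB phi phi_mem PV_eq_self)
open Crest.Agent.R208.FI (Tan Sub Clo PField Tot)
open Crest.Agent.R208.KG (N2 N3 N4 nest4 nest2)
open Crest.Agent.R208.AK (nrm norm_nrm nrm_self contDiffAt_nrm norm_sq_add add_ne_zero' kap V0_inner)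

noncomputable section

namespace Crest.Agent.R208.TU

variable {n N k : ℕ} {κ : ℝ} {S : Set (Euc N)} {G : Geo n N κ S}
  {H₁ : Type*} [NormedAddCommGroup H₁] [InnerProductSpace ℝ H₁] [FiniteDimensional ℝ H₁]
  {P₁ : Euc N × Euc N → H₁ →L[ℝ] H₁} {h : GT.Bla G k}
  {L2 : Euc N × Euc N → H₁ →L[ℝ] (Fin 2 → Euc N)}

namespace LinK2

variable {x : (Euc N × Euc N) × H₁}

lemma L_mem (hL : LinK2 h P₁ L2) (hx : x ∈ Tot (L.US G) P₁) (i : Fin 2) :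
    L2 x.1 x.2 i ∈ V0 G x.1 := hL.mem _ hx.1 _ hx.2 i

lemma smooth_L (hL : LinK2 h P₁ L2) (hx : x.1 ∈ L.US G) :
    ContDiffAt ℝ ∞ (fun x : (Euc N × Euc N) × H₁ => L2 x.1 x.2) x := by
  have h1 : ContDiffAt ℝ ∞ (fun x : (Euc N × Euc N) × H₁ => L2 x.1) x :=
    ContDiffAt.comp (g := L2) (f := fun x : (Euc N × Euc N) × H₁ => x.1) x
      (hL.smooth _ hx) (by fun_prop)
  exact h1.clm_apply (by fun_prop)

lemma smooth_Li (hL : LinK2 h P₁ L2) (hx : x.1 ∈ L.US G) (i : Fin 2) :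
    ContDiffAt ℝ ∞ (fun x : (Euc N × Euc N) × H₁ => L2 x.1 x.2 i) x :=
  contDiffAt_pi.1 (hL.smooth_L hx) i

/-- **(1)** smoothness -/
theorem smooth_Psi (hL : LinK2 h P₁ L2) (hx : x ∈ Tot (L.US G) P₁) :
    ContDiffAt ℝ ∞ (Psi2 L2) x := by
  have hz : x.1 ∈ L.US G := hx.1
  have key : ContDiffAt ℝ ∞ (fun x : (Euc N × Euc N) × H₁ => nrm (x.1.2 + L2 x.1 x.2 1)) x :=
    ContDiffAt.comp (g := (nrm : Euc N → Euc N))
      (f := fun x : (Euc N × Euc N) × H₁ => x.1.2 + L2 x.1 x.2 1) x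
      (contDiffAt_nrm (add_ne_zero' hz.2 (V0_inner (hL.L_mem hx 1))))
      (ContDiffAt.add (by fun_prop) (hL.smooth_Li hz 1))
  exact ContDiffAt.prodMk (by fun_prop) key

/-- **(1)** values -/
theorem Psi_mem (hL : LinK2 h P₁ L2) (hx : x ∈ Tot (L.US G) P₁) : Psi2 L2 x ∈ N2 h := by
  have key := LinK.nrm_link h hx.1 (hL.L_mem hx 1)
  exact ⟨⟨hx.1, key.1⟩, key.2⟩

theorem smap_Psi (hL : LinK2 h P₁ L2) : CW.SMap (Tot (L.US G) P₁) (N2 h) (Psi2 L2) :=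
  ⟨fun _ hx => hL.smooth_Psi hx, fun _ hx => hL.Psi_mem hx⟩



lemma L_eq_zero (hL : LinK2 h P₁ L2) {z : Euc N × Euc N} (hz : z ∈ L.US G) {ζ : H₁}
    (h1 : P₁ z ζ = ζ) (e1 : L2 z ζ 1 = 0) : ζ = 0 := by
  refine hL.inj z hz ζ h1 (funext fun i => ?_)
  fin_cases i
  · exact hL.zero z hz ζ h1
  · exact e1

end LinK2

/-- left inverse up to the linear map -/
def gi2 (κ : (Euc N × Euc N) × Euc N) : (Euc N × Euc N) × Euc N := (κ.1, inv1 κ.1.2 κ.2)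

namespace LinK2

variable {x : (Euc N × Euc N) × H₁}

lemma gi_Psi (hL : LinK2 h P₁ L2) (hx : x ∈ Tot (L.US G) P₁) :
    gi2 (Psi2 L2 x) = (x.1, L2 x.1 x.2 1) := by
  have hz : x.1 ∈ L.US G := hx.1
  have key := inv1_nrm hz.2 (V0_inner (hL.L_mem hx 1))
  unfold gi2 Psi2
  simp only [key]

lemma smooth_gi (hL : LinK2 h P₁ L2) (hx : x ∈ Tot (L.US G) P₁) :
    ContDiffAt ℝ ∞ gi2 (Psi2 L2 x) := by
  have hz : x.1 ∈ L.US G := hx.1
  have key := (inner_nrm_pos hz.2 (V0_inner (hL.L_mem hx 1))).ne'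
  unfold gi2
  refine ContDiffAt.prodMk (by fun_prop) ?_
  exact ContDiffAt.comp (g := fun p : Euc N × Euc N => inv1 p.1 p.2)
      (f := fun κ : (Euc N × Euc N) × Euc N => (κ.1.2, κ.2)) (Psi2 L2 x)
      (contDiffAt_inv1 key) (by fun_prop)

/-- **(2)** the tube is injective -/
theorem injOn (hL : LinK2 h P₁ L2) : InjOn (Psi2 L2) (Tot (L.US G) P₁) := by
  intro x hx y hy hxy
  have h1 : (x.1, L2 x.1 x.2 1) = (y.1, L2 y.1 y.2 1) := by
    rw [← hL.gi_Psi hx, ← hL.gi_Psi hy, hxy]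
  obtain ⟨z, w⟩ := x
  obtain ⟨z', w'⟩ := y
  simp only [Prod.mk.injEq] at h1
  obtain ⟨rfl, e1⟩ := h1
  have a1 : P₁ z w = w := hx.2
  have b1 : P₁ z w' = w' := hy.2
  have h3 : w - w' = 0 := by
    refine hL.L_eq_zero hx.1 ?_ ?_
    · rw [map_sub, a1, b1]
    · rw [map_sub, Pi.sub_apply, e1, sub_self]
  rw [sub_eq_zero.1 h3]

/-- derivative of the entries -/
lemma fderiv_Li (hL : LinK2 h P₁ L2) (hx : x.1 ∈ L.US G) (ξ : (Euc N × Euc N) × H₁)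
    (i : Fin 2) : fderiv ℝ (fun x : (Euc N × Euc N) × H₁ => L2 x.1 x.2 i) x ξ =
      fderiv ℝ L2 x.1 ξ.1 x.2 i + L2 x.1 ξ.2 i := by
  have h1 : HasFDerivAt (fun x : (Euc N × Euc N) × H₁ => x.1)
      (ContinuousLinearMap.fst ℝ (Euc N × Euc N) H₁) x := hasFDerivAt_fst
  have h2 : HasFDerivAt (fun x : (Euc N × Euc N) × H₁ => x.2)
      (ContinuousLinearMap.snd ℝ (Euc N × Euc N) H₁) x := hasFDerivAt_snd
  have h3 : HasFDerivAt L2 (fderiv ℝ L2 x.1) x.1 :=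
    ((hL.smooth _ hx).differentiableAt (by simp)).hasFDerivAt
  have h4 := (HasFDerivAt.comp (g := L2) x h3 h1).clm_apply h2
  have h5 := (hasFDerivAt_pi'.1 h4) i
  have h6 : HasFDerivAt (fun x : (Euc N × Euc N) × H₁ => L2 x.1 x.2 i) _ x := h5
  rw [h6.fderiv]
  simp [add_comm]

/-- **(2)** the derivative of the tube is injective on the tangent spaces -/
theorem fderiv_inj (hL : LinK2 h P₁ L2) {r₁ : ℕ} (hP₁ : PField (L.US G) r₁ P₁)
    (hx : x ∈ Tot (L.US G) P₁) {ξ : (Euc N × Euc N) × H₁}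
    (hξ : ξ ∈ Tan (Tot (L.US G) P₁) x) (h0 : fderiv ℝ (Psi2 L2) x ξ = 0) : ξ = 0 := by
  have hz : x.1 ∈ L.US G := hx.1
  have d1 : DifferentiableAt ℝ (Psi2 L2) x := (hL.smooth_Psi hx).differentiableAt (by simp)
  have d2 : DifferentiableAt ℝ gi2 (Psi2 L2 x) := (hL.smooth_gi hx).differentiableAt (by simp)
  have d3 : DifferentiableAt ℝ (fun x : (Euc N × Euc N) × H₁ => L2 x.1 x.2 1) x :=
    (hL.smooth_Li hz 1).differentiableAt (by simp)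
  have hgl : HasFDerivAt (fun x : (Euc N × Euc N) × H₁ => (x.1, L2 x.1 x.2 1))
      ((ContinuousLinearMap.fst ℝ (Euc N × Euc N) H₁).prod
        (fderiv ℝ (fun x : (Euc N × Euc N) × H₁ => L2 x.1 x.2 1) x)) x :=
    hasFDerivAt_fst.prodMk d3.hasFDerivAt
  have h1 : fderiv ℝ (gi2 ∘ Psi2 L2) x ξ =
      fderiv ℝ (fun x : (Euc N × Euc N) × H₁ => (x.1, L2 x.1 x.2 1)) x ξ :=
    fderiv_eq_on (X := Tot (L.US G) P₁) (d2.comp x d1) hgl.differentiableAt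
      (fun y hy => hL.gi_Psi hy) hξ
  rw [fderiv_comp x d2 d1, ContinuousLinearMap.comp_apply, h0, map_zero, hgl.fderiv] at h1
  have h2 := h1.symm
  simp only [ContinuousLinearMap.prod_apply, ContinuousLinearMap.coe_fst', Prod.mk_eq_zero] at h2
  obtain ⟨e0, e1⟩ := h2
  rw [hL.fderiv_Li hz, e0, map_zero] at e1
  simp only [zero_apply, Pi.zero_apply, zero_add] at e1
  obtain ⟨a, c⟩ := ξ
  simp only at e0 e1
  subst e0
  have t2 := hP₁.deriv_mem (x := x.1) (v := x.2) hz hξ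
  have hc : P₁ x.1 c = c := by
    have := t2.2
    rw [map_zero] at this
    simp only [zero_apply] at this
    exact (sub_eq_zero.1 this).symm
  rw [hL.L_eq_zero hz hc e1]
  rfl

end LinK2

end Crest.Agent.R208.TU
end
end

-- ▼ part R208/TU2
section

/-!
Row 208, block TU (helper10), part TU2: **gap**: points of `N4 h` (`N2 h`) near the diagonal lie on
the tube, with small coordinates.
-/

set_option autoImplicit false
set_option linter.unusedSectionVars false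

open Set Filter Topology MeasureTheory Module
open scoped ContDiff RealInnerProductSpace Interval
open Crest.GeometryTopology.Submanifold
open Crest.Agent.R241.DDefs
open Crest.Agent.R241.D2
open Crest.Agent.R241.D3c
open Crest.Agent.R208.NN (V0 qq)
open Crest.Agent.R208.FV (PVB phi phi_mem PV_eq_self)
open Crest.Agent.R208.FI (Tan Sub Clo PField Tot)
open Crest.Agent.R208.KG (N2 N3 N4 nest4 nest2 idx)
open Crest.Agent.R208.AK (nrm norm_nrm nrm_self contDiffAt_nrm norm_sq_add add_ne_zero' kap V0_inner)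

noncomputable section

namespace Crest.Agent.R208.TU

variable {n N k : ℕ} {κ : ℝ} {S : Set (Euc N)} {G : Geo n N κ S}

/-! ### one entry -/

lemma inner_eq {v w : Euc N} (hv : ‖v‖ = 1) (hw : ‖w‖ = 1) :
    (⟪w, v⟫ : ℝ) = 1 - ‖w - v‖ ^ 2 / 2 := by
  have := norm_sub_sq_real w v
  rw [hv, hw] at this
  linarith

lemma nrm_inv1 {v w : Euc N} (hw : ‖w‖ = 1) (h : (0 : ℝ) < ⟪w, v⟫) :
    nrm (v + inv1 v w) = w := by
  rw [inv1, add_sub_cancel, nrm, norm_smul, hw, mul_one, Real.norm_eq_abs,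
    abs_of_pos (inv_pos.2 h), inv_inv, smul_smul, mul_inv_cancel₀ h.ne', one_smul]

lemma inner_inv1 {v w : Euc N} (hv : ‖v‖ = 1) (h : (0 : ℝ) < ⟪w, v⟫) :
    (⟪inv1 v w, v⟫ : ℝ) = 0 := by
  rw [inv1, inner_sub_left, real_inner_smul_left, inv_mul_cancel₀ h.ne', real_inner_self_eq_norm_sq,
    hv]
  ring

lemma norm_inv1_sq {v w : Euc N} (hv : ‖v‖ = 1) (hw : ‖w‖ = 1) (h1 : ‖w - v‖ ^ 2 ≤ 1) :
    ‖inv1 v w‖ ^ 2 ≤ 4 * ‖w - v‖ ^ 2 := by
  have h2 := inner_eq hv hw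
  have h0 : (0 : ℝ) ≤ ‖w - v‖ ^ 2 := sq_nonneg _
  set s := ‖w - v‖ ^ 2 with hs
  set c : ℝ := ⟪w, v⟫ with hc
  have hc2 : (1 : ℝ) / 2 ≤ c := by rw [h2]; linarith
  have hc0 : 0 < c := by linarith
  have h3 : ‖inv1 v w‖ ^ 2 = c⁻¹ ^ 2 - 1 := by
    rw [inv1, norm_sub_sq_real, norm_smul, hw, hv, real_inner_smul_left, ← hc,
      inv_mul_cancel₀ hc0.ne', Real.norm_eq_abs, mul_pow, sq_abs]
    ring
  rw [h3, inv_pow, sub_le_iff_le_add, inv_le_comm₀ (by positivity) (by positivity)]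
  rw [inv_le_iff_one_le_mul₀ (by positivity)]
  have : c = 1 - s / 2 := h2
  rw [this] at hc2 ⊢
  nlinarith [mul_nonneg h0 h0, mul_nonneg h0 (sub_nonneg.2 h1), mul_nonneg (mul_nonneg h0 h0)
    (sub_nonneg.2 h1)]

/-- `inv1` of an element of the link lies in `V₀` -/
lemma inv1_mem {z : Euc N × Euc N} (h : GT.Bla G k) (hz : z ∈ L.US G) {w : Euc N}
    (hw : PVB h (phi G z) w = w) (h0 : (0 : ℝ) < ⟪w, z.2⟫) : inv1 z.2 w ∈ V0 G z := by
  rw [NN.mem_V0]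
  refine ⟨?_, inner_inv1 hz.2 h0⟩
  have h1 := (KG.PVB_eq_self h hz).1 hw
  rw [← LinK.qq_eq hz] at h1
  exact Submodule.sub_mem _ (Submodule.smul_mem _ _ h1) (NN.mem_Vs hz)

/-! ### the fibres -/

variable {H : Type*} [NormedAddCommGroup H] [InnerProductSpace ℝ H] [FiniteDimensional ℝ H]
  {H₁ H₂ : Type*} [NormedAddCommGroup H₁] [InnerProductSpace ℝ H₁] [FiniteDimensional ℝ H₁]
  [NormedAddCommGroup H₂] [InnerProductSpace ℝ H₂] [FiniteDimensional ℝ H₂]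
  {P₁ : Euc N × Euc N → H₁ →L[ℝ] H₁} {P₂ : Euc N × Euc N → H₂ →L[ℝ] H₂}
  {h : GT.Bla G k} {Lz : Euc N × Euc N → (H₂ × H₁) →L[ℝ] (Fin 4 → Euc N)}
  {L2 : Euc N × Euc N → H₁ →L[ℝ] (Fin 2 → Euc N)} {r₁ r₂ : ℕ}

/-- surjectivity from the rank count -/
theorem LinK.surj (hL : LinK h P₂ P₁ Lz) (hP₂ : PField (L.US G) r₂ P₂)
    (hP₁ : PField (L.US G) r₁ P₁) (hr : r₁ + r₂ + 3 = 3 * k) {z : Euc N × Euc N}
    (hz : z ∈ L.US G) {a b c : Euc N} (ha : a ∈ V0 G z) (hb : b ∈ V0 G z) (hc : c ∈ V0 G z) :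
    ∃ ζ : H₂ × H₁, P₂ z ζ.1 = ζ.1 ∧ P₁ z ζ.2 = ζ.2 ∧ Lz z ζ 1 = a ∧ Lz z ζ 2 = b ∧
      Lz z ζ 3 = c := by
  set R₂ := LinearMap.range (P₂ z : H₂ →ₗ[ℝ] H₂) with hR₂
  set R₁ := LinearMap.range (P₁ z : H₁ →ₗ[ℝ] H₁) with hR₁
  have e₂ : ∀ y : R₂, P₂ z (y : H₂) = y := by
    rintro ⟨_, y, rfl⟩; exact hP₂.idem z hz y
  have e₁ : ∀ y : R₁, P₁ z (y : H₁) = y := by
    rintro ⟨_, y, rfl⟩; exact hP₁.idem z hz y
  let B : (R₂ × R₁) →ₗ[ℝ] (Fin 4 → Euc N) :=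
    (Lz z : (H₂ × H₁) →ₗ[ℝ] (Fin 4 → Euc N)) ∘ₗ (R₂.subtype.prodMap R₁.subtype)
  have hB : ∀ y i, B y i = Lz z ((y.1 : H₂), (y.2 : H₁)) i := fun y i => rfl
  have hm : ∀ y i, B y i ∈ V0 G z := fun y i => hL.mem z hz _ (e₂ y.1) (e₁ y.2) i
  let T : Fin 4 → (R₂ × R₁) →ₗ[ℝ] V0 G z := fun i =>
    (LinearMap.proj i ∘ₗ B).codRestrict (V0 G z) (fun y => hm y i)
  let A : (R₂ × R₁) →ₗ[ℝ] (V0 G z × V0 G z × V0 G z) := (T 1).prod ((T 2).prod (T 3))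
  have hT : ∀ i y, ((T i y : V0 G z) : Euc N) = Lz z ((y.1 : H₂), (y.2 : H₁)) i := fun i y => rfl
  have hAinj : Function.Injective A := by
    rw [← LinearMap.ker_eq_bot, LinearMap.ker_eq_bot']
    intro y hy
    have h1 : T 1 y = 0 := congrArg Prod.fst hy
    have h2 : T 2 y = 0 := congrArg (fun q => q.2.1) hy
    have h3 : T 3 y = 0 := congrArg (fun q => q.2.2) hy
    have h4 := hL.Lz_eq_zero hz (ζ := ((y.1 : H₂), (y.2 : H₁))) (e₂ y.1) (e₁ y.2)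
      (by rw [← hT, h1]; rfl) (by rw [← hT, h2]; rfl) (by rw [← hT, h3]; rfl)
    rw [Prod.mk_eq_zero] at h4
    exact Prod.ext (Subtype.ext h4.1) (Subtype.ext h4.2)
  have hdim : finrank ℝ (R₂ × R₁) = finrank ℝ (V0 G z × V0 G z × V0 G z) := by
    have h5 := NN.finrank_V0 h hz
    rw [finrank_prod, finrank_prod, finrank_prod, hP₂.rank z hz, hP₁.rank z hz]
    omega
  have hsurj := (LinearMap.injective_iff_surjective_of_finrank_eq_finrank hdim).1 hAinj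
  obtain ⟨y, hy⟩ := hsurj (⟨a, ha⟩, ⟨b, hb⟩, ⟨c, hc⟩)
  refine ⟨((y.1 : H₂), (y.2 : H₁)), e₂ y.1, e₁ y.2, ?_, ?_, ?_⟩
  · have h1 : T 1 y = ⟨a, ha⟩ := congrArg Prod.fst hy
    rw [← hT, h1]
  · have h1 : T 2 y = ⟨b, hb⟩ := congrArg (fun q => q.2.1) hy
    rw [← hT, h1]
  · have h1 : T 3 y = ⟨c, hc⟩ := congrArg (fun q => q.2.2) hy
    rw [← hT, h1]

/-- the two-arc version -/
theorem LinK2.surj (hL : LinK2 h P₁ L2) (hP₁ : PField (L.US G) r₁ P₁) (hr : r₁ + 1 = k)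
    {z : Euc N × Euc N} (hz : z ∈ L.US G) {a : Euc N} (ha : a ∈ V0 G z) :
    ∃ ζ : H₁, P₁ z ζ = ζ ∧ L2 z ζ 1 = a := by
  set R₁ := LinearMap.range (P₁ z : H₁ →ₗ[ℝ] H₁) with hR₁
  have e₁ : ∀ y : R₁, P₁ z (y : H₁) = y := by
    rintro ⟨_, y, rfl⟩; exact hP₁.idem z hz y
  let B : R₁ →ₗ[ℝ] (Fin 2 → Euc N) := (L2 z : H₁ →ₗ[ℝ] (Fin 2 → Euc N)) ∘ₗ R₁.subtype
  have hm : ∀ y i, B y i ∈ V0 G z := fun y i => hL.mem z hz _ (e₁ y) i
  let A : R₁ →ₗ[ℝ] V0 G z := (LinearMap.proj 1 ∘ₗ B).codRestrict (V0 G z) (fun y => hm y 1)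
  have hT : ∀ y, ((A y : V0 G z) : Euc N) = L2 z (y : H₁) 1 := fun y => rfl
  have hAinj : Function.Injective A := by
    rw [← LinearMap.ker_eq_bot, LinearMap.ker_eq_bot']
    intro y hy
    exact Subtype.ext (hL.L_eq_zero hz (e₁ y) (by rw [← hT, hy]; rfl))
  have hdim : finrank ℝ R₁ = finrank ℝ (V0 G z) := by
    have h5 := NN.finrank_V0 h hz
    rw [hP₁.rank z hz]
    omega
  obtain ⟨y, hy⟩ := (LinearMap.injective_iff_surjective_of_finrank_eq_finrank hdim).1 hAinj ⟨a, ha⟩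
  exact ⟨(y : H₁), e₁ y, by rw [← hT, hy]⟩

/-- uniform bound of the inverse -/
theorem LinK.exists_bound (hS : IsCompact S) (hL : LinK h P₂ P₁ Lz) (hP₂ : PField (L.US G) r₂ P₂)
    (hP₁ : PField (L.US G) r₁ P₁) : ∃ C : ℝ, 0 < C ∧ ∀ z ∈ L.US G, ∀ ζ : H₂ × H₁,
      P₂ z ζ.1 = ζ.1 → P₁ z ζ.2 = ζ.2 → ‖ζ‖ ≤ C * ‖Lz z ζ‖ := by
  have hK : IsCompact (L.US G ×ˢ Metric.sphere (0 : H₂ × H₁) 1) :=
    (LB.isCompact_US (G := G) hS).prod (isCompact_sphere _ _)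
  have c₂ : ContinuousOn P₂ (L.US G) := fun x hx =>
    (hP₂.smooth x hx).continuousAt.continuousWithinAt
  have c₁ : ContinuousOn P₁ (L.US G) := fun x hx =>
    (hP₁.smooth x hx).continuousAt.continuousWithinAt
  have cL : ContinuousOn Lz (L.US G) := fun x hx =>
    (hL.smooth x hx).continuousAt.continuousWithinAt
  -- the compact set of unit vectors of the fibres
  have d₂ : ContinuousOn (fun y : (Euc N × Euc N) × (H₂ × H₁) => P₂ y.1 y.2.1 - y.2.1)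
      (L.US G ×ˢ Metric.sphere (0 : H₂ × H₁) 1) :=
    ((c₂.comp continuousOn_fst fun z hz => hz.1).clm_apply (by fun_prop)).sub (by fun_prop)
  have d₁ : ContinuousOn (fun y : (Euc N × Euc N) × (H₂ × H₁) => P₁ y.1 y.2.2 - y.2.2)
      (L.US G ×ˢ Metric.sphere (0 : H₂ × H₁) 1) :=
    ((c₁.comp continuousOn_fst fun z hz => hz.1).clm_apply (by fun_prop)).sub (by fun_prop)
  have dL : ContinuousOn (fun y : (Euc N × Euc N) × (H₂ × H₁) => ‖Lz y.1 y.2‖)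
      (L.US G ×ˢ Metric.sphere (0 : H₂ × H₁) 1) :=
    ((cL.comp continuousOn_fst fun z hz => hz.1).clm_apply (by fun_prop)).norm
  -- sum of three nonnegative functions is positive on the compact set
  have hcont : ContinuousOn (fun y : (Euc N × Euc N) × (H₂ × H₁) =>
      ‖Lz y.1 y.2‖ + (‖P₂ y.1 y.2.1 - y.2.1‖ + ‖P₁ y.1 y.2.2 - y.2.2‖))
      (L.US G ×ˢ Metric.sphere (0 : H₂ × H₁) 1) := dL.add (d₂.norm.add d₁.norm)
  have hpos : ∀ y ∈ L.US G ×ˢ Metric.sphere (0 : H₂ × H₁) 1,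
      0 < ‖Lz y.1 y.2‖ + (‖P₂ y.1 y.2.1 - y.2.1‖ + ‖P₁ y.1 y.2.2 - y.2.2‖) := by
    rintro ⟨z, ζ⟩ ⟨hz, hζ⟩
    by_contra hcon
    push Not at hcon
    have n1 := norm_nonneg (Lz z ζ)
    have n2 := norm_nonneg (P₂ z ζ.1 - ζ.1)
    have n3 := norm_nonneg (P₁ z ζ.2 - ζ.2)
    have f1 : ‖Lz z ζ‖ = 0 := by simp only at hcon; linarith
    have f2 : ‖P₂ z ζ.1 - ζ.1‖ = 0 := by simp only at hcon; linarith
    have f3 : ‖P₁ z ζ.2 - ζ.2‖ = 0 := by simp only at hcon; linarith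
    have h0 := hL.inj z hz ζ (sub_eq_zero.1 (norm_eq_zero.1 f2))
      (sub_eq_zero.1 (norm_eq_zero.1 f3)) (norm_eq_zero.1 f1)
    have hζ' : ‖ζ‖ = 1 := by simpa using hζ
    rw [h0, norm_zero] at hζ'
    exact zero_ne_one hζ'
  obtain ⟨c, hc, hc'⟩ : ∃ c : ℝ, 0 < c ∧ ∀ y ∈ L.US G ×ˢ Metric.sphere (0 : H₂ × H₁) 1,
      c ≤ ‖Lz y.1 y.2‖ + (‖P₂ y.1 y.2.1 - y.2.1‖ + ‖P₁ y.1 y.2.2 - y.2.2‖) := by
    rcases (L.US G ×ˢ Metric.sphere (0 : H₂ × H₁) 1).eq_empty_or_nonempty with he | hne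
    · exact ⟨1, one_pos, fun y hy => by rw [he] at hy; exact absurd hy (Set.notMem_empty y)⟩
    · obtain ⟨y₀, hy₀, hmin⟩ := hK.exists_isMinOn hne hcont
      exact ⟨_, hpos y₀ hy₀, fun y hy => hmin hy⟩
  refine ⟨c⁻¹, inv_pos.2 hc, fun z hz ζ hζ2 hζ1 => ?_⟩
  rcases eq_or_ne ζ 0 with rfl | hne
  · simp
  have hn : 0 < ‖ζ‖ := norm_pos_iff.2 hne
  have h1 := hc' (z, ‖ζ‖⁻¹ • ζ) ⟨hz, by
    rw [mem_sphere_zero_iff_norm, norm_smul, norm_inv, norm_norm, inv_mul_cancel₀ hn.ne']⟩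
  simp only [Prod.smul_fst, Prod.smul_snd, map_smul, hζ2, hζ1, sub_self, norm_zero, add_zero] at h1
  rw [norm_smul, norm_inv, norm_norm] at h1
  rw [inv_mul_eq_div, le_div_iff₀ hc, mul_comm]
  calc c * ‖ζ‖ ≤ (‖ζ‖⁻¹ * ‖Lz z ζ‖) * ‖ζ‖ := by gcongr
    _ = ‖Lz z ζ‖ := by field_simp

/-- the two-arc version -/
theorem LinK2.exists_bound (hS : IsCompact S) (hL : LinK2 h P₁ L2)
    (hP₁ : PField (L.US G) r₁ P₁) : ∃ C : ℝ, 0 < C ∧ ∀ z ∈ L.US G, ∀ ζ : H₁,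
      P₁ z ζ = ζ → ‖ζ‖ ≤ C * ‖L2 z ζ‖ := by
  have hK : IsCompact (L.US G ×ˢ Metric.sphere (0 : H₁) 1) :=
    (LB.isCompact_US (G := G) hS).prod (isCompact_sphere _ _)
  have c₁ : ContinuousOn P₁ (L.US G) := fun x hx =>
    (hP₁.smooth x hx).continuousAt.continuousWithinAt
  have cL : ContinuousOn L2 (L.US G) := fun x hx =>
    (hL.smooth x hx).continuousAt.continuousWithinAt
  have d₁ : ContinuousOn (fun y : (Euc N × Euc N) × H₁ => P₁ y.1 y.2 - y.2)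
      (L.US G ×ˢ Metric.sphere (0 : H₁) 1) :=
    ((c₁.comp continuousOn_fst fun z hz => hz.1).clm_apply (by fun_prop)).sub (by fun_prop)
  have dL : ContinuousOn (fun y : (Euc N × Euc N) × H₁ => ‖L2 y.1 y.2‖)
      (L.US G ×ˢ Metric.sphere (0 : H₁) 1) :=
    ((cL.comp continuousOn_fst fun z hz => hz.1).clm_apply (by fun_prop)).norm
  have hcont : ContinuousOn (fun y : (Euc N × Euc N) × H₁ => ‖L2 y.1 y.2‖ + ‖P₁ y.1 y.2 - y.2‖)
      (L.US G ×ˢ Metric.sphere (0 : H₁) 1) := dL.add d₁.norm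
  have hpos : ∀ y ∈ L.US G ×ˢ Metric.sphere (0 : H₁) 1,
      0 < ‖L2 y.1 y.2‖ + ‖P₁ y.1 y.2 - y.2‖ := by
    rintro ⟨z, ζ⟩ ⟨hz, hζ⟩
    by_contra hcon
    push Not at hcon
    have n1 := norm_nonneg (L2 z ζ)
    have n3 := norm_nonneg (P₁ z ζ - ζ)
    have f1 : ‖L2 z ζ‖ = 0 := by simp only at hcon; linarith
    have f3 : ‖P₁ z ζ - ζ‖ = 0 := by simp only at hcon; linarith
    have h0 := hL.inj z hz ζ (sub_eq_zero.1 (norm_eq_zero.1 f3)) (norm_eq_zero.1 f1)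
    have hζ' : ‖ζ‖ = 1 := by simpa using hζ
    rw [h0, norm_zero] at hζ'
    exact zero_ne_one hζ'
  obtain ⟨c, hc, hc'⟩ : ∃ c : ℝ, 0 < c ∧ ∀ y ∈ L.US G ×ˢ Metric.sphere (0 : H₁) 1,
      c ≤ ‖L2 y.1 y.2‖ + ‖P₁ y.1 y.2 - y.2‖ := by
    rcases (L.US G ×ˢ Metric.sphere (0 : H₁) 1).eq_empty_or_nonempty with he | hne
    · exact ⟨1, one_pos, fun y hy => by rw [he] at hy; exact absurd hy (Set.notMem_empty y)⟩
    · obtain ⟨y₀, hy₀, hmin⟩ := hK.exists_isMinOn hne hcont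
      exact ⟨_, hpos y₀ hy₀, fun y hy => hmin hy⟩
  refine ⟨c⁻¹, inv_pos.2 hc, fun z hz ζ hζ1 => ?_⟩
  rcases eq_or_ne ζ 0 with rfl | hne
  · simp
  have hn : 0 < ‖ζ‖ := norm_pos_iff.2 hne
  have h1 := hc' (z, ‖ζ‖⁻¹ • ζ) ⟨hz, by
    rw [mem_sphere_zero_iff_norm, norm_smul, norm_inv, norm_norm, inv_mul_cancel₀ hn.ne']⟩
  simp only [map_smul, hζ1, sub_self, norm_zero, add_zero] at h1
  rw [norm_smul, norm_inv, norm_norm] at h1
  rw [inv_mul_eq_div, le_div_iff₀ hc, mul_comm]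
  calc c * ‖ζ‖ ≤ (‖ζ‖⁻¹ * ‖L2 z ζ‖) * ‖ζ‖ := by gcongr
    _ = ‖L2 z ζ‖ := by field_simp

/-! ### the gap -/

lemma norm_le_of_sq {x : Euc N} {c ρ : ℝ} (hρ : 0 ≤ ρ) (hc : ‖x‖ ^ 2 ≤ c)
    (h1 : c ≤ ρ ^ 2) : ‖x‖ ≤ ρ := by
  have := hc.trans h1
  exact (pow_le_pow_iff_left₀ (norm_nonneg _) hρ two_ne_zero).1 this

/-- **(3) gap**, four arcs -/
theorem LinK.gap (hS : IsCompact S) (hL : LinK h P₂ P₁ Lz) (hP₂ : PField (L.US G) r₂ P₂)
    (hP₁ : PField (L.US G) r₁ P₁) (hr : r₁ + r₂ + 3 = 3 * k) {ρ : ℝ} (hρ : 0 < ρ) :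
    ∃ c : ℝ, 0 < c ∧ ∀ κ' ∈ N4 h, (∀ i, ‖(nest4 κ').2 i - (nest4 κ').2 0‖ ^ 2 < c) →
      ∃ x ∈ TP.TT (L.US G) P₂ P₁, ‖x.1.2‖ < ρ ∧ ‖x.2‖ < ρ ∧ Psi Lz x = κ' := by
  obtain ⟨C, hC, hCb⟩ := hL.exists_bound hS hP₂ hP₁
  set σ : ℝ := ρ / (4 * C) with hσ
  have hσ0 : 0 < σ := by positivity
  refine ⟨min 1 (σ ^ 2), lt_min one_pos (by positivity), fun κ' hκ' hi => ?_⟩
  obtain ⟨⟨⟨z, v1⟩, v2⟩, v3⟩ := κ'
  obtain ⟨⟨⟨⟨⟨⟨hz, p1⟩, q1⟩, p2⟩, q2⟩, p3⟩, q3⟩ := hκ'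
  simp only at hz p1 q1 p2 q2 p3 q3
  have k1 : ‖v1 - z.2‖ ^ 2 < min 1 (σ ^ 2) := hi 1
  have k2 : ‖v2 - z.2‖ ^ 2 < min 1 (σ ^ 2) := hi 2
  have k3 : ‖v3 - z.2‖ ^ 2 < min 1 (σ ^ 2) := hi 3
  have key : ∀ {v : Euc N}, PVB h (phi G z) v = v → ‖v‖ = 1 →
      ‖v - z.2‖ ^ 2 < min 1 (σ ^ 2) → (0:ℝ) < ⟪v, z.2⟫ ∧ inv1 z.2 v ∈ V0 G z ∧
        ‖inv1 z.2 v‖ ≤ 2 * σ := by
    intro v hv hv1 hvs
    obtain ⟨a1, a2⟩ := lt_min_iff.1 hvs
    have h0 : (0 : ℝ) < ⟪v, z.2⟫ := by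
      rw [inner_eq hz.2 hv1]
      linarith
    refine ⟨h0, inv1_mem h hz hv h0, ?_⟩
    refine norm_le_of_sq (by positivity) (norm_inv1_sq hz.2 hv1 a1.le) ?_
    rw [mul_pow]
    linarith
  obtain ⟨i1, m1, n1⟩ := key p1 q1 k1
  obtain ⟨i2, m2, n2⟩ := key p2 q2 k2
  obtain ⟨i3, m3, n3⟩ := key p3 q3 k3
  obtain ⟨ζ, e₂, e₁, l1, l2, l3⟩ := hL.surj hP₂ hP₁ hr hz m1 m2 m3
  have hn : ‖Lz z ζ‖ ≤ 2 * σ := by
    rw [pi_norm_le_iff_of_nonneg (by positivity)]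
    intro i
    fin_cases i
    · change ‖Lz z ζ 0‖ ≤ 2 * σ
      rw [hL.zero z hz ζ e₂ e₁, norm_zero]
      positivity
    · change ‖Lz z ζ 1‖ ≤ 2 * σ
      rw [l1]; exact n1
    · change ‖Lz z ζ 2‖ ≤ 2 * σ
      rw [l2]; exact n2
    · change ‖Lz z ζ 3‖ ≤ 2 * σ
      rw [l3]; exact n3
  have hζ : ‖ζ‖ < ρ := by
    refine (hCb z hz ζ e₂ e₁).trans_lt ?_
    calc C * ‖Lz z ζ‖ ≤ C * (2 * σ) := by gcongr
      _ = ρ / 2 := by rw [hσ]; field_simp; ring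
      _ < ρ := by linarith
  refine ⟨((z, ζ.1), ζ.2), mem_TT.2 ⟨hz, e₂, e₁⟩, (norm_fst_le ζ).trans_lt hζ,
    (norm_snd_le ζ).trans_lt hζ, ?_⟩
  unfold Psi Li
  simp only [Prod.mk.eta, l1, l2, l3, nrm_inv1 q1 i1, nrm_inv1 q2 i2, nrm_inv1 q3 i3]

/-- **(3) gap**, two arcs -/
theorem LinK2.gap (hS : IsCompact S) (hL : LinK2 h P₁ L2)
    (hP₁ : PField (L.US G) r₁ P₁) (hr : r₁ + 1 = k) {ρ : ℝ} (hρ : 0 < ρ) :
    ∃ c : ℝ, 0 < c ∧ ∀ κ' ∈ N2 h, ‖κ'.2 - κ'.1.2‖ ^ 2 < c →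
      ∃ x ∈ Tot (L.US G) P₁, ‖x.2‖ < ρ ∧ Psi2 L2 x = κ' := by
  obtain ⟨C, hC, hCb⟩ := hL.exists_bound hS hP₁
  set σ : ℝ := ρ / (4 * C) with hσ
  have hσ0 : 0 < σ := by positivity
  refine ⟨min 1 (σ ^ 2), lt_min one_pos (by positivity), fun κ' hκ' k1 => ?_⟩
  obtain ⟨z, v1⟩ := κ'
  obtain ⟨⟨hz, p1⟩, q1⟩ := hκ'
  simp only at hz p1 q1 k1
  obtain ⟨a1, a2⟩ := lt_min_iff.1 k1
  have i1 : (0 : ℝ) < ⟪v1, z.2⟫ := by
    rw [inner_eq hz.2 q1]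
    linarith
  have m1 := inv1_mem h hz p1 i1
  have n1 : ‖inv1 z.2 v1‖ ≤ 2 * σ := by
    refine norm_le_of_sq (by positivity) (norm_inv1_sq hz.2 q1 a1.le) ?_
    rw [mul_pow]
    linarith
  obtain ⟨ζ, e₁, l1⟩ := hL.surj hP₁ hr hz m1
  have hn : ‖L2 z ζ‖ ≤ 2 * σ := by
    rw [pi_norm_le_iff_of_nonneg (by positivity)]
    intro i
    fin_cases i
    · change ‖L2 z ζ 0‖ ≤ 2 * σ
      rw [hL.zero z hz ζ e₁, norm_zero]
      positivity
    · change ‖L2 z ζ 1‖ ≤ 2 * σ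
      rw [l1]; exact n1
  have hζ : ‖ζ‖ < ρ := by
    refine (hCb z hz ζ e₁).trans_lt ?_
    calc C * ‖L2 z ζ‖ ≤ C * (2 * σ) := by gcongr
      _ = ρ / 2 := by rw [hσ]; field_simp; ring
      _ < ρ := by linarith
  refine ⟨(z, ζ), ⟨hz, e₁⟩, hζ, ?_⟩
  unfold Psi2
  simp only [l1, nrm_inv1 q1 i1]

/-- the gap in terms of the sum of squares -/
theorem LinK.gap_sum (hS : IsCompact S) (hL : LinK h P₂ P₁ Lz) (hP₂ : PField (L.US G) r₂ P₂)
    (hP₁ : PField (L.US G) r₁ P₁) (hr : r₁ + r₂ + 3 = 3 * k) {ρ : ℝ} (hρ : 0 < ρ) :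
    ∃ c : ℝ, 0 < c ∧ ∀ κ' ∈ N4 h, (∑ i, ‖(nest4 κ').2 i - (nest4 κ').2 0‖ ^ 2 < c) →
      ∃ x ∈ TP.TT (L.US G) P₂ P₁, ‖x.1.2‖ < ρ ∧ ‖x.2‖ < ρ ∧ Psi Lz x = κ' := by
  obtain ⟨c, hc, h1⟩ := hL.gap hS hP₂ hP₁ hr hρ
  refine ⟨c, hc, fun κ' hκ' hs => h1 κ' hκ' fun i => lt_of_le_of_lt ?_ hs⟩
  exact Finset.single_le_sum (f := fun i => ‖(nest4 κ').2 i - (nest4 κ').2 0‖ ^ 2)
    (fun j _ => sq_nonneg _) (Finset.mem_univ i)



end Crest.Agent.R208.TU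
end
end

-- ▼ part R208/TU3
section

/-!
Row 208, block TU (helper10), part TU3: composition of oriented submersions; the nested sphere
bundles `N2`, `N3`, `N4` over `US` are closed manifolds, oriented submersions over each other and
over `US`.
-/

set_option autoImplicit false
set_option linter.unusedSectionVars false
set_option linter.unusedVariables false

open Set Filter Topology MeasureTheory Module
open scoped ContDiff RealInnerProductSpace Interval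
open Crest.GeometryTopology.Submanifold
open Crest.Agent.R241.DDefs
open Crest.Agent.R241.D2
open Crest.Agent.R241.D3c
open Crest.Agent.R208.F Crest.Agent.R208.FI Crest.Agent.R208.T Crest.Agent.R208.FG
open Crest.Agent.R208.FV (PVB phi phi_mem PV_eq_self pfield_PVB contDiffAt_phi)
open Crest.Agent.R208.KG (N2 N3 N4 nest4 nest2 idx)
open Crest.Agent.R208.SB (OPr oV contDiffAt_oV isDeg_oV osubm_Sph subm_Sph clo_Sph exists_opr_V)

noncomputable section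

namespace Crest.Agent.R208.TU

/-! ### composition -/

section comp
variable {A B C : Type*} [NormedAddCommGroup A] [NormedSpace ℝ A] [FiniteDimensional ℝ A]
  [NormedAddCommGroup B] [NormedSpace ℝ B] [FiniteDimensional ℝ B]
  [NormedAddCommGroup C] [NormedSpace ℝ C] [FiniteDimensional ℝ C]
  {W : Set A} {Z : Set B} {X : Set C} {g : A → B} {f : B → C} {r₁ r₂ d : ℕ}
  {oW : A → Ext A} {oZ : B → Ext B} {oX : C → Ext C}

theorem subm_comp (h' : Subm r₂ (r₁ + d) W Z g) (h : Subm r₁ d Z X f) :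
    Subm (r₂ + r₁) d W X (f ∘ g) where
  cloZ := by rw [Nat.add_assoc]; exact h'.cloZ
  cloX := h.cloX
  smooth w hw := (h.smooth _ (h'.mapsTo hw)).comp w (h'.smooth w hw)
  mapsTo w hw := h.mapsTo (h'.mapsTo hw)
  sub := by
    intro w hw a ha
    obtain ⟨b, hb, hba⟩ := h.sub _ (h'.mapsTo hw) a ha
    obtain ⟨c, hc, hcb⟩ := h'.sub w hw b hb
    refine ⟨c, hc, ?_⟩
    rw [fderiv_comp w ((h.smooth _ (h'.mapsTo hw)).differentiableAt (by simp))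
      ((h'.smooth w hw).differentiableAt (by simp)), ContinuousLinearMap.comp_apply, hcb, hba]

/-- **composition of oriented submersions** -/
theorem osubm_comp (h' : OSubm r₂ (r₁ + d) W Z g oW (fun z => oZ z * pull f oX z))
    (h : OSubm r₁ d Z X f oZ oX) :
    OSubm (r₂ + r₁) d W X (f ∘ g) (fun w => oW w * pull g oZ w) oX where
  subm := subm_comp h'.subm h.subm
  cV := continuousOn_mul h'.cV (h'.subm.continuousOn_pull h.cV)
  base := h.base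
  dY := h.dY
  tot := by
    have h1 := h'.tot
    have key : ∀ w ∈ W, oW w * pull g oZ w * pull (f ∘ g) oX w =
        oW w * pull g (fun z => oZ z * pull f oX z) w := by
      intro w hw
      rw [pull_mul, mul_assoc, ← pull_comp ((h'.subm.smooth w hw).differentiableAt (by simp))
        ((h.subm.smooth _ (h'.subm.mapsTo hw)).differentiableAt (by simp))]
    rw [Nat.add_assoc]
    refine ⟨h1.cont.congr fun w hw => key w hw, fun w hw => ?_⟩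
    have h2 := h1.ne w hw
    rw [← key w hw] at h2
    exact h2

end comp

/-! ### the nested sphere bundles -/

variable {n N k d r : ℕ} {κ : ℝ} {S : Set (Euc N)} {G : Geo n N κ S}

theorem smap_phi (h : GT.Bla G k) : CW.SMap (L.US G) (GT.FF S) (phi G) :=
  ⟨fun _ hz => contDiffAt_phi hz.1, fun _ hz => phi_mem h.bl hz⟩

theorem pfield_phi (h : GT.Bla G k) : PField (L.US G) k (fun z => PVB h (phi G z)) :=
  ⟨fun z hz => ((pfield_PVB h).smooth _ ((smap_phi h).maps hz)).comp z ((smap_phi h).smooth z hz),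
    fun z hz => (pfield_PVB h).idem _ ((smap_phi h).maps hz),
    fun z hz => (pfield_PVB h).rank _ ((smap_phi h).maps hz)⟩

theorem smap_N2 (h : GT.Bla G k) :
    CW.SMap (N2 h) (L.US G) (Prod.fst : (Euc N × Euc N) × Euc N → Euc N × Euc N) :=
  ⟨fun _ _ => contDiffAt_fst, fun _ hz => hz.1.1⟩

theorem smap_N3 (h : GT.Bla G k) :
    CW.SMap (N3 h) (N2 h) (Prod.fst : ((Euc N × Euc N) × Euc N) × Euc N → _) :=
  ⟨fun _ _ => contDiffAt_fst, fun _ hz => hz.1.1⟩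


theorem pfield_N2 (h : GT.Bla G k) :
    PField (N2 h) k (fun z : (Euc N × Euc N) × Euc N => PVB h (phi G z.1)) :=
  ⟨fun z hz => ((pfield_phi h).smooth _ ((smap_N2 h).maps hz)).comp z ((smap_N2 h).smooth z hz),
    fun z hz => (pfield_phi h).idem _ ((smap_N2 h).maps hz),
    fun z hz => (pfield_phi h).rank _ ((smap_N2 h).maps hz)⟩

theorem pfield_N3 (h : GT.Bla G k) :
    PField (N3 h) k (fun z : ((Euc N × Euc N) × Euc N) × Euc N => PVB h (phi G z.1.1)) :=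
  ⟨fun z hz => ((pfield_N2 h).smooth _ ((smap_N3 h).maps hz)).comp z ((smap_N3 h).smooth z hz),
    fun z hz => (pfield_N2 h).idem _ ((smap_N3 h).maps hz),
    fun z hz => (pfield_N2 h).rank _ ((smap_N3 h).maps hz)⟩

section clo

theorem clo_N2 (h : GT.Bla G k) (hr : r + 1 = k) (hd : d + 1 = 2 * n) : Clo (r + d) (N2 h) := by
  subst hr
  exact clo_Sph (SB.clo_US h hd) (pfield_phi h)

theorem clo_N3 (h : GT.Bla G k) (hr : r + 1 = k) (hd : d + 1 = 2 * n) :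
    Clo (r + (r + d)) (N3 h) := by
  subst hr
  exact clo_Sph (clo_N2 h rfl hd) (pfield_N2 h)

theorem clo_N4 (h : GT.Bla G k) (hr : r + 1 = k) (hd : d + 1 = 2 * n) :
    Clo (r + (r + (r + d))) (N4 h) := by
  subst hr
  exact clo_Sph (clo_N3 h rfl hd) (pfield_N3 h)





end clo

/-! ### orientations -/

section ori


variable {oP oX : Euc N × Euc N → Ext (Euc N × Euc N)}

end ori

section ori2
variable {oP : Euc N × Euc N → Ext (Euc N)} {oX : Euc N × Euc N → Ext (Euc N × Euc N)}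

theorem opr_N2 {h : GT.Bla G k} (ho : OPr (L.US G) k (fun z => PVB h (phi G z)) oP) :
    OPr (N2 h) k (fun z : (Euc N × Euc N) × Euc N => PVB h (phi G z.1)) (fun z => oP z.1) :=
  ho.comp (smap_N2 h)

theorem opr_N3 {h : GT.Bla G k} (ho : OPr (L.US G) k (fun z => PVB h (phi G z)) oP) :
    OPr (N3 h) k (fun z : ((Euc N × Euc N) × Euc N) × Euc N => PVB h (phi G z.1.1))
      (fun z => oP z.1.1) :=
  (opr_N2 ho).comp (smap_N3 h)

/-- vertical form of `N2 → US` -/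
def w2 (oP : Euc N × Euc N → Ext (Euc N)) :
    (Euc N × Euc N) × Euc N → Ext ((Euc N × Euc N) × Euc N) := oV oP

/-- vertical form of `N3 → N2` -/
def w3 (oP : Euc N × Euc N → Ext (Euc N)) :
    ((Euc N × Euc N) × Euc N) × Euc N → Ext (((Euc N × Euc N) × Euc N) × Euc N) :=
  oV (fun z : (Euc N × Euc N) × Euc N => oP z.1)

/-- vertical form of `N4 → N3` -/
def w4 (oP : Euc N × Euc N → Ext (Euc N)) :
    (((Euc N × Euc N) × Euc N) × Euc N) × Euc N →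
      Ext ((((Euc N × Euc N) × Euc N) × Euc N) × Euc N) :=
  oV (fun z : ((Euc N × Euc N) × Euc N) × Euc N => oP z.1.1)

/-- orientation of `N2` -/
def o2 (oP : Euc N × Euc N → Ext (Euc N)) (oX : Euc N × Euc N → Ext (Euc N × Euc N)) :
    (Euc N × Euc N) × Euc N → Ext ((Euc N × Euc N) × Euc N) :=
  fun z => w2 oP z * pull Prod.fst oX z

/-- orientation of `N3` -/
def o3 (oP : Euc N × Euc N → Ext (Euc N)) (oX : Euc N × Euc N → Ext (Euc N × Euc N)) :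
    ((Euc N × Euc N) × Euc N) × Euc N → Ext (((Euc N × Euc N) × Euc N) × Euc N) :=
  fun z => w3 oP z * pull Prod.fst (o2 oP oX) z


variable {h : GT.Bla G k}

theorem isDeg_o2 (ho : OPr (L.US G) (r + 1) (fun z => PVB h (phi G z)) oP)
    (hd : ∀ x, IsDeg d (oX x)) (z) : IsDeg (r + d) (o2 oP oX z) :=
  isDeg_mul (isDeg_oV ho z) ((hd _).pb _)

/-- **`N2 → US`** -/
theorem osubm_N2 (hr : r + 1 = k) (hd : d + 1 = 2 * n)
    (ho : OPr (L.US G) k (fun z => PVB h (phi G z)) oP) (hoX : Ori d (L.US G) oX)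
    (hdX : ∀ x, IsDeg d (oX x)) :
    OSubm r d (N2 h) (L.US G) Prod.fst (w2 oP) oX := by
  subst hr
  exact osubm_Sph (SB.clo_US h hd) (pfield_phi h) ho hoX hdX

/-- **`N3 → N2`** -/
theorem osubm_N3 (hr : r + 1 = k) (hd : d + 1 = 2 * n)
    (ho : OPr (L.US G) k (fun z => PVB h (phi G z)) oP) (hoX : Ori d (L.US G) oX)
    (hdX : ∀ x, IsDeg d (oX x)) :
    OSubm r (r + d) (N3 h) (N2 h) Prod.fst (w3 oP) (o2 oP oX) := by
  have h2 := osubm_N2 hr hd ho hoX hdX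
  subst hr
  exact osubm_Sph (clo_N2 h rfl hd) (pfield_N2 h) (opr_N2 ho) h2.tot (isDeg_o2 ho hdX)

theorem isDeg_o3 (ho : OPr (L.US G) (r + 1) (fun z => PVB h (phi G z)) oP)
    (hd : ∀ x, IsDeg d (oX x)) (z) : IsDeg (r + (r + d)) (o3 oP oX z) := by
  have h1 : ∀ x, IsDeg (r + 1) (oP x) := ho.deg
  exact isDeg_mul (((h1 _).ii _).pb _) ((isDeg_o2 ho hd _).pb _)

/-- **`N4 → N3`** -/
theorem osubm_N4 (hr : r + 1 = k) (hd : d + 1 = 2 * n)
    (ho : OPr (L.US G) k (fun z => PVB h (phi G z)) oP) (hoX : Ori d (L.US G) oX)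
    (hdX : ∀ x, IsDeg d (oX x)) :
    OSubm r (r + (r + d)) (N4 h) (N3 h) Prod.fst (w4 oP) (o3 oP oX) := by
  have h2 := osubm_N3 hr hd ho hoX hdX
  subst hr
  exact osubm_Sph (clo_N3 h rfl hd) (pfield_N3 h) (opr_N3 ho) h2.tot (isDeg_o3 ho hdX)

/-- total vertical form of `N3 → US` -/
def v3 (oP : Euc N × Euc N → Ext (Euc N)) :
    ((Euc N × Euc N) × Euc N) × Euc N → Ext (((Euc N × Euc N) × Euc N) × Euc N) :=
  fun z => w3 oP z * pull Prod.fst (w2 oP) z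

/-- total vertical form of `N4 → US` -/
def v4 (oP : Euc N × Euc N → Ext (Euc N)) :
    (((Euc N × Euc N) × Euc N) × Euc N) × Euc N →
      Ext ((((Euc N × Euc N) × Euc N) × Euc N) × Euc N) :=
  fun z => w4 oP z * pull Prod.fst (v3 oP) z

/-- **`N3 → US`** -/
theorem osubm_N3_US (hr : r + 1 = k) (hd : d + 1 = 2 * n)
    (ho : OPr (L.US G) k (fun z => PVB h (phi G z)) oP) (hoX : Ori d (L.US G) oX)
    (hdX : ∀ x, IsDeg d (oX x)) :
    OSubm (r + r) d (N3 h) (L.US G) (fun z => z.1.1) (v3 oP) oX :=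
  osubm_comp (osubm_N3 hr hd ho hoX hdX) (osubm_N2 hr hd ho hoX hdX)

/-- the two ways of building the orientation of `N3` agree -/
theorem o3_eq (z : ((Euc N × Euc N) × Euc N) × Euc N) :
    v3 oP z * pull (fun z : ((Euc N × Euc N) × Euc N) × Euc N => z.1.1) oX z = o3 oP oX z := by
  unfold o3 o2 v3
  rw [pull_mul, mul_assoc, pull_comp differentiableAt_fst differentiableAt_fst]
  rfl


/-- **`N4 → US`** is an oriented submersion of relative dimension `3 (k - 1)` -/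
theorem osubm_N4_US (hr : r + 1 = k) (hd : d + 1 = 2 * n)
    (ho : OPr (L.US G) k (fun z => PVB h (phi G z)) oP) (hoX : Ori d (L.US G) oX)
    (hdX : ∀ x, IsDeg d (oX x)) :
    OSubm (r + (r + r)) d (N4 h) (L.US G) (fun z => z.1.1.1) (v4 oP) oX := by
  have h1 := osubm_N3_US hr hd ho hoX hdX
  have h2 := osubm_N4 hr hd ho hoX hdX
  have e : o3 oP oX =
      (fun z => v3 oP z * pull (fun z : ((Euc N × Euc N) × Euc N) × Euc N => z.1.1) oX z) :=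
    funext fun z => (o3_eq z).symm
  rw [e] at h2
  have h3 : OSubm r ((r + r) + d) (N4 h) (N3 h) Prod.fst (w4 oP)
      (fun z => v3 oP z * pull (fun z : ((Euc N × Euc N) × Euc N) × Euc N => z.1.1) oX z) := by
    rw [Nat.add_assoc]
    exact h2
  have h4 := osubm_comp (r₂ := r) (r₁ := r + r) (d := d) (W := N4 h) (Z := N3 h) (X := L.US G)
    (g := (Prod.fst : (((Euc N × Euc N) × Euc N) × Euc N) × Euc N → _))
    (f := fun z : ((Euc N × Euc N) × Euc N) × Euc N => z.1.1)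
    (oW := w4 oP) (oZ := v3 oP) (oX := oX) h3 h1
  exact h4

/-! smoothness and degree of the vertical forms -/

theorem contDiffAt_w2 (ho : OPr (L.US G) k (fun z => PVB h (phi G z)) oP)
    {z : (Euc N × Euc N) × Euc N} (hz : z ∈ N2 h) : ContDiffAt ℝ ∞ (w2 oP) z :=
  contDiffAt_oV ho hz.1.1

theorem contDiffAt_w3 (ho : OPr (L.US G) k (fun z => PVB h (phi G z)) oP)
    {z : ((Euc N × Euc N) × Euc N) × Euc N} (hz : z ∈ N3 h) : ContDiffAt ℝ ∞ (w3 oP) z :=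
  contDiffAt_oV (opr_N2 ho) hz.1.1

theorem contDiffAt_w4 (ho : OPr (L.US G) k (fun z => PVB h (phi G z)) oP)
    {z : (((Euc N × Euc N) × Euc N) × Euc N) × Euc N} (hz : z ∈ N4 h) :
    ContDiffAt ℝ ∞ (w4 oP) z :=
  contDiffAt_oV (opr_N3 ho) hz.1.1

theorem contDiffAt_v3 (ho : OPr (L.US G) k (fun z => PVB h (phi G z)) oP)
    {z : ((Euc N × Euc N) × Euc N) × Euc N} (hz : z ∈ N3 h) : ContDiffAt ℝ ∞ (v3 oP) z :=
  contDiffAt_mul (contDiffAt_w3 ho hz)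
    (contDiffAt_pull (n := ∞) contDiffAt_fst (by simp) (contDiffAt_w2 ho hz.1.1))

theorem contDiffAt_v4 (ho : OPr (L.US G) k (fun z => PVB h (phi G z)) oP)
    {z : (((Euc N × Euc N) × Euc N) × Euc N) × Euc N} (hz : z ∈ N4 h) :
    ContDiffAt ℝ ∞ (v4 oP) z :=
  contDiffAt_mul (contDiffAt_w4 ho hz)
    (contDiffAt_pull (n := ∞) contDiffAt_fst (by simp) (contDiffAt_v3 ho hz.1.1))

theorem hom_w2 (hr : r + 1 = k) (ho : OPr (L.US G) k (fun z => PVB h (phi G z)) oP) :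
    Hom r (w2 oP) := by
  subst hr
  intro z
  exact isDeg_oV ho z

theorem hom_w3 (hr : r + 1 = k) (ho : OPr (L.US G) k (fun z => PVB h (phi G z)) oP) :
    Hom r (w3 oP) := by
  subst hr
  intro z
  have h1 : ∀ x, IsDeg (r + 1) (oP x) := ho.deg
  exact ((h1 _).ii _).pb _

theorem hom_w4 (hr : r + 1 = k) (ho : OPr (L.US G) k (fun z => PVB h (phi G z)) oP) :
    Hom r (w4 oP) := by
  subst hr
  intro z
  have h1 : ∀ x, IsDeg (r + 1) (oP x) := ho.deg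
  exact ((h1 _).ii _).pb _

theorem hom_v3 (hr : r + 1 = k) (ho : OPr (L.US G) k (fun z => PVB h (phi G z)) oP) :
    Hom (r + r) (v3 oP) := fun z => isDeg_mul (hom_w3 hr ho z) ((hom_w2 hr ho _).pb _)

theorem hom_v4 (hr : r + 1 = k) (ho : OPr (L.US G) k (fun z => PVB h (phi G z)) oP) :
    Hom (r + (r + r)) (v4 oP) := fun z => isDeg_mul (hom_w4 hr ho z) ((hom_v3 hr ho _).pb _)

end ori2

end Crest.Agent.R208.TU
end
end

-- ▼ part R208/TU5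

/-!
Row 208, block TU (helper10), part TU5: the tubes are open embeddings in the sense of helper997's
`OE`.
-/

set_option autoImplicit false
set_option linter.unusedSectionVars false
set_option linter.unusedVariables false

open Set Filter Topology MeasureTheory Module
open scoped ContDiff RealInnerProductSpace Interval
open Crest.GeometryTopology.Submanifold
open Crest.Agent.R241.DDefs
open Crest.Agent.R241.D2
open Crest.Agent.R208.F Crest.Agent.R208.FI Crest.Agent.R208.T Crest.Agent.R208.FG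
open Crest.Agent.R208.FV (PVB phi phi_mem PV_eq_self pfield_PVB contDiffAt_phi)
open Crest.Agent.R208.KG (N2 N3 N4 nest4 nest2 idx)

noncomputable section

namespace Crest.Agent.R208.TU

variable {n N k d r : ℕ} {κ : ℝ} {S : Set (Euc N)} {G : Geo n N κ S}
  {H₁ H₂ : Type*} [NormedAddCommGroup H₁] [InnerProductSpace ℝ H₁] [FiniteDimensional ℝ H₁]
  [NormedAddCommGroup H₂] [InnerProductSpace ℝ H₂] [FiniteDimensional ℝ H₂]
  {P₁ : Euc N × Euc N → H₁ →L[ℝ] H₁} {P₂ : Euc N × Euc N → H₂ →L[ℝ] H₂}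
  {h : GT.Bla G k} {Lz : Euc N × Euc N → (H₂ × H₁) →L[ℝ] (Fin 4 → Euc N)}
  {L2 : Euc N × Euc N → H₁ →L[ℝ] (Fin 2 → Euc N)} {r₁ r₂ : ℕ}

/-- the total space of `P₂ ⊕ P₁` -/
theorem sub_TT (h : GT.Bla G k) (hd : d + 1 = 2 * n) (hP₂ : PField (L.US G) r₂ P₂)
    (hP₁ : PField (L.US G) r₁ P₁) : Sub (d + r₂ + r₁) (TP.TT (L.US G) P₂ P₁) := by
  have h1 : Sub (d + r₂) (Tot (L.US G) P₂) := hP₂.sub_tot (SB.clo_US h hd).sub
  refine PField.sub_tot (P := fun z : (Euc N × Euc N) × H₂ => P₁ z.1) h1 ?_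
  exact ⟨fun z hz => ContDiffAt.comp (g := P₁) (f := fun z : (Euc N × Euc N) × H₂ => z.1) z
      (hP₁.smooth _ hz.1) contDiffAt_fst, fun z hz => hP₁.idem _ hz.1, fun z hz => hP₁.rank _ hz.1⟩



end Crest.Agent.R208.TU
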