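import Crest.Agent.R208.QK1_Mg
import Crest.Agent.R208.EX14
import Crest.Agent.R208.EA5
import Crest.Agent.R208.NW2
import Crest.Agent.R208.KRa286
import Mathlib
import Crest.Agent.R208.KR8
import Crest.Agent.R208.AK4
import Crest.Agent.R208.AK11
import Crest.Agent.R208.FT6
import Crest.Agent.R208.TU5
import Crest.Agent.R208.EX9
import Crest.Agent.R208.FU4
import Crest.Agent.R208.EX12
import Crest.Agent.R208.AK19
import Crest.Agent.R208.UP2
import Crest.Agent.R208.SB3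
import Crest.Agent.R208.TP9
import Crest.Agent.R208.SO4
import Crest.Agent.R208.DEG2
import Crest.Agent.R208.CM6b
import Crest.Agent.R208.JW3
import Crest.Agent.R208.KD1
import Crest.Agent.R208.HN2
import Crest.Agent.R208.KP3
import Crest.Agent.R208.SB5
import Crest.Agent.R208.TX10
import Crest.Agent.R208.ZH2
import Crest.Agent.R208.VEd589d_Mg
import Crest.Agent.R208.EA8_Mg
import Crest.Agent.R208.SC1

-- ▼ part R208/ZG14
section

/-!
R208, ZG14 (helper385): `Vol4Stmt`.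
-/

namespace Crest.Agent.R208.ZG

/-- **(K10)** -/
theorem k10 : K10Stmt := by
  intro n N m κ S G h W₀ p₀ x D mm p' g Fc P' oP' hod f y c μ α hg hc _ sf hy _ hA hp _ hμ hα
  exact QK.four_le D hg hc hod sf hy hA hp hμ hα

/-- **the volume of the unit tangent bundle for `k = 4`** -/
theorem vol4 : Vol4Stmt := vol4_of_K10 k10

end Crest.Agent.R208.ZG
end

-- ▼ part R208/EX15
section

/-!
R208, (8,2), block ED (helper530), part EX15: over the geometric package `Gm82`: the data `ED`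
(from the class side of level one) and helper595's identity (E), all geometric hypotheses filled.
-/

set_option autoImplicit false
set_option linter.unusedSectionVars false
set_option linter.unusedVariables false

open MeasureTheory Set Filter Topology Module
open scoped ContDiff RealInnerProductSpace Real
open Crest.GeometryTopology.Submanifold
open Crest.Agent.R241.DDefs Crest.Agent.R241.D Crest.Agent.R241.D2
open Crest.Agent.R208.F Crest.Agent.R208.FI Crest.Agent.R208.CW Crest.Agent.R208.T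
open Crest.Agent.R208.CM (Cir gen Rep Triv Qd phR Th gf Emb Quo MM jj Curv)
open Crest.Agent.R208.LB (al)
open Crest.Agent.R208.VC hiding Wt
open Crest.Agent.R208.MS (Fam oc En)
open Crest.Agent.R208.FL (D0 D1 Ph)
open Crest.Agent.R208.FT (D2 XI RN xiN gp lev)
open Crest.Agent.R208.NN (Wt Rt nuP)
open Crest.Agent.R208.TP (CV push pu₂)

noncomputable section

namespace Crest.Agent.R208.EX

section geo
variable {n N K s m m' l c s' c₂ : ℕ} {κ : ℝ} {S : Set (Euc N)} {G : Geo n N κ S}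
  {lg : Euc N → Euc N → Euc N} {ρ : Euc N → Euc N} {r C r' Kr B w δ δ₂ : ℝ}
  {PN : Euc N × Euc N → Wt N K →L[ℝ] Wt N K}
  {h : GT.Bla G (2 * s + 2)} {g : Euc N × Euc N → Fin m → ℂ} {Fc : MM m → Ext (MM m)}
  {g' : (Euc N × Euc N) × HW.U l → Fin m' → ℂ} {p : MM m' → MM m}
  {T : Euc N × Euc N → Wt N K →L[ℝ] EuclideanSpace ℝ (Fin (2 * c + 1))}
  {P' : MM m → EuclideanSpace ℝ (Fin (2 * c + 1)) →L[ℝ] EuclideanSpace ℝ (Fin (2 * c + 1))}
  {o' : MM m → Ext (EuclideanSpace ℝ (Fin (2 * c + 1)))}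
  {W' : MM m → (Fin (s' + 1) × Fin 2 → Fin (2 * c + 1)) → ℝ}
  {oN : Euc N × Euc N → Ext (Wt N K)}
  {T₂ : (Euc N × Euc N) × HW.U l →
    EuclideanSpace ℝ (((Fin K × Fin 2) × Fin N) ⊕ ((Fin K × Fin 2) × Fin N)) →L[ℝ]
      EuclideanSpace ℝ (Fin (2 * c₂))}
  {P₂' : MM m' → EuclideanSpace ℝ (Fin (2 * c₂)) →L[ℝ] EuclideanSpace ℝ (Fin (2 * c₂))}
  {W₂' : MM m' → (Fin (2 * s + 1) × Fin 2 → Fin (2 * c₂)) → ℝ}
  {ε ε₂ E₀ η₀ B' rr ss : ℝ} {J pp qq : ℕ} {om : Euc N → Ext (Euc N)}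
  {HL : ℝ → (ℝ → Euc N) → Euc N} {mu : (ℝ → Euc N) → ℝ}
  {Gm : (ℝ → Euc N) → (Euc N × Euc N) × Wt N K}

namespace Gm82

variable (Q : Gm82 h K l lg ρ r C r' Kr B w δ δ₂ PN g Fc g' p T P' o' W' oN T₂ P₂' W₂')
include Q

/-- **the data `ED`** over the package, from the class side of level one -/
theorem exists_ED (h1 : D1 G (2 * s + 2) K lg ρ r C r' Kr B w δ PN ε J E₀ η₀) (hdat : Dat S om)
    (hT1 : ∃ (c₀ : ℝ) (τ : _), VE.Th1 (volume : Measure (EuclideanSpace ℝ (Fin (2 * c + 1))))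
      (Quo (L.US G) g) P' (thomF (fun y => 1 - P' y) W') (3 / 2) c₀ τ)
    (hcls : Cls1 G K lg ρ w J ε om (al (N := N)) pp qq rr ss PN g T P' W')
    (hnat : NatOp S (Tot (L.US G) PN) (Ph G K) (FL.f1 G lg ρ w J ε)
      (fun y => 64 / 25 ≤ ‖y.2‖ ^ 2) B' HL mu Gm) :
    ∃ D : ED N, D.OK ∧ D.S = S ∧ D.om = om ∧ D.p = pp ∧ D.q = qq ∧ D.r = rr ∧ D.s = ss ∧
      D.B = B' :=
  exists_ED' h1 Q.emb Q.cn hdat Q.dsc hT1 hcls hnat


end Gm82

end geo

end Crest.Agent.R208.EX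
end
end

-- ▼ part R208/NW3
section

/-! Row 208, block NW (helper537), part NW3: uniform negativity of the fields `xi` over compact
families of changes of the angle. -/

set_option autoImplicit false
set_option linter.unusedSectionVars false
set_option linter.unusedVariables false

open MeasureTheory Set Filter Topology Module
open scoped ContDiff RealInnerProductSpace Real
open Crest.GeometryTopology.Submanifold
open Crest.Agent.R241.DDefs
open Crest.Agent.R241.D2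
open Crest.Agent.R208.NN (Wt nuP V0 qf Rt)
open Crest.Agent.R208.KR (xi xi' C1 Xi Xi' Ang)
open Crest.Agent.R208.SV (ix ixd jf jf')

noncomputable section

namespace Crest.Agent.R208.NW

variable {n N k K : ℕ} {κ : ℝ} {S : Set (Euc N)} {G : Geo n N κ S} {z : Euc N × Euc N}
  {h : GT.Bla G k} {P : Euc N × Euc N → Wt N K →L[ℝ] Wt N K} {ε : ℝ}

/-! ### smoothness of index forms with parameters -/

section par

variable {Y : Type} [NormedAddCommGroup Y] [NormedSpace ℝ Y] [FiniteDimensional ℝ Y]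

/-- index forms of smooth families of fields are smooth in the parameters -/
theorem contDiffAt_ix {g : Y → Euc N × Euc N} {A A' B B' : Y → ℝ → Euc N} {x : Y}
    (hz : g x ∈ TS G) (hg : ContDiffAt ℝ ∞ g x) {T : ℝ} (hT : 0 ≤ T)
    (hA : ∀ t, ContDiffAt ℝ ∞ (fun p : Y × ℝ => A p.1 p.2) (x, t))
    (hA' : ∀ t, ContDiffAt ℝ ∞ (fun p : Y × ℝ => A' p.1 p.2) (x, t))
    (hB : ∀ t, ContDiffAt ℝ ∞ (fun p : Y × ℝ => B p.1 p.2) (x, t))
    (hB' : ∀ t, ContDiffAt ℝ ∞ (fun p : Y × ℝ => B' p.1 p.2) (x, t)) :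
    ContDiffAt ℝ ∞ (fun x => ix G (g x) 0 T (A x) (A' x) (B x) (B' x)) x := by
  unfold SV.ix
  refine NB.contDiffAt_int (g := fun p : Y × ℝ => ixd G (g p.1) (A p.1) (A' p.1) (B p.1)
    (B' p.1) p.2) hT fun t _ => ?_
  unfold SV.ixd
  have hg1 : ContDiffAt ℝ ∞ (fun p : Y × ℝ => (g p.1, p.2)) (x, t) :=
    (ContDiffAt.comp (g := g) (f := fun p : Y × ℝ => p.1) (x, t) hg contDiffAt_fst).prodMk
      contDiffAt_snd
  have hf : ContDiffAt ℝ ∞ (fun p : Y × ℝ => fl G (g p.1, p.2)) (x, t) :=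
    ContDiffAt.comp (g := fl G) (f := fun p : Y × ℝ => (g p.1, p.2)) (x, t)
      (contDiffAt_fl' G hz t) hg1
  have hX : ContDiffAt ℝ ∞ (fun p : Y × ℝ => (X G (fl G (g p.1, p.2))).2) (x, t) :=
    (ContDiffAt.comp (g := X G) (f := fun p : Y × ℝ => fl G (g p.1, p.2)) (x, t)
      (contDiff_X G).contDiffAt hf).snd
  have hPf : ContDiffAt ℝ ∞ (fun p : Y × ℝ => fderiv ℝ G.P (fl G (g p.1, p.2)).1) (x, t) :=
    ContDiffAt.comp (g := fderiv ℝ G.P) (f := fun p : Y × ℝ => (fl G (g p.1, p.2)).1) (x, t)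
      ((G.contDiff_P.fderiv_right (m := ∞) (by simp)).contDiffAt) hf.fst
  have hII : ContDiffAt ℝ ∞ (fun p : Y × ℝ => II G (fl G (g p.1, p.2)).1 (A p.1 p.2)
      (B p.1 p.2)) (x, t) := (hPf.clm_apply (hA t)).clm_apply (hB t)
  exact ((hA' t).inner ℝ (hB' t)).sub (hX.inner ℝ hII)

end par

section thd

variable {E : Type} [NormedAddCommGroup E] [NormedSpace ℝ E] [FiniteDimensional ℝ E]
  {Th Th' : E → ℝ → ℝ} {T : Set E}

/-- smoothness of the change of angle in `(s, r)` -/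
structure SAng (Th Th' : E → ℝ → ℝ) (T : Set E) : Prop where
  ang : ∀ s ∈ T, Ang (Th s) (Th' s)
  sm : ∀ s ∈ T, ∀ r, ContDiffAt ℝ ∞ (fun p : E × ℝ => Th p.1 p.2) (s, r)
  sm' : ∀ s ∈ T, ∀ r, ContDiffAt ℝ ∞ (fun p : E × ℝ => Th' p.1 p.2) (s, r)

/-- minus the index form of `xi` -/
def fX (h : GT.Bla G k) (P : Euc N × Euc N → Wt N K →L[ℝ] Wt N K) (Th Th' : E → ℝ → ℝ)
    (p : (Euc N × Euc N) × E) (w : Wt N K × Wt N K) : ℝ :=
  -ix G p.1 0 (2 * π) (fun t => Xi h P (Th p.2) (Th' p.2) p.1 t w)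
    (fun t => Xi' h P (Th p.2) (Th' p.2) p.1 t w) (fun t => Xi h P (Th p.2) (Th' p.2) p.1 t w)
    (fun t => Xi' h P (Th p.2) (Th' p.2) p.1 t w)

theorem fX_smul (p : (Euc N × Euc N) × E) (s : ℝ) (w : Wt N K × Wt N K) :
    fX h P Th Th' p (s • w) = s ^ 2 * fX h P Th Th' p w := by
  unfold fX
  have e1 : (fun t => Xi h P (Th p.2) (Th' p.2) p.1 t (s • w)) =
      s • fun t => Xi h P (Th p.2) (Th' p.2) p.1 t w := by
    funext t; rw [map_smul]; rfl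
  have e2 : (fun t => Xi' h P (Th p.2) (Th' p.2) p.1 t (s • w)) =
      s • fun t => Xi' h P (Th p.2) (Th' p.2) p.1 t w := by
    funext t; rw [map_smul]; rfl
  rw [e1, e2, SV.ix_smul_left, SV.ix_smul_right]
  ring

theorem contDiffAt_fX (hP : KR.NegB h K P) (hz : z ∈ L.US G) (hT : SAng Th Th' T) {s : E}
    (hs : s ∈ T) (w : Wt N K × Wt N K) :
    ContDiffAt ℝ ∞ (Function.uncurry (fX h P Th Th')) ((z, s), w) := by
  have hX : ∀ t, ContDiffAt ℝ ∞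
      (fun p : (((Euc N × Euc N) × E) × (Wt N K × Wt N K)) × ℝ =>
        Xi h P (Th p.1.1.2) (Th' p.1.1.2) p.1.1.1 p.2 p.1.2) (((z, s), w), t) := fun t =>
    (ContDiffAt.comp (g := fun q : ((Euc N × Euc N) × E) × ℝ =>
        Xi h P (Th q.1.2) (Th' q.1.2) q.1.1 q.2)
      (f := fun p : (((Euc N × Euc N) × E) × (Wt N K × Wt N K)) × ℝ => (p.1.1, p.2))
      (((z, s), w), t) (hP.contDiffAt_Xi hz (hT.sm s hs) (hT.sm' s hs) t)
      (by fun_prop)).clm_apply (by fun_prop)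
  have hX' : ∀ t, ContDiffAt ℝ ∞
      (fun p : (((Euc N × Euc N) × E) × (Wt N K × Wt N K)) × ℝ =>
        Xi' h P (Th p.1.1.2) (Th' p.1.1.2) p.1.1.1 p.2 p.1.2) (((z, s), w), t) := fun t =>
    (ContDiffAt.comp (g := fun q : ((Euc N × Euc N) × E) × ℝ =>
        Xi' h P (Th q.1.2) (Th' q.1.2) q.1.1 q.2)
      (f := fun p : (((Euc N × Euc N) × E) × (Wt N K × Wt N K)) × ℝ => (p.1.1, p.2))
      (((z, s), w), t) (hP.contDiffAt_Xi' hz (hT.sm s hs) (hT.sm' s hs) t)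
      (by fun_prop)).clm_apply (by fun_prop)
  exact (contDiffAt_ix (G := G) (Y := ((Euc N × Euc N) × E) × (Wt N K × Wt N K))
    (g := fun p => p.1.1)
    (A := fun p t => Xi h P (Th p.1.2) (Th' p.1.2) p.1.1 t p.2)
    (A' := fun p t => Xi' h P (Th p.1.2) (Th' p.1.2) p.1.1 t p.2)
    (B := fun p t => Xi h P (Th p.1.2) (Th' p.1.2) p.1.1 t p.2)
    (B' := fun p t => Xi' h P (Th p.1.2) (Th' p.1.2) p.1.1 t p.2) (x := ((z, s), w))
    hz.1 (by fun_prop) (by positivity) hX hX' hX hX').neg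

theorem ix_xi_eq (hP : KR.NegB h K P) (hz : z ∈ L.US G) (hT : SAng Th Th' T) {s : E}
    (hs : s ∈ T) (a b : Wt N K) :
    ix G z 0 (2 * π) (xi G z (C1 h P z (Th s) (Th' s) a b)) (xi' G z (C1 h P z (Th s) (Th' s) a b))
      (xi G z (C1 h P z (Th s) (Th' s) a b)) (xi' G z (C1 h P z (Th s) (Th' s) a b)) =
      -fX h P Th Th' (z, s) (a, b) := by
  have c1 := (hT.ang s hs).continuous
  have c2 := (hT.ang s hs).cont
  have e1 : xi G z (C1 h P z (Th s) (Th' s) a b) =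
      fun t => Xi h P (Th s) (Th' s) z t (a, b) := funext fun t => hP.xi_eq hz c1 c2 a b t
  have e2 : xi' G z (C1 h P z (Th s) (Th' s) a b) =
      fun t => Xi' h P (Th s) (Th' s) z t (a, b) := funext fun t => hP.xi'_eq hz c1 c2 a b t
  rw [e1, e2]
  unfold fX
  rw [neg_neg]

/-- **uniform negativity** -/
theorem exists_neg (hS : IsCompact (L.US G)) (hP : KR.NegB h K P) (hTc : IsCompact T)
    (hT : SAng Th Th' T) :
    ∃ δ, 0 < δ ∧ ∀ z ∈ L.US G, ∀ s ∈ T, ∀ a b : Wt N K, P z a = a → P z b = b →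
      ix G z 0 (2 * π) (xi G z (C1 h P z (Th s) (Th' s) a b))
        (xi' G z (C1 h P z (Th s) (Th' s) a b)) (xi G z (C1 h P z (Th s) (Th' s) a b))
        (xi' G z (C1 h P z (Th s) (Th' s) a b)) ≤ -δ * (‖a‖ ^ 2 + ‖b‖ ^ 2) := by
  have hC : IsCompact (L.US G ×ˢ T) := hS.prod hTc
  obtain ⟨c, hc, hb⟩ := exists_lower hC (P := fun p : (Euc N × Euc N) × E =>
      (P p.1).prodMap (P p.1)) ((continuousOn_PP hP).comp continuousOn_fst fun p hp => hp.1)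
    (f := fX h P Th Th') (fun p hp =>
      ((contDiffAt_fX hP hp.1.1 hT hp.1.2 p.2).continuousAt).continuousWithinAt)
    (fun p hp s w => fX_smul p s w) (fun p hp w hw hw0 => by
      have h1 : P p.1 w.1 = w.1 := congrArg Prod.fst hw
      have h2 : P p.1 w.2 = w.2 := congrArg Prod.snd hw
      have h3 := hP.ix_neg hp.1 (hT.ang p.2 hp.2) h1 h2 (by
        intro h0; exact hw0 (Prod.ext (congrArg Prod.fst h0) (congrArg Prod.snd h0)))
      rw [ix_xi_eq hP hp.1 hT hp.2] at h3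
      change 0 < fX h P Th Th' (p.1, p.2) (w.1, w.2)
      linarith)
  refine ⟨c / 2, by positivity, fun z hz s hs a b h1 h2 => ?_⟩
  have h3 := hb (z, s) ⟨hz, hs⟩ (a, b) (Prod.ext h1 h2)
  have h4 := sq_le_prod (a, b)
  simp only at h4
  rw [ix_xi_eq hP hz hT hs]
  nlinarith

end thd

end Crest.Agent.R208.NW
end
end

-- ▼ part R208/KS1
section

/-! Row 208, block KF4 (helper589), part KS1: reparametrisations close to a step function. -/

set_option autoImplicit false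

open Set Filter Topology MeasureTheory intervalIntegral
open scoped ContDiff Real

noncomputable section

namespace Crest.Agent.R208.KS

/-- bump of `sin²` -/
def wt (δ r : ℝ) : ℝ := Real.smoothTransition (1 - (Real.sin r) ^ 2 / δ)

theorem contDiff_wt (δ : ℝ) : ContDiff ℝ ∞ (wt δ) :=
  Real.smoothTransition.contDiff.comp (contDiff_const.sub ((Real.contDiff_sin.pow 2).div_const δ))

theorem wt_nonneg (δ r : ℝ) : 0 ≤ wt δ r := Real.smoothTransition.nonneg _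

theorem wt_add_pi (δ r : ℝ) : wt δ (r + π) = wt δ r := by
  rw [wt, wt, Real.sin_add_pi, neg_sq]

theorem wt_neg (δ r : ℝ) : wt δ (-r) = wt δ r := by
  rw [wt, wt, Real.sin_neg, neg_sq]

theorem wt_zero (δ : ℝ) : wt δ 0 = 1 := by
  rw [wt, Real.sin_zero]
  exact Real.smoothTransition.one_of_one_le (by simp)

theorem wt_eq_zero {δ r : ℝ} (hδ : 0 < δ) (h : δ ≤ (Real.sin r) ^ 2) : wt δ r = 0 :=
  Real.smoothTransition.zero_of_nonpos (by
    have : 1 ≤ (Real.sin r) ^ 2 / δ := (one_le_div hδ).2 h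
    linarith)

/-- the mass -/
def wI (δ : ℝ) : ℝ := ∫ r in (-(π / 2))..(π / 2), wt δ r

theorem wI_pos (δ : ℝ) : 0 < wI δ := by
  have hπ := Real.pi_pos
  refine intervalIntegral.integral_pos (by linarith) (contDiff_wt δ).continuous.continuousOn
    (fun r _ => wt_nonneg δ r) ⟨0, ⟨by linarith, by linarith⟩, ?_⟩
  rw [wt_zero]
  exact one_pos

/-- the derivative of the reparametrisation -/
def dth (ε δ r : ℝ) : ℝ := (1 - ε) * (π / wI δ) * wt δ r + ε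

theorem contDiff_dth (ε δ : ℝ) : ContDiff ℝ ∞ (dth ε δ) :=
  (contDiff_const.mul (contDiff_wt δ)).add contDiff_const

theorem dth_pos {ε δ : ℝ} (h0 : 0 < ε) (h1 : ε < 1) (r : ℝ) : 0 < dth ε δ r := by
  have h2 : 0 ≤ (1 - ε) * (π / wI δ) * wt δ r :=
    mul_nonneg (mul_nonneg (by linarith) (div_nonneg Real.pi_pos.le (wI_pos δ).le)) (wt_nonneg _ _)
  rw [dth]
  linarith

theorem dth_per (ε δ : ℝ) : Function.Periodic (dth ε δ) π := fun r => by
  rw [dth, dth, wt_add_pi]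

theorem dth_neg (ε δ r : ℝ) : dth ε δ (-r) = dth ε δ r := by
  rw [dth, dth, wt_neg]

/-- the reparametrisation -/
def th (ε δ r : ℝ) : ℝ := ∫ s in (0 : ℝ)..r, dth ε δ s

theorem hasDerivAt_th (ε δ r : ℝ) : HasDerivAt (th ε δ) (dth ε δ r) r :=
  intervalIntegral.integral_hasDerivAt_right
    ((contDiff_dth ε δ).continuous.intervalIntegrable _ _)
    ((contDiff_dth ε δ).continuous.stronglyMeasurableAtFilter _ _)
    (contDiff_dth ε δ).continuous.continuousAt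

theorem deriv_th (ε δ : ℝ) : deriv (th ε δ) = dth ε δ := funext fun r => (hasDerivAt_th ε δ r).deriv

theorem contDiff_th (ε δ : ℝ) : ContDiff ℝ ∞ (th ε δ) := by
  rw [contDiff_infty_iff_deriv, deriv_th]
  exact ⟨fun r => (hasDerivAt_th ε δ r).differentiableAt, contDiff_dth ε δ⟩

theorem integral_dth (ε δ : ℝ) : ∫ r in (-(π / 2))..(π / 2), dth ε δ r = π := by
  have h1 : IntervalIntegrable (fun r => (1 - ε) * (π / wI δ) * wt δ r) volume (-(π / 2)) (π / 2) :=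
    ((contDiff_wt δ).continuous.const_mul _).intervalIntegrable _ _
  unfold dth
  rw [intervalIntegral.integral_add h1 intervalIntegrable_const,
    intervalIntegral.integral_const_mul, intervalIntegral.integral_const]
  change (1 - ε) * (π / wI δ) * wI δ + _ = _
  rw [mul_assoc, div_mul_cancel₀ _ (wI_pos δ).ne', smul_eq_mul]
  ring

theorem th_add_pi (ε δ r : ℝ) : th ε δ (r + π) = th ε δ r + π := by
  have h1 : (∫ s in (0 : ℝ)..r, dth ε δ s) + ∫ s in r..(r + π), dth ε δ s =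
      ∫ s in (0 : ℝ)..(r + π), dth ε δ s :=
    intervalIntegral.integral_add_adjacent_intervals
      ((contDiff_dth ε δ).continuous.intervalIntegrable _ _)
      ((contDiff_dth ε δ).continuous.intervalIntegrable _ _)
  have h2 : ∫ s in r..(r + π), dth ε δ s = π := by
    rw [(dth_per ε δ).intervalIntegral_add_eq r (-(π / 2)),
      show -(π / 2) + π = π / 2 by ring, integral_dth]
  rw [h2] at h1
  exact h1.symm

theorem th_neg (ε δ r : ℝ) : th ε δ (-r) = -th ε δ r := by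
  have h1 : ∫ s in (0 : ℝ)..r, dth ε δ (-s) = ∫ s in (-r)..(-0), dth ε δ s :=
    intervalIntegral.integral_comp_neg (fun s => dth ε δ s)
  simp only [dth_neg, neg_zero] at h1
  rw [th, intervalIntegral.integral_symm, ← h1, th]

theorem th_half (ε δ : ℝ) : th ε δ (π / 2) = π / 2 := by
  have h1 := th_add_pi ε δ (-(π / 2))
  rw [th_neg, show -(π / 2) + π = π / 2 by ring] at h1
  linarith

theorem th_neg_half (ε δ : ℝ) : th ε δ (-(π / 2)) = -(π / 2) := by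
  rw [th_neg, th_half]

theorem integral_cos (ε δ : ℝ) :
    ∫ r in (-(π / 2))..(π / 2), dth ε δ r * Real.cos (th ε δ r / 2) = 2 * Real.sqrt 2 := by
  have h1 : ∀ r ∈ uIcc (-(π / 2)) (π / 2), HasDerivAt (fun r => 2 * Real.sin (th ε δ r / 2))
      (dth ε δ r * Real.cos (th ε δ r / 2)) r := by
    intro r _
    have h2 := (((hasDerivAt_th ε δ r).div_const 2).sin).const_mul 2
    refine h2.congr_deriv ?_
    ring
  rw [intervalIntegral.integral_eq_sub_of_hasDerivAt h1, th_half, th_neg_half]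
  · rw [show π / 2 / 2 = π / 4 by ring, show -(π / 2) / 2 = -(π / 4) by ring, Real.sin_neg,
      Real.sin_pi_div_four]
    ring
  · exact ((contDiff_dth ε δ).continuous.mul
      (Real.continuous_cos.comp ((contDiff_th ε δ).continuous.div_const 2))).intervalIntegrable _ _

theorem integral_sin (ε δ : ℝ) :
    ∫ r in (-(π / 2))..(π / 2), dth ε δ r * Real.sin (th ε δ r / 2) = 0 := by
  have h1 : ∀ r ∈ uIcc (-(π / 2)) (π / 2), HasDerivAt (fun r => -2 * Real.cos (th ε δ r / 2))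
      (dth ε δ r * Real.sin (th ε δ r / 2)) r := by
    intro r _
    have h2 := (((hasDerivAt_th ε δ r).div_const 2).cos).const_mul (-2)
    refine h2.congr_deriv ?_
    ring
  rw [intervalIntegral.integral_eq_sub_of_hasDerivAt h1, th_half, th_neg_half]
  · rw [show -(π / 2) / 2 = -(π / 2 / 2) by ring, Real.cos_neg]
    ring
  · exact ((contDiff_dth ε δ).continuous.mul
      (Real.continuous_sin.comp ((contDiff_th ε δ).continuous.div_const 2))).intervalIntegrable _ _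

variable {M : Type*} [TopologicalSpace M] [CompactSpace M]

/-- the measure `θ' dr` concentrates at `0` -/
theorem exists_conc {F : M → ℝ → ℝ} (hF : Continuous fun p : M × ℝ => F p.1 p.2)
    (hz : ∀ m, F m 0 = 0) {η : ℝ} (hη : 0 < η) :
    ∃ ε δ : ℝ, 0 < ε ∧ ε < 1 ∧ 0 < δ ∧
      ∀ m, ∫ r in (-(π / 2))..(π / 2), dth ε δ r * F m r ≤ η := by
  have hπ := Real.pi_pos
  -- uniform smallness near `0`
  obtain ⟨ρ, hρ, hρ2, hsm⟩ : ∃ ρ > 0, ρ ≤ π / 2 ∧ ∀ m r, |r| < ρ → F m r ≤ η / (2 * π) := by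
    have hop : IsOpen {p : M × ℝ | F p.1 p.2 < η / (2 * π)} := isOpen_lt hF continuous_const
    have hsub : (univ : Set M) ×ˢ ({0} : Set ℝ) ⊆ {p : M × ℝ | F p.1 p.2 < η / (2 * π)} := by
      rintro ⟨m, r⟩ ⟨-, hr⟩
      have hr' : r = 0 := hr
      change F m r < _
      rw [hr', hz]
      positivity
    obtain ⟨u, v, hu, hv, h1, h2, h3⟩ := generalized_tube_lemma isCompact_univ
      (isCompact_singleton (x := (0 : ℝ))) hop hsub
    obtain ⟨ρ, hρ, hb⟩ := Metric.isOpen_iff.1 hv 0 (h2 rfl)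
    refine ⟨min ρ (π / 2), lt_min hρ (by positivity), min_le_right _ _, fun m r hr => ?_⟩
    have h4 : r ∈ Metric.ball (0 : ℝ) ρ := by
      rw [mem_ball_zero_iff, Real.norm_eq_abs]
      exact lt_of_lt_of_le hr (min_le_left _ _)
    exact le_of_lt (h3 (⟨h1 (mem_univ m), hb h4⟩ : (m, r) ∈ u ×ˢ v))
  -- bound
  obtain ⟨K, hK⟩ : ∃ K, ∀ m, ∀ r ∈ Icc (-(π / 2)) (π / 2), F m r ≤ K := by
    have hc : IsCompact ((univ : Set M) ×ˢ Icc (-(π / 2)) (π / 2)) := isCompact_univ.prod isCompact_Icc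
    obtain ⟨K, hK⟩ := hc.bddAbove_image hF.continuousOn
    exact ⟨K, fun m r hr => hK ⟨(m, r), ⟨mem_univ m, hr⟩, rfl⟩⟩
  set K' := max K 0 + 1 with hK'
  have hK'0 : 0 < K' := by
    have := le_max_right K 0
    linarith
  set δ := Real.sin ρ ^ 2 with hδ
  have hsρ : 0 < Real.sin ρ := Real.sin_pos_of_pos_of_lt_pi hρ (by linarith)
  have hδ0 : 0 < δ := by positivity
  set ε := min (1 / 2) (η / (2 * π * K')) with hε
  have hε0 : 0 < ε := lt_min (by norm_num) (by positivity)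
  have hε1 : ε < 1 := lt_of_le_of_lt (min_le_left _ _) (by norm_num)
  refine ⟨ε, δ, hε0, hε1, hδ0, fun m => ?_⟩
  have hFm : Continuous (F m) := hF.comp (continuous_const.prodMk continuous_id)
  have hpt : ∀ r ∈ Icc (-(π / 2)) (π / 2), dth ε δ r * F m r ≤
      (1 - ε) * (π / wI δ) * wt δ r * (η / (2 * π)) + ε * K' := by
    intro r hr
    rw [dth, add_mul]
    refine add_le_add ?_ ?_
    · by_cases hr2 : |r| < ρ
      · exact mul_le_mul_of_nonneg_left (hsm m r hr2)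
          (mul_nonneg (mul_nonneg (by linarith) (div_nonneg hπ.le (wI_pos δ).le)) (wt_nonneg _ _))
      · have h1 : wt δ r = 0 := by
          refine wt_eq_zero hδ0 ?_
          rw [hδ, ← sq_abs (Real.sin r), Real.abs_sin_eq_sin_abs_of_abs_le_pi (abs_le.2
            ⟨by linarith [hr.1], by linarith [hr.2]⟩)]
          refine pow_le_pow_left₀ hsρ.le ?_ 2
          exact Real.sin_le_sin_of_le_of_le_pi_div_two (by linarith) (abs_le.2 ⟨by linarith [hr.1],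
            hr.2⟩) (not_lt.1 hr2)
        rw [h1, mul_zero, zero_mul, zero_mul]
    · refine mul_le_mul_of_nonneg_left ?_ hε0.le
      have := hK m r hr
      have h2 := le_max_left K 0
      linarith
  have hle : -(π / 2) ≤ π / 2 := by linarith
  have hi1 : IntervalIntegrable (fun r => dth ε δ r * F m r) volume (-(π / 2)) (π / 2) :=
    ((contDiff_dth ε δ).continuous.mul hFm).intervalIntegrable _ _
  have hi2 : IntervalIntegrable (fun r => (1 - ε) * (π / wI δ) * wt δ r * (η / (2 * π))) volume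
      (-(π / 2)) (π / 2) :=
    (((contDiff_wt δ).continuous.const_mul _).mul_const _).intervalIntegrable _ _
  have h3 := intervalIntegral.integral_mono_on hle hi1 (hi2.add intervalIntegrable_const) hpt
  refine h3.trans ?_
  rw [intervalIntegral.integral_add hi2 intervalIntegrable_const,
    intervalIntegral.integral_mul_const, intervalIntegral.integral_const_mul,
    intervalIntegral.integral_const, smul_eq_mul]
  change (1 - ε) * (π / wI δ) * wI δ * (η / (2 * π)) + _ ≤ _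
  rw [mul_assoc (1 - ε), div_mul_cancel₀ _ (wI_pos δ).ne']
  have h4 : ε * K' ≤ η / (2 * π) := by
    have h5 : ε ≤ η / (2 * π * K') := min_le_right _ _
    calc ε * K' ≤ η / (2 * π * K') * K' := mul_le_mul_of_nonneg_right h5 hK'0.le
      _ = η / (2 * π) := by field_simp
  have h6 : (1 - ε) * π * (η / (2 * π)) ≤ η / 2 := by
    have h7 : π * (η / (2 * π)) = η / 2 := by field_simp
    rw [mul_assoc, h7]
    have : 0 ≤ ε * (η / 2) := by positivity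
    nlinarith
  have h8 : (π / 2 - -(π / 2)) * (ε * K') ≤ η / 2 := by
    have h9 : π / 2 - -(π / 2) = π := by ring
    rw [h9]
    calc π * (ε * K') ≤ π * (η / (2 * π)) := mul_le_mul_of_nonneg_left h4 hπ.le
      _ = η / 2 := by field_simp
  linarith

/-- **the analytic step of KF4** -/
theorem exists_theta {A B : M → ℝ → ℝ} (hA : Continuous fun p : M × ℝ => A p.1 p.2)
    (hB : Continuous fun p : M × ℝ => B p.1 p.2) (hAp : ∀ m r, A m (r + 2 * π) = -A m r)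
    (hBp : ∀ m r, B m (r + 2 * π) = -B m r) {c : ℝ} (hc : 0 < c) (h : ∀ m, A m 0 + B m π ≤ -c) :
    ∃ θ : ℝ → ℝ, ContDiff ℝ ∞ θ ∧ (∀ r, 0 < deriv θ r) ∧ (∀ r, θ (r + π) = θ r + π) ∧
      (∀ r, θ (-r) = -θ r) ∧ ∀ m, ∫ r in (0 : ℝ)..(2 * π), deriv θ r *
        (Real.cos (θ r / 2) * A m r + Real.sin (θ r / 2) * B m r) ≤ -(2 * c) := by
  have hπ := Real.pi_pos
  set F : M → ℝ → ℝ := fun m r => (|A m r - A m 0| + |B m (r + π) - B m π|) +
    (|B m r - B m 0| + |A m (r + π) - A m π|) with hFd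
  have hA0 : ∀ c : ℝ, Continuous fun p : M × ℝ => A p.1 c := fun c =>
    hA.comp (continuous_fst.prodMk continuous_const)
  have hB0 : ∀ c : ℝ, Continuous fun p : M × ℝ => B p.1 c := fun c =>
    hB.comp (continuous_fst.prodMk continuous_const)
  have hA1 : Continuous fun p : M × ℝ => A p.1 (p.2 + π) :=
    hA.comp (continuous_fst.prodMk (continuous_snd.add continuous_const))
  have hB1 : Continuous fun p : M × ℝ => B p.1 (p.2 + π) :=
    hB.comp (continuous_fst.prodMk (continuous_snd.add continuous_const))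
  have hF : Continuous fun p : M × ℝ => F p.1 p.2 :=
    (((hA.sub (hA0 0)).abs).add ((hB1.sub (hB0 π)).abs)).add
      (((hB.sub (hB0 0)).abs).add ((hA1.sub (hA0 π)).abs))
  obtain ⟨ε, δ, hε0, hε1, hδ0, hF2⟩ := exists_conc hF (fun m => by simp [hFd]) (show 0 < c / 2 by positivity)
  refine ⟨th ε δ, contDiff_th ε δ, fun r => ?_, th_add_pi ε δ, th_neg ε δ, fun m => ?_⟩
  · rw [deriv_th]
    exact dth_pos hε0 hε1 r
  rw [deriv_th]
  set g : ℝ → ℝ := fun r => dth ε δ r *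
    (Real.cos (th ε δ r / 2) * A m r + Real.sin (th ε δ r / 2) * B m r) with hg
  have cA : Continuous (A m) := hA.comp (continuous_const.prodMk continuous_id)
  have cB : Continuous (B m) := hB.comp (continuous_const.prodMk continuous_id)
  have cd := (contDiff_dth ε δ).continuous
  have cc : Continuous fun r => Real.cos (th ε δ r / 2) :=
    Real.continuous_cos.comp ((contDiff_th ε δ).continuous.div_const 2)
  have cs : Continuous fun r => Real.sin (th ε δ r / 2) :=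
    Real.continuous_sin.comp ((contDiff_th ε δ).continuous.div_const 2)
  have cg : Continuous g := cd.mul ((cc.mul cA).add (cs.mul cB))
  have hth2 : ∀ r, th ε δ (r + 2 * π) = th ε δ r + 2 * π := by
    intro r
    rw [show r + 2 * π = r + π + π by ring, th_add_pi, th_add_pi]
    ring
  have hgp : Function.Periodic g (2 * π) := by
    intro r
    have h1 : dth ε δ (r + 2 * π) = dth ε δ r := by
      rw [show r + 2 * π = r + π + π by ring, dth_per, dth_per]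
    simp only [hg]
    rw [h1, hth2, hAp, hBp, show (th ε δ r + 2 * π) / 2 = th ε δ r / 2 + π by ring, Real.cos_add_pi,
      Real.sin_add_pi]
    ring
  have e1 : ∫ r in (0 : ℝ)..(2 * π), g r = ∫ r in (-(π / 2))..(-(π / 2) + 2 * π), g r := by
    rw [← hgp.intervalIntegral_add_eq 0 (-(π / 2)), zero_add]
  have e2 : ∫ r in (-(π / 2))..(-(π / 2) + 2 * π), g r =
      (∫ r in (-(π / 2))..(π / 2), g r) + ∫ r in (-(π / 2))..(π / 2), g (r + π) := by
    rw [intervalIntegral.integral_comp_add_right,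
      show -(π / 2) + π = π / 2 by ring, show π / 2 + π = -(π / 2) + 2 * π by ring]
    exact (intervalIntegral.integral_add_adjacent_intervals (cg.intervalIntegrable _ _)
      (cg.intervalIntegrable _ _)).symm
  have e3 : ∀ r, g (r + π) = dth ε δ r *
      (-Real.sin (th ε δ r / 2) * A m (r + π) + Real.cos (th ε δ r / 2) * B m (r + π)) := by
    intro r
    simp only [hg]
    rw [dth_per, th_add_pi, show (th ε δ r + π) / 2 = th ε δ r / 2 + π / 2 by ring,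
      Real.cos_add_pi_div_two, Real.sin_add_pi_div_two]
  have cA1 : Continuous fun r => A m (r + π) := cA.comp (continuous_id.add continuous_const)
  have cB1 : Continuous fun r => B m (r + π) := cB.comp (continuous_id.add continuous_const)
  have cg1 : Continuous fun r => g (r + π) := cg.comp (continuous_id.add continuous_const)
  have e4 : ∫ r in (0 : ℝ)..(2 * π), g r = ∫ r in (-(π / 2))..(π / 2), (g r + g (r + π)) := by
    rw [e1, e2, intervalIntegral.integral_add (cg.intervalIntegrable _ _)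
      (cg1.intervalIntegrable _ _)]
  have hpt : ∀ r ∈ Icc (-(π / 2)) (π / 2), g r + g (r + π) ≤
      (dth ε δ r * Real.cos (th ε δ r / 2) * (A m 0 + B m π) +
        dth ε δ r * Real.sin (th ε δ r / 2) * (B m 0 - A m π)) + dth ε δ r * F m r := by
    intro r _
    have hd := (dth_pos (δ := δ) hε0 hε1 r).le
    have h1 : g r + g (r + π) = (dth ε δ r * Real.cos (th ε δ r / 2) * (A m 0 + B m π) +
        dth ε δ r * Real.sin (th ε δ r / 2) * (B m 0 - A m π)) + dth ε δ r *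
        (Real.cos (th ε δ r / 2) * ((A m r - A m 0) + (B m (r + π) - B m π)) +
          Real.sin (th ε δ r / 2) * ((B m r - B m 0) - (A m (r + π) - A m π))) := by
      rw [e3]
      simp only [hg]
      ring
    rw [h1]
    refine add_le_add le_rfl (mul_le_mul_of_nonneg_left ?_ hd)
    have h2 : Real.cos (th ε δ r / 2) * ((A m r - A m 0) + (B m (r + π) - B m π)) ≤
        |A m r - A m 0| + |B m (r + π) - B m π| := by
      refine (le_abs_self _).trans ?_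
      rw [abs_mul]
      refine (mul_le_of_le_one_left (abs_nonneg _) (Real.abs_cos_le_one _)).trans (abs_add_le _ _)
    have h3 : Real.sin (th ε δ r / 2) * ((B m r - B m 0) - (A m (r + π) - A m π)) ≤
        |B m r - B m 0| + |A m (r + π) - A m π| := by
      refine (le_abs_self _).trans ?_
      rw [abs_mul]
      refine (mul_le_of_le_one_left (abs_nonneg _) (Real.abs_sin_le_one _)).trans ?_
      rw [sub_eq_add_neg _ (A m (r + π) - A m π)]
      exact (abs_add_le _ _).trans (by rw [abs_neg])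
    exact add_le_add h2 h3
  have hle : -(π / 2) ≤ π / 2 := by linarith
  have cF : Continuous (F m) := hF.comp (continuous_const.prodMk continuous_id)
  have i1 : IntervalIntegrable (fun r => dth ε δ r * Real.cos (th ε δ r / 2) * (A m 0 + B m π))
      volume (-(π / 2)) (π / 2) := ((cd.mul cc).mul_const _).intervalIntegrable _ _
  have i2 : IntervalIntegrable (fun r => dth ε δ r * Real.sin (th ε δ r / 2) * (B m 0 - A m π))
      volume (-(π / 2)) (π / 2) := ((cd.mul cs).mul_const _).intervalIntegrable _ _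
  have i3 : IntervalIntegrable (fun r => dth ε δ r * F m r) volume (-(π / 2)) (π / 2) :=
    (cd.mul cF).intervalIntegrable _ _
  have h5 := intervalIntegral.integral_mono_on hle
    ((cg.add cg1).intervalIntegrable _ _)
    ((i1.add i2).add i3) hpt
  have h6 : ∫ r in (-(π / 2))..(π / 2), ((dth ε δ r * Real.cos (th ε δ r / 2) * (A m 0 + B m π) +
        dth ε δ r * Real.sin (th ε δ r / 2) * (B m 0 - A m π)) + dth ε δ r * F m r) =
      2 * Real.sqrt 2 * (A m 0 + B m π) + ∫ r in (-(π / 2))..(π / 2), dth ε δ r * F m r := by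
    rw [intervalIntegral.integral_add (i1.add i2) i3, intervalIntegral.integral_add i1 i2,
      intervalIntegral.integral_mul_const, intervalIntegral.integral_mul_const, integral_cos,
      integral_sin, zero_mul, add_zero]
  rw [e4]
  refine (h5.trans h6.le).trans ?_
  have h7 := hF2 m
  have h8 := h m
  have h9 : (5 / 4 : ℝ) ≤ Real.sqrt 2 := by
    rw [Real.le_sqrt' (by norm_num : (0 : ℝ) < 5 / 4)]
    norm_num
  have h10 : (0 : ℝ) ≤ 2 * Real.sqrt 2 := by positivity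
  have h11 := mul_le_mul_of_nonneg_left h8 h10
  have h12 : (5 / 4 : ℝ) * c ≤ Real.sqrt 2 * c := mul_le_mul_of_nonneg_right h9 hc.le
  have h13 : (fun r => g r + g (r + π)) = (g + fun r => g (r + π)) := rfl
  linarith

end Crest.Agent.R208.KS
end
end

-- ▼ part R208/KS2
section

/-! Row 208, block KF4 (helper589), part KS2: the fields `xi` for an angle close to a step function
against a given antiperiodic family. -/

set_option autoImplicit false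

open Set Filter Topology MeasureTheory Real Module
open scoped RealInnerProductSpace Interval ContDiff
open Crest.GeometryTopology.Submanifold
open Crest.Agent.R241.DDefs
open Crest.Agent.R241.D2
open Crest.Agent.R208.L (om TanTS dfl om_dfl)
open Crest.Agent.R208.FI (Tan Sub)
open Crest.Agent.R208.NN (Wt nuP qq V0 fd fd' qf Rt ev ev')

noncomputable section

namespace Crest.Agent.R208.KR

variable {n N k K : ℕ} {κ : ℝ} {S : Set (Euc N)} {G : Geo n N κ S} {z : Euc N × Euc N}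
  {h : GT.Bla G k} {P : Euc N × Euc N → Wt N K →L[ℝ] Wt N K}

/-! ### `J_{r+π} = - J_r` -/

theorem qq_fl_pi (h : GT.Bla G k) (hz : z ∈ L.US G) : qq G (fl G (z, π)) = z.1 := by
  unfold qq
  rw [← fl_add' G hz.1, ← two_mul, NN.fl_two_pi h hz]

theorem dfl_V0 (h : GT.Bla G k) (hz : z ∈ L.US G) {u : Euc N} (hu : u ∈ V0 G z) :
    dfl G z π (0, u) = (0, De G z u) := Prod.ext (dfl_V0_fst h hz hu) rfl

theorem De_mem (h : GT.Bla G k) (hz : z ∈ L.US G) {u : Euc N} (hu : u ∈ V0 G z) :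
    De G z u ∈ V0 G (fl G (z, π)) := by
  have hF : (z.1, qq G z) ∈ GT.FF S := NN.mem_FF h hz
  have hzV : z.2 ∈ GT.Vs G z.1 (qq G z) := NN.mem_Vs hz
  have huV := (NN.mem_V0.1 hu).1
  rw [NN.mem_V0, qq_fl_pi h hz, De_apply, dfl_V0_snd h hz hu]
  refine ⟨Submodule.neg_mem _ (h.lf_mem hF _), ?_⟩
  have h3 := h.lf_unit hF hzV hz.2
  have h4 : (fl G (z, π)).2 = -GT.lf G z.1 (qq G z) z.2 := by
    change (fl G ((z.1, z.2), π)).2 = _
    rw [h3, GT.ar, neg_neg]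
  rw [h4, inner_neg_left, inner_neg_right, neg_neg, h.inner_lf hF huV hzV]
  exact (NN.mem_V0.1 hu).2

theorem De_De (h : GT.Bla G k) (hz : z ∈ L.US G) {u : Euc N} (hu : u ∈ V0 G z) :
    (dfl G (fl G (z, π)) π (0, De G z u)).2 = u := by
  rw [← dfl_V0 h hz hu, ← dfl_add hz.1, ← two_mul, NN.dfl_two_pi h hz (tan_V0 h hz hu)]

theorem NegB.uu_pi (hP : NegB h K P) (hz : z ∈ L.US G) (w : Wt N K) :
    uu h P (fl G (z, π)) (Rt (nuP K) π w) = -De G z (uu h P z w) := by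
  have hy := fl_mem_US (G := G) hz π
  set y := fl G (z, π) with hyd
  have huV : uu h P z w ∈ V0 G z := hP.uu_mem hz w
  have hdV : uu h P y (Rt (nuP K) π w) + De G z (uu h P z w) ∈ V0 G y :=
    Submodule.add_mem _ (hP.uu_mem hy _) (De_mem h hz huV)
  obtain ⟨w'', hw'', hl⟩ := hP.l1_surj hy hdV
  obtain ⟨w', rfl⟩ : ∃ w', Rt (nuP K) π w' = w'' := by
    refine ⟨Rt (nuP K) π w'', ?_⟩
    rw [← NN.Rt_add, ← two_mul, NN.Rt_per]
  have hw' : P z w' = w' := by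
    have h1 := hP.equi z hz π w'
    rw [← hyd, hw''] at h1
    have h2 := congrArg (Rt (nuP K) π) h1
    rwa [← NN.Rt_add, ← NN.Rt_add, ← two_mul, NN.Rt_per, NN.Rt_per, eq_comm] at h2
  set d := uu h P y (Rt (nuP K) π w) + De G z (uu h P z w) with hd
  have h0 : ⟪d, d⟫ = 0 := by
    nth_rewrite 2 [← hl]
    rw [hd, inner_add_left, hP.inner_uu hy hw'', inner_l1 h hy (De_mem h hz huV), De_De h hz huV,
      bb_flow h hz, fd_shift hz.1, fd_shift hz.1, zero_add]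
    have e1 : fd G z (nuP K) w' (π + π) = fd G z (nuP K) w' 0 := by
      have h5 := (gf_fd h hz w').per 0
      rw [one_smul, zero_add, two_mul] at h5
      exact h5
    have h6 := hP.inner_uu hz (w := w) hw'
    rw [inner_l1 h hz huV, ← De_apply] at h6
    rw [e1]
    linarith
  have h1 := inner_self_eq_zero.1 h0
  rw [hd] at h1
  exact eq_neg_of_add_eq_zero_left h1

theorem NegB.Jr_pi (hP : NegB h K P) (hz : z ∈ L.US G) (w : Wt N K) (r : ℝ) :
    Jr h P z (r + π) w = -Jr h P z r w := by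
  have hy := fl_mem_US (G := G) hz r
  have hu := hP.uu_mem hy (Rt (nuP K) r w)
  have h1 : fl G (z, r + π) = fl G (fl G (z, r), π) := fl_add' G hz.1 r π
  have h2 : Rt (nuP K) (r + π) w = Rt (nuP K) π (Rt (nuP K) r w) := by
    rw [← NN.Rt_add, add_comm]
  rw [Jr_apply, Jr_apply, h1, h2, hP.uu_pi hy]
  have h3 : ((0 : Euc N), -De G (fl G (z, r)) (uu h P (fl G (z, r)) (Rt (nuP K) r w))) =
      -dfl G (fl G (z, r)) π (0, uu h P (fl G (z, r)) (Rt (nuP K) r w)) := by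
    rw [dfl_V0 h hy hu]
    ext1
    · simp
    · rfl
  rw [h3, map_neg]
  congr 1
  have h4 := dfl_add hy.1 π (-(r + π)) (0, uu h P (fl G (z, r)) (Rt (nuP K) r w))
  rw [← h4]
  congr 2
  ring

/-! ### KF4 -/

theorem NegB.crv1 (hP : NegB h K P) (hz : z ∈ L.US G) {θ θ' : ℝ → ℝ} (hθ : Ang θ θ')
    (a b : Wt N K) : Crv G z (C1 h P z θ θ' a b) := by
  rw [C1_eq]
  exact hP.crv hz hθ continuous_const

theorem NegB.C1_per (hP : NegB h K P) (hz : z ∈ L.US G) {θ θ' : ℝ → ℝ} (hθ : Ang θ θ')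
    (a b : Wt N K) (r : ℝ) :
    C1 h P z θ θ' a b (r + 2 * π) = (-1 : ℝ) • C1 h P z θ θ' a b r := by
  rw [C1_eq]
  exact hP.Cc_per hz hθ (σ := 1) (fun _ => (one_mul _).symm) r

/-- the density of the index form of `xi` against `Q` -/
def qd (h : GT.Bla G k) (P : Euc N × Euc N → Wt N K →L[ℝ] Wt N K) (z : Euc N × Euc N)
    (w : Wt N K) (Q : ℝ → Euc N) (r : ℝ) : ℝ :=
  ⟪SV.jf' G z (Jr h P z r w) (r + π), Q (r + π)⟫ - ⟪SV.jf' G z (Jr h P z r w) r, Q r⟫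

theorem jf'_add (ξ η : Euc N × Euc N) (t : ℝ) :
    SV.jf' G z (ξ + η) t = SV.jf' G z ξ t + SV.jf' G z η t := by
  unfold SV.jf'; rw [map_add]; rfl

theorem jf'_neg (ξ : Euc N × Euc N) (t : ℝ) : SV.jf' G z (-ξ) t = -SV.jf' G z ξ t := by
  unfold SV.jf'; rw [map_neg]; rfl

/-- **FUB in terms of `qd`** -/
theorem NegB.ix_xi_eq (hP : NegB h K P) (hz : z ∈ L.US G) {θ θ' : ℝ → ℝ} (hθ : Ang θ θ')
    {a b : Wt N K} {Q Q' : ℝ → Euc N} (hQ : GF G z (-1) Q Q') :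
    SV.ix G z 0 (2 * π) (xi G z (C1 h P z θ θ' a b)) (xi' G z (C1 h P z θ θ' a b)) Q Q' =
      ∫ r in (0:ℝ)..(2 * π), θ' r * (cos (θ r / 2) * qd h P z a Q r +
        sin (θ r / 2) * qd h P z b Q r) := by
  rw [ix_xi h hz (hP.crv1 hz hθ a b) (by norm_num : (-1 : ℝ) * -1 = 1) (hP.C1_per hz hθ a b) hQ]
  refine intervalIntegral.integral_congr fun r _ => ?_
  simp only [C1, Nt, qd, map_add, map_smul, jf'_smul, jf'_add, inner_add_left,
    real_inner_smul_left]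
  ring

theorem NegB.qd_per (hP : NegB h K P) (hz : z ∈ L.US G) (w : Wt N K) {Q Q' : ℝ → Euc N}
    (hQ : GF G z (-1) Q Q') (r : ℝ) : qd h P z w Q (r + 2 * π) = -qd h P z w Q r := by
  have hT := hP.Jr_tan hz r w
  have e1 : ∀ t, SV.jf' G z (Jr h P z r w) (t + 2 * π) = SV.jf' G z (Jr h P z r w) t := by
    intro t
    unfold SV.jf'
    rw [dfl_per h hz hT]
  unfold qd
  rw [hP.Jr_per hz, show r + 2 * π + π = r + π + 2 * π by ring, e1, e1, hQ.per, hQ.per,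
    neg_one_smul, neg_one_smul, inner_neg_right, inner_neg_right]
  ring

/-- the limit -/
theorem NegB.qd_lim (hP : NegB h K P) (hz : z ∈ L.US G) (a b : Wt N K) {Q Q' : ℝ → Euc N}
    (hQ : GF G z (-1) Q Q') : qd h P z a Q 0 + qd h P z b Q π =
      -⟪SV.jf' G z (Jr h P z 0 (a - b)) 0, Q 0⟫ +
        ⟪SV.jf' G z (Jr h P z 0 (a + b)) π, Q π⟫ := by
  have h1 := hP.Jr_pi hz b 0
  rw [zero_add] at h1
  have e1 : SV.jf' G z (Jr h P z 0 b) (2 * π) = SV.jf' G z (Jr h P z 0 b) 0 := by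
    have := dfl_per h hz (hP.Jr_tan hz 0 b) 0
    unfold SV.jf'
    rw [zero_add] at this
    rw [this]
  have e2 : Q (2 * π) = -Q 0 := by
    have := hQ.per 0
    rwa [zero_add, neg_one_smul] at this
  unfold qd
  rw [h1, jf'_neg, jf'_neg, ← two_mul, e1, e2, zero_add, sub_eq_add_neg a b, map_add, map_add,
    map_neg, jf'_add, jf'_add, jf'_neg]
  simp only [inner_add_left, inner_neg_left, inner_neg_right, neg_neg]
  ring

section fam
variable {M : Type*} [TopologicalSpace M] {zz : M → Euc N × Euc N} {a b : M → Wt N K}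
  {Q Q' : M → ℝ → Euc N}

theorem NegB.continuous_jf' (hP : NegB h K P) (hz : ∀ m, zz m ∈ L.US G) (hzc : Continuous zz)
    (ha : Continuous a) {τ : M × ℝ → ℝ} (hτ : Continuous τ) :
    Continuous fun p : M × ℝ => SV.jf' G (zz p.1) (Jr h P (zz p.1) p.2 (a p.1)) (τ p) := by
  refine continuous_iff_continuousAt.2 fun p => ?_
  have h1 : ContinuousAt (fun p : M × ℝ => dfl G (zz p.1) (τ p)) p := by
    have h2 : ContinuousAt (fun q : (Euc N × Euc N) × ℝ => dfl G q.1 q.2) (zz p.1, τ p) :=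
      (contDiffAt_dfl (hz p.1).1 (τ p)).continuousAt
    have h3 : Continuous fun p : M × ℝ => (zz p.1, τ p) :=
      (hzc.comp continuous_fst).prodMk hτ
    exact ContinuousAt.comp (f := fun p : M × ℝ => (zz p.1, τ p)) (x := p) h2 h3.continuousAt
  have h4 : ContinuousAt (fun p : M × ℝ => Jr h P (zz p.1) p.2) p := by
    have h2 : ContinuousAt (fun q : (Euc N × Euc N) × ℝ => Jr h P q.1 q.2) (zz p.1, p.2) :=
      (hP.contDiffAt_Jr (hz p.1) p.2).continuousAt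
    have h3 : Continuous fun p : M × ℝ => (zz p.1, p.2) :=
      (hzc.comp continuous_fst).prodMk continuous_snd
    exact ContinuousAt.comp (f := fun p : M × ℝ => (zz p.1, p.2)) (x := p) h2 h3.continuousAt
  have h5 : ContinuousAt (fun p : M × ℝ => a p.1) p := (ha.comp continuous_fst).continuousAt
  exact (h1.clm_apply (h4.clm_apply h5)).snd

theorem NegB.continuous_qd (hP : NegB h K P) (hz : ∀ m, zz m ∈ L.US G) (hzc : Continuous zz)
    (ha : Continuous a) (hQ : Continuous fun p : M × ℝ => Q p.1 p.2) :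
    Continuous fun p : M × ℝ => qd h P (zz p.1) (a p.1) (Q p.1) p.2 := by
  have h1 := hP.continuous_jf' hz hzc ha (τ := fun p => p.2 + π) (by fun_prop)
  have h2 := hP.continuous_jf' hz hzc ha (τ := fun p => p.2) (by fun_prop)
  have h3 : Continuous fun p : M × ℝ => Q p.1 (p.2 + π) :=
    hQ.comp (f := fun p : M × ℝ => (p.1, p.2 + π)) (by fun_prop)
  exact (h1.inner h3).sub (h2.inner hQ)

/-- **KF4** for a compact family -/
theorem NegB.kf4_fam [CompactSpace M] (hP : NegB h K P) (hz : ∀ m, zz m ∈ L.US G)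
    (hzc : Continuous zz) (ha : Continuous a) (hb : Continuous b)
    (hQ : Continuous fun p : M × ℝ => Q p.1 p.2) (hG : ∀ m, GF G (zz m) (-1) (Q m) (Q' m))
    {c : ℝ} (hc : 0 < c) (hcc : ∀ m, -⟪SV.jf' G (zz m) (Jr h P (zz m) 0 (a m - b m)) 0, Q m 0⟫ +
        ⟪SV.jf' G (zz m) (Jr h P (zz m) 0 (a m + b m)) π, Q m π⟫ ≤ -c) :
    ∃ θ : ℝ → ℝ, ContDiff ℝ ∞ θ ∧ (∀ r, θ (-r) = -θ r) ∧ Ang θ (deriv θ) ∧
      ∀ m, SV.ix G (zz m) 0 (2 * π) (xi G (zz m) (C1 h P (zz m) θ (deriv θ) (a m) (b m)))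
        (xi' G (zz m) (C1 h P (zz m) θ (deriv θ) (a m) (b m))) (Q m) (Q' m) ≤ -(2 * c) := by
  obtain ⟨θ, h1, h2, h3, h4, h5⟩ := KS.exists_theta (hP.continuous_qd hz hzc ha hQ)
    (hP.continuous_qd hz hzc hb hQ) (fun m r => hP.qd_per (hz m) _ (hG m) r)
    (fun m r => hP.qd_per (hz m) _ (hG m) r) hc
    (fun m => by rw [hP.qd_lim (hz m) _ _ (hG m)]; exact hcc m)
  have hθ : Ang θ (deriv θ) :=
    ⟨fun r => (h1.differentiable (by simp) r).hasDerivAt, h1.continuous_deriv (by simp), h2, h3⟩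
  exact ⟨θ, h1, h4, hθ, fun m => by
    rw [hP.ix_xi_eq (hz m) hθ (hG m)]
    exact h5 m⟩

end fam

end Crest.Agent.R208.KR
end
end

-- ▼ part R208/KS3
section

/-! Row 208, block KF4 (helper589), part KS3: KF4 for linear families of fields (helper952's
`AK.LMap`). -/

set_option autoImplicit false

open Set Filter Topology MeasureTheory Real Module
open scoped RealInnerProductSpace Interval ContDiff
open Crest.GeometryTopology.Submanifold
open Crest.Agent.R241.DDefs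
open Crest.Agent.R241.D2
open Crest.Agent.R208.L (om TanTS dfl om_dfl)
open Crest.Agent.R208.FI (Tan Sub)
open Crest.Agent.R208.NN (Wt nuP qq V0 fd fd' qf Rt ev ev')

noncomputable section

namespace Crest.Agent.R208.KR

variable {n N k K : ℕ} {κ : ℝ} {S : Set (Euc N)} {G : Geo n N κ S} {z : Euc N × Euc N}
  {h : GT.Bla G k} {P : Euc N × Euc N → Wt N K →L[ℝ] Wt N K}
  {E V : Type*} [NormedAddCommGroup E] [NormedSpace ℝ E]
  [NormedAddCommGroup V] [NormedSpace ℝ V]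
  {X : Set E} {P2 : E → V →L[ℝ] V} {g : E → Euc N × Euc N} {Q : (E × V) × ℝ → Euc N}

theorem gf_lmap (hQ : AK.LMap G X P2 (2 * π) (-1) g Q) {x : E} (hx : x ∈ X) {ζ : V}
    (hζ : P2 x ζ = ζ) : GF G (g x) (-1) (fun t => Q ((x, ζ), t)) (deriv fun t => Q ((x, ζ), t)) where
  der t := ((hQ.cd hx hζ).differentiable (by simp) t).hasDerivAt
  cont := (hQ.cd hx hζ).continuous_deriv (by simp)
  mem := hQ.tan x hx ζ hζ
  per := hQ.per x hx ζ hζ
  per' t := by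
    have h1 : (fun t => Q ((x, ζ), t + 2 * π)) = fun t => (-1 : ℝ) • Q ((x, ζ), t) :=
      funext (hQ.per x hx ζ hζ)
    have h2 := congrArg (fun f : ℝ → Euc N => deriv f t) h1
    have h3 : deriv (fun t => Q ((x, ζ), t + 2 * π)) t = deriv (fun t => Q ((x, ζ), t)) (t + 2 * π) :=
      deriv_comp_add_const (fun t => Q ((x, ζ), t)) (2 * π) t
    change deriv (fun t => Q ((x, ζ), t + 2 * π)) t = deriv (fun t => (-1 : ℝ) • Q ((x, ζ), t)) t at h2
    rw [h3] at h2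
    rw [h2, deriv_fun_const_smul _ ((hQ.cd hx hζ).differentiable (by simp) t)]

theorem qd_smul (s : ℝ) (w : Wt N K) (Q : ℝ → Euc N) (r : ℝ) :
    qd h P z (s • w) (fun t => s • Q t) r = s ^ 2 * qd h P z w Q r := by
  unfold qd
  simp only [map_smul, jf'_smul, real_inner_smul_left, real_inner_smul_right]
  ring

theorem qd_zero (Q : ℝ → Euc N) (r : ℝ) : qd h P z 0 Q r = 0 := by
  unfold qd
  have : SV.jf' G z 0 = 0 := by
    funext t
    unfold SV.jf'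
    rw [map_zero]
    rfl
  rw [map_zero, this]
  simp

/-- **KF4** -/
theorem NegB.kf4 [FiniteDimensional ℝ V] (hP : NegB h K P) (hX : IsCompact X)
    (hP2 : ContinuousOn P2 X) (hg : ContinuousOn g X) (hgm : ∀ x ∈ X, g x ∈ L.US G)
    {α β : E → V →L[ℝ] Wt N K} (hα : ContinuousOn α X) (hβ : ContinuousOn β X)
    (hQ : AK.LMap G X P2 (2 * π) (-1) g Q) {c : ℝ} (hc : 0 < c)
    (hcc : ∀ x ∈ X, ∀ ζ : V, P2 x ζ = ζ →
      -⟪SV.jf' G (g x) (Jr h P (g x) 0 (α x ζ - β x ζ)) 0, Q ((x, ζ), 0)⟫ +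
        ⟪SV.jf' G (g x) (Jr h P (g x) 0 (α x ζ + β x ζ)) π, Q ((x, ζ), π)⟫ ≤ -c * ‖ζ‖ ^ 2) :
    ∃ θ : ℝ → ℝ, ContDiff ℝ ∞ θ ∧ (∀ r, θ (-r) = -θ r) ∧ Ang θ (deriv θ) ∧
      ∀ x ∈ X, ∀ ζ : V, P2 x ζ = ζ →
        SV.ix G (g x) 0 (2 * π) (xi G (g x) (C1 h P (g x) θ (deriv θ) (α x ζ) (β x ζ)))
          (xi' G (g x) (C1 h P (g x) θ (deriv θ) (α x ζ) (β x ζ))) (fun t => Q ((x, ζ), t))
          (deriv fun t => Q ((x, ζ), t)) ≤ -(2 * c) * ‖ζ‖ ^ 2 := by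
  set Ms : Set (E × V) := {p | (p.1 ∈ X ∧ P2 p.1 p.2 = p.2) ∧ ‖p.2‖ = 1} with hMs
  have hMc : IsCompact Ms := by
    have hK : IsCompact (X ×ˢ Metric.sphere (0 : V) 1) := hX.prod (isCompact_sphere _ _)
    have hcf : ContinuousOn (fun z : E × V => P2 z.1 z.2 - z.2) (X ×ˢ Metric.sphere (0 : V) 1) :=
      ((hP2.comp continuousOn_fst fun z hz => hz.1).clm_apply (by fun_prop)).sub (by fun_prop)
    have heq : Ms = (X ×ˢ Metric.sphere (0 : V) 1) ∩ (fun z : E × V => P2 z.1 z.2 - z.2) ⁻¹' {0} := by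
      ext z
      constructor
      · rintro ⟨⟨h1, h2⟩, h3⟩
        exact ⟨⟨h1, by simpa using h3⟩, sub_eq_zero.2 h2⟩
      · rintro ⟨⟨h1, h3⟩, h2⟩
        exact ⟨⟨h1, sub_eq_zero.1 h2⟩, by simpa using h3⟩
    rw [heq]
    obtain ⟨u, hu, hu2⟩ := continuousOn_iff_isClosed.1 hcf {0} isClosed_singleton
    rw [inter_comm, hu2, inter_comm]
    exact hK.inter_right hu
  have : CompactSpace Ms := isCompact_iff_compactSpace.1 hMc
  have c1 : Continuous fun m : Ms => m.1.1 := continuous_fst.comp continuous_subtype_val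
  have c2 : Continuous fun m : Ms => m.1.2 := continuous_snd.comp continuous_subtype_val
  have cg : Continuous fun m : Ms => g m.1.1 := hg.comp_continuous c1 fun m => m.2.1.1
  have cα : Continuous fun m : Ms => α m.1.1 m.1.2 :=
    (hα.comp_continuous c1 fun m => m.2.1.1).clm_apply c2
  have cβ : Continuous fun m : Ms => β m.1.1 m.1.2 :=
    (hβ.comp_continuous c1 fun m => m.2.1.1).clm_apply c2
  have cQ : Continuous fun p : Ms × ℝ => Q ((p.1.1.1, p.1.1.2), p.2) := by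
    refine continuous_iff_continuousAt.2 fun p => ?_
    have h1 := (hQ.smooth _ p.1.2.1.1 _ p.1.2.1.2 p.2).continuousAt
    have h2 : Continuous fun p : Ms × ℝ => ((p.1.1.1, p.1.1.2), p.2) := by fun_prop
    exact ContinuousAt.comp (f := fun p : Ms × ℝ => ((p.1.1.1, p.1.1.2), p.2)) (x := p) h1
      h2.continuousAt
  obtain ⟨θ, h1, h2, h3, h4⟩ := hP.kf4_fam (M := Ms) (zz := fun m => g m.1.1)
    (a := fun m => α m.1.1 m.1.2) (b := fun m => β m.1.1 m.1.2)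
    (Q := fun m t => Q ((m.1.1, m.1.2), t)) (Q' := fun m => deriv fun t => Q ((m.1.1, m.1.2), t))
    (fun m => hgm _ m.2.1.1) cg cα cβ cQ (fun m => gf_lmap hQ m.2.1.1 m.2.1.2) hc (fun m => by
      have := hcc _ m.2.1.1 _ m.2.1.2
      rwa [m.2.2, one_pow, mul_one] at this)
  refine ⟨θ, h1, h2, h3, fun x hx ζ hζ => ?_⟩
  rw [hP.ix_xi_eq (hgm x hx) h3 (gf_lmap hQ hx hζ)]
  by_cases h0 : ζ = 0
  · subst h0
    simp only [map_zero, qd_zero, mul_zero, add_zero, norm_zero]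
    simp
  · have hn : ‖ζ‖ ≠ 0 := norm_ne_zero_iff.2 h0
    set ζ₁ := ‖ζ‖⁻¹ • ζ with hζ₁
    have hζ1 : P2 x ζ₁ = ζ₁ := by rw [hζ₁, map_smul, hζ]
    have hn1 : ‖ζ₁‖ = 1 := by rw [hζ₁, norm_smul, norm_inv, norm_norm, inv_mul_cancel₀ hn]
    have he : ζ = ‖ζ‖ • ζ₁ := by rw [hζ₁, smul_smul, mul_inv_cancel₀ hn, one_smul]
    have h5 := h4 ⟨(x, ζ₁), ⟨hx, hζ1⟩, hn1⟩
    simp only at h5
    rw [hP.ix_xi_eq (hgm x hx) h3 (gf_lmap hQ hx hζ1)] at h5
    have hQs : (fun t => Q ((x, ζ), t)) = fun t => ‖ζ‖ • Q ((x, ζ₁), t) := by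
      funext t
      rw [← hQ.hom x hx ζ₁ hζ1 ‖ζ‖ t, ← he]
    have e1 : ∀ r, deriv θ r * (cos (θ r / 2) * qd h P (g x) (α x ζ) (fun t => Q ((x, ζ), t)) r +
        sin (θ r / 2) * qd h P (g x) (β x ζ) (fun t => Q ((x, ζ), t)) r) =
        ‖ζ‖ ^ 2 * (deriv θ r * (cos (θ r / 2) * qd h P (g x) (α x ζ₁) (fun t => Q ((x, ζ₁), t)) r +
          sin (θ r / 2) * qd h P (g x) (β x ζ₁) (fun t => Q ((x, ζ₁), t)) r)) := by
      intro r
      have e2 : α x ζ = ‖ζ‖ • α x ζ₁ := by rw [← map_smul, ← he]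
      have e3 : β x ζ = ‖ζ‖ • β x ζ₁ := by rw [← map_smul, ← he]
      rw [hQs, e2, e3, qd_smul, qd_smul]
      ring
    simp only [e1]
    rw [intervalIntegral.integral_const_mul]
    have h6 : (0 : ℝ) ≤ ‖ζ‖ ^ 2 := by positivity
    calc _ ≤ ‖ζ‖ ^ 2 * -(2 * c) := mul_le_mul_of_nonneg_left h5 h6
      _ = _ := by ring



end Crest.Agent.R208.KR
end
end

-- ▼ part R208/NW4
section

/-! Row 208, block NW (helper537), part NW4: **the antiperiodic path of helper952's junction**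
(AK9): from the corner field `Q` along a straight line to `ξ^{θ₁}` and then to `ξ^{id}`. -/

set_option autoImplicit false
set_option linter.unusedSectionVars false
set_option linter.unusedVariables false

open MeasureTheory Set Filter Topology Module
open scoped ContDiff RealInnerProductSpace Real
open Crest.GeometryTopology.Submanifold
open Crest.Agent.R241.DDefs
open Crest.Agent.R241.D2
open Crest.Agent.R208.NN (Wt nuP V0 qf Rt)
open Crest.Agent.R208.KG (idx gT OK Km)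
open Crest.Agent.R208.KR (xi xi' C1 Xi Xi' Ang)
open Crest.Agent.R208.SV (ix ixd jf jf')

noncomputable section

namespace Crest.Agent.R208.NW

variable {n N k K : ℕ} {κ : ℝ} {S : Set (Euc N)} {G : Geo n N κ S} {z : Euc N × Euc N}
  {h : GT.Bla G k} {P : Euc N × Euc N → Wt N K →L[ℝ] Wt N K} {ε : ℝ}
  {E V : Type*} [NormedAddCommGroup E] [NormedSpace ℝ E] [NormedAddCommGroup V] [NormedSpace ℝ V]
  {X : Set E} {P2 : E → V →L[ℝ] V} {g : E → Euc N × Euc N} {α β : E → V →L[ℝ] Wt N K}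

/-- a family of pairs `(a, b)` of elements of `N`, parametrised by the range of `P2` -/
structure Dat (G : Geo n N κ S) (P : Euc N × Euc N → Wt N K →L[ℝ] Wt N K) (X : Set E)
    (P2 : E → V →L[ℝ] V) (g : E → Euc N × Euc N) (α β : E → V →L[ℝ] Wt N K) : Prop where
  sg : ∀ x ∈ X, ContDiffAt ℝ ∞ g x
  mg : ∀ x ∈ X, g x ∈ L.US G
  sα : ∀ x ∈ X, ContDiffAt ℝ ∞ α x
  sβ : ∀ x ∈ X, ContDiffAt ℝ ∞ β x
  mα : ∀ x ∈ X, ∀ ζ : V, P2 x ζ = ζ → P (g x) (α x ζ) = α x ζ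
  mβ : ∀ x ∈ X, ∀ ζ : V, P2 x ζ = ζ → P (g x) (β x ζ) = β x ζ
  bd : ∃ C, 0 < C ∧ ∀ x ∈ X, ∀ ζ : V, P2 x ζ = ζ → C * ‖ζ‖ ^ 2 ≤ ‖α x ζ‖ ^ 2 + ‖β x ζ‖ ^ 2

/-- the corner fields of the family -/
def QB (h : GT.Bla G k) (P : Euc N × Euc N → Wt N K →L[ℝ] Wt N K) (ε : ℝ)
    (g : E → Euc N × Euc N) (α β : E → V →L[ℝ] Wt N K) (p : (E × V) × ℝ) : Euc N :=
  Qf h P ε (g p.1.1) (α p.1.1 p.1.2) (β p.1.1 p.1.2) p.2

/-- the fields `ξ^θ` of the family -/
def XB (h : GT.Bla G k) (P : Euc N × Euc N → Wt N K →L[ℝ] Wt N K) (θ θ' : ℝ → ℝ)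
    (g : E → Euc N × Euc N) (α β : E → V →L[ℝ] Wt N K) (p : (E × V) × ℝ) : Euc N :=
  Xi h P θ θ' (g p.1.1) p.2 (α p.1.1 p.1.2, β p.1.1 p.1.2)

/-- the path of fields `ξ^{θ_τ}` of the family -/
def XP (h : GT.Bla G k) (P : Euc N × Euc N → Wt N K →L[ℝ] Wt N K) (Th Th' : ℝ → ℝ → ℝ)
    (g : E → Euc N × Euc N) (α β : E → V →L[ℝ] Wt N K) (p : ((E × ℝ) × V) × ℝ) : Euc N :=
  Xi h P (Th p.1.1.2) (Th' p.1.1.2) (g p.1.1.1) p.2 (α p.1.1.1 p.1.2, β p.1.1.1 p.1.2)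

namespace Dat

variable (D : Dat G P X P2 g α β)

include D

theorem cab {x : E} (hx : x ∈ X) (ζ : V) (t : ℝ) :
    ContDiffAt ℝ ∞ (fun p : (E × V) × ℝ => (g p.1.1, (α p.1.1 p.1.2, β p.1.1 p.1.2)))
      ((x, ζ), t) := by
  have h1 : ContDiffAt ℝ ∞ (fun p : (E × V) × ℝ => g p.1.1) ((x, ζ), t) :=
    ContDiffAt.comp (g := g) (f := fun p : (E × V) × ℝ => p.1.1) ((x, ζ), t) (D.sg x hx)
      (by fun_prop)
  have h2 : ContDiffAt ℝ ∞ (fun p : (E × V) × ℝ => α p.1.1) ((x, ζ), t) :=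
    ContDiffAt.comp (g := α) (f := fun p : (E × V) × ℝ => p.1.1) ((x, ζ), t) (D.sα x hx)
      (by fun_prop)
  have h3 : ContDiffAt ℝ ∞ (fun p : (E × V) × ℝ => β p.1.1) ((x, ζ), t) :=
    ContDiffAt.comp (g := β) (f := fun p : (E × V) × ℝ => p.1.1) ((x, ζ), t) (D.sβ x hx)
      (by fun_prop)
  exact h1.prodMk ((h2.clm_apply (by fun_prop)).prodMk (h3.clm_apply (by fun_prop)))

/-- **the corner fields form a linear family** -/
theorem lmap_Q (hO : OK G 4 ε) (hP : KR.NegB h K P) :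
    AK.LMap G X P2 (2 * π) (-1) g (QB h P ε g α β) where
  smooth x hx ζ hζ t := by
    have h1 := D.cab hx ζ t
    exact ContDiffAt.comp
      (g := fun p : ((Euc N × Euc N) × (Wt N K × Wt N K)) × ℝ =>
        Qf h P ε p.1.1 p.1.2.1 p.1.2.2 p.2)
      (f := fun p : (E × V) × ℝ => ((g p.1.1, (α p.1.1 p.1.2, β p.1.1 p.1.2)), p.2))
      ((x, ζ), t) (contDiffAt_Qf hO hP (D.mg x hx) _ _ t) (h1.prodMk (by fun_prop))
  hom x hx ζ hζ s t := by
    simp only [QB]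
    rw [map_smul, map_smul, Qf_smul]
  tan x hx ζ hζ t := Qf_mem hO hP (D.mg x hx) _ _ t
  per x hx ζ hζ t := by
    simp only [QB]
    rw [Qf_per hO hP (D.mg x hx), neg_one_smul]


/-- hypothesis of KF4 -/
theorem corner_Q (hO : OK G 4 ε) (hP : KR.NegB h K P) (hS : IsCompact (L.US G)) :
    ∃ c, 0 < c ∧ ∀ x ∈ X, ∀ ζ : V, P2 x ζ = ζ →
      -⟪SV.jf' G (g x) (KR.Jr h P (g x) 0 (α x ζ - β x ζ)) 0, QB h P ε g α β ((x, ζ), 0)⟫ +
        ⟪SV.jf' G (g x) (KR.Jr h P (g x) 0 (α x ζ + β x ζ)) π, QB h P ε g α β ((x, ζ), π)⟫ ≤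
        -c * ‖ζ‖ ^ 2 := by
  obtain ⟨c1, hc1, h1⟩ := exists_fc hS hP
  obtain ⟨C, hC, h2⟩ := D.bd
  have hg := gT_pos hO
  refine ⟨gT ε 0 0 * (c1 * C), by positivity, fun x hx ζ hζ => ?_⟩
  have h3 := corner hO hP (D.mg x hx) (α x ζ) (β x ζ)
  have h4 := h1 (g x) (D.mg x hx) _ _ (D.mα x hx ζ hζ) (D.mβ x hx ζ hζ)
  have h5 := h2 x hx ζ hζ
  rw [map_sub, map_add]
  change -⟪_, Qf h P ε (g x) (α x ζ) (β x ζ) 0⟫ + ⟪_, Qf h P ε (g x) (α x ζ) (β x ζ) π⟫ ≤ _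
  rw [h3]
  have h6 : c1 * (C * ‖ζ‖ ^ 2) ≤ c1 * (‖α x ζ‖ ^ 2 + ‖β x ζ‖ ^ 2) := by gcongr
  have h7 := mul_le_mul_of_nonneg_left (h6.trans h4) hg.le
  linarith

/-- the values of `XB` -/
theorem XB_eq (hP : KR.NegB h K P) {θ θ' : ℝ → ℝ} (hθ : Ang θ θ') {x : E} (hx : x ∈ X) (ζ : V) :
    (fun t => XB h P θ θ' g α β ((x, ζ), t)) = xi G (g x) (C1 h P (g x) θ θ' (α x ζ) (β x ζ)) :=
  funext fun t => (hP.xi_eq (D.mg x hx) hθ.continuous hθ.cont _ _ t).symm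

theorem deriv_XB (hP : KR.NegB h K P) {θ θ' : ℝ → ℝ} (hθ : Ang θ θ') {x : E} (hx : x ∈ X) (ζ : V) :
    (deriv fun t => XB h P θ θ' g α β ((x, ζ), t)) =
      xi' G (g x) (C1 h P (g x) θ θ' (α x ζ) (β x ζ)) := by
  rw [D.XB_eq hP hθ hx]
  funext t
  exact ((hP.crv1 (D.mg x hx) hθ _ _).hasDerivAt (D.mg x hx).1 t).deriv

theorem XP_eq (hP : KR.NegB h K P) {Th Th' : ℝ → ℝ → ℝ} {τ : ℝ} (hθ : Ang (Th τ) (Th' τ)) {x : E}
    (hx : x ∈ X) (ζ : V) :
    (fun t => XP h P Th Th' g α β (((x, τ), ζ), t)) =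
      xi G (g x) (C1 h P (g x) (Th τ) (Th' τ) (α x ζ) (β x ζ)) := D.XB_eq hP hθ hx ζ

theorem deriv_XP (hP : KR.NegB h K P) {Th Th' : ℝ → ℝ → ℝ} {τ : ℝ} (hθ : Ang (Th τ) (Th' τ)) {x : E}
    (hx : x ∈ X) (ζ : V) :
    (deriv fun t => XP h P Th Th' g α β (((x, τ), ζ), t)) =
      xi' G (g x) (C1 h P (g x) (Th τ) (Th' τ) (α x ζ) (β x ζ)) := D.deriv_XB hP hθ hx ζ

/-- **the path `ξ^{θ_τ}`** -/
theorem spath_X (hP : KR.NegB h K P) (hS : IsCompact (L.US G)) {Th Th' : ℝ → ℝ → ℝ}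
    (hT : SAng Th Th' (Icc (0:ℝ) 1)) :
    ∃ δ, 0 < δ ∧ AK.SPath G X P2 (2 * π) (-1) g (XP h P Th Th' g α β) δ := by
  obtain ⟨c1, hc1, h1⟩ := exists_neg hS hP isCompact_Icc hT
  obtain ⟨C, hC, h2⟩ := D.bd
  refine ⟨c1 * C, by positivity, ?_⟩
  refine ⟨fun x hx τ hτ ζ hζ t => ?_, fun x hx τ hτ ζ hζ s t => ?_, fun x hx τ hτ ζ hζ t => ?_,
    fun x hx τ hτ ζ hζ t => ?_, fun x hx τ hτ ζ hζ => ?_⟩
  · have h3 : ContDiffAt ℝ ∞ (fun p : ((E × ℝ) × V) × ℝ =>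
        (g p.1.1.1, (α p.1.1.1 p.1.2, β p.1.1.1 p.1.2))) (((x, τ), ζ), t) :=
      ContDiffAt.comp
        (g := fun p : (E × V) × ℝ => (g p.1.1, (α p.1.1 p.1.2, β p.1.1 p.1.2)))
        (f := fun p : ((E × ℝ) × V) × ℝ => ((p.1.1.1, p.1.2), p.2)) (((x, τ), ζ), t)
        (D.cab hx ζ t) (by fun_prop)
    have h4 : ContDiffAt ℝ ∞ (fun p : ((E × ℝ) × V) × ℝ => ((g p.1.1.1, p.1.1.2), p.2))
        (((x, τ), ζ), t) := (h3.fst.prodMk (by fun_prop)).prodMk (by fun_prop)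
    have h5 := ContDiffAt.comp
      (g := fun q : ((Euc N × Euc N) × ℝ) × ℝ => Xi h P (Th q.1.2) (Th' q.1.2) q.1.1 q.2)
      (f := fun p : ((E × ℝ) × V) × ℝ => ((g p.1.1.1, p.1.1.2), p.2)) (((x, τ), ζ), t)
      (hP.contDiffAt_Xi (D.mg x hx) (hT.sm τ hτ) (hT.sm' τ hτ) t) h4
    exact h5.clm_apply h3.snd
  · simp only [XP]
    have e : (α x (s • ζ), β x (s • ζ)) = s • (α x ζ, β x ζ) := by
      rw [map_smul, map_smul]; rfl
    rw [e, map_smul]
  · have h3 := D.XP_eq hP (hT.ang τ hτ) hx ζ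
    have h4 := (hP.crv1 (D.mg x hx) (hT.ang τ hτ) (α x ζ) (β x ζ)).mem h (D.mg x hx) t
    rw [← h3] at h4
    exact h4
  · have h3 := D.XP_eq hP (hT.ang τ hτ) hx ζ
    have h4 := ((hP.crv1 (D.mg x hx) (hT.ang τ hτ) (α x ζ) (β x ζ)).xi_per h (D.mg x hx)
      (hP.C1_per (D.mg x hx) (hT.ang τ hτ) (α x ζ) (β x ζ)) t).1
    rw [← h3] at h4
    exact h4
  · rw [D.deriv_XP hP (hT.ang τ hτ) hx ζ, D.XP_eq hP (hT.ang τ hτ) hx ζ]
    refine (h1 (g x) (D.mg x hx) τ hτ _ _ (D.mα x hx ζ hζ) (D.mβ x hx ζ hζ)).trans ?_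
    have h5 := h2 x hx ζ hζ
    have h6 : c1 * (C * ‖ζ‖ ^ 2) ≤ c1 * (‖α x ζ‖ ^ 2 + ‖β x ζ‖ ^ 2) := by gcongr
    linarith

end Dat

end Crest.Agent.R208.NW
end
end

-- ▼ part R208/NW5
section

/-! Row 208, block NW (helper537), part NW5: **the antiperiodic path of helper952's junction**
(AK9), assembled. -/

set_option autoImplicit false
set_option linter.unusedSectionVars false
set_option linter.unusedVariables false

open MeasureTheory Set Filter Topology Module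
open scoped ContDiff RealInnerProductSpace Real
open Crest.GeometryTopology.Submanifold
open Crest.Agent.R241.DDefs
open Crest.Agent.R241.D2
open Crest.Agent.R208.NN (Wt nuP V0 qf Rt)
open Crest.Agent.R208.KG (idx gT OK Km)
open Crest.Agent.R208.KR (xi xi' C1 Xi Xi' Ang)
open Crest.Agent.R208.SV (ix ixd jf jf')

noncomputable section

namespace Crest.Agent.R208.NW

/-! ### the line of angles -/

/-- the line from `θ` to the identity -/
def Tl (θ : ℝ → ℝ) (τ r : ℝ) : ℝ := (1 - τ) * θ r + τ * r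

def Tl' (θ : ℝ → ℝ) (τ r : ℝ) : ℝ := (1 - τ) * deriv θ r + τ

theorem Tl_zero (θ : ℝ → ℝ) : Tl θ 0 = θ := by funext r; simp [Tl]
theorem Tl'_zero (θ : ℝ → ℝ) : Tl' θ 0 = deriv θ := by funext r; simp [Tl']
theorem Tl_one (θ : ℝ → ℝ) : Tl θ 1 = fun r => r := by funext r; simp [Tl]
theorem Tl'_one (θ : ℝ → ℝ) : Tl' θ 1 = fun _ => 1 := by funext r; simp [Tl']

theorem sang_Tl {θ : ℝ → ℝ} (hθ : ContDiff ℝ ∞ θ) (hA : Ang θ (deriv θ)) :
    SAng (Tl θ) (Tl' θ) (Icc (0:ℝ) 1) where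
  ang τ hτ :=
    { der := fun r => by
        have h1 := ((hA.der r).const_mul (1 - τ)).add ((hasDerivAt_id r).const_mul τ)
        refine h1.congr_deriv ?_
        simp only [Tl', mul_one]
      cont := by
        have := hA.cont
        unfold Tl'
        fun_prop
      pos := fun r => by
        have h1 := hA.pos r
        have h2 : 0 ≤ 1 - τ := by linarith [hτ.2]
        unfold Tl'
        rcases eq_or_lt_of_le hτ.1 with h3 | h3
        · rw [← h3]; simpa using h1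
        · have := mul_nonneg h2 h1.le
          linarith
      per := fun r => by
        unfold Tl
        rw [hA.per]; ring }
  sm τ _ r := by
    have h1 : ContDiff ℝ ∞ fun p : ℝ × ℝ => θ p.2 := hθ.comp contDiff_snd
    unfold Tl
    exact (((contDiff_const.sub contDiff_fst).mul h1).add
      (contDiff_fst.mul contDiff_snd)).contDiffAt
  sm' τ _ r := by
    have h0 : ContDiff ℝ ∞ (deriv θ) := by
      have h2 := (contDiff_succ_iff_deriv (n := ∞)).1 (by simpa using hθ)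
      exact h2.2.2
    have h1 : ContDiff ℝ ∞ fun p : ℝ × ℝ => deriv θ p.2 := h0.comp contDiff_snd
    unfold Tl'
    exact (((contDiff_const.sub contDiff_fst).mul h1).add contDiff_fst).contDiffAt

variable {n N k K : ℕ} {κ : ℝ} {S : Set (Euc N)} {G : Geo n N κ S} {z : Euc N × Euc N}
  {h : GT.Bla G k} {P : Euc N × Euc N → Wt N K →L[ℝ] Wt N K} {ε : ℝ}
  {E V : Type*} [NormedAddCommGroup E] [NormedSpace ℝ E] [NormedAddCommGroup V] [NormedSpace ℝ V]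
  {X : Set E} {P2 : E → V →L[ℝ] V} {g : E → Euc N × Euc N} {α β : E → V →L[ℝ] Wt N K}



end Crest.Agent.R208.NW
end
namespace Crest.Agent.R208.NW.Dat
end Crest.Agent.R208.NW.Dat
end

-- ▼ part R208/NW6
section

/-! Row 208, block NW (helper537), part NW6: **AK12 of helper952**: the path of antiperiodic
fields from `ξ^{id}` to `ξ^{θ₁}` with the cross condition. -/

set_option autoImplicit false
set_option linter.unusedSectionVars false
set_option linter.unusedVariables false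

open MeasureTheory Set Filter Topology Module
open scoped ContDiff RealInnerProductSpace Real
open Crest.GeometryTopology.Submanifold
open Crest.Agent.R241.DDefs
open Crest.Agent.R241.D2
open Crest.Agent.R208.NN (Wt nuP V0 qf Rt)
open Crest.Agent.R208.KG (idx gT OK Km)
open Crest.Agent.R208.KR (xi xi' C1 Xi Xi' Ang)
open Crest.Agent.R208.SV (ix ixd jf jf')

noncomputable section

namespace Crest.Agent.R208.NW

variable {n N k Kn : ℕ} {κ : ℝ} {S : Set (Euc N)} {G : Geo n N κ S} {z : Euc N × Euc N}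
  {ε δ : ℝ}

theorem sang_rev {θ : ℝ → ℝ} (hθ : ContDiff ℝ ∞ θ) (hA : Ang θ (deriv θ)) :
    SAng (fun s => Tl θ (1 - s)) (fun s => Tl' θ (1 - s)) (Icc (0:ℝ) 1) where
  ang s hs := (sang_Tl hθ hA).ang (1 - s) ⟨by linarith [hs.2], by linarith [hs.1]⟩
  sm s hs r := ContDiffAt.comp (g := fun p : ℝ × ℝ => Tl θ p.1 p.2)
    (f := fun p : ℝ × ℝ => (1 - p.1, p.2)) (s, r)
    ((sang_Tl hθ hA).sm (1 - s) ⟨by linarith [hs.2], by linarith [hs.1]⟩ r) (by fun_prop)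
  sm' s hs r := ContDiffAt.comp (g := fun p : ℝ × ℝ => Tl' θ p.1 p.2)
    (f := fun p : ℝ × ℝ => (1 - p.1, p.2)) (s, r)
    ((sang_Tl hθ hA).sm' (1 - s) ⟨by linarith [hs.2], by linarith [hs.1]⟩ r) (by fun_prop)

/-- the tautological family of pairs -/
theorem dat_id (P : Euc N × Euc N → Wt N Kn →L[ℝ] Wt N Kn) :
    Dat G P (L.US G) (AK.PP P P) (fun z => z)
      (fun _ => ContinuousLinearMap.fst ℝ (Wt N Kn) (Wt N Kn))
      (fun _ => ContinuousLinearMap.snd ℝ (Wt N Kn) (Wt N Kn)) where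
  sg _ _ := contDiffAt_id
  mg _ hx := hx
  sα _ _ := contDiffAt_const
  sβ _ _ := contDiffAt_const
  mα _ _ ζ hζ := (AK.PP_eq.1 hζ).1
  mβ _ _ ζ hζ := (AK.PP_eq.1 hζ).2
  bd := ⟨1, one_pos, fun _ _ ζ _ => by
    have h1 : 0 ≤ ‖ζ.1‖ ^ 2 := by positivity
    have h2 : 0 ≤ ‖ζ.2‖ ^ 2 := by positivity
    rw [one_mul]
    change ‖ζ‖ ^ 2 ≤ ‖ζ.1‖ ^ 2 + ‖ζ.2‖ ^ 2
    rw [Prod.norm_def]
    rcases le_total ‖ζ.1‖ ‖ζ.2‖ with h | h
    · rw [max_eq_right h]; linarith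
    · rw [max_eq_left h]; linarith⟩

theorem QA_eq (h : GT.Bla G k) (ε : ℝ) (PN : Euc N × Euc N → Wt N Kn →L[ℝ] Wt N Kn) :
    AK.QA h ε PN = QB h PN ε (fun z => z)
      (fun _ => ContinuousLinearMap.fst ℝ (Wt N Kn) (Wt N Kn))
      (fun _ => ContinuousLinearMap.snd ℝ (Wt N Kn) (Wt N Kn)) := by
  funext p
  change AK.AZ G ε p.1.1 (AK.zan (KR.uu h PN p.1.1 p.1.2.1) (KR.uu h PN p.1.1 p.1.2.2)) p.2 = _
  rw [AK.zan_eq]
  rfl

/-- **AK12** -/
theorem exists_XI {PN : Euc N × Euc N → Wt N Kn →L[ℝ] Wt N Kn} (hS : IsCompact S)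
    (h : GT.Bla G k) (hk : 1 ≤ k) (H : NB.NegB G (k - 1) (nuP Kn) δ PN) (hO : OK G 4 ε) {c : ℝ}
    (hc0 : 0 < c) (hc : AK.HC G ε c) :
    ∃ (XI : (((Euc N × Euc N) × ℝ) × (Wt N Kn × Wt N Kn)) × ℝ → Euc N) (δ₂ : ℝ), 0 < δ₂ ∧
      AK.SPath G (L.US G) (AK.PP PN PN) (2 * Real.pi) (-1) (fun z => z) XI δ₂ ∧
      AK.Cross h ε PN XI ∧
      ∀ z ∈ L.US G, ∀ ζ, AK.PP PN PN z ζ = ζ → ∀ t,
        XI (((z, 0), ζ), t) = KR.Xi h PN (fun r => r) (fun _ => 1) z t ζ := by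
  have hP := AK.kr_of_nb h hk H
  have hUS : IsCompact (L.US G) := LB.isCompact_US hS
  have D := dat_id (G := G) PN
  obtain ⟨c1, hc1, hcc⟩ := D.corner_Q hO hP hUS
  have hQ := D.lmap_Q hO hP
  have hPc : ContinuousOn (AK.PP PN PN) (L.US G) := continuousOn_PP hP
  obtain ⟨θ, hθ, hodd, hA, hix⟩ := hP.kf4 hUS hPc continuousOn_id D.mg
    continuousOn_const continuousOn_const hQ hc1 hcc
  have hT := sang_rev hθ hA
  obtain ⟨δ1, hδ1, hp1⟩ := D.spath_X hP hUS hT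
  have h1 : (1:ℝ) ∈ Icc (0:ℝ) 1 := ⟨zero_le_one, le_rfl⟩
  refine ⟨_, δ1, hδ1, hp1, fun z hz ζ hζ => ?_, fun z hz ζ hζ t => ?_⟩
  · have h2 := hix z hz ζ hζ
    have e1 := D.XP_eq hP (Th := fun s => Tl θ (1 - s)) (Th' := fun s => Tl' θ (1 - s)) (τ := 1)
      (hT.ang 1 h1) hz ζ
    have e2 := D.deriv_XP hP (Th := fun s => Tl θ (1 - s)) (Th' := fun s => Tl' θ (1 - s)) (τ := 1)
      (hT.ang 1 h1) hz ζ
    rw [QA_eq, e2, e1]
    simp only [sub_self, Tl_zero, Tl'_zero]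
    refine h2.trans ?_
    have : 0 ≤ 2 * c1 * ‖ζ‖ ^ 2 := by positivity
    linarith
  · simp only [XP, sub_zero, Tl_one, Tl'_one]
    rfl

end Crest.Agent.R208.NW
end
end

-- ▼ part R208/NW7
section

/-! Row 208, block NW (helper537), part NW7: helper952's junction without hypotheses on the path of
antiperiodic fields. -/

set_option autoImplicit false
set_option linter.unusedSectionVars false
set_option linter.unusedVariables false

open MeasureTheory Set Filter Topology Module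
open scoped ContDiff RealInnerProductSpace Real
open Crest.GeometryTopology.Submanifold
open Crest.Agent.R241.DDefs
open Crest.Agent.R241.D2
open Crest.Agent.R208.NN (Wt nuP V0 qf Rt fd)
open Crest.Agent.R208.KG (idx gT OK Km)
open Crest.Agent.R208.SV (ix ixd jf jf')

noncomputable section

namespace Crest.Agent.R208.NW

variable {n N k Kn : ℕ} {κ : ℝ} {S : Set (Euc N)} {G : Geo n N κ S} {z : Euc N × Euc N}
  {ε δ : ℝ} {H₂ : Type*} [NormedAddCommGroup H₂] [NormedSpace ℝ H₂]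

/-- **the model family near the zero section**: `R (γ + ε₂ ξ(j ν) + ε₁ nf(w))` -/
def FX (h : GT.Bla G k) (PN : Euc N × Euc N → Wt N Kn →L[ℝ] Wt N Kn)
    (j : H₂ →L[ℝ] Wt N Kn × Wt N Kn) (ε₁ ε₂ : ℝ) (R : Euc N → Euc N)
    (p : ((Euc N × Euc N) × (H₂ × Wt N Kn)) × ℝ) : Euc N :=
  R ((fl G (p.1.1, p.2)).1 + (ε₂ • KR.Xi h PN (fun r => r) (fun _ => 1) p.1.1 p.2 (j p.1.2.1) +
    ε₁ • fd G p.1.1 (nuP Kn) p.1.2.2 p.2))

/-- **the junction** -/
theorem exists_junction {PN : Euc N × Euc N → Wt N Kn →L[ℝ] Wt N Kn}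
    {P₂ : Euc N × Euc N → H₂ →L[ℝ] H₂} {j : H₂ →L[ℝ] Wt N Kn × Wt N Kn} (hS : IsCompact S)
    (hO : OK G 4 ε) (h : GT.Bla G k) (hk : 1 ≤ k)
    (H : NB.NegB G (k - 1) (nuP Kn) δ PN) {c : ℝ} (hc0 : 0 < c) (hc : AK.HC G ε c)
    (hj : ∀ z ∈ L.US G, ∀ ν, P₂ z ν = ν → AK.PP PN PN z (j ν) = j ν) {cj : ℝ} (hcj : 0 < cj)
    (hjc : ∀ z ∈ L.US G, ∀ ν, P₂ z ν = ν → cj * ‖ν‖ ^ 2 ≤ ‖j ν‖ ^ 2)
    {ε₁ ε₂ : ℝ} (hε₁ : 0 < ε₁) (hε₂ : 0 < ε₂)
    {R : Euc N → Euc N} {O : Set (Euc N)} (hOo : IsOpen O) (hSO : S ⊆ O)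
    (hR : ContDiffOn ℝ ∞ R O) (hRS : MapsTo R O S) (hRid : ∀ x ∈ S, R x = x) :
    ∃ (Hm : (((Euc N × Euc N) × ℝ) × (H₂ × Wt N Kn)) × ℝ → Euc N) (r δf : ℝ), 0 < r ∧ 0 < δf ∧
      AK.LFam G (L.US G ×ˢ Icc (0:ℝ) 1) (fun p => AK.PP P₂ PN p.1) (4 * Real.pi) (fun p => p.1)
        Hm r ∧
      (∀ z ∈ L.US G, ∀ ζ, AK.PP P₂ PN z ζ = ζ → ‖ζ‖ < r → ∀ t,
        Hm (((z, 0), ζ), t) = AK.FT G 4 ε (AK.kap z (AK.rem (AK.Lall h ε δ PN j) z ζ), t)) ∧
      (∀ z ∈ L.US G, ∀ ζ, AK.PP P₂ PN z ζ = ζ → ‖ζ‖ < r → ∀ t,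
        Hm (((z, 1), ζ), t) = FX h PN j ε₁ ε₂ R ((z, ζ), t)) ∧
      (∀ z ∈ L.US G, ∀ τ ∈ Icc (0:ℝ) 1, ∀ ζ, AK.PP P₂ PN z ζ = ζ → ‖ζ‖ < r →
        AK.EnT (4 * Real.pi) (fun t => Hm (((z, τ), ζ), t)) ≤ 2 * Real.pi - δf * ‖ζ‖ ^ 2) := by
  obtain ⟨XI, δ₂, hδ₂, hXI, hX, h0⟩ := exists_XI hS h hk H hO hc0 hc
  obtain ⟨Hm, r, δf, hr, hδf, h1, h2, h3, h4⟩ := AK.exists_junction hS hO h hk H hc0 hc hδ₂ hXI hX
    hj hcj hjc hε₁ hε₂ hOo hSO hR hRS hRid
  refine ⟨Hm, r, δf, hr, hδf, h1, h2, fun z hz ζ hζ hζr t => ?_, h4⟩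
  rw [h3 z hz ζ hζ hζr t]
  unfold AK.FM AK.BM FX
  rw [h0 z hz (j ζ.1) (hj z hz ζ.1 (AK.PP_eq.1 hζ).1) t]


end Crest.Agent.R208.NW
end
end

-- ▼ part R208/AK13
section

/-!
R208, block AK (helper952), part 13: **the junction in the coordinates of the total space**
`TT (US G) P₂ PN`: the linear map `Lz` (`TU.LinK`), the family `fJ` over `TT × ℝ`, its end points
(`KG.F .. (nest4 (Psi x)) 0` and the orbits of the level two family) and its energies.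
-/

set_option autoImplicit false
set_option linter.unusedSectionVars false
set_option linter.unusedVariables false

open Set Filter Topology MeasureTheory Module
open scoped ContDiff RealInnerProductSpace Real
open Crest.GeometryTopology.Submanifold
open Crest.Agent.R241.DDefs
open Crest.Agent.R241.D2
open Crest.Agent.R208.NN (V0 qq Wt nuP fd fd')
open Crest.Agent.R208.KG (idx Km OK N4 nest4)
open Crest.Agent.R208.MS (En)
open Crest.Agent.R208.EX (LF)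

noncomputable section

namespace Crest.Agent.R208.AK

variable {n N k Kn : ℕ} {κ : ℝ} {S : Set (Euc N)} {G : Geo n N κ S} {z : Euc N × Euc N}
  {δ ε : ℝ} {PN : Euc N × Euc N → Wt N Kn →L[ℝ] Wt N Kn}

/-- the energy of the geodesic -/
lemma EnT_fl (hz : z ∈ L.US G) (T : ℝ) : EnT T (fun t => (fl G (z, t)).1) = T / 2 := by
  have h1 : ∀ t, deriv (fun t => (fl G (z, t)).1) t = (fl G (z, t)).2 := fun t =>
    (hda_fst (hasDerivAt_fl G (complete G hz.1 t))).deriv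
  unfold EnT
  simp only [h1]
  exact int_fl hz T

section link

variable {H₂ : Type*} [NormedAddCommGroup H₂] [InnerProductSpace ℝ H₂] [FiniteDimensional ℝ H₂]
  {P₂ : Euc N × Euc N → H₂ →L[ℝ] H₂} {j : H₂ →L[ℝ] Wt N Kn × Wt N Kn}

/-- **the linear map of the tube** -/
theorem linK_rem (hS : IsCompact S) (hO : OK G 4 ε) (h : GT.Bla G k) (hk : 1 ≤ k)
    (H : NB.NegB G (k - 1) (nuP Kn) δ PN) {c : ℝ} (hc0 : 0 < c) (hc : HC G ε c)
    (hj : ∀ z ∈ L.US G, ∀ ν, P₂ z ν = ν → PP PN PN z (j ν) = j ν) {cj : ℝ} (hcj : 0 < cj)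
    (hjc : ∀ z ∈ L.US G, ∀ ν, P₂ z ν = ν → cj * ‖ν‖ ^ 2 ≤ ‖j ν‖ ^ 2)
    {R : Euc N → Euc N} {O : Set (Euc N)} (hOo : IsOpen O) (hSO : S ⊆ O)
    (hR : ContDiffOn ℝ ∞ R O) (hRS : MapsTo R O S) (hRid : ∀ x ∈ S, R x = x) :
    TU.LinK h P₂ PN (AK.rem (Lall h ε δ PN j)) := by
  have hL := (linC_Lall (P₂ := P₂) (j := j) hO h hk H hc0 hc hj).rem
  refine ⟨hL.smooth, fun z hz ζ h2 h1 i => hL.mem z hz ζ (PP_eq.2 ⟨h2, h1⟩) i,
    fun z _ ζ _ _ => rem_zero z ζ, fun z hz ζ h2 h1 h0 => ?_⟩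
  obtain ⟨Hm, r, δf, hr, hδf, -, hm0, -, hen⟩ := NW.exists_junction (P₂ := P₂) (j := j) hS hO h hk
    H hc0 hc hj hcj hjc (ε₁ := 1) (ε₂ := 1) one_pos one_pos hOo hSO hR hRS hRid
  by_contra hne
  have hn : 0 < ‖ζ‖ := norm_pos_iff.2 hne
  set s : ℝ := r / (2 * ‖ζ‖) with hs
  have hs0 : 0 < s := by positivity
  have hP : PP P₂ PN z (s • ζ) = s • ζ := by rw [map_smul, PP_eq.2 ⟨h2, h1⟩]
  have hns : ‖s • ζ‖ = r / 2 := by
    rw [norm_smul, Real.norm_eq_abs, abs_of_pos hs0, hs]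
    field_simp
  have hlt : ‖s • ζ‖ < r := by rw [hns]; linarith
  have e1 : ∀ t, Hm (((z, 0), s • ζ), t) = (fl G (z, t)).1 := fun t => by
    rw [hm0 z hz _ hP hlt t, map_smul, h0, smul_zero]
    exact FT_diag hO hz h t
  have h3 := hen z hz 0 ⟨le_rfl, zero_le_one⟩ _ hP hlt
  rw [funext e1, EnT_fl hz, hns] at h3
  have h4 : 0 < δf * (r / 2) ^ 2 := by positivity
  linarith [Real.pi_pos]

end link

/-! ### the family over the total space -/

section fam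

variable {H₂ : Type} [NormedAddCommGroup H₂] [InnerProductSpace ℝ H₂] [FiniteDimensional ℝ H₂]
  {P₂ : Euc N × Euc N → H₂ →L[ℝ] H₂} {r : ℝ}

/-- the polydisc bundle -/
def ZR (G : Geo n N κ S) (P₂ : Euc N × Euc N → H₂ →L[ℝ] H₂)
    (PN : Euc N × Euc N → Wt N Kn →L[ℝ] Wt N Kn) (r : ℝ) :
    Set (((Euc N × Euc N) × H₂) × Wt N Kn) :=
  TP.TT (L.US G) P₂ PN ∩ {x | ‖x.1.2‖ < r ∧ ‖x.2‖ < r}

/-- the family in phase time -/
def fJ (Hm : (((Euc N × Euc N) × ℝ) × (H₂ × Wt N Kn)) × ℝ → Euc N)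
    (q : (((Euc N × Euc N) × H₂) × Wt N Kn) × ℝ) (t : ℝ) : Euc N :=
  Hm (((q.1.1.1, Real.smoothTransition q.2), (q.1.1.2, q.1.2)), 2 * t)

variable {Hm : (((Euc N × Euc N) × ℝ) × (H₂ × Wt N Kn)) × ℝ → Euc N}

theorem lf_fJ (hF : LFam G (L.US G ×ˢ Icc (0:ℝ) 1) (fun p => PP P₂ PN p.1) (4 * Real.pi)
    (fun p => p.1) Hm r) : LF S (ZR G P₂ PN r ×ˢ (univ : Set ℝ)) (fJ Hm) := by
  have key : ∀ q ∈ ZR G P₂ PN r ×ˢ (univ : Set ℝ),
      (q.1.1.1, Real.smoothTransition q.2) ∈ L.US G ×ˢ Icc (0:ℝ) 1 ∧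
      PP P₂ PN q.1.1.1 (q.1.1.2, q.1.2) = (q.1.1.2, q.1.2) ∧ ‖(q.1.1.2, q.1.2)‖ < r := by
    rintro ⟨x, τ⟩ ⟨⟨hx, h1, h2⟩, -⟩
    rw [TU.mem_TT] at hx
    exact ⟨⟨hx.1, st_mem τ⟩, PP_eq.2 ⟨hx.2.1, hx.2.2⟩, by rw [Prod.norm_def]; exact max_lt h1 h2⟩
  refine ⟨fun q hq t => ?_, fun q hq t => ?_, fun q hq t => ?_⟩
  · obtain ⟨k1, k2, k3⟩ := key q hq
    have h1 := hF.smooth _ k1 _ k2 k3 (2 * t)
    have h2 : ContDiffAt ℝ ∞ (fun p : ((((Euc N × Euc N) × H₂) × Wt N Kn) × ℝ) × ℝ =>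
        Real.smoothTransition p.1.2) (q, t) :=
      ContDiffAt.comp (g := Real.smoothTransition)
        (f := fun p : ((((Euc N × Euc N) × H₂) × Wt N Kn) × ℝ) × ℝ => p.1.2) (q, t)
        Real.smoothTransition.contDiffAt (by fun_prop)
    exact ContDiffAt.comp (g := Hm)
      (f := fun p : ((((Euc N × Euc N) × H₂) × Wt N Kn) × ℝ) × ℝ =>
        ((((p.1.1.1.1, Real.smoothTransition p.1.2), (p.1.1.1.2, p.1.1.2)), 2 * p.2) :
          (((Euc N × Euc N) × ℝ) × (H₂ × Wt N Kn)) × ℝ)) (q, t) h1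
      ((((by fun_prop : ContDiffAt ℝ ∞
        (fun p : ((((Euc N × Euc N) × H₂) × Wt N Kn) × ℝ) × ℝ => p.1.1.1.1) (q, t)).prodMk
        h2).prodMk (by fun_prop)).prodMk (by fun_prop))
  · obtain ⟨k1, k2, k3⟩ := key q hq
    have h1 := hF.per _ k1 _ k2 k3 (2 * t)
    have e : 2 * (t + 2 * Real.pi) = 2 * t + 4 * Real.pi := by ring
    change Hm (_, 2 * (t + 2 * Real.pi)) = Hm (_, 2 * t)
    rw [e]
    exact h1
  · obtain ⟨k1, k2, k3⟩ := key q hq
    exact hF.mem _ k1 _ k2 k3 (2 * t)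

theorem En_fJ {δf : ℝ} (hδ : 0 < δf)
    (hen : ∀ z ∈ L.US G, ∀ τ ∈ Icc (0:ℝ) 1, ∀ ζ, PP P₂ PN z ζ = ζ → ‖ζ‖ < r →
        EnT (4 * Real.pi) (fun t => Hm (((z, τ), ζ), t)) ≤ 2 * Real.pi - δf * ‖ζ‖ ^ 2)
    {x : ((Euc N × Euc N) × H₂) × Wt N Kn} (hx : x ∈ ZR G P₂ PN r) (τ : ℝ) :
    En (fJ Hm (x, τ)) ≤ 4 * Real.pi - δf * (‖x.1.2‖ ^ 2 + ‖x.2‖ ^ 2) := by
  obtain ⟨hx0, h1, h2⟩ := hx
  rw [TU.mem_TT] at hx0
  have h3 := hen x.1.1 hx0.1 _ (st_mem τ) (x.1.2, x.2) (PP_eq.2 ⟨hx0.2.1, hx0.2.2⟩)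
    (by rw [Prod.norm_def]; exact max_lt h1 h2)
  have h4 : En (fJ Hm (x, τ)) =
      2 * EnT (4 * Real.pi) (fun t => Hm (((x.1.1, Real.smoothTransition τ), (x.1.2, x.2)), t)) := by
    have h5 := FT.En_double
      (fun t => Hm (((x.1.1, Real.smoothTransition τ), (x.1.2, x.2)), t))
    rw [EnT, ← mul_assoc, mul_one_div_cancel two_ne_zero, one_mul, ← h5]
    rfl
  have h6 : ‖x.1.2‖ ^ 2 + ‖x.2‖ ^ 2 ≤ 2 * ‖((x.1.2, x.2) : H₂ × Wt N Kn)‖ ^ 2 := by
    have k1 := pow_le_pow_left₀ (norm_nonneg _) (norm_fst_le ((x.1.2, x.2) : H₂ × Wt N Kn)) 2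
    have k2 := pow_le_pow_left₀ (norm_nonneg _) (norm_snd_le ((x.1.2, x.2) : H₂ × Wt N Kn)) 2
    simp only at k1 k2
    linarith
  have h7 := mul_le_mul_of_nonneg_left h6 hδ.le
  rw [h4]
  linarith

/-- the start of the family -/
theorem fJ_zero {h : GT.Bla G k} {Lz : Euc N × Euc N → (H₂ × Wt N Kn) →L[ℝ] (Fin 4 → Euc N)}
    (hL : TU.LinK h P₂ PN Lz)
    (hm0 : ∀ z ∈ L.US G, ∀ ζ, PP P₂ PN z ζ = ζ → ‖ζ‖ < r → ∀ t,
        Hm (((z, 0), ζ), t) = FT G 4 ε (kap z (Lz z ζ), t))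
    {x : ((Euc N × Euc N) × H₂) × Wt N Kn} (hx : x ∈ ZR G P₂ PN r) (t : ℝ) :
    fJ Hm (x, 0) t = KG.F G 4 ε (nest4 (TU.Psi Lz x)) 0 t := by
  obtain ⟨hx0, h1, h2⟩ := hx
  have hx1 := hx0
  rw [TU.mem_TT] at hx0
  unfold fJ
  rw [Real.smoothTransition.zero]
  rw [hm0 x.1.1 hx0.1 _ (PP_eq.2 ⟨hx0.2.1, hx0.2.2⟩) (by rw [Prod.norm_def]; exact max_lt h1 h2),
    hL.nest4_Psi hx1, FT]
  congr 1
  push_cast
  ring

end fam

section d2

variable {lg : Euc N → Euc N → Euc N} {ρ : Euc N → Euc N} {rr C r' Kr B w δ δ₂ ε₁ ε₂ E₀ η r : ℝ}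
  {J : ℕ} {Hm : (((Euc N × Euc N) × ℝ) × (FT.W2 N Kn × Wt N Kn)) × ℝ → Euc N}

/-- the two projections -/
def j2 (N Kn : ℕ) : FT.W2 N Kn →L[ℝ] Wt N Kn × Wt N Kn :=
  (DD.pl : FT.W2 N Kn →L[ℝ] Wt N Kn).prod DD.pr

/-- the end of the family: the orbits of the level two family -/
theorem fJ_one (h : GT.Bla G k) (H : NB.NegB G (k - 1) (nuP Kn) δ PN)
    (hD : FT.D2 G k Kn lg ρ rr C r' Kr B w δ PN ε₁ J E₀ η (DD.NN PN) (FT.RN N Kn) (FT.xiN h PN) δ₂
      ε₂) (hr : r ≤ 1 / 2)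
    (hm1 : ∀ z ∈ L.US G, ∀ ζ, PP (DD.NN PN) PN z ζ = ζ → ‖ζ‖ < r → ∀ t,
        Hm (((z, 1), ζ), t) = NW.FX h PN (j2 N Kn) ε₁ ε₂ ρ ((z, ζ), t))
    {x : ((Euc N × Euc N) × FT.W2 N Kn) × Wt N Kn} (hx : x ∈ ZR G (DD.NN PN) PN r) (t : ℝ) :
    fJ Hm (x, 1) t =
      FT.f2 G lg ρ w J (FT.xiN h PN) ε₁ ε₂ (FT.Ph2 G Kn (FT.RN N Kn) t x) := by
  obtain ⟨hx0, h1, h2⟩ := hx
  have hx1 := hx0
  rw [TU.mem_TT] at hx0
  have hP := KR.NegB.of_NB h H
  have n1 : ‖x.2‖ ^ 2 ≤ 1 / 4 := by nlinarith [norm_nonneg x.2]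
  have n2 : ‖x.1.2‖ ^ 2 ≤ 4 := by nlinarith [norm_nonneg x.1.2]
  rw [hD.orb_near hx1 (by linarith), FT.bb, FT.cu_one n1, FL.th_one n2, mul_one, mul_one,
    FT.xf_xiN h H hx0.1]
  unfold fJ
  rw [Real.smoothTransition.one, hm1 x.1.1 hx0.1 _ (PP_eq.2 ⟨hx0.2.1, hx0.2.2⟩)
    (by rw [Prod.norm_def]; exact max_lt h1 h2)]
  unfold NW.FX
  rw [hP.xi_eq (θ := fun r => r) (θ' := fun _ => 1) hx0.1 continuous_id continuous_const,
    add_comm (ε₁ • _)]
  rfl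

lemma j2_mem {ν : FT.W2 N Kn} {z : Euc N × Euc N} (hν : DD.NN PN z ν = ν) :
    PP PN PN z (j2 N Kn ν) = j2 N Kn ν := by
  rw [PP_eq]
  exact DD.NN_eq_self_iff.1 hν

lemma j2_norm (ν : FT.W2 N Kn) : 1 / 2 * ‖ν‖ ^ 2 ≤ ‖j2 N Kn ν‖ ^ 2 := by
  rw [DD.norm_sq_eq]
  have k1 := pow_le_pow_left₀ (norm_nonneg _) (norm_fst_le (j2 N Kn ν)) 2
  have k2 := pow_le_pow_left₀ (norm_nonneg _) (norm_snd_le (j2 N Kn ν)) 2
  change ‖DD.pl ν‖ ^ 2 ≤ _ at k1
  change ‖DD.pr ν‖ ^ 2 ≤ _ at k2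
  linarith

/-- the tube map of the instance -/
abbrev Lz2 (h : GT.Bla G k) (ε δ : ℝ) (PN : Euc N × Euc N → Wt N Kn →L[ℝ] Wt N Kn) :
    Euc N × Euc N → (FT.W2 N Kn × Wt N Kn) →L[ℝ] (Fin 4 → Euc N) :=
  AK.rem (Lall h ε δ PN (j2 N Kn))

/-- **the family of the instance**; the constants depend on `ρ`, `ε₁`, `ε₂` only (not on `J`, `E₀`,
`η`, `w`) -/
theorem exists_fam (h : GT.Bla G k) (hk : 1 ≤ k) (hO : OK G 4 ε) {c : ℝ} (hc0 : 0 < c)
    (hc : HC G ε c) (H : NB.NegB G (k - 1) (nuP Kn) δ PN) (hR : MS.Retr S ρ r' Kr)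
    (he1 : 0 < ε₁) (he2 : 0 < ε₂) :
    TU.LinK h (DD.NN PN) PN (Lz2 h ε δ PN) ∧
    ∃ (f : (((Euc N × Euc N) × FT.W2 N Kn) × Wt N Kn) × ℝ → ℝ → Euc N) (r δf : ℝ), 0 < r ∧
      r ≤ 1 / 2 ∧ 0 < δf ∧ LF S (ZR G (DD.NN PN) PN r ×ˢ (univ : Set ℝ)) f ∧
      (∀ x ∈ ZR G (DD.NN PN) PN r, ∀ t,
        f (x, 0) t = KG.F G 4 ε (nest4 (TU.Psi (Lz2 h ε δ PN) x)) 0 t) ∧
      (∀ (lg : Euc N → Euc N → Euc N) (rr C B w δ₂ E₀ η : ℝ) (J : ℕ),
        FT.D2 G k Kn lg ρ rr C r' Kr B w δ PN ε₁ J E₀ η (DD.NN PN) (FT.RN N Kn) (FT.xiN h PN) δ₂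
          ε₂ → ∀ x ∈ ZR G (DD.NN PN) PN r, ∀ t, f (x, 1) t =
        FT.f2 G lg ρ w J (FT.xiN h PN) ε₁ ε₂ (FT.Ph2 G Kn (FT.RN N Kn) t x)) ∧
      (∀ x ∈ ZR G (DD.NN PN) PN r, ∀ τ,
        En (f (x, τ)) ≤ 4 * Real.pi - δf * (‖x.1.2‖ ^ 2 + ‖x.2‖ ^ 2)) := by
  set O : Set (Euc N) := ⋃ p ∈ S, Metric.ball p r' with hOd
  have hOo : IsOpen O := isOpen_biUnion fun p _ => Metric.isOpen_ball
  have hSO : S ⊆ O := fun p hp => mem_biUnion hp (Metric.mem_ball_self hR.r_pos)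
  have hOm : ∀ y ∈ O, ∃ p ∈ S, ‖y - p‖ < r' := fun y hy => by
    obtain ⟨p, hp, hy⟩ := mem_iUnion₂.1 hy
    exact ⟨p, hp, by rwa [mem_ball_iff_norm] at hy⟩
  have hRc : ContDiffOn ℝ ∞ ρ O := fun y hy => by
    obtain ⟨p, hp, h1⟩ := hOm y hy
    exact (hR.smooth p hp y h1).contDiffWithinAt
  have hRm : MapsTo ρ O S := fun y hy => by
    obtain ⟨p, hp, h1⟩ := hOm y hy
    exact hR.mem p hp y h1
  have hj : ∀ z ∈ L.US G, ∀ ν : FT.W2 N Kn, DD.NN PN z ν = ν →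
      PP PN PN z (j2 N Kn ν) = j2 N Kn ν := fun z _ ν hν => j2_mem hν
  have hjc : ∀ z ∈ L.US G, ∀ ν : FT.W2 N Kn, DD.NN PN z ν = ν →
      1 / 2 * ‖ν‖ ^ 2 ≤ ‖j2 N Kn ν‖ ^ 2 := fun z _ ν _ => j2_norm ν
  have hLK : TU.LinK h (DD.NN PN) PN (Lz2 h ε δ PN) := linK_rem (cj := 1 / 2) hO.cpt hO h hk H hc0
    hc hj (by norm_num) hjc hOo hSO hRc hRm hR.eq
  refine ⟨hLK, ?_⟩
  obtain ⟨Hm, r, δf, hr, hδf, hF, hm0, hm1, hen⟩ := NW.exists_junction (P₂ := DD.NN PN)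
    (j := j2 N Kn) (cj := 1 / 2) hO.cpt hO h hk H hc0 hc hj (by norm_num) hjc (ε₁ := ε₁)
    (ε₂ := ε₂) he1 he2 hOo hSO hRc hRm hR.eq
  set s : ℝ := min r (1 / 2) with hs
  have hs0 : 0 < s := lt_min hr (by norm_num)
  have hsr : s ≤ r := min_le_left _ _
  have hF' : LFam G (L.US G ×ˢ Icc (0:ℝ) 1) (fun p => PP (DD.NN PN) PN p.1) (4 * Real.pi)
      (fun p => p.1) Hm s :=
    ⟨hs0, fun x hx ζ h1 h2 => hF.smooth x hx ζ h1 (h2.trans_le hsr),
      fun x hx ζ h1 h2 => hF.mem x hx ζ h1 (h2.trans_le hsr),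
      fun x hx ζ h1 h2 => hF.per x hx ζ h1 (h2.trans_le hsr), hF.zero⟩
  refine ⟨fJ Hm, s, δf, hs0, min_le_right _ _, hδf, lf_fJ hF', fun x hx t => ?_,
    fun lg rr C B w δ₂ E₀ η J hD x hx t => ?_, fun x hx τ => ?_⟩
  · exact fJ_zero hLK (fun z hz ζ hζ h1 t => hm0 z hz ζ hζ (h1.trans_le hsr) t) hx t
  · exact fJ_one h H hD (min_le_right _ _)
      (fun z hz ζ hζ h1 t => hm1 z hz ζ hζ (h1.trans_le hsr) t) hx t
  · exact En_fJ hδf (fun z hz τ hτ ζ hζ h1 => hen z hz τ hτ ζ hζ (h1.trans_le hsr)) hx τ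

end d2

end Crest.Agent.R208.AK
end
end

-- ▼ part R208/FU5
section

/-!
R208, (8,2), (A2) (helper336), part FU5: `FU.main` for the level two family `f2`, the cut off `c2`
and helper952's junction family (`AK.exists_fam`). All level constants are below `4π` and are chosen
before `J, E₀, η`.
-/

set_option autoImplicit false
set_option linter.unusedSectionVars false
set_option linter.unusedVariables false
set_option maxHeartbeats 1600000

open MeasureTheory Set Filter Topology Module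
open scoped ContDiff RealInnerProductSpace Real
open Crest.GeometryTopology.Submanifold
open Crest.Agent.R241.DDefs Crest.Agent.R241.D Crest.Agent.R241.D2
open Crest.Agent.R208.F Crest.Agent.R208.FI Crest.Agent.R208.CW Crest.Agent.R208.T
open Crest.Agent.R208.CM (Triv Qd)
open Crest.Agent.R208.EX
open Crest.Agent.R208.MS (En)
open Crest.Agent.R208.NN (Wt nuP)
open Crest.Agent.R208.TP (TT CV pu₁ pu₂)
open Crest.Agent.R208.TU (bT bN FK Psi LinK Cut Pair smap_bT)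

noncomputable section

namespace Crest.Agent.R208.FU

variable {n N K k d r₁ r₂ : ℕ} {κ : ℝ} {S : Set (Euc N)} {G : Geo n N κ S}
  {lg : Euc N → Euc N → Euc N} {ρ : Euc N → Euc N} {rr C r' Kr B w δ : ℝ}
  {PN : Euc N × Euc N → Wt N K →L[ℝ] Wt N K} {δ₂ ε ε₂ E₀ η : ℝ} {J : ℕ}

section gen
variable {H₂ : Type} [NormedAddCommGroup H₂] [InnerProductSpace ℝ H₂] [FiniteDimensional ℝ H₂]
  {P₂ : Euc N × Euc N → H₂ →L[ℝ] H₂} {Rr : ℝ → H₂ →L[ℝ] H₂}
  {xi0 : Euc N × Euc N → H₂ →L[ℝ] Euc N}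

theorem sq_le_of_off {a b s : ℝ} (hs : 0 < s) (h0 : ¬ (a < s ∧ b < s)) :
    s ^ 2 ≤ b ^ 2 + a ^ 2 := by
  by_cases h1 : a < s
  · have h2 : s ≤ b := not_lt.1 fun h => h0 ⟨h1, h⟩
    nlinarith [sq_nonneg a]
  · have h2 : s ≤ a := not_lt.1 h1
    nlinarith [sq_nonneg b]

/-- energies of the level two family off a small disk -/
theorem en_off (h : FT.D2 G k K lg ρ rr C r' Kr B w δ PN ε J E₀ η P₂ Rr xi0 δ₂ ε₂)
    (hη : 2 * η ≤ π - (δ / 4) * ε ^ 2) {s : ℝ} (hs : 0 < s) (hs1 : s ≤ 1)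
    {p : ((Euc N × Euc N) × H₂) × Wt N K} (hp : p ∈ TT (L.US G) P₂ PN)
    (h0 : ¬ (‖p.1.2‖ < s ∧ ‖p.2‖ < s)) :
    En (fun t => FT.f2 G lg ρ w J xi0 ε ε₂ (FT.Ph2 G K Rr t p)) ≤
      4 * π - FT.gp δ δ₂ ε ε₂ * s ^ 2 := by
  refine (h.en_unif hη hp).trans ?_
  have h1 := h.gp_pos
  have h2 : s ^ 2 ≤ min 1 (‖p.2‖ ^ 2 + ‖p.1.2‖ ^ 2) :=
    le_min (by nlinarith) (sq_le_of_off hs h0)
  have h3 : FT.gp δ δ₂ ε ε₂ * s ^ 2 ≤
      FT.gp δ δ₂ ε ε₂ * min 1 (‖p.2‖ ^ 2 + ‖p.1.2‖ ^ 2) := by gcongr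
  linarith

end gen

variable
  {V₁ V₂ : Type} [NormedAddCommGroup V₁] [InnerProductSpace ℝ V₁] [FiniteDimensional ℝ V₁]
  [MeasurableSpace V₁] [BorelSpace V₁] (μ₁ : Measure V₁) [μ₁.IsAddHaarMeasure]
  [NormedAddCommGroup V₂] [InnerProductSpace ℝ V₂] [FiniteDimensional ℝ V₂]
  [MeasurableSpace V₂] [BorelSpace V₂] (μ₂ : Measure V₂) [μ₂.IsAddHaarMeasure]
  {Q₁ : Euc N × Euc N → V₁ →L[ℝ] V₁} {Q₂ : Euc N × Euc N → V₂ →L[ℝ] V₂}
  {T₁ : Euc N × Euc N → Wt N K →L[ℝ] V₁} {T₂ : Euc N × Euc N → FT.W2 N K →L[ℝ] V₂}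
  {τ₁' : (Euc N × Euc N) × V₁ → Ext ((Euc N × Euc N) × V₁)}
  {τ₂' : (Euc N × Euc N) × V₂ → Ext ((Euc N × Euc N) × V₂)}
  {R₀ R₀' R₁ R₂ r δf : ℝ}
  {D : ED N} {hb : GT.Bla G k} {εg : ℝ}
  {cK : (((Euc N × Euc N) × Euc N) × Euc N) × Euc N → ℝ} {ρc ρc' δ' ρ₁ : ℝ}
  {α : Euc N × Euc N → Ext (Euc N × Euc N)}
  {om : (((Euc N × Euc N) × Euc N) × Euc N) × Euc N →
    Ext ((((Euc N × Euc N) × Euc N) × Euc N) × Euc N)}
  {V₀ V : ((Euc N × Euc N) × FT.W2 N K) × Wt N K →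
    Ext (((Euc N × Euc N) × FT.W2 N K) × Wt N K)}
  {fJ : (((Euc N × Euc N) × FT.W2 N K) × Wt N K) × ℝ → ℝ → Euc N}
  {W W0 : ((Euc N × Euc N) × V₂) × V₁ → Ext (((Euc N × Euc N) × V₂) × V₁)}

/-- the family of the level two orbit loops over `US G` -/
abbrev f2o (G : Geo n N κ S) (K : ℕ) (lg : Euc N → Euc N → Euc N) (ρ : Euc N → Euc N) (w : ℝ)
    (J : ℕ) (ε ε₂ : ℝ) (hb : GT.Bla G k) (PN : Euc N × Euc N → Wt N K →L[ℝ] Wt N K)
    (x : ((Euc N × Euc N) × FT.W2 N K) × Wt N K) (t : ℝ) : Euc N :=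
  FT.f2 G lg ρ w J (FT.xiN hb PN) ε ε₂ (FT.Ph2 G K (FT.RN N K) t x)


end Crest.Agent.R208.FU
end
end

-- ▼ part R208/AK20
section

/-!
R208, block AK (helper952), part 20: **the end of (A2)**: for the level two data of helper336 and
every slice of helper382: `|∫_US (pu₂ V') y| = Δ |∫_N4 (form of the flat loops) y|`; all constants
are chosen before `J, E₀, η, D`.
-/

set_option autoImplicit false
set_option linter.unusedSectionVars false
set_option linter.unusedVariables false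
set_option maxHeartbeats 1600000

open Set Filter Topology MeasureTheory Module
open scoped ContDiff RealInnerProductSpace
open Crest.GeometryTopology.Submanifold
open Crest.Agent.R241.DDefs
open Crest.Agent.R241.D2
open Crest.Agent.R208.F Crest.Agent.R208.FI Crest.Agent.R208.CW Crest.Agent.R208.T
open Crest.Agent.R208.FV (PVB phi)
open Crest.Agent.R208.SB (OPr)
open Crest.Agent.R208.KG (OK N4)
open Crest.Agent.R208.MS (En)
open Crest.Agent.R208.NN (Wt Rt nuP)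
open Crest.Agent.R208.TP (TT CV pu₂ up)
open Crest.Agent.R208.CM (Triv Qd MM)
open Crest.Agent.R208.HO (Pt Ph2 smap_Ph2)
open Crest.Agent.R208.EX (ED LF)
open Crest.Agent.R208.SN (kGG)
open Crest.Agent.R208.LB (al oUS dal)

noncomputable section

namespace Crest.Agent.R208.AK

/-! ### orientations -/
section ori
variable {E : Type*} [NormedAddCommGroup E] [NormedSpace ℝ E] [FiniteDimensional ℝ E]
  {d : ℕ} {X : Set E} {o o' om : E → Ext E}

theorem ori_dp' (ho : Ori d X o) : Ori d X (T.dp d o) where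
  cont := (dplL (E := E) d).continuous.comp_continuousOn ho.cont
  ne := fun x hx => by
    show evA E d (dpl d (o x)) _ ≠ 0
    rw [CM.evA_dpl_same]
    exact ho.ne x hx

theorem abs_J_ori (hX : Clo d X) (hc : IsPreconnected X) (ho : Ori d X o) (ho' : Ori d X o') :
    |J d X o' om| = |J d X o om| := by
  rcases J_ori_connected hX ho ho' hc with h | h
  · rw [h]
  · rw [h, abs_neg]

end ori

section main
variable {n N K k d mK : ℕ} {κ : ℝ} {S : Set (Euc N)} {G : Geo n N κ S}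
  {ρ : Euc N → Euc N} {r' Kr δ δ₂ ε ε₂ : ℝ}
  {PN : Euc N × Euc N → Wt N K →L[ℝ] Wt N K}

theorem smap_phi' (h : GT.Bla G k) : SMap (L.US G) (GT.FF S) (phi G) :=
  ⟨fun z hz => FV.contDiffAt_phi hz.1, fun z hz => FV.phi_mem h.bl hz⟩

/-- **(A2)**: all constants before `J, E₀, η, D` -/
theorem a2_D2 (h : GT.Bla G k) (hk : 2 ≤ k) (hkn : k < n)
    (H : NB.NegB G (k - 1) (nuP K) δ PN) (hR : MS.Retr S ρ r' Kr) (he1 : 0 < ε) (he2 : 0 < ε₂)
    (hδ₂ : 0 < δ₂) (hd : d + 1 = 2 * n) (hmK : mK = 3 * (k - 1) + d) :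
    ∃ (εg B₀ : ℝ) (oK : (((Euc N × Euc N) × Euc N) × Euc N) × Euc N →
        Ext ((((Euc N × Euc N) × Euc N) × Euc N) × Euc N)),
      OK G 4 εg ∧ B₀ < 4 * Real.pi ∧ Ori mK (N4 h) oK ∧
      ∀ {D : ED N} {lg : Euc N → Euc N → Euc N} {rr C B w E₀ η : ℝ} {J₀ : ℕ}, D.OK → D.S = S →
        B₀ ≤ D.B →
        FT.D2 G k K lg ρ rr C r' Kr B w δ PN ε J₀ E₀ η (DD.NN PN) (FT.RN N K) (FT.xiN h PN) δ₂ ε₂ →
        2 * η ≤ Real.pi - (δ / 4) * ε ^ 2 →
      ∀ {n₁ n₂ ι₁ ι₂ : Type} [Fintype n₁] [DecidableEq n₁] [Fintype n₂] [DecidableEq n₂]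
        [Fintype ι₁] [DecidableEq ι₁] [Fintype ι₂] [DecidableEq ι₂] [Nonempty ι₁] [Nonempty ι₂]
        {Q₁ : Euc N × Euc N → EuclideanSpace ℝ n₁ →L[ℝ] EuclideanSpace ℝ n₁}
        {Q₂ : Euc N × Euc N → EuclideanSpace ℝ n₂ →L[ℝ] EuclideanSpace ℝ n₂}
        {T₁ : Euc N × Euc N → Wt N K →L[ℝ] EuclideanSpace ℝ n₁}
        {T₂ : Euc N × Euc N → FT.W2 N K →L[ℝ] EuclideanSpace ℝ n₂}
        {W₁ : Euc N × Euc N → (ι₁ × Fin 2 → n₁) → ℝ} {W₂ : Euc N × Euc N → (ι₂ × Fin 2 → n₂) → ℝ}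
        {R₁ R₂ R₀ : ℝ} {α : Euc N × Euc N → Ext (Euc N × Euc N)}
        {V : ((Euc N × Euc N) × FT.W2 N K) × Wt N K →
          Ext (((Euc N × Euc N) × FT.W2 N K) × Wt N K)}
        {W : ((Euc N × Euc N) × EuclideanSpace ℝ n₂) × EuclideanSpace ℝ n₁ →
          Ext (((Euc N × Euc N) × EuclideanSpace ℝ n₂) × EuclideanSpace ℝ n₁)} {j : ℕ},
        Sm (L.US G) α → Hom 1 α →
        FU.Iso (L.US G) (k - 1) (k - 1 + (k - 1)) PN (DD.NN PN) Q₁ Q₂ T₁ T₂ R₁ R₂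
          (thomF (fun x => 1 - Q₁ x) W₁) (thomF (fun x => 1 - Q₂ x) W₂) →
        OR (L.US G) (fun x => 1 - Q₁ x) W₁ → OR (L.US G) (fun x => 1 - Q₂ x) W₂ →
        D.IsRel (TT (L.US G) (DD.NN PN) PN) (F.pull TU.bT α) (FU.f2o G K lg ρ w J₀ ε ε₂ h PN)
          FT.c2 V →
        CV (L.US G) Q₂ Q₁ R₀ W →
        Eqv (TT (L.US G) (DD.NN PN) PN) (F.pull (Ph2 T₂ T₁) W) (T.dp j V) →
      ∀ (oU : Euc N × Euc N → Ext (Euc N × Euc N)), Ori d (L.US G) oU →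
      ∀ (y : Euc N × Euc N → Ext (Euc N × Euc N)) (b : ℕ), Sm (L.US G) y →
        Cl (L.US G) y → Hom b y → j + b = mK →
        |J d (L.US G) oU (pu₂ volume volume Q₂ (thomF (fun x => 1 - Q₂ x) W₂) Q₁
          (thomF (fun x => 1 - Q₁ x) W₁) W * y)| =
        ((kGG ι₂ * LC.del (EuclideanSpace ℝ n₂)) * (kGG ι₁ * LC.del (EuclideanSpace ℝ n₁))) *
          |J mK (N4 h) oK (D.vs (F.pull TU.bN α) (TU.FK G εg 1) *
            F.pull (fun z => z.1.1.1) y)| := by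
  have hpi := Real.pi_pos
  have hUc : IsPreconnected (L.US G) := FV.preconn_US h.bl (by omega)
  have hX : Clo d (L.US G) := SB.clo_US h hd
  obtain ⟨r, hr⟩ : ∃ r, r + 1 = k := ⟨k - 1, by omega⟩
  have hr' : k - 1 = r := by omega
  obtain rfl : mK = r + (r + r) + d := by omega
  -- the chain loops
  obtain ⟨ε₀, h1, h2⟩ := KG.exists_En_le h.bl.cpt G h 4 (by decide)
  obtain ⟨hO, c₀, hc0, hHC⟩ := h2 ε₀ h1 le_rfl
  -- the junction
  obtain ⟨hL, f, rJ, δf, hrJ, hrJ2, hδf, hf, hf0, hf1, hfE⟩ := exists_fam h (by omega) hO hc0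
    hHC H hR he1 he2
  have hP₁ : PField (L.US G) r PN := hr' ▸ UP.pfield_N H
  have hP₂ : PField (L.US G) (r + r) (DD.NN PN) := DD.pfield_NN hP₁
  obtain ⟨cK, ρ', δ', hρ', hρρ, hδ', hC⟩ := hL.exists_Cut h.bl.cpt hO hc0 hHC hP₂ hP₁ (by omega)
    (ρ := rJ / 2) (by linarith)
  -- orientations
  obtain ⟨oP, hoP⟩ := SB.exists_opr_V h hk hkn
  have hoP' := hoP.comp (smap_phi' h)
  have hoU₀ : Ori d (L.US G) (oUS n N) := LB.ori_US (FV.sub_S h.bl) h.bl.cpt (by omega) hd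
  set oX := T.dp d (oUS n N) with hoX
  have hoX' : Ori d (L.US G) oX := ori_dp' hoU₀
  have hsX : Sm (L.US G) oX :=
    Sm.dp d (fun z _ => (contDiff_mul LB.contDiff_al contDiff_const).contDiffAt)
  have hdX : Hom d oX := T.hom_dp d _
  have hS4 := os_N4 (h := h) hr hd hoP' hoX' hsX hdX
  refine ⟨ε₀, max (max (4 * Real.pi - δ') (4 * Real.pi - δf * ρ' ^ 2))
    (max (4 * Real.pi - FT.gp δ δ₂ ε ε₂ * ρ' ^ 2) (FT.lev δ δ₂ ε ε₂)), _, hO, ?_, hS4.ori, ?_⟩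
  · have h3 := FT.gp_pos H.pos_δ hδ₂ he1 he2
    have h4 := FT.lev_lt H.pos_δ hδ₂ he1 he2
    refine max_lt (max_lt (by linarith) ?_) (max_lt ?_ h4)
    · have : 0 < δf * ρ' ^ 2 := by positivity
      linarith
    · have : 0 < FT.gp δ δ₂ ε ε₂ * ρ' ^ 2 := by positivity
      linarith
  · intro D lg rr C B w E₀ η J₀ hD hDS hB hD2 hη n₁ n₂ ι₁ ι₂ _ _ _ _ _ _ _ _ _ _ Q₁ Q₂ T₁ T₂ W₁ W₂
      R₁ R₂ R₀ α V W j hα hα1 I or₁ or₂ hV hW eW oU hoU y b sy cy hy hjb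
    have hB1 := ((le_max_left _ _).trans (le_max_left _ _)).trans hB
    have hB2 := ((le_max_right _ _).trans (le_max_left _ _)).trans hB
    have hB3 := ((le_max_left _ _).trans (le_max_right _ _)).trans hB
    have hB4 := ((le_max_right _ _).trans (le_max_right _ _)).trans hB
    rw [hr'] at I
    have key := a2_core (R := 1) (rJ := rJ) hr hd hUc hoP' hoX' hsX hdX I or₁ or₂ hD hDS hO hL hC
      (by linarith) hB1 hα hα1 (by linarith) hf hf0
      (fun x hx t => hf1 lg rr C B w δ₂ E₀ η J₀ hD2 x hx t)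
      (fun x hx τ h0 => (hfE x hx τ).trans (le_trans (by
        have h3 := FU.sq_le_of_off hρ' h0
        have h4 : δf * ρ' ^ 2 ≤ δf * (‖x.1.2‖ ^ 2 + ‖x.2‖ ^ 2) := by
          have : ρ' ^ 2 ≤ ‖x.1.2‖ ^ 2 + ‖x.2‖ ^ 2 := by linarith
          gcongr
        linarith) hB2)) hD2.lf_f2
      (fun x hx h0 => (FU.en_off hD2 hη hρ' (by linarith) hx h0).trans hB3)
      one_pos (fun x _ => FT.contDiff_c2.contDiffAt)
      (fun x hx h0 => (hD2.level_unif_US hη hx h0).trans hB4)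
      (fun x hx h0 => by rw [FT.c2_one h0]; norm_num) hV hW eW y b sy cy hy hjb
    rw [abs_J_ori hX hUc hoX' hoU]
    exact key

end main

end Crest.Agent.R208.AK
end
end

-- ▼ part R208/AK21
section

/-!
R208, block AK (helper952), part 21: **(A2) for helper382's slice** of the level two data.
-/

set_option autoImplicit false
set_option linter.unusedSectionVars false
set_option linter.unusedVariables false
set_option maxHeartbeats 1600000

open Set Filter Topology MeasureTheory Module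
open scoped ContDiff RealInnerProductSpace
open Crest.GeometryTopology.Submanifold
open Crest.Agent.R241.DDefs
open Crest.Agent.R241.D2
open Crest.Agent.R208.F Crest.Agent.R208.FI Crest.Agent.R208.CW Crest.Agent.R208.T
open Crest.Agent.R208.KG (OK N4)
open Crest.Agent.R208.NN (Wt Rt nuP)
open Crest.Agent.R208.TP (TT CV pu₂ up Slc)
open Crest.Agent.R208.CM (Triv Qd MM)
open Crest.Agent.R208.EX (ED LF)
open Crest.Agent.R208.SN (kGG)

noncomputable section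

namespace Crest.Agent.R208.AK

section slc
variable {n N K s m' c c₂ s' s₂ d mK : ℕ} {κ : ℝ} {S : Set (Euc N)} {G : Geo n N κ S}
  {ρ : Euc N → Euc N} {r' Kr δ δ₂ ε ε₂ : ℝ}
  {PN : Euc N × Euc N → Wt N K →L[ℝ] Wt N K}

/-- **(A2) for the slices** -/
theorem a2_slc (h : GT.Bla G (2 * s + 2)) (hkn : 2 * s + 2 < n)
    (H : NB.NegB G (2 * s + 1) (nuP K) δ PN) (hR : MS.Retr S ρ r' Kr) (he1 : 0 < ε)
    (he2 : 0 < ε₂) (hδ₂ : 0 < δ₂) (hd : d + 1 = 2 * n) (hmK : mK = 3 * (2 * s + 1) + d) :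
    ∃ (εg B₀ : ℝ) (oK : (((Euc N × Euc N) × Euc N) × Euc N) × Euc N →
        Ext ((((Euc N × Euc N) × Euc N) × Euc N) × Euc N)),
      OK G 4 εg ∧ B₀ < 4 * Real.pi ∧ Ori mK (N4 h) oK ∧
      ∀ {D : ED N} {lg : Euc N → Euc N → Euc N} {rr C B w E₀ η : ℝ} {J₀ : ℕ}, D.OK → D.S = S →
        B₀ ≤ D.B →
        FT.D2 G (2 * s + 2) K lg ρ rr C r' Kr B w δ PN ε J₀ E₀ η (DD.NN PN) (FT.RN N K)
          (FT.xiN h PN) δ₂ ε₂ →
        2 * η ≤ Real.pi - (δ / 4) * ε ^ 2 →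
      ∀ {m' c c₂ s' s₂ : ℕ} {Y : Set (MM m')} {f₀ : Euc N × Euc N → MM m'}
        {T₁ : Euc N × Euc N → Wt N K →L[ℝ] EuclideanSpace ℝ (Fin (2 * c + 1))}
        {T₂ : Euc N × Euc N →
          EuclideanSpace ℝ (((Fin K × Fin 2) × Fin N) ⊕ ((Fin K × Fin 2) × Fin N)) →L[ℝ]
            EuclideanSpace ℝ (Fin (2 * c₂))}
        {P₁' : MM m' → EuclideanSpace ℝ (Fin (2 * c + 1)) →L[ℝ] EuclideanSpace ℝ (Fin (2 * c + 1))}
        {P₂' : MM m' → EuclideanSpace ℝ (Fin (2 * c₂)) →L[ℝ] EuclideanSpace ℝ (Fin (2 * c₂))}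
        {W₁ : MM m' → (Fin (s' + 1) × Fin 2 → Fin (2 * c + 1)) → ℝ}
        {W₂ : MM m' → (Fin (s₂ + 1) × Fin 2 → Fin (2 * c₂)) → ℝ}
        {V' : (MM m' × EuclideanSpace ℝ (Fin (2 * c₂))) × EuclideanSpace ℝ (Fin (2 * c + 1)) →
          Ext ((MM m' × EuclideanSpace ℝ (Fin (2 * c₂))) × EuclideanSpace ℝ (Fin (2 * c + 1)))}
        {j : ℕ} {α : Euc N × Euc N → Ext (Euc N × Euc N)}
        {V : ((Euc N × Euc N) ×
          EuclideanSpace ℝ (((Fin K × Fin 2) × Fin N) ⊕ ((Fin K × Fin 2) × Fin N))) × Wt N K →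
            Ext (((Euc N × Euc N) ×
              EuclideanSpace ℝ (((Fin K × Fin 2) × Fin N) ⊕ ((Fin K × Fin 2) × Fin N))) × Wt N K)},
        Slc G PN s Y f₀ T₁ T₂ P₁' P₂' W₁ W₂ V' D j α
          (fun x t => FT.f2 G lg ρ w J₀ (FT.xiN h PN) ε ε₂ (FT.Ph2 G K (FT.RN N K) t x)) V →
        Sm (L.US G) α → Hom 1 α →
      ∀ {oU : Euc N × Euc N → Ext (Euc N × Euc N)}, Ori d (L.US G) oU →
      ∀ (y : Euc N × Euc N → Ext (Euc N × Euc N)) {b : ℕ}, Sm (L.US G) y →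
        Cl (L.US G) y → Hom b y → j + b = mK →
        |J d (L.US G) oU (F.pull f₀ (pu₂ (volume : Measure (EuclideanSpace ℝ (Fin (2 * c + 1))))
            (volume : Measure (EuclideanSpace ℝ (Fin (2 * c₂)))) P₂' (thomF (fun x => 1 - P₂' x) W₂)
            P₁' (thomF (fun y => 1 - P₁' y) W₁) V') * y)| =
        ((LC.del (EuclideanSpace ℝ (Fin (2 * c + 1))) * kGG (Fin (s' + 1))) *
          (LC.del (EuclideanSpace ℝ (Fin (2 * c₂))) * kGG (Fin (s₂ + 1)))) *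
          |J mK (N4 h) oK (D.vs (F.pull TU.bN α) (fun k t => KG.F G 4 εg (KG.nest4 k) 1 t) *
            F.pull (fun z => z.1.1.1) y)| := by
  have hX : Clo d (L.US G) := SB.clo_US h hd
  obtain ⟨εg, B₀, oK, h1, h2, h3, h4⟩ := a2_D2 (K := K) (δ₂ := δ₂) (mK := mK) h (by omega) hkn H hR
    he1 he2 hδ₂ hd (by omega)
  refine ⟨εg, B₀, oK, h1, h2, h3, ?_⟩
  intro D lg rr C B w E₀ η J₀ hD hDS hB hD2 hη m' c c₂ s' s₂ Y f₀ T₁ T₂ P₁' P₂' W₁ W₂ V' j α V hs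
    hα hα1 oU hoU y b sy cy hy hjb
  have hP₁ : PField (L.US G) (2 * s + 1) PN := UP.pfield_N H
  have hP₂ : PField (L.US G) (2 * s + 1 + (2 * s + 1)) (DD.NN PN) := DD.pfield_NN hP₁
  have hQ₂ : PField (L.US G) (2 * s + 1 + (2 * s + 1)) fun z => P₂' (f₀ z) := by
    rw [← two_mul]; exact hs.pf₂
  have I : FU.Iso (L.US G) (2 * s + 1) (2 * s + 1 + (2 * s + 1)) PN (DD.NN PN)
      (fun z => P₁' (f₀ z)) (fun z => P₂' (f₀ z)) T₁ T₂ 3 3
      (thomF (fun x => 1 - P₁' (f₀ x)) fun z => W₁ (f₀ z))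
      (thomF (fun x => 1 - P₂' (f₀ x)) fun z => W₂ (f₀ z)) :=
    ⟨hs.sT₁, hs.iT₁, hs.sT₂, hs.iT₂, hs.q₁, hs.q₂, hP₁, hP₂, hs.pf₁, hQ₂,
      csf_thomF hX.sub hs.or₁, csf_thomF hX.sub hs.or₂⟩
  have key := h4 hD hDS hB hD2 hη hα hα1 I hs.or₁ hs.or₂ hs.rel hs.cv hs.eqv oU hoU y b sy cy hy
    hjb
  have e1 : J d (L.US G) oU (F.pull f₀ (pu₂ (volume : Measure (EuclideanSpace ℝ (Fin (2 * c + 1))))
            (volume : Measure (EuclideanSpace ℝ (Fin (2 * c₂)))) P₂' (thomF (fun x => 1 - P₂' x) W₂)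
            P₁' (thomF (fun y => 1 - P₁' y) W₁) V') * y) =
      J d (L.US G) oU (pu₂ volume volume (fun z => P₂' (f₀ z))
        (thomF (fun x => 1 - P₂' (f₀ x)) fun z => W₂ (f₀ z)) (fun z => P₁' (f₀ z))
        (thomF (fun x => 1 - P₁' (f₀ x)) fun z => W₁ (f₀ z)) (F.pull (up (up f₀)) V') * y) :=
    J_congr' hX fun x hx => by rw [Pi.mul_apply, Pi.mul_apply, hs.pu x hx]
  rw [e1, key]
  congr 1
  ring

end slc

end Crest.Agent.R208.AK
end
end

-- ▼ part R208/SO5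
section

/-! Row 208, block SO (helper638).  SO5: the Hopf invariant of `f₀^*ω²` on `U = US` from the
relations on `F`, and the final form of (S1'). -/

set_option autoImplicit false
set_option linter.unusedSectionVars false

open MeasureTheory Set Filter Topology Module
open scoped ContDiff
open Crest.Agent.R208.F Crest.Agent.R208.FI Crest.Agent.R208.CW Crest.Agent.R208.T

noncomputable section

namespace Crest.Agent.R208.SO

variable {EU : Type*} [NormedAddCommGroup EU] [NormedSpace ℝ EU] [FiniteDimensional ℝ EU]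
  {EF : Type*} [NormedAddCommGroup EF] [NormedSpace ℝ EF] [FiniteDimensional ℝ EF]
  {F' : Type*} [NormedAddCommGroup F'] [NormedSpace ℝ F'] [FiniteDimensional ℝ F']

/-- the Hopf invariant of `f₀^*ω²`: `h₂(x₁, x₂) = dν` on `FF`, `x₁ - x₂ = dθ` on `U`. -/
theorem eval {U : Set EU} {FF : Set EF} {S : Set F'} {oU : EU → Ext EU} {πF : EU → EF}
    {p₁ p₂ : EF → F'} (hU : Clo 31 U) (hoU : Ori 31 U oU) (hFF : Sub 24 FF) (hS : Sub 16 S)
    (sπ : SMap U FF πF) (s₁ : SMap FF S p₁) (s₂ : SMap FF S p₂)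
    {om : F' → Ext F'} (hom : CF2 S 8 om) {ν : EF → Ext EF} (sν : Sm FF ν) (dν : Hom 15 ν)
    (hν : Eqv FF (F.d ν) (F.pull p₁ om * F.pull p₁ om + F.pull p₁ om * F.pull p₂ om +
      F.pull p₂ om * F.pull p₂ om))
    {θ : EU → Ext EU} (sθ : Sm U θ) (dθ : Hom 7 θ)
    (hθ : Eqv U (F.d θ) (F.pull πF (F.pull p₁ om - F.pull p₂ om)))
    {f0 : EU → F'} (sf0 : SMap U S f0) (hf0 : ∀ u ∈ U, f0 u = p₁ (πF u)) :
    ∃ κ : EU → Ext EU, Sm U κ ∧ Hom 15 κ ∧ Eqv U (F.d κ) (F.pull f0 (om * om)) ∧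
      J 31 U oU (F.pull f0 (om * om) * κ) =
        1 / 3 * J 31 U oU (θ * F.pull πF (F.pull p₁ om * F.pull p₁ om * F.pull p₂ om)) := by
  set x₁ : EF → Ext EF := F.pull p₁ om with hx₁
  set x₂ : EF → Ext EF := F.pull p₂ om with hx₂
  have e₁ : CF2 FF 8 x₁ := hom.pull s₁
  have e₂ : CF2 FF 8 x₂ := hom.pull s₂
  have E₁ : CF2 U 8 (F.pull πF x₁) := e₁.pull sπ
  have E₂ : CF2 U 8 (F.pull πF x₂) := e₂.pull sπ
  have hg : Eqv U (F.pull f0 om) (F.pull πF x₁) := by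
    refine (eqv_pull_of_eq om (fun u hu => sf0.diff hu) (fun u hu => (s₁.comp sπ).diff hu)
      hf0).trans (Eqv.of_eq fun u hu => ?_)
    exact (pull_comp (sπ.diff hu) (s₁.diff (sπ.maps hu))).symm
  set X₁ := F.pull πF x₁ with hX₁
  set X₂ := F.pull πF x₂ with hX₂
  have sV : CF2 U 8 ((2 : ℝ) • X₁ + X₂) := (E₁.smul 2).add E₂
  have sPν : Sm U (F.pull πF ν) := sν.pull sπ
  refine ⟨(1 / 3 : ℝ) • (F.pull πF ν + θ * ((2 : ℝ) • X₁ + X₂)),
    (sPν.add (sθ.mul sV.sm)).smul _, (dν.pull.add (dθ.mul sV.hom)).smul _, ?_, ?_⟩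
  · have a1 := d_smul_eqv (1 / 3 : ℝ) (sPν.add (sθ.mul sV.sm))
    have a2 := d_add_eqv sPν (sθ.mul sV.sm)
    have a3 : Eqv U (F.d (F.pull πF ν)) (F.pull πF (x₁ * x₁ + x₁ * x₂ + x₂ * x₂)) :=
      (d_pull_eqv sπ sν).trans (hν.pull sπ)
    have a4 : Eqv U (F.d (θ * ((2 : ℝ) • X₁ + X₂))) (F.d θ * ((2 : ℝ) • X₁ + X₂) +
        (fun x => F.inv (θ x)) * F.d ((2 : ℝ) • X₁ + X₂)) := d_mul_eqv sθ sV.sm
    have a5 : Eqv U ((fun x => F.inv (θ x)) * F.d ((2 : ℝ) • X₁ + X₂)) 0 := by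
      have := (Eqv.refl (X := U) (fun x => F.inv (θ x))).mul (resZero_iff.1 sV.cl)
      rwa [mul_zero] at this
    have a6 : Eqv U (F.d θ * ((2 : ℝ) • X₁ + X₂)) ((X₁ - X₂) * ((2 : ℝ) • X₁ + X₂)) := by
      rw [hX₁, hX₂, ← pull_sub']
      exact hθ.mul (Eqv.refl _)
    have a7 := a3.add (a4.trans (a6.add a5))
    have a8 := (a1.trans ((a2.trans a7).smul (1 / 3 : ℝ)))
    refine a8.trans ?_
    have c : X₂ * X₁ = X₁ * X₂ := (E₁.comm X₂).symm
    have a9 : (1 / 3 : ℝ) • (F.pull πF (x₁ * x₁ + x₁ * x₂ + x₂ * x₂) +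
        ((X₁ - X₂) * ((2 : ℝ) • X₁ + X₂) + 0)) = X₁ * X₁ := by
      rw [pull_add', pull_add', pull_mul', pull_mul', pull_mul', ← hX₁, ← hX₂]
      simp only [sub_mul, mul_add, mul_smul_comm, c]
      module
    rw [a9, pull_mul']
    exact (hg.mul hg).symm
  · -- the integral
    have b1 : Eqv U (F.pull f0 (om * om) * ((1 / 3 : ℝ) • (F.pull πF ν +
        θ * ((2 : ℝ) • X₁ + X₂)))) ((1 / 3 : ℝ) • (θ * F.pull πF (x₁ * x₁ * x₂))) := by
      have b2 : Eqv U (F.pull f0 (om * om)) (X₁ * X₁) := by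
        rw [pull_mul']; exact hg.mul hg
      refine (b2.mul (Eqv.refl _)).trans ?_
      rw [mul_smul_comm]
      refine Eqv.smul _ ?_
      have b3 : X₁ * X₁ * (F.pull πF ν + θ * ((2 : ℝ) • X₁ + X₂)) =
          F.pull πF (x₁ * x₁ * ν) + (θ * ((2 : ℝ) • (X₁ * X₁ * X₁)) +
            θ * F.pull πF (x₁ * x₁ * x₂)) := by
        have c1 : X₁ * X₁ * θ = θ * (X₁ * X₁) := (E₁.mul E₁).comm θ
        rw [pull_mul', pull_mul', pull_mul', pull_mul', mul_add, ← mul_assoc (X₁ * X₁) θ, c1,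
          mul_assoc θ, mul_add (X₁ * X₁), mul_smul_comm, mul_add θ]
      rw [b3]
      have b4 : Eqv U (F.pull πF (x₁ * x₁ * ν)) 0 :=
        resZero_iff.1 (T.ResZero.pull sπ (resZero_of_gt hFF
          (((e₁.mul e₁).hom).mul dν) (by norm_num)))
      have b5 : Eqv U (X₁ * X₁ * X₁) 0 := by
        have h3 : Eqv FF (x₁ * x₁ * x₁) 0 := by
          rw [hx₁, ← pull_mul', ← pull_mul']
          exact resZero_iff.1 (T.ResZero.pull s₁ (resZero_of_gt hS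
            ((hom.mul hom).mul hom).hom (by norm_num)))
        have := h3.pull sπ
        rwa [pull_mul', pull_mul', pull_zero'] at this
      have b6 : Eqv U (θ * ((2 : ℝ) • (X₁ * X₁ * X₁))) 0 := by
        have := (Eqv.refl (X := U) θ).mul (b5.smul 2)
        rwa [smul_zero, mul_zero] at this
      have := b4.add (b6.add (Eqv.refl (θ * F.pull πF (x₁ * x₁ * x₂))))
      rwa [zero_add, zero_add] at this
    rw [J_eqv hU b1]
    exact J_smul _

universe u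

variable {EZ : Type u} [NormedAddCommGroup EZ] [NormedSpace ℝ EZ] [FiniteDimensional ℝ EZ]
  {EY : Type*} [NormedAddCommGroup EY] [NormedSpace ℝ EY] [FiniteDimensional ℝ EY]
  {EB : Type*} [NormedAddCommGroup EB] [NormedSpace ℝ EB] [FiniteDimensional ℝ EB]

/-- **(S1')**: `8 l² ∫_U α ∧ j^*(e x₀² p₃) = ∫_U θ ∧ x₁² x₂`. -/
theorem final {U : Set EU} {Z : Set EZ} {Y : Set EY} {B : Set EB} {S : Set F'} {FF : Set EF}
    {oU : EU → Ext EU} {oV : EZ → Ext EZ} {π : EZ → EU} {q : EZ → EY} {ρ : EY → EB} {j : EU → EB}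
    (hπ : Subm 6 31 Z U π) (hUc : IsPreconnected U) (hoU : Ori 31 U oU) (dU : Hom 31 oU)
    (hoV : ContinuousOn oV Z) (hoZ : Ori 37 Z (oV * F.pull π oU))
    (hY : Sub 36 Y) (hB : Sub 30 B) (hS : Sub 16 S)
    (sq : SMap Z Y q) (sρ : SMap Y B ρ) (sj : SMap U B j) (hc : ∀ z ∈ Z, ρ (q z) = j (π z))
    {α : EU → Ext EU} (sα : Sm U α) (dα : Hom 1 α) {e x p : EB → Ext EB} (he : CF2 B 2 e)
    (hx : CF2 B 8 x) (hp : CF2 B 12 p) (hα : Eqv U (F.d α) (F.pull j e))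
    {w : EY → Ext EY} (hw : CF2 Y 6 w) {l : ℝ}
    (h1 : Coh B ((3 : ℝ) • (x * x) + (l ^ 2) • (e * e * p)) 0)
    (h2 : Coh Y (w * w) (F.pull ρ p))
    {om : F' → Ext F'} (hom : CF2 S 8 om) {fY : EY → F'} (sfY : SMap Y S fY)
    (h3 : Coh Y (F.pull fY om) (F.pull ρ x + l • (F.pull ρ e * w)))
    {f0 : EU → F'} (sf0 : SMap U S f0) {Fh : EZ × ℝ → F'}
    (hF : ∀ z ∈ Z, ∀ t : ℝ, ContDiffAt ℝ ∞ Fh (z, t)) (hm : ∀ z ∈ Z, ∀ t : ℝ, Fh (z, t) ∈ S)
    (hF0 : ∀ z ∈ Z, Fh (z, 0) = f0 (π z)) (hF1 : ∀ z ∈ Z, Fh (z, 1) = fY (q z))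
    {y : EU} (hy : y ∈ U) (hne : J 6 (Z ∩ π ⁻¹' {y}) oV (F.pull q w) ≠ 0)
    (hFF : Sub 24 FF) {πF : EU → EF} {p₁ p₂ : EF → F'}
    (sπF : SMap U FF πF) (s₁ : SMap FF S p₁) (s₂ : SMap FF S p₂)
    {ν : EF → Ext EF} (sν : Sm FF ν) (dν : Hom 15 ν)
    (hν : Eqv FF (F.d ν) (F.pull p₁ om * F.pull p₁ om + F.pull p₁ om * F.pull p₂ om +
      F.pull p₂ om * F.pull p₂ om))
    {θ : EU → Ext EU} (sθ : Sm U θ) (dθ : Hom 7 θ)
    (hθ : Eqv U (F.d θ) (F.pull πF (F.pull p₁ om - F.pull p₂ om)))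
    (hf0 : ∀ u ∈ U, f0 u = p₁ (πF u)) :
    8 * l ^ 2 * J 31 U oU (α * F.pull j (e * x * x * p)) =
      J 31 U oU (θ * F.pull πF (F.pull p₁ om * F.pull p₁ om * F.pull p₂ om)) := by
  obtain ⟨κ, k1, k2, k3, k4⟩ := eval hπ.cloX hoU hFF hS sπF s₁ s₂ hom sν dν hν sθ dθ hθ sf0 hf0
  have := main hπ hUc hoU dU hoV hoZ hY hB hS sq sρ sj hc sα dα he hx hp hα hw h1 h2 hom sfY h3
    sf0 hF hm hF0 hF1 k1 k2 k3 hy hne
  rw [k4] at this
  linarith

end Crest.Agent.R208.SO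
end
end

-- ▼ part R208/SR1
section

/-! Row 208, case (k, n) = (8, 16), block (R) (helper638).  SR1: from the relations between closed
forms on the manifold of geodesics to relations between numbers. -/

set_option autoImplicit false
set_option linter.unusedSectionVars false

open MeasureTheory Set Filter Topology Module
open scoped ContDiff
open Crest.Agent.R208.F Crest.Agent.R208.FI Crest.Agent.R208.CW Crest.Agent.R208.T
open Crest.Agent.R208.SO (CF2)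

noncomputable section

namespace Crest.Agent.R208.SR

/-! ### the ring level -/

/-- **the pairings** `∫ e^(15-4j) x^j` from the relations; `s = 2 ∫ e x² p`. -/
theorem rels {A : Type*} [CommRing A] [Algebra ℝ A] (I : A →ₗ[ℝ] ℝ) {e x p : A} {a b s : ℝ}
    (h12 : (12 : ℝ) • x ^ 2 + e ^ 2 * p = 0) (h3 : I (e ^ 3 * x ^ 3) = 0)
    (hp : p = a • e ^ 6 + b • (e ^ 2 * x)) (hs : 2 * I (e * x ^ 2 * p) = s) (hs0 : s ≠ 0) :
    a ≠ 0 ∧ I (e ^ 7 * x ^ 2) = s / (2 * a) ∧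
      I (e ^ 11 * x) = -(b * s) / (2 * a ^ 2) ∧ I (e ^ 15) = s * (b ^ 2 - 12 * a) / (2 * a ^ 3) := by
  have e1 : e * x ^ 2 * p = a • (e ^ 7 * x ^ 2) + b • (e ^ 3 * x ^ 3) := by
    rw [hp]; simp only [Algebra.smul_def]; ring
  have e2 : a * I (e ^ 7 * x ^ 2) = s / 2 := by
    have := hs
    rw [e1, map_add, map_smul, map_smul, h3, smul_zero, add_zero, smul_eq_mul] at this
    linarith
  have ha : a ≠ 0 := by
    rintro rfl
    rw [zero_mul] at e2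
    exact hs0 (by linarith)
  have e3 : I (e ^ 7 * x ^ 2) = s / (2 * a) := by
    field_simp
    linarith
  have e4 : (12 : ℝ) • x ^ 2 + a • e ^ 8 + b • (e ^ 4 * x) = 0 := by
    rw [← h12, hp]; simp only [Algebra.smul_def]; ring
  have e5 : (12 : ℝ) * I (e ^ 3 * x ^ 3) + a * I (e ^ 11 * x) + b * I (e ^ 7 * x ^ 2) = 0 := by
    have := congrArg (fun z => I (e ^ 3 * x * z)) e4
    simp only [mul_zero, map_zero] at this
    rw [← this]
    have : e ^ 3 * x * ((12 : ℝ) • x ^ 2 + a • e ^ 8 + b • (e ^ 4 * x)) =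
        (12 : ℝ) • (e ^ 3 * x ^ 3) + a • (e ^ 11 * x) + b • (e ^ 7 * x ^ 2) := by
      simp only [Algebra.smul_def]; ring
    rw [this, map_add, map_add, map_smul, map_smul, map_smul]
    simp only [smul_eq_mul]
  have e6 : (12 : ℝ) * I (e ^ 7 * x ^ 2) + a * I (e ^ 15) + b * I (e ^ 11 * x) = 0 := by
    have := congrArg (fun z => I (e ^ 7 * z)) e4
    simp only [mul_zero, map_zero] at this
    rw [← this]
    have : e ^ 7 * ((12 : ℝ) • x ^ 2 + a • e ^ 8 + b • (e ^ 4 * x)) =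
        (12 : ℝ) • (e ^ 7 * x ^ 2) + a • e ^ 15 + b • (e ^ 11 * x) := by
      simp only [Algebra.smul_def]; ring
    rw [this, map_add, map_add, map_smul, map_smul, map_smul]
    simp only [smul_eq_mul]
  rw [h3, mul_zero, zero_add, e3] at e5
  have e7 : I (e ^ 11 * x) = -(b * s) / (2 * a ^ 2) := by
    have h : a * I (e ^ 11 * x) = -(b * (s / (2 * a))) := by linarith
    rw [eq_div_iff (by positivity)]
    have h' : 2 * a * (b * (s / (2 * a))) = b * s := by field_simp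
    have h2 : I (e ^ 11 * x) * (2 * a ^ 2) = 2 * a * (a * I (e ^ 11 * x)) := by ring
    rw [h2, h, mul_neg, h']
  refine ⟨ha, e3, e7, ?_⟩
  rw [e3, e7] at e6
  have h : a * I (e ^ 15) = -(12 * (s / (2 * a))) - b * (-(b * s) / (2 * a ^ 2)) := by linarith
  rw [eq_div_iff (by positivity)]
  have h' : 2 * a ^ 2 * (-(12 * (s / (2 * a))) - b * (-(b * s) / (2 * a ^ 2))) =
      s * (b ^ 2 - 12 * a) := by
    field_simp
    ring
  rw [← h', ← h]; ring

/-! ### integration as a real functional on classes -/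

section cls
variable {E : Type*} [NormedAddCommGroup E] [NormedSpace ℝ E] [FiniteDimensional ℝ E]
  {X : Set E} {o : E → Ext E} {n : ℕ}

/-- the real part of the integral -/
def RI (hX : Clo n X) (ho : Ori n X o) : CW.H X →ₗ[ℝ] ℝ :=
  Complex.reLm ∘ₗ (integ hX ho).restrictScalars ℝ

theorem RI_rcl (hX : Clo n X) (ho : Ori n X o) {a : E → Ext E} (h : EC X a) :
    RI hX ho (rcl h) = J n X o a := by
  rw [RI, LinearMap.comp_apply, LinearMap.restrictScalars_apply, rcl, integ_cls]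
  rfl

theorem CF2.ec {p : ℕ} {a : E → Ext E} (h : CF2 X p a) : EC X a := by
  obtain ⟨j, hj⟩ := h.even
  have hd : Hom (2 * j) a := by have := h.hom; rwa [hj, ← two_mul] at this
  exact EC.of_hom h.sm h.cl hd

theorem rcl_smulR (r : ℝ) {a : E → Ext E} (ha : EC X a) : rcl (ha.smul r) = r • rcl ha := by
  rw [rcl_smul]; rfl

/-- the class of a closed homogeneous form of even degree -/
def cl {p : ℕ} {a : E → Ext E} (h : CF2 X p a) : CW.H X := rcl (CF2.ec h)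

theorem cl_mul {p q : ℕ} {a b : E → Ext E} (ha : CF2 X p a) (hb : CF2 X q b)
    (hab : CF2 X (p + q) (a * b)) : cl hab = cl ha * cl hb := rcl_mul _ _

theorem cl_add {p : ℕ} {a b : E → Ext E} (ha : CF2 X p a) (hb : CF2 X p b)
    (hab : CF2 X p (a + b)) : cl hab = cl ha + cl hb := rcl_add _ _

theorem cl_smul {p : ℕ} (r : ℝ) {a : E → Ext E} (ha : CF2 X p a) (hra : CF2 X p (r • a)) :
    cl hra = r • cl ha := rcl_smulR r _

theorem cl_eq {p q : ℕ} {a b : E → Ext E} (ha : CF2 X p a) (hb : CF2 X q b) :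
    cl ha = cl hb ↔ Coh X a b := rcl_eq_iff _ _

theorem cl_eq_zero {p : ℕ} {a : E → Ext E} (ha : CF2 X p a) : cl ha = 0 ↔ Coh X a 0 :=
  rcl_eq_zero_iff _

theorem RI_cl (hX : Clo n X) (ho : Ori n X o) {p : ℕ} {a : E → Ext E} (h : CF2 X p a) :
    RI hX ho (cl h) = J n X o a := RI_rcl hX ho _

/-- **(R)**: the numbers of the case `(8, 2)` from closed forms on `B`. -/
theorem out {oB : E → Ext E} (hB : Clo 30 X) (ho : Ori 30 X oB) {e x p : E → Ext E}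
    (he : CF2 X 2 e) (hx : CF2 X 8 x) (hp : CF2 X 12 p) {l cx cw a b s : ℝ} (hcx : cx ≠ 0)
    (hcw : cw ≠ 0) (hl : (4 * Real.pi * l * cw) ^ 2 = cx ^ 2)
    (h1 : Coh X ((3 : ℝ) • (x * x) + (l ^ 2) • (e * e * p)) 0)
    (h2 : J 30 X oB (e * e * e * x * x * x) = 0)
    (hab : ((cw ^ 2)⁻¹ : ℝ) • cl hp = a • ((2 * Real.pi)⁻¹ • cl he) ^ 6 +
      b • (((2 * Real.pi)⁻¹ • cl he) ^ 2 * (cx⁻¹ • cl hx)))
    (hS : 8 * l ^ 2 * (2 * Real.pi * J 30 X oB (e * x * x * p)) = s * cx ^ 4) (hs : s ≠ 0)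
    {e' x' p' : CW.H X} (ee : e' = (2 * Real.pi)⁻¹ • cl he) (ex : x' = cx⁻¹ • cl hx)
    (ep : p' = (cw ^ 2)⁻¹ • cl hp) :
    (12 : ℝ) • x' ^ 2 + e' ^ 2 * p' = 0 ∧ p' = a • e' ^ 6 + b • (e' ^ 2 * x') ∧
      2 * RI hB ho (e' * x' ^ 2 * p') = s ∧ RI hB ho (e' ^ 3 * x' ^ 3) = 0 ∧ a ≠ 0 ∧
      RI hB ho (e' ^ 7 * x' ^ 2) = s / (2 * a) ∧
      RI hB ho (e' ^ 11 * x') = -(b * s) / (2 * a ^ 2) ∧
      RI hB ho (e' ^ 15) = s * (b ^ 2 - 12 * a) / (2 * a ^ 3) := by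
  have hπ : (2 * Real.pi) ≠ 0 := by positivity
  have e1 : cl he = (2 * Real.pi) • e' := by rw [ee, smul_smul, mul_inv_cancel₀ hπ, one_smul]
  have x1 : cl hx = cx • x' := by rw [ex, smul_smul, mul_inv_cancel₀ hcx, one_smul]
  have p1 : cl hp = (cw ^ 2) • p' := by
    rw [ep, smul_smul, mul_inv_cancel₀ (pow_ne_zero 2 hcw), one_smul]
  have hxx : CF2 X 16 (x * x) := hx.mul hx
  have hee : CF2 X 4 (e * e) := he.mul he
  have heep : CF2 X 16 (e * e * p) := hee.mul hp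
  have b1 : CF2 X 6 (e * e * e) := hee.mul he
  have b2 : CF2 X 14 (e * e * e * x) := b1.mul hx
  have b3 : CF2 X 22 (e * e * e * x * x) := b2.mul hx
  have b4 : CF2 X 30 (e * e * e * x * x * x) := b3.mul hx
  have hex : CF2 X 10 (e * x) := he.mul hx
  have hexx : CF2 X 18 (e * x * x) := hex.mul hx
  have hexxp : CF2 X 30 (e * x * x * p) := hexx.mul hp
  have q1 : (12 : ℝ) • x' ^ 2 + e' ^ 2 * p' = 0 := by
    have h3 : CF2 X 16 ((3 : ℝ) • (x * x) + (l ^ 2) • (e * e * p)) :=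
      (hxx.smul 3).add (heep.smul (l ^ 2))
    have h4 := (cl_eq_zero h3).2 h1
    rw [cl_add (hxx.smul 3) (heep.smul (l ^ 2)) h3, cl_smul _ hxx (hxx.smul 3),
      cl_smul _ heep (heep.smul (l ^ 2)), cl_mul hx hx hxx, cl_mul hee hp heep,
      cl_mul he he hee, e1, x1, p1] at h4
    have h5 : (4 * (cx ^ 2)⁻¹ : ℝ) • ((3 : ℝ) • (cx • x' * cx • x') + (l ^ 2) •
        ((2 * Real.pi) • e' * (2 * Real.pi) • e' * (cw ^ 2) • p')) =
        (12 * (cx ^ 2 * (cx ^ 2)⁻¹) : ℝ) • x' ^ 2 +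
          ((4 * Real.pi * l * cw) ^ 2 * (cx ^ 2)⁻¹) • (e' ^ 2 * p') := by
      simp only [smul_add, smul_mul_assoc, mul_smul_comm, smul_smul]
      rw [pow_two x', pow_two e']
      congr 2 <;> ring
    rw [h4, smul_zero, hl, mul_inv_cancel₀ (pow_ne_zero 2 hcx), mul_one, one_smul] at h5
    exact h5.symm
  have q2 : RI hB ho (e' ^ 3 * x' ^ 3) = 0 := by
    rw [← RI_cl hB ho b4, cl_mul b3 hx b4, cl_mul b2 hx b3, cl_mul b1 hx b2, cl_mul hee he b1,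
      cl_mul he he hee, e1, x1] at h2
    have h5 : (2 * Real.pi) • e' * (2 * Real.pi) • e' * (2 * Real.pi) • e' * cx • x' * cx • x' *
        cx • x' = ((2 * Real.pi) ^ 3 * cx ^ 3) • (e' ^ 3 * x' ^ 3) := by
      simp only [smul_mul_assoc, mul_smul_comm, smul_smul]
      rw [show e' * e' * e' * x' * x' * x' = e' ^ 3 * x' ^ 3 by ring]
      congr 1; ring
    rw [h5, map_smul, smul_eq_mul] at h2
    exact (mul_eq_zero.1 h2).resolve_left
      (mul_ne_zero (pow_ne_zero 3 hπ) (pow_ne_zero 3 hcx))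
  have q3 : p' = a • e' ^ 6 + b • (e' ^ 2 * x') := by rw [ep, ee, ex]; exact hab
  have q4 : 2 * RI hB ho (e' * x' ^ 2 * p') = s := by
    have h4 : J 30 X oB (e * x * x * p) = (2 * Real.pi * cx ^ 2 * cw ^ 2) *
        RI hB ho (e' * x' ^ 2 * p') := by
      rw [← RI_cl hB ho hexxp, cl_mul hexx hp hexxp, cl_mul hex hx hexx, cl_mul he hx hex, e1, x1,
        p1]
      have h5 : (2 * Real.pi) • e' * cx • x' * cx • x' * (cw ^ 2) • p' =
          (2 * Real.pi * cx ^ 2 * cw ^ 2) • (e' * x' ^ 2 * p') := by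
        simp only [smul_mul_assoc, mul_smul_comm, smul_smul]
        rw [show e' * x' * x' * p' = e' * x' ^ 2 * p' by ring]
        congr 1; ring
      rw [h5, map_smul, smul_eq_mul]
    rw [h4] at hS
    have h6 : 8 * l ^ 2 * (2 * Real.pi * (2 * Real.pi * cx ^ 2 * cw ^ 2 *
        RI hB ho (e' * x' ^ 2 * p'))) = (4 * Real.pi * l * cw) ^ 2 * cx ^ 2 *
        (2 * RI hB ho (e' * x' ^ 2 * p')) := by ring
    rw [h6, hl] at hS
    have h7 : cx ^ 2 * cx ^ 2 ≠ 0 := mul_ne_zero (pow_ne_zero 2 hcx) (pow_ne_zero 2 hcx)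
    refine mul_left_cancel₀ h7 ?_
    rw [hS]; ring
  exact ⟨q1, q3, q4, q2, rels (RI hB ho) q1 q2 q3 q4 hs⟩

end cls

end Crest.Agent.R208.SR
end
end

-- ▼ part R208/SR2
section

/-! Row 208, case (k, n) = (8, 16), block (R) (helper638).  SR2: `∫_B e³ x³ = 0`. -/

set_option autoImplicit false
set_option linter.unusedSectionVars false

open MeasureTheory Set Filter Topology Module
open scoped ContDiff
open Crest.Agent.R208.F Crest.Agent.R208.FI Crest.Agent.R208.CW Crest.Agent.R208.T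
open Crest.Agent.R208.SO (CF2 Conn fib eqv_pull_pull' J_eqv resZero_of_gt)

noncomputable section

namespace Crest.Agent.R208.SR

universe u

variable {EZ : Type u} [NormedAddCommGroup EZ] [NormedSpace ℝ EZ] [FiniteDimensional ℝ EZ]
  {EU : Type*} [NormedAddCommGroup EU] [NormedSpace ℝ EU] [FiniteDimensional ℝ EU]
  {EY : Type*} [NormedAddCommGroup EY] [NormedSpace ℝ EY] [FiniteDimensional ℝ EY]
  {EB : Type*} [NormedAddCommGroup EB] [NormedSpace ℝ EB] [FiniteDimensional ℝ EB]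
  {F' : Type*} [NormedAddCommGroup F'] [NormedSpace ℝ F'] [FiniteDimensional ℝ F']

/-- the ring identity -/
theorem cube_ring {C : Type*} [CommRing C] [Algebra ℝ C] {E X P W : C} {l : ℝ}
    (h1 : (3 : ℝ) • (X * X) + (l ^ 2) • (E * E * P) = 0) (h2 : W * W = P)
    (h3 : (X + l • (E * W)) ^ 3 = 0)
    (h4 : (3 * l : ℝ) • (E ^ 4 * X ^ 2 * P) + (l ^ 3) • (E ^ 6 * P ^ 2) = 0) :
    E * E * E * X * X * X * W = 0 := by
  have key : (8 : ℝ) • (E * E * E * X * X * X * W) = 0 := by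
    simp only [Algebra.smul_def, map_mul, map_pow, map_ofNat] at h1 h3 h4 ⊢
    generalize algebraMap ℝ C l = L at *
    linear_combination (3 * E ^ 3 * X * W) * h1 - (E ^ 3 * W) * h3 + h4 +
      (3 * L ^ 2 * E ^ 5 * X * W + 3 * L * E ^ 4 * X ^ 2 + L ^ 3 * E ^ 6 * (W ^ 2 + P)) * h2
  have := congrArg (fun z => (8 : ℝ)⁻¹ • z) key
  simpa [smul_smul] using this

set_option maxHeartbeats 1000000 in
/-- **`∫ α ∧ j^*(e³ x³) = 0`**, hypotheses of `SO.final`. -/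
theorem x3_zero {U : Set EU} {Z : Set EZ} {Y : Set EY} {B : Set EB} {S : Set F'}
    {oU : EU → Ext EU} {oV : EZ → Ext EZ} {π : EZ → EU} {q : EZ → EY} {ρ : EY → EB} {j : EU → EB}
    (hπ : Subm 6 31 Z U π) (hUc : IsPreconnected U) (hoU : Ori 31 U oU) (dU : Hom 31 oU)
    (hoV : ContinuousOn oV Z) (hoZ : Ori 37 Z (oV * F.pull π oU))
    (hY : Sub 36 Y) (hB : Sub 30 B) (hS : Sub 16 S)
    (sq : SMap Z Y q) (sρ : SMap Y B ρ) (sj : SMap U B j) (hc : ∀ z ∈ Z, ρ (q z) = j (π z))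
    {α : EU → Ext EU} (sα : Sm U α) (dα : Hom 1 α) {e x p : EB → Ext EB} (he : CF2 B 2 e)
    (hx : CF2 B 8 x) (hp : CF2 B 12 p) (hα : Eqv U (F.d α) (F.pull j e))
    {w : EY → Ext EY} (hw : CF2 Y 6 w) {l : ℝ}
    (h1 : Coh B ((3 : ℝ) • (x * x) + (l ^ 2) • (e * e * p)) 0)
    (h2 : Coh Y (w * w) (F.pull ρ p))
    {om : F' → Ext F'} (hom : CF2 S 8 om) {fY : EY → F'} (sfY : SMap Y S fY)
    (h3 : Coh Y (F.pull fY om) (F.pull ρ x + l • (F.pull ρ e * w)))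
    {y : EU} (hy : y ∈ U) (hne : J 6 (Z ∩ π ⁻¹' {y}) oV (F.pull q w) ≠ 0) :
    J 31 U oU (α * F.pull j (e * e * e * x * x * x)) = 0 := by
  set oZ : EZ → Ext EZ := oV * F.pull π oU with hoZd
  have sπ : SMap Z U π := ⟨hπ.smooth, hπ.mapsTo⟩
  have cZ : Clo 37 Z := hπ.cloZ
  have hconn : Conn 36 Z oZ Y q (F.pull π α) (F.pull ρ e) :=
    { clo := cZ
      ori := hoZ
      sub := hY
      map := sq
      sα := sα.pull sπ
      hα := dα.pull
      sF := he.sm.pull sρ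
      cF := he.cl.pull sρ he.sm
      hF := he.hom.pull
      dα := by
        refine (d_pull_eqv sπ sα).trans ((hα.pull sπ).trans ?_)
        exact (eqv_pull_pull' sq sρ sπ sj hc e).symm }
  have ex : CF2 Y 8 (F.pull ρ x) := hx.pull sρ
  have ee : CF2 Y 2 (F.pull ρ e) := he.pull sρ
  have ep : CF2 Y 12 (F.pull ρ p) := hp.pull sρ
  have ha : CF2 Y 8 (F.pull fY om) := hom.pull sfY
  -- classes
  have x2 : CF2 Y 16 (F.pull ρ x * F.pull ρ x) := ex.mul ex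
  have e2 : CF2 Y 4 (F.pull ρ e * F.pull ρ e) := ee.mul ee
  have e2p : CF2 Y 16 (F.pull ρ e * F.pull ρ e * F.pull ρ p) := e2.mul ep
  have ew : CF2 Y 8 (F.pull ρ e * w) := ee.mul hw
  have w2 : CF2 Y 12 (w * w) := hw.mul hw
  have k1 : (3 : ℝ) • (cl ex * cl ex) + (l ^ 2) • (cl ee * cl ee * cl ep) = 0 := by
    have h4 := h1.pull sρ
    rw [pull_add', pull_smul', pull_smul', pull_mul', pull_mul', pull_mul', pull_zero'] at h4
    have h5 : CF2 Y 16 ((3 : ℝ) • (F.pull ρ x * F.pull ρ x) +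
      (l ^ 2) • (F.pull ρ e * F.pull ρ e * F.pull ρ p)) := (x2.smul _).add (e2p.smul _)
    have h6 := (cl_eq_zero h5).2 h4
    rw [cl_add (x2.smul 3) (e2p.smul (l ^ 2)) h5, cl_smul _ x2, cl_smul _ e2p,
      cl_mul ex ex x2, cl_mul e2 ep e2p, cl_mul ee ee e2] at h6
    exact h6
  have k2 : cl hw * cl hw = cl ep := by
    rw [← cl_mul hw hw w2]
    exact (cl_eq w2 ep).2 h2
  have k3 : cl ha = cl ex + l • (cl ee * cl hw) := by
    rw [← cl_mul ee hw ew, ← cl_smul l ew (ew.smul l), ← cl_add ex (ew.smul l)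
      (ex.add (ew.smul l))]
    exact (cl_eq _ _).2 h3
  have k4 : cl ha ^ 3 = 0 := by
    have a2 : CF2 Y 16 (F.pull fY om * F.pull fY om) := ha.mul ha
    have a3 : CF2 Y 24 (F.pull fY om * F.pull fY om * F.pull fY om) := a2.mul ha
    have : cl a3 = 0 := (cl_eq_zero a3).2 (by
      refine Coh.of_eqv ?_
      rw [← pull_mul', ← pull_mul']
      exact resZero_iff.1 (T.ResZero.pull sfY (resZero_of_gt hS
        ((hom.mul hom).mul hom).hom (by norm_num))))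
    rw [pow_three', ← cl_mul ha ha a2, ← cl_mul a2 ha a3]
    exact this
  -- pull-backs from `B` of degree `36`
  have up : ∀ {a : EB → Ext EB} (h : CF2 B 36 a), Coh Y (F.pull ρ a) 0 := fun h =>
    Coh.of_eqv (resZero_iff.1 (T.ResZero.pull sρ (resZero_of_gt hB h.hom (by norm_num))))
  have b1 : CF2 Y 36 (F.pull ρ e * F.pull ρ e * F.pull ρ e * F.pull ρ e * F.pull ρ x *
      F.pull ρ x * F.pull ρ p) := (((((ee.mul ee).mul ee).mul ee).mul ex).mul ex).mul ep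
  have k5 : cl ee ^ 4 * cl ex ^ 2 * cl ep = 0 := by
    have h5 : cl b1 = 0 := (cl_eq_zero b1).2 (by
      have := up ((((((he.mul he).mul he).mul he).mul hx).mul hx).mul hp)
      rwa [pull_mul', pull_mul', pull_mul', pull_mul', pull_mul', pull_mul'] at this)
    rw [cl_mul ((((((ee.mul ee).mul ee).mul ee).mul ex).mul ex)) ep b1,
      cl_mul (((((ee.mul ee).mul ee).mul ee).mul ex)) ex, cl_mul ((((ee.mul ee).mul ee).mul ee)) ex,
      cl_mul (((ee.mul ee).mul ee)) ee, cl_mul ((ee.mul ee)) ee, cl_mul ee ee] at h5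
    rw [← h5]; ring
  have b2 : CF2 Y 36 (F.pull ρ e * F.pull ρ e * F.pull ρ e * F.pull ρ e * F.pull ρ e *
      F.pull ρ e * F.pull ρ p * F.pull ρ p) :=
    ((((((ee.mul ee).mul ee).mul ee).mul ee).mul ee).mul ep).mul ep
  have k6 : cl ee ^ 6 * cl ep ^ 2 = 0 := by
    have h5 : cl b2 = 0 := (cl_eq_zero b2).2 (by
      have := up (((((((he.mul he).mul he).mul he).mul he).mul he).mul hp).mul hp)
      rwa [pull_mul', pull_mul', pull_mul', pull_mul', pull_mul', pull_mul', pull_mul'] at this)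
    rw [cl_mul (((((((ee.mul ee).mul ee).mul ee).mul ee).mul ee).mul ep)) ep b2,
      cl_mul ((((((ee.mul ee).mul ee).mul ee).mul ee).mul ee)) ep,
      cl_mul (((((ee.mul ee).mul ee).mul ee).mul ee)) ee, cl_mul ((((ee.mul ee).mul ee).mul ee)) ee,
      cl_mul (((ee.mul ee).mul ee)) ee, cl_mul ((ee.mul ee)) ee, cl_mul ee ee] at h5
    rw [← h5]; ring
  have k7 : cl ee * cl ee * cl ee * cl ex * cl ex * cl ex * cl hw = 0 := by
    refine cube_ring k1 k2 (by rw [← k3]; exact k4) ?_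
    rw [k5, k6, smul_zero, smul_zero, add_zero]
  have b3 : CF2 Y 30 (F.pull ρ e * F.pull ρ e * F.pull ρ e * F.pull ρ x * F.pull ρ x *
      F.pull ρ x) := ((((ee.mul ee).mul ee).mul ex).mul ex).mul ex
  have b4 : CF2 Y 36 (F.pull ρ e * F.pull ρ e * F.pull ρ e * F.pull ρ x * F.pull ρ x *
      F.pull ρ x * w) := b3.mul hw
  have k8 : Coh Y (F.pull ρ e * F.pull ρ e * F.pull ρ e * F.pull ρ x * F.pull ρ x *
      F.pull ρ x * w) 0 := by
    refine (cl_eq_zero b4).1 ?_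
    rw [cl_mul b3 hw b4, cl_mul ((((ee.mul ee).mul ee).mul ex).mul ex) ex b3,
      cl_mul (((ee.mul ee).mul ee).mul ex) ex, cl_mul ((ee.mul ee).mul ee) ex,
      cl_mul (ee.mul ee) ee, cl_mul ee ee]
    exact k7
  -- integrate
  have l1 : J 37 Z oZ (F.pull π α * F.pull q (F.pull ρ e * F.pull ρ e * F.pull ρ e * F.pull ρ x *
      F.pull ρ x * F.pull ρ x * w)) = J 37 Z oZ (F.pull π α * F.pull q 0) :=
    hconn.coh b4.sm Sm.zero b4.hom Hom.zero (by norm_num) k8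
  have l2 : J 37 Z oZ (F.pull π α * F.pull q 0) = 0 := by
    rw [pull_zero', mul_zero]; exact J_zero
  have hev : CF2 Z 6 (F.pull q w) := hw.pull sq
  have heee : CF2 B 30 (e * e * e * x * x * x) :=
    ((((he.mul he).mul he).mul hx).mul hx).mul hx
  have l3 : Eqv Z (F.pull π α * F.pull q (F.pull ρ e * F.pull ρ e * F.pull ρ e * F.pull ρ x *
      F.pull ρ x * F.pull ρ x * w))
      (F.pull q w * F.pull π (α * F.pull j (e * e * e * x * x * x))) := by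
    rw [pull_mul' q, pull_mul' π]
    have c1 : F.pull q w * (F.pull π α * F.pull π (F.pull j (e * e * e * x * x * x))) =
        F.pull π α * (F.pull π (F.pull j (e * e * e * x * x * x)) * F.pull q w) := by
      rw [hev.comm, mul_assoc]
    rw [c1]
    have c2 : F.pull ρ e * F.pull ρ e * F.pull ρ e * F.pull ρ x * F.pull ρ x * F.pull ρ x =
        F.pull ρ (e * e * e * x * x * x) := by
      rw [pull_mul', pull_mul', pull_mul', pull_mul', pull_mul']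
    rw [c2]
    exact (Eqv.refl _).mul ((eqv_pull_pull' sq sρ sπ sj hc _).mul (Eqv.refl _))
  have l4 : J 37 Z oZ (F.pull q w * F.pull π (α * F.pull j (e * e * e * x * x * x))) =
      J 6 (Z ∩ π ⁻¹' {y}) oV (F.pull q w) *
        J 31 U oU (α * F.pull j (e * e * e * x * x * x)) :=
    fib (by norm_num) hπ hUc hoU dU hoV hoZ hev.sm hev.cl
      (sα.mul (heee.sm.pull sj)) (dα.mul heee.hom.pull) hy
  rw [J_eqv cZ l3, l4, l2] at l1
  exact (mul_eq_zero.1 l1).resolve_left hne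

end Crest.Agent.R208.SR
end
end

-- ▼ part R208/SR3
section

/-! Row 208, case (k, n) = (8, 16), block (R) (helper638).  SR3: **(R)** over the manifold of
geodesics: `∫_B e³ x³ = 0` and `|8 l² 2π ∫_B e x² p₃| = τ⁴`. -/

set_option autoImplicit false
set_option linter.unusedSectionVars false
set_option linter.unusedVariables false

open MeasureTheory Set Filter Topology Module
open scoped ContDiff RealInnerProductSpace
open Crest.GeometryTopology.Submanifold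
open Crest.Agent.R241.DDefs
open Crest.Agent.R241.D2
open Crest.Agent.R208.F Crest.Agent.R208.FI Crest.Agent.R208.CW Crest.Agent.R208.T
open Crest.Agent.R208.CM
open Crest.Agent.R208.SO (CF2)
open Crest.Agent.R208.L (US)
open Crest.Agent.R208.LB (oUS al)
open Crest.Agent.R208.NN (Wt Rt nuP)
open Crest.Agent.R208.FL (Af Ph)
open Crest.Agent.R208.EW (cR)

noncomputable section

namespace Crest.Agent.R208.SR

theorem hom_al {N : ℕ} : T.Hom 1 (al (N := N)) := fun z => isDeg_io _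

theorem hom_oUS {N : ℕ} : T.Hom 31 (oUS 16 N) := by
  rw [← CM.oUS_eq (n := 16) (N := N)]
  exact (hom_al (N := N)).mul (T.Hom.pow (hom_al (N := N)).d 15)

section inst

variable {N K m pp : ℕ} {κ : ℝ} {S : Set (Euc N)} {G : Geo 16 N κ S}
  {ι : Type} [Fintype ι] [DecidableEq ι]
  {W₀ : Euc N × Euc N → (ι × Fin 2 → Fin N) → ℝ} {p₀ : Euc N} {x : Euc N → Ext (Euc N)}
  {lg : Euc N → Euc N → Euc N} {ρ : Euc N → Euc N} {r C r' Kr Bb w δ ε E₀ η₀ : ℝ} {J₀ : ℕ}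
  {PN : Euc N × Euc N → Wt N K →L[ℝ] Wt N K}
  {g : Euc N × Euc N → Fin m → ℂ} {Fc x0 : MM m → Ext (MM m)}
  {Tr : Euc N × Euc N → Wt N K →L[ℝ] EuclideanSpace ℝ (Fin pp)}
  {P' : MM m → EuclideanSpace ℝ (Fin pp) →L[ℝ] EuclideanSpace ℝ (Fin pp)}
  {oP' : MM m → Ext (EuclideanSpace ℝ (Fin pp))}
  {fY : MM m × EuclideanSpace ℝ (Fin pp) → Euc N}

set_option maxHeartbeats 2000000 in
/-- **(R)** -/
theorem rel82 (h : FL.D1 G 8 K lg ρ r C r' Kr Bb w δ PN ε J₀ E₀ η₀)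
    (D : T.XM h.bla 2 W₀ p₀ x) (hg : Emb (US G) (gf G) g)
    (hc : Curv (US G) g (al (N := N)) Fc)
    (hT : Triv (US G) (gf G) (fun t => Rt (nuP K) t) Tr)
    (hdP : ∀ z ∈ US G, P' (jj g z) = Qd Tr PN z)
    (hod : SB.OddB (Fin 3) (Quo (US G) g) 6 P' oP')
    (hx0 : CF2 (Quo (US G) g) 8 x0) {l t3 : ℝ} (ht3 : t3 = 2304)
    (hrel : Coh (Quo (US G) g) ((3 : ℝ) • (x0 * x0) + (l ^ 2) • ((t3 • cR 6 P') * (Fc * Fc))) 0)
    (sfY : SMap (Sph (Quo (US G) g) P') S fY)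
    (hfY : ∀ z ∈ Sph (US G) PN, fY (Th (jj g) Tr z) = Af G lg ρ w J₀ ε (z, 1))
    (h3 : Coh (Sph (Quo (US G) g) P') (F.pull fY x)
      (F.pull Prod.fst x0 + l • (F.pull Prod.fst Fc * SB.OddB.eV (Fin 3) hod.hr P' oP'))) :
    J 30 (Quo (US G) g) (Fc ^ 15) (Fc ^ 3 * x0 ^ 3) = 0 ∧
    |8 * l ^ 2 * (2 * Real.pi * J 30 (Quo (US G) g) (Fc ^ 15)
      (Fc * x0 * x0 * (t3 • cR 6 P')))| = XF.tau ι ^ 4 := by
  have hB := h.bla.bl
  have hper : HS.Per G := h.bla.ty.per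
  have hH := h.neg
  have hUc : Clo 31 (US G) := clo_US' hB
  have hcir := cir_US hB hper
  have hUpre : IsPreconnected (US G) := FV.preconn_US hB (by norm_num)
  obtain ⟨oN, oprN⟩ := SB.exists_opr_N h.bla (by norm_num) (by norm_num) hH
  have pfN : PField (US G) 7 PN := UP.pfield_N hH
  have pfP : PField (Quo (US G) g) 7 P' := hod.pf
  have hBq : Clo 30 (Quo (US G) g) := hg.clo_Quo hcir hUc
  have sj : SMap (US G) (Quo (US G) g) (jj g) := (TP.qm_jj hg hcir hUc).smap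
  have sq : SMap (Sph (US G) PN) (Sph (Quo (US G) g) P') (Th (jj g) Tr) := HN.smap_Th sj hT hdP
  have hUne : (US G).Nonempty := T.nonempty_UST h.bla D.hp
  obtain ⟨z₀, hz₀⟩ := id hUne
  -- orientations
  have hoU : Ori 31 (US G) (oUS 16 N) := LB.ori_US (FV.sub_S hB) hB.cpt (by norm_num) (by norm_num)
  have hosZ : FG.OSubm 6 31 (Sph (US G) PN) (US G) Prod.fst (SB.oV oN) (oUS 16 N) :=
    SB.osubm_Sph hUc pfN oprN hoU hom_oUS
  have horN : Ori 6 (Sph (US G) PN ∩ Prod.fst ⁻¹' {z₀}) (SB.oV oN) := hosZ.fib z₀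
  -- the classes
  have hal : Conn (US G) (gf G) (al (N := N)) := conn_al (FV.sub_S hB)
  have he : CF2 (Quo (US G) g) 2 Fc := ⟨hc.sm, hc.cl, hc.hom, by decide⟩
  have hEC : EC (Quo (US G) g) (cR 6 P') := EW.ec_cfr hBq.sub (EW.idF_of_pfield hod.pf) 6
  have hp : CF2 (Quo (US G) g) 12 (t3 • cR 6 P') :=
    ⟨(hEC.smul _).sm, (hEC.smul _).cl, T.Hom.smul _ (fun y => EW.hom_cfr 6 y), by decide⟩
  have hw : CF2 (Sph (Quo (US G) g) P') 6 (SB.OddB.eV (Fin 3) hod.hr P' oP') :=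
    ⟨hod.ec_eV.sm, hod.ec_eV.cl, SB.OddB.hom_eV _, by decide⟩
  have hom : CF2 S 8 x := ⟨D.sx, D.cx, D.dx, by decide⟩
  have hα : Eqv (US G) (F.d (al (N := N))) (F.pull (jj g) Fc) := hc.pull.symm
  have hnE : VX.nE (Fin 3) ^ 2 = t3 := by rw [ht3]; norm_num [VX.nE, Nat.factorial]
  have h2 : Coh (Sph (Quo (US G) g) P')
      (SB.OddB.eV (Fin 3) hod.hr P' oP' * SB.OddB.eV (Fin 3) hod.hr P' oP')
      (F.pull Prod.fst (t3 • cR 6 P')) := by
    have := hod.sq_eV hBq.sub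
    rwa [hnE, ← pull_smul'] at this
  have h1 : Coh (Quo (US G) g) ((3 : ℝ) • (x0 * x0) +
      (l ^ 2) • (Fc * Fc * (t3 • cR 6 P'))) 0 := by
    rwa [(he.mul he).comm]
  -- the fibre value
  have hfibB : J 6 (Sph (Quo (US G) g) P' ∩ Prod.fst ⁻¹' {jj g z₀}) (SB.oV oP')
      (SB.OddB.eV (Fin 3) hod.hr P' oP') = 2 * XF.tau (Fin 3) := hod.J_fibre' (jj_mem hz₀)
  have horB : Ori 6 (Sph (Quo (US G) g) P' ∩ Prod.fst ⁻¹' {jj g z₀}) (SB.oV oP') := by
    rw [SB.OddB.fibre_eq (jj_mem hz₀)]; exact hod.ori_oV (jj_mem hz₀)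
  have hne : J 6 (Sph (US G) PN ∩ Prod.fst ⁻¹' {z₀}) (SB.oV oN)
      (F.pull (Th (jj g) Tr) (SB.OddB.eV (Fin 3) hod.hr P' oP')) ≠ 0 := by
    obtain ⟨k1, k2⟩ := HN.J_fib_pull sj hT hdP pfN pfP hz₀ horB hw.sm
    have hτ : 0 < XF.tau (Fin 3) := XF.tau_pos _
    rcases J_ori_connected (HN.clo_fib pfN hz₀) k1 horN
      (ZG.preconn_fib_Sph pfN (by norm_num) hz₀) with e | e
    · rw [e, k2, hfibB]; positivity
    · rw [e, k2, hfibB]
      exact neg_ne_zero.2 (by positivity)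
  -- the primitive of `p^* x²`
  have hxx : CF2 S 16 (x * x) := hom.mul hom
  have sft : SMap (US G) S (Prod.fst : Euc N × Euc N → Euc N) :=
    ⟨fun z _ => contDiffAt_fst, fun z hz => hz.1.1⟩
  obtain ⟨oS, hoS, soS, doS⟩ := GP.exists_ori hB h.bla.ty (by norm_num)
  obtain ⟨ζ, sζ, dζ, eζ, jζ⟩ := KD.exists_prim (m := 2) (d := 31) h.bla (by norm_num)
    (by norm_num) (by norm_num) (by norm_num) hoU hoS D.sx D.cx D.dx D.hm_zero'
  have e0 : F.pull (Prod.fst : Euc N × Euc N → Euc N) x ^ 2 = F.pull Prod.fst (x * x) := by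
    rw [pow_two, pull_mul']
  have j2 : (J 16 S oS (x ^ 2)) ^ 2 = XF.tau ι ^ 4 := by
    rw [← sq_abs, JW.J_S_two D hoS]; ring
  rw [e0] at eζ jζ
  rw [j2] at jζ
  set kp : Euc N × Euc N → Ext (Euc N × Euc N) := (1 / 3 : ℝ) • ζ with hkp
  have skp : Sm (US G) kp := sζ.smul _
  have dkp : T.Hom 15 kp := T.Hom.smul _ dζ
  have ekp : Eqv (US G) (F.d kp) (F.pull Prod.fst (x * x)) := by
    refine (d_smul_eqv _ sζ).trans ((eζ.smul (1 / 3 : ℝ)).trans (Eqv.of_eq fun z _ => ?_))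
    rw [smul_smul]
    norm_num
  have sal : Sm (US G) (al (N := N)) := fun z _ => LB.contDiff_al.contDiffAt
  have hJ : ∀ η : MM m → Ext (MM m), ContinuousOn η (Quo (US G) g) →
      J 31 (US G) (oUS 16 N) (al * F.pull (jj g) η) =
        2 * Real.pi * J 30 (Quo (US G) g) (Fc ^ 15) η := (J_US hB hper hg hc).2.1
  have key := SO.main (Z := Sph (US G) PN) (Y := Sph (Quo (US G) g) P') (B := Quo (US G) g)
    (S := S) hosZ.subm hUpre hoU hom_oUS hosZ.cV hosZ.tot (hod.sub_sph hBq.sub) hBq.sub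
    (FV.sub_S hB) sq T.smap_fstS sj (fun _ _ => rfl) sal hom_al he hx0 hp hα hw h1 h2 hom sfY h3
    sft (fun z hz t => h.contDiffAt_Af hz.1 t) (fun z hz t => h.Af_mem hz.1 t)
    (fun z hz => h.Af_zero hz.1 le_rfl) (fun z hz => (hfY z hz).symm) skp dkp ekp hz₀ hne
  have k3 := x3_zero (Z := Sph (US G) PN) (Y := Sph (Quo (US G) g) P') (B := Quo (US G) g)
    (S := S) hosZ.subm hUpre hoU hom_oUS hosZ.cV hosZ.tot (hod.sub_sph hBq.sub) hBq.sub
    (FV.sub_S hB) sq T.smap_fstS sj (fun _ _ => rfl) sal hom_al he hx0 hp hα hw h1 h2 hom sfY h3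
    hz₀ hne
  have cη : ContinuousOn (Fc * x0 * x0 * (t3 • cR 6 P')) (Quo (US G) g) :=
    fun y hy => ((((he.mul hx0).mul hx0).mul hp).sm y hy).continuousAt.continuousWithinAt
  have c3 : ContinuousOn (Fc * Fc * Fc * x0 * x0 * x0) (Quo (US G) g) :=
    fun y hy => ((((((he.mul he).mul he).mul hx0).mul hx0).mul hx0).sm y
      hy).continuousAt.continuousWithinAt
  rw [hJ _ cη] at key
  rw [hJ _ c3] at k3
  have jk : |J 31 (US G) (oUS 16 N) (F.pull Prod.fst (x * x) * kp)| = 1 / 3 * XF.tau ι ^ 4 := by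
    have e1 : F.pull (Prod.fst : Euc N × Euc N → Euc N) (x * x) * kp =
        (1 / 3 : ℝ) • (ζ * F.pull Prod.fst (x * x)) := by
      rw [hkp, mul_smul_comm, (hxx.pull sft).comm]
    have e2 : J 31 (US G) (oUS 16 N) ((1 / 3 : ℝ) • (ζ * F.pull Prod.fst (x * x))) =
        1 / 3 * J 31 (US G) (oUS 16 N) (ζ * F.pull Prod.fst (x * x)) := J_smul _
    rw [e1, e2, abs_mul, jζ, abs_of_pos (by norm_num : (0 : ℝ) < 1 / 3)]
  refine ⟨?_, ?_⟩
  · have h2π : 2 * Real.pi ≠ 0 := by positivity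
    have k4 := (mul_eq_zero.1 k3).resolve_left h2π
    have e3 : Fc ^ 3 * x0 ^ 3 = Fc * Fc * Fc * x0 * x0 * x0 := by
      simp only [pow_succ, pow_zero, one_mul, mul_assoc]
    rw [e3]
    exact k4
  · rw [key] at jk
    have e4 : 8 * l ^ 2 * (2 * Real.pi * J 30 (Quo (US G) g) (Fc ^ 15)
        (Fc * x0 * x0 * (t3 • cR 6 P'))) = 3 * (8 / 3 * l ^ 2 * (2 * Real.pi *
        J 30 (Quo (US G) g) (Fc ^ 15) (Fc * x0 * x0 * (t3 • cR 6 P')))) := by ring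
    rw [e4, abs_mul, jk, abs_of_pos (by norm_num : (0 : ℝ) < 3)]
    ring

/-- **(R)**, with the end value of 812's (ii) -/
theorem rel82' (h : FL.D1 G 8 K lg ρ r C r' Kr Bb w δ PN ε J₀ E₀ η₀)
    (D : T.XM h.bla 2 W₀ p₀ x) (hg : Emb (US G) (gf G) g)
    (hc : Curv (US G) g (al (N := N)) Fc)
    (hT : Triv (US G) (gf G) (fun t => Rt (nuP K) t) Tr)
    (hdP : ∀ z ∈ US G, P' (jj g z) = Qd Tr PN z)
    (hod : SB.OddB (Fin 3) (Quo (US G) g) 6 P' oP')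
    (hx0 : CF2 (Quo (US G) g) 8 x0) {l t3 : ℝ} (ht3 : t3 = 2304)
    (hrel : Coh (Quo (US G) g) ((3 : ℝ) • (x0 * x0) + (l ^ 2) • ((t3 • cR 6 P') * (Fc * Fc))) 0)
    (sfY : SMap (Sph (Quo (US G) g) P') S fY)
    (hfY : ∀ z ∈ Sph (US G) PN, fY (Th (jj g) Tr z) = FL.f1 G lg ρ w J₀ ε (z.1, (2 : ℝ) • z.2))
    (h3 : Coh (Sph (Quo (US G) g) P') (F.pull fY x)
      (F.pull Prod.fst x0 + l • (F.pull Prod.fst Fc * SB.OddB.eV (Fin 3) hod.hr P' oP'))) :
    J 30 (Quo (US G) g) (Fc ^ 15) (Fc ^ 3 * x0 ^ 3) = 0 ∧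
    |8 * l ^ 2 * (2 * Real.pi * J 30 (Quo (US G) g) (Fc ^ 15)
      (Fc * x0 * x0 * (t3 • cR 6 P')))| = XF.tau ι ^ 4 := by
  refine rel82 h D hg hc hT hdP hod hx0 ht3 hrel sfY (fun z hz => ?_) h3
  rw [hfY z hz]
  change FL.f1 G lg ρ w J₀ ε (z.1, (2 : ℝ) • z.2) = FL.f1 G lg ρ w J₀ ε (z.1, FL.gs 1 • z.2)
  rw [FL.gs_two (by norm_num)]

end inst

end Crest.Agent.R208.SR
end
end

-- ▼ part R208/ZA6
section

/-!
R208, ZA6 (helper221): **the composition of `(k, n) = (8, 16)`**: `ZG.Vol8Stmt` from the class side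
`Cls82`.
-/

set_option autoImplicit false
set_option linter.unusedSectionVars false
set_option linter.unusedVariables false

open MeasureTheory Set Filter Topology Module
open scoped ContDiff RealInnerProductSpace Real
open Crest.GeometryTopology.Submanifold
open Crest.Agent.R241.DDefs Crest.Agent.R241.D Crest.Agent.R241.D2
open Crest.Agent.R208.F Crest.Agent.R208.FI Crest.Agent.R208.CW Crest.Agent.R208.T
open Crest.Agent.R208.CM (Cir gen Rep Triv Qd phR Th gf Emb Quo MM jj Curv)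
open Crest.Agent.R208.LB (al)
open Crest.Agent.R208.VC hiding Wt
open Crest.Agent.R208.EX
open Crest.Agent.R208.FT (D2 XI RN xiN gp lev)
open Crest.Agent.R208.FL (D0 D1 Ph)
open Crest.Agent.R208.NN (Wt Rt nuP)
open Crest.Agent.R208.TP (QM TT CV pu₁ pu₂ push up)
open Crest.Agent.R208.MS (Fam oc En)
open Crest.Agent.R208.EW (cR)
open Crest.Agent.R208.EP (topr)
open Crest.Agent.R208.SN (kGG)

noncomputable section

namespace Crest.Agent.R208.ZA

section comp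
variable {N K m m' c s' c₂ : ℕ} {κ : ℝ} {S : Set (Euc N)} {G : Geo 16 N κ S}
  {lg : Euc N → Euc N → Euc N} {ρ : Euc N → Euc N} {r C r' Kr B w δ δ₂ : ℝ}
  {PN : Euc N × Euc N → Wt N K →L[ℝ] Wt N K}
  {h : GT.Bla G (2 * 3 + 2)} {g : Euc N × Euc N → Fin m → ℂ} {Fc : MM m → Ext (MM m)}
  {g' : (Euc N × Euc N) × HW.U 15 → Fin m' → ℂ} {p : MM m' → MM m}
  {T : Euc N × Euc N → Wt N K →L[ℝ] EuclideanSpace ℝ (Fin (2 * c + 1))}
  {P' : MM m → EuclideanSpace ℝ (Fin (2 * c + 1)) →L[ℝ] EuclideanSpace ℝ (Fin (2 * c + 1))}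
  {o' : MM m → Ext (EuclideanSpace ℝ (Fin (2 * c + 1)))}
  {W' : MM m → (Fin (s' + 1) × Fin 2 → Fin (2 * c + 1)) → ℝ}
  {oN : Euc N × Euc N → Ext (Wt N K)}
  {T₂ : (Euc N × Euc N) × HW.U 15 →
    EuclideanSpace ℝ (((Fin K × Fin 2) × Fin N) ⊕ ((Fin K × Fin 2) × Fin N)) →L[ℝ]
      EuclideanSpace ℝ (Fin (2 * c₂))}
  {P₂' : MM m' → EuclideanSpace ℝ (Fin (2 * c₂)) →L[ℝ] EuclideanSpace ℝ (Fin (2 * c₂))}
  {W₂' : MM m' → (Fin (2 * 3 + 1) × Fin 2 → Fin (2 * c₂)) → ℝ}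
  {ι : Type} [Fintype ι] [DecidableEq ι] {W₀ : Euc N × Euc N → (ι × Fin 2 → Fin N) → ℝ}
  {p₀ : Euc N} {x : Euc N → Ext (Euc N)}

set_option maxHeartbeats 1600000 in
/-- **the composition over the package** -/
theorem comp82 (Q : Gm82 h K 15 lg ρ r C r' Kr B w δ δ₂ PN g Fc g' p T P' o' W' oN T₂ P₂' W₂')
    (M : Crest.Agent.R208.T.XM (k := 8) h 2 W₀ p₀ x)
    (hC : ∀ (ε E₀ η : ℝ) (J : ℕ), D1 G (2 * 3 + 2) K lg ρ r C r' Kr B w δ PN ε J E₀ η →
      ∃ (x0 : MM m → Ext (MM m)) (fY : MM m × EuclideanSpace ℝ (Fin (2 * c + 1)) → Euc N)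
        (l n₁ : ℝ), Cls82 G K lg ρ w J ε PN g Fc T P' o' W' x (XF.tau ι) x0 fY l n₁) :
    |J 30 (Quo (L.US G) g) (Fc ^ 15) (Fc ^ 15)| ≤ 78 * (2 * Real.pi) ^ 15 := by
  have hpi := Real.pi_pos
  have hδ := Q.d0.neg.pos_δ
  have hδ₂ := Q.xi.pos
  have hal : CM.Conn (L.US G) (gf G) (al (N := N)) := CM.conn_al (FV.sub_S h.bl)
  have hXc : IsPreconnected (L.US G) := FV.preconn_US h.bl (by norm_num)
  have hne : (L.US G).Nonempty := Crest.Agent.R208.T.nonempty_UST h M.hp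
  -- the constants
  obtain ⟨ε, hε, hcon⟩ := Q.consts
  have hε₂ : 0 < ε / 3 := by positivity
  obtain ⟨εg, B₀, oK, hO, hB₀, hoK, hA⟩ := AK.a2_slc (s := 3) (K := K) (δ₂ := δ₂) (d := 31)
    (mK := 3 * 7 + 31) h Q.hkn Q.d0.neg Q.d0.rt hε hε₂ hδ₂ (by norm_num) (by norm_num)
  obtain ⟨E₀, η, J, h2, hη, HL, mu, Gm, hnat⟩ := hcon ε hε le_rfl (ε / 3) hε₂ (by linarith)
    (max (lev δ δ₂ ε (ε / 3)) B₀) (max_lt (FT.lev_lt hδ hδ₂ hε hε₂) hB₀)
  obtain ⟨x0, fY, l, n₁, C⟩ := hC ε E₀ η J h2.toD1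
  -- the half on `B`
  obtain ⟨b1, b2⟩ := SR.rel82' h2.toD1 M Q.emb Q.curv Q.dsc.triv Q.dsc.eqP (ZB.oddB Q.dsc)
    ⟨C.sx, C.cx, C.dx, by decide⟩ rfl C.hrel C.sfY C.efY C.hfY
  obtain ⟨q1, q2, α, β₁, ν, n₀, H⟩ := ZB.exists_BHalf' (t3 := 2304) M Q.d0.neg Q.emb
    Q.curv Q.dsc C.sx C.cx C.dx C.hx rfl C.hl C.hrel C.sfY C.hfY b1 b2
  -- the data `D`
  have hdat : Dat S x := ⟨M.sx, M.cx, fun z _ => SO.inv_of_hom_even M.dx ⟨4, rfl⟩ z,
    SO.eqv_zero_of_gt (FV.sub_S h.bl) ((M.dx.mul M.dx).mul M.dx) (by norm_num)⟩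
  have hT1 := VD.dsc_hT1 (by norm_num) Q.dsc (Q.emb.clo_Quo Q.cir Q.clo).sub
    (GQ.preconn_Quo Q.emb hXc)
  have hcls : Cls1 G K lg ρ w J ε x (al (N := N)) 11 7 (r1 l 2304 α β₁) (r2 l 2304 α β₁) PN g T P'
      W' := fun V' v1 v2 v3 v4 =>
    (C.v1 _ _ V' v1 v2 v3 v4).trans (ve_one' H.he H.hx H.hp3 H.hrel H.h3 n₁)
  obtain ⟨D, hD, d1, d2, d3, d4, d5, d6, d7⟩ := Q.exists_ED h2.toD1 hdat hT1 hcls hnat
  have hlD : lev δ δ₂ ε (ε / 3) ≤ D.B := by rw [d7]; exact le_max_left _ _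
  have hBD : B₀ ≤ D.B := by rw [d7]; exact le_max_right _ _
  have hcl2 : EA.Cls2 G K lg ρ w J ε PN g T P' W' D
      (rhsE l n₁ (r1 l 2304 α β₁) (r2 l 2304 α β₁) ((2304 : ℝ) • cR 6 P') x0 Fc) := by
    have := C.v2 D d2 d3 d4
    rwa [d5, d6] at this
  -- the half on `B'`
  have hι : Fintype.card ι = 4 := by have := M.hι; omega
  have hoU : Ori 31 (L.US G) (LB.oUS 16 N) :=
    LB.ori_US (FV.sub_S h.bl) h.bl.cpt (by norm_num) (by norm_num)
  obtain ⟨u₀, hu₀⟩ := HW.SU_nonempty (k := 15)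
  obtain ⟨u, e2, a1, a2, ε7, c₀, P⟩ := EA.primeHalf Q M (by norm_num) C.sx C.cx C.dx C.hx hD d1 d2
    h2 hη hlD d3 d4 hcl2 (HW.mem_SU.1 hu₀) hO (d := 31) (by norm_num) hoU
    (fun s₂ W₂'' V' V hs => ⟨oK, hoK, fun y sy cy dy =>
      hA hD d1 hBD h2 hη hs (hal.sm.smul (1 / 2)) (hal.hom.smul (1 / 2)) hoU y sy cy dy
        (by norm_num)⟩)
    (AN.tau_nu hι (ZB.abs_nu H.hν2)) C.hn
  exact H.bound Q.hd.smap (fun om ζ so sζ cζ h0 => Q.hd.J_eq_zero hXc hne hal (by norm_num) H.ho so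
    sζ cζ h0) P.hu P.he2 P.hua P.he2T P.hκ P.hc P.hE

/-- **`Vol8Stmt` from the class side** -/
theorem vol8_of_cls (hC : ∀ (N K m m' c s' c₂ : ℕ) (κ : ℝ) (S : Set (Euc N)) (G : Geo 16 N κ S)
      (h : GT.Bla G (2 * 3 + 2)) (lg : Euc N → Euc N → Euc N) (ρ : Euc N → Euc N)
      (r C r' Kr B w δ δ₂ : ℝ) (PN : Euc N × Euc N → Wt N K →L[ℝ] Wt N K)
      (g : Euc N × Euc N → Fin m → ℂ) (Fc : MM m → Ext (MM m))
      (g' : (Euc N × Euc N) × HW.U 15 → Fin m' → ℂ) (p : MM m' → MM m)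
      (T : Euc N × Euc N → Wt N K →L[ℝ] EuclideanSpace ℝ (Fin (2 * c + 1)))
      (P' : MM m → EuclideanSpace ℝ (Fin (2 * c + 1)) →L[ℝ] EuclideanSpace ℝ (Fin (2 * c + 1)))
      (o' : MM m → Ext (EuclideanSpace ℝ (Fin (2 * c + 1))))
      (W' : MM m → (Fin (s' + 1) × Fin 2 → Fin (2 * c + 1)) → ℝ)
      (oN : Euc N × Euc N → Ext (Wt N K))
      (T₂ : (Euc N × Euc N) × HW.U 15 →
        EuclideanSpace ℝ (((Fin K × Fin 2) × Fin N) ⊕ ((Fin K × Fin 2) × Fin N)) →L[ℝ]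
          EuclideanSpace ℝ (Fin (2 * c₂)))
      (P₂' : MM m' → EuclideanSpace ℝ (Fin (2 * c₂)) →L[ℝ] EuclideanSpace ℝ (Fin (2 * c₂)))
      (W₂' : MM m' → (Fin (2 * 3 + 1) × Fin 2 → Fin (2 * c₂)) → ℝ)
      (W₀ : Euc N × Euc N → (Fin 4 × Fin 2 → Fin N) → ℝ) (p₀ : Euc N) (x : Euc N → Ext (Euc N)),
      Gm82 h K 15 lg ρ r C r' Kr B w δ δ₂ PN g Fc g' p T P' o' W' oN T₂ P₂' W₂' →
      Crest.Agent.R208.T.XM (k := 8) h 2 W₀ p₀ x →
      ∀ (ε E₀ η : ℝ) (J : ℕ), D1 G (2 * 3 + 2) K lg ρ r C r' Kr B w δ PN ε J E₀ η →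
      ∃ (x0 : MM m → Ext (MM m)) (fY : MM m × EuclideanSpace ℝ (Fin (2 * c + 1)) → Euc N)
        (l n₁ : ℝ), Cls82 G K lg ρ w J ε PN g Fc T P' o' W' x (XF.tau (Fin 4)) x0 fY l n₁) :
    ZG.Vol8Stmt := by
  refine vol8 fun N κ S G h => ?_
  obtain ⟨K, m, m', c, s', c₂, lg, ρ, r, C, r', Kr, B, w, δ, δ₂, PN, g, Fc, g', p, T, P', o', W',
    oN, T₂, P₂', W₂', Q⟩ := exists_Gm82 (s := 3) h (by norm_num) 15
  obtain ⟨p₀, hp₀⟩ := h.bl.conn.nonempty
  have hι : 2 * Fintype.card (Fin 4) = 8 := by rw [Fintype.card_fin]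
  obtain ⟨W₀, hW₀⟩ := Crest.Agent.R208.T.exists_OR_FF h (by norm_num) (by norm_num) hι
  obtain ⟨M₀, x, M⟩ := Crest.Agent.R208.T.exists_XM h (by norm_num) (by norm_num) hι hW₀ hp₀
  obtain rfl : M₀ = 2 := by have := M.hn; omega
  exact ⟨m, g, Fc, Q.emb, Q.curv, comp82 Q M fun ε E₀ η J h1 => hC N K m m' c s' c₂ κ S G h lg ρ r C
    r' Kr B w δ δ₂ PN g Fc g' p T P' o' W' oN T₂ P₂' W₂' W₀ p₀ x Q M ε E₀ η J h1⟩

end comp

end Crest.Agent.R208.ZA
end
end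

-- ▼ part R208/SC2

/-! Row 208, block SC (helper349).  SC2: **`Vol8Stmt`**: helper221's composition ZA6 with the class
side SC1. -/

set_option autoImplicit false
set_option linter.unusedVariables false

namespace Crest.Agent.R208.SC

/-- **the volume of the manifold of geodesics for `(k, n) = (8, 16)`** -/
theorem vol8 : Crest.Agent.R208.ZG.Vol8Stmt :=
  Crest.Agent.R208.ZA.vol8_of_cls fun N K m m' c s' c₂ κ S G h lg ρ r C r' Kr B w δ δ₂ PN g Fc g' p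
      T P' o' W' oN T₂ P₂' W₂' W₀ p₀ x Q M ε E₀ η J h1 => exists_Cls82 Q M h1

end Crest.Agent.R208.SC
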