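import Crest.Agent.R208.ZA3
import Crest.Agent.R208.TP8
import Crest.Agent.R208.HY6
import Crest.Agent.R208.HG1
import Crest.Agent.R208.EW9
import Crest.Agent.R208.GQ7b_Mg
import Crest.Agent.R208.PV2
import Crest.Agent.R208.CQ2
import Crest.Agent.R208.QT4
import Crest.Agent.R208.ZG4
import Crest.Agent.R208.ZH2
import Crest.Agent.R208.TX10
import Crest.Agent.R208.AF4
import Crest.Agent.R208.VC6
import Crest.Agent.R208.TP9
import Crest.Agent.R208.EX14

-- ▼ part R208/ZB1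
section

/-! Row 208, (8,2), block ZB (helper607): the half of the hypotheses of `ZA.bound` which lives on
`B = US / S¹`.  ZB1: the coefficients `q1 q2 α β ν`. -/

set_option autoImplicit false
set_option linter.unusedSectionVars false
set_option linter.unusedVariables false

open MeasureTheory Set Filter Topology Module
open scoped ContDiff RealInnerProductSpace
open Crest.GeometryTopology.Submanifold
open Crest.Agent.R241.DDefs
open Crest.Agent.R241.D2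
open Crest.Agent.R208.F Crest.Agent.R208.FI Crest.Agent.R208.CW Crest.Agent.R208.T
open Crest.Agent.R208.CM
open Crest.Agent.R208.L (US)
open Crest.Agent.R208.LB (al)
open Crest.Agent.R208.NN (Wt Rt nuP)
open Crest.Agent.R208.EW (cR)
open Crest.Agent.R208.EP (topr)

noncomputable section

namespace Crest.Agent.R208.ZB

section xne
variable {n N k m : ℕ} {κ : ℝ} {S : Set (Euc N)} {G : Geo n N κ S} {p : Euc N}
  {ι : Type} [Fintype ι] [DecidableEq ι] {W : Euc N × Euc N → (ι × Fin 2 → Fin N) → ℝ}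
  {x : Euc N → Ext (Euc N)}

/-- `x` is not exact on the unit tangent bundle -/
theorem x_ne_US {h : GT.Bla G k} (D : T.XM h m W p x) : ¬ Coh (US G) (F.pull Prod.fst x) 0 := by
  intro h0
  rw [← FV.Sph_S] at h0
  exact D.x_ne (T.low_S h D.hk D.hne D.sx D.cx D.dx D.hkn h0)

end xne

variable {N K m c s' : ℕ} {κ δ : ℝ} {S : Set (Euc N)} {G : Geo 16 N κ S} {p : Euc N}
  {ι : Type} [Fintype ι] [DecidableEq ι] {W : Euc N × Euc N → (ι × Fin 2 → Fin N) → ℝ}
  {x : Euc N → Ext (Euc N)} {h : GT.Bla G 8} {PN : Euc N × Euc N → Wt N K →L[ℝ] Wt N K}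
  {g : Euc N × Euc N → Fin m → ℂ} {Fc x0 : MM m → Ext (MM m)}
  {Tr : Euc N × Euc N → Wt N K →L[ℝ] EuclideanSpace ℝ (Fin (2 * c + 1))}
  {P' : MM m → EuclideanSpace ℝ (Fin (2 * c + 1)) →L[ℝ] EuclideanSpace ℝ (Fin (2 * c + 1))}
  {o' : MM m → Ext (EuclideanSpace ℝ (Fin (2 * c + 1)))}
  {W' : MM m → (Fin (s' + 1) × Fin 2 → Fin (2 * c + 1)) → ℝ}

/-- **the coefficients**: `ν² = 1 / 1024` (`μ² = 36`). -/
theorem coeffs (D : T.XM h 2 W p x) (H : NB.NegB G 7 (nuP K) δ PN)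
    (hg : Emb (US G) (gf G) g) (hc : Curv (US G) g (al (N := N)) Fc)
    (hO : TP.DscO (US G) (gf G) g (fun t => Rt (nuP K) t) 3 PN c s' Tr P' o' W')
    (s0 : Sm (Quo (US G) g) x0) (c0 : Cl (Quo (US G) g) x0) (d0 : Hom 8 x0)
    (h0 : Coh (US G) (F.pull Prod.fst x) (F.pull (jj g) x0)) :
    ∃ ν q1 q2 α β : ℝ, ν ^ 2 = 1 / 1024 ∧ Coh (Quo (US G) g) (cR 2 P') (q1 • Fc ^ 2) ∧
      Coh (Quo (US G) g) (cR 4 P') (q2 • Fc ^ 4 + ν • x0) ∧
      Coh (Quo (US G) g) (cR 6 P') (α • Fc ^ 6 + β • (x0 * Fc ^ 2)) := by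
  have hX : Clo (30 + 1) (US G) := clo_US' h.bl
  have hC := cir_US h.bl h.ty.per
  have hB := (hg.clo_Quo hC hX).sub
  have hXc : IsPreconnected (US G) := FV.preconn_US h.bl (by norm_num)
  have hBc : IsPreconnected (Quo (US G) g) := GQ.preconn_Quo hg hXc
  have hF : Sub (2 * 16 - 8) (GT.FF S) := FV.sub_FF' h (by norm_num)
  have hxe : EC S x := D.ec
  obtain ⟨μ, -, h2, h3⟩ := FG.cs_V D hF hxe
  have hμ := GQ.mu_sq D hF hxe μ h3
  have hN : Coh (US G) (cR 4 PN) ((2 * μ / VX.nE ι) • F.pull Prod.fst x) :=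
    PV.coh_cR h D.hkn H hX.sub hF hxe h2
  have hpf := UP.pfield_N H
  have hp : Coh (US G) (F.pull (jj g) (cR 4 P')) ((2 * μ / VX.nE ι) • F.pull Prod.fst x) :=
    (EW.pull_cR hg hC hX (NB.rep_per N K) hO.triv hpf hO.pf hO.eqP 4).trans hN
  have hG := HG.gys hg hC hX (conn_al (FV.sub_S h.bl)) hc
  obtain ⟨q1, q2, α, β, a1, a2, a3⟩ := EW.exists_coeffs hG hB hBc hO.pf (HY.low_US D)
    (by norm_num) (D.sx.pull HY.smap_fst_US) (D.cx.pull HY.smap_fst_US D.sx) s0 c0 d0 h0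
    (x_ne_US D) hp
  refine ⟨2 * μ / VX.nE ι, q1, q2, α, β, ?_, a1, a2, a3⟩
  have hι : Fintype.card ι = 4 := by have := D.hι; omega
  have h4 : VX.nE ι = 384 := by
    rw [VX.nE, hι, show Nat.factorial 4 = 24 from rfl]; norm_num
  rw [h4, div_pow, mul_pow, hμ]
  norm_num

end Crest.Agent.R208.ZB
end
end

-- ▼ part R208/ZB2
section

/-! Row 208, (8,2), block ZB (helper607).  ZB2: **the half of the hypotheses of `ZA.bound` which
lives on `B = US / S¹`**, from the relation, the fundamental relation of the periods and the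
integrality inputs. -/

set_option autoImplicit false
set_option linter.unusedSectionVars false
set_option linter.unusedVariables false

open MeasureTheory Set Filter Topology Module
open scoped ContDiff RealInnerProductSpace
open Crest.GeometryTopology.Submanifold
open Crest.Agent.R241.DDefs
open Crest.Agent.R241.D2
open Crest.Agent.R208.F Crest.Agent.R208.FI Crest.Agent.R208.CW Crest.Agent.R208.T
open Crest.Agent.R208.CM
open Crest.Agent.R208.L (US)
open Crest.Agent.R208.LB (al)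
open Crest.Agent.R208.NN (Wt Rt nuP)
open Crest.Agent.R208.EW (cR)
open Crest.Agent.R208.EP (topr NLp WNp CPk)

noncomputable section

namespace Crest.Agent.R208.ZB

/-! ### the literal list of hypotheses -/
section lst
variable {EB EB' : Type*} [NormedAddCommGroup EB] [NormedSpace ℝ EB] [FiniteDimensional ℝ EB]
  [NormedAddCommGroup EB'] [NormedSpace ℝ EB'] [FiniteDimensional ℝ EB']

/-- the hypotheses of `ZA.bound` on `B` -/
structure BHalf (B : Set EB) (oB e x p3 T1 T2 Th : EB → Ext EB)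
    (q1 q2 α β₁ ν l t3 n₀ : ℝ) : Prop where
  hB : Clo 30 B
  ho : Ori 30 B oB
  he : EC B e
  hx : EC B x
  hp3 : EC B p3
  hT1 : EC B T1
  hT2 : EC B T2
  hTh : EC B Th
  hν : ν ≠ 0
  hν2 : ν ^ 2 = 1 / 1024
  hnl : ν ^ 2 * l ^ 2 * t3 = 36
  h3 : Coh B p3 (t3 • (α • e ^ 6 + β₁ • (x * e ^ 2)))
  h1 : Coh B T1 (((1 : ℝ) ^ 7 - q1 * 1 ^ 5 + q2 * 1 ^ 3 - α * 1) • e ^ 7 +
      (ν * 1 ^ 3 - β₁ * 1) • (x * e ^ 3))
  h2 : Coh B T2 (((2 : ℝ) ^ 7 - q1 * 2 ^ 5 + q2 * 2 ^ 3 - α * 2) • e ^ 7 +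
      (ν * 2 ^ 3 - β₁ * 2) • (x * e ^ 3))
  hh : Coh B Th (((1 / 2 : ℝ) ^ 7 - q1 * (1 / 2) ^ 5 + q2 * (1 / 2) ^ 3 - α * (1 / 2)) • e ^ 7 +
      (ν * (1 / 2) ^ 3 - β₁ * (1 / 2)) • (x * e ^ 3))
  hrel : Coh B ((3 : ℝ) • (x * x) + (l ^ 2) • (p3 * (e * e))) 0
  hx3 : J 30 B oB (e ^ 3 * x ^ 3) = 0
  hS : |2 * α * ν ^ 2 * J 30 B oB (e ^ 7 * x ^ 2)| = 144 * (2 * Real.pi) ^ 15
  hβ : ∃ n : ℤ, 12 * β₁ / ν = n
  hn : ∃ n : ℤ, 2 * n₀ = n
  hα : ∃ n : ℤ, α + 12 * β₁ / ν * n₀ = n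
  hr : ∃ n : ℤ, ν ^ 2 * J 30 B oB (e ^ 7 * x ^ 2) = 36 * (2 * Real.pi) ^ 15 * n
  z0 : ∃ n : ℤ, J 30 B oB (e ^ 15) = (2 * Real.pi) ^ 15 * n
  z1 : ∃ n : ℤ, J 30 B oB (e ^ 8 * T1) = (2 * Real.pi) ^ 15 * n
  z2 : ∃ n : ℤ, J 30 B oB (e ^ 8 * T2) = (2 * Real.pi) ^ 15 * n

/-- `ZA.bound` from the half on `B` -/
theorem BHalf.bound {B : Set EB} {B' : Set EB'} {oB e x p3 T1 T2 Th : EB → Ext EB} {p : EB' → EB}
    {q1 q2 α β₁ ν l t3 n₀ : ℝ} (H : BHalf B oB e x p3 T1 T2 Th q1 q2 α β₁ ν l t3 n₀)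
    (sp : SMap B' B p)
    (hinj : ∀ om η : EB → Ext EB, Sm B om → Sm B η → Cl B η → Coh B' (F.pull p om) 0 →
      J 30 B oB (om * η) = 0)
    {a1 a2 ε7 c₀ n₁ : ℝ} {u e2 : EB' → Ext EB'} (hu : EC B' u) (he2 : EC B' e2)
    (hua : Coh B' u (F.pull p (a1 • e ^ 4 + a2 • x)))
    (he2T : Coh B' e2 (ε7 • F.pull p Th))
    (hκ : |ε7 * a2 * ν ^ 2| = 432 * |c₀ * n₁|) (hc : c₀ * n₁ ≠ 0)
    (hE : Coh B' (c₀ • F.pull p (ZA.rhsE l n₁ (ZA.r1 l t3 α β₁) (ZA.r2 l t3 α β₁) p3 x e))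
      (u * e2)) :
    |J 30 B oB (e ^ 15)| ≤ 78 * (2 * Real.pi) ^ 15 :=
  ZA.bound H.hB H.ho sp hinj H.he H.hx H.hp3 H.hT1 H.hT2 H.hTh H.hν H.hnl H.h3 H.h1 H.h2 H.hh
    H.hrel H.hx3 H.hS H.hβ H.hn H.hα H.hr H.z0 H.z1 H.z2 hu he2 hua he2T hκ hc hE

end lst

variable {N K m c s' : ℕ} {κ δ : ℝ} {S : Set (Euc N)} {G : Geo 16 N κ S} {p : Euc N}
  {ι : Type} [Fintype ι] [DecidableEq ι] {W : Euc N × Euc N → (ι × Fin 2 → Fin N) → ℝ}
  {x : Euc N → Ext (Euc N)} {h : GT.Bla G 8} {PN : Euc N × Euc N → Wt N K →L[ℝ] Wt N K}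
  {g : Euc N × Euc N → Fin m → ℂ} {Fc x0 : MM m → Ext (MM m)}
  {Tr : Euc N × Euc N → Wt N K →L[ℝ] EuclideanSpace ℝ (Fin (2 * c + 1))}
  {P' : MM m → EuclideanSpace ℝ (Fin (2 * c + 1)) →L[ℝ] EuclideanSpace ℝ (Fin (2 * c + 1))}
  {o' : MM m → Ext (EuclideanSpace ℝ (Fin (2 * c + 1)))}
  {W' : MM m → (Fin (s' + 1) × Fin 2 → Fin (2 * c + 1)) → ℝ}
  {κ₇ : Type} [Fintype κ₇] [DecidableEq κ₇] {l t3 : ℝ}

/-- the value of `τ` -/
theorem tau_eight (hι : 2 * Fintype.card ι = 8) : XF.tau ι = 384 * (2 * Real.pi) ^ 4 := by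
  have h4 : Fintype.card ι = 4 := by omega
  rw [XF.tau, h4, show Nat.factorial 4 = 24 from rfl]
  push_cast
  ring

theorem abs_nu {ν : ℝ} (h : ν ^ 2 = 1 / 1024) : |ν| = 1 / 32 := by
  have h1 : |ν| ^ 2 = (1 / 32) ^ 2 := by rw [sq_abs, h]; norm_num
  exact (pow_left_inj₀ (abs_nonneg _) (by norm_num) (by norm_num)).1 h1

/-- **the `B`-half of the endgame.**  `p3 = t3 • cR 6 P'`, `t3 = 48²`. -/
theorem exists_BHalf (D : T.XM h 2 W p x) (H : NB.NegB G 7 (nuP K) δ PN)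
    (hg : Emb (US G) (gf G) g) (hc : Curv (US G) g (al (N := N)) Fc)
    (hO : TP.DscO (US G) (gf G) g (fun t => Rt (nuP K) t) 3 PN c s' Tr P' o' W')
    (s0 : Sm (Quo (US G) g) x0) (c0 : Cl (Quo (US G) g) x0) (d0 : Hom 8 x0)
    (h0 : Coh (US G) (F.pull Prod.fst x) (F.pull (jj g) x0))
    (ht3 : t3 = 2304) (hl : l ^ 2 = 16)
    (hrel : Coh (Quo (US G) g) ((3 : ℝ) • (x0 * x0) + (l ^ 2) • ((t3 • cR 6 P') * (Fc * Fc))) 0)
    (hx3 : J 30 (Quo (US G) g) (Fc ^ 15) (Fc ^ 3 * x0 ^ 3) = 0)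
    (hR : |8 * l ^ 2 * (2 * Real.pi * J 30 (Quo (US G) g) (Fc ^ 15)
      (Fc * x0 * x0 * (t3 • cR 6 P')))| = XF.tau ι ^ 4)
    (h7 : Fintype.card κ₇ = 7)
    (IT : ∀ c : CH.Chn (Quo (US G) g) 12, ∃ z : ℤ, J 14 (c.Z ×ˢ CPk 1) (QS.oP c)
      (fun z => QS.cP c z • F.pull (QS.fP c) (eR (NLp P') (WNp κ₇ P')) z) = XF.tau κ₇ * z)
    (hn0 : ∀ c : CH.Chn (Quo (US G) g) 8, ∃ z : ℤ, 2 * c.I x0 = XF.tau ι * z)
    (hr : ∃ n : ℤ, 4 * J 30 (Quo (US G) g) (Fc ^ 15) (Fc ^ 7 * x0 ^ 2) =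
      (2 * Real.pi) ^ 7 * XF.tau ι ^ 2 * n) :
    ∃ q1 q2 α β₁ ν n₀ : ℝ, BHalf (Quo (US G) g) (Fc ^ 15) Fc x0 (t3 • cR 6 P') (topr 7 1 P' Fc)
      (topr 7 2 P' Fc) (topr 7 (1 / 2) P' Fc) q1 q2 α β₁ ν l t3 n₀ := by
  have hX : Clo (30 + 1) (US G) := clo_US' h.bl
  have hC := cir_US h.bl h.ty.per
  have hcB : Clo 30 (Quo (US G) g) := hg.clo_Quo hC hX
  have hB := hcB.sub
  have hXc : IsPreconnected (US G) := FV.preconn_US h.bl (by norm_num)
  have ha : Conn (US G) (gf G) (al (N := N)) := conn_al (FV.sub_S h.bl)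
  have hoB := (ZA.J31 h hg hc).1
  obtain ⟨ν, q1, q2, α, β, hν2, a1, a2, a3⟩ := coeffs D H hg hc hO s0 c0 d0 h0
  have hE : EC (Quo (US G) g) Fc := EW.curvEC hc
  have hx0 : EC (Quo (US G) g) x0 := EC.of_hom (j := 4) s0 c0 d0
  have h6 : EC (Quo (US G) g) (cR 6 P') := EP.ec_cR hB hO.pf 6
  have hp3 : EC (Quo (US G) g) (t3 • cR 6 P') := h6.smul t3
  have hνa := abs_nu hν2
  have hν : ν ≠ 0 := by
    rintro rfl
    norm_num at hν2
  have hnl : ν ^ 2 * l ^ 2 * t3 = 36 := by rw [hν2, hl, ht3]; norm_num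
  have hτ : XF.tau ι * |ν| = 12 * (2 * Real.pi) ^ 4 := by
    rw [hνa, tau_eight D.hι]; ring
  have h3 : Coh (Quo (US G) g) (t3 • cR 6 P') (t3 • (α • Fc ^ 6 + β • (x0 * Fc ^ 2))) :=
    a3.smul t3
  obtain ⟨n₀, f1, f2, f3⟩ := CQ.fields D h.ty.per hg hc hO.pf hO.sy h7 s0 c0 d0 h0.symm
    (by rw [mul_comm]; exact hτ) a3 IT hn0
  exact ⟨q1, q2, α, β, ν, n₀,
    { hB := hcB
      ho := hoB
      he := hE
      hx := hx0
      hp3 := hp3
      hT1 := EP.ec_topr hB hO.pf hE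
      hT2 := EP.ec_topr hB hO.pf hE
      hTh := EP.ec_topr hB hO.pf hE
      hν := hν
      hν2 := hν2
      hnl := hnl
      h3 := h3
      h1 := EW.coh_topr_seven hB hO.pf hE hx0 a1 a2 a3 1
      h2 := EW.coh_topr_seven hB hO.pf hE hx0 a1 a2 a3 2
      hh := EW.coh_topr_seven hB hO.pf hE hx0 a1 a2 a3 (1 / 2)
      hrel := hrel
      hx3 := hx3
      hS := ZA.hS_of hcB hoB hE hx0 hp3 h3 hx3 hν hnl hτ hR
      hβ := f1
      hn := f2
      hα := f3
      hr := ZA.hr_of hτ hr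
      z0 := EZ.z0 hg hC hX ha hc hoB
      z1 := EZ.z1 hg hC hX hXc ha hc hoB hO.pf hO.sy
      z2 := EZ.z2 hg hC hX hXc ha hc hoB hO.pf hO.sy }⟩

end Crest.Agent.R208.ZB
end
end

-- ▼ part R208/QT5
section

/-! Row 208, block Q (helper586), part QT5: **(Q0)**: `4 ∫_B e^(j+1) x₀² ∈ (2π)^(j+1) τ² ℤ`. -/

set_option autoImplicit false
set_option linter.unusedSectionVars false

open MeasureTheory Set Filter Topology Module
open scoped ContDiff RealInnerProductSpace Nat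
open Crest.GeometryTopology.Submanifold
open Crest.Agent.R241.DDefs
open Crest.Agent.R241.D2
open Crest.Agent.R208.F Crest.Agent.R208.FI Crest.Agent.R208.CW Crest.Agent.R208.FG
open Crest.Agent.R208.T (Sm Cl Hom Coh Eqv eR OR Sph EC rcl)
open Crest.Agent.R208.SO (CF2)
open Crest.Agent.R208.SB (OddB)

noncomputable section

namespace Crest.Agent.R208.QT

attribute [local irreducible] bcC mapC sphC c3

/-! ### algebra -/
section alg
variable {E' : Type*} [NormedAddCommGroup E'] [NormedSpace ℝ E'] [FiniteDimensional ℝ E']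
  {Y : Set E'} {A A' e x w p v : E' → Ext E'} {l cL : ℝ} {j : ℕ}

/-- `A² A' v ~ 4 c x³ e^j + 4 c l w e^(j+1) x²` -/
theorem coh_alg (he : EC Y e) (hx : EC Y x) (hw : EC Y w) (hp : EC Y p) (hv : EC Y v)
    (hA : EC Y A) (hA' : EC Y A')
    (h1 : Coh Y ((3 : ℝ) • (x * x) + (l ^ 2) • (e * e * p)) 0) (h2 : Coh Y (w * w) p)
    (h3 : Coh Y A (x + l • (e * w))) (h4 : Coh Y A' (x + (-l) • (e * w)))
    (h5 : Coh Y v (cL • e ^ j)) :
    Coh Y (A * (A * (A' * v))) ((4 * cL) • (e ^ j * x ^ 3) +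
      (4 * cL * l) • (w * (e ^ (j + 1) * x ^ 2))) := by
  have k0 : EC Y (A * (A * (A' * v))) := hA.mul (hA.mul (hA'.mul hv))
  have k1 : EC Y ((3 : ℝ) • (x * x) + (l ^ 2) • (e * e * p)) :=
    ((hx.mul hx).smul 3).add (((he.mul he).mul hp).smul _)
  have k2 : EC Y (x + l • (e * w)) := hx.add ((he.mul hw).smul l)
  have k3 : EC Y (x + (-l) • (e * w)) := hx.add ((he.mul hw).smul (-l))
  have k4 : EC Y (cL • e ^ j) := (he.pow j).smul cL
  have k5 : EC Y ((4 * cL) • (e ^ j * x ^ 3) + (4 * cL * l) • (w * (e ^ (j + 1) * x ^ 2))) :=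
    (((he.pow j).mul (hx.pow 3)).smul _).add
      ((hw.mul ((he.pow (j + 1)).mul (hx.pow 2))).smul _)
  refine (T.rcl_eq_iff k0 k5).1 ?_
  have q1 := (T.rcl_eq_zero_iff k1).2 h1
  have q2 := T.rcl_congr (hw.mul hw) hp h2
  have q3 := T.rcl_congr hA k2 h3
  have q4 := T.rcl_congr hA' k3 h4
  have q5 := T.rcl_congr hv k4 h5
  rw [T.rcl_add ((hx.mul hx).smul 3) (((he.mul he).mul hp).smul _), ZG.rcl_smul' 3 (hx.mul hx),
    ZG.rcl_smul' (l ^ 2) ((he.mul he).mul hp), T.rcl_mul hx hx, T.rcl_mul (he.mul he) hp,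
    T.rcl_mul he he] at q1
  rw [T.rcl_mul hw hw] at q2
  rw [T.rcl_add hx ((he.mul hw).smul l), ZG.rcl_smul' l (he.mul hw), T.rcl_mul he hw] at q3
  rw [T.rcl_add hx ((he.mul hw).smul (-l)), ZG.rcl_smul' (-l) (he.mul hw), T.rcl_mul he hw] at q4
  rw [ZG.rcl_smul' cL (he.pow j), T.rcl_pow he] at q5
  rw [T.rcl_mul hA (hA.mul (hA'.mul hv)), T.rcl_mul hA (hA'.mul hv), T.rcl_mul hA' hv,
    T.rcl_add (((he.pow j).mul (hx.pow 3)).smul _)
      ((hw.mul ((he.pow (j + 1)).mul (hx.pow 2))).smul _),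
    ZG.rcl_smul' (4 * cL) ((he.pow j).mul (hx.pow 3)),
    ZG.rcl_smul' (4 * cL * l) (hw.mul ((he.pow (j + 1)).mul (hx.pow 2))),
    T.rcl_mul (he.pow j) (hx.pow 3), T.rcl_mul hw ((he.pow (j + 1)).mul (hx.pow 2)),
    T.rcl_mul (he.pow (j + 1)) (hx.pow 2), T.rcl_pow he, T.rcl_pow he, T.rcl_pow hx, T.rcl_pow hx,
    q3, q4, q5]
  generalize rcl he = E at *
  generalize rcl hx = X at *
  generalize rcl hw = w' at *
  generalize rcl hp = Q at *
  simp only [Algebra.smul_def, map_mul, map_pow, map_neg, map_ofNat] at q1 ⊢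
  generalize algebraMap ℝ (CW.H Y) l = L at q1 ⊢
  generalize algebraMap ℝ (CW.H Y) cL = C at q1 ⊢
  linear_combination (-(C * E ^ j * (X + L * (E * w')))) * q1 -
    (C * E ^ j * (X + L * (E * w')) * L ^ 2 * E ^ 2) * q2

end alg

theorem tau_card {ι₂ : Type} [Fintype ι₂] {j : ℕ} (h : Fintype.card ι₂ = j) :
    XF.tau ι₂ = (4 * Real.pi) ^ j * (j ! : ℝ) := by rw [XF.tau, h]

theorem int_of_abs_eq {a c : ℝ} {z : ℤ} (h : |a| = c * |(z : ℝ)|) (hc : 0 ≤ c) :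
    ∃ z' : ℤ, a = c * z' := by
  rw [← abs_of_nonneg hc, ← abs_mul] at h
  rcases abs_eq_abs.1 h with h | h
  · exact ⟨z, h⟩
  · exact ⟨-z, by rw [h]; push_cast; ring⟩

/-! ### (Q0) -/
section q0
variable {n N k m : ℕ} {κ : ℝ} {S : Set (Euc N)} {G : Geo n N κ S} {p : Euc N}
  {ι : Type} [Fintype ι] [DecidableEq ι] {W : Euc N × Euc N → (ι × Fin 2 → Fin N) → ℝ}
  {x : Euc N → Ext (Euc N)} {h : GT.Bla G k} {oS : Euc N → Ext (Euc N)}
  {oV : Euc N × Euc N → Ext (Euc N × Euc N)}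
  {E₁ : Type} [NormedAddCommGroup E₁] [NormedSpace ℝ E₁] [FiniteDimensional ℝ E₁]
  {n₁ ι₁ n₂ ι₂ : Type} [Fintype n₁] [DecidableEq n₁] [Fintype ι₁] [DecidableEq ι₁] [Nonempty ι₁]
  [Fintype n₂] [DecidableEq n₂] [Fintype ι₂] [DecidableEq ι₂] [Nonempty ι₂]
  {B : Set E₁} {P' : E₁ → EuclideanSpace ℝ n₁ →L[ℝ] EuclideanSpace ℝ n₁}
  {oP' : E₁ → Ext (EuclideanSpace ℝ n₁)} {oB e x0 p3 : E₁ → Ext E₁}
  {PL : E₁ → EuclideanSpace ℝ n₂ →L[ℝ] EuclideanSpace ℝ n₂}
  {WL : E₁ → (ι₂ × Fin 2 → n₂) → ℝ}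
  {fY : E₁ × EuclideanSpace ℝ n₁ → Euc N} {l cL : ℝ} {r b j : ℕ}

set_option maxHeartbeats 1000000 in
/-- **(Q0)** -/
theorem q0 (IT : IntM) (M : T.XM h m W p x) (hO : OSubm (n - k) n (GT.FF S) S Prod.fst oV oS)
    (hV : ∀ z, IsDeg (n - k) (oV z))
    (hJ0 : Np S m k n p oV x ≠ 0) (hJ : |J n S oS (x ^ m)| = XF.tau ι * |Np S m k n p oV x|)
    (ob : OddB ι₁ B r P' oP') (hrk : r + 2 = k) (hB : Clo b B) (hBc : IsPreconnected B)
    (hoB : Ori b B oB) (dB : ∀ z, IsDeg b (oB z)) (he : CF2 B 2 e) (hx : CF2 B k x0)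
    (hp : CF2 B (2 * r) p3)
    (h1 : Coh B ((3 : ℝ) • (x0 * x0) + (l ^ 2) • (e * e * p3)) 0)
    (h2 : Coh (Sph B P') (OddB.eV ι₁ ob.hr P' oP' * OddB.eV ι₁ ob.hr P' oP')
      (F.pull Prod.fst p3)) (sfY : SMap (Sph B P') S fY)
    (h3 : Coh (Sph B P') (F.pull fY x)
      (F.pull Prod.fst x0 + l • (F.pull Prod.fst e * OddB.eV ι₁ ob.hr P' oP')))
    (hL : OR B PL WL) (hj : Fintype.card ι₂ = j) (hcL : |cL| = 2 ^ j * (j ! : ℝ))
    (hLe : Coh B (eR PL WL) (cL • e ^ j)) (hdim : r + b = 2 * j + k + k + k)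
    (hl : |l| * (2 * XF.tau ι₁) * (2 * Real.pi) = XF.tau ι) :
    ∃ z : ℤ, 4 * J b B oB (e ^ (j + 1) * x0 ^ 2) =
      (2 * Real.pi) ^ (j + 1) * XF.tau ι ^ 2 * z := by
  have hr := ob.hr
  have hcι : 0 < Fintype.card ι₁ := Fintype.card_pos
  have hY : Clo (r + b) (Sph B P') := SB.clo_Sph hB ob.pf
  have hOY := SB.osubm_Sph hB ob.pf ob.op hoB dB
  have dOY : Hom (r + b) (fun z => SB.oV oP' z * F.pull Prod.fst oB z :
      E₁ × EuclideanSpace ℝ n₁ → Ext (E₁ × EuclideanSpace ℝ n₁)) := fun z =>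
    T.isDeg_mul (SB.isDeg_oV ob.op z) ((dB z.1).pb _)
  have sρ : SMap (Sph B P') B (Prod.fst : E₁ × EuclideanSpace ℝ n₁ → E₁) := smap_fstB
  have sfl : SMap (Sph B P') (Sph B P') (OddB.flip (E := E₁) (n := n₁)) := OddB.smap_flip
  have sfY' : SMap (Sph B P') S (fun z => fY (OddB.flip z)) := sfY.comp sfl
  set w := OddB.eV ι₁ ob.hr P' oP' with hw
  have hW : CF2 (Sph B P') r w := ⟨ob.ec_eV.sm, ob.ec_eV.cl, OddB.hom_eV ob.hr,
    by rw [hr]; exact even_two_mul _⟩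
  have ecL := hL.ec_eR
  have eL : CF2 B (2 * Fintype.card ι₂) (eR PL WL) := ⟨ecL.sm, ecL.cl, VX.hom_eR, even_two_mul _⟩
  -- integrality
  obtain ⟨z, hz⟩ := int3 (u := fY) (u' := fun z => fY (OddB.flip z)) (ρ := Prod.fst) IT M hO hV hY
    sfY sfY' hB.sub hBc hL sρ (idC hY hOY.tot dOY) (by omega)
  rw [idC_I] at hz
  -- the flipped map
  have h4 : Coh (Sph B P') (F.pull (fun z => fY (OddB.flip z)) x)
      (F.pull Prod.fst x0 + (-l) • (F.pull Prod.fst e * w)) := by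
    have a1 : Eqv (Sph B P') (F.pull OddB.flip (F.pull fY x))
        (F.pull (fun z => fY (OddB.flip z)) x) :=
      T.eqv_pull_pull sfl sfY sfY' (fun _ _ => rfl) x
    have a2 := h3.pull sfl
    rw [T.pull_add', T.pull_smul', T.pull_mul'] at a2
    have a3 : Eqv (Sph B P') (F.pull OddB.flip (F.pull Prod.fst x0)) (F.pull Prod.fst x0) :=
      T.eqv_pull_pull sfl sρ sρ (fun _ _ => rfl) x0
    have a4 : Eqv (Sph B P') (F.pull OddB.flip (F.pull Prod.fst e)) (F.pull Prod.fst e) :=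
      T.eqv_pull_pull sfl sρ sρ (fun _ _ => rfl) e
    have a5 : Eqv (Sph B P') (F.pull OddB.flip w) (-w) := ob.flip_eV
    refine (Coh.of_eqv a1.symm).trans (a2.trans (Coh.of_eqv ?_))
    have a6 : Eqv (Sph B P') (l • (F.pull OddB.flip (F.pull Prod.fst e) *
        F.pull OddB.flip w)) (l • (F.pull Prod.fst e * -w)) := (a4.mul a5).smul l
    have a7 : l • (F.pull Prod.fst e * -w) = (-l) • (F.pull Prod.fst e * w) := by
      rw [mul_neg, smul_neg, neg_smul]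
    rw [a7] at a6
    exact a3.add a6
  -- algebra
  have E1 := (ZG.CF2.ec he).pull sρ
  have E2 := (ZG.CF2.ec hx).pull sρ
  have E3 := (ZG.CF2.ec hp).pull sρ
  have h1' : Coh (Sph B P') ((3 : ℝ) • (F.pull Prod.fst x0 * F.pull Prod.fst x0) +
      (l ^ 2) • (F.pull Prod.fst e * F.pull Prod.fst e * F.pull Prod.fst p3)) 0 := by
    have := h1.pull sρ
    rwa [T.pull_add', T.pull_smul', T.pull_smul', T.pull_mul', T.pull_mul', T.pull_mul',
      T.pull_zero'] at this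
  have h5 : Coh (Sph B P') (F.pull Prod.fst (eR PL WL)) (cL • (F.pull Prod.fst e) ^ j) := by
    have := hLe.pull sρ
    rwa [T.pull_smul', T.pull_pow'] at this
  have eA : CF2 (Sph B P') k (F.pull fY x) := (cf2_x M).pull sfY
  have eA' : CF2 (Sph B P') k (F.pull (fun z => fY (OddB.flip z)) x) := (cf2_x M).pull sfY'
  have ev : CF2 (Sph B P') (2 * Fintype.card ι₂) (F.pull Prod.fst (eR PL WL)) := eL.pull sρ
  have hc := coh_alg E1 E2 (ZG.CF2.ec hW) E3 (ZG.CF2.ec ev) (ZG.CF2.ec eA) (ZG.CF2.ec eA') h1' h2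
    h3 h4 h5
  have s3 : Sm (Sph B P') (F.pull Prod.fst (e ^ j * x0 ^ 3)) :=
    ((he.sm.pow j).mul (hx.sm.pow 3)).pull sρ
  have s4 : Sm (Sph B P') (w * F.pull Prod.fst (e ^ (j + 1) * x0 ^ 2)) :=
    hW.sm.mul (((he.sm.pow (j + 1)).mul (hx.sm.pow 2)).pull sρ)
  have e3 : F.pull Prod.fst e ^ j * F.pull Prod.fst x0 ^ 3 =
      F.pull (Prod.fst : E₁ × EuclideanSpace ℝ n₁ → E₁) (e ^ j * x0 ^ 3) := by
    rw [T.pull_mul', T.pull_pow', T.pull_pow']
  have e4 : F.pull Prod.fst e ^ (j + 1) * F.pull Prod.fst x0 ^ 2 =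
      F.pull (Prod.fst : E₁ × EuclideanSpace ℝ n₁ → E₁) (e ^ (j + 1) * x0 ^ 2) := by
    rw [T.pull_mul', T.pull_pow', T.pull_pow']
  rw [e3, e4] at hc
  -- the first term
  have z3 : Eqv (Sph B P') (F.pull Prod.fst (e ^ j * x0 ^ 3)) 0 := by
    have a1 : Hom (2 * j + k * 3) (e ^ j * x0 ^ 3) := (he.hom.pow j).mul (hx.hom.pow 3)
    have a2 : ResZero B (e ^ j * x0 ^ 3) := SO.resZero_of_gt hB.sub a1 (by omega)
    exact T.resZero_iff.1 (T.ResZero.pull sρ a2)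
  have hJY : J (r + b) (Sph B P') (fun z => SB.oV oP' z * F.pull Prod.fst oB z)
      (F.pull fY x * (F.pull fY x * (F.pull (fun z => fY (OddB.flip z)) x *
        F.pull Prod.fst (eR PL WL)))) =
      4 * cL * l * (2 * XF.tau ι₁ * J b B oB (e ^ (j + 1) * x0 ^ 2)) := by
    have b1 := SO.J_coh hY hOY.tot (eA.sm.mul (eA.sm.mul (eA'.sm.mul ev.sm)))
      ((s3.smul (4 * cL)).add (s4.smul (4 * cL * l))) hc
    have b2 : Eqv (Sph B P') ((4 * cL) • F.pull Prod.fst (e ^ j * x0 ^ 3) +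
        (4 * cL * l) • (w * F.pull Prod.fst (e ^ (j + 1) * x0 ^ 2)))
        ((4 * cL * l) • (w * F.pull Prod.fst (e ^ (j + 1) * x0 ^ 2))) := by
      have := (z3.smul (4 * cL)).add (Eqv.refl (X := Sph B P')
        ((4 * cL * l) • (w * F.pull Prod.fst (e ^ (j + 1) * x0 ^ 2))))
      rwa [smul_zero, zero_add] at this
    rw [b1, SO.J_eqv hY b2]
    have b3 := ob.J_eV hB hoB dB (β := e ^ (j + 1) * x0 ^ 2)
      (fun z hz => (((he.sm.pow (j + 1)).mul (hx.sm.pow 2)) z hz).continuousAt.continuousWithinAt)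
      (fun z _ q hq => ((he.hom.pow (j + 1)).mul (hx.hom.pow 2)) z q (by omega))
    rw [← b3]
    exact J_smul (4 * cL * l)
  rw [hJY] at hz
  -- absolute values
  set a := Np S m k n p oV x with ha
  set Jx := J b B oB (e ^ (j + 1) * x0 ^ 2) with hJx
  have ht := XF.tau_pos ι
  have ht₁ := XF.tau_pos ι₁
  have ht₂ := tau_card hj
  have hpi := Real.pi_pos
  have hj0 : (0 : ℝ) < (j ! : ℝ) := by exact_mod_cast Nat.factorial_pos j
  have ha0 : 0 < |a| := abs_pos.2 hJ0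
  have n4 : |(4 : ℝ)| = 4 := abs_of_pos (by norm_num)
  have n2 : |(2 : ℝ)| = 2 := abs_of_pos (by norm_num)
  have L1 : |a ^ 3 * (4 * cL * l * (2 * XF.tau ι₁ * Jx))| =
      |a| ^ 3 * (4 * (2 ^ j * (j ! : ℝ)) * |l| * (2 * XF.tau ι₁ * |Jx|)) := by
    simp only [abs_mul, abs_pow, hcL, n4, n2, abs_of_pos ht₁]
  have h7 : (4 * Real.pi) ^ j = 2 ^ j * (2 * Real.pi) ^ j := by rw [← mul_pow]; ring
  have L2 : |XF.tau ι₂ * z * J n S oS (x ^ m) ^ 3| =
      2 ^ j * (2 * Real.pi) ^ j * (j ! : ℝ) * |(z : ℝ)| * (XF.tau ι * |a|) ^ 3 := by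
    rw [ht₂, abs_mul, abs_mul, abs_pow, hJ, h7, abs_of_pos (by positivity)]
  have habs : |a| ^ 3 * (4 * (2 ^ j * (j ! : ℝ)) * |l| * (2 * XF.tau ι₁ * |Jx|)) =
      2 ^ j * (2 * Real.pi) ^ j * (j ! : ℝ) * |(z : ℝ)| * (XF.tau ι * |a|) ^ 3 := by
    rw [← L1, hz, L2]
  refine int_of_abs_eq (z := z) ?_ (by positivity)
  rw [abs_mul, n4]
  have h8 : |a| ^ 3 * 2 ^ j * (j ! : ℝ) * (XF.tau ι) ≠ 0 := by positivity
  apply mul_left_cancel₀ h8
  rw [pow_succ]
  linear_combination (2 * Real.pi) * habs - (|a| ^ 3 * 2 ^ j * (j ! : ℝ) * (4 * |Jx|)) * hl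

end q0

end Crest.Agent.R208.QT
end
end

-- ▼ part R208/QT6
section

/-! Row 208, block Q (helper586), part QT6: (n0) and (Q0) with the period over one cut locus. -/

set_option autoImplicit false
set_option linter.unusedSectionVars false

open MeasureTheory Set Filter Topology Module
open scoped ContDiff RealInnerProductSpace Nat
open Crest.GeometryTopology.Submanifold
open Crest.Agent.R241.DDefs
open Crest.Agent.R241.D2
open Crest.Agent.R208.F Crest.Agent.R208.FI Crest.Agent.R208.CW Crest.Agent.R208.FG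
open Crest.Agent.R208.T (Sm Cl Hom Coh Eqv eR OR Sph EC rcl)
open Crest.Agent.R208.SO (CF2)
open Crest.Agent.R208.SB (OddB)

noncomputable section

namespace Crest.Agent.R208.QT

section np
variable {n N k m : ℕ} {κ : ℝ} {S : Set (Euc N)} {G : Geo n N κ S} {p : Euc N}
  {ι : Type} [Fintype ι] [DecidableEq ι] {W : Euc N × Euc N → (ι × Fin 2 → Fin N) → ℝ}
  {x : Euc N → Ext (Euc N)} {h : GT.Bla G k} {oS : Euc N → Ext (Euc N)}
  {oV : Euc N × Euc N → Ext (Euc N × Euc N)}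

/-- `|N_p|` is the period of `x^(m-1)` over the cut locus of `p` -/
theorem abs_Np (M : T.XM h m W p x) (hO : OSubm (n - k) n (GT.FF S) S Prod.fst oV oS)
    {oC : Euc N → Ext (Euc N)} (hoC : Ori (n - k) (GP.Cut S p) oC) :
    |Np S m k n p oV x| = |J (n - k) (GP.Cut S p) oC (x ^ (m - 1))| := by
  have hk := M.hk
  have hkn := M.hkn
  have hcf := (FV.subm_fst h).clo_fibre p
  have hcC := FV.clo_Cut h M.hp
  have hdiff : ∀ x ∈ GT.FF S ∩ (Prod.fst : Euc N × Euc N → Euc N) ⁻¹' {p},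
      DifferentiableAt ℝ (Prod.snd : Euc N × Euc N → Euc N) x := fun x _ => differentiableAt_snd
  have hb := FG.bij_fib (S := S) p M.hp
  have sx : Sm S (x ^ (m - 1)) := M.sx.pow _
  have e1 := J_pull hcf hcC hdiff hb hoC (om := x ^ (m - 1))
    (fun q hq => ((sx q hq.1).continuousAt).continuousWithinAt)
  have hpo : Ori (n - k) (GT.FF S ∩ (Prod.fst : Euc N × Euc N → Euc N) ⁻¹' {p})
      (F.pull Prod.snd oC) := by
    refine Ori.pull hcf hcC (fun x _ => contDiffAt_snd) hb.mapsTo (fun x hx v hv h0 => ?_) hoC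
    have h5 : v ∈ Tan (GT.FF S ∩ (Prod.fst : Euc N × Euc N → Euc N) ⁻¹' {Prod.fst x}) x := by
      have : Prod.fst x = p := hx.2
      rw [this]; exact hv
    rw [(FV.subm_fst h).tan_fibre hx.1] at h5
    have h6 : fderiv ℝ (Prod.fst : Euc N × Euc N → Euc N) x v = 0 := h5.2
    rw [hasFDerivAt_fst.fderiv] at h6
    rw [hasFDerivAt_snd.fderiv] at h0
    exact Prod.ext h6 h0
  have e0 : Np S m k n p oV x = J (n - k) (GT.FF S ∩ Prod.fst ⁻¹' {p}) oV
      (F.pull Prod.snd (x ^ (m - 1))) := by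
    rw [Np, T.pull_pow']
  rw [e0, ← e1]
  rcases J_ori_connected hcf (hO.fib p) hpo (FG.preconn_fib h (by omega) M.hp) with h7 | h7
  · rw [h7]
  · rw [h7, abs_neg]

/-- the value of the top power: `|∫_S x^m| = τ |∫_{C_p} x^(m-1)|` -/
def SV (n k : ℕ) (ι : Type) [Fintype ι] (S : Set (Euc N)) (m : ℕ) (p : Euc N)
    (x : Euc N → Ext (Euc N)) : Prop :=
  ∀ oS, Ori n S oS → ∀ oC, Ori (n - k) (GP.Cut S p) oC →
    |J n S oS (x ^ m)| = XF.tau ι * |J (n - k) (GP.Cut S p) oC (x ^ (m - 1))|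

theorem exists_oS (h : GT.Bla G k) (hk : 2 ≤ k) : ∃ oS, Ori n S oS ∧ Hom n oS := by
  obtain ⟨w, hw, hwe⟩ := GP.exists_orient h.bl h.ty hk
  refine ⟨fun z => GP.fm n N (w z), GP.ori_of_field (GP.clo_S h.bl)
    (fun z hz => (hw z hz).continuousAt.continuousWithinAt) fun z hz => ?_,
    fun z => GP.isDeg_fm _⟩
  obtain ⟨e, he, heV, hwe⟩ := hwe z hz
  refine ⟨e, he.on, fun a => ?_, hwe⟩
  rw [LB.Tan_S (G := G) (FV.sub_S h.bl) hz]
  exact heV a

end np

section final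
variable {n N k m : ℕ} {κ : ℝ} {S : Set (Euc N)} {G : Geo n N κ S} {p : Euc N}
  {ι : Type} [Fintype ι] [DecidableEq ι] {W : Euc N × Euc N → (ι × Fin 2 → Fin N) → ℝ}
  {x : Euc N → Ext (Euc N)} {h : GT.Bla G k}
  {E₁ : Type} [NormedAddCommGroup E₁] [NormedSpace ℝ E₁] [FiniteDimensional ℝ E₁]
  {n₁ ι₁ n₂ ι₂ : Type} [Fintype n₁] [DecidableEq n₁] [Fintype ι₁] [DecidableEq ι₁] [Nonempty ι₁]
  [Fintype n₂] [DecidableEq n₂] [Fintype ι₂] [DecidableEq ι₂] [Nonempty ι₂]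
  {B : Set E₁} {P' : E₁ → EuclideanSpace ℝ n₁ →L[ℝ] EuclideanSpace ℝ n₁}
  {oP' : E₁ → Ext (EuclideanSpace ℝ n₁)} {oB e x0 p3 : E₁ → Ext E₁}
  {PL : E₁ → EuclideanSpace ℝ n₂ →L[ℝ] EuclideanSpace ℝ n₂}
  {WL : E₁ → (ι₂ × Fin 2 → n₂) → ℝ}
  {fY : E₁ × EuclideanSpace ℝ n₁ → Euc N} {l cL : ℝ} {r b j : ℕ}

/-- **(n0)**, final form: `2 ∫_c x₀ ∈ τ ℤ` for every thin `k`-chain `c` of `B` -/
theorem n0' (IT : IntM) (M : T.XM h m W p x) (hSV : SV n k ι S m p x)
    (ob : OddB ι₁ B r P' oP') (hrk : r + 2 = k) (hB : Clo b B) (hBc : IsPreconnected B)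
    (hne : B.Nonempty) (hoB : Ori b B oB) (dB : Hom b oB) (he : CF2 B 2 e) (hx : CF2 B k x0)
    (sfY : SMap (Sph B P') S fY)
    (h3 : Coh (Sph B P') (F.pull fY x)
      (F.pull Prod.fst x0 + l • (F.pull Prod.fst e * OddB.eV ι₁ ob.hr P' oP'))) :
    ∀ c : CH.Chn B k, ∃ z : ℤ, 2 * c.I x0 = XF.tau ι * z := by
  intro c
  have hcι : 0 < Fintype.card ι₁ := Fintype.card_pos
  have hr := ob.hr
  obtain ⟨oS, hoS, dS⟩ := exists_oS h M.hk
  obtain ⟨oV, hV, hO⟩ := FG.exists_osubm h M.hk M.hkn hoS dS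
  obtain ⟨oC, hoC, -, -⟩ := T.exists_ori_Cut h M.hk M.hkn M.hp
  have h4 := abs_Np M hO hoC
  have h5 := M.J_Cut_ne hoC
  have h6 : Np S m k n p oV x ≠ 0 := by
    rw [← abs_pos, h4, abs_pos]
    exact h5
  have hJ : |J n S oS (x ^ m)| = XF.tau ι * |Np S m k n p oV x| := by
    rw [h4]; exact hSV oS hoS oC hoC
  have e1 : T.EC B (EW.cR r P') := EW.ec_cfr hB.sub (EW.idF_of_pfield ob.pf) r
  have hp : CF2 B (2 * r) ((VX.nE ι₁ ^ 2) • EW.cR r P') :=
    (⟨e1.sm, e1.cl, EW.hom_cfr r, even_two_mul _⟩ : CF2 B (2 * r) (EW.cR r P')).smul _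
  have h2 : Coh (Sph B P') (OddB.eV ι₁ ob.hr P' oP' * OddB.eV ι₁ ob.hr P' oP')
      (F.pull Prod.fst ((VX.nE ι₁ ^ 2) • EW.cR r P')) := by
    rw [T.pull_smul']
    exact ob.sq_eV hB.sub
  exact n0 IT M hO hV h6 hJ ob hrk hB hBc hne
    (ZG.preconn_Sph hB.compact hBc ob.pf (by omega)) hoB dB he hx hp h2 sfY h3 c

/-- **(Q0)**, final form -/
theorem q0' (IT : IntM) (M : T.XM h m W p x) (hSV : SV n k ι S m p x)
    (ob : OddB ι₁ B r P' oP') (hrk : r + 2 = k) (hB : Clo b B) (hBc : IsPreconnected B)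
    (hoB : Ori b B oB) (dB : Hom b oB) (he : CF2 B 2 e) (hx : CF2 B k x0)
    (hp : CF2 B (2 * r) p3)
    (h1 : Coh B ((3 : ℝ) • (x0 * x0) + (l ^ 2) • (e * e * p3)) 0)
    (h2 : Coh (Sph B P') (OddB.eV ι₁ ob.hr P' oP' * OddB.eV ι₁ ob.hr P' oP')
      (F.pull Prod.fst p3)) (sfY : SMap (Sph B P') S fY)
    (h3 : Coh (Sph B P') (F.pull fY x)
      (F.pull Prod.fst x0 + l • (F.pull Prod.fst e * OddB.eV ι₁ ob.hr P' oP')))
    (hL : OR B PL WL) (hj : Fintype.card ι₂ = j) (hcL : |cL| = 2 ^ j * (j ! : ℝ))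
    (hLe : Coh B (eR PL WL) (cL • e ^ j)) (hdim : r + b = 2 * j + k + k + k)
    (hl : |l| * (2 * XF.tau ι₁) * (2 * Real.pi) = XF.tau ι) :
    ∃ z : ℤ, 4 * J b B oB (e ^ (j + 1) * x0 ^ 2) =
      (2 * Real.pi) ^ (j + 1) * XF.tau ι ^ 2 * z := by
  obtain ⟨oS, hoS, dS⟩ := exists_oS h M.hk
  obtain ⟨oV, hV, hO⟩ := FG.exists_osubm h M.hk M.hkn hoS dS
  obtain ⟨oC, hoC, -, -⟩ := T.exists_ori_Cut h M.hk M.hkn M.hp
  have h4 := abs_Np M hO hoC
  have h5 := M.J_Cut_ne hoC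
  have h6 : Np S m k n p oV x ≠ 0 := by
    rw [← abs_pos, h4, abs_pos]
    exact h5
  have hJ : |J n S oS (x ^ m)| = XF.tau ι * |Np S m k n p oV x| := by
    rw [h4]; exact hSV oS hoS oC hoC
  exact q0 IT M hO hV h6 hJ ob hrk hB hBc hoB dB he hx hp h1 h2 sfY h3 hL hj hcL hLe hdim hl

end final

end Crest.Agent.R208.QT
end
end

-- ▼ part R208/EAh969
section

/-! Row 208, (8,2), E-ASM, piece (hua) (helper969 for helper595): closed `k`-forms on
`B' = (US × S^(2l+1)) / S¹` and their restriction to a slice `US × {u₀}`. -/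

set_option autoImplicit false
set_option linter.unusedSectionVars false

open MeasureTheory Set Filter Topology Module
open scoped ContDiff RealInnerProductSpace
open Crest.GeometryTopology.Submanifold
open Crest.Agent.R241.DDefs
open Crest.Agent.R241.D2
open Crest.Agent.R208.F Crest.Agent.R208.FI Crest.Agent.R208.CW Crest.Agent.R208.T
open Crest.Agent.R208.CM Crest.Agent.R208.HW
open Crest.Agent.R208.L (US)
open Crest.Agent.R208.LB (al)

noncomputable section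

namespace Crest.Agent.R208.EA

section gen
variable {E : Type} [NormedAddCommGroup E] [NormedSpace ℝ E] [FiniteDimensional ℝ E]
  {X : Set E} {φ : ℝ → E → E} {n l m m' r J : ℕ} {g : E → Fin m → ℂ}
  {g' : E × U l → Fin m' → ℂ} {pr : MM m' → MM m} {θ : E → Ext E} {x : E → Ext E}
  {Fc x0 : MM m → Ext (MM m)} {Fc' u : MM m' → Ext (MM m')}

/-- the slice `z ↦ [z, u₀]` -/
theorem smap_slice (H : HD n l X φ g g' pr) {u₀ : U l} (hu : ‖u₀‖ = 1) :
    SMap X (Quo (XX X l) g') (fun z => jj g' (z, u₀)) :=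
  H.smap_jj'.comp (HY.smap_sec hu)

/-- `s^* pr^* w = jj^* w` for the slice `s` -/
theorem slice_pull (H : HD n l X φ g g' pr) {u₀ : U l} (hu : ‖u₀‖ = 1)
    (w : MM m → Ext (MM m)) :
    Eqv X (F.pull (fun z => jj g' (z, u₀)) (F.pull pr w)) (F.pull (jj g) w) := by
  have h1 : Eqv X (F.pull (fun z => jj g' (z, u₀)) (F.pull pr w))
      (F.pull (pr ∘ fun z => jj g' (z, u₀)) w) :=
    Eqv.of_eq fun z hz => pull_comp ((smap_slice H hu).diff hz)
      ((H.smooth.differentiable (by simp)) _)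
  exact h1.trans (eqv_pull_of_eq w
    (fun z hz => ((H.smooth.differentiable (by simp)) _).comp z ((smap_slice H hu).diff hz))
    (fun z hz => H.smap_jj.diff hz) fun z hz => H.eq _ (mem_XX.2 ⟨hz, hu⟩))

/-- `e' = (1/2) p^* e` -/
theorem curv_half (H : HD n l X φ g g' pr) (hθ : Conn X φ θ) (hF : Curv X g θ Fc)
    (hF' : Curv (XX X l) g' (th l θ) Fc') :
    Eqv (Quo (XX X l) g') Fc' ((1 / 2 : ℝ) • F.pull pr Fc) := by
  have h := (H.pull_e hθ.sm hF.pull hF'.pull).smul (1 / 2)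
  rw [smul_smul] at h
  norm_num at h
  exact h.symm

theorem curv_exact (hθ : Conn X φ θ) (hF : Curv X g θ Fc) :
    Coh X (F.pull (jj g) Fc) 0 :=
  ⟨θ, hθ.sm, by rw [sub_zero]; exact hF.pull⟩

/-- **(hua), generic** -/
theorem hua_gen (H : HD n l X φ g g' pr) (hc : IsPreconnected X) (hθ : Conn X φ θ)
    (hF : Curv X g θ Fc) (hF' : Curv (XX X l) g' (th l θ) Fc') (hr : Even r) (hr0 : 0 < r)
    (hrJ : r < J) (hJ : J ≤ 2 * l + 1) (hL : HY.Low X x r J) (sx : Sm X x) (cx : Cl X x)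
    (s0 : Sm (Quo X g) x0) (c0 : Cl (Quo X g) x0) (d0 : Hom r x0)
    (h0 : Coh X x (F.pull (jj g) x0))
    (su : Sm (Quo (XX X l) g') u) (cu : Cl (Quo (XX X l) g') u) (du : Hom r u) :
    ∃ a1 a2 : ℝ, Coh (Quo (XX X l) g') u (F.pull pr (a1 • Fc ^ (r / 2) + a2 • x0)) ∧
      ∀ u₀ : U l, ‖u₀‖ = 1 →
        Coh X (F.pull (fun z => jj g' (z, u₀)) u) (a2 • x) := by
  have hG' := HG.gys H.emb' H.cir' H.clo' (conn_th (k := l) H.cir hθ) hF'
  have e1 : Coh (XX X l) (F.pull Prod.fst x) (F.pull (jj g') (F.pull pr x0)) :=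
    (h0.pull HY.smap_fstXX).trans (Coh.of_eqv (H.pull_pull x0).symm)
  have hB' := hG'.lowB H.cloB'.sub (HY.preconn_Quo H.emb' (isPreconnected_XX hc)) hr hr0
    (HY.low_XX H.clo.sub hc hL hJ) (sx.pull HY.smap_fstXX) (cx.pull HY.smap_fstXX sx)
    (s0.pull H.smap) (c0.pull H.smap s0) d0.pull e1
  obtain ⟨f, hf⟩ := hB'.even r u hr hrJ su cu du
  rw [Nat.div_self hr0, Finset.sum_range_succ, Finset.sum_range_succ, Finset.sum_range_zero,
    zero_add, pow_zero, one_mul, mul_zero, Nat.sub_zero, pow_one, mul_one, Nat.sub_self,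
    Nat.zero_div, pow_zero, mul_one] at hf
  have h2 : Eqv (Quo (XX X l) g') (f 0 • Fc' ^ (r / 2) + f 1 • F.pull pr x0)
      (F.pull pr ((f 0 * (1 / 2) ^ (r / 2)) • Fc ^ (r / 2) + f 1 • x0)) := by
    rw [pull_add', pull_smul', pull_smul', pull_pow', mul_smul]
    refine Eqv.add ((Eqv.pow (curv_half H hθ hF hF') (r / 2)).smul (f 0) |>.trans
      (Eqv.of_eq fun z _ => ?_)) (Eqv.refl _)
    rw [smul_pow]
  have h3 : Coh (Quo (XX X l) g') u
      (F.pull pr ((f 0 * (1 / 2) ^ (r / 2)) • Fc ^ (r / 2) + f 1 • x0)) :=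
    hf.trans (Coh.of_eqv h2)
  refine ⟨_, _, h3, fun u₀ hu => ?_⟩
  refine ((h3.pull (smap_slice H hu)).trans (Coh.of_eqv (slice_pull H hu _))).trans ?_
  rw [pull_add', pull_smul', pull_smul', pull_pow']
  obtain ⟨i, hi⟩ := Nat.exists_eq_add_of_lt (show 0 < r / 2 by
    obtain ⟨a, ha⟩ := hr; omega)
  have sF : Sm X (F.pull (jj g) Fc) := hF.sm.pull H.smap_jj
  have cF : Cl X (F.pull (jj g) Fc) := hF.cl.pull H.smap_jj hF.sm
  have h4 : Coh X (F.pull (jj g) Fc ^ (r / 2)) 0 := by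
    rw [hi, zero_add, pow_succ']
    exact HY.coh_mul_zero (sF.pow i) (Cl.pow sF cF i) (curv_exact hθ hF)
  have h5 := (h4.smul (f 0 * (1 / 2) ^ (r / 2))).add (h0.symm.smul (f 1))
  rwa [smul_zero, zero_add] at h5

end gen

variable {n N k m m₁ m₂ l : ℕ} {κ : ℝ} {S : Set (Euc N)} {G : Geo n N κ S} {p₀ : Euc N}
  {ι : Type} [Fintype ι] [DecidableEq ι] {W₀ : Euc N × Euc N → (ι × Fin 2 → Fin N) → ℝ}
  {x : Euc N → Ext (Euc N)} {g : Euc N × Euc N → Fin m₁ → ℂ}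
  {g' : (Euc N × Euc N) × U l → Fin m₂ → ℂ} {pr : MM m₂ → MM m₁}
  {Fc x0 : MM m₁ → Ext (MM m₁)} {Fc' u : MM m₂ → Ext (MM m₂)}

/-- **(hua)** -/
theorem hua {h : GT.Bla G k} (D : T.XM h m W₀ p₀ x)
    (H : HD (2 * (n - 1)) l (US G) (gf G) g g' pr) (hFc : Curv (US G) g al Fc)
    (hFc' : Curv (XX (US G) l) g' (th l al) Fc') (hl : k ≤ 2 * l)
    (s0 : Sm (Quo (US G) g) x0) (c0 : Cl (Quo (US G) g) x0) (d0 : Hom k x0)
    (h0 : Coh (US G) (F.pull Prod.fst x) (F.pull (jj g) x0))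
    (su : Sm (Quo (XX (US G) l) g') u) (cu : Cl (Quo (XX (US G) l) g') u) (du : Hom k u) :
    ∃ a1 a2 : ℝ, Coh (Quo (XX (US G) l) g') u (F.pull pr (a1 • Fc ^ (k / 2) + a2 • x0)) ∧
      ∀ u₀ : U l, ‖u₀‖ = 1 →
        Coh (US G) (F.pull (fun z => jj g' (z, u₀)) u) (a2 • F.pull Prod.fst x) := by
  have h2 := D.two_k
  have hkp := D.hk
  have hL : HY.Low (US G) (F.pull Prod.fst x) k (k + 1) := fun j b h1 h2 h3 h4 h5 =>
    HY.low_US D j b h1 (by omega) h3 h4 h5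
  exact hua_gen H (FV.preconn_US h.bl (by omega)) (conn_al (FV.sub_S h.bl)) hFc hFc' D.hke
    (by omega) (by omega) (by omega) hL (D.sx.pull HY.smap_fst_US)
    (D.cx.pull HY.smap_fst_US D.sx) s0 c0 d0 h0 su cu du

end Crest.Agent.R208.EA
end
end

-- ▼ part R208/EAd286
section

/-! Row 208, case (k, n) = (8, 16) (helper286).  EAd286: (DU) Poincare duality for the class of
degree `k` on the unit tangent bundle: there is a closed form `y` of degree `2 n - 1 - k` with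
`∫ x y ≠ 0`, namely `y = λ x^(m-1)` with `d λ = x^m`. -/

set_option autoImplicit false
set_option linter.unusedSectionVars false

open MeasureTheory Set Filter Topology Module
open scoped ContDiff RealInnerProductSpace Matrix
open Crest.GeometryTopology.Submanifold
open Crest.Agent.R241.DDefs
open Crest.Agent.R241.D2
open Crest.Agent.R208.F Crest.Agent.R208.FI Crest.Agent.R208.CW Crest.Agent.R208.T
open Crest.Agent.R208.L (US TanTS)

noncomputable section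

namespace Crest.Agent.R208.EA

universe u w

section gen
variable {E : Type u} {H : Type w} [NormedAddCommGroup E] [NormedSpace ℝ E] [FiniteDimensional ℝ E]
  [NormedAddCommGroup H] [InnerProductSpace ℝ H] [FiniteDimensional ℝ H]
  [MeasurableSpace H] [BorelSpace H] (μ : Measure H) [μ.IsAddHaarMeasure]
  {S : Set E} {PS : E → H →L[ℝ] H} {R c₀ : ℝ} {e : E → Ext E} {τ τ' b : E × H → Ext (E × H)}
  {n d : ℕ}

/-- top degree of the unit sphere bundle of a bundle of rank `n` over `S`, `dim S = n` -/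
theorem dim1_top (hS : FI.Sub n S) (hP : PField S n PS) (hnN : n ≤ finrank ℝ H)
    (hT : ThomPair μ S PS n R c₀ e τ τ') (hd : d + 1 = n + n) (hn : 2 ≤ n) (hD : Dim1 S n) :
    Dim1 (Sph S PS) d := by
  intro o b so co dO sb cb db
  obtain ⟨f1, f2⟩ := sm_cl_fi μ hS hP hT sb cb
  obtain ⟨g1, g2⟩ := sm_cl_fi μ hS hP hT so co
  obtain ⟨s, t, hst, h⟩ := hD _ _ g1 g2 (hom_fi μ hnN hT.deg' hd dO) f1 f2
    (hom_fi μ hnN hT.deg' hd db)
  refine ⟨s, t, hst, ?_⟩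
  have e1 := (fi_sub μ hS hP hT (so.smul s) (Cl.smul s so co) (sb.smul t)
      (Cl.smul t sb cb)).trans
    ((fi_smul μ s o hS hP hT so co).sub (fi_smul μ t b hS hP hT sb cb))
  obtain ⟨c, sc, cc, dc, hc⟩ := sph_of_fi μ hS hP hT ((so.smul s).sub (sb.smul t))
    (Cl.sub (so.smul s) (sb.smul t) (Cl.smul s so co) (Cl.smul t sb cb))
    ((dO.smul s).sub (db.smul t)) ((Coh.of_eqv e1).trans h)
  have h2 := (eqv_of_gt hS dc (by omega)).pull (smap_fstS (X := S) (P := PS))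
  rw [pull_zero'] at h2
  exact hc.trans (Coh.of_eqv h2)

end gen

variable {n N k m : ℕ} {κ : ℝ} {S : Set (Euc N)} {G : Geo n N κ S} {p : Euc N}
  {ι : Type} [Fintype ι] [DecidableEq ι] {W : Euc N × Euc N → (ι × Fin 2 → Fin N) → ℝ}
  {x : Euc N → Ext (Euc N)}

set_option maxHeartbeats 1000000 in
/-- top degree of `US`, and `λ x^m` is not exact -/
theorem top_US_aux {h : GT.Bla G k} (D : XM h m W p x) {d : ℕ} (hd : d + 1 = 2 * n)
    {lam : Euc N × Euc N → Ext (Euc N × Euc N)} (sl : Sm (Sph S G.P) lam) (dl : Hom (n - 1) lam)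
    (el : Eqv (Sph S G.P) (F.pull Prod.fst (x ^ m)) (F.d lam)) :
    Dim1 (Sph S G.P) d ∧ ¬ Coh (Sph S G.P) (lam * F.pull Prod.fst (x ^ m)) 0 := by
  have hk := D.hk
  have hkn := D.hkn
  have hm2 := D.hm
  have h2k := D.two_k
  have hle : n ≤ N := by
    have h1 := G.finrank_T p D.hp
    rw [← h1]
    exact (Submodule.finrank_le _).trans (by rw [finrank_euclideanSpace, Fintype.card_fin])
  obtain ⟨l, W', hl1, hl2, hO⟩ := D.exists_OR_S
  have : Nonempty (Fin l) := ⟨⟨0, by omega⟩⟩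
  have hι := D.hι
  have : Nonempty ι := Fintype.card_pos_iff.1 (by omega)
  obtain ⟨q, r, s, ⟨eq⟩, ⟨eq₂⟩⟩ := exists_par₂ (N := N) (a := l) (b := Fintype.card ι) (by omega)
    (by omega) (Fin l) ι (Fintype.card_fin l) rfl
  have hM : (iM (Fin N) (Fin q))ᵀ * iM (Fin N) (Fin q) = 1 := iM_iso (Fin q)
  have hS := FV.sub_S h.bl
  have hSc : IsPreconnected S := h.bl.conn.isPreconnected
  have hO' := hO.push hM
  obtain ⟨W₁, c₁, hT₁⟩ := exists_thomPair thd_holds eq hS hSc ⟨p, D.hp⟩ hO'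
  have hln : 2 * Fintype.card (Fin l) = n := by rw [Fintype.card_fin]; exact hl1
  rw [hln] at hT₁
  have hP₁ : PField S n (pushE (iM (Fin N) (Fin q)) G.P) := by
    have := hO'.pfield
    rwa [hln] at this
  have hfr : finrank ℝ (EuclideanSpace ℝ (Fin N ⊕ Fin q)) = N + q := by
    rw [finrank_euclideanSpace, Fintype.card_sum, Fintype.card_fin, Fintype.card_fin]
  set M := iM (Fin N) (Fin q) with hMd
  have si := smap_in (X := S) (P := G.P) hM
  have so := smap_out (X := S) (P := G.P) hM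
  have hfst : ∀ b : Euc N → Ext (Euc N), Eqv (Sph S (pushE M G.P))
      (F.pull (fun z : Euc N × EuclideanSpace ℝ (Fin N ⊕ Fin q) => (z.1, mE Mᵀ z.2))
        (F.pull Prod.fst b)) (F.pull Prod.fst b) := fun b =>
    eqv_pull_pull so smap_fstS smap_fstS (fun _ _ => rfl) b
  refine ⟨?_, fun hex => ?_⟩
  · have h1 := dim1_top volume hS hP₁ (by rw [hfr]; omega) hT₁ (d := d) (by omega) (by omega) D.dim1
    refine HRet.dim1 (f := fun z : Euc N × Euc N => (z.1, mE M z.2))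
      (g := fun z : Euc N × EuclideanSpace ℝ (Fin N ⊕ Fin q) => (z.1, mE Mᵀ z.2)) ⟨si, so, ?_⟩ h1
    intro b sb cb
    refine Coh.of_eqv (Eqv.symm ((eqv_pull_pull si so (SMap.id _) (fun z hz => ?_) b).trans
      (Eqv.of_eq fun z _ => F.pull_id b z)))
    change (z.1, mE Mᵀ (mE M z.2)) = z
    rw [mE_mE, hM, mE_one]
  · set g : Euc N × EuclideanSpace ℝ (Fin N ⊕ Fin q) → Euc N × Euc N :=
      fun z => (z.1, mE Mᵀ z.2) with hg
    have h1 := hex.pull so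
    rw [pull_zero', pull_mul'] at h1
    have h2 : Coh (Sph S (pushE M G.P)) (F.pull g lam * F.pull Prod.fst (x ^ m)) 0 :=
      (Coh.of_eqv ((Eqv.refl _).mul (hfst (x ^ m)).symm)).trans h1
    have sl' : Sm (Sph S (pushE M G.P)) (F.pull g lam) := sl.pull so
    have el' : Eqv (Sph S (pushE M G.P)) (F.d (F.pull g lam)) (F.pull Prod.fst (x ^ m)) :=
      (d_pull_eqv so sl).trans ((el.symm.pull so).trans (hfst (x ^ m)))
    have sxm : Sm S (x ^ m) := D.sx.pow m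
    have cxm : Cl S (x ^ m) := Cl.pow D.sx D.cx m
    have dxm : Hom n (x ^ m) := by rw [D.hn]; exact D.dx.pow m
    refine D.xm_ne (thom_inj volume hS hSc hP₁ (by rw [hfr]; omega) hT₁ (q := n - 1) (by omega)
      sl' dl.pull sxm cxm dxm el' D.xm_ne sxm cxm (η := 0) Sm.zero ?_ ?_)
    · rw [d_zero']
      exact (eqv_of_gt hS (dxm.mul dxm) (by omega)).symm
    · rw [pull_zero', sub_zero]; exact h2

/-- **(DU)** Poincare duality for the class of degree `k` on the unit tangent bundle. -/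
theorem exists_dual {h : GT.Bla G k} (D : XM h m W p x) {d : ℕ} (hd : d + 1 = 2 * n)
    {oU : Euc N × Euc N → Ext (Euc N × Euc N)} (ho : Ori d (US G) oU) :
    ∃ y : Euc N × Euc N → Ext (Euc N × Euc N), Sm (US G) y ∧ Cl (US G) y ∧ Hom (d - k) y ∧
      J d (US G) oU (F.pull Prod.fst x * y) ≠ 0 := by
  have hk := D.hk
  have hm := D.hm
  have h2k := D.two_k
  have hn := D.hn
  have hSU := FV.Sph_S (G := G)
  obtain ⟨lam, sl, dl, el⟩ := D.top_prim
  obtain ⟨hD1, hne⟩ := top_US_aux D hd sl dl el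
  have hS := FV.sub_S h.bl
  have sxm : Sm S (x ^ (m - 1)) := D.sx.pow (m - 1)
  have cxm : Cl S (x ^ (m - 1)) := Cl.pow D.sx D.cx (m - 1)
  have dxm : Hom (k * (m - 1)) (x ^ (m - 1)) := D.dx.pow (m - 1)
  have hkm : k * (m - 1) + k = n := by
    obtain ⟨m₀, rfl⟩ : ∃ m₀, m = m₀ + 1 := ⟨m - 1, by omega⟩
    rw [hn, Nat.add_sub_cancel]; ring
  have sp : Sm (Sph S G.P) (F.pull Prod.fst (x ^ (m - 1))) := sxm.pull smap_fstS
  have cp : Cl (Sph S G.P) (F.pull Prod.fst (x ^ (m - 1))) := cxm.pull smap_fstS sxm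
  refine ⟨lam * F.pull Prod.fst (x ^ (m - 1)), ?_, ?_, ?_, ?_⟩
  · rw [← hSU]; exact sl.mul sp
  · rw [← hSU, Cl, resZero_iff]
    refine (d_mul_eqv sl sp).trans ?_
    have a1 := (el.symm.mul (Eqv.refl (F.pull (Prod.fst : Euc N × Euc N → Euc N)
      (x ^ (m - 1))))).add ((Eqv.refl (X := Sph S G.P) (fun w => F.inv (lam w))).mul
        (resZero_iff.1 cp))
    rw [mul_zero, add_zero, ← pull_mul', ← pow_add] at a1
    refine a1.trans ?_
    have h1 : Eqv S (x ^ (m + (m - 1))) 0 := eqv_of_gt hS (D.dx.pow _) (by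
      rw [Nat.mul_add, ← hn]; omega)
    have := h1.pull (smap_fstS (X := S) (P := G.P))
    rwa [pull_zero'] at this
  · have := dl.mul (Hom.pull dxm (f := (Prod.fst : Euc N × Euc N → Euc N)))
    rwa [show n - 1 + k * (m - 1) = d - k by omega] at this
  · -- the integral
    rw [← hSU] at ho ⊢
    have hU : Clo d (Sph S G.P) := by rw [hSU]; exact SB.clo_US h hd
    have e1 : F.pull Prod.fst x * (lam * F.pull Prod.fst (x ^ (m - 1))) =
        lam * F.pull (Prod.fst : Euc N × Euc N → Euc N) (x ^ m) := by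
      have hc : Commute (F.pull (Prod.fst : Euc N × Euc N → Euc N) x) lam :=
        (Hom.pull D.dx).commute D.hke lam
      rw [← mul_assoc, hc.eq, mul_assoc, ← pull_mul', ← pow_succ', Nat.sub_add_cancel (by omega)]
    rw [e1]
    intro hJ
    obtain ⟨oS, hoS, soS, doS⟩ := GP.exists_ori (G := G) h.bl h.ty hk
    obtain ⟨l, W', hl1, hl2, hO⟩ := D.exists_OR_S
    have φ : Fin l × Fin 2 ≃ Fin n := Fintype.equivFinOfCardEq (by
      rw [Fintype.card_prod, Fintype.card_fin, Fintype.card_fin]; omega)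
    have hopr := SB.opr_of_OR φ hO
    have hP : PField S n G.P := by
      have := hO.pfield
      rwa [Fintype.card_fin, hl1] at this
    obtain ⟨-, o, hoo, soo, doo⟩ := exists_oU (by omega) (GP.clo_S h.bl) hP hopr hoS soS doS
    rw [show n - 1 + n = d by omega] at hoo doo
    have hne0 : (Sph S G.P).Nonempty := by rw [hSU]; exact nonempty_UST h D.hp
    have hpos : 0 < J d (Sph S G.P) o o := J_pos hU hoo hne0
    have hpc : IsPreconnected (Sph S G.P) := by rw [hSU]; exact FV.preconn_US h.bl (by omega)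
    have hpos' : J d (Sph S G.P) oU o ≠ 0 := by
      rcases J_ori_connected hU hoo ho hpc with h4 | h4
      · rw [h4]; exact hpos.ne'
      · rw [h4]; exact neg_ne_zero.2 hpos.ne'
    have sxm' : Sm S (x ^ m) := D.sx.pow m
    have dxm' : Hom n (x ^ m) := by rw [hn]; exact D.dx.pow m
    refine hne (exact_of_J hU ho hD1 soo doo hpos' (sl.mul (sxm'.pull smap_fstS)) ?_ hJ)
    have := dl.mul (Hom.pull dxm' (f := (Prod.fst : Euc N × Euc N → Euc N)))
    rwa [show n - 1 + n = d by omega] at this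

end Crest.Agent.R208.EA
end
end

-- ▼ part R208/AF15
section

/-! Row 208, block (A2) (helper601).  AF15: the restriction of helper997's form `psi φ (f^* om)`
along a map `s : K → X` is `psiK (2π)` of the family of loops `Fm (κ, t) = f (φ_t (s κ))`. -/

set_option autoImplicit false
set_option linter.unusedSectionVars false
set_option linter.unusedVariables false

open MeasureTheory Set Filter Topology Module
open scoped ContDiff
open Crest.Agent.R208.F Crest.Agent.R208.FI Crest.Agent.R208.CW Crest.Agent.R208.T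
open Crest.Agent.R208.VC (Act Wn iV cv tg dr rsL MM LAM YY)
open Crest.Agent.R208.CM (gen)

noncomputable section

namespace Crest.Agent.R208.AF

theorem fderiv_eq_tan {E F : Type*} [NormedAddCommGroup E] [NormedSpace ℝ E]
    [NormedAddCommGroup F] [NormedSpace ℝ F] {X : Set E} {f g : E → F} {x w : E}
    (hf : DifferentiableAt ℝ f x) (hg : DifferentiableAt ℝ g x) (h : ∀ y ∈ X, f y = g y)
    (hw : w ∈ Tan X x) : fderiv ℝ f x w = fderiv ℝ g x w := by
  refine Submodule.span_induction (p := fun w _ => fderiv ℝ f x w = fderiv ℝ g x w) ?_ ?_ ?_ ?_ hw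
  · rintro w ⟨γ, rfl, hγ, hS⟩
    have h1 := hf.hasFDerivAt.comp_hasDerivAt 0 hγ
    have h2 := hg.hasFDerivAt.comp_hasDerivAt 0 hγ
    have h3 : (f ∘ γ) =ᶠ[𝓝 0] (g ∘ γ) := hS.mono fun t ht => h _ ht
    exact (h1.congr_of_eventuallyEq h3.symm).unique h2
  · simp
  · intro a b _ _ ha hb; simp only [map_add, ha, hb]
  · intro r a _ ha; simp only [map_smul, ha]

universe u v
variable {E : Type u} [NormedAddCommGroup E] [NormedSpace ℝ E] [FiniteDimensional ℝ E]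
  {F' : Type v} [NormedAddCommGroup F'] [NormedSpace ℝ F'] [FiniteDimensional ℝ F']
  {E'' : Type*} [NormedAddCommGroup E''] [NormedSpace ℝ E''] [FiniteDimensional ℝ E'']
  {X : Set E} {φ : ℝ → E → E} {K : Set F'} {Y : Set E''} {s : F' → E} {f : E → E''}
  {Fm : F' × ℝ → E''} {om : E'' → Ext E''} {k : F'} {t : ℝ}

/-- the derivative of `s`, as a map of tangent spaces -/
def drT (hs : SMap K X s) (hk : k ∈ K) : Tan K k →ₗ[ℝ] Tan X (s k) :=
  (dr K s k).codRestrict _ fun w => fderiv_mapsTo_Tan (hs.diff hk) hs.maps w.2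

theorem pb_drT (hs : SMap K X s) (hk : k ∈ K) (c : Ext E) :
    pb (drT hs hk) (rsL X (s k) c) = pb (dr K s k) c := by
  rw [VC.rsL_apply, pb_comp]
  rfl

theorem alg_aux {V' : Type*} [NormedAddCommGroup V'] [NormedSpace ℝ V'] [FiniteDimensional ℝ V']
    {K : Set F'} {k : F'} {D : Tan K k →ₗ[ℝ] V'} {w z mw mz l : Ext V'}
    {W Z : F' × ℝ → Ext F'} {T : ℝ} {q : F' × ℝ}
    (h1 : pb D w = rs K k (W q)) (h2 : pb D z = rs K k (Z q))
    (h3 : pb D mw = rs K k (av T W q.1)) (h4 : pb D mz = rs K k (av T Z q.1))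
    (h5 : pb D l = rs K k (Lm T Z q)) (he : inv (rs K k (W q)) = rs K k (W q)) :
    pb D (((2 : ℝ) • (w * z) + mz * w + mw * z) * l) = rs K k (GK T W Z q) := by
  have e1 : rs K k (W q) * rs K k (Z q) = rs K k (Z q) * rs K k (W q) := even_comm he _
  rw [GK, rs_mul, map_add, map_add, map_smul, rs_mul, rs_mul, rs_mul, ← e1, map_mul, map_add,
    map_add, map_smul, map_mul, map_mul, map_mul, h1, h2, h3, h4, h5]

theorem scale_int {V' : Type*} [NormedAddCommGroup V'] [NormedSpace ℝ V'] (g : ℝ → V') :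
    ∫ r in (0 : ℝ)..1, g (2 * Real.pi * r) =
      (2 * Real.pi)⁻¹ • ∫ t in (0 : ℝ)..(2 * Real.pi), g t := by
  have hpi : (2 * Real.pi) ≠ 0 := by have := Real.pi_pos; positivity
  rw [intervalIntegral.integral_comp_mul_left g hpi, mul_zero, mul_one]

section slice
variable {V' : Type*} [NormedAddCommGroup V'] [NormedSpace ℝ V'] [FiniteDimensional ℝ V']
  {D : Tan K k →ₗ[ℝ] V'} {V : V'} {w : ℝ → Ext V'} {W Z : F' × ℝ → Ext F'}

/-- averages -/
theorem pb_avg (cw : Continuous w) (cW : Continuous fun t => W (k, t))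
    (hu : ∀ r, pb D (w r) = rs K k (W (k, 2 * Real.pi * r))) :
    pb D (∫ r in (0 : ℝ)..1, w r) = rs K k (av (2 * Real.pi) W k) := by
  rw [VC.pb_int D cw, rs_av cW]
  simp only [hu]
  exact scale_int fun t => rs K k (W (k, t))

theorem pb_MM_slice (cw : Continuous w) (cW : Continuous fun t => W (k, t))
    (hu : ∀ r, pb D (w r) = rs K k (W (k, 2 * Real.pi * r))) :
    pb D (MM w) = rs K k (av (2 * Real.pi) W k) := pb_avg cw cW hu

theorem pb_iMM_slice (cw : Continuous w) (cZ : Continuous fun t => Z (k, t))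
    (hv : ∀ r, pb D (ii V (w r)) = rs K k (Z (k, 2 * Real.pi * r))) :
    pb D (ii V (MM w)) = rs K k (av (2 * Real.pi) Z k) := by
  have h1 : ii V (MM w) = ∫ r in (0 : ℝ)..1, ii V (w r) :=
    ((iiL V).intervalIntegral_comp_comm (cw.intervalIntegrable 0 1)).symm
  rw [h1]
  exact pb_avg (VC.continuous_ii V cw) cZ hv

theorem pb_LAM_slice (cw : Continuous w) (cZ : Continuous fun t => Z (k, t))
    (hv : ∀ r, pb D (ii V (w r)) = rs K k (Z (k, 2 * Real.pi * r))) (r : ℝ) :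
    pb D (LAM V w r) = rs K k (Lm (2 * Real.pi) Z (k, 2 * Real.pi * r)) := by
  have hpi : (2 * Real.pi) ≠ 0 := by have := Real.pi_pos; positivity
  have c1 : Continuous fun τ : ℝ => (2 * Real.pi * (1 - τ)) • ii V (w (r + τ)) :=
    (by fun_prop : Continuous fun τ : ℝ => 2 * Real.pi * (1 - τ)).smul
      ((VC.continuous_ii V cw).comp (by fun_prop))
  have c2 : Continuous fun τ : ℝ => (1 - τ / (2 * Real.pi)) • Z (k, 2 * Real.pi * r + τ) := by
    have h2 : Continuous fun τ : ℝ => 2 * Real.pi * r + τ := by fun_prop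
    have h3 : Continuous fun τ : ℝ => 1 - τ / (2 * Real.pi) := by fun_prop
    exact h3.smul (cZ.comp h2)
  rw [LAM, VC.pb_int D c1]
  show _ = rs K k (∫ τ in (0 : ℝ)..(2 * Real.pi), (1 - τ / (2 * Real.pi)) •
    Z (k, 2 * Real.pi * r + τ))
  rw [rs_int c2]
  set g0 : ℝ → Ext (Tan K k) := fun t => rs K k ((1 - t / (2 * Real.pi)) •
      Z (k, 2 * Real.pi * r + t)) with hg0
  have h4 : ∫ t in (0 : ℝ)..(2 * Real.pi), g0 t =
      ∫ τ in (0 : ℝ)..1, (2 * Real.pi) • g0 (2 * Real.pi * τ) := by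
    rw [intervalIntegral.integral_smul, scale_int g0, smul_smul, mul_inv_cancel₀ hpi, one_smul]
  rw [h4]
  refine intervalIntegral.integral_congr fun τ _ => ?_
  simp only [hg0, map_smul, hv]
  rw [smul_smul, mul_div_cancel_left₀ _ hpi, mul_add]

/-- the second factor -/
theorem pb_iYA_slice (cw : Continuous w) (cW : Continuous fun t => W (k, t))
    (cZ : Continuous fun t => Z (k, t))
    (cL : Continuous fun t => Lm (2 * Real.pi) Z (k, t))
    (hu : ∀ r, pb D (w r) = rs K k (W (k, 2 * Real.pi * r)))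
    (hv : ∀ r, pb D (ii V (w r)) = rs K k (Z (k, 2 * Real.pi * r)))
    (he : ∀ t, inv (rs K k (W (k, t))) = rs K k (W (k, t))) :
    pb D (∫ r in (0 : ℝ)..1, ((2 : ℝ) • (w r * ii V (w r)) + ii V (MM w) * w r +
      MM w * ii V (w r)) * LAM V w r) = rs K k (av (2 * Real.pi) (GK (2 * Real.pi) W Z) k) := by
  have cii := VC.continuous_ii V cw
  have cI : Continuous fun r => ((2 : ℝ) • (w r * ii V (w r)) + ii V (MM w) * w r +
      MM w * ii V (w r)) * LAM V w r :=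
    VC.continuous_mul' ((((VC.continuous_mul' cw cii).const_smul 2).add
      (VC.continuous_mul' continuous_const cw)).add (VC.continuous_mul' continuous_const cii))
      (VC.continuous_LAM V cw)
  have cG : Continuous fun t => GK (2 * Real.pi) W Z (k, t) := by
    have q1 := (cont_mul cZ cW).const_smul (2 : ℝ)
    have q2 : Continuous fun t => av (2 * Real.pi) Z k * W (k, t) := cont_mul continuous_const cW
    have q3 : Continuous fun t => av (2 * Real.pi) W k * Z (k, t) := cont_mul continuous_const cZ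
    exact cont_mul ((q1.add q2).add q3) cL
  refine pb_avg cI cG fun r => ?_
  exact alg_aux (hu r) (hv r) (pb_MM_slice cw cW hu) (pb_iMM_slice cw cZ hv)
    (pb_LAM_slice cw cZ hv r) (he _)

end slice

section key
variable (h : Act X φ) (hs : SMap K X s) (hf : SMap X Y f) (hF : Fam K Y Fm)
  (he : ∀ k ∈ K, ∀ t, Fm (k, t) = f (φ t (s k)))
include h hs hf hF he

theorem diff_comp (hk : k ∈ K) (t : ℝ) : DifferentiableAt ℝ (fun y => f (φ t (s y))) k := by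
  have h1 := hs.diff hk
  have h2 := (VC.smap h t).diff (hs.maps hk)
  have h3 := hf.diff (h.maps t (hs.maps hk))
  exact DifferentiableAt.comp (g := f) (f := fun y => φ t (s y)) k h3
    (DifferentiableAt.comp (g := φ t) (f := s) k h2 h1)

/-- `W_t` -/
theorem u_eq (hk : k ∈ K) (t : ℝ) : pb (dr K s k) (F.pull (φ t) (F.pull f om) (s k)) =
    rs K k (WF Fm om (k, t)) := by
  have hx := hs.maps hk
  have h2 : F.pull (φ t) (F.pull f om) (s k) = F.pull (fun y => f (φ t y)) om (s k) :=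
    F.pull_comp (f := φ t) (g := f) ((VC.smap h t).diff hx) (hf.diff (h.maps t hx))
  have h3 : F.pull s (F.pull (fun y => f (φ t y)) om) k = F.pull (fun y => f (φ t (s y))) om k :=
    F.pull_comp (f := s) (g := fun y => f (φ t y)) (hs.diff hk)
      (DifferentiableAt.comp (g := f) (f := φ t) (s k) (hf.diff (h.maps t hx))
        ((VC.smap h t).diff hx))
  rw [h2]
  have h4 : pb (dr K s k) (F.pull (fun y => f (φ t y)) om (s k)) =
      rsL K k (F.pull s (F.pull (fun y => f (φ t y)) om) k) := (VC.pb_dr _ _).symm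
  rw [h4, h3]
  have dF : DifferentiableAt ℝ (fun y => Fm (y, t)) k :=
    ((hF.sm k hk t).comp k (contDiffAt_id.prodMk contDiffAt_const)).differentiableAt (by simp)
  exact Eqv.pull_congr (diff_comp h hs hf hF he hk t) dF hk fun y hy => (he y hy t).symm

/-- `ξ_t` -/
theorem v_eq (hk : k ∈ K) (t : ℝ) :
    pb (dr K s k) (ii (gen φ (s k)) (F.pull (φ t) (F.pull f om) (s k))) =
      rs K k (xiF Fm om (k, t)) := by
  have hx := hs.maps hk
  have hdφ := (VC.smap h t).diff hx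
  have hdf := hf.diff (h.maps t hx)
  have h2 : F.pull (φ t) (F.pull f om) (s k) = F.pull (fun y => f (φ t y)) om (s k) :=
    F.pull_comp (f := φ t) (g := f) hdφ hdf
  have hdA : DifferentiableAt ℝ (fun y => f (φ t y)) (s k) :=
    DifferentiableAt.comp (g := f) (f := φ t) (s k) hdf hdφ
  have dFm : HasFDerivAt Fm (fderiv ℝ Fm (k, t)) (k, t) :=
    ((hF.sm k hk t).differentiableAt (by simp)).hasFDerivAt
  -- time derivative
  have e1 : fderiv ℝ (fun y => f (φ t y)) (s k) (gen φ (s k)) = fderiv ℝ Fm (k, t) (0, 1) := by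
    have h3 : HasDerivAt (fun r => f (φ t (φ r (s k))))
        (fderiv ℝ (fun y => f (φ t y)) (s k) (gen φ (s k))) 0 := by
      have h4 := h.hasDerivAt hx 0
      rw [h.zero _ hx] at h4
      have h5 : HasFDerivAt (fun y => f (φ t y)) (fderiv ℝ (fun y => f (φ t y)) (s k))
          (φ 0 (s k)) := by rw [h.zero _ hx]; exact hdA.hasFDerivAt
      exact HasFDerivAt.comp_hasDerivAt (l := fun y => f (φ t y)) (f := fun r => φ r (s k)) 0 h5 h4
    have h6 : HasDerivAt (fun r => Fm (k, t + r)) (fderiv ℝ Fm (k, t) (0, 1)) 0 := by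
      have h7 : HasDerivAt (fun r : ℝ => ((k, t + r) : F' × ℝ)) (0, 1) 0 :=
        (hasDerivAt_const 0 k).prodMk ((hasDerivAt_id 0).const_add t)
      have h8 : HasFDerivAt Fm (fderiv ℝ Fm (k, t)) (k, t + 0) := by rw [add_zero]; exact dFm
      exact h8.comp_hasDerivAt 0 h7
    have h9 : (fun r => f (φ t (φ r (s k)))) = fun r => Fm (k, t + r) := by
      funext r
      rw [he k hk, h.add _ _ _ hx]
    rw [h9] at h3
    exact h3.unique h6
  -- space derivatives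
  have e2 : ∀ w ∈ Tan K k, fderiv ℝ (fun y => f (φ t y)) (s k) (fderiv ℝ s k w) =
      fderiv ℝ Fm (k, t) (w, 0) := by
    intro w hw
    have dF2 : HasFDerivAt (fun y => Fm (y, t)) ((fderiv ℝ Fm (k, t)).comp
        (ContinuousLinearMap.inl ℝ F' ℝ)) k :=
      dFm.comp k ((hasFDerivAt_id k).prodMk (hasFDerivAt_const t k))
    have dG : HasFDerivAt (fun y => f (φ t (s y)))
        ((fderiv ℝ (fun y => f (φ t y)) (s k)).comp (fderiv ℝ s k)) k :=
      HasFDerivAt.comp (g := fun y => f (φ t y)) (f := s) k hdA.hasFDerivAt (hs.diff hk).hasFDerivAt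
    have := fderiv_eq_tan (X := K) dG.differentiableAt dF2.differentiableAt
      (fun y hy => (he y hy t).symm) hw
    rw [dG.fderiv, dF2.fderiv] at this
    simpa using this
  rw [h2, rs_apply, xiF_eq, F.pull, ii_pb, pb_comp, pb_comp, ← he k hk]
  have e1' : (((fderiv ℝ (fun y => f (φ t y)) (s k) : E →L[ℝ] E'') : E →ₗ[ℝ] E'') (gen φ (s k))) =
    fderiv ℝ Fm (k, t) (0, 1) := e1
  rw [e1']
  congr 1
  refine congrArg _ (LinearMap.ext fun w => ?_)
  exact e2 w w.2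

/-- **the restriction of `psi`** -/
theorem psi_slice (hm : Sm Y om) (hev : ∀ y, inv (om y) = om y) :
    Eqv K (F.pull s (VC.psi φ (F.pull f om)))
      (psiK (2 * Real.pi) (WF Fm om) (xiF Fm om)) := by
  refine eqv_rs.2 fun k hk => ?_
  have hx := hs.maps hk
  have hb : Sm X (F.pull f om) := hm.pull hf
  have hbe : ∀ x ∈ X, F.inv (F.pull f om x) = F.pull f om x := fun x _ => by
    rw [F.pull, ← pb_inv, hev]
  have hpi : (2 * Real.pi) ≠ 0 := by have := Real.pi_pos; positivity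
  have cw := VC.continuous_cv h hb hx
  have cU : Continuous fun t => WF Fm om (k, t) := (hF.smF_W hm).cont hk
  have cZ : Continuous fun t => xiF Fm om (k, t) := (hF.smF_xi hm).cont hk
  have cL := cont_Lm (T := 2 * Real.pi) (hF.smF_xi hm) hk
  have hu : ∀ r, pb (drT hs hk) (cv X φ (F.pull f om) (s k) r) =
      rs K k (WF Fm om (k, 2 * Real.pi * r)) := by
    intro r
    rw [cv, pb_drT, VC.Wn_eq h hx]
    exact u_eq h hs hf hF he hk _
  have hv : ∀ r, pb (drT hs hk) (ii (tg h hx) (cv X φ (F.pull f om) (s k) r)) =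
      rs K k (xiF Fm om (k, 2 * Real.pi * r)) := by
    intro r
    have h1 : ii (tg h hx) (cv X φ (F.pull f om) (s k) r) =
        rsL X (s k) (ii (gen φ (s k)) (Wn φ (F.pull f om) (s k, r))) :=
      (VC.pb_ii_tan (h.gen_mem hx) _).symm
    rw [h1, pb_drT, VC.Wn_eq h hx]
    exact v_eq h hs hf hF he hk _
  have h1 : rs K k (F.pull s (VC.psi φ (F.pull f om)) k) =
      pb (drT hs hk) (rsL X (s k) (VC.psi φ (F.pull f om) (s k))) := by
    rw [pb_drT]
    exact VC.pb_dr _ _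
  have h2 : rsL X (s k) (VC.psi φ (F.pull f om) (s k)) =
      rsL X (s k) (VC.xi φ (F.pull f om) (s k)) *
      rsL X (s k) (iV φ (YY φ (F.pull f om)) (s k)) := by
    rw [VC.rsL_apply, VC.rsL_apply, VC.rsL_apply, ← map_mul]
    rfl
  have h3 := pb_iYA_slice cw cU cZ cL hu hv (fun t => by rw [rs_inv, inv_WF hev])
  rw [h1, h2, map_mul, VC.rs_xi h hb hx, VC.rs_iYY h hb hbe hx, h3, pb_iMM_slice cw cZ hv, psiK,
    rs_mul]

end key

end Crest.Agent.R208.AF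
end
end

-- ▼ part R208/TP10

/-! Row 208, block TP (helper382).  TP10: the slice of the level-two data over the geometric
package `Gm82` of helper530. -/

set_option autoImplicit false
set_option linter.unusedSectionVars false
set_option linter.unusedVariables false

open MeasureTheory Set Filter Topology Module
open scoped ContDiff RealInnerProductSpace Real
open Crest.GeometryTopology.Submanifold
open Crest.Agent.R241.DDefs Crest.Agent.R241.D Crest.Agent.R241.D2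
open Crest.Agent.R208.F Crest.Agent.R208.FI Crest.Agent.R208.CW Crest.Agent.R208.T
open Crest.Agent.R208.CM (Cir gen Rep Triv Qd phR Th gf Emb Quo MM jj Curv)
open Crest.Agent.R208.LB (al)
open Crest.Agent.R208.VC hiding Wt
open Crest.Agent.R208.MS (Fam oc En)
open Crest.Agent.R208.FL (D0 D1 Ph)
open Crest.Agent.R208.FT (D2 XI RN xiN gp lev)
open Crest.Agent.R208.NN (Wt Rt nuP)
open Crest.Agent.R208.TP (CV push pu₂ up Slc sj)
open Crest.Agent.R208.EX (ED Up Cn)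

noncomputable section

namespace Crest.Agent.R208.TP

/-- the half connection on a slice -/
theorem pull_sj_th {E : Type} [NormedAddCommGroup E] [NormedSpace ℝ E] [FiniteDimensional ℝ E]
    {l : ℕ} (u₀ : HW.U l) (θ : E → Ext E) :
    F.pull (sj u₀) (HW.th l θ) = (1 / 2 : ℝ) • θ := by
  funext z
  have h1 : F.pull (sj u₀) (F.pull (Prod.fst : E × HW.U l → E) θ) z = F.pull (fun z => z) θ z :=
    F.pull_comp (f := sj (E := E) u₀) (g := (Prod.fst : E × HW.U l → E)) (om := θ) (x := z)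
      (by unfold sj; fun_prop) differentiableAt_fst
  rw [F.pull_id] at h1
  have h2 : F.pull (sj u₀) (HW.th l θ) z =
      (1 / 2 : ℝ) • F.pull (sj u₀) (F.pull (Prod.fst : E × HW.U l → E) θ) z := by
    unfold F.pull
    exact map_smul (pb ((fderiv ℝ (sj (E := E) u₀) z : E →L[ℝ] E × HW.U l) :
      E →ₗ[ℝ] E × HW.U l)) _ _
  rw [h2, h1]
  rfl

end Crest.Agent.R208.TP

namespace Crest.Agent.R208.EX

section geo
variable {n N K s m m' l c s' s₂ c₂ : ℕ} {κ : ℝ} {S : Set (Euc N)} {G : Geo n N κ S}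
  {lg : Euc N → Euc N → Euc N} {ρ : Euc N → Euc N} {r C r' Kr B w δ δ₂ : ℝ}
  {PN : Euc N × Euc N → Wt N K →L[ℝ] Wt N K}
  {h : GT.Bla G (2 * s + 2)} {g : Euc N × Euc N → Fin m → ℂ} {Fc : MM m → Ext (MM m)}
  {g' : (Euc N × Euc N) × HW.U l → Fin m' → ℂ} {p : MM m' → MM m}
  {T : Euc N × Euc N → Wt N K →L[ℝ] EuclideanSpace ℝ (Fin (2 * c + 1))}
  {P' : MM m → EuclideanSpace ℝ (Fin (2 * c + 1)) →L[ℝ] EuclideanSpace ℝ (Fin (2 * c + 1))}
  {o' : MM m → Ext (EuclideanSpace ℝ (Fin (2 * c + 1)))}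
  {W' : MM m → (Fin (s' + 1) × Fin 2 → Fin (2 * c + 1)) → ℝ}
  {oN : Euc N × Euc N → Ext (Wt N K)}
  {T₂ : (Euc N × Euc N) × HW.U l →
    EuclideanSpace ℝ (((Fin K × Fin 2) × Fin N) ⊕ ((Fin K × Fin 2) × Fin N)) →L[ℝ]
      EuclideanSpace ℝ (Fin (2 * c₂))}
  {P₂' : MM m' → EuclideanSpace ℝ (Fin (2 * c₂)) →L[ℝ] EuclideanSpace ℝ (Fin (2 * c₂))}
  {W₂' : MM m' → (Fin (2 * s + 1) × Fin 2 → Fin (2 * c₂)) → ℝ}
  {W₂'' : MM m' → (Fin (s₂ + 1) × Fin 2 → Fin (2 * c₂)) → ℝ}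
  {V' : (MM m' × EuclideanSpace ℝ (Fin (2 * c₂))) × EuclideanSpace ℝ (Fin (2 * c + 1)) →
    Ext ((MM m' × EuclideanSpace ℝ (Fin (2 * c₂))) × EuclideanSpace ℝ (Fin (2 * c + 1)))}
  {η : (((Euc N × Euc N) × HW.U l) ×
    EuclideanSpace ℝ (((Fin K × Fin 2) × Fin N) ⊕ ((Fin K × Fin 2) × Fin N))) × Wt N K →
      Ext ((((Euc N × Euc N) × HW.U l) ×
        EuclideanSpace ℝ (((Fin K × Fin 2) × Fin N) ⊕ ((Fin K × Fin 2) × Fin N))) × Wt N K)}

/-- **the slice over the package**: `TP.slc82`, all geometric hypotheses filled -/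
theorem Gm82.slc (Q : Gm82 h K l lg ρ r C r' Kr B w δ δ₂ PN g Fc g' p T P' o' W' oN T₂ P₂' W₂')
    {D : ED N} {ε ε₂ E₀ η₀ : ℝ} {J : ℕ} (hD : D.OK) (hDS : D.S = S)
    (h2 : D2 G (2 * s + 2) K lg ρ r C r' Kr B w δ PN ε J E₀ η₀ (DD.NN PN) (RN N K) (xiN h PN)
      δ₂ ε₂) (hη₀ : 2 * η₀ ≤ π - (δ / 4) * ε ^ 2) (hlev : lev δ δ₂ ε ε₂ ≤ D.B) (j : ℕ)
    (hor : OR (Quo (HW.XX (L.US G) l) g') (fun y => 1 - P₂' y) W₂'')
    (hη : D.IsEta (Up (FT.TX (HW.XX (L.US G) l) Prod.fst (DD.NN PN) PN) FT.c2)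
      (FT.P2x (HW.ph l (gf G)) N K (RN N K)) (F.pull EA.b₂ (HW.th l (al (N := N))))
      (FT.f2x G lg ρ w J (xiN h PN) ε ε₂ Prod.fst) η)
    (hV : CV (Quo (HW.XX (L.US G) l) g') P₂' (fun y => P' (p y)) 3 V') (hVj : Hom j V')
    (hQ : Eqv (FT.TX (HW.XX (L.US G) l) Prod.fst (DD.NN PN) PN)
      (F.pull (EA.Q₂ (jj g') T₂ fun z => T z.1) V')
      (dp j (D.rel (FT.P2x (HW.ph l (gf G)) N K (RN N K)) (F.pull EA.b₂ (HW.th l (al (N := N))))
        (FT.f2x G lg ρ w J (xiN h PN) ε ε₂ Prod.fst) FT.c2 η)))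
    {u₀ : HW.U l} (hu : ‖u₀‖ = 1) :
    Slc G PN s (Quo (HW.XX (L.US G) l) g') (fun z => jj g' (z, u₀)) T (fun z => T₂ (z, u₀))
      (fun y => P' (p y)) P₂' (fun y => W' (p y)) W₂'' V' D j ((1 / 2 : ℝ) • al (N := N))
      (fun x t => FT.f2 G lg ρ w J (xiN h PN) ε ε₂ (FT.Ph2 G K (RN N K) t x))
      (F.pull (up (up (sj u₀))) (D.rel (FT.P2x (HW.ph l (gf G)) N K (RN N K))
        (F.pull EA.b₂ (HW.th l (al (N := N))))
        (FT.f2x G lg ρ w J (xiN h PN) ε ε₂ Prod.fst) FT.c2 η)) := by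
  have key := TP.slc82 hD hDS Q.hd Q.eqF Q.dsc (funext FT.RN_two) ⟨-1, by norm_num⟩ Q.dsc2 h2
    (fun z hz hc => (h2.level_unif hη₀ (FT.eqm_XX l) hz hc).trans hlev) Q.cn' j hor hη hV hVj hQ
    (HW.mem_SU.2 hu)
  rwa [TP.pull_sj_th] at key

end geo

end Crest.Agent.R208.EX
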