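import Crest.Agent.R208.TX3

-- ▼ part R208/TX4
section

/-! Row 208, block T (helper316).  TX4: antisymmetry of the pairing, `h_m(x₁, x₂) = 0` (X1d) and
non-degeneracy (X1c), abstract form. -/

set_option autoImplicit false
set_option linter.unusedSectionVars false

open MeasureTheory Set Filter Topology Module
open scoped ContDiff
open Crest.Agent.R208.F Crest.Agent.R208.FI Crest.Agent.R208.CW

noncomputable section

namespace Crest.Agent.R208.T

universe u u' w w'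

section comm
variable {E : Type*} [NormedAddCommGroup E] [NormedSpace ℝ E] [FiniteDimensional ℝ E]
  {a b : E → Ext E} {k : ℕ}

theorem Hom.commute (ha : Hom k a) (hk : Even k) (b : E → Ext E) : Commute a b := by
  funext x
  have h1 : F.inv (a x) = a x := by rw [inv_deg (ha x), hk.neg_one_pow, one_smul]
  exact even_mul_comm h1 (b x)

/-- complete homogeneous polynomial `∑ a^i b^(m-i)` -/
def hm (m : ℕ) (a b : E → Ext E) : E → Ext E := ∑ i ∈ Finset.range (m + 1), a ^ i * b ^ (m - i)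

theorem hm_mul (hab : Commute a b) (m : ℕ) : (b - a) * hm m a b = b ^ (m + 1) - a ^ (m + 1) := by
  have h1 := hab.mul_geom_sum₂ (m + 1)
  have h2 : (∑ i ∈ Finset.range (m + 1), a ^ i * b ^ (m + 1 - 1 - i)) = hm m a b := by
    rw [hm]; simp
  rw [h2] at h1
  rw [← neg_sub a b, neg_mul, h1, neg_sub]

theorem Hom.sum {ι : Type*} {s : Finset ι} {f : ι → E → Ext E} {j : ℕ}
    (h : ∀ i ∈ s, Hom j (f i)) : Hom j (∑ i ∈ s, f i) := by
  classical
  induction s using Finset.induction_on with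
  | empty => exact Hom.zero
  | insert a s ha ih =>
    rw [Finset.sum_insert ha]
    exact (h a (Finset.mem_insert_self _ _)).add
      (ih fun i hi => h i (Finset.mem_insert_of_mem hi))

theorem Sm.sum {ι : Type*} {X : Set E} {s : Finset ι} {f : ι → E → Ext E}
    (h : ∀ i ∈ s, Sm X (f i)) : Sm X (∑ i ∈ s, f i) := by
  classical
  induction s using Finset.induction_on with
  | empty => exact Sm.zero
  | insert a s ha ih =>
    rw [Finset.sum_insert ha]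
    exact (h a (Finset.mem_insert_self _ _)).add
      (ih fun i hi => h i (Finset.mem_insert_of_mem hi))

theorem Cl.sum {ι : Type*} {X : Set E} {s : Finset ι} {f : ι → E → Ext E}
    (h : ∀ i ∈ s, Sm X (f i)) (hc : ∀ i ∈ s, Cl X (f i)) : Cl X (∑ i ∈ s, f i) := by
  classical
  induction s using Finset.induction_on with
  | empty => exact Cl.const 0
  | insert a s ha ih =>
    rw [Finset.sum_insert ha]
    exact Cl.add (h a (Finset.mem_insert_self _ _))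
      (Sm.sum fun i hi => h i (Finset.mem_insert_of_mem hi)) (hc a (Finset.mem_insert_self _ _))
      (ih (fun i hi => h i (Finset.mem_insert_of_mem hi))
        fun i hi => hc i (Finset.mem_insert_of_mem hi))

theorem Eqv.sum {ι : Type*} {X : Set E} {s : Finset ι} {f g : ι → E → Ext E}
    (h : ∀ i ∈ s, Eqv X (f i) (g i)) : Eqv X (∑ i ∈ s, f i) (∑ i ∈ s, g i) := by
  classical
  induction s using Finset.induction_on with
  | empty => exact Eqv.refl _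
  | insert a s ha ih =>
    rw [Finset.sum_insert ha, Finset.sum_insert ha]
    exact (h a (Finset.mem_insert_self _ _)).add
      (ih fun i hi => h i (Finset.mem_insert_of_mem hi))

theorem hom_hm {m : ℕ} (ha : Hom k a) (hb : Hom k b) : Hom (k * m) (hm m a b) :=
  Hom.sum fun i hi => by
    have := (ha.pow i).mul (hb.pow (m - i))
    rwa [← mul_add, Nat.add_sub_cancel' (by rw [Finset.mem_range] at hi; omega)] at this

theorem sm_hm {X : Set E} {m : ℕ} (ha : Sm X a) (hb : Sm X b) : Sm X (hm m a b) :=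
  Sm.sum fun i _ => (ha.pow i).mul (hb.pow _)

theorem cl_hm {X : Set E} {m : ℕ} (ha : Sm X a) (hb : Sm X b) (ca : Cl X a) (cb : Cl X b) :
    Cl X (hm m a b) :=
  Cl.sum (fun i _ => (ha.pow i).mul (hb.pow _))
    fun i _ => Cl.mul (ha.pow i) (hb.pow _) (Cl.pow ha ca i) (Cl.pow hb cb _)

theorem pull_sum' {E' : Type*} [NormedAddCommGroup E'] [NormedSpace ℝ E'] [FiniteDimensional ℝ E']
    {ι : Type*} (s : Finset ι) (f : E' → E) (g : ι → E → Ext E) :
    F.pull f (∑ i ∈ s, g i) = ∑ i ∈ s, F.pull f (g i) := by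
  classical
  induction s using Finset.induction_on with
  | empty => exact pull_zero' f
  | insert a s ha ih => rw [Finset.sum_insert ha, Finset.sum_insert ha, pull_add', ih]

theorem pull_hm {E' : Type*} [NormedAddCommGroup E'] [NormedSpace ℝ E'] [FiniteDimensional ℝ E']
    (f : E' → E) (m : ℕ) : F.pull f (hm m a b) = hm m (F.pull f a) (F.pull f b) := by
  rw [hm, hm, pull_sum']
  refine Finset.sum_congr rfl fun i _ => ?_
  rw [pull_mul', pull_pow', pull_pow']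

theorem eqv_hm {X : Set E} {m : ℕ} {a' b' : E → Ext E} (h : Eqv X a a') (h' : Eqv X b b') :
    Eqv X (hm m a b) (hm m a' b') := Eqv.sum fun i _ => (h.pow i).mul (h'.pow _)

end comm

section swap
variable {E : Type u} {H : Type w} {E₂ : Type u'} {H₂ : Type w'}
  [NormedAddCommGroup E] [NormedSpace ℝ E] [FiniteDimensional ℝ E]
  [NormedAddCommGroup H] [InnerProductSpace ℝ H] [FiniteDimensional ℝ H]
  [NormedAddCommGroup E₂] [NormedSpace ℝ E₂] [FiniteDimensional ℝ E₂]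
  [NormedAddCommGroup H₂] [InnerProductSpace ℝ H₂] [FiniteDimensional ℝ H₂]
  {S : Set E} {PS : E → H →L[ℝ] H} {X : Set E₂} {PX : E₂ → H₂ →L[ℝ] H₂}
  {π₁ π₂ : E₂ → E} {fS : E₂ × H₂ → E × H} {gS : E × H → E₂ × H₂} {φ : E × H → E × H}
  {R c₀ RX cX : ℝ} {e : E → Ext E} {τ τ' : E × H → Ext (E × H)} {eX : E₂ → Ext E₂}
  {τX τX' : E₂ × H₂ → Ext (E₂ × H₂)} {κ : E₂ × H₂ → Ext (E₂ × H₂)}
  {n k m q dU dX i j : ℕ} {oU o : E × H → Ext (E × H)} {x : E → Ext E}
  [MeasurableSpace H] [BorelSpace H] (μ : Measure H) [μ.IsAddHaarMeasure]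
  [MeasurableSpace H₂] [BorelSpace H₂] (μ₂ : Measure H₂) [μ₂.IsAddHaarMeasure]

/-- the geometry of the unit tangent bundle `Sph S PS ≅ Sph X PX` of `S`, with the flip `φ` -/
structure UD (n k q dU : ℕ) (S : Set E) (PS : E → H →L[ℝ] H) (X : Set E₂)
    (PX : E₂ → H₂ →L[ℝ] H₂) (π₁ π₂ : E₂ → E) (fS : E₂ × H₂ → E × H) (gS : E × H → E₂ × H₂)
    (φ : E × H → E × H) (oU : E × H → Ext (E × H)) (x : E → Ext E)
    (κ : E₂ × H₂ → Ext (E₂ × H₂)) : Prop where
  hπ₁ : SMap X S π₁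
  hπ₂ : SMap X S π₂
  hf : SMap (Sph X PX) (Sph S PS) fS
  hg : SMap (Sph S PS) (Sph X PX) gS
  hgf : ∀ z ∈ Sph X PX, gS (fS z) = z
  hfst : ∀ w ∈ Sph S PS, π₁ (gS w).1 = w.1
  hφ : SMap (Sph S PS) (Sph S PS) φ
  hφ₁ : ∀ w ∈ Sph S PS, π₁ (gS (φ w)).1 = π₂ (gS w).1
  hφ₂ : ∀ w ∈ Sph S PS, π₂ (gS (φ w)).1 = π₁ (gS w).1
  hU : Clo dU (Sph S PS)
  ho : Ori dU (Sph S PS) oU
  hJφ : ∀ b, Sm (Sph S PS) b → Hom dU b → J dU (Sph S PS) oU (F.pull φ b) = J dU (Sph S PS) oU b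
  hexq : ExactIn (Sph S PS) q
  sx : Sm S x
  cx : Cl S x
  dx : Hom k x
  hke : Even k
  hq : q + 1 = k
  sκ : Sm (Sph X PX) κ
  dκ : Hom q κ
  eκ : Eqv (Sph X PX) (F.d κ) (F.pull Prod.fst (F.pull π₂ x - F.pull π₁ x))

theorem UD.s1 (D : UD n k q dU S PS X PX π₁ π₂ fS gS φ oU x κ) :
    SMap (Sph S PS) S (fun w => π₁ (gS w).1) := D.hπ₁.comp (smap_fstS.comp D.hg)

theorem UD.s2 (D : UD n k q dU S PS X PX π₁ π₂ fS gS φ oU x κ) :
    SMap (Sph S PS) S (fun w => π₂ (gS w).1) := D.hπ₂.comp (smap_fstS.comp D.hg)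

/-- `x₁`, `x₂` on the unit tangent bundle -/
def y1 (π₁ : E₂ → E) (gS : E × H → E₂ × H₂) (x : E → Ext E) : E × H → Ext (E × H) :=
  F.pull (fun w => π₁ (gS w).1) x

theorem UD.sm1 (D : UD n k q dU S PS X PX π₁ π₂ fS gS φ oU x κ) : Sm (Sph S PS) (y1 π₁ gS x) :=
  D.sx.pull D.s1
theorem UD.sm2 (D : UD n k q dU S PS X PX π₁ π₂ fS gS φ oU x κ) : Sm (Sph S PS) (y1 π₂ gS x) :=
  D.sx.pull D.s2
theorem UD.cl1 (D : UD n k q dU S PS X PX π₁ π₂ fS gS φ oU x κ) : Cl (Sph S PS) (y1 π₁ gS x) :=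
  D.cx.pull D.s1 D.sx
theorem UD.cl2 (D : UD n k q dU S PS X PX π₁ π₂ fS gS φ oU x κ) : Cl (Sph S PS) (y1 π₂ gS x) :=
  D.cx.pull D.s2 D.sx

theorem UD.smκ (D : UD n k q dU S PS X PX π₁ π₂ fS gS φ oU x κ) : Sm (Sph S PS) (F.pull gS κ) :=
  D.sκ.pull D.hg

theorem UD.pull_fst (D : UD n k q dU S PS X PX π₁ π₂ fS gS φ oU x κ) (i : ℕ) :
    Eqv (Sph S PS) (F.pull Prod.fst (x ^ i)) (y1 π₁ gS x ^ i) := by
  rw [pull_pow']
  refine Eqv.pow (Eqv.symm ?_) i
  exact eqv_pull_of_eq x (fun w hw => D.s1.diff hw) (fun w hw => smap_fstS.diff hw) D.hfst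

theorem UD.pull3 (D : UD n k q dU S PS X PX π₁ π₂ fS gS φ oU x κ) {π : E₂ → E}
    (hπ : SMap X S π) (a : E → Ext E) :
    Eqv (Sph S PS) (F.pull gS (F.pull Prod.fst (F.pull π a))) (y1 π gS a) := by
  have h1 : SMap (Sph X PX) S (fun z => π z.1) := hπ.comp smap_fstS
  have h2 : SMap (Sph S PS) S (fun w => π (gS w).1) := h1.comp D.hg
  have e1 : Eqv (Sph X PX) (F.pull Prod.fst (F.pull π a)) (F.pull (fun z : E₂ × H₂ => π z.1) a) :=
    eqv_pull_pull smap_fstS hπ h1 (fun _ _ => rfl) a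
  exact (e1.pull D.hg).trans (eqv_pull_pull D.hg h1 h2 (fun _ _ => rfl) a)

theorem UD.dκ' (D : UD n k q dU S PS X PX π₁ π₂ fS gS φ oU x κ) :
    Eqv (Sph S PS) (F.d (F.pull gS κ)) (y1 π₂ gS x - y1 π₁ gS x) := by
  refine (d_pull_eqv D.hg D.sκ).trans ((D.eκ.pull D.hg).trans ?_)
  rw [pull_sub', pull_sub']
  exact (D.pull3 D.hπ₂ x).sub (D.pull3 D.hπ₁ x)

/-- the flip on `κ` -/
theorem UD.flip (D : UD n k q dU S PS X PX π₁ π₂ fS gS φ oU x κ) :
    ∃ ζ, Sm (Sph S PS) ζ ∧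
      Eqv (Sph S PS) (F.pull φ (F.pull gS κ)) (F.d ζ - F.pull gS κ) := by
  have s3 : Sm (Sph S PS) (F.pull φ (F.pull gS κ)) := D.smκ.pull D.hφ
  have e1 : Eqv (Sph S PS) (F.pull φ (y1 π₂ gS x)) (y1 π₁ gS x) :=
    eqv_pull_pull D.hφ D.s2 D.s1 D.hφ₂ x
  have e2 : Eqv (Sph S PS) (F.pull φ (y1 π₁ gS x)) (y1 π₂ gS x) :=
    eqv_pull_pull D.hφ D.s1 D.s2 D.hφ₁ x
  have e3 : Eqv (Sph S PS) (F.d (F.pull φ (F.pull gS κ))) (y1 π₁ gS x - y1 π₂ gS x) := by
    refine (d_pull_eqv D.hφ D.smκ).trans ((D.dκ'.pull D.hφ).trans ?_)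
    rw [pull_sub']
    exact e1.sub e2
  have c1 : Cl (Sph S PS) (F.pull φ (F.pull gS κ) + F.pull gS κ) := by
    rw [Cl, resZero_iff]
    refine (d_add_eqv s3 D.smκ).trans ((e3.add D.dκ').trans ?_)
    rw [sub_add_sub_cancel, sub_self]
    exact Eqv.refl _
  obtain ⟨ζ, sζ, eζ⟩ := D.hexq _ (s3.add D.smκ) c1 (D.dκ.pull.pull.add D.dκ.pull)
  refine ⟨ζ, sζ, ?_⟩
  rw [sub_zero] at eζ
  have := eζ.sub (Eqv.refl (F.pull gS κ))
  rwa [add_sub_cancel_right] at this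

/-- **antisymmetry of the pairing** -/
theorem UD.antisymm (D : UD n k q dU S PS X PX π₁ π₂ fS gS φ oU x κ)
    (hij : q + (k * i + k * j) = dU) :
    J dU (Sph S PS) oU (F.pull gS κ * (y1 π₁ gS x ^ i * y1 π₂ gS x ^ j)) =
      - J dU (Sph S PS) oU (F.pull gS κ * (y1 π₁ gS x ^ j * y1 π₂ gS x ^ i)) := by
  set K := F.pull gS κ with hK
  set a := y1 π₁ gS x with ha
  set b := y1 π₂ gS x with hb
  have sK : Sm (Sph S PS) K := D.smκ
  have sa : Sm (Sph S PS) a := D.sm1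
  have sb : Sm (Sph S PS) b := D.sm2
  have da : Hom k a := Hom.pull D.dx
  have db : Hom k b := Hom.pull D.dx
  have hab : Commute a b := da.commute D.hke b
  have s1 : Sm (Sph S PS) (K * (a ^ i * b ^ j)) := sK.mul ((sa.pow i).mul (sb.pow j))
  have d1 : Hom dU (K * (a ^ i * b ^ j)) := by
    have := (Hom.pull D.dκ (f := gS)).mul ((da.pow i).mul (db.pow j))
    rwa [hij] at this
  rw [← D.hJφ _ s1 d1]
  obtain ⟨ζ, sζ, eζ⟩ := D.flip
  have e1 : Eqv (Sph S PS) (F.pull φ b) a := eqv_pull_pull D.hφ D.s2 D.s1 D.hφ₂ x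
  have e2 : Eqv (Sph S PS) (F.pull φ a) b := eqv_pull_pull D.hφ D.s1 D.s2 D.hφ₁ x
  have e3 : Eqv (Sph S PS) (F.pull φ (K * (a ^ i * b ^ j)))
      (F.d ζ * (a ^ j * b ^ i) - K * (a ^ j * b ^ i)) := by
    rw [pull_mul', pull_mul', pull_pow', pull_pow', ← sub_mul]
    refine eζ.mul ?_
    refine ((e2.pow i).mul (e1.pow j)).trans ?_
    rw [(hab.pow_pow j i).eq]
    exact Eqv.refl _
  rw [J_of_eqv D.hU e3]
  have s2 : Sm (Sph S PS) (a ^ j * b ^ i) := (sa.pow j).mul (sb.pow i)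
  have c2 : Cl (Sph S PS) (a ^ j * b ^ i) := Cl.mul (sa.pow j) (sb.pow i) (Cl.pow sa D.cl1 j)
    (Cl.pow sb D.cl2 i)
  have h3 : J dU (Sph S PS) oU (F.d ζ * (a ^ j * b ^ i) - K * (a ^ j * b ^ i)) =
      J dU (Sph S PS) oU (F.d ζ * (a ^ j * b ^ i)) - J dU (Sph S PS) oU (K * (a ^ j * b ^ i)) :=
    J_sub D.hU D.ho (sζ.d.mul s2).contOn (sK.mul s2).contOn
  have h4 : J dU (Sph S PS) oU (F.d ζ * (a ^ j * b ^ i)) = 0 := by
    refine J_of_exact D.hU D.ho (ζ * (a ^ j * b ^ i)) (sζ.mul s2) ?_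
    refine Eqv.symm ((d_mul_eqv sζ s2).trans ?_)
    have := (Eqv.refl (F.d ζ * (a ^ j * b ^ i))).add
      ((Eqv.refl (fun w => F.inv (ζ w))).mul (resZero_iff.1 c2))
    rwa [mul_zero, add_zero] at this
  rw [h3, h4, zero_sub]

end swap

end Crest.Agent.R208.T
end
end

-- ▼ part R208/TX5

/-! Row 208, block T (helper316).  TX5: `h_m(x₁, x₂) = 0` (X1d) and non-degeneracy of the pairing
(X1c), abstract form. -/

set_option autoImplicit false
set_option linter.unusedSectionVars false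

open MeasureTheory Set Filter Topology Module
open scoped ContDiff
open Crest.Agent.R208.F Crest.Agent.R208.FI Crest.Agent.R208.CW

noncomputable section

namespace Crest.Agent.R208.T

universe u u' w w'

variable {E : Type u} {H : Type w} {E₂ : Type u'} {H₂ : Type w'}
  [NormedAddCommGroup E] [NormedSpace ℝ E] [FiniteDimensional ℝ E]
  [NormedAddCommGroup H] [InnerProductSpace ℝ H] [FiniteDimensional ℝ H]
  [NormedAddCommGroup E₂] [NormedSpace ℝ E₂] [FiniteDimensional ℝ E₂]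
  [NormedAddCommGroup H₂] [InnerProductSpace ℝ H₂] [FiniteDimensional ℝ H₂]
  {S : Set E} {PS : E → H →L[ℝ] H} {X : Set E₂} {PX : E₂ → H₂ →L[ℝ] H₂}
  {π₁ π₂ : E₂ → E} {fS : E₂ × H₂ → E × H} {gS : E × H → E₂ × H₂} {φ : E × H → E × H}
  {R c₀ RX cX : ℝ} {e : E → Ext E} {τ τ' : E × H → Ext (E × H)} {eX : E₂ → Ext E₂}
  {τX τX' : E₂ × H₂ → Ext (E₂ × H₂)} {κ : E₂ × H₂ → Ext (E₂ × H₂)}
  {n k m q dU dX i j : ℕ} {oU o : E × H → Ext (E × H)} {x : E → Ext E}
  [MeasurableSpace H] [BorelSpace H] (μ : Measure H) [μ.IsAddHaarMeasure]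
  [MeasurableSpace H₂] [BorelSpace H₂] (μ₂ : Measure H₂) [μ₂.IsAddHaarMeasure]

theorem UD.ypow_zero (D : UD n k q dU S PS X PX π₁ π₂ fS gS φ oU x κ) (hS : FI.Sub n S)
    {l : ℕ} (hl : n < k * l) : Eqv (Sph S PS) (y1 π₁ gS x ^ l) 0 := by
  rw [y1, ← pull_pow']
  have := (eqv_of_gt hS (D.dx.pow l) hl).pull D.s1
  rwa [pull_zero'] at this

/-- forms on the unit tangent bundle and on `Sph X PX` -/
theorem UD.coh_back (D : UD n k q dU S PS X PX π₁ π₂ fS gS φ oU x κ)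
    {b : E₂ × H₂ → Ext (E₂ × H₂)} (h : Coh (Sph S PS) (F.pull gS b) 0) : Coh (Sph X PX) b 0 := by
  have h1 := h.pull D.hf
  rw [pull_zero'] at h1
  refine (Coh.of_eqv ?_).trans h1
  exact ((eqv_pull_pull D.hf D.hg (SMap.id _) D.hgf b).trans
    (Eqv.of_eq fun z _ => F.pull_id b z)).symm



set_option maxHeartbeats 2000000 in
/-- **(X1d)** `h_m(x₁, x₂) = 0` -/
theorem UD.hm_exact (D : UD n k q dU S PS X PX π₁ π₂ fS gS φ oU x κ) {m' : ℕ}
    (hS : FI.Sub n S) (hSc : IsPreconnected S) (hP : PField S n PS) (hnN : n ≤ finrank ℝ H)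
    (hT : ThomPair μ S PS n R c₀ e τ τ') (hdU : dU + 1 = n + n) (hn : 2 ≤ n)
    (hkm : k * (m' + 1) = n) (hD : Dim1 S n)
    (so : Sm (Sph S PS) o) (dO : Hom dU o) (ho' : J dU (Sph S PS) oU o ≠ 0)
    (hSk : ∀ b, Sm S b → Cl S b → Hom k b → ∃ t : ℝ, Coh S b (t • x))
    (hxm : ¬ Coh S (x ^ (m' + 1)) 0)
    (hX : FI.Sub dX X) (hXc : IsPreconnected X) (hPX : PField X k PX)
    (hkN : k ≤ finrank ℝ H₂) (hTX : ThomPair μ₂ X PX k RX cX eX τX τX')
    (hne : ¬ Coh X (F.pull π₂ x - F.pull π₁ x) 0) :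
    Coh X (hm (m' + 1) (F.pull π₁ x) (F.pull π₂ x)) 0 := by
  have hq1 : 1 ≤ q := by
    obtain ⟨a, ha⟩ := D.hke
    have := D.hq
    omega
  have hkm' : k * m' + k = n := by rw [← hkm]; ring
  set x1 := F.pull π₁ x with hx1
  set x2 := F.pull π₂ x with hx2
  have s1 : Sm X x1 := D.sx.pull D.hπ₁
  have s2 : Sm X x2 := D.sx.pull D.hπ₂
  have c1 : Cl X x1 := D.cx.pull D.hπ₁ D.sx
  have c2 : Cl X x2 := D.cx.pull D.hπ₂ D.sx
  have d1 : Hom k x1 := D.dx.pull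
  have d2 : Hom k x2 := D.dx.pull
  set h := hm (m' + 1) x1 x2 with hh
  have sh : Sm X h := sm_hm s1 s2
  have ch : Cl X h := cl_hm s1 s2 c1 c2
  have dh : Hom n h := hkm ▸ hom_hm d1 d2
  have eh : Eqv X ((x2 - x1) * h) 0 := by
    rw [hh, hm_mul (d1.commute D.hke x2)]
    have hx : Eqv S (x ^ (m' + 1 + 1)) 0 := eqv_of_gt hS (D.dx.pow _) (by
      have : k * (m' + 1 + 1) = k * (m' + 1) + k := by ring
      have := D.hq
      omega)
    have a1 := hx.pull D.hπ₁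
    have a2 := hx.pull D.hπ₂
    rw [pull_zero', pull_pow'] at a1 a2
    have := a2.sub a1
    rwa [sub_zero] at this
  -- the closed form `λ = κ h`
  have sh1 : Sm (Sph X PX) (F.pull Prod.fst h) := sh.pull smap_fstS
  have ch1 : Cl (Sph X PX) (F.pull Prod.fst h) := ch.pull smap_fstS sh
  set lam := κ * F.pull (Prod.fst : E₂ × H₂ → E₂) h with hlam
  have slam : Sm (Sph X PX) lam := D.sκ.mul sh1
  have clam : Cl (Sph X PX) lam := by
    rw [Cl, resZero_iff]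
    refine (d_mul_eqv D.sκ sh1).trans ?_
    have a1 := (D.eκ.mul (Eqv.refl (F.pull (Prod.fst : E₂ × H₂ → E₂) h))).add
      ((Eqv.refl (X := Sph X PX) (fun w => F.inv (κ w))).mul (resZero_iff.1 ch1))
    rw [mul_zero, add_zero, ← pull_mul'] at a1
    refine a1.trans ?_
    have := eh.pull (smap_fstS (X := X) (P := PX))
    rwa [pull_zero'] at this
  set lam' := F.pull gS lam with hlam'
  have sl : Sm (Sph S PS) lam' := slam.pull D.hg
  have cl : Cl (Sph S PS) lam' := clam.pull D.hg slam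
  have dl : Hom (q + n) lam' := (D.dκ.mul dh.pull).pull
  obtain ⟨sf, cf⟩ := sm_cl_fi μ hS hP hT sl cl
  have df : Hom k (fi μ PS τ' lam') := hom_fi μ hnN hT.deg' (by have := D.hq; omega) dl
  obtain ⟨t, ht⟩ := hSk _ sf cf df
  -- the integral of `λ x₁^m'`
  have sxm : Sm S (x ^ m') := D.sx.pow m'
  have cxm : Cl S (x ^ m') := Cl.pow D.sx D.cx m'
  have sxm1 : Sm (Sph S PS) (F.pull Prod.fst (x ^ m')) := sxm.pull smap_fstS
  set b := lam' * F.pull (Prod.fst : E × H → E) (x ^ m') with hb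
  have sb : Sm (Sph S PS) b := sl.mul sxm1
  have db : Hom dU b := by
    have := dl.mul (Hom.pull (D.dx.pow m') (f := (Prod.fst : E × H → E)))
    have h4 : q + n + k * m' = dU := by have := D.hq; omega
    rwa [h4] at this
  set K := F.pull gS κ with hK
  set a₁ := y1 π₁ gS x with ha₁
  set a₂ := y1 π₂ gS x with ha₂
  have da₁ : Hom k a₁ := Hom.pull D.dx
  have hcomm : Commute a₁ a₂ := da₁.commute D.hke a₂
  have eb : Eqv (Sph S PS) b (K * (a₁ ^ m' * a₂ ^ (m' + 1)) + K * (a₁ ^ (m' + 1) * a₂ ^ m')) := by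
    have b1 : Eqv (Sph S PS) b (K * (hm (m' + 1) a₁ a₂ * a₁ ^ m')) := by
      rw [hb, hlam', hlam, pull_mul', mul_assoc]
      refine (Eqv.refl _).mul (Eqv.mul ?_ (D.pull_fst m'))
      rw [hh, pull_hm, pull_hm]
      exact eqv_hm (D.pull3 D.hπ₁ x) (D.pull3 D.hπ₂ x)
    refine b1.trans ?_
    rw [← mul_add]
    refine (Eqv.refl K).mul ?_
    have b2 : hm (m' + 1) a₁ a₂ * a₁ ^ m' =
        (∑ i ∈ Finset.range m', a₁ ^ (i + 1 + 1) * a₂ ^ (m' + 1 - (i + 1 + 1)) * a₁ ^ m') +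
        (a₁ ^ (m' + 1) * a₂ ^ m' + a₁ ^ m' * a₂ ^ (m' + 1)) := by
      rw [hm, Finset.sum_range_succ', Finset.sum_range_succ', add_mul, add_mul, Finset.sum_mul,
        add_assoc]
      congr 2
      · rw [zero_add, pow_one, Nat.add_sub_cancel, mul_assoc, (hcomm.pow_pow m' m').symm.eq,
          ← mul_assoc, ← pow_succ']
      · rw [pow_zero, one_mul, Nat.sub_zero, (hcomm.pow_pow m' (m' + 1)).symm.eq]
    rw [b2]
    have b3 : Eqv (Sph S PS)
        (∑ i ∈ Finset.range m', a₁ ^ (i + 1 + 1) * a₂ ^ (m' + 1 - (i + 1 + 1)) * a₁ ^ m') 0 := by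
      have b4 : (∑ i ∈ Finset.range m', (0 : E × H → Ext (E × H))) = 0 := Finset.sum_const_zero
      rw [← b4]
      refine Eqv.sum fun i _ => ?_
      have b5 : a₁ ^ (i + 1 + 1) * a₂ ^ (m' + 1 - (i + 1 + 1)) * a₁ ^ m' =
          a₁ ^ (i + 1 + 1 + m') * a₂ ^ (m' + 1 - (i + 1 + 1)) := by
        rw [mul_assoc, (hcomm.pow_pow m' _).symm.eq, ← mul_assoc, ← pow_add]
      rw [b5]
      have b6 : Eqv (Sph S PS) (a₁ ^ (i + 1 + 1 + m')) 0 := D.ypow_zero hS (by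
        have h7 : k * (i + 1 + 1 + m') = k * i + k + (k * m' + k) := by ring
        have := D.hq
        omega)
      have := b6.mul (Eqv.refl (a₂ ^ (m' + 1 - (i + 1 + 1))))
      rwa [zero_mul] at this
    have := b3.add (Eqv.refl (a₁ ^ (m' + 1) * a₂ ^ m' + a₁ ^ m' * a₂ ^ (m' + 1)))
    rw [zero_add] at this
    rwa [add_comm (a₁ ^ m' * a₂ ^ (m' + 1))]
  have hJ : J dU (Sph S PS) oU b = 0 := by
    rw [J_of_eqv D.hU eb]
    have h3 : J dU (Sph S PS) oU (K * (a₁ ^ m' * a₂ ^ (m' + 1)) + K * (a₁ ^ (m' + 1) * a₂ ^ m')) =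
        J dU (Sph S PS) oU (K * (a₁ ^ m' * a₂ ^ (m' + 1))) +
        J dU (Sph S PS) oU (K * (a₁ ^ (m' + 1) * a₂ ^ m')) :=
      J_add D.hU D.ho (D.smκ.mul ((D.sm1.pow _).mul (D.sm2.pow _))).contOn
        (D.smκ.mul ((D.sm1.pow _).mul (D.sm2.pow _))).contOn
    rw [h3, D.antisymm (i := m') (j := m' + 1) (by
      have h7 : k * (m' + 1) = k * m' + k := by ring
      have := D.hq
      omega)]
    exact neg_add_cancel _
  -- the fibre integral is exact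
  have h1 := (exact_of_J_sph μ hS hSc hP hnN hT D.hU D.ho hdU hn hD so dO ho' sb db hJ).1
  have h2 := (Coh.of_eqv (fi_mul μ hS hP hT sl cl sxm cxm)).symm.trans h1
  have h3 := (Coh.mul_right sxm cxm ht).symm.trans h2
  rw [smul_mul_assoc, ← pow_succ'] at h3
  have ht0 : t = 0 := by
    by_contra hne'
    exact hxm (h3.smul_zero_of_ne hne')
  rw [ht0, zero_smul] at ht
  obtain ⟨c, sc, cc, dc, hc⟩ := sph_of_fi μ hS hP hT sl cl dl ht
  have h4 := (eqv_of_gt hS dc (by omega)).pull (smap_fstS (X := S) (P := PS))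
  rw [pull_zero'] at h4
  have h5 : Coh (Sph X PX) lam 0 := D.coh_back (hc.trans (Coh.of_eqv h4))
  refine thom_inj μ₂ hX hXc hPX hkN hTX D.hq (κ := κ) (e' := x2 - x1) (η := 0)
    D.sκ D.dκ (s2.sub s1) (Cl.sub s2 s1 c2 c1) (d2.sub d1) D.eκ hne sh ch Sm.zero ?_ ?_
  · rw [d_zero']; exact eh.symm
  · rw [pull_zero', sub_zero]; exact h5

end Crest.Agent.R208.T
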