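import Crest.Agent.R208.XM4

/-! Row 208, block XM (helper833).  XM6a: the form `tr (L⁻¹dL)³` of the tautological field. -/

set_option autoImplicit false
set_option linter.unusedSectionVars false
set_option linter.unusedSimpArgs false
set_option linter.unusedVariables false

open scoped BigOperators ContDiff Topology Quaternion RealInnerProductSpace
open Module Set Filter Matrix

noncomputable section

namespace Crest.Agent.R208.XM

open Crest.Agent.R208.F Crest.Agent.R208.FI Crest.Agent.R208.CW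

/-! ### algebra -/

/-- trace of the cube of an imaginary quaternion with anti-commuting coefficients -/
theorem trace_cube {R : Type*} [Ring R] (p q s : R) (hqp : q * p = -(p * q))
    (hsp : s * p = -(p * s)) (hsq : s * q = -(q * s)) :
    ((!![0, -p, -q, -s; p, 0, -s, q; q, s, 0, -p; s, -q, p, 0] : Matrix (Fin 4) (Fin 4) R)
      * !![0, -p, -q, -s; p, 0, -s, q; q, s, 0, -p; s, -q, p, 0]
      * !![0, -p, -q, -s; p, 0, -s, q; q, s, 0, -p; s, -q, p, 0]).trace = -(24 • (p * q * s)) := by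
  have e1 : p * s * q = -(p * q * s) := by rw [mul_assoc, hsq, mul_neg, mul_assoc]
  have e2 : q * p * s = -(p * q * s) := by rw [hqp, neg_mul]
  have e3 : q * s * p = p * q * s := by
    rw [mul_assoc, hsp, mul_neg, ← mul_assoc, hqp, neg_mul, neg_neg]
  have e4 : s * p * q = p * q * s := by rw [hsp, neg_mul, e1, neg_neg]
  have e5 : s * q * p = -(p * q * s) := by rw [hsq, neg_mul, e3]
  simp only [Matrix.trace, Matrix.diag_apply, Matrix.mul_apply, Fin.sum_univ_four,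
    Matrix.of_apply, Matrix.cons_val', Matrix.cons_val_zero, Matrix.cons_val_one,
    Matrix.cons_val, Matrix.empty_val', Matrix.cons_val_fin_one, zero_mul, mul_zero, add_zero,
    zero_add, neg_mul, mul_neg, neg_neg, add_mul, mul_add, neg_add_rev, e1, e2, e3, e4, e5]
  abel

/-! ### forms of functions -/

section fnc
variable {E : Type*} [NormedAddCommGroup E] [NormedSpace ℝ E] [FiniteDimensional ℝ E] {y : E}
  {g : E → ℝ}

theorem dC_fn (hg : DifferentiableAt ℝ g y) :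
    dC (fn g) y = Cx.ofR (io ((fderiv ℝ g y : E →L[ℝ] ℝ) : Module.Dual ℝ E)) := by
  refine Cx.ext ?_ ?_
  · change d (fun z => algebraMap ℝ (Ext E) (((g z : ℝ) : ℂ).re)) y = _
    have h : (fun z => algebraMap ℝ (Ext E) (((g z : ℝ) : ℂ).re)) = fun z => g z • (1 : Ext E) := by
      funext z
      rw [Complex.ofReal_re, Algebra.algebraMap_eq_smul_one]
    rw [h, d_smul hg (differentiableAt_const _), d_const, smul_zero, add_zero, mul_one]
    rfl
  · change d (fun z => algebraMap ℝ (Ext E) (((g z : ℝ) : ℂ).im)) y = _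
    have h : (fun z => algebraMap ℝ (Ext E) (((g z : ℝ) : ℂ).im)) = fun z => (0 : Ext E) := by
      funext z
      rw [Complex.ofReal_im, map_zero]
    rw [h, d_const]
    rfl

theorem dC_fn_neg : dC (fn fun z => - g z) y = - dC (fn g) y := by
  have h : (fn fun z => - g z) = fun z => - fn g z := by
    funext z
    simp [fn]
  rw [h, dC_neg]


end fnc

/-! ### the tautological field -/

/-- coordinate functionals -/
def lq (i : Fin 4) : Module.Dual ℝ E5 :=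
  ((innerSL ℝ (qe i)).comp (ContinuousLinearMap.snd ℝ ℝ ℍ) : E5 →L[ℝ] ℝ)

theorem lq_apply (i : Fin 4) (w : E5) : lq i w = qc w.2 i := by
  rw [qc_eq_inner]; rfl

/-- components of `v / |v|` -/
def av (i : Fin 4) (z : E5) : ℝ := qc (vh z) i

theorem sum_qc_mul (a b : ℍ) : ⟪a, b⟫ = ∑ i, qc a i * qc b i := by
  rw [Quaternion.inner_def]
  simp [Fin.sum_univ_four, qc]

theorem sum_av_sq {z : E5} (h : z.2 ≠ 0) :
    av 0 z ^ 2 + av 1 z ^ 2 + av 2 z ^ 2 + av 3 z ^ 2 = 1 := by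
  have h1 : ⟪vh z, vh z⟫ = 1 := by
    rw [real_inner_self_eq_norm_sq, norm_vh h]; norm_num
  rw [sum_qc_mul, Fin.sum_univ_four] at h1
  simp only [av]
  linarith

theorem hasFDerivAt_av {z : E5} (h : z.2 ≠ 0) (i : Fin 4) :
    HasFDerivAt (av i) (‖z.2‖⁻¹ • ((innerSL ℝ (qe i)).comp (ContinuousLinearMap.snd ℝ ℝ ℍ)
      - av i z • ((innerSL ℝ (vh z)).comp (ContinuousLinearMap.snd ℝ ℝ ℍ)))) z := by
  have hne : ‖z.2‖ ≠ 0 := norm_ne_zero_iff.2 h
  have e : av i = fun z : E5 => ‖z.2‖⁻¹ * ⟪qe i, z.2⟫ := by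
    funext z
    rw [av, qc_eq_inner, vh, real_inner_smul_right]
  have h1 : HasFDerivAt (fun z : E5 => ‖z.2‖ ^ 2)
      (2 • (innerSL ℝ z.2).comp (ContinuousLinearMap.snd ℝ ℝ ℍ)) z :=
    (hasFDerivAt_snd (𝕜 := ℝ) (p := z)).norm_sq
  have h2 : HasFDerivAt (fun z : E5 => √(‖z.2‖ ^ 2))
      ((1 / (2 * √(‖z.2‖ ^ 2))) • (2 • (innerSL ℝ z.2).comp (ContinuousLinearMap.snd ℝ ℝ ℍ))) z :=
    h1.sqrt (by positivity)
  have h3 : HasFDerivAt (fun z : E5 => ‖z.2‖)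
      ((1 / (2 * √(‖z.2‖ ^ 2))) • (2 • (innerSL ℝ z.2).comp (ContinuousLinearMap.snd ℝ ℝ ℍ))) z := by
    refine h2.congr_of_eventuallyEq (Eventually.of_forall fun y => ?_)
    exact (Real.sqrt_sq (norm_nonneg _)).symm
  have h4 : HasFDerivAt (fun z : E5 => (⟪qe i, z.2⟫ : ℝ))
      ((innerSL ℝ (qe i)).comp (ContinuousLinearMap.snd ℝ ℝ ℍ)) z :=
    ((innerSL ℝ (qe i)).comp (ContinuousLinearMap.snd ℝ ℝ ℍ)).hasFDerivAt
  have h5 := ((hasDerivAt_inv hne).comp_hasFDerivAt z h3).mul h4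
  have ha : av i z = ‖z.2‖⁻¹ * ⟪qe i, z.2⟫ := by rw [e]
  rw [ha]
  rw [e]
  refine h5.congr_fderiv ?_
  refine ContinuousLinearMap.ext fun w => ?_
  simp only [_root_.add_apply, _root_.smul_apply,
    _root_.sub_apply, ContinuousLinearMap.comp_apply, ContinuousLinearMap.coe_snd',
    innerSL_apply_apply, smul_eq_mul, vh, real_inner_smul_left, Function.comp_apply, nsmul_eq_mul,
    Nat.cast_ofNat]
  rw [Real.sqrt_sq (norm_nonneg _)]
  field_simp
  ring

/-- the radial functional -/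
def lr (z : E5) : Module.Dual ℝ E5 :=
  av 0 z • lq 0 + av 1 z • lq 1 + av 2 z • lq 2 + av 3 z • lq 3

/-- derivative of `av i` -/
def Da (i : Fin 4) (z : E5) : Module.Dual ℝ E5 := ‖z.2‖⁻¹ • (lq i - av i z • lr z)

theorem inner_vh (z w : E5) : ⟪vh z, w.2⟫ = lr z w := by
  rw [sum_qc_mul]
  simp [lr, lq_apply, av, Fin.sum_univ_four]

theorem dC_av {z : E5} (h : z.2 ≠ 0) (i : Fin 4) :
    dC (fn (av i)) z = Cx.ofR (io (Da i z)) := by
  rw [dC_fn (hasFDerivAt_av h i).differentiableAt, (hasFDerivAt_av h i).fderiv]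
  congr 2
  refine LinearMap.ext fun w => ?_
  change ‖z.2‖⁻¹ * (⟪qe i, w.2⟫ - av i z * ⟪vh z, w.2⟫) = ‖z.2‖⁻¹ * (lq i w - av i z * lr z w)
  rw [inner_vh, lq_apply, qc_eq_inner]

theorem LV_eq (y : E5) : LV y =
    (!![av 0 y, -av 1 y, -av 2 y, -av 3 y; av 1 y, av 0 y, -av 3 y, av 2 y;
      av 2 y, av 3 y, av 0 y, -av 1 y; av 3 y, -av 2 y, av 1 y, av 0 y]
      : Matrix (Fin 4) (Fin 4) ℝ).map ((↑) : ℝ → ℂ) := rfl

theorem DD_LV {z : E5} (h : z.2 ≠ 0) : DD LV z =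
    (!![Cx.ofR (io (Da 0 z)), -Cx.ofR (io (Da 1 z)), -Cx.ofR (io (Da 2 z)), -Cx.ofR (io (Da 3 z));
      Cx.ofR (io (Da 1 z)), Cx.ofR (io (Da 0 z)), -Cx.ofR (io (Da 3 z)), Cx.ofR (io (Da 2 z));
      Cx.ofR (io (Da 2 z)), Cx.ofR (io (Da 3 z)), Cx.ofR (io (Da 0 z)), -Cx.ofR (io (Da 1 z));
      Cx.ofR (io (Da 3 z)), -Cx.ofR (io (Da 2 z)), Cx.ofR (io (Da 1 z)), Cx.ofR (io (Da 0 z))]
      : Matrix (Fin 4) (Fin 4) (CF E5)) := by
  have hp : ∀ i, dC (fun y => algebraMap ℂ (CF E5) ((av i y : ℝ) : ℂ)) z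
      = Cx.ofR (io (Da i z)) := dC_av h
  have hn : ∀ i, dC (fun y => algebraMap ℂ (CF E5) ((-av i y : ℝ) : ℂ)) z
      = - Cx.ofR (io (Da i z)) := fun i => by
    rw [← hp]; exact dC_fn_neg
  refine Matrix.ext fun i j => ?_
  fin_cases i <;> fin_cases j <;>
    simp only [DD_apply, LV_eq, Matrix.map_apply, Matrix.of_apply, Matrix.cons_val',
      Matrix.cons_val_zero, Matrix.cons_val_one, Matrix.cons_val, Matrix.cons_val_fin_one,
      Fin.zero_eta, Fin.mk_one, Fin.reduceFinMk, hp, hn]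

theorem hat_LV (z : E5) : hat E5 (LV z)ᵀ =
    (!![Cx.ofR (algebraMap ℝ (Ext E5) (av 0 z)), Cx.ofR (algebraMap ℝ (Ext E5) (av 1 z)),
        Cx.ofR (algebraMap ℝ (Ext E5) (av 2 z)), Cx.ofR (algebraMap ℝ (Ext E5) (av 3 z));
      Cx.ofR (algebraMap ℝ (Ext E5) (-av 1 z)), Cx.ofR (algebraMap ℝ (Ext E5) (av 0 z)),
        Cx.ofR (algebraMap ℝ (Ext E5) (av 3 z)), Cx.ofR (algebraMap ℝ (Ext E5) (-av 2 z));
      Cx.ofR (algebraMap ℝ (Ext E5) (-av 2 z)), Cx.ofR (algebraMap ℝ (Ext E5) (-av 3 z)),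
        Cx.ofR (algebraMap ℝ (Ext E5) (av 0 z)), Cx.ofR (algebraMap ℝ (Ext E5) (av 1 z));
      Cx.ofR (algebraMap ℝ (Ext E5) (-av 3 z)), Cx.ofR (algebraMap ℝ (Ext E5) (av 2 z)),
        Cx.ofR (algebraMap ℝ (Ext E5) (-av 1 z)), Cx.ofR (algebraMap ℝ (Ext E5) (av 0 z))]
      : Matrix (Fin 4) (Fin 4) (CF E5)) := by
  have hp : ∀ r : ℝ, algebraMap ℂ (CF E5) (r : ℂ) = Cx.ofR (algebraMap ℝ (Ext E5) r) :=
    fun r => Cx.algebraMap_ofReal r
  refine Matrix.ext fun i j => ?_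
  fin_cases i <;> fin_cases j <;> exact hp _

/-- the three imaginary components of `v̂⁻¹ dv̂` -/
def P1 (z : E5) : Module.Dual ℝ E5 :=
  ‖z.2‖⁻¹ • (av 0 z • lq 1 - av 1 z • lq 0 - av 2 z • lq 3 + av 3 z • lq 2)
def P2 (z : E5) : Module.Dual ℝ E5 :=
  ‖z.2‖⁻¹ • (av 0 z • lq 2 + av 1 z • lq 3 - av 2 z • lq 0 - av 3 z • lq 1)
def P3 (z : E5) : Module.Dual ℝ E5 :=
  ‖z.2‖⁻¹ • (av 0 z • lq 3 - av 1 z • lq 2 + av 2 z • lq 1 - av 3 z • lq 0)

theorem mm (a : ℝ) (D : Module.Dual ℝ E5) :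
    Cx.ofR (algebraMap ℝ (Ext E5) a) * Cx.ofR (io D) = Cx.ofR (io (a • D)) := by
  rw [← map_mul, map_smul, Algebra.smul_def]

theorem cA_LV {z : E5} (h : z.2 ≠ 0) : cA LV z =
    (!![0, -Cx.ofR (io (P1 z)), -Cx.ofR (io (P2 z)), -Cx.ofR (io (P3 z));
      Cx.ofR (io (P1 z)), 0, -Cx.ofR (io (P3 z)), Cx.ofR (io (P2 z));
      Cx.ofR (io (P2 z)), Cx.ofR (io (P3 z)), 0, -Cx.ofR (io (P1 z));
      Cx.ofR (io (P3 z)), -Cx.ofR (io (P2 z)), Cx.ofR (io (P1 z)), 0]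
      : Matrix (Fin 4) (Fin 4) (CF E5)) := by
  have hs := sum_av_sq h
  have h0 : av 0 z • Da 0 z + av 1 z • Da 1 z + av 2 z • Da 2 z + av 3 z • Da 3 z = 0 := by
    have e : av 0 z • Da 0 z + av 1 z • Da 1 z + av 2 z • Da 2 z + av 3 z • Da 3 z
        = (‖z.2‖⁻¹ * (1 - (av 0 z ^ 2 + av 1 z ^ 2 + av 2 z ^ 2 + av 3 z ^ 2))) • lr z := by
      simp only [Da]
      rw [lr]
      module
    rw [e, hs, sub_self, mul_zero, zero_smul]
  have h1 : av 0 z • Da 1 z - av 1 z • Da 0 z - av 2 z • Da 3 z + av 3 z • Da 2 z = P1 z := by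
    simp only [Da, P1]; module
  have h2 : av 0 z • Da 2 z + av 1 z • Da 3 z - av 2 z • Da 0 z - av 3 z • Da 1 z = P2 z := by
    simp only [Da, P2]; module
  have h3 : av 0 z • Da 3 z - av 1 z • Da 2 z + av 2 z • Da 1 z - av 3 z • Da 0 z = P3 z := by
    simp only [Da, P3]; module
  have key : ∀ A B C D X : Module.Dual ℝ E5, A + B + C + D = X →
      Cx.ofR (io A) + Cx.ofR (io B) + Cx.ofR (io C) + Cx.ofR (io D) = (Cx.ofR (io X) : CF E5) := by
    intro A B C D X hX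
    rw [← hX, map_add, map_add, map_add, map_add, map_add, map_add]
  have key0 : ∀ A B C D : Module.Dual ℝ E5, A + B + C + D = 0 →
      Cx.ofR (io A) + Cx.ofR (io B) + Cx.ofR (io C) + Cx.ofR (io D) = (0 : CF E5) := by
    intro A B C D hX
    rw [key A B C D 0 hX, map_zero, map_zero]
  have keyn : ∀ A B C D X : Module.Dual ℝ E5, A + B + C + D = -X →
      Cx.ofR (io A) + Cx.ofR (io B) + Cx.ofR (io C) + Cx.ofR (io D) = -(Cx.ofR (io X) : CF E5) := by
    intro A B C D X hX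
    rw [key A B C D _ hX, map_neg, map_neg]
  have mn : ∀ (a : ℝ) (D : Module.Dual ℝ E5),
      Cx.ofR (algebraMap ℝ (Ext E5) a) * -Cx.ofR (io D) = Cx.ofR (io (-(a • D))) := by
    intro a D
    rw [mul_neg, mm, map_neg, map_neg]
  rw [cA, hat_LV, DD_LV h]
  refine Matrix.ext fun i j => ?_
  fin_cases i <;> fin_cases j <;>
    simp only [Matrix.mul_apply, Fin.sum_univ_four, Matrix.of_apply, Matrix.cons_val',
      Matrix.cons_val_zero, Matrix.cons_val_one, Matrix.cons_val, Matrix.cons_val_fin_one,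
      Fin.zero_eta, Fin.mk_one, Fin.reduceFinMk, mm, mn] <;>
    first
      | (refine key0 _ _ _ _ (Eq.trans ?_ h0); module)
      | (refine key _ _ _ _ _ (Eq.trans ?_ h1); module)
      | (refine key _ _ _ _ _ (Eq.trans ?_ h2); module)
      | (refine key _ _ _ _ _ (Eq.trans ?_ h3); module)
      | (refine keyn _ _ _ _ _ (Eq.trans ?_ (congrArg Neg.neg h1)); module)
      | (refine keyn _ _ _ _ _ (Eq.trans ?_ (congrArg Neg.neg h2)); module)
      | (refine keyn _ _ _ _ _ (Eq.trans ?_ (congrArg Neg.neg h3)); module)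

theorem w3_LV {z : E5} (h : z.2 ≠ 0) :
    w3 LV z = Cx.ofR (-(24 • (io (P1 z) * io (P2 z) * io (P3 z)))) := by
  have e : ∀ A B : Module.Dual ℝ E5, Cx.ofR (io B) * Cx.ofR (io A)
      = -(Cx.ofR (io A) * Cx.ofR (io B) : CF E5) := by
    intro A B
    rw [← map_mul, io_anti, map_neg, map_mul]
  rw [w3, cA_LV h, trace_cube _ _ _ (e _ _) (e _ _) (e _ _), map_neg, map_nsmul, map_mul, map_mul]

end Crest.Agent.R208.XM
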