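import Crest.Agent.R208.HW3
import Crest.Agent.R208.VC1
import Crest.Agent.R208.RR0
import Crest.Agent.R208.SO2
import Crest.Agent.R208.ZA2
import Crest.Agent.R208.CM6b

-- ▼ part R208/HW4
section

/-!
R208, block HW (helper664), part 4: integration over `X' = X × S^{2k+1}`.
-/

set_option autoImplicit false
set_option linter.unusedSectionVars false
set_option linter.unusedVariables false

open Set Filter Topology Module
open scoped ContDiff RealInnerProductSpace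
open Crest.Agent.R208.F Crest.Agent.R208.FI Crest.Agent.R208.T Crest.Agent.R208.CM
open Crest.Agent.R208.CW (SMap)

noncomputable section

namespace Crest.Agent.R208.HW

variable {k : ℕ} {E : Type} [NormedAddCommGroup E] [NormedSpace ℝ E] [FiniteDimensional ℝ E]
  {X : Set E} {φ : ℝ → E → E} {d : ℕ}

/-- the degree `n` component of the second factor -/
theorem evA_mul_dpl' {V : Type*} [NormedAddCommGroup V] [NormedSpace ℝ V] [FiniteDimensional ℝ V]
    {p : ℕ} {a : Ext V} (ha : IsDeg p a) (n : ℕ) (c : Ext V) :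
    evA V (p + n) (a * c) = evA V (p + n) (a * dpl n c) := by
  have h1 : ∀ j, j ≠ n → evA V (p + n) (a * dpl j c) = 0 := fun j hj =>
    isDeg_mul ha (isDeg_dpl j c) (p + n) (by omega)
  have h3 := sum_dpl c
  by_cases hn : n ∈ Finset.range (finrank ℝ V + 1)
  · conv_lhs => rw [← h3, Finset.mul_sum, map_sum]
    rw [Finset.sum_eq_single_of_mem n hn fun j _ hj => h1 j hj]
  · have h2 : ∀ j, j ≠ n → dpl n (dpl j c) = 0 := fun j hj =>
      dpl_of_isDeg_ne (isDeg_dpl j c) hj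
    have h4 : dpl n c = 0 := by
      conv_lhs => rw [← h3, map_sum]
      exact Finset.sum_eq_zero fun j hj => h2 j (fun h => hn (h ▸ hj))
    rw [h4, mul_zero, map_zero]
    conv_lhs => rw [← h3, Finset.mul_sum, map_sum]
    exact Finset.sum_eq_zero fun j hj => h1 j (fun h => hn (h ▸ hj))

/-- the volume form of the sphere on `E × U k` -/
def vv (E : Type) [NormedAddCommGroup E] [NormedSpace ℝ E] [FiniteDimensional ℝ E] (k : ℕ) :
    E × U k → Ext (E × U k) := pull Prod.snd (v0 k)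

theorem vv_apply (z : E × U k) :
    vv E k z = pb ((ContinuousLinearMap.snd ℝ E (U k) : (E × U k) →L[ℝ] U k) :
      (E × U k) →ₗ[ℝ] U k) (v0 k z.2) := by
  show pb ((fderiv ℝ Prod.snd z : (E × U k) →L[ℝ] U k) : (E × U k) →ₗ[ℝ] U k) (v0 k z.2) = _
  rw [fderiv_snd]

theorem pullfst_apply (a : E → Ext E) (z : E × U k) :
    pull Prod.fst a z = pb ((ContinuousLinearMap.fst ℝ E (U k) : (E × U k) →L[ℝ] E) :
      (E × U k) →ₗ[ℝ] E) (a z.1) := by
  show pb ((fderiv ℝ Prod.fst z : (E × U k) →L[ℝ] E) : (E × U k) →ₗ[ℝ] E) (a z.1) = _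
  rw [fderiv_fst]

theorem hom_vv : Hom (2 * k + 1) (vv E k) := hom_v0.pull

theorem sm_vv : Sm (XX X k) (vv E k) :=
  Sm.pull (smap_snd (X := X)) (fun u _ => contDiff_v0.contDiffAt)

theorem cl_vv : Cl (XX X k) (vv E k) :=
  Cl.pull (smap_snd (X := X)) (fun u _ => contDiff_v0.contDiffAt) cl_v0

theorem subm_fst (hX : Clo d X) : Subm (2 * k + 1) d (XX X k) X (Prod.fst : E × U k → E) where
  cloZ := by
    have e : 2 * k + 1 + d = d + (2 * k + 1) := by omega
    rw [e]; exact clo_XX hX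
  cloX := hX
  smooth := fun z _ => contDiffAt_fst
  mapsTo := fun z hz => (mem_XX.1 hz).1
  sub := fun z hz w hw => by
    refine ⟨(w, 0), ?_, by rw [fderiv_fst]; rfl⟩
    rw [Tan_XX hX.sub hz]
    exact ⟨hw, Submodule.zero_mem _⟩

theorem cont_pull_fst {om : E → Ext E} (hX : Clo d X) (h : ContinuousOn om X) :
    ContinuousOn (pull (Prod.fst : E × U k → E) om) (XX X k) :=
  (subm_fst hX).continuousOn_pull h

theorem continuousOn_vv : ContinuousOn (vv E k) (XX X k) := fun z hz =>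
  (sm_vv z hz).continuousAt.continuousWithinAt

/-- **orientation and integration of `X × S^{2k+1}`** -/
theorem J_prod (k : ℕ) (hX : Clo d X) (hc : IsPreconnected X) (hne : X.Nonempty) {oX : E → Ext E}
    (hoX : Ori d X oX) :
    Ori (2 * k + 1 + d) (XX X k) (fun z => vv E k z * pull Prod.fst oX z) ∧
      ∃ C : ℝ, 0 < C ∧ ∀ om : E → Ext E, ContinuousOn om X →
        J (2 * k + 1 + d) (XX X k) (fun z => vv E k z * pull Prod.fst oX z)
          (fun z => vv E k z * pull Prod.fst om z) = C * J d X oX om := by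
  have hS := subm_fst (k := k) hX
  have hcl := hS.cloZ
  have hdc : Continuous fun c : Ext E => dpl d c := (dplL (E := E) d).continuous
  have hdpc : ∀ om : E → Ext E, ContinuousOn om X → ContinuousOn (dp d om) X := fun om h =>
    hdc.comp_continuousOn h
  have hev : ∀ (om : E → Ext E), ∀ z : E × U k,
      evA (E × U k) (2 * k + 1 + d) (vv E k z * pull Prod.fst om z) =
      evA (E × U k) (2 * k + 1 + d) (vv E k z * pull Prod.fst (dp d om) z) := fun om z => by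
    rw [evA_mul_dpl' (hom_vv z) d]
    have : dpl d (pull Prod.fst om z) = pull Prod.fst (dp d om) z := by
      rw [← dp_pull]; rfl
    rw [this]
  have hdp0 : ∀ (om : E → Ext E), ∀ x ∈ X, ∀ q < d, evA E q (dp d om x) = 0 :=
    fun om x _ q hq => isDeg_dpl d (om x) q (by omega)
  have hori' : Ori (2 * k + 1 + d) (XX X k) (fun z => vv E k z * pull Prod.fst (dp d oX) z) := by
    refine ori_of hcl (FI.continuousOn_mul continuousOn_vv (cont_pull_fst hX (hdpc _ hoX.cont)))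
      fun z hz => ?_
    obtain ⟨w, hw, hwe⟩ := exists_frame_SU (k := k) (mem_SU.2 (mem_XX.1 hz).2)
    have hfr := frame_isFrame (hX.finrank_Tan (mem_XX.1 hz).1)
    refine ⟨Fin.append (fun i => ((0 : E), w i)) (fun i => (frame d X z.1 i, (0 : U k))),
      fun i => ?_, ?_⟩
    · rw [Tan_XX hX.sub hz]
      refine Fin.addCases (fun j => ?_) (fun j => ?_) i
      · rw [Fin.append_left]; exact ⟨Submodule.zero_mem _, hw j⟩
      · rw [Fin.append_right]; exact ⟨hfr.2 j, Submodule.zero_mem _⟩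
    · rw [pullfst_apply, evA_mul_pb _ _ (hdp0 oX z.1 (mem_XX.1 hz).1) _ _ _ (fun i => rfl),
        vv_apply, evA_pb]
      have h1 : (fun i => ((ContinuousLinearMap.snd ℝ E (U k) : (E × U k) →L[ℝ] U k) :
          (E × U k) →ₗ[ℝ] U k) ((0 : E), w i)) = w := rfl
      have h2 : (fun i => ((ContinuousLinearMap.fst ℝ E (U k) : (E × U k) →L[ℝ] E) :
          (E × U k) →ₗ[ℝ] E) (frame d X z.1 i, (0 : U k))) = frame d X z.1 := rfl
      rw [h1, h2, hwe]
      have h3 : evA E d (dp d oX z.1) (frame d X z.1) = evA E d (oX z.1) (frame d X z.1) := by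
        show evA E d (dpl d (oX z.1)) _ = _
        rw [evA_dpl_same]
      rw [h3]
      exact mul_ne_zero (by positivity) (hoX.ne _ (mem_XX.1 hz).1)
  have hori : Ori (2 * k + 1 + d) (XX X k) (fun z => vv E k z * pull Prod.fst oX z) :=
    ⟨FI.continuousOn_mul continuousOn_vv (cont_pull_fst hX hoX.cont), fun z hz => by
      rw [hev oX z]; exact hori'.ne z hz⟩
  refine ⟨hori, ?_⟩
  have hoX' : Ori d X (dp d oX) := ⟨hdpc _ hoX.cont, fun x hx => by
    show evA E d (dpl d (oX x)) _ ≠ 0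
    rw [evA_dpl_same]; exact hoX.ne x hx⟩
  obtain ⟨y, hy⟩ := hne
  refine ⟨J (2 * k + 1) (XX X k ∩ Prod.fst ⁻¹' {y}) (vv E k) (vv E k), ?_, fun om hom => ?_⟩
  · refine J_pos (hS.clo_fibre y) (hS.fibre_ori continuousOn_vv hori' (hdp0 oX) y) ?_
    obtain ⟨u, hu⟩ := SU_nonempty (k := k)
    exact ⟨(y, u), mem_XX.2 ⟨hy, hu⟩, rfl⟩
  · have h1 : J (2 * k + 1 + d) (XX X k) (fun z => vv E k z * pull Prod.fst oX z)
        (fun z => vv E k z * pull Prod.fst om z) =
        J (2 * k + 1 + d) (XX X k) (fun z => vv E k z * pull Prod.fst (dp d oX) z)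
        (fun z => vv E k z * pull Prod.fst (dp d om) z) :=
      J_congr_dens hcl (fun z hz => by rw [hev oX z]) (fun z hz => by rw [hev om z])
    rw [h1, fibre_integration_const hS hc hoX' continuousOn_vv hori' (hdp0 oX)
      (fun z hz => (sm_vv z hz).of_le (by simp)) cl_vv (hdpc _ hom) (hdp0 om) hy]
    congr 1
    exact J_congr_dens hX (fun x _ => by
      show evA E d (dpl d (oX x)) _ = _; rw [evA_dpl_same]) (fun x _ => by
      show evA E d (dpl d (om x)) _ = _; rw [evA_dpl_same])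

end Crest.Agent.R208.HW
end
end

-- ▼ part R208/HW5
section

/-!
R208, block HW (helper664), part 5: the closed basic form `M = τ Σ h^i e'^(k-i)` on
`X' = X × S^{2k+1}`.
-/

set_option autoImplicit false
set_option linter.unusedSectionVars false
set_option linter.unusedVariables false

open Set Filter Topology Module
open scoped ContDiff RealInnerProductSpace
open Crest.Agent.R208.F Crest.Agent.R208.FI Crest.Agent.R208.T Crest.Agent.R208.CM
open Crest.Agent.R208.CW (SMap)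
open Crest.Agent.R208.SO (inv_of_hom_even inv_of_hom_odd ev_comm resZero_of_gt)

noncomputable section

namespace Crest.Agent.R208.HW

/-! ### connections and horizontal forms -/

section conn

variable {E : Type} [NormedAddCommGroup E] [NormedSpace ℝ E] [FiniteDimensional ℝ E]
  {X : Set E} {φ : ℝ → E → E} {d : ℕ} {m : ℕ} {g : E → Fin m → ℂ} {θ θ' : E → Ext E}

/-- the curvature is horizontal -/
theorem hz_d (h : Cir X φ) (hX : Sub d X) (hθ : Conn X φ θ) :
    RR.Hz X (gen φ) (F.d θ) := by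
  have h1 := VC.Inv.d_iV (φ := φ) (VC.Act.of_cir h) hX hθ.sm hθ.inv
  have h2 : Eqv X (VC.iV φ θ) (fun _ => 1) := Eqv.of_eq fun x hx => hθ.unit x hx
  have h3 : Eqv X (F.d (VC.iV φ θ)) 0 :=
    (Eqv.d hX (VC.Sm.iV (VC.Act.of_cir h) hθ.sm) (fun x _ => contDiffAt_const) h2).trans
      (Eqv.of_eq fun x _ => F.d_const _ _)
  have h4 := (h1.symm.trans h3).neg
  rw [neg_neg, neg_zero] at h4
  intro x hx
  exact (eqv_iff.1 h4 x hx).trans (map_zero _)

/-- pull-backs from the quotient are horizontal -/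
theorem hz_jj (hg : Emb X φ g) (h : Cir X φ) (a : MM m → Ext (MM m)) :
    RR.Hz X (gen φ) (pull (jj g) a) := by
  intro x hx
  have h1 : ((fderiv ℝ (jj g) x : E →L[ℝ] MM m) : E →ₗ[ℝ] MM m) (gen φ x) = 0 :=
    (hg.ker_jj h hx (h.gen_mem hx)).2 ⟨1, (one_smul ℝ _).symm⟩
  rw [F.pull, ii_pb, h1, map_zero, LinearMap.zero_apply, map_zero, map_zero]

/-- the difference of two connections is horizontal -/
theorem hz_sub (hθ : Conn X φ θ) (hθ' : Conn X φ θ') : RR.Hz X (gen φ) (θ - θ') := by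
  intro x hx
  rw [Pi.sub_apply, map_sub, hθ.unit x hx, hθ'.unit x hx, sub_self, map_zero]

theorem inv_one {c : Ext E} (h : IsDeg 1 c) : F.inv c = - c :=
  inv_of_hom_odd (a := fun _ : E => c) (fun _ => h) odd_one 0

theorem sq_zero {c : Ext E} (h : IsDeg 1 c) : c * c = 0 := by
  have h1 := CW.odd_comm (inv_one h) c
  rw [inv_one h, neg_mul] at h1
  have h2 : (2 : ℝ) • (c * c) = 0 := by
    rw [two_smul]; nth_rewrite 1 [h1]; exact neg_add_cancel _
  exact (smul_eq_zero.1 h2).resolve_left two_ne_zero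

end conn

variable {k : ℕ} {E : Type} [NormedAddCommGroup E] [NormedSpace ℝ E] [FiniteDimensional ℝ E]
  {X : Set E} {φ : ℝ → E → E} {n : ℕ} {θ : E → Ext E}

/-- the curvature of the sphere on `X'` -/
def hh (E : Type) [NormedAddCommGroup E] [NormedSpace ℝ E] [FiniteDimensional ℝ E] (k : ℕ) :
    E × U k → Ext (E × U k) := pull Prod.snd (fun _ => kp2 k)

/-- the curvature of the half connection -/
def ee (k : ℕ) (θ : E → Ext E) : E × U k → Ext (E × U k) := (1 / 2 : ℝ) • pull Prod.fst (F.d θ)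

/-- the difference of the two connections -/
def ta (k : ℕ) (θ : E → Ext E) : E × U k → Ext (E × U k) := bb E k - th k θ

/-- the geometric sum -/
def GS (k : ℕ) (θ : E → Ext E) : E × U k → Ext (E × U k) :=
  ∑ i ∈ Finset.range (k + 1), hh E k ^ i * ee k θ ^ (k + 1 - 1 - i)

/-- the closed basic form `M` -/
def MM1 (k : ℕ) (θ : E → Ext E) : E × U k → Ext (E × U k) := ta k θ * GS k θ

theorem hom_hh : Hom 2 (hh E k) := Hom.pull (w := fun _ => kp2 k) (fun _ => isDeg_kp2)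

theorem hom_ee (hθ : Hom 1 θ) : Hom 2 (ee k θ) := (hθ.d.pull).smul _

theorem hom_ta (hθ : Hom 1 θ) : Hom 1 (ta k θ) := (hom_b0.pull).sub ((hθ.pull).smul _)

theorem hom_th (hθ : Hom 1 θ) : Hom 1 (th k θ) := (hθ.pull).smul _

theorem hom_GS (hθ : Hom 1 θ) : Hom (2 * k) (GS k θ) := by
  intro z
  have e : GS k θ z = ∑ i ∈ Finset.range (k + 1), (hh E k ^ i * ee k θ ^ (k + 1 - 1 - i)) z := by
    unfold GS; rw [Finset.sum_apply]
  rw [e]
  refine IsDeg.sum _ fun i hi => ?_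
  have h1 := ((hom_hh (E := E) (k := k)).pow i).mul ((hom_ee (k := k) hθ).pow (k + 1 - 1 - i))
  have h2 : 2 * i + 2 * (k + 1 - 1 - i) = 2 * k := by
    have := Finset.mem_range.1 hi; omega
  rw [h2] at h1
  exact h1 z

theorem sm_hh : Sm (XX X k) (hh E k) :=
  Sm.pull (smap_snd (X := X)) (fun u _ => contDiffAt_const)

theorem sm_ee (hθ : Sm X θ) : Sm (XX X k) (ee k θ) := (hθ.d.pull smap_fst).smul _

theorem sm_bb : Sm (XX X k) (bb E k) := sm_b0.pull smap_snd

theorem sm_th (hθ : Sm X θ) : Sm (XX X k) (th k θ) := (hθ.pull smap_fst).smul _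

theorem sm_ta (hθ : Sm X θ) : Sm (XX X k) (ta k θ) := sm_bb.sub (sm_th hθ)

theorem cl_hh : Cl (XX X k) (hh E k) :=
  Cl.pull (smap_snd (X := X)) (fun u _ => contDiffAt_const) (Cl.const _)

theorem cl_ee (hθ : Sm X θ) : Cl (XX X k) (ee k θ) :=
  Cl.smul _ (hθ.d.pull smap_fst) (Cl.pull smap_fst hθ.d (d_d' hθ))

theorem sm_GS (hθ : Sm X θ) : Sm (XX X k) (GS k θ) :=
  RR.Sm.sum _ fun i _ => (sm_hh.pow i).mul ((sm_ee hθ).pow _)

theorem cl_GS (hθ : Sm X θ) : Cl (XX X k) (GS k θ) :=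
  RR.Cl.sum _ (fun i _ => (sm_hh.pow i).mul ((sm_ee hθ).pow _)) fun i _ =>
    Cl.mul (sm_hh.pow i) ((sm_ee hθ).pow _) (Cl.pow sm_hh cl_hh i) (Cl.pow (sm_ee hθ) (cl_ee hθ) _)

theorem d_ta (hθ : Sm X θ) : Eqv (XX X k) (F.d (ta k θ)) (hh E k - ee k θ) :=
  (d_sub_eqv sm_bb (sm_th hθ)).trans (d_bb.sub (d_th hθ))

theorem geom (hθ : Hom 1 θ) :
    (hh E k - ee k θ) * GS k θ = hh E k ^ (k + 1) - ee k θ ^ (k + 1) := by
  have hc : Commute (hh E k) (ee k θ) := ev_comm hom_hh even_two _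
  exact hc.mul_geom_sum₂ (k + 1)

theorem resZero_hh_pow : ResZero (XX X k) (hh E k ^ (k + 1)) := by
  have h1 : hh E k ^ (k + 1) = pull Prod.snd (fun _ => kp2 k ^ (k + 1)) := by
    funext z
    show pb _ (kp2 k) ^ (k + 1) = pb _ (kp2 k ^ (k + 1))
    rw [map_pow]
  rw [h1]
  exact T.ResZero.pull (smap_snd (X := X)) resZero_kp2_pow

theorem resZero_ee_pow (hX : Sub (n + 1) X) (hθ : Hom 1 θ) (hk : n + 1 < 2 * (k + 1)) :
    ResZero (XX X k) (ee k θ ^ (k + 1)) := by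
  have h1 : ee k θ ^ (k + 1) = (1 / 2 : ℝ) ^ (k + 1) • pull Prod.fst (F.d θ ^ (k + 1)) := by
    rw [ee, smul_pow, pull_pow']
  have h2 : ResZero X (F.d θ ^ (k + 1)) := resZero_of_gt hX (hθ.d.pow (k + 1)) hk
  rw [h1, resZero_iff]
  have h3 := (resZero_iff.1 (T.ResZero.pull (smap_fst (X := X) (k := k)) h2)).smul
    ((1 / 2 : ℝ) ^ (k + 1))
  rwa [smul_zero] at h3

/-- **`M` is closed** -/
theorem cl_MM1 (hX : Sub (n + 1) X) (hθ : Conn X φ θ) (hk : n + 1 < 2 * (k + 1)) :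
    Cl (XX X k) (MM1 k θ) := by
  rw [Cl, resZero_iff]
  refine (RR.d_mul_cl (sm_ta hθ.sm) (sm_GS hθ.sm) (cl_GS hθ.sm)).trans ?_
  refine ((d_ta hθ.sm).mul (Eqv.refl (GS k θ))).trans ?_
  rw [geom hθ.hom]
  have := (resZero_iff.1 (resZero_hh_pow (X := X) (k := k))).sub
    (resZero_iff.1 (resZero_ee_pow hX hθ.hom hk))
  rwa [sub_zero] at this

theorem sm_MM1 (hθ : Sm X θ) : Sm (XX X k) (MM1 k θ) := (sm_ta hθ).mul (sm_GS hθ)

theorem hom_MM1 (hθ : Hom 1 θ) : Hom (1 + 2 * k) (MM1 k θ) := (hom_ta hθ).mul (hom_GS hθ)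

/-- **`M` is horizontal** -/
theorem hz_MM1 (h : Cir X φ) (hX : Clo (n + 1) X) (hθ : Conn X φ θ) :
    RR.Hz (XX X k) (gen (ph k φ)) (MM1 k θ) := by
  have hX' := (clo_XX' (k := k) hX).sub
  have hc := cir_XX (k := k) h
  have hgm : ∀ z ∈ XX X k, gen (ph k φ) z ∈ Tan (XX X k) z := fun z hz => hc.gen_mem hz
  have h1 : RR.Hz (XX X k) (gen (ph k φ)) (ta k θ) := hz_sub (conn_bb h) (conn_th h hθ)
  have h2 : RR.Hz (XX X k) (gen (ph k φ)) (hh E k) :=
    RR.Hz.eqv hgm (d_bb (X := X)).symm (hz_d hc hX' (conn_bb h))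
  have h3 : RR.Hz (XX X k) (gen (ph k φ)) (ee k θ) :=
    RR.Hz.eqv hgm (d_th hθ.sm).symm (hz_d hc hX' (conn_th h hθ))
  exact h1.mul (RR.Hz.sum _ fun i _ => (h2.pow i).mul (h3.pow _))

end Crest.Agent.R208.HW
end
end

-- ▼ part R208/HW6
section

/-!
R208, block HW (helper664), part 6: the functional `I'` on `B'` and the **injectivity**
of `p^* : H(B) → H(B')`.
-/

set_option autoImplicit false
set_option linter.unusedSectionVars false
set_option linter.unusedVariables false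

open Set Filter Topology Module
open scoped ContDiff RealInnerProductSpace
open Crest.Agent.R208.F Crest.Agent.R208.FI Crest.Agent.R208.T Crest.Agent.R208.CM
open Crest.Agent.R208.CW (SMap)
open Crest.Agent.R208.SO (inv_of_hom_even inv_of_hom_odd ev_comm resZero_of_gt)

noncomputable section

namespace Crest.Agent.R208.HW

variable {k : ℕ} {E : Type} [NormedAddCommGroup E] [NormedSpace ℝ E] [FiniteDimensional ℝ E]
  {X : Set E} {φ : ℝ → E → E} {n : ℕ} {θ : E → Ext E}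

/-- low degree on the sphere kills top degree -/
theorem evA_low {i : ℕ} (hi : i < k) (hX : Clo (n + 1) X) (γ : E → Ext E) (z : E × U k)
    (hz : z ∈ XX X k) (N : ℕ) (hN : N = 2 * k + 1 + (n + 1)) (w : Fin N → E × U k)
    (hw : ∀ j, w j ∈ Tan (XX X k) z) :
    evA (E × U k) N ((bb E k * hh E k ^ i * pull Prod.fst γ : E × U k → Ext (E × U k)) z) w
      = 0 := by
  obtain ⟨q, hq⟩ : ∃ q, N = 1 + 2 * i + q := ⟨2 * (k - i) + (n + 1), by omega⟩
  have hq' : n + 1 < q := by omega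
  have h1 : IsDeg (1 + 2 * i) ((bb E k * hh E k ^ i : E × U k → Ext (E × U k)) z) :=
    (hom_b0.pull.mul ((hom_hh (E := E) (k := k)).pow i)) z
  have h2 : ResZero (XX X k) (pull Prod.fst (dp q γ)) :=
    T.ResZero.pull smap_fst (resZero_of_gt hX.sub (hom_dp q γ) hq')
  have h3 : dpl q (pull (Prod.fst : E × U k → E) γ z) = pull Prod.fst (dp q γ) z := by
    rw [← dp_pull]; rfl
  subst hq
  have h4 := evA_mul_dpl' h1 q (pull Prod.fst γ z)
  rw [h3] at h4
  rw [Pi.mul_apply, h4]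
  exact (ResZero.mul_left h2 (bb E k * hh E k ^ i)).evA hz hw

theorem vv_eq : vv E k = bb E k * hh E k ^ k := by
  funext z
  show pb _ (b0 k z.2 * kp2 k ^ k) = pb _ (b0 k z.2) * (pb _ (kp2 k)) ^ k
  rw [map_mul, map_pow]

theorem th_pull (θ : E → Ext E) : th k θ = pull Prod.fst ((1 / 2 : ℝ) • θ) := by
  rw [pull_smul']; rfl

theorem ee_pull (θ : E → Ext E) : ee k θ = pull Prod.fst ((1 / 2 : ℝ) • F.d θ) := by
  rw [pull_smul']; rfl

theorem MM1_mul_th (hθ : Hom 1 θ) : MM1 k θ * th k θ = bb E k * GS k θ * th k θ := by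
  have h1 : th k θ * GS k θ * th k θ = 0 := by
    rw [← ev_comm (hom_GS hθ) (even_two_mul k) (th k θ), mul_assoc]
    have h2 : th k θ * th k θ = 0 := funext fun z => sq_zero (hom_th hθ z)
    rw [h2, mul_zero]
  rw [MM1, ta, sub_mul, sub_mul, h1, sub_zero]

/-- the forms on `X` -/
def gm (θ β : E → Ext E) (j : ℕ) : E → Ext E :=
  ((1 / 2 : ℝ) • F.d θ) ^ j * (((1 / 2 : ℝ) • θ) * β)

theorem MU_mul (hθ : Hom 1 θ) (β : E → Ext E) :
    MM1 k θ * th k θ * pull Prod.fst β =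
      ∑ i ∈ Finset.range (k + 1), bb E k * hh E k ^ i * pull Prod.fst (gm θ β (k + 1 - 1 - i)) := by
  rw [MM1_mul_th hθ, GS, Finset.mul_sum, Finset.sum_mul, Finset.sum_mul]
  refine Finset.sum_congr rfl fun i _ => ?_
  rw [gm, pull_mul', pull_mul', pull_pow', ← ee_pull, ← th_pull]
  simp only [mul_assoc]

theorem sm_gm (hθ : Sm X θ) {β : E → Ext E} (hβ : Sm X β) (j : ℕ) : Sm X (gm θ β j) :=
  ((hθ.d.smul _).pow j).mul ((hθ.smul _).mul hβ)

theorem gm_zero (θ β : E → Ext E) : gm θ β 0 = (1 / 2 : ℝ) • (θ * β) := by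
  rw [gm, pow_zero, one_mul, smul_mul_assoc]

/-- the integral of `M θ' pr^*β` -/
theorem J_MU (hX : Clo (n + 1) X) (hθs : Sm X θ) (hθ : Hom 1 θ) {oX : E → Ext E}
    (ho : Ori (2 * k + 1 + (n + 1)) (XX X k) (fun z => vv E k z * pull Prod.fst oX z))
    {C : ℝ} (hC : ∀ om : E → Ext E, ContinuousOn om X →
        J (2 * k + 1 + (n + 1)) (XX X k) (fun z => vv E k z * pull Prod.fst oX z)
          (fun z => vv E k z * pull Prod.fst om z) = C * J (n + 1) X oX om)
    {β : E → Ext E} (hβ : Sm X β) :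
    J (2 * k + 1 + (n + 1)) (XX X k) (fun z => vv E k z * pull Prod.fst oX z)
      (MM1 k θ * th k θ * pull Prod.fst β) = (1 / 2) * C * J (n + 1) X oX (θ * β) := by
  have hcl : Clo (2 * k + 1 + (n + 1)) (XX X k) := (subm_fst hX).cloZ
  have hsm : ∀ i, Sm (XX X k) (bb E k * hh E k ^ i * pull Prod.fst (gm θ β (k + 1 - 1 - i))) :=
    fun i => (sm_bb.mul (sm_hh.pow i)).mul ((sm_gm hθs hβ _).pull smap_fst)
  have h1 : MM1 k θ * th k θ * pull Prod.fst β = fun z => ∑ i ∈ Finset.range (k + 1),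
      (bb E k * hh E k ^ i * pull Prod.fst (gm θ β (k + 1 - 1 - i)) :
        E × U k → Ext (E × U k)) z := by
    rw [MU_mul hθ]
    funext z
    rw [Finset.sum_apply]
  rw [h1, J_sum hcl ho _ fun i _ => RR.Sm.cont (hsm i), Finset.sum_range_succ,
    Finset.sum_eq_zero, zero_add]
  · have e : k + 1 - 1 - k = 0 := by omega
    rw [e, gm_zero, pull_smul', ← vv_eq, mul_smul_comm]
    have h2 : J (2 * k + 1 + (n + 1)) (XX X k) (fun z => vv E k z * pull Prod.fst oX z)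
        ((1 / 2 : ℝ) • (vv E k * pull Prod.fst (θ * β))) = (1 / 2) *
        J (2 * k + 1 + (n + 1)) (XX X k) (fun z => vv E k z * pull Prod.fst oX z)
        (fun z => vv E k z * pull Prod.fst (θ * β) z) := J_smul _
    rw [h2, hC _ (RR.Sm.cont (hθs.mul hβ))]
    ring
  · intro i hi
    exact FI.J_eq_zero hcl fun z hz w hw => evA_low (Finset.mem_range.1 hi) hX _ z hz _ rfl w hw

variable {m m' : ℕ} {g : E → Fin m → ℂ} {g' : E × U k → Fin m' → ℂ} {p : MM m' → MM m}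

/-- abstract version: `∫ M α dζ = 0` for closed odd horizontal `M`, horizontal `ζ` and a
connection `α`. -/
theorem J_exact_abs {V : Type} [NormedAddCommGroup V] [NormedSpace ℝ V] [FiniteDimensional ℝ V]
    {Z : Set V} {ψ : ℝ → V → V} {N : ℕ} (hc : Cir Z ψ) (hZ : Clo N Z) {o M α ζ : V → Ext V}
    (ho : Ori N Z o) (hα : Conn Z ψ α) (sM : Sm Z M) (cM : Cl Z M)
    (oM : (fun x => F.inv (M x)) = -M) (zM : RR.Hz Z (gen ψ) M) (sζ : Sm Z ζ)
    (zζ : RR.Hz Z (gen ψ) ζ) : J N Z o (M * α * F.d ζ) = 0 := by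
  have hgm : ∀ z ∈ Z, gen ψ z ∈ Tan Z z := fun z hz => hc.gen_mem hz
  have h1 : Eqv Z (F.d (M * (α * ζ))) (F.d M * (α * ζ) + (fun x => F.inv (M x)) * F.d (α * ζ)) :=
    d_mul_eqv sM (hα.sm.mul sζ)
  have h2 : Eqv Z (F.d (α * ζ)) (F.d α * ζ + (fun x => F.inv (α x)) * F.d ζ) :=
    d_mul_eqv hα.sm sζ
  have h4 : (fun x => F.inv (α x)) = - α := by
    funext x
    exact inv_of_hom_odd hα.hom odd_one x
  have h6 : Eqv Z (F.d (M * (α * ζ))) (M * α * F.d ζ - M * F.d α * ζ) := by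
    refine h1.trans ?_
    have h7 := (resZero_iff.1 cM).mul (Eqv.refl (α * ζ))
    rw [zero_mul] at h7
    rw [oM]
    rw [h4] at h2
    have h8 := h7.add ((Eqv.refl (X := Z) (-M)).mul h2)
    have e : (0 : V → Ext V) + -M * (F.d α * ζ + -α * F.d ζ) =
        M * α * F.d ζ - M * F.d α * ζ := by
      noncomm_ring
    rw [e] at h8
    exact h8
  have h9 : J N Z o (F.d (M * (α * ζ))) = 0 :=
    J_d hZ ho fun z hz => ((sM.mul (hα.sm.mul sζ)) z hz).of_le (by simp)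
  rw [RR.J_eqv hZ h6] at h9
  have h10 : RR.Hz Z (gen ψ) (M * F.d α * ζ) := (zM.mul (hz_d hc hZ.sub hα)).mul zζ
  have h11 : J N Z o (M * F.d α * ζ) = 0 :=
    RR.J_hz hZ hgm (fun z hz => hc.gen_ne hz) h10
  have h12 : J N Z o (fun z => (M * α * F.d ζ) z - (M * F.d α * ζ) z) =
      J N Z o (M * α * F.d ζ) - J N Z o (M * F.d α * ζ) :=
    J_sub hZ ho (RR.Sm.cont ((sM.mul hα.sm).mul sζ.d)) (RR.Sm.cont ((sM.mul hα.sm.d).mul sζ))
  have h13 : J N Z o (fun z => (M * α * F.d ζ) z - (M * F.d α * ζ) z) = 0 := h9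
  rw [h13, h11, sub_zero] at h12
  exact h12.symm

theorem inv_MM1 (hθ : Hom 1 θ) : (fun x => F.inv (MM1 k θ x)) = - MM1 k θ := by
  funext x
  exact inv_of_hom_odd (hom_MM1 hθ) ⟨k, by ring⟩ x

/-- exact forms on `B'` integrate to zero against `M θ'` -/
theorem J_exact (H : HD n k X φ g g' p) (hθ : Conn X φ θ) (hk : n + 1 < 2 * (k + 1))
    {N : ℕ} (hN : N = n + (2 * k + 1) + 1) {o : E × U k → Ext (E × U k)}
    (ho : Ori N (XX X k) o) {ξ : MM m' → Ext (MM m')} (hξ : Sm (Quo (XX X k) g') ξ) :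
    J N (XX X k) o (MM1 k θ * th k θ * pull (jj g') (F.d ξ)) = 0 := by
  subst hN
  have hX' := H.clo'
  have h1 := J_exact_abs H.cir' hX' ho (conn_th H.cir hθ) (sm_MM1 hθ.sm)
    (cl_MM1 (k := k) H.clo.sub hθ hk) (inv_MM1 hθ.hom) (hz_MM1 H.cir H.clo hθ)
    (hξ.pull H.smap_jj') (hz_jj H.emb' H.cir' ξ)
  rw [← h1]
  exact RR.J_eqv hX' ((Eqv.refl _).mul (d_pull_eqv H.smap_jj' hξ).symm)

/-- the functional -/
def IF (k : ℕ) (X : Set E) (θ : E → Ext E) (g' : E × U k → Fin m' → ℂ) (N : ℕ)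
    (o : E × U k → Ext (E × U k)) (a : MM m' → Ext (MM m')) : ℝ :=
  J N (XX X k) o (MM1 k θ * th k θ * pull (jj g') a)

theorem IF_add (H : HD n k X φ g g' p) (hθ : Sm X θ) {N : ℕ} {o : E × U k → Ext (E × U k)}
    (hcl : Clo N (XX X k)) (ho : Ori N (XX X k) o) {a b : MM m' → Ext (MM m')}
    (ha : Sm (Quo (XX X k) g') a) (hb : Sm (Quo (XX X k) g') b) :
    IF k X θ g' N o (a + b) = IF k X θ g' N o a + IF k X θ g' N o b := by
  have sMT : Sm (XX X k) (MM1 k θ * th k θ) := (sm_MM1 hθ).mul (sm_th hθ)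
  rw [IF, pull_add', mul_add]
  exact J_add hcl ho (RR.Sm.cont (sMT.mul (ha.pull H.smap_jj')))
    (RR.Sm.cont (sMT.mul (hb.pull H.smap_jj')))

theorem IF_smul {N : ℕ} {o : E × U k → Ext (E × U k)} (r : ℝ) (a : MM m' → Ext (MM m')) :
    IF k X θ g' N o (r • a) = r * IF k X θ g' N o a := by
  rw [IF, pull_smul', mul_smul_comm]
  exact J_smul r

theorem IF_coh (H : HD n k X φ g g' p) (hθ : Conn X φ θ) (hk : n + 1 < 2 * (k + 1))
    {N : ℕ} (hN : N = n + (2 * k + 1) + 1) {o : E × U k → Ext (E × U k)}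
    (ho : Ori N (XX X k) o) {a b : MM m' → Ext (MM m')}
    (ha : Sm (Quo (XX X k) g') a) (hb : Sm (Quo (XX X k) g') b)
    (hab : Coh (Quo (XX X k) g') a b) : IF k X θ g' N o a = IF k X θ g' N o b := by
  have hcl : Clo N (XX X k) := by rw [hN]; exact H.clo'
  obtain ⟨ξ, h1, h2⟩ := hab
  have h3 : Eqv (XX X k) (MM1 k θ * th k θ * pull (jj g') (a - b))
      (MM1 k θ * th k θ * pull (jj g') (F.d ξ)) := (Eqv.refl _).mul (h2.pull H.smap_jj')
  have h4 : IF k X θ g' N o (a - b) = 0 := by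
    rw [IF, RR.J_eqv hcl h3]
    exact J_exact H hθ hk hN ho h1
  have h5 := IF_add H hθ.sm hcl ho (ha.sub hb) hb
  rw [h4, sub_add_cancel, zero_add] at h5
  exact h5

theorem IF_pull (H : HD n k X φ g g' p) (hθs : Sm X θ) (hθ : Hom 1 θ) {oX : E → Ext E}
    (ho : Ori (2 * k + 1 + (n + 1)) (XX X k) (fun z => vv E k z * pull Prod.fst oX z))
    {C : ℝ} (hC : ∀ om : E → Ext E, ContinuousOn om X →
        J (2 * k + 1 + (n + 1)) (XX X k) (fun z => vv E k z * pull Prod.fst oX z)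
          (fun z => vv E k z * pull Prod.fst om z) = C * J (n + 1) X oX om)
    {b : MM m → Ext (MM m)} (hb : Sm (Quo X g) b) :
    IF k X θ g' (2 * k + 1 + (n + 1)) (fun z => vv E k z * pull Prod.fst oX z) (pull p b) =
      (1 / 2) * C * J (n + 1) X oX (θ * pull (jj g) b) := by
  have hcl : Clo (2 * k + 1 + (n + 1)) (XX X k) := (subm_fst H.clo).cloZ
  have h1 : Eqv (XX X k) (MM1 k θ * th k θ * pull (jj g') (pull p b))
      (MM1 k θ * th k θ * pull Prod.fst (pull (jj g) b)) := (Eqv.refl _).mul (H.pull_pull b)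
  rw [IF, RR.J_eqv hcl h1, J_MU H.clo hθs hθ ho hC (hb.pull H.smap_jj)]

/-- **THE FUNCTIONAL `I'`** on forms on `B'`: linear, only depends on classes, and
`I' (p^* b) = C ∫_B b` with `C > 0`. -/
theorem HD.exists_functional (H : HD n k X φ g g' p) (hc : IsPreconnected X) (hne : X.Nonempty)
    (hθ : Conn X φ θ) (hk : n + 1 < 2 * (k + 1)) {oB : MM m → Ext (MM m)}
    (hoB : Ori n (Quo X g) oB) :
    ∃ I' : (MM m' → Ext (MM m')) → ℝ,
      (∀ a b, Sm (Quo (XX X k) g') a → Sm (Quo (XX X k) g') b → I' (a + b) = I' a + I' b) ∧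
      (∀ (r : ℝ) a, I' (r • a) = r * I' a) ∧
      (∀ a b, Sm (Quo (XX X k) g') a → Sm (Quo (XX X k) g') b → Coh (Quo (XX X k) g') a b →
        I' a = I' b) ∧
      ∃ C : ℝ, 0 < C ∧ ∀ b, Sm (Quo X g) b → I' (pull p b) = C * J n (Quo X g) oB b := by
  have hev : ∀ x ∈ X, evA E 1 (θ x) (fun _ => gen φ x) = 1 := fun x hx => by
    have h1 : (fun _ : Fin 1 => gen φ x) = Matrix.vecCons (gen φ x) (fun i : Fin 0 => 0) := by
      funext i; rw [Fin.fin_one_eq_zero i]; rfl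
    rw [h1, evA_ii, hθ.unit x hx]
    have := evA_zero_algebraMap (E := E) 1 (fun i : Fin 0 => (0 : E))
    rwa [map_one] at this
  have hJf := fun (η : MM m → Ext (MM m)) (hη : ContinuousOn η (Quo X g)) =>
    H.emb.J_fib H.cir H.clo (RR.Sm.cont hθ.sm) (fun x _ => hθ.hom x) hev hoB hη
  have hoX := (hJf 0 continuousOn_const).1
  obtain ⟨ho, C, hC, hJ⟩ := J_prod k H.clo hc hne hoX
  have e : 2 * k + 1 + (n + 1) = n + (2 * k + 1) + 1 := by omega
  have hcl : Clo (2 * k + 1 + (n + 1)) (XX X k) := (subm_fst H.clo).cloZ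
  refine ⟨IF k X θ g' (2 * k + 1 + (n + 1)) (fun z => vv E k z *
    pull Prod.fst (fun x => θ x * pull (jj g) oB x) z),
    fun a b ha hb => IF_add H hθ.sm hcl ho ha hb, fun r a => IF_smul r a,
    fun a b ha hb hab => IF_coh H hθ hk e ho ha hb hab,
    (1 / 2) * C * (2 * Real.pi), by have := Real.pi_pos; positivity, fun b hb => ?_⟩
  rw [IF_pull H hθ.sm hθ.hom ho hJ hb]
  have h2 : J (n + 1) X (fun x => θ x * pull (jj g) oB x) (θ * pull (jj g) b) =
      2 * Real.pi * J n (Quo X g) oB b := (hJf b (RR.Sm.cont hb)).2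
  rw [h2]; ring

/-- **INJECTIVITY (H3)**: if `p^* om` is exact on `B'` then `∫_B om ∧ η = 0` for every closed
`η`. -/
theorem HD.J_eq_zero (H : HD n k X φ g g' p) (hc : IsPreconnected X) (hne : X.Nonempty)
    (hθ : Conn X φ θ) (hk : n + 1 < 2 * (k + 1)) {oB : MM m → Ext (MM m)}
    (hoB : Ori n (Quo X g) oB) {om η : MM m → Ext (MM m)} (hom : Sm (Quo X g) om)
    (hη : Sm (Quo X g) η) (hηc : Cl (Quo X g) η) (h0 : Coh (Quo (XX X k) g') (pull p om) 0) :
    J n (Quo X g) oB (om * η) = 0 := by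
  obtain ⟨I', h1, h2, h3, C, hC, h4⟩ := H.exists_functional hc hne hθ hk hoB
  have hs : Sm (Quo (XX X k) g') (pull p η) := hη.pull H.smap
  have hcl : Cl (Quo (XX X k) g') (pull p η) := Cl.pull H.smap hη hηc
  have h5 : Coh (Quo (XX X k) g') (pull p (om * η)) 0 := by
    rw [pull_mul']
    have := Coh.mul_right hs hcl h0
    rwa [zero_mul] at this
  have h6 := h3 _ _ ((hom.mul hη).pull H.smap) Sm.zero h5
  have h7 : I' 0 = 0 := by
    have := h2 0 0
    rwa [zero_smul, zero_mul] at this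
  rw [h4 _ (hom.mul hη), h7] at h6
  exact (mul_eq_zero.1 h6).resolve_left hC.ne'

end Crest.Agent.R208.HW
end
end

-- ▼ part R208/ZA3

/-!
R208, ZA3 (helper221): **`Vol8Stmt` from the bound over the manifold of geodesics**, and the
conversion lemmas for the inputs (S1') and (Q0).
-/

set_option autoImplicit false
set_option linter.unusedSectionVars false

open MeasureTheory Set Filter Topology Module
open scoped ContDiff
open Crest.GeometryTopology.Submanifold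
open Crest.Agent.R241.DDefs
open Crest.Agent.R241.D2
open Crest.Agent.R208.F Crest.Agent.R208.FI Crest.Agent.R208.T
open Crest.Agent.R208.CM
open Crest.Agent.R208.CW (SMap)
open Crest.Agent.R208.L (US)
open Crest.Agent.R208.LB (oUS al)

noncomputable section

namespace Crest.Agent.R208.ZA

/-- the contact volume in terms of the manifold of geodesics -/
theorem J31 {N : ℕ} {κ : ℝ} {S : Set (Euc N)} {G : Geo 16 N κ S} (h : GT.Bla G 8) {m : ℕ}
    {g : Euc N × Euc N → Fin m → ℂ} {Fc : MM m → Ext (MM m)} (hg : Emb (US G) (gf G) g)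
    (hc : Curv (US G) g (al (N := N)) Fc) :
    Ori 30 (Quo (US G) g) (Fc ^ 15) ∧
      (∀ η : MM m → Ext (MM m), ContinuousOn η (Quo (US G) g) →
        J 31 (US G) (oUS 16 N) (al * F.pull (jj g) η) =
          2 * Real.pi * J 30 (Quo (US G) g) (Fc ^ 15) η) ∧
      J 31 (US G) (oUS 16 N) (oUS 16 N) = 2 * Real.pi * J 30 (Quo (US G) g) (Fc ^ 15) (Fc ^ 15) :=
  J_US h.bl h.ty.per hg hc

/-- **`Vol8Stmt` from `|∫_B e¹⁵| ≤ 78 (2π)¹⁵`** -/
theorem vol8 (H : ∀ (N : ℕ) (κ : ℝ) (S : Set (Euc N)) (G : Geo 16 N κ S), GT.Bla G 8 →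
    ∃ (m : ℕ) (g : Euc N × Euc N → Fin m → ℂ) (Fc : MM m → Ext (MM m)),
      Emb (US G) (gf G) g ∧ Curv (US G) g (al (N := N)) Fc ∧
        |J 30 (Quo (US G) g) (Fc ^ 15) (Fc ^ 15)| ≤ 78 * (2 * Real.pi) ^ 15) : ZG.Vol8Stmt := by
  refine ZG.vol8_of fun N κ S G h => ?_
  obtain ⟨m, g, Fc, hg, hc, hb⟩ := H N κ S G h
  refine ⟨39, by norm_num, ?_⟩
  rw [(J31 h hg hc).2.2]
  have h1 := (le_abs_self _).trans hb
  have h2 : (0 : ℝ) ≤ 2 * Real.pi := by positivity
  calc 2 * Real.pi * J 30 (Quo (US G) g) (Fc ^ 15) (Fc ^ 15) ≤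
      2 * Real.pi * (78 * (2 * Real.pi) ^ 15) := mul_le_mul_of_nonneg_left h1 h2
    _ = (2 * Real.pi) ^ 16 * (2 * |(39 : ℝ)|) := by
        rw [abs_of_pos (by norm_num : (0 : ℝ) < 39)]; ring


section conv

variable {E : Type*} [NormedAddCommGroup E] [NormedSpace ℝ E] [FiniteDimensional ℝ E]
  {B : Set E} {oB : E → Ext E} {e x p3 : E → Ext E} {α β₁ t3 l ν τ : ℝ}

/-- `∫ e x² p₃ = t₃ α ∫ e⁷ x²` -/
theorem J_p3 (hB : Clo 30 B) (ho : Ori 30 B oB) (he : EC B e) (hx : EC B x) (hp3 : EC B p3)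
    (h3 : Coh B p3 (t3 • (α • e ^ 6 + β₁ • (x * e ^ 2))))
    (hx3 : J 30 B oB (e ^ 3 * x ^ 3) = 0) :
    J 30 B oB (e * x * x * p3) = t3 * α * J 30 B oB (e ^ 7 * x ^ 2) := by
  have q := rcl_p3 he hx hp3 h3
  rw [← ZG.intR_rcl hB ho (((he.mul hx).mul hx).mul hp3), rcl_mul ((he.mul hx).mul hx) hp3,
    rcl_mul (he.mul hx) hx, rcl_mul he hx, q,
    ← ZG.intR_rcl hB ho ((he.pow 7).mul (hx.pow 2)), rcl_mul (he.pow 7) (hx.pow 2), rcl_pow he,
    rcl_pow hx]
  rw [← ZG.intR_rcl hB ho ((he.pow 3).mul (hx.pow 3)), rcl_mul (he.pow 3) (hx.pow 3), rcl_pow he,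
    rcl_pow hx] at hx3
  generalize rcl he = E at *
  generalize rcl hx = X at *
  have e1 : E * X * X * (t3 • (α • E ^ 6 + β₁ • (E ^ 2 * X))) =
      (t3 * α) • (E ^ 7 * X ^ 2) + (t3 * β₁) • (E ^ 3 * X ^ 3) := by
    simp only [Algebra.smul_def, map_mul]
    ring
  rw [e1, map_add, map_smul, map_smul, hx3, smul_zero, add_zero, smul_eq_mul]

/-- **(S1') in the form of `ZA.bound`** -/
theorem hS_of (hB : Clo 30 B) (ho : Ori 30 B oB) (he : EC B e) (hx : EC B x) (hp3 : EC B p3)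
    (h3 : Coh B p3 (t3 • (α • e ^ 6 + β₁ • (x * e ^ 2))))
    (hx3 : J 30 B oB (e ^ 3 * x ^ 3) = 0) (hν : ν ≠ 0) (hnl : ν ^ 2 * l ^ 2 * t3 = 36)
    (hτ : τ * |ν| = 12 * (2 * Real.pi) ^ 4)
    (h : |8 * l ^ 2 * (2 * Real.pi * J 30 B oB (e * x * x * p3))| = τ ^ 4) :
    |2 * α * ν ^ 2 * J 30 B oB (e ^ 7 * x ^ 2)| = 144 * (2 * Real.pi) ^ 15 := by
  rw [J_p3 hB ho he hx hp3 h3 hx3] at h
  generalize J 30 B oB (e ^ 7 * x ^ 2) = i at *
  have hν' : 0 < |ν| := abs_pos.2 hν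
  have hP : 0 < 2 * Real.pi := by positivity
  have hτ' : τ = 12 * (2 * Real.pi) ^ 4 / |ν| := by
    rw [eq_div_iff hν'.ne']; exact hτ
  have h1 : 8 * l ^ 2 * (2 * Real.pi * (t3 * α * i)) =
      (144 * (2 * Real.pi) / (ν ^ 2) ^ 2) * (2 * α * ν ^ 2 * i) := by
    have hl : l ^ 2 * t3 = 36 / ν ^ 2 := by
      field_simp
      linarith
    have : 8 * l ^ 2 * (2 * Real.pi * (t3 * α * i)) =
      8 * (l ^ 2 * t3) * (2 * Real.pi * (α * i)) := by ring
    rw [this, hl]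
    field_simp
    ring
  rw [h1, abs_mul, abs_of_pos (by positivity), hτ', div_pow, ← sq_abs ν] at h
  rw [← sq_abs ν]
  generalize |2 * α * |ν| ^ 2 * i| = w at *
  generalize |ν| = y at *
  field_simp at h
  have h2 : 2 * Real.pi * (144 * (2 * Real.pi) ^ 15 - w) = 0 := by
    nlinarith [h]
  have h3 : 144 * (2 * Real.pi) ^ 15 - w = 0 := (mul_eq_zero.1 h2).resolve_left hP.ne'
  linarith

/-- **(Q0) in the form of `ZA.bound`** -/
theorem hr_of {i : ℝ} (hτ : τ * |ν| = 12 * (2 * Real.pi) ^ 4)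
    (h : ∃ n : ℤ, 4 * i = (2 * Real.pi) ^ 7 * τ ^ 2 * n) :
    ∃ n : ℤ, ν ^ 2 * i = 36 * (2 * Real.pi) ^ 15 * n := by
  obtain ⟨n, hn⟩ := h
  refine ⟨n, ?_⟩
  have h1 : i = (2 * Real.pi) ^ 7 * τ ^ 2 * n / 4 := by linarith
  have h2 : ν ^ 2 * τ ^ 2 = (12 * (2 * Real.pi) ^ 4) ^ 2 := by
    rw [← hτ, mul_pow, sq_abs]; ring
  rw [h1]
  have h3 : ν ^ 2 * ((2 * Real.pi) ^ 7 * τ ^ 2 * n / 4) =
      (ν ^ 2 * τ ^ 2) * ((2 * Real.pi) ^ 7 * n / 4) := by ring
  rw [h3, h2]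
  ring


end conv

end Crest.Agent.R208.ZA
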